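import Crest.Agent.H3.Snaky.Cert
import Crest.Agent.H3.Snaky.CR.CR0
import Crest.Agent.H3.Snaky.CR.CR1
import Crest.Agent.H3.Snaky.CR.CR2
import Crest.Agent.H3.Snaky.CR.CR3
import Crest.Agent.H3.Snaky.CR.CR4
import Crest.Agent.H3.Snaky.CR.CR5
import Crest.Agent.H3.Snaky.CR.CR6
import Crest.Agent.H3.Snaky.CR.CR9
import Crest.Agent.H3.Snaky.CR.CR12
import Crest.Agent.H3.Snaky.CR.CR13
import Crest.Agent.H3.Snaky.CR.CR15
import Crest.Agent.H3.Snaky.CR.CR16
import Crest.Agent.H3.Snaky.CR.CR17
import Crest.Agent.H3.Snaky.CR.CR18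
import Crest.Agent.H3.Snaky.CR.CR19
import Crest.Agent.H3.Snaky.CR.CR20
import Crest.Agent.H3.Snaky.CR.CR21
import Crest.Agent.H3.Snaky.CR.CR22
import Crest.Agent.H3.Snaky.CR.CR23
import Crest.Agent.H3.Snaky.CR.CR24
import Crest.Agent.H3.Snaky.CR.CR25
import Crest.Agent.H3.Snaky.CR.CR26
import Crest.Agent.H3.Snaky.CR.CR27
import Crest.Agent.H3.Snaky.CR.CR28
import Crest.Agent.H3.Snaky.CR.CR29
import Crest.Agent.H3.Snaky.CR.CR33
import Crest.Agent.H3.Snaky.CR.CR34
import Crest.Agent.H3.Snaky.CR.CR35
import Crest.Agent.H3.Snaky.CR.CR36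
import Crest.Agent.H3.Snaky.CR.CR37
import Crest.Agent.H3.Snaky.CR.CR38
import Crest.Agent.H3.Snaky.CR.CR39
import Crest.Agent.H3.Snaky.CR.CR40
import Crest.Agent.H3.Snaky.CR.CR41
import Crest.Agent.H3.Snaky.CR.CR42
import Crest.Agent.H3.Snaky.CR.CR43
import Crest.Agent.H3.Snaky.CR.CR45
import Crest.Agent.H3.Snaky.CR.CR46
import Crest.Agent.H3.Snaky.CR.CR48
import Crest.Agent.H3.Snaky.CR.CR49
import Crest.Agent.H3.Snaky.CR.CR50
import Crest.Agent.H3.Snaky.CR.CR51
import Crest.Agent.H3.Snaky.CR.CR52
import Crest.Agent.H3.Snaky.CR.CR53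

set_option autoImplicit false
set_option maxRecDepth 100000

namespace Crest.Agent.H3.Snaky.CR

open T

def q107229 : Q := Q.p (nat_lit 0x200000f000000000000000000000000000000000000000000000000000000000) (nat_lit 0xe00070800078000040000100000000000000000000000000000000000000000) (nat_lit 7)
theorem c107229 : QOK q107229 := cut [q9512] ⟨c9512, trivial⟩ (nd (nat_lit 209) (nat_lit 0) (cs (lf (nat_lit 17) (nat_lit 206)) (nd (nat_lit 208) (nat_lit 0) (cs (lf (nat_lit 12) (nat_lit 205)) (nd (nat_lit 164) (nat_lit 0) (cs (lf (nat_lit 25) (nat_lit 164)) (rf (nat_lit 0)))))))) q107229 (by decide +kernel)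
def q107303 : Q := Q.p (nat_lit 0x200000e000008000000000000000000000000000000000000000000000000000) (nat_lit 0x400001c0000700001f000000000360003f0000fc0000700001400000000000000000000000000000) (nat_lit 11)
theorem c107303 : QOK q107303 := cut [q96885, q96899, q97065, q107299, q97067, q97072, q97076, q97132] ⟨c96885, c96899, c97065, c107299, c97067, c97072, c97076, c97132, trivial⟩ (nd (nat_lit 185) (nat_lit 0) (cs (rf (nat_lit 0)) (cs (rf (nat_lit 1)) (cs (rf (nat_lit 2)) (cs (rf (nat_lit 3)) (nd (nat_lit 251) (nat_lit 0) (cs (rf (nat_lit 4)) (cs (rf (nat_lit 5)) (cs (rf (nat_lit 6)) (nd (nat_lit 252) (nat_lit 0) (cs (lf (nat_lit 29) (nat_lit 185)) (nd (nat_lit 162) (nat_lit 0) (cs (lf (nat_lit 46) (nat_lit 162)) (rf (nat_lit 7))))))))))))))) q107303 (by decide +kernel)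
def q107324 : Q := Q.p (nat_lit 0x2000008000020000000000000000000000000000000000000000000000000000) (nat_lit 0x100001c000050000100000400001c0000700001400000000000000000000000000000000000) (nat_lit 7)
theorem c107324 : QOK q107324 := cut [q80750, q92706, q100877, q80732] ⟨c80750, c92706, c100877, c80732, trivial⟩ (nd (nat_lit 187) (nat_lit 0) (cs (rf (nat_lit 0)) (cs (rf (nat_lit 1)) (cs (rf (nat_lit 2)) (nd (nat_lit 254) (nat_lit 0) (cs (lf (nat_lit 29) (nat_lit 187)) (rf (nat_lit 3)))))))) q107324 (by decide +kernel)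
def q107335 : Q := Q.p (nat_lit 0x800002000008000020000000000000000000000000000000000000000000000000000) (nat_lit 0x3de000770001de00000000050000140000000000000000000000000000000000000000000000) (nat_lit 12)
theorem c107335 : QOK q107335 := cut [q97408, q107326, q101209] ⟨c97408, c107326, c101209, trivial⟩ (nd (nat_lit 274) (nat_lit 0) (cs (lf (nat_lit 41) (nat_lit 208)) (nd (nat_lit 273) (nat_lit 0) (cs (rf (nat_lit 0)) (cs (nd (nat_lit 186) (nat_lit 0) (cs (lf (nat_lit 46) (nat_lit 186)) (nd (nat_lit 188) (nat_lit 0) (cs (lf (nat_lit 34) (nat_lit 187)) (nd (nat_lit 276) (nat_lit 0) (cs (lf (nat_lit 29) (nat_lit 209)) (nd (nat_lit 250) (nat_lit 0) (cs (lf (nat_lit 22) (nat_lit 250)) (nd (nat_lit 294) (nat_lit 0) (cs (lf (nat_lit 10) (nat_lit 272)) (rf (nat_lit 1)))))))))))) (nd (nat_lit 186) (nat_lit 0) (cs (lf (nat_lit 46) (nat_lit 186)) (nd (nat_lit 188) (nat_lit 0) (cs (lf (nat_lit 34) (nat_lit 187)) (rf (nat_lit 2))))))))))) q107335 (by decide +kernel)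
def q107344 : Q := Q.p (nat_lit 0x2000008000020000000000000000000000000000000000000000000000000000) (nat_lit 0x100000700001c000010000100000500001c0000100000000000000000000000000000000000000000) (nat_lit 5)
theorem c107344 : QOK q107344 := cut [q96655, q100882] ⟨c96655, c100882, trivial⟩ (nd (nat_lit 275) (nat_lit 0) (cs (rf (nat_lit 0)) (rf (nat_lit 1)))) q107344 (by decide +kernel)
def q107345 : Q := Q.p (nat_lit 0x2000008000020000000000000000000000000000000000000000000000000000) (nat_lit 0x100000700001c00005000010000040000180000400000000000000000000000000000000000000000) (nat_lit 5)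
theorem c107345 : QOK q107345 := cut [q1593, q96655, q98315] ⟨c1593, c96655, c98315, trivial⟩ (nd (nat_lit 275) (nat_lit 0) (cs (rf (nat_lit 0)) (cs (rf (nat_lit 1)) (rf (nat_lit 2))))) q107345 (by decide +kernel)
def q107347 : Q := Q.p (nat_lit 0x2000008000020000000000000000000000000000000000000000000000000000) (nat_lit 0x18000040000100000180007c0000700001400000000000000000000000000000000000) (nat_lit 7)
theorem c107347 : QOK q107347 := cut [q80750, q92706, q92791, q84607] ⟨c80750, c92706, c92791, c84607, trivial⟩ (nd (nat_lit 187) (nat_lit 0) (cs (rf (nat_lit 0)) (cs (rf (nat_lit 1)) (cs (rf (nat_lit 2)) (nd (nat_lit 254) (nat_lit 0) (cs (lf (nat_lit 29) (nat_lit 187)) (rf (nat_lit 3)))))))) q107347 (by decide +kernel)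
def q107367 : Q := Q.p (nat_lit 0x800002000008000000000000000000000000000000000000000000000000000000000) (nat_lit 0x500001c0000700001400000000004000030000040000000000000000000000000000000000000000000000) (nat_lit 5)
theorem c107367 : QOK q107367 := cut [q79736, q81706, q84365] ⟨c79736, c81706, c84365, trivial⟩ (nd (nat_lit 297) (nat_lit 0) (cs (rf (nat_lit 0)) (cs (rf (nat_lit 1)) (rf (nat_lit 2))))) q107367 (by decide +kernel)
def q107383 : Q := Q.p (nat_lit 0x800002000008000000000000000000000000000000000000000000000000000000000) (nat_lit 0x500001c0000700001400000000010000060000100000000000000000000000000000000000000000000000) (nat_lit 5)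
theorem c107383 : QOK q107383 := cut [q22016, q32034, q84365] ⟨c22016, c32034, c84365, trivial⟩ (nd (nat_lit 297) (nat_lit 0) (cs (rf (nat_lit 0)) (cs (rf (nat_lit 1)) (rf (nat_lit 2))))) q107383 (by decide +kernel)
def q107392 : Q := Q.p (nat_lit 0x800002000008000000000000000000000000000000000000000000000000000000000) (nat_lit 0x500001c0000700000000000000014000070000140000000000000000000000000000000000000000000000) (nat_lit 5)
theorem c107392 : QOK q107392 := cut [q84365, q89353] ⟨c84365, c89353, trivial⟩ (nd (nat_lit 297) (nat_lit 0) (cs (rf (nat_lit 0)) (rf (nat_lit 1)))) q107392 (by decide +kernel)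
def q107404 : Q := Q.p (nat_lit 0x2000008000020000000000000000000000000000000000000000000000000000) (nat_lit 0x6000018000040000060001d00001c0000500000000000000000000000000000000000000000) (nat_lit 6)
theorem c107404 : QOK q107404 := cut [q98317, q98359, q99649] ⟨c98317, c98359, c99649, trivial⟩ (nd (nat_lit 275) (nat_lit 0) (cs (rf (nat_lit 0)) (cs (rf (nat_lit 1)) (rf (nat_lit 2))))) q107404 (by decide +kernel)
def q107427 : Q := Q.p (nat_lit 0x1800006000010000000000000000000000000000000000000000000000000000000000) (nat_lit 0x80000e0000010000000000c0000300000000000000000000000000000000000000000000000) (nat_lit 5)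
theorem c107427 : QOK q107427 := cut [q104068] ⟨c104068, trivial⟩ (nd (nat_lit 210) (nat_lit 0) (cs (lf (nat_lit 36) (nat_lit 187)) (rf (nat_lit 0)))) q107427 (by decide +kernel)
def q107431 : Q := Q.p (nat_lit 0xc00002000018000000000000000000000000000000000000000000000000000000000) (nat_lit 0x10000000000000002000007c000140000000000000000000000000000000000000000000000) (nat_lit 5)
theorem c107431 : QOK q107431 := cut [q97348] ⟨c97348, trivial⟩ (nd (nat_lit 209) (nat_lit 0) (cs (lf (nat_lit 41) (nat_lit 208)) (rf (nat_lit 0)))) q107431 (by decide +kernel)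
def q107436 : Q := Q.p (nat_lit 0x800002000018000000000000000000000000000000000000000000000000000000000) (nat_lit 0x500003c0001f0000170001d0000200000a0000000000000000000000000000000000000000000000000000) (nat_lit 8)
theorem c107436 : QOK q107436 := cut [q82063, q84365, q97364, q79764] ⟨c82063, c84365, c97364, c79764, trivial⟩ (nd (nat_lit 297) (nat_lit 0) (cs (rf (nat_lit 0)) (cs (rf (nat_lit 1)) (cs (rf (nat_lit 2)) (nd (nat_lit 298) (nat_lit 0) (cs (lf (nat_lit 29) (nat_lit 231)) (nd (nat_lit 254) (nat_lit 0) (cs (lf (nat_lit 30) (nat_lit 231)) (nd (nat_lit 276) (nat_lit 0) (cs (lf (nat_lit 24) (nat_lit 209)) (rf (nat_lit 3)))))))))))) q107436 (by decide +kernel)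
def q107454 : Q := Q.p (nat_lit 0x2000018000000000000000000000000000000000000000000000000000000000) (nat_lit 0x180000600001d8003e70003fc000d00001400004000000000000000000000000000000000000) (nat_lit 10)
theorem c107454 : QOK q107454 := cut [q97498, q107421, q107422, q22241, q97451, q102583, q104364, q84482, q107446, q107453] ⟨c97498, c107421, c107422, c22241, c97451, c102583, c104364, c84482, c107446, c107453, trivial⟩ (nd (nat_lit 233) (nat_lit 0) (cs (rf (nat_lit 0)) (cs (rf (nat_lit 1)) (cs (rf (nat_lit 2)) (cs (nd (nat_lit 230) (nat_lit 0) (cs (rf (nat_lit 3)) (cs (rf (nat_lit 4)) (cs (rf (nat_lit 5)) (nd (nat_lit 255) (nat_lit 0) (cs (lf (nat_lit 5) (nat_lit 230)) (nd (nat_lit 277) (nat_lit 0) (cs (nd (nat_lit 207) (nat_lit 0) (cs (lf (nat_lit 22) (nat_lit 207)) (rf (nat_lit 6)))) (cs (nd (nat_lit 211) (nat_lit 0) (cs (lf (nat_lit 17) (nat_lit 208)) (rf (nat_lit 7)))) (nd (nat_lit 211) (nat_lit 0) (cs (lf (nat_lit 17) (nat_lit 208)) (nd (nat_lit 278) (nat_lit 0) (cs (lf (nat_lit 29) (nat_lit 211)) (nd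 (nat_lit 252) (nat_lit 0) (cs (lf (nat_lit 11) (nat_lit 229)) (lf (nat_lit 2) (nat_lit 252))))))))))))))))) (cs (rf (nat_lit 8)) (rf (nat_lit 9)))))))) q107454 (by decide +kernel)
def q107455 : Q := Q.p (nat_lit 0x200003c000010000000000000000000000000000000000000000000000000000) (nat_lit 0x20000180000020001c0000140000500000000000000000000000000000000000000000) (nat_lit 6)
theorem c107455 : QOK q107455 := cut [q22241] ⟨c22241, trivial⟩ (nd (nat_lit 164) (nat_lit 0) (cs (lf (nat_lit 25) (nat_lit 164)) (rf (nat_lit 0)))) q107455 (by decide +kernel)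
def q107517 : Q := Q.p (nat_lit 0x2000018000000000000000000000000000000000000000000000000000000000) (nat_lit 0x60000380001d0001e70003fc000340000500000000000000000000000000000000000000000) (nat_lit 12)
theorem c107517 : QOK q107517 := cut [q97498, q22241, q97451, q102583, q57695, q107421, q107422, q3984] ⟨c97498, c22241, c97451, c102583, c57695, c107421, c107422, c3984, trivial⟩ (nd (nat_lit 233) (nat_lit 0) (cs (rf (nat_lit 0)) (cs (nd (nat_lit 230) (nat_lit 0) (cs (rf (nat_lit 1)) (cs (rf (nat_lit 2)) (cs (rf (nat_lit 3)) (nd (nat_lit 255) (nat_lit 0) (cs (lf (nat_lit 5) (nat_lit 230)) (nd (nat_lit 211) (nat_lit 0) (cs (lf (nat_lit 17) (nat_lit 208)) (nd (nat_lit 208) (nat_lit 0) (cs (lf (nat_lit 23) (nat_lit 207)) (nd (nat_lit 164) (nat_lit 0) (cs (lf (nat_lit 25) (nat_lit 164)) (nd (nat_lit 275) (nat_lit 0) (cs (lf (nat_lit 42) (nat_lit 208)) (nd (nat_lit 209) (nat_lit 0) (cs (lf (nat_lit 18) (nat_lit 208)) (nd (nat_lit 276) (nat_lit 0) (cs (lf (nat_lit 29) (nat_lit 209)) (nd (nat_lit 189) (nat_lit 0)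 (cs (rf (nat_lit 4)) (lf (nat_lit 40) (nat_lit 188)))))))))))))))))))))) (cs (rf (nat_lit 5)) (cs (rf (nat_lit 6)) (nd (nat_lit 230) (nat_lit 0) (cs (rf (nat_lit 1)) (cs (rf (nat_lit 3)) (nd (nat_lit 208) (nat_lit 0) (cs (lf (nat_lit 23) (nat_lit 207)) (nd (nat_lit 255) (nat_lit 0) (cs (rf (nat_lit 7)) (lf (nat_lit 5) (nat_lit 230)))))))))))))) q107517 (by decide +kernel)
def q107556 : Q := Q.p (nat_lit 0xe000000000000000000000000000000000000000000000000000000000000000) (nat_lit 0x40000f7000118000f0000080000200000000000000000000000000000000000000000000000) (nat_lit 6)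
theorem c107556 : QOK q107556 := cut [q79217, q80609, q96472, q107554] ⟨c79217, c80609, c96472, c107554, trivial⟩ (nd (nat_lit 252) (nat_lit 0) (cs (rf (nat_lit 0)) (cs (rf (nat_lit 1)) (cs (rf (nat_lit 2)) (nd (nat_lit 273) (nat_lit 0) (cs (lf (nat_lit 10) (nat_lit 251)) (rf (nat_lit 3)))))))) q107556 (by decide +kernel)
def q107578 : Q := Q.p (nat_lit 0x400007000000000000000000000000000000000000000000000000000000000000000) (nat_lit 0x400007200008800060000080000200000000000000000000000000000000000000000000000) (nat_lit 6)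
theorem c107578 : QOK q107578 := cut [q96472] ⟨c96472, trivial⟩ (nd (nat_lit 255) (nat_lit 0) (cs (lf (nat_lit 11) (nat_lit 251)) (rf (nat_lit 0)))) q107578 (by decide +kernel)
def q107716 : Q := Q.p (nat_lit 0x600000e000020000000000000000000000000000000000000000000000000000) (nat_lit 0x480003300001c000f000001c000040000100000000000000000000000000000000000000000) (nat_lit 8)
theorem c107716 : QOK q107716 := cut [q80199, q80210, q107709] ⟨c80199, c80210, c107709, trivial⟩ (nd (nat_lit 232) (nat_lit 0) (cs (rf (nat_lit 0)) (cs (rf (nat_lit 1)) (cs (nd (nat_lit 251) (nat_lit 0) (cs (lf (nat_lit 11) (nat_lit 228)) (nd (nat_lit 206) (nat_lit 0) (cs (lf (nat_lit 22) (nat_lit 206)) (nd (nat_lit 276) (nat_lit 0) (cs (lf (nat_lit 42) (nat_lit 209)) (rf (nat_lit 2)))))))) (nd (nat_lit 276) (nat_lit 0) (cs (lf (nat_lit 42) (nat_lit 209)) (nd (nat_lit 251) (nat_lit 0) (cs (lf (nat_lit 11) (nat_lit 228)) (nd (nat_lit 252) (nat_lit 0) (cs (lf (nat_lit 6) (nat_lit 229)) (lf (nat_lit 5) (nat_lit 251)))))))))))) q107716 (by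 decide +kernel)
def q107743 : Q := Q.p (nat_lit 0x3800008000000000000000000000000000000000000000000000000000000000) (nat_lit 0x200001e0001f80003f80000600007c0002e000090000000000000000000000000000000000000000000000) (nat_lit 11)
theorem c107743 : QOK q107743 := cut [q80881, q82280, q5304, q90684, q25570, q86874, q40524, q81483, q88801, q92131, q41426] ⟨c80881, c82280, c5304, c90684, c25570, c86874, c40524, c81483, c88801, c92131, c41426, trivial⟩ (nd (nat_lit 274) (nat_lit 0) (cs (rf (nat_lit 0)) (cs (rf (nat_lit 1)) (cs (nd (nat_lit 275) (nat_lit 0) (cs (rf (nat_lit 2)) (cs (rf (nat_lit 3)) (nd (nat_lit 273) (nat_lit 0) (cs (rf (nat_lit 4)) (nd (nat_lit 272) (nat_lit 0) (cs (lf (nat_lit 12) (nat_lit 249)) (nd (nat_lit 187) (nat_lit 0) (cs (lf (nat_lit 37) (nat_lit 186)) (rf (nat_lit 5))))))))))) (nd (nat_lit 250) (nat_lit 0) (cs (rf (nat_lit 6)) (cs (rf (nat_lit 7)) (cs (rf (nat_lit 8)) (nd (nat_lit 296) (nat_lit 0) (cs (lf (nat_lit 30) (nat_lit 230)) (nd (nat_lit 297) (nat_lit 0) (cs (nd (nat_lit 271) (nat_lit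 0) (cs (lf (nat_lit 10) (nat_lit 249)) (nd (nat_lit 230) (nat_lit 0) (cs (lf (nat_lit 29) (nat_lit 230)) (nd (nat_lit 295) (nat_lit 0) (cs (lf (nat_lit 41) (nat_lit 229)) (nd (nat_lit 229) (nat_lit 0) (cs (lf (nat_lit 47) (nat_lit 207)) (nd (nat_lit 228) (nat_lit 0) (cs (lf (nat_lit 23) (nat_lit 227)) (rf (nat_lit 9)))))))))))) (cs (nd (nat_lit 271) (nat_lit 0) (cs (lf (nat_lit 10) (nat_lit 249)) (nd (nat_lit 227) (nat_lit 0) (cs (lf (nat_lit 22) (nat_lit 227)) (nd (nat_lit 275) (nat_lit 0) (cs (lf (nat_lit 5) (nat_lit 250)) (rf (nat_lit 10)))))))) (nd (nat_lit 275) (nat_lit 0) (cs (lf (nat_lit 5) (nat_lit 250)) (nd (nat_lit 319) (nat_lit 0) (cs (lf (nat_lit 42) (nat_lit 252)) (lf (nat_lit 24) (nat_lit 230))))))))))))))))))) q107743 (by decide +kernel)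
def q107759 : Q := Q.p (nat_lit 0x7000008000000000000000000000000000000000000000000000000000000000) (nat_lit 0x40000f0000188000e4000080000200000000000000000000000000000000000000000000000) (nat_lit 6)
theorem c107759 : QOK q107759 := cut [q96443, q96472, q105857] ⟨c96443, c96472, c105857, trivial⟩ (nd (nat_lit 255) (nat_lit 0) (cs (rf (nat_lit 0)) (cs (rf (nat_lit 1)) (rf (nat_lit 2))))) q107759 (by decide +kernel)
def q107781 : Q := Q.p (nat_lit 0x3000008000020000000000000000000000000000000000000000000000000000) (nat_lit 0x60000180000700007c00004c00014000040000100000000000000000000000000000000000000000000000) (nat_lit 6)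
theorem c107781 : QOK q107781 := cut [q96655, q107524, q107748] ⟨c96655, c107524, c107748, trivial⟩ (nd (nat_lit 275) (nat_lit 0) (cs (rf (nat_lit 0)) (cs (rf (nat_lit 1)) (rf (nat_lit 2))))) q107781 (by decide +kernel)
def q107793 : Q := Q.p (nat_lit 0x680000c000000000000000000000000000000000000000000000000000000000) (nat_lit 0x14000f300038c000000000000000000000000000000000000000000000000000) (nat_lit 7)
theorem c107793 : QOK q107793 := cut [q97186] ⟨c97186, trivial⟩ (nd (nat_lit 229) (nat_lit 0) (cs (lf (nat_lit 0) (nat_lit 228)) (nd (nat_lit 232) (nat_lit 0) (cs (lf (nat_lit 11) (nat_lit 228)) (nd (nat_lit 206) (nat_lit 0) (cs (lf (nat_lit 22) (nat_lit 206)) (rf (nat_lit 0)))))))) q107793 (by decide +kernel)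
def q107848 : Q := Q.p (nat_lit 0x200000c0000600000e000000000000000000000000000000000000000000000000000000000) (nat_lit 0x600001e0000380001000000000008000000000000000000000000000000000000000000000000000) (nat_lit 6)
theorem c107848 : QOK q107848 := cut [q107846] ⟨c107846, trivial⟩ (nd (nat_lit 272) (nat_lit 0) (cs (lf (nat_lit 13) (nat_lit 250)) (nd (nat_lit 296) (nat_lit 0) (cs (lf (nat_lit 41) (nat_lit 230)) (rf (nat_lit 0)))))) q107848 (by decide +kernel)
def q107853 : Q := Q.p (nat_lit 0x80000f00000c000000000000000000000000000000000000000000000000000000000) (nat_lit 0x60000180007600000000060000000000000000000000000000000000000000000000000000000000) (nat_lit 6)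
theorem c107853 : QOK q107853 := cut [q97751] ⟨c97751, trivial⟩ (nd (nat_lit 277) (nat_lit 0) (cs (lf (nat_lit 5) (nat_lit 252)) (nd (nat_lit 274) (nat_lit 0) (cs (lf (nat_lit 11) (nat_lit 251)) (rf (nat_lit 0)))))) q107853 (by decide +kernel)
def q107885 : Q := Q.p (nat_lit 0x80000200000c000000000000000000000000000000000000000000000000000000000) (nat_lit 0x140000700001d0000700001fe0007f0000500000400000000000000000000000000000000000) (nat_lit 14)
theorem c107885 : QOK q107885 := cut [q81901, q98027, q98317, q98359] ⟨c81901, c98027, c98317, c98359, trivial⟩ (nd (nat_lit 209) (nat_lit 0) (cs (rf (nat_lit 0)) (cs (rf (nat_lit 1)) (cs (rf (nat_lit 2)) (rf (nat_lit 3)))))) q107885 (by decide +kernel)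
def q107893 : Q := Q.p (nat_lit 0x200000c000000000000000000000000000000000000000000000000000000000) (nat_lit 0xa0000df000738001df000140000500000000000000000000000000000000000000000) (nat_lit 9)
theorem c107893 : QOK q107893 := cut [q96758, q96769, q96836, q107251, q80199, q98323] ⟨c96758, c96769, c96836, c107251, c80199, c98323, trivial⟩ (nd (nat_lit 229) (nat_lit 0) (cs (rf (nat_lit 0)) (cs (rf (nat_lit 1)) (cs (rf (nat_lit 2)) (cs (rf (nat_lit 3)) (nd (nat_lit 232) (nat_lit 0) (cs (rf (nat_lit 4)) (cs (rf (nat_lit 5)) (nd (nat_lit 206) (nat_lit 0) (cs (lf (nat_lit 22) (nat_lit 206)) (nd (nat_lit 210) (nat_lit 0) (cs (lf (nat_lit 17) (nat_lit 207)) (nd (nat_lit 188) (nat_lit 0) (cs (lf (nat_lit 36) (nat_lit 165)) (nd (nat_lit 254) (nat_lit 0) (cs (lf (nat_lit 41) (nat_lit 187)) (lf (nat_lit 5) (nat_lit 229)))))))))))))))))) q107893 (by decide +kernel)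
def q107960 : Q := Q.p (nat_lit 0x1c000030000000000000000000000000000000000000000000000000000) (nat_lit 0x40000620001c0000600000800002000000000000000000000000000000000000) (nat_lit 6)
theorem c107960 : QOK q107960 := cut [q107959] ⟨c107959, trivial⟩ (nd (nat_lit 233) (nat_lit 0) (cs (lf (nat_lit 18) (nat_lit 208)) (rf (nat_lit 0)))) q107960 (by decide +kernel)
def q108046 : Q := Q.p (nat_lit 0x800002000008000020000000000000000000000000000000000000000000000000000) (nat_lit 0x8000030000170001d0000100000500000c0000200000000000000000000000000000000000000000) (nat_lit 9)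
theorem c108046 : QOK q108046 := cut [q96734] ⟨c96734, trivial⟩ (nd (nat_lit 274) (nat_lit 0) (cs (lf (nat_lit 41) (nat_lit 208)) (nd (nat_lit 187) (nat_lit 0) (cs (lf (nat_lit 40) (nat_lit 186)) (nd (nat_lit 186) (nat_lit 0) (cs (lf (nat_lit 46) (nat_lit 186)) (rf (nat_lit 0)))))))) q108046 (by decide +kernel)
def q108128 : Q := Q.p (nat_lit 0x80000200000c000000000000000000000000000000000000000000000000000000000) (nat_lit 0x20000000000df000f38003cf000100000400000000000000000000000000000000000000000) (nat_lit 8)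
theorem c108128 : QOK q108128 := cut [q87016, q97958, q96769, q96836, q97207, q107014] ⟨c87016, c97958, c96769, c96836, c97207, c107014, trivial⟩ (nd (nat_lit 232) (nat_lit 0) (cs (rf (nat_lit 0)) (cs (rf (nat_lit 1)) (nd (nat_lit 229) (nat_lit 0) (cs (rf (nat_lit 2)) (cs (rf (nat_lit 3)) (cs (rf (nat_lit 4)) (nd (nat_lit 254) (nat_lit 0) (cs (lf (nat_lit 5) (nat_lit 229)) (rf (nat_lit 5))))))))))) q108128 (by decide +kernel)
def q108131 : Q := Q.p (nat_lit 0xc00002000008000000000000000000000000000000000000000000000000000000000) (nat_lit 0x1000010000040000100000600001c0000700000400000000000000000000000000000000000) (nat_lit 7)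
theorem c108131 : QOK q108131 := cut [q107371] ⟨c107371, trivial⟩ (nd (nat_lit 209) (nat_lit 0) (cs (lf (nat_lit 41) (nat_lit 208)) (rf (nat_lit 0)))) q108131 (by decide +kernel)
def q108184 : Q := Q.p (nat_lit 0xc00002000008000000000000000000000000000000000000000000000000000000000) (nat_lit 0x1000000000010000000000200001c0000700001400000000000000000000000000000000000) (nat_lit 6)
theorem c108184 : QOK q108184 := cut [q97696] ⟨c97696, trivial⟩ (nd (nat_lit 209) (nat_lit 0) (cs (lf (nat_lit 41) (nat_lit 208)) (rf (nat_lit 0)))) q108184 (by decide +kernel)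
def q108189 : Q := Q.p (nat_lit 0x1e00002000000000000000000000000000000000000000000000000000000000000000) (nat_lit 0x39c000e00000c000000000000000000000000000000000000000000000000000000000000000) (nat_lit 6)
theorem c108189 : QOK q108189 := cut [q108188] ⟨c108188, trivial⟩ (nd (nat_lit 254) (nat_lit 0) (cs (lf (nat_lit 17) (nat_lit 251)) (rf (nat_lit 0)))) q108189 (by decide +kernel)
def q108313 : Q := Q.p (nat_lit 0x200000800002000000000000000000000000000000000000000000000000000000000000000) (nat_lit 0x18000040000100000180007c000070000140000000000000000000000000000000000000000000000) (nat_lit 6)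
theorem c108313 : QOK q108313 := cut [q32034, q88936, q108258] ⟨c32034, c88936, c108258, trivial⟩ (nd (nat_lit 231) (nat_lit 0) (cs (rf (nat_lit 0)) (cs (rf (nat_lit 1)) (rf (nat_lit 2))))) q108313 (by decide +kernel)
def q108316 : Q := Q.p (nat_lit 0x200000800002000000000000000000000000000000000000000000000000000000000000000) (nat_lit 0x400001c000050000140000400001c000070000140000000000000000000000000000000000000000000000) (nat_lit 7)
theorem c108316 : QOK q108316 := cut [q32034, q79736, q98797] ⟨c32034, c79736, c98797, trivial⟩ (nd (nat_lit 231) (nat_lit 0) (cs (rf (nat_lit 0)) (cs (rf (nat_lit 1)) (nd (nat_lit 208) (nat_lit 0) (cs (lf (nat_lit 46) (nat_lit 208)) (nd (nat_lit 296) (nat_lit 0) (cs (lf (nat_lit 41) (nat_lit 230)) (rf (nat_lit 2))))))))) q108316 (by decide +kernel)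
def q108341 : Q := Q.p (nat_lit 0x200000800002000000000000000000000000000000000000000000000000000000000000000) (nat_lit 0xc000010000040000180007c000070000140000000000000000000000000000000000000000000000) (nat_lit 6)
theorem c108341 : QOK q108341 := cut [q79736, q81211, q108258] ⟨c79736, c81211, c108258, trivial⟩ (nd (nat_lit 231) (nat_lit 0) (cs (rf (nat_lit 0)) (cs (rf (nat_lit 1)) (rf (nat_lit 2))))) q108341 (by decide +kernel)
def q108364 : Q := Q.p (nat_lit 0x1e00002000000000000000000000000000000000000000000000000000000000000000) (nat_lit 0x20000200000dc00030000040000100000000000000000000000000000000000000000000000) (nat_lit 6)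
theorem c108364 : QOK q108364 := cut [q108362] ⟨c108362, trivial⟩ (nd (nat_lit 251) (nat_lit 0) (cs (lf (nat_lit 23) (nat_lit 250)) (nd (nat_lit 254) (nat_lit 0) (cs (lf (nat_lit 17) (nat_lit 251)) (rf (nat_lit 0)))))) q108364 (by decide +kernel)
def q108367 : Q := Q.p (nat_lit 0xc00003800000000000000000000000000000000000000000000000000000000000000) (nat_lit 0x4000010000000001c000077000008000020000000000000000000000000000000000000000000000) (nat_lit 5)
theorem c108367 : QOK q108367 := cut [q80247, q108366] ⟨c80247, c108366, trivial⟩ (nd (nat_lit 254) (nat_lit 0) (cs (rf (nat_lit 0)) (rf (nat_lit 1)))) q108367 (by decide +kernel)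
def q108370 : Q := Q.p (nat_lit 0xc00003000000000000000000000000000000000000000000000000000000000000000) (nat_lit 0x1800006000038000000000c800007800018000040000000000000000000000000000000000000000000000) (nat_lit 6)
theorem c108370 : QOK q108370 := cut [q79068, q83724, q83734] ⟨c79068, c83724, c83734, trivial⟩ (nd (nat_lit 230) (nat_lit 0) (cs (rf (nat_lit 0)) (nd (nat_lit 296) (nat_lit 0) (cs (rf (nat_lit 1)) (rf (nat_lit 2)))))) q108370 (by decide +kernel)
def q108396 : Q := Q.p (nat_lit 0xc00007000000000000000000000000000000000000000000000000000000000000000) (nat_lit 0x40000100000380000e00007000008000020000000000000000000000000000000000000000000000) (nat_lit 5)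
theorem c108396 : QOK q108396 := cut [q80247, q108395] ⟨c80247, c108395, trivial⟩ (nd (nat_lit 251) (nat_lit 0) (cs (rf (nat_lit 0)) (rf (nat_lit 1)))) q108396 (by decide +kernel)
def q108436 : Q := Q.p (nat_lit 0xe00002000000000000000000000000000000000000000000000000000000000000000) (nat_lit 0xe0001180005e00001800004000010000000000000000000000000000000000000000000000) (nat_lit 8)
theorem c108436 : QOK q108436 := cut [q25551] ⟨c25551, trivial⟩ (nd (nat_lit 272) (nat_lit 0) (cs (lf (nat_lit 17) (nat_lit 250)) (nd (nat_lit 252) (nat_lit 0) (cs (lf (nat_lit 12) (nat_lit 249)) (nd (nat_lit 293) (nat_lit 0) (cs (lf (nat_lit 10) (nat_lit 271)) (rf (nat_lit 0)))))))) q108436 (by decide +kernel)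
def q108450 : Q := Q.p (nat_lit 0x1e00003000000000000000000000000000000000000000000000000000000000000000) (nat_lit 0x58000160000dc0000000000c0000300000c000030000000000000000000000000000000000000000000000) (nat_lit 10)
theorem c108450 : QOK q108450 := cut [q108449] ⟨c108449, trivial⟩ (nd (nat_lit 251) (nat_lit 0) (cs (lf (nat_lit 23) (nat_lit 250)) (rf (nat_lit 0)))) q108450 (by decide +kernel)
def q108496 : Q := Q.p (nat_lit 0x400001c00000000000000000000000000000000000000000000000000000000000000000000) (nat_lit 0x400009c0002200000c00002000008000000000000000000000000000000000000000000000000000) (nat_lit 6)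
theorem c108496 : QOK q108496 := cut [q103856] ⟨c103856, trivial⟩ (nd (nat_lit 273) (nat_lit 0) (cs (lf (nat_lit 5) (nat_lit 273)) (rf (nat_lit 0)))) q108496 (by decide +kernel)
def q108538 : Q := Q.p (nat_lit 0x200001c00006000000000000000000000000000000000000000000000000000000000000000) (nat_lit 0x1dc0006200001c00007000018000060000000000000000000000000000000000000000000000) (nat_lit 7)
theorem c108538 : QOK q108538 := cut [q79170, q98695] ⟨c79170, c98695, trivial⟩ (nd (nat_lit 252) (nat_lit 0) (cs (rf (nat_lit 0)) (cs (rf (nat_lit 1)) (nd (nat_lit 208) (nat_lit 0) (cs (lf (nat_lit 25) (nat_lit 208)) (nd (nat_lit 251) (nat_lit 0) (cs (lf (nat_lit 0) (nat_lit 250)) (nd (nat_lit 229) (nat_lit 0) (cs (lf (nat_lit 23) (nat_lit 228)) (nd (nat_lit 207) (nat_lit 0) (cs (lf (nat_lit 24) (nat_lit 185)) (nd (nat_lit 273) (nat_lit 0) (cs (lf (nat_lit 29) (nat_lit 207)) (lf (nat_lit 35) (nat_lit 185))))))))))))))) q108538 (by decide +kernel)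
def q108619 : Q := Q.p (nat_lit 0x80000e00002000000000000000000000000000000000000000000000000000000000000000) (nat_lit 0x700001c000070000160000000001e0000700001c000050000000000000000000000000000000000000000000000) (nat_lit 10)
theorem c108619 : QOK q108619 := cut [q99002, q99003, q98997, q108605, q41526, q108618] ⟨c99002, c99003, c98997, c108605, c41526, c108618, trivial⟩ (nd (nat_lit 317) (nat_lit 0) (cs (rf (nat_lit 0)) (cs (rf (nat_lit 1)) (cs (nd (nat_lit 251) (nat_lit 0) (cs (rf (nat_lit 2)) (cs (nd (nat_lit 316) (nat_lit 0) (cs (lf (nat_lit 41) (nat_lit 250)) (nd (nat_lit 229) (nat_lit 0) (cs (lf (nat_lit 40) (nat_lit 228)) (nd (nat_lit 230) (nat_lit 0) (cs (lf (nat_lit 34) (nat_lit 229)) (lf (nat_lit 35) (nat_lit 207)))))))) (cs (nd (nat_lit 316) (nat_lit 0) (cs (lf (nat_lit 41) (nat_lit 250)) (nd (nat_lit 318) (nat_lit 0) (cs (lf (nat_lit 29) (nat_lit 251)) (rf (nat_lit 3)))))) (nd (nat_lit 318) (nat_lit 0) (cs (lf (nat_lit 29) (nat_lit 251)) (nd (nat_lit 229) (nat_lit 0) (cs (lf (nat_lit 28) (nat_lit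 229)) (rf (nat_lit 4)))))))))) (rf (nat_lit 5)))))) q108619 (by decide +kernel)
def q108643 : Q := Q.p (nat_lit 0x80000e00002000000000000000000000000000000000000000000000000000000000000000) (nat_lit 0x300005f0003f8000f00003000001c00007000008000000000000000000000000000000000000000000000000000) (nat_lit 9)
theorem c108643 : QOK q108643 := cut [q108621, q108597, q11700, q46238, q89853, q108642] ⟨c108621, c108597, c11700, c46238, c89853, c108642, trivial⟩ (nd (nat_lit 296) (nat_lit 0) (cs (nd (nat_lit 276) (nat_lit 0) (cs (lf (nat_lit 6) (nat_lit 273)) (nd (nat_lit 298) (nat_lit 0) (cs (lf (nat_lit 5) (nat_lit 273)) (nd (nat_lit 320) (nat_lit 0) (cs (lf (nat_lit 42) (nat_lit 253)) (nd (nat_lit 250) (nat_lit 0) (cs (lf (nat_lit 22) (nat_lit 250)) (nd (nat_lit 297) (nat_lit 0) (cs (lf (nat_lit 5) (nat_lit 295)) (rf (nat_lit 0)))))))))))) (cs (nd (nat_lit 318) (nat_lit 0) (cs (lf (nat_lit 30) (nat_lit 252)) (nd (nat_lit 276) (nat_lit 0) (cs (lf (nat_lit 6) (nat_lit 273)) (nd (nat_lit 298) (nat_lit 0) (cs (lf (nat_lit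 5) (nat_lit 273)) (rf (nat_lit 1)))))))) (cs (nd (nat_lit 317) (nat_lit 0) (cs (rf (nat_lit 2)) (cs (nd (nat_lit 318) (nat_lit 0) (cs (lf (nat_lit 30) (nat_lit 252)) (nd (nat_lit 229) (nat_lit 0) (cs (lf (nat_lit 25) (nat_lit 229)) (nd (nat_lit 339) (nat_lit 0) (cs (lf (nat_lit 30) (nat_lit 273)) (nd (nat_lit 338) (nat_lit 0) (cs (lf (nat_lit 41) (nat_lit 272)) (rf (nat_lit 3)))))))))) (nd (nat_lit 230) (nat_lit 0) (cs (nd (nat_lit 318) (nat_lit 0) (cs (lf (nat_lit 30) (nat_lit 252)) (nd (nat_lit 251) (nat_lit 0) (cs (lf (nat_lit 24) (nat_lit 229)) (nd (nat_lit 228) (nat_lit 0) (cs (lf (nat_lit 46) (nat_lit 228)) (nd (nat_lit 316) (nat_lit 0) (cs (lf (nat_lit 41) (nat_lit 250)) (rf (nat_lit 4)))))))))) (lf (nat_lit 37) (nat_lit 229))))))) (rf (nat_lit 5)))))) q108643 (by decide +kernel)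
def q108708 : Q := Q.p (nat_lit 0xc0000300000c000000000000000000000000000000000000000000000000000000000) (nat_lit 0x600001e0000000004000003800008000000000000000000000000000000000000000000000000000) (nat_lit 6)
theorem c108708 : QOK q108708 := cut [q89642] ⟨c89642, trivial⟩ (nd (nat_lit 296) (nat_lit 0) (cs (lf (nat_lit 30) (nat_lit 230)) (rf (nat_lit 0)))) q108708 (by decide +kernel)
def q108743 : Q := Q.p (nat_lit 0x1c00003000000000000000000000000000000000000000000000000000000000000000) (nat_lit 0x20000180000620001c0000760000c0000200000000000000000000000000000000000000000000000) (nat_lit 9)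
theorem c108743 : QOK q108743 := cut [q108742] ⟨c108742, trivial⟩ (nd (nat_lit 277) (nat_lit 0) (cs (lf (nat_lit 18) (nat_lit 252)) (rf (nat_lit 0)))) q108743 (by decide +kernel)
def q108750 : Q := Q.p (nat_lit 0x800003c00000000000000000000000000000000000000000000000000000000000000) (nat_lit 0x38001c20001e000010000040000000000000000000000000000000000000000000000) (nat_lit 7)
theorem c108750 : QOK q108750 := cut [q82294] ⟨c82294, trivial⟩ (nd (nat_lit 231) (nat_lit 0) (cs (lf (nat_lit 17) (nat_lit 228)) (nd (nat_lit 230) (nat_lit 0) (cs (lf (nat_lit 12) (nat_lit 227)) (nd (nat_lit 186) (nat_lit 0) (cs (lf (nat_lit 25) (nat_lit 186)) (rf (nat_lit 0)))))))) q108750 (by decide +kernel)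
def q108760 : Q := Q.p (nat_lit 0xc00003000004000000000000000000000000000000000000000000000000000000000) (nat_lit 0x500003000000c000080000300000c0000000000000000000000000000000000000000000000) (nat_lit 6)
theorem c108760 : QOK q108760 := cut [q22507] ⟨c22507, trivial⟩ (nd (nat_lit 208) (nat_lit 0) (cs (lf (nat_lit 24) (nat_lit 186)) (rf (nat_lit 0)))) q108760 (by decide +kernel)
def q108772 : Q := Q.p (nat_lit 0x800003800000000000000000000000000000000000000000000000000000000000000) (nat_lit 0x7c001c600073c00000000000000000000000000000000000000000000000000000000) (nat_lit 8)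
theorem c108772 : QOK q108772 := cut [q1998, q2065, q2090, q108769] ⟨c1998, c2065, c2090, c108769, trivial⟩ (nd (nat_lit 250) (nat_lit 0) (cs (rf (nat_lit 0)) (cs (rf (nat_lit 1)) (cs (rf (nat_lit 2)) (nd (nat_lit 228) (nat_lit 0) (cs (lf (nat_lit 23) (nat_lit 227)) (nd (nat_lit 271) (nat_lit 0) (cs (lf (nat_lit 10) (nat_lit 249)) (rf (nat_lit 3)))))))))) q108772 (by decide +kernel)
def q108777 : Q := Q.p (nat_lit 0xc00003000000000000000000000000000000000000000000000000000000000000000) (nat_lit 0x40000100001e000038000ce0003b8000680001a0000000000000000000000000000000000000000000000) (nat_lit 8)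
theorem c108777 : QOK q108777 := cut [q24705, q14907, q84408, q98546, q82285] ⟨c24705, c14907, c84408, c98546, c82285, trivial⟩ (nd (nat_lit 251) (nat_lit 0) (cs (rf (nat_lit 0)) (cs (nd (nat_lit 273) (nat_lit 0) (cs (rf (nat_lit 1)) (cs (rf (nat_lit 2)) (rf (nat_lit 3))))) (nd (nat_lit 250) (nat_lit 0) (cs (lf (nat_lit 0) (nat_lit 249)) (nd (nat_lit 227) (nat_lit 0) (cs (lf (nat_lit 22) (nat_lit 227)) (rf (nat_lit 4))))))))) q108777 (by decide +kernel)
def q108825 : Q := Q.p (nat_lit 0x800007800000000000000000000000000000000000000000000000000000000000000) (nat_lit 0x100000c00003700008000008000020000000000000000000000000000000000000000000000000000) (nat_lit 6)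
theorem c108825 : QOK q108825 := cut [q108824] ⟨c108824, trivial⟩ (nd (nat_lit 276) (nat_lit 0) (cs (lf (nat_lit 5) (nat_lit 251)) (rf (nat_lit 0)))) q108825 (by decide +kernel)
def q108826 : Q := Q.p (nat_lit 0x3800001000000000000000000000000000000000000000000000000000000000000000) (nat_lit 0x1dc0000600018800000000000000000000000000000000000000000000000000000000000000) (nat_lit 6)
theorem c108826 : QOK q108826 := cut [q2189] ⟨c2189, trivial⟩ (nd (nat_lit 274) (nat_lit 0) (cs (lf (nat_lit 23) (nat_lit 251)) (rf (nat_lit 0)))) q108826 (by decide +kernel)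
def q108859 : Q := Q.p (nat_lit 0x1c00007000000000000000000000000000000000000000000000000000000000000000) (nat_lit 0x80000200001c0000300000000004000010000000000000000000000000000000000000000000000000000) (nat_lit 5)
theorem c108859 : QOK q108859 := cut [q91206] ⟨c91206, trivial⟩ (nd (nat_lit 273) (nat_lit 0) (cs (lf (nat_lit 12) (nat_lit 250)) (rf (nat_lit 0)))) q108859 (by decide +kernel)
def q108890 : Q := Q.p (nat_lit 0x800003800002000000000000000000000000000000000000000000000000000000000) (nat_lit 0x100000d00003700004000039c0007c0001700001c0000700001400000000000000000000000000000) (nat_lit 12)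
theorem c108890 : QOK q108890 := cut [q11484, q85235, q106786, q85255, q85285] ⟨c11484, c85235, c106786, c85255, c85285, trivial⟩ (nd (nat_lit 207) (nat_lit 0) (cs (rf (nat_lit 0)) (cs (nd (nat_lit 254) (nat_lit 0) (cs (lf (nat_lit 23) (nat_lit 228)) (nd (nat_lit 232) (nat_lit 0) (cs (lf (nat_lit 17) (nat_lit 229)) (nd (nat_lit 188) (nat_lit 0) (cs (lf (nat_lit 37) (nat_lit 187)) (nd (nat_lit 276) (nat_lit 0) (cs (lf (nat_lit 5) (nat_lit 251)) (rf (nat_lit 1)))))))))) (cs (nd (nat_lit 254) (nat_lit 0) (cs (lf (nat_lit 23) (nat_lit 228)) (nd (nat_lit 232) (nat_lit 0) (cs (lf (nat_lit 17) (nat_lit 229)) (nd (nat_lit 188) (nat_lit 0) (cs (lf (nat_lit 37) (nat_lit 187)) (nd (nat_lit 276) (nat_lit 0) (cs (lf (nat_lit 5) (nat_lit 251)) (nd (nat_lit 273) (nat_lit 0) (cs (lf (nat_lit 11) (nat_lit 250)) (nd (nat_lit 186) (nat_lit 0) (cs (lf (nat_lit 34) (nat_lit 185)) (nd (nat_lit 184) (nat_lit 0) (cs (lf (nat_lit 46) (nat_lit 184)) (nd (nat_lit 274) (nat_lit 0) (cs (lf (nat_lit 29) (nat_lit 207)) (rf (nat_lit 2))))))))))))))))))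 (cs (nd (nat_lit 228) (nat_lit 0) (cs (lf (nat_lit 18) (nat_lit 228)) (nd (nat_lit 226) (nat_lit 0) (cs (lf (nat_lit 1) (nat_lit 226)) (nd (nat_lit 185) (nat_lit 0) (cs (lf (nat_lit 29) (nat_lit 185)) (rf (nat_lit 3)))))))) (nd (nat_lit 228) (nat_lit 0) (cs (lf (nat_lit 18) (nat_lit 228)) (nd (nat_lit 226) (nat_lit 0) (cs (lf (nat_lit 1) (nat_lit 226)) (nd (nat_lit 185) (nat_lit 0) (cs (lf (nat_lit 29) (nat_lit 185)) (rf (nat_lit 4))))))))))))) q108890 (by decide +kernel)
def q108893 : Q := Q.p (nat_lit 0x800003800002000008000000000000000000000000000000000000000000000000000) (nat_lit 0x2000000000040000100000700001c0000500000000000000000000000000000000000) (nat_lit 5)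
theorem c108893 : QOK q108893 := cut [q82219, q82220, q89706] ⟨c82219, c82220, c89706, trivial⟩ (nd (nat_lit 186) (nat_lit 0) (cs (rf (nat_lit 0)) (cs (rf (nat_lit 1)) (rf (nat_lit 2))))) q108893 (by decide +kernel)
def q108921 : Q := Q.p (nat_lit 0xa00003800000000000000000000000000000000000000000000000000000000000000) (nat_lit 0x5c000170000df000358000000000f80003c000070000000000000000000000000000000000000000000000) (nat_lit 12)
theorem c108921 : QOK q108921 := cut [q80583, q86851, q14764, q14907, q98776, q108446] ⟨c80583, c86851, c14764, c14907, c98776, c108446, trivial⟩ (nd (nat_lit 295) (nat_lit 0) (cs (rf (nat_lit 0)) (cs (rf (nat_lit 1)) (cs (nd (nat_lit 274) (nat_lit 0) (cs (rf (nat_lit 2)) (cs (rf (nat_lit 3)) (rf (nat_lit 4))))) (nd (nat_lit 274) (nat_lit 0) (cs (rf (nat_lit 2)) (cs (rf (nat_lit 3)) (rf (nat_lit 5))))))))) q108921 (by decide +kernel)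
def q108994 : Q := Q.p (nat_lit 0x800002000008000000000000000000000000000000000000000000000000000000000) (nat_lit 0x400007000014000040000100000700001c0000500000000000000000000000000000000000000000) (nat_lit 7)
theorem c108994 : QOK q108994 := cut [q98317, q108989, q108991, q96741] ⟨c98317, c108989, c108991, c96741, trivial⟩ (nd (nat_lit 209) (nat_lit 0) (cs (rf (nat_lit 0)) (cs (rf (nat_lit 1)) (cs (rf (nat_lit 2)) (nd (nat_lit 276) (nat_lit 0) (cs (lf (nat_lit 29) (nat_lit 209)) (nd (nat_lit 186) (nat_lit 0) (cs (lf (nat_lit 46) (nat_lit 186)) (rf (nat_lit 3)))))))))) q108994 (by decide +kernel)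
def q108995 : Q := Q.p (nat_lit 0x200000800002000008000000000000000000000000000000000000000000000000000000000) (nat_lit 0x500001c0000500000000000000004000010000000000000000000000000000000000000000000000000000) (nat_lit 5)
theorem c108995 : QOK q108995 := cut [q84365] ⟨c84365, trivial⟩ (nd (nat_lit 208) (nat_lit 0) (cs (lf (nat_lit 46) (nat_lit 208)) (rf (nat_lit 0)))) q108995 (by decide +kernel)
def q108998 : Q := Q.p (nat_lit 0x800002000008000000000000000000000000000000000000000000000000000000000) (nat_lit 0x500001c0000700001400000000004000030000040000000000000000000000000000000000000000000000) (nat_lit 5)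
theorem c108998 : QOK q108998 := cut [q79736, q84365, q88936] ⟨c79736, c84365, c88936, trivial⟩ (nd (nat_lit 297) (nat_lit 0) (cs (rf (nat_lit 0)) (cs (rf (nat_lit 1)) (rf (nat_lit 2))))) q108998 (by decide +kernel)
def q109001 : Q := Q.p (nat_lit 0x800002000008000020000000000000000000000000000000000000000000000000000) (nat_lit 0x1000014000040000100000100001c0000700001000000000000000000000000000000000000) (nat_lit 7)
theorem c109001 : QOK q109001 := cut [q109000] ⟨c109000, trivial⟩ (nd (nat_lit 274) (nat_lit 0) (cs (lf (nat_lit 41) (nat_lit 208)) (rf (nat_lit 0)))) q109001 (by decide +kernel)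
def q109003 : Q := Q.p (nat_lit 0x800002000008000000000000000000000000000000000000000000000000000000000) (nat_lit 0x400001c0000700000400004000014000070000040000000000000000000000000000000000000000000000) (nat_lit 5)
theorem c109003 : QOK q109003 := cut [q79736, q98797] ⟨c79736, c98797, trivial⟩ (nd (nat_lit 297) (nat_lit 0) (cs (rf (nat_lit 0)) (rf (nat_lit 1)))) q109003 (by decide +kernel)
def q109005 : Q := Q.p (nat_lit 0x800002000008000020000000000000000000000000000000000000000000000000000) (nat_lit 0x6000010000000000060001d0000140000000000000000000000000000000000000000000000) (nat_lit 6)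
theorem c109005 : QOK q109005 := cut [q99649] ⟨c99649, trivial⟩ (nd (nat_lit 276) (nat_lit 0) (cs (lf (nat_lit 29) (nat_lit 209)) (rf (nat_lit 0)))) q109005 (by decide +kernel)
def q109022 : Q := Q.p (nat_lit 0x200000800002000008000000000000000000000000000000000000000000000000000000000) (nat_lit 0x140001d0000700001df000778001df000000000000000000000000000000000000000000000000000) (nat_lit 14)
theorem c109022 : QOK q109022 := cut [q96758, q109017, q22540, q96769] ⟨c96758, c109017, c22540, c96769, trivial⟩ (nd (nat_lit 230) (nat_lit 0) (cs (lf (nat_lit 47) (nat_lit 208)) (nd (nat_lit 229) (nat_lit 0) (cs (rf (nat_lit 0)) (cs (rf (nat_lit 1)) (cs (nd (nat_lit 232) (nat_lit 0) (cs (lf (nat_lit 35) (nat_lit 209)) (nd (nat_lit 296) (nat_lit 0) (cs (lf (nat_lit 41) (nat_lit 230)) (rf (nat_lit 2)))))) (nd (nat_lit 210) (nat_lit 0) (cs (lf (nat_lit 34) (nat_lit 209)) (rf (nat_lit 3)))))))))) q109022 (by decide +kernel)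
def q109024 : Q := Q.p (nat_lit 0x200000800002000000000000000000000000000000000000000000000000000000000000000) (nat_lit 0x140000700001c000050000000000100000c000010000000000000000000000000000000000000000000000000000) (nat_lit 5)
theorem c109024 : QOK q109024 := cut [q2579, q108319, q108332] ⟨c2579, c108319, c108332, trivial⟩ (nd (nat_lit 319) (nat_lit 0) (cs (rf (nat_lit 0)) (cs (rf (nat_lit 1)) (rf (nat_lit 2))))) q109024 (by decide +kernel)
def q109026 : Q := Q.p (nat_lit 0x200000800002000000000000000000000000000000000000000000000000000000000000000) (nat_lit 0x140000700001c0000500000000004000018000040000000000000000000000000000000000000000000000000000) (nat_lit 5)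
theorem c109026 : QOK q109026 := cut [q2579, q89529, q108321] ⟨c2579, c89529, c108321, trivial⟩ (nd (nat_lit 319) (nat_lit 0) (cs (rf (nat_lit 0)) (cs (rf (nat_lit 1)) (rf (nat_lit 2))))) q109026 (by decide +kernel)
def q109038 : Q := Q.p (nat_lit 0x3c000000000000000000000000000000000000000000000000000000000) (nat_lit 0x1ce0000300018e000000000000000000000000000000000000000000000000000) (nat_lit 7)
theorem c109038 : QOK q109038 := cut [q109037] ⟨c109037, trivial⟩ (nd (nat_lit 211) (nat_lit 0) (cs (lf (nat_lit 17) (nat_lit 208)) (rf (nat_lit 0)))) q109038 (by decide +kernel)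
def q109052 : Q := Q.p (nat_lit 0x200000800002000000000000000000000000000000000000000000000000000000000000000) (nat_lit 0x140000700001c000000000000000500001c000050000000000000000000000000000000000000000000000000000) (nat_lit 5)
theorem c109052 : QOK q109052 := cut [q2579, q108324] ⟨c2579, c108324, trivial⟩ (nd (nat_lit 319) (nat_lit 0) (cs (rf (nat_lit 0)) (rf (nat_lit 1)))) q109052 (by decide +kernel)
def q109057 : Q := Q.p (nat_lit 0x800002000008000000000000000000000000000000000000000000000000000000000) (nat_lit 0x180000600001000001800074000070000140000000000000000000000000000000000000000000000) (nat_lit 6)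
theorem c109057 : QOK q109057 := cut [q32034, q88936, q108258] ⟨c32034, c88936, c108258, trivial⟩ (nd (nat_lit 297) (nat_lit 0) (cs (rf (nat_lit 0)) (cs (rf (nat_lit 1)) (rf (nat_lit 2))))) q109057 (by decide +kernel)
def q109086 : Q := Q.p (nat_lit 0x300000800006000000000000000000000000000000000000000000000000000000000000000) (nat_lit 0x4000050000778001ce00077c0000000000000000000000000000000000000000000000000000000000000000000) (nat_lit 10)
theorem c109086 : QOK q109086 := cut [q11666, q11728, q108286, q109085] ⟨c11666, c11728, c108286, c109085, trivial⟩ (nd (nat_lit 295) (nat_lit 0) (cs (rf (nat_lit 0)) (cs (rf (nat_lit 1)) (cs (rf (nat_lit 2)) (rf (nat_lit 3)))))) q109086 (by decide +kernel)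
def q109092 : Q := Q.p (nat_lit 0x600001800004000000000000000000000000000000000000000000000000000000000000000) (nat_lit 0x2000038000004000000000300000c0000000000000000000000000000000000000000000000000000) (nat_lit 5)
theorem c109092 : QOK q109092 := cut [q109091] ⟨c109091, trivial⟩ (nd (nat_lit 232) (nat_lit 0) (cs (lf (nat_lit 36) (nat_lit 209)) (rf (nat_lit 0)))) q109092 (by decide +kernel)
def q109106 : Q := Q.p (nat_lit 0x200000800006000000000000000000000000000000000000000000000000000000000000000) (nat_lit 0x140000f00007c00005c0007400008000028000000000000000000000000000000000000000000000000000000000) (nat_lit 8)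
theorem c109106 : QOK q109106 := cut [q2579, q89625, q99957, q105048] ⟨c2579, c89625, c99957, c105048, trivial⟩ (nd (nat_lit 319) (nat_lit 0) (cs (rf (nat_lit 0)) (cs (rf (nat_lit 1)) (cs (nd (nat_lit 320) (nat_lit 0) (cs (lf (nat_lit 29) (nat_lit 253)) (nd (nat_lit 276) (nat_lit 0) (cs (lf (nat_lit 30) (nat_lit 253)) (nd (nat_lit 298) (nat_lit 0) (cs (lf (nat_lit 24) (nat_lit 231)) (nd (nat_lit 233) (nat_lit 0) (cs (lf (nat_lit 34) (nat_lit 232)) (rf (nat_lit 2)))))))))) (nd (nat_lit 318) (nat_lit 0) (cs (lf (nat_lit 41) (nat_lit 252)) (nd (nat_lit 296) (nat_lit 0) (cs (lf (nat_lit 36) (nat_lit 230)) (nd (nat_lit 276) (nat_lit 0) (cs (lf (nat_lit 30) (nat_lit 253)) (rf (nat_lit 3)))))))))))) q109106 (by decide +kernel)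
def q109131 : Q := Q.p (nat_lit 0x80000f000004000000000000000000000000000000000000000000000000000000000) (nat_lit 0x800006000000800070000050000140000000000000000000000000000000000000000000000) (nat_lit 6)
theorem c109131 : QOK q109131 := cut [q86390] ⟨c86390, trivial⟩ (nd (nat_lit 186) (nat_lit 0) (cs (lf (nat_lit 25) (nat_lit 186)) (rf (nat_lit 0)))) q109131 (by decide +kernel)
def q109214 : Q := Q.p (nat_lit 0x800006000000000000000000000000000000000000000000000000000000000000000) (nat_lit 0x180000e00007400079c000ff0000d0000140000000000000000000000000000000000000000000000) (nat_lit 12)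
theorem c109214 : QOK q109214 := cut [q109062, q79214, q86390, q98248, q109079, q109083, q79112] ⟨c109062, c79214, c86390, c98248, c109079, c109083, c79112, trivial⟩ (nd (nat_lit 255) (nat_lit 0) (cs (rf (nat_lit 0)) (cs (nd (nat_lit 252) (nat_lit 0) (cs (rf (nat_lit 1)) (cs (rf (nat_lit 2)) (cs (rf (nat_lit 3)) (nd (nat_lit 277) (nat_lit 0) (cs (lf (nat_lit 5) (nat_lit 252)) (nd (nat_lit 233) (nat_lit 0) (cs (lf (nat_lit 17) (nat_lit 230)) (nd (nat_lit 230) (nat_lit 0) (cs (lf (nat_lit 23) (nat_lit 229)) (nd (nat_lit 186) (nat_lit 0) (cs (lf (nat_lit 25) (nat_lit 186)) (nd (nat_lit 297) (nat_lit 0) (cs (lf (nat_lit 42) (nat_lit 230)) (nd (nat_lit 231) (nat_lit 0) (cs (lf (nat_lit 18) (nat_lit 230)) (nd (nat_lit 298) (nat_lit 0) (cs (lf (nat_lit 29) (nat_lit 231)) (nd (nat_lit 211) (nat_lit 0) (cs (lf (nat_lit 40) (nat_lit 210)) (nd (nat_lit 210) (nat_lit 0) (cs (lf (nat_lit 34) (nat_lit 209)) (lf (nat_lit 47) (nat_lit 188)))))))))))))))))))))))) (cs (rf (nat_lit 4)) (cs (rf (nat_lit 5)) (nd (nat_lit 252)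 (nat_lit 0) (cs (rf (nat_lit 2)) (cs (rf (nat_lit 3)) (nd (nat_lit 230) (nat_lit 0) (cs (lf (nat_lit 23) (nat_lit 229)) (nd (nat_lit 277) (nat_lit 0) (cs (lf (nat_lit 5) (nat_lit 252)) (rf (nat_lit 6)))))))))))))) q109214 (by decide +kernel)
def q109258 : Q := Q.p (nat_lit 0x3800000000000000000000000000000000000000000000000000000000000000000000) (nat_lit 0x100003dc000460003c000020000080000000000000000000000000000000000000000000000000000) (nat_lit 6)
theorem c109258 : QOK q109258 := cut [q2187, q14688, q109256, q13005] ⟨c2187, c14688, c109256, c13005, trivial⟩ (nd (nat_lit 274) (nat_lit 0) (cs (rf (nat_lit 0)) (cs (rf (nat_lit 1)) (cs (rf (nat_lit 2)) (nd (nat_lit 295) (nat_lit 0) (cs (lf (nat_lit 10) (nat_lit 273)) (rf (nat_lit 3)))))))) q109258 (by decide +kernel)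
def q109272 : Q := Q.p (nat_lit 0x200001c000000000000000000000000000000000000000000000000000000000) (nat_lit 0x7de000e300030e000000000000000000000000000000000000000000000000000) (nat_lit 7)
theorem c109272 : QOK q109272 := cut [q7975, q109037, q109042] ⟨c7975, c109037, c109042, trivial⟩ (nd (nat_lit 233) (nat_lit 0) (cs (rf (nat_lit 0)) (cs (rf (nat_lit 1)) (rf (nat_lit 2))))) q109272 (by decide +kernel)
def q109276 : Q := Q.p (nat_lit 0x1800006000018000000000000000000000000000000000000000000000000000000000) (nat_lit 0x300003c000000000010000e0000080000000000000000000000000000000000000000000000000000) (nat_lit 6)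
theorem c109276 : QOK q109276 := cut [q109274] ⟨c109274, trivial⟩ (nd (nat_lit 298) (nat_lit 0) (cs (lf (nat_lit 42) (nat_lit 231)) (nd (nat_lit 299) (nat_lit 0) (cs (lf (nat_lit 29) (nat_lit 232)) (rf (nat_lit 0)))))) q109276 (by decide +kernel)
def q109299 : Q := Q.p (nat_lit 0x1800002000000000000000000000000000000000000000000000000000000000000000) (nat_lit 0x10000140001fc0006780019e000380000f00001c0000500000000000000000000000000000000000000000) (nat_lit 11)
theorem c109299 : QOK q109299 := cut [q100469, q109056, q97586, q109284, q15828, q109285, q22378, q13425, q99687] ⟨c100469, c109056, c97586, c109284, c15828, c109285, c22378, c13425, c99687, trivial⟩ (nd (nat_lit 231) (nat_lit 0) (cs (rf (nat_lit 0)) (cs (rf (nat_lit 1)) (cs (nd (nat_lit 296) (nat_lit 0) (cs (rf (nat_lit 2)) (cs (rf (nat_lit 3)) (cs (nd (nat_lit 274) (nat_lit 0) (cs (rf (nat_lit 4)) (rf (nat_lit 5)))) (nd (nat_lit 277) (nat_lit 0) (cs (rf (nat_lit 6)) (cs (nd (nat_lit 274) (nat_lit 0) (cs (lf (nat_lit 11) (nat_lit 273)) (nd (nat_lit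 255) (nat_lit 0) (cs (lf (nat_lit 17) (nat_lit 252)) (rf (nat_lit 7)))))) (nd (nat_lit 274) (nat_lit 0) (cs (lf (nat_lit 11) (nat_lit 273)) (nd (nat_lit 255) (nat_lit 0) (cs (lf (nat_lit 17) (nat_lit 252)) (nd (nat_lit 299) (nat_lit 0) (cs (lf (nat_lit 5) (nat_lit 274)) (nd (nat_lit 273) (nat_lit 0) (cs (lf (nat_lit 4) (nat_lit 273)) (nd (nat_lit 250) (nat_lit 0) (cs (lf (nat_lit 22) (nat_lit 250)) (nd (nat_lit 272) (nat_lit 0) (cs (lf (nat_lit 23) (nat_lit 249)) (nd (nat_lit 297) (nat_lit 0) (cs (lf (nat_lit 6) (nat_lit 274)) (lf (nat_lit 0) (nat_lit 271))))))))))))))))))))))) (nd (nat_lit 209) (nat_lit 0) (cs (lf (nat_lit 29) (nat_lit 209)) (rf (nat_lit 8)))))))) q109299 (by decide +kernel)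
def q109313 : Q := Q.p (nat_lit 0x1800002000018000000000000000000000000000000000000000000000000000000000) (nat_lit 0x300003e0000260003c0000e6000198000200000000000000000000000000000000000000000000000) (nat_lit 10)
theorem c109313 : QOK q109313 := cut [q107539, q79626, q94684, q79349] ⟨c107539, c79626, c94684, c79349, trivial⟩ (nd (nat_lit 254) (nat_lit 0) (cs (rf (nat_lit 0)) (cs (nd (nat_lit 255) (nat_lit 0) (cs (rf (nat_lit 1)) (cs (rf (nat_lit 2)) (nd (nat_lit 230) (nat_lit 0) (cs (lf (nat_lit 0) (nat_lit 229)) (nd (nat_lit 273) (nat_lit 0) (cs (lf (nat_lit 13) (nat_lit 251)) (nd (nat_lit 208) (nat_lit 0) (cs (lf (nat_lit 42) (nat_lit 208)) (nd (nat_lit 233) (nat_lit 0) (cs (lf (nat_lit 23) (nat_lit 207)) (rf (nat_lit 3))))))))))))) (nd (nat_lit 298) (nat_lit 0) (cs (lf (nat_lit 42) (nat_lit 231)) (nd (nat_lit 299) (nat_lit 0) (cs (lf (nat_lit 29) (nat_lit 232)) (nd (nat_lit 300) (nat_lit 0) (cs (lf (nat_lit 18) (nat_lit 275)) (nd (nat_lit 233) (nat_lit 0) (cs (lf (nat_lit 35) (nat_lit 210)) (nd (nat_lit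 234) (nat_lit 0) (cs (lf (nat_lit 6) (nat_lit 231)) (nd (nat_lit 256) (nat_lit 0) (cs (lf (nat_lit 5) (nat_lit 231)) (nd (nat_lit 230) (nat_lit 0) (cs (lf (nat_lit 19) (nat_lit 230)) (nd (nat_lit 208) (nat_lit 0) (cs (lf (nat_lit 42) (nat_lit 208)) (lf (nat_lit 23) (nat_lit 207))))))))))))))))))))) q109313 (by decide +kernel)
def q109347 : Q := Q.p (nat_lit 0x180000200000c000000000000000000000000000000000000000000000000000000000) (nat_lit 0x340001fc000060000cf80033c000df800040000100000000000000000000000000000000000000000) (nat_lit 13)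
theorem c109347 : QOK q109347 := cut [q96836, q109035, q79763, q22552, q109344] ⟨c96836, c109035, c79763, c22552, c109344, trivial⟩ (nd (nat_lit 229) (nat_lit 0) (cs (rf (nat_lit 0)) (cs (nd (nat_lit 297) (nat_lit 0) (cs (lf (nat_lit 47) (nat_lit 208)) (nd (nat_lit 232) (nat_lit 0) (cs (lf (nat_lit 35) (nat_lit 209)) (nd (nat_lit 298) (nat_lit 0) (cs (lf (nat_lit 29) (nat_lit 231)) (rf (nat_lit 1)))))))) (cs (nd (nat_lit 297) (nat_lit 0) (cs (lf (nat_lit 47) (nat_lit 208)) (nd (nat_lit 232) (nat_lit 0) (cs (lf (nat_lit 35) (nat_lit 209)) (nd (nat_lit 298) (nat_lit 0) (cs (lf (nat_lit 29) (nat_lit 231)) (nd (nat_lit 296) (nat_lit 0) (cs (lf (nat_lit 41) (nat_lit 230)) (nd (nat_lit 206) (nat_lit 0) (cs (lf (nat_lit 22) (nat_lit 206)) (nd (nat_lit 294) (nat_lit 0) (cs (lf (nat_lit 13) (nat_lit 272)) (nd (nat_lit 254) (nat_lit 0) (cs (lf (nat_lit 5) (nat_lit 229)) (nd (nat_lit 211) (nat_lit 0) (cs (lf (nat_lit 34) (nat_lit 210)) (nd (nat_lit 250) (nat_lit 0) (cs (lf (nat_lit 10) (nat_lit 228)) (rf (nat_lit 2))))))))))))))))))))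 (cs (nd (nat_lit 208) (nat_lit 0) (cs (lf (nat_lit 42) (nat_lit 208)) (nd (nat_lit 164) (nat_lit 0) (cs (lf (nat_lit 25) (nat_lit 164)) (nd (nat_lit 228) (nat_lit 0) (cs (lf (nat_lit 5) (nat_lit 228)) (nd (nat_lit 249) (nat_lit 0) (cs (lf (nat_lit 10) (nat_lit 227)) (nd (nat_lit 227) (nat_lit 0) (cs (lf (nat_lit 11) (nat_lit 226)) (rf (nat_lit 3)))))))))))) (nd (nat_lit 208) (nat_lit 0) (cs (lf (nat_lit 42) (nat_lit 208)) (nd (nat_lit 164) (nat_lit 0) (cs (lf (nat_lit 25) (nat_lit 164)) (rf (nat_lit 4))))))))))) q109347 (by decide +kernel)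
def q109372 : Q := Q.p (nat_lit 0x180000200000c000000000000000000000000000000000000000000000000000000000) (nat_lit 0x12000048000060003df000738001df000140000500000000000000000000000000000000000000000) (nat_lit 10)
theorem c109372 : QOK q109372 := cut [q96758, q96769, q96836, q22546, q98320, q96973, q98331, q85515] ⟨c96758, c96769, c96836, c22546, c98320, c96973, c98331, c85515, trivial⟩ (nd (nat_lit 229) (nat_lit 0) (cs (rf (nat_lit 0)) (cs (rf (nat_lit 1)) (cs (rf (nat_lit 2)) (cs (nd (nat_lit 250) (nat_lit 0) (cs (rf (nat_lit 3)) (cs (nd (nat_lit 251) (nat_lit 0) (cs (lf (nat_lit 6) (nat_lit 228)) (lf (nat_lit 2) (nat_lit 250)))) (nd (nat_lit 228) (nat_lit 0) (cs (lf (nat_lit 11) (nat_lit 227)) (nd (nat_lit 205) (nat_lit 0) (cs (lf (nat_lit 22) (nat_lit 205)) (nd (nat_lit 204) (nat_lit 0) (cs (lf (nat_lit 21) (nat_lit 204)) (nd (nat_lit 251) (nat_lit 0) (cs (lf (nat_lit 6) (nat_lit 228)) (nd (nat_lit 273) (nat_lit 0) (cs (lf (nat_lit 20) (nat_lit 250)) (nd (nat_lit 295) (nat_lit 0) (cs (lf (nat_lit 42) (nat_lit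 228)) (lf (nat_lit 35) (nat_lit 207))))))))))))))))) (nd (nat_lit 232) (nat_lit 0) (cs (rf (nat_lit 4)) (cs (nd (nat_lit 206) (nat_lit 0) (cs (lf (nat_lit 22) (nat_lit 206)) (nd (nat_lit 211) (nat_lit 0) (cs (lf (nat_lit 16) (nat_lit 207)) (nd (nat_lit 250) (nat_lit 0) (cs (lf (nat_lit 10) (nat_lit 228)) (rf (nat_lit 5)))))))) (cs (nd (nat_lit 250) (nat_lit 0) (cs (lf (nat_lit 10) (nat_lit 228)) (nd (nat_lit 207) (nat_lit 0) (cs (lf (nat_lit 23) (nat_lit 206)) (nd (nat_lit 254) (nat_lit 0) (cs (lf (nat_lit 5) (nat_lit 229)) (nd (nat_lit 188) (nat_lit 0) (cs (lf (nat_lit 37) (nat_lit 187)) (nd (nat_lit 298) (nat_lit 0) (cs (lf (nat_lit 42) (nat_lit 231)) (rf (nat_lit 6)))))))))))) (cs (nd (nat_lit 206) (nat_lit 0) (cs (lf (nat_lit 22) (nat_lit 206)) (nd (nat_lit 250) (nat_lit 0) (cs (lf (nat_lit 10) (nat_lit 228)) (nd (nat_lit 210) (nat_lit 0) (cs (lf (nat_lit 17) (nat_lit 207)) (rf (nat_lit 7)))))))) (nd (nat_lit 254) (nat_lit 0) (cs (lf (nat_lit 5) (nat_lit 229)) (nd (nat_lit 298) (nat_lit 0) (cs (lf (nat_lit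 42) (nat_lit 231)) (nd (nat_lit 233) (nat_lit 0) (cs (lf (nat_lit 35) (nat_lit 210)) (nd (nat_lit 251) (nat_lit 0) (cs (lf (nat_lit 11) (nat_lit 228)) (lf (nat_lit 13) (nat_lit 229)))))))))))))))))))) q109372 (by decide +kernel)
def q109417 : Q := Q.p (nat_lit 0x180000200000c000000000000000000000000000000000000000000000000000000000) (nat_lit 0x140000780006000000000010000050000000000000000000000000000000000000000000000000000) (nat_lit 6)
theorem c109417 : QOK q109417 := cut [q100456] ⟨c100456, trivial⟩ (nd (nat_lit 297) (nat_lit 0) (cs (lf (nat_lit 47) (nat_lit 208)) (nd (nat_lit 210) (nat_lit 0) (cs (lf (nat_lit 34) (nat_lit 209)) (rf (nat_lit 0)))))) q109417 (by decide +kernel)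
def q109452 : Q := Q.p (nat_lit 0xc00002000008000040000000000000000000000000000000000000000000000000000) (nat_lit 0x40000700001c0000600000000001000010000000000000000000000000000000000000000000000000000000000) (nat_lit 6)
theorem c109452 : QOK q109452 := cut [q15711] ⟨c15711, trivial⟩ (nd (nat_lit 297) (nat_lit 0) (cs (lf (nat_lit 34) (nat_lit 209)) (rf (nat_lit 0)))) q109452 (by decide +kernel)
def q109479 : Q := Q.p (nat_lit 0xe00002000000000000000000000000000000000000000000000000000000000000000) (nat_lit 0x80000780007e0000fe0000180001f0000b800024000000000000000000000000000000000000000000000000000) (nat_lit 11)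
theorem c109479 : QOK q109479 := cut [q15829, q15996, q23012, q23322, q23015, q15920, q12676, q14657, q98852, q14782, q12843] ⟨c15829, c15996, c23012, c23322, c23015, c15920, c12676, c14657, c98852, c14782, c12843, trivial⟩ (nd (nat_lit 296) (nat_lit 0) (cs (rf (nat_lit 0)) (cs (rf (nat_lit 1)) (cs (nd (nat_lit 297) (nat_lit 0) (cs (rf (nat_lit 2)) (cs (rf (nat_lit 3)) (nd (nat_lit 295) (nat_lit 0) (cs (rf (nat_lit 4)) (nd (nat_lit 294) (nat_lit 0) (cs (lf (nat_lit 12) (nat_lit 271)) (nd (nat_lit 209) (nat_lit 0) (cs (lf (nat_lit 37) (nat_lit 208)) (rf (nat_lit 5))))))))))) (nd (nat_lit 272) (nat_lit 0) (cs (rf (nat_lit 6)) (cs (rf (nat_lit 7)) (cs (rf (nat_lit 8)) (nd (nat_lit 318) (nat_lit 0) (cs (lf (nat_lit 30) (nat_lit 252)) (nd (nat_lit 319) (nat_lit 0) (cs (nd (nat_lit 293) (nat_lit 0) (cs (lf (nat_lit 10) (nat_lit 271)) (nd (nat_lit 252) (nat_lit 0) (cs (lf (nat_lit 29) (nat_lit 252)) (nd (nat_lit 317) (nat_lit 0) (cs (lf (nat_lit 41) (nat_lit 251)) (nd (nat_lit 251) (nat_lit 0) (cs (lf (nat_lit 47)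 (nat_lit 229)) (nd (nat_lit 250) (nat_lit 0) (cs (lf (nat_lit 23) (nat_lit 249)) (rf (nat_lit 9)))))))))))) (cs (nd (nat_lit 293) (nat_lit 0) (cs (lf (nat_lit 10) (nat_lit 271)) (nd (nat_lit 249) (nat_lit 0) (cs (lf (nat_lit 22) (nat_lit 249)) (nd (nat_lit 297) (nat_lit 0) (cs (lf (nat_lit 5) (nat_lit 272)) (rf (nat_lit 10)))))))) (nd (nat_lit 297) (nat_lit 0) (cs (lf (nat_lit 5) (nat_lit 272)) (nd (nat_lit 341) (nat_lit 0) (cs (lf (nat_lit 42) (nat_lit 274)) (lf (nat_lit 24) (nat_lit 252))))))))))))))))))) q109479 (by decide +kernel)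
def q109491 : Q := Q.p (nat_lit 0xc00002000008000000000000000000000000000000000000000000000000000000000) (nat_lit 0x280000f00007c0001f8000700001d8000300000c0000000000000000000000000000000000000000000000000000) (nat_lit 13)
theorem c109491 : QOK q109491 := cut [q84365, q98797, q15801, q109482, q109490] ⟨c84365, c98797, c15801, c109482, c109490, trivial⟩ (nd (nat_lit 297) (nat_lit 0) (cs (rf (nat_lit 0)) (cs (rf (nat_lit 1)) (cs (nd (nat_lit 296) (nat_lit 0) (cs (rf (nat_lit 2)) (nd (nat_lit 210) (nat_lit 0) (cs (lf (nat_lit 34) (nat_lit 209)) (nd (nat_lit 298) (nat_lit 0) (cs (lf (nat_lit 29) (nat_lit 231)) (nd (nat_lit 299) (nat_lit 0) (cs (lf (nat_lit 18) (nat_lit 274)) (nd (nat_lit 277) (nat_lit 0) (cs (lf (nat_lit 17) (nat_lit 274)) (nd (nat_lit 276) (nat_lit 0) (cs (lf (nat_lit 12) (nat_lit 273)) (nd (nat_lit 251) (nat_lit 0) (cs (lf (nat_lit 22) (nat_lit 251)) (rf (nat_lit 3)))))))))))))))) (rf (nat_lit 4)))))) q109491 (by decide +kernel)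
def q109522 : Q := Q.p (nat_lit 0xc00002000008000000000000000000000000000000000000000000000000000000000) (nat_lit 0x180000600001c0001f00001300005000010000040000000000000000000000000000000000000000000000000000) (nat_lit 6)
theorem c109522 : QOK q109522 := cut [q98797, q109225, q109490] ⟨c98797, c109225, c109490, trivial⟩ (nd (nat_lit 297) (nat_lit 0) (cs (rf (nat_lit 0)) (cs (rf (nat_lit 1)) (rf (nat_lit 2))))) q109522 (by decide +kernel)
def q109526 : Q := Q.p (nat_lit 0x700000800000000000000000000000000000000000000000000000000000000000000000000) (nat_lit 0xe380018c0007780000000000000000000000000000000000000000000000000000000000000000000) (nat_lit 6)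
theorem c109526 : QOK q109526 := cut [q11708, q28278] ⟨c11708, c28278, trivial⟩ (nd (nat_lit 295) (nat_lit 0) (cs (rf (nat_lit 0)) (rf (nat_lit 1)))) q109526 (by decide +kernel)
def q109529 : Q := Q.p (nat_lit 0x200000800002000000000000000000000000000000000000000000000000000000000000000) (nat_lit 0x140000700001c000040000040000100000c000010000000000000000000000000000000000000000000000000000) (nat_lit 5)
theorem c109529 : QOK q109529 := cut [q2579, q99280, q108332] ⟨c2579, c99280, c108332, trivial⟩ (nd (nat_lit 319) (nat_lit 0) (cs (rf (nat_lit 0)) (cs (rf (nat_lit 1)) (rf (nat_lit 2))))) q109529 (by decide +kernel)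
def q109576 : Q := Q.p (nat_lit 0x200000800002000008000000000000000000000000000000000000000000000000000000000) (nat_lit 0x40000500001400004000000000060000180000400000000000000000000000000000000000000000) (nat_lit 6)
theorem c109576 : QOK q109576 := cut [q97584] ⟨c97584, trivial⟩ (nd (nat_lit 296) (nat_lit 0) (cs (lf (nat_lit 41) (nat_lit 230)) (rf (nat_lit 0)))) q109576 (by decide +kernel)
def q109650 : Q := Q.p (nat_lit 0x200000800003000000000000000000000000000000000000000000000000000000000000000) (nat_lit 0x500001c0000740001c00007f8001fc000140000100000000000000000000000000000000000000000) (nat_lit 14)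
theorem c109650 : QOK q109650 := cut [q32034, q88936, q89353, q109649] ⟨c32034, c88936, c89353, c109649, trivial⟩ (nd (nat_lit 231) (nat_lit 0) (cs (rf (nat_lit 0)) (cs (rf (nat_lit 1)) (cs (rf (nat_lit 2)) (rf (nat_lit 3)))))) q109650 (by decide +kernel)
def q109693 : Q := Q.p (nat_lit 0x200000800002000004000000000000000000000000000000000000000000000000000000000) (nat_lit 0x10000060000180000000001000005000010000000000000000000000000000000000000000000000000000000000) (nat_lit 5)
theorem c109693 : QOK q109693 := cut [q99625] ⟨c99625, trivial⟩ (nd (nat_lit 319) (nat_lit 0) (cs (lf (nat_lit 46) (nat_lit 230)) (rf (nat_lit 0)))) q109693 (by decide +kernel)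
def q109736 : Q := Q.p (nat_lit 0x180000b00000c000010000000000000000000000000000000000000000000000000000) (nat_lit 0x188000678001000003200002e0000a0000000000000000000000000000000000000000000000) (nat_lit 10)
theorem c109736 : QOK q109736 := cut [q22271] ⟨c22271, trivial⟩ (nd (nat_lit 277) (nat_lit 0) (cs (lf (nat_lit 18) (nat_lit 252)) (nd (nat_lit 274) (nat_lit 0) (cs (lf (nat_lit 17) (nat_lit 252)) (nd (nat_lit 273) (nat_lit 0) (cs (lf (nat_lit 41) (nat_lit 207)) (nd (nat_lit 271) (nat_lit 0) (cs (lf (nat_lit 13) (nat_lit 249)) (nd (nat_lit 187) (nat_lit 0) (cs (lf (nat_lit 37) (nat_lit 186)) (nd (nat_lit 299) (nat_lit 0) (cs (lf (nat_lit 5) (nat_lit 274)) (rf (nat_lit 0)))))))))))))) q109736 (by decide +kernel)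
def q109745 : Q := Q.p (nat_lit 0x180000300000c000010000000000000000000000000000000000000000000000000000) (nat_lit 0x8000070000cf80013c0000f000020000080000000000000000000000000000000000000000) (nat_lit 7)
theorem c109745 : QOK q109745 := cut [q109344, q109740, q109744] ⟨c109344, c109740, c109744, trivial⟩ (nd (nat_lit 229) (nat_lit 0) (cs (rf (nat_lit 0)) (cs (rf (nat_lit 1)) (rf (nat_lit 2))))) q109745 (by decide +kernel)
def q109761 : Q := Q.p (nat_lit 0x80000200000e000000000000000000000000000000000000000000000000000000000) (nat_lit 0x1e00031e0001f800040000100000000000000000000000000000000000000000) (nat_lit 7)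
theorem c109761 : QOK q109761 := cut [q22546, q98343, q98332, q97205] ⟨c22546, c98343, c98332, c97205, trivial⟩ (nd (nat_lit 250) (nat_lit 0) (cs (rf (nat_lit 0)) (cs (rf (nat_lit 1)) (cs (nd (nat_lit 232) (nat_lit 0) (cs (lf (nat_lit 10) (nat_lit 228)) (rf (nat_lit 2)))) (nd (nat_lit 228) (nat_lit 0) (cs (lf (nat_lit 11) (nat_lit 227)) (rf (nat_lit 3)))))))) q109761 (by decide +kernel)
def q109784 : Q := Q.p (nat_lit 0x200000800002000008000000000000000000000000000000000000000000000000000000000) (nat_lit 0x200000c00005c0007400004000014000030000080000000000000000000000000000000000000000000000) (nat_lit 9)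
theorem c109784 : QOK q109784 := cut [q99257] ⟨c99257, trivial⟩ (nd (nat_lit 296) (nat_lit 0) (cs (lf (nat_lit 41) (nat_lit 230)) (nd (nat_lit 209) (nat_lit 0) (cs (lf (nat_lit 40) (nat_lit 208)) (nd (nat_lit 208) (nat_lit 0) (cs (lf (nat_lit 46) (nat_lit 208)) (rf (nat_lit 0)))))))) q109784 (by decide +kernel)
def q109818 : Q := Q.p (nat_lit 0xc00003000018000000000000000000000000000000000000000000000000000000000) (nat_lit 0x4000090000620001c0000660001c8000100000000000000000000000000000000000000000000000) (nat_lit 7)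
theorem c109818 : QOK q109818 := cut [q84347, q107521] ⟨c84347, c107521, trivial⟩ (nd (nat_lit 255) (nat_lit 0) (cs (rf (nat_lit 0)) (cs (rf (nat_lit 1)) (nd (nat_lit 296) (nat_lit 0) (cs (lf (nat_lit 30) (nat_lit 230)) (nd (nat_lit 233) (nat_lit 0) (cs (lf (nat_lit 6) (nat_lit 230)) (nd (nat_lit 230) (nat_lit 0) (cs (lf (nat_lit 5) (nat_lit 230)) (nd (nat_lit 211) (nat_lit 0) (cs (lf (nat_lit 17) (nat_lit 208)) (nd (nat_lit 229) (nat_lit 0) (cs (lf (nat_lit 16) (nat_lit 207)) (lf (nat_lit 47) (nat_lit 207))))))))))))))) q109818 (by decide +kernel)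
def q109823 : Q := Q.p (nat_lit 0xc00006000018000040000000000000000000000000000000000000000000000000000) (nat_lit 0x8000070000398000e6000380000200000800000000000000000000000000000000000000000) (nat_lit 7)
theorem c109823 : QOK q109823 := cut [q79994, q101895, q104873] ⟨c79994, c101895, c104873, trivial⟩ (nd (nat_lit 233) (nat_lit 0) (cs (rf (nat_lit 0)) (cs (rf (nat_lit 1)) (nd (nat_lit 255) (nat_lit 0) (cs (lf (nat_lit 6) (nat_lit 252)) (nd (nat_lit 229) (nat_lit 0) (cs (lf (nat_lit 1) (nat_lit 229)) (rf (nat_lit 2))))))))) q109823 (by decide +kernel)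
def q109832 : Q := Q.p (nat_lit 0xe00006000008000020000000000000000000000000000000000000000000000000000) (nat_lit 0x800000000010000178001de000160000000000000000000000000000000000000000000000) (nat_lit 8)
theorem c109832 : QOK q109832 := cut [q91450, q98145, q98150] ⟨c91450, c98145, c98150, trivial⟩ (nd (nat_lit 230) (nat_lit 0) (cs (rf (nat_lit 0)) (cs (rf (nat_lit 1)) (rf (nat_lit 2))))) q109832 (by decide +kernel)
def q109916 : Q := Q.p (nat_lit 0x380000a00000000000000000000000000000000000000000000000000000000000000000000) (nat_lit 0xe70003c00003100000000000000000000000000000000000000000000000000000000000000000000) (nat_lit 7)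
theorem c109916 : QOK q109916 := cut [q28307] ⟨c28307, trivial⟩ (nd (nat_lit 298) (nat_lit 0) (cs (lf (nat_lit 23) (nat_lit 272)) (nd (nat_lit 276) (nat_lit 0) (cs (lf (nat_lit 17) (nat_lit 273)) (rf (nat_lit 0)))))) q109916 (by decide +kernel)
def q109924 : Q := Q.p (nat_lit 0x380000800003000008000000000000000000000000000000000000000000000000000000000) (nat_lit 0x20000000000400004000007800018000000000000000000000000000000000000000000000000000) (nat_lit 5)
theorem c109924 : QOK q109924 := cut [q89391] ⟨c89391, trivial⟩ (nd (nat_lit 230) (nat_lit 0) (cs (lf (nat_lit 47) (nat_lit 208)) (rf (nat_lit 0)))) q109924 (by decide +kernel)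
def q109969 : Q := Q.p (nat_lit 0x200000800002000000000000000000000000000000000000000000000000000000000000000) (nat_lit 0x500001c0000700000c0000500001400005c0007c0000700000c0000100000000000000000000000000000000000000000) (nat_lit 11)
theorem c109969 : QOK q109969 := cut [q100749, q108258, q109954] ⟨c100749, c108258, c109954, trivial⟩ (nd (nat_lit 231) (nat_lit 0) (cs (rf (nat_lit 0)) (cs (rf (nat_lit 1)) (rf (nat_lit 2))))) q109969 (by decide +kernel)
def q110022 : Q := Q.p (nat_lit 0x40000300000c000000000000000000000000000000000000000000000000000000000) (nat_lit 0xe0000380000200000000002000018000020000000000000000000000000000000000000000000000) (nat_lit 6)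
theorem c110022 : QOK q110022 := cut [q81320] ⟨c81320, trivial⟩ (nd (nat_lit 296) (nat_lit 0) (cs (lf (nat_lit 30) (nat_lit 230)) (nd (nat_lit 297) (nat_lit 0) (cs (lf (nat_lit 29) (nat_lit 230)) (rf (nat_lit 0)))))) q110022 (by decide +kernel)
def q110038 : Q := Q.p (nat_lit 0x3800000000000000000000000000000000000000000000000000000000000000) (nat_lit 0x20000480003f8001c40003e000020000080000000000000000000000000000000000000000000000) (nat_lit 10)
theorem c110038 : QOK q110038 := cut [q79009, q79013, q105199, q110037] ⟨c79009, c79013, c105199, c110037, trivial⟩ (nd (nat_lit 254) (nat_lit 0) (cs (rf (nat_lit 0)) (cs (rf (nat_lit 1)) (cs (rf (nat_lit 2)) (rf (nat_lit 3)))))) q110038 (by decide +kernel)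
def q110041 : Q := Q.p (nat_lit 0x3000004000010000000000000000000000000000000000000000000000000000) (nat_lit 0xa0000380000f8000c0000020000280000a0000000000000000000000000000000000000000000000) (nat_lit 6)
theorem c110041 : QOK q110041 := cut [q84156, q110039, q110040] ⟨c84156, c110039, c110040, trivial⟩ (nd (nat_lit 274) (nat_lit 0) (cs (rf (nat_lit 0)) (cs (rf (nat_lit 1)) (rf (nat_lit 2))))) q110041 (by decide +kernel)
def q110069 : Q := Q.p (nat_lit 0xc00003000008000020000000000000000000000000000000000000000000000000000) (nat_lit 0x80000200001c0000720001c0000700000c0000300000000000000000000000000000000000000000000000) (nat_lit 10)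
theorem c110069 : QOK q110069 := cut [q110066] ⟨c110066, trivial⟩ (nd (nat_lit 188) (nat_lit 0) (cs (lf (nat_lit 34) (nat_lit 187)) (nd (nat_lit 276) (nat_lit 0) (cs (lf (nat_lit 29) (nat_lit 209)) (nd (nat_lit 277) (nat_lit 0) (cs (lf (nat_lit 18) (nat_lit 252)) (rf (nat_lit 0)))))))) q110069 (by decide +kernel)
def q110099 : Q := Q.p (nat_lit 0x300000c000020000000000000000000000000000000000000000000000000000) (nat_lit 0xc0001f00007c000000000130001c0000100000000000000000000000000000000000000000000000) (nat_lit 9)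
theorem c110099 : QOK q110099 := cut [q93588, q110053, q98475] ⟨c93588, c110053, c98475, trivial⟩ (nd (nat_lit 275) (nat_lit 0) (cs (rf (nat_lit 0)) (cs (rf (nat_lit 1)) (nd (nat_lit 274) (nat_lit 0) (cs (lf (nat_lit 30) (nat_lit 208)) (rf (nat_lit 2))))))) q110099 (by decide +kernel)
def q110107 : Q := Q.p (nat_lit 0x300000c000000000000000000000000000000000000000000000000000000000) (nat_lit 0x1c00007800078000000000130001f00001c0000300000000000000000000000000000000000000000) (nat_lit 7)
theorem c110107 : QOK q110107 := cut [q81477, q92844, q110082] ⟨c81477, c92844, c110082, trivial⟩ (nd (nat_lit 275) (nat_lit 0) (cs (rf (nat_lit 0)) (cs (rf (nat_lit 1)) (rf (nat_lit 2))))) q110107 (by decide +kernel)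
def q110109 : Q := Q.p (nat_lit 0x80000300000c000030000000000000000000000000000000000000000000000000000) (nat_lit 0x4000070000000000700001ce000138000000000000000000000000000000000000000000000) (nat_lit 9)
theorem c110109 : QOK q110109 := cut [q92809] ⟨c92809, trivial⟩ (nd (nat_lit 276) (nat_lit 0) (cs (lf (nat_lit 29) (nat_lit 209)) (nd (nat_lit 277) (nat_lit 0) (cs (lf (nat_lit 18) (nat_lit 252)) (rf (nat_lit 0)))))) q110109 (by decide +kernel)
def q110186 : Q := Q.p (nat_lit 0x400003000004000010000000000000000000000000000000000000000000000000000) (nat_lit 0x200000e0000380000200000000008000000000000000000000000000000000000000000000000000000000) (nat_lit 5)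
theorem c110186 : QOK q110186 := cut [q79046] ⟨c79046, trivial⟩ (nd (nat_lit 295) (nat_lit 0) (cs (lf (nat_lit 40) (nat_lit 207)) (rf (nat_lit 0)))) q110186 (by decide +kernel)
def q110236 : Q := Q.p (nat_lit 0x3000004000000000000000000000000000000000000000000000000000000000) (nat_lit 0x20000180000f8000c00000b80003e0003e0000380000e00003000008000000000000000000000000) (nat_lit 10)
theorem c110236 : QOK q110236 := cut [q6259, q79066, q110050, q110039, q110040, q98469] ⟨c6259, c79066, c110050, c110039, c110040, c98469, trivial⟩ (nd (nat_lit 208) (nat_lit 0) (cs (rf (nat_lit 0)) (cs (rf (nat_lit 1)) (cs (rf (nat_lit 2)) (nd (nat_lit 274) (nat_lit 0) (cs (rf (nat_lit 3)) (cs (rf (nat_lit 4)) (nd (nat_lit 207) (nat_lit 0) (cs (lf (nat_lit 47) (nat_lit 185)) (nd (nat_lit 187) (nat_lit 0) (cs (lf (nat_lit 34) (nat_lit 186)) (rf (nat_lit 5))))))))))))) q110236 (by decide +kernel)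
def q110244 : Q := Q.p (nat_lit 0xc0000700000c000000000000000000000000000000000000000000000000000000000) (nat_lit 0x1c00007000000000013000060000180000000000000000000000000000000000000000000000) (nat_lit 7)
theorem c110244 : QOK q110244 := cut [q79055] ⟨c79055, trivial⟩ (nd (nat_lit 209) (nat_lit 0) (cs (lf (nat_lit 36) (nat_lit 186)) (rf (nat_lit 0)))) q110244 (by decide +kernel)
def q110249 : Q := Q.p (nat_lit 0xc00007000004000000000000000000000000000000000000000000000000000000000) (nat_lit 0x380000e00003e0000380000000002000008000000000000000000000000000000000000000000000000000) (nat_lit 7)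
theorem c110249 : QOK q110249 := cut [q22351, q105298, q99384] ⟨c22351, c105298, c99384, trivial⟩ (nd (nat_lit 296) (nat_lit 0) (cs (rf (nat_lit 0)) (cs (rf (nat_lit 1)) (nd (nat_lit 297) (nat_lit 0) (cs (lf (nat_lit 42) (nat_lit 230)) (nd (nat_lit 207) (nat_lit 0) (cs (lf (nat_lit 46) (nat_lit 207)) (rf (nat_lit 2))))))))) q110249 (by decide +kernel)
def q110254 : Q := Q.p (nat_lit 0x20000080000700000c000000000000000000000000000000000000000000000000000000000) (nat_lit 0x1400005000010000000000700001c0000000000000000000000000000000000000000000000000000) (nat_lit 6)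
theorem c110254 : QOK q110254 := cut [q80295] ⟨c80295, trivial⟩ (nd (nat_lit 298) (nat_lit 0) (cs (lf (nat_lit 29) (nat_lit 231)) (nd (nat_lit 232) (nat_lit 0) (cs (lf (nat_lit 35) (nat_lit 209)) (rf (nat_lit 0)))))) q110254 (by decide +kernel)
def q110266 : Q := Q.p (nat_lit 0x400003000004000000000000000000000000000000000000000000000000000000000) (nat_lit 0x80000380000e0000380000800000000008000030000080000000000000000000000000000000000000000000000) (nat_lit 6)
theorem c110266 : QOK q110266 := cut [q4419, q80653, q110230] ⟨c4419, c80653, c110230, trivial⟩ (nd (nat_lit 296) (nat_lit 0) (cs (rf (nat_lit 0)) (cs (rf (nat_lit 1)) (rf (nat_lit 2))))) q110266 (by decide +kernel)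
def q110277 : Q := Q.p (nat_lit 0x800007000004000000000000000000000000000000000000000000000000000000000) (nat_lit 0x180000600001e000370000000000b800038000060000000000000000000000000000000000000000000000) (nat_lit 9)
theorem c110277 : QOK q110277 := cut [q79080, q4419, q22351, q110269, q110276] ⟨c79080, c4419, c22351, c110269, c110276, trivial⟩ (nd (nat_lit 274) (nat_lit 0) (cs (rf (nat_lit 0)) (cs (nd (nat_lit 296) (nat_lit 0) (cs (rf (nat_lit 1)) (cs (rf (nat_lit 2)) (nd (nat_lit 272) (nat_lit 0) (cs (lf (nat_lit 13) (nat_lit 250)) (nd (nat_lit 295) (nat_lit 0) (cs (lf (nat_lit 41) (nat_lit 229)) (nd (nat_lit 293) (nat_lit 0) (cs (lf (nat_lit 13) (nat_lit 271)) (nd (nat_lit 276) (nat_lit 0) (cs (lf (nat_lit 6) (nat_lit 273)) (rf (nat_lit 3))))))))))))) (rf (nat_lit 4))))) q110277 (by decide +kernel)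
def q110333 : Q := Q.p (nat_lit 0x200000800003000008000000000000000000000000000000000000000000000000000000000) (nat_lit 0x140000500000000000800074000050000000000000000000000000000000000000000000000000000) (nat_lit 6)
theorem c110333 : QOK q110333 := cut [q92006] ⟨c92006, trivial⟩ (nd (nat_lit 230) (nat_lit 0) (cs (lf (nat_lit 47) (nat_lit 208)) (rf (nat_lit 0)))) q110333 (by decide +kernel)
def q110353 : Q := Q.p (nat_lit 0xc00003000004000000000000000000000000000000000000000000000000000000000) (nat_lit 0x1800003800000000030000f80000e0000000000000000000000000000000000000000000000) (nat_lit 8)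
theorem c110353 : QOK q110353 := cut [q25613] ⟨c25613, trivial⟩ (nd (nat_lit 208) (nat_lit 0) (cs (lf (nat_lit 24) (nat_lit 186)) (nd (nat_lit 273) (nat_lit 0) (cs (lf (nat_lit 41) (nat_lit 207)) (nd (nat_lit 207) (nat_lit 0) (cs (lf (nat_lit 47) (nat_lit 185)) (nd (nat_lit 271) (nat_lit 0) (cs (lf (nat_lit 13) (nat_lit 249)) (rf (nat_lit 0)))))))))) q110353 (by decide +kernel)
def q110357 : Q := Q.p (nat_lit 0x1c00003000000000000000000000000000000000000000000000000000000000000000) (nat_lit 0x58000160000de0000380000e0000300000c000030000000000000000000000000000000000000000000000) (nat_lit 11)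
theorem c110357 : QOK q110357 := cut [q2180, q12665, q5304, q108449] ⟨c2180, c12665, c5304, c108449, trivial⟩ (nd (nat_lit 273) (nat_lit 0) (cs (rf (nat_lit 0)) (cs (rf (nat_lit 1)) (nd (nat_lit 251) (nat_lit 0) (cs (rf (nat_lit 2)) (rf (nat_lit 3))))))) q110357 (by decide +kernel)
def q110371 : Q := Q.p (nat_lit 0x100000c00003000004000000000000000000000000000000000000000000000000000000000) (nat_lit 0x200007a0001e80003380000e0000380000c000000000000000000000000000000000000000000000000000) (nat_lit 11)
theorem c110371 : QOK q110371 := cut [q5304, q99161, q86873, q99169] ⟨c5304, c99161, c86873, c99169, trivial⟩ (nd (nat_lit 251) (nat_lit 0) (cs (rf (nat_lit 0)) (cs (rf (nat_lit 1)) (nd (nat_lit 297) (nat_lit 0) (cs (rf (nat_lit 2)) (rf (nat_lit 3))))))) q110371 (by decide +kernel)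
def q110428 : Q := Q.p (nat_lit 0x200000800003000000000000000000000000000000000000000000000000000000000000000) (nat_lit 0x140000700001c00004000004000000000180000700001c0000100000000000000000000000000000000000000000) (nat_lit 9)
theorem c110428 : QOK q110428 := cut [q2579, q2615, q99486, q22910] ⟨c2579, c2615, c99486, c22910, trivial⟩ (nd (nat_lit 319) (nat_lit 0) (cs (rf (nat_lit 0)) (cs (rf (nat_lit 1)) (cs (rf (nat_lit 2)) (nd (nat_lit 274) (nat_lit 0) (cs (lf (nat_lit 42) (nat_lit 252)) (rf (nat_lit 3)))))))) q110428 (by decide +kernel)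
def q110477 : Q := Q.p (nat_lit 0x800003800004000000000000000000000000000000000000000000000000000000000) (nat_lit 0x20000000000000003b0001f00001c0000700000000000000000000000000000000000000000) (nat_lit 6)
theorem c110477 : QOK q110477 := cut [q81477, q92844, q100798] ⟨c81477, c92844, c100798, trivial⟩ (nd (nat_lit 231) (nat_lit 0) (cs (rf (nat_lit 0)) (cs (rf (nat_lit 1)) (rf (nat_lit 2))))) q110477 (by decide +kernel)
def q110513 : Q := Q.p (nat_lit 0x3800000000000000000000000000000000000000000000000000000000000000) (nat_lit 0x780000c40007b800000000000000000000000000000000000000000000000000000000) (nat_lit 6)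
theorem c110513 : QOK q110513 := cut [q79024, q81085, q105767, q110037] ⟨c79024, c81085, c105767, c110037, trivial⟩ (nd (nat_lit 254) (nat_lit 0) (cs (rf (nat_lit 0)) (cs (rf (nat_lit 1)) (cs (rf (nat_lit 2)) (rf (nat_lit 3)))))) q110513 (by decide +kernel)
def q110514 : Q := Q.p (nat_lit 0x3800000000000000000000000000000000000000000000000000000000000000) (nat_lit 0x3f8000c400078000000000000000000000000000000000000000000000000000000000) (nat_lit 5)
theorem c110514 : QOK q110514 := cut [q79009, q79020, q110037] ⟨c79009, c79020, c110037, trivial⟩ (nd (nat_lit 254) (nat_lit 0) (cs (rf (nat_lit 0)) (cs (rf (nat_lit 1)) (rf (nat_lit 2))))) q110514 (by decide +kernel)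
def q110525 : Q := Q.p (nat_lit 0xf000000000000000000000000000000000000000000000000000000000000000) (nat_lit 0x1c0000700001c000076000000000760001c0000700001800004000000000000000000000000000000000000) (nat_lit 13)
theorem c110525 : QOK q110525 := cut [q80394, q80403, q80415, q82418] ⟨c80394, c80403, c80415, c82418, trivial⟩ (nd (nat_lit 233) (nat_lit 0) (cs (lf (nat_lit 17) (nat_lit 230)) (nd (nat_lit 211) (nat_lit 0) (cs (rf (nat_lit 0)) (cs (rf (nat_lit 1)) (cs (rf (nat_lit 2)) (nd (nat_lit 277) (nat_lit 0) (cs (lf (nat_lit 5) (nat_lit 252)) (nd (nat_lit 190) (nat_lit 0) (cs (lf (nat_lit 34) (nat_lit 189)) (nd (nat_lit 168) (nat_lit 0) (cs (lf (nat_lit 33) (nat_lit 167)) (nd (nat_lit 229) (nat_lit 0) (cs (lf (nat_lit 22) (nat_lit 229)) (nd (nat_lit 273) (nat_lit 0) (cs (lf (nat_lit 10) (nat_lit 251)) (nd (nat_lit 210) (nat_lit 0) (cs (lf (nat_lit 47) (nat_lit 188)) (nd (nat_lit 299) (nat_lit 0) (cs (lf (nat_lit 46) (nat_lit 210)) (nd (nat_lit 320) (nat_lit 0) (cs (lf (nat_lit 40) (nat_lit 232)) (rf (nat_lit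 3)))))))))))))))))))))))) q110525 (by decide +kernel)
def q110526 : Q := Q.p (nat_lit 0xf000000000000000000000000000000000000000000000000000000000000000) (nat_lit 0xe0000100000e6000000000000000000000000000000000000000000000000000000000) (nat_lit 5)
theorem c110526 : QOK q110526 := cut [q107554] ⟨c107554, trivial⟩ (nd (nat_lit 229) (nat_lit 0) (cs (lf (nat_lit 22) (nat_lit 229)) (rf (nat_lit 0)))) q110526 (by decide +kernel)
def q110532 : Q := Q.p (nat_lit 0x7000000000000000000000000000000000000000000000000000000000000000) (nat_lit 0x1f00007c0003f80000c0003780001c0000700001c0000500000000000000000000000000000000000) (nat_lit 15)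
theorem c110532 : QOK q110532 := cut [q79009, q79024, q79201, q5482, q80443, q80448, q80450] ⟨c79009, c79024, c79201, c5482, c80443, c80448, c80450, trivial⟩ (nd (nat_lit 251) (nat_lit 0) (cs (rf (nat_lit 0)) (cs (rf (nat_lit 1)) (cs (rf (nat_lit 2)) (nd (nat_lit 229) (nat_lit 0) (cs (lf (nat_lit 23) (nat_lit 228)) (nd (nat_lit 207) (nat_lit 0) (cs (rf (nat_lit 3)) (cs (rf (nat_lit 4)) (cs (rf (nat_lit 5)) (rf (nat_lit 6)))))))))))) q110532 (by decide +kernel)
def q110533 : Q := Q.p (nat_lit 0x7000000000000000000000000000000000000000000000000000000000000000) (nat_lit 0xf0000188000f7000000000000000000000000000000000000000000000000000000000) (nat_lit 5)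
theorem c110533 : QOK q110533 := cut [q80464, q98272, q107554] ⟨c80464, c98272, c107554, trivial⟩ (nd (nat_lit 255) (nat_lit 0) (cs (rf (nat_lit 0)) (cs (rf (nat_lit 1)) (rf (nat_lit 2))))) q110533 (by decide +kernel)
def q110535 : Q := Q.p (nat_lit 0x7000000000000000000000000000000000000000000000000000000000000000) (nat_lit 0xee00018800077000000000000000000000000000000000000000000000000000000000) (nat_lit 5)
theorem c110535 : QOK q110535 := cut [q80464, q102864] ⟨c80464, c102864, trivial⟩ (nd (nat_lit 255) (nat_lit 0) (cs (rf (nat_lit 0)) (rf (nat_lit 1)))) q110535 (by decide +kernel)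
def q110536 : Q := Q.p (nat_lit 0x7000000000000000000000000000000000000000000000000000000000000000) (nat_lit 0xfe000188000f0000000000000000000000000000000000000000000000000000000000) (nat_lit 5)
theorem c110536 : QOK q110536 := cut [q102864, q105822, q110527] ⟨c102864, c105822, c110527, trivial⟩ (nd (nat_lit 255) (nat_lit 0) (cs (rf (nat_lit 0)) (cs (rf (nat_lit 1)) (rf (nat_lit 2))))) q110536 (by decide +kernel)
def q110537 : Q := Q.p (nat_lit 0x7000000000000000000000000000000000000000000000000000000000000000) (nat_lit 0x7f80008c00003800000000000000000000000000000000000000000000000000000000) (nat_lit 5)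
theorem c110537 : QOK q110537 := cut [q79024, q79201, q103009] ⟨c79024, c79201, c103009, trivial⟩ (nd (nat_lit 251) (nat_lit 0) (cs (rf (nat_lit 0)) (cs (rf (nat_lit 1)) (rf (nat_lit 2))))) q110537 (by decide +kernel)
def q110543 : Q := Q.p (nat_lit 0x3800000000000000000000000000000000000000000000000000000000000000) (nat_lit 0x7b8000c400078000000000000000000000000000000000000000000000000000000000) (nat_lit 5)
theorem c110543 : QOK q110543 := cut [q79009, q79013, q105829] ⟨c79009, c79013, c105829, trivial⟩ (nd (nat_lit 254) (nat_lit 0) (cs (rf (nat_lit 0)) (cs (rf (nat_lit 1)) (rf (nat_lit 2))))) q110543 (by decide +kernel)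
def q110547 : Q := Q.p (nat_lit 0xf000000000000000000000000000000000000000000000000000000000000000) (nat_lit 0x6000100000ee000000000000000000000000000000000000000000000000000000000) (nat_lit 5)
theorem c110547 : QOK q110547 := cut [q110546] ⟨c110546, trivial⟩ (nd (nat_lit 273) (nat_lit 0) (cs (lf (nat_lit 10) (nat_lit 251)) (rf (nat_lit 0)))) q110547 (by decide +kernel)
def q110550 : Q := Q.p (nat_lit 0x7000000000000000000000000000000000000000000000000000000000000000) (nat_lit 0xf7000188000f0000000000000000000000000000000000000000000000000000000000) (nat_lit 5)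
theorem c110550 : QOK q110550 := cut [q79217, q80609, q107554] ⟨c79217, c80609, c107554, trivial⟩ (nd (nat_lit 255) (nat_lit 0) (cs (rf (nat_lit 0)) (cs (rf (nat_lit 1)) (rf (nat_lit 2))))) q110550 (by decide +kernel)
def q110565 : Q := Q.p (nat_lit 0x7000014000000000000000000000000000000000000000000000000000000000) (nat_lit 0x80003300000800023000010000040000000000000000000000000000000000000000000000) (nat_lit 6)
theorem c110565 : QOK q110565 := cut [q110564] ⟨c110564, trivial⟩ (nd (nat_lit 251) (nat_lit 0) (cs (lf (nat_lit 17) (nat_lit 229)) (rf (nat_lit 0)))) q110565 (by decide +kernel)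
def q110639 : Q := Q.p (nat_lit 0x1800007000000000000000000000000000000000000000000000000000000000000000) (nat_lit 0x700038c000e0000000000000000000000000000000000000000000000000000000000) (nat_lit 6)
theorem c110639 : QOK q110639 := cut [q108263] ⟨c108263, trivial⟩ (nd (nat_lit 251) (nat_lit 0) (cs (lf (nat_lit 0) (nat_lit 250)) (rf (nat_lit 0)))) q110639 (by decide +kernel)
def q110667 : Q := Q.p (nat_lit 0x200000800003000000000000000000000000000000000000000000000000000000000000000) (nat_lit 0x8000000000f70001c8000f0000040000100000000000000000000000000000000000000000000000) (nat_lit 6)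
theorem c110667 : QOK q110667 := cut [q81192, q109859, q79217, q102935, q107554] ⟨c81192, c109859, c79217, c102935, c107554, trivial⟩ (nd (nat_lit 254) (nat_lit 0) (cs (rf (nat_lit 0)) (cs (rf (nat_lit 1)) (nd (nat_lit 255) (nat_lit 0) (cs (rf (nat_lit 2)) (cs (rf (nat_lit 3)) (rf (nat_lit 4)))))))) q110667 (by decide +kernel)
def q110685 : Q := Q.p (nat_lit 0x800003000000000000000000000000000000000000000000000000000000000000000) (nat_lit 0x140000700003e00007c000778003cc000ec000030000040000000000000000000000000000000000000000000000) (nat_lit 10)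
theorem c110685 : QOK q110685 := cut [q88933, q88941, q110461, q90752, q91138, q88742, q108262, q110675, q15058] ⟨c88933, c88941, c110461, c90752, c91138, c88742, c108262, c110675, c15058, trivial⟩ (nd (nat_lit 297) (nat_lit 0) (cs (rf (nat_lit 0)) (cs (rf (nat_lit 1)) (cs (rf (nat_lit 2)) (nd (nat_lit 296) (nat_lit 0) (cs (rf (nat_lit 3)) (cs (rf (nat_lit 4)) (nd (nat_lit 276) (nat_lit 0) (cs (rf (nat_lit 5)) (cs (nd (nat_lit 273) (nat_lit 0) (cs (nd (nat_lit 295) (nat_lit 0) (cs (lf (nat_lit 12) (nat_lit 272)) (nd (nat_lit 251) (nat_lit 0) (cs (lf (nat_lit 0) (nat_lit 250)) (nd (nat_lit 230) (nat_lit 0) (cs (lf (nat_lit 30) (nat_lit 229)) (nd (nat_lit 208) (nat_lit 0) (cs (lf (nat_lit 27) (nat_lit 208)) (lf (nat_lit 36) (nat_lit 185)))))))))) (cs (nd (nat_lit 251) (nat_lit 0) (cs (lf (nat_lit 0) (nat_lit 250)) (nd (nat_lit 254) (nat_lit 0) (cs (lf (nat_lit 11) (nat_lit 250)) (rf (nat_lit 6)))))) (cs (nd (nat_lit 295) (nat_lit 0) (cs (lf (nat_lit 12) (nat_lit 272)) (rf (nat_lit 7)))) (nd (nat_lit 295) (nat_lit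 0) (cs (lf (nat_lit 12) (nat_lit 272)) (nd (nat_lit 250) (nat_lit 0) (cs (lf (nat_lit 1) (nat_lit 250)) (nd (nat_lit 298) (nat_lit 0) (cs (lf (nat_lit 23) (nat_lit 272)) (rf (nat_lit 8)))))))))))) (nd (nat_lit 295) (nat_lit 0) (cs (lf (nat_lit 12) (nat_lit 272)) (nd (nat_lit 277) (nat_lit 0) (cs (lf (nat_lit 18) (nat_lit 252)) (lf (nat_lit 9) (nat_lit 273)))))))))))))))) q110685 (by decide +kernel)
def q110686 : Q := Q.p (nat_lit 0x1800007000000000000000000000000000000000000000000000000000000000000000) (nat_lit 0x100000400000600018000070000080000200000000000000000000000000000000000000000000000) (nat_lit 5)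
theorem c110686 : QOK q110686 := cut [q97540, q102935] ⟨c97540, c102935, trivial⟩ (nd (nat_lit 255) (nat_lit 0) (cs (rf (nat_lit 0)) (rf (nat_lit 1)))) q110686 (by decide +kernel)
def q110729 : Q := Q.p (nat_lit 0x400003800006000000000000000000000000000000000000000000000000000000000) (nat_lit 0x4000010000020000c0000080000300000c0000100000000000000000000000000000000000000000) (nat_lit 6)
theorem c110729 : QOK q110729 := cut [q106448] ⟨c106448, trivial⟩ (nd (nat_lit 254) (nat_lit 0) (cs (lf (nat_lit 18) (nat_lit 229)) (rf (nat_lit 0)))) q110729 (by decide +kernel)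
def q110765 : Q := Q.p (nat_lit 0x1000006000010000000000000000000000000000000000000000000000000000000000) (nat_lit 0xa0000380000e00000800000000008000060000380000c00002000000000000000000000000000000000000) (nat_lit 7)
theorem c110765 : QOK q110765 := cut [q79123, q89992, q110503] ⟨c79123, c89992, c110503, trivial⟩ (nd (nat_lit 210) (nat_lit 0) (cs (rf (nat_lit 0)) (cs (rf (nat_lit 1)) (rf (nat_lit 2))))) q110765 (by decide +kernel)
def q110768 : Q := Q.p (nat_lit 0x7000000000000000000000000000000000000000000000000000000000000000) (nat_lit 0xf0000188000ef000000000000000000000000000000000000000000000000000000000) (nat_lit 5)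
theorem c110768 : QOK q110768 := cut [q98272, q107554, q110546] ⟨c98272, c107554, c110546, trivial⟩ (nd (nat_lit 255) (nat_lit 0) (cs (rf (nat_lit 0)) (cs (rf (nat_lit 1)) (rf (nat_lit 2))))) q110768 (by decide +kernel)
def q110782 : Q := Q.p (nat_lit 0x700000c000030000000000000000000000000000000000000000000000000000) (nat_lit 0x10000040000000000380000e000020000000000000000000000000000000000000000000000) (nat_lit 5)
theorem c110782 : QOK q110782 := cut [q110781] ⟨c110781, trivial⟩ (nd (nat_lit 228) (nat_lit 0) (cs (lf (nat_lit 1) (nat_lit 228)) (rf (nat_lit 0)))) q110782 (by decide +kernel)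
def q110835 : Q := Q.p (nat_lit 0x200003800004000000000000000000000000000000000000000000000000000000000) (nat_lit 0x80000f00003c0000c00003a00003c0000f0000380000a00000000000000000000000000000000000) (nat_lit 10)
theorem c110835 : QOK q110835 := cut [q6259, q79029, q79066, q110304, q84155, q105124, q106807] ⟨c6259, c79029, c79066, c110304, c84155, c105124, c106807, trivial⟩ (nd (nat_lit 208) (nat_lit 0) (cs (rf (nat_lit 0)) (cs (rf (nat_lit 1)) (cs (rf (nat_lit 2)) (cs (rf (nat_lit 3)) (nd (nat_lit 274) (nat_lit 0) (cs (rf (nat_lit 4)) (cs (rf (nat_lit 5)) (rf (nat_lit 6)))))))))) q110835 (by decide +kernel)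
def q110853 : Q := Q.p (nat_lit 0x60000380000c000000000000000000000000000000000000000000000000000000000) (nat_lit 0x20000098000000003200003e0000e0000000000000000000000000000000000000000000000) (nat_lit 8)
theorem c110853 : QOK q110853 := cut [q96216] ⟨c96216, trivial⟩ (nd (nat_lit 208) (nat_lit 0) (cs (lf (nat_lit 36) (nat_lit 185)) (nd (nat_lit 271) (nat_lit 0) (cs (lf (nat_lit 13) (nat_lit 249)) (nd (nat_lit 275) (nat_lit 0) (cs (lf (nat_lit 42) (nat_lit 208)) (nd (nat_lit 187) (nat_lit 0) (cs (lf (nat_lit 34) (nat_lit 186)) (rf (nat_lit 0)))))))))) q110853 (by decide +kernel)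
def q110866 : Q := Q.p (nat_lit 0x3800006000000000000000000000000000000000000000000000000000000000) (nat_lit 0x10000040000380000700008000008000020000000000000000000000000000000000000000000000) (nat_lit 5)
theorem c110866 : QOK q110866 := cut [q1058, q87918] ⟨c1058, c87918, trivial⟩ (nd (nat_lit 250) (nat_lit 0) (cs (rf (nat_lit 0)) (rf (nat_lit 1)))) q110866 (by decide +kernel)
def q110944 : Q := Q.p (nat_lit 0x7000004000000000000000000000000000000000000000000000000000000000) (nat_lit 0x2000008001ff00038c001d8000000000000000000000000000000000000000000000000000000000) (nat_lit 8)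
theorem c110944 : QOK q110944 := cut [q79217, q110840] ⟨c79217, c110840, trivial⟩ (nd (nat_lit 255) (nat_lit 0) (cs (rf (nat_lit 0)) (cs (rf (nat_lit 1)) (nd (nat_lit 273) (nat_lit 0) (cs (lf (nat_lit 10) (nat_lit 251)) (nd (nat_lit 251) (nat_lit 0) (cs (lf (nat_lit 11) (nat_lit 250)) (nd (nat_lit 295) (nat_lit 0) (cs (lf (nat_lit 30) (nat_lit 229)) (nd (nat_lit 276) (nat_lit 0) (cs (lf (nat_lit 5) (nat_lit 251)) (nd (nat_lit 250) (nat_lit 0) (cs (lf (nat_lit 4) (nat_lit 250)) (nd (nat_lit 231) (nat_lit 0) (cs (lf (nat_lit 17) (nat_lit 228)) (lf (nat_lit 18) (nat_lit 230))))))))))))))))) q110944 (by decide +kernel)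
def q110972 : Q := Q.p (nat_lit 0x3800002000018000000000000000000000000000000000000000000000000000) (nat_lit 0x80000f80003e0000000000dc000e7000790000200000800000000000000000000000000000000000) (nat_lit 8)
theorem c110972 : QOK q110972 := cut [q92654, q110299, q105124] ⟨c92654, c110299, c105124, trivial⟩ (nd (nat_lit 230) (nat_lit 0) (cs (rf (nat_lit 0)) (cs (rf (nat_lit 1)) (nd (nat_lit 273) (nat_lit 0) (cs (lf (nat_lit 30) (nat_lit 207)) (nd (nat_lit 274) (nat_lit 0) (cs (lf (nat_lit 29) (nat_lit 207)) (rf (nat_lit 2))))))))) q110972 (by decide +kernel)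
def q111023 : Q := Q.p (nat_lit 0x7000000000000000000000000000000000000000000000000000000000000000) (nat_lit 0x1f00018e0007b800000000000000000000000000000000000000000000000000000000) (nat_lit 7)
theorem c111023 : QOK q111023 := cut [q79020, q81085, q81675] ⟨c79020, c81085, c81675, trivial⟩ (nd (nat_lit 251) (nat_lit 0) (cs (rf (nat_lit 0)) (cs (rf (nat_lit 1)) (rf (nat_lit 2))))) q111023 (by decide +kernel)
def q111038 : Q := Q.p (nat_lit 0x6000038000040000000000000000000000000000000000000000000000000000) (nat_lit 0x1000000000004000380000380000e00000000000000000000000000000000000000000) (nat_lit 6)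
theorem c111038 : QOK q111038 := cut [q95749] ⟨c95749, trivial⟩ (nd (nat_lit 188) (nat_lit 0) (cs (lf (nat_lit 36) (nat_lit 165)) (rf (nat_lit 0)))) q111038 (by decide +kernel)
def q111147 : Q := Q.p (nat_lit 0x7000000000000000000000000000000000000000000000000000000000000000) (nat_lit 0x40000900007f0003880007c000040000100000000000000000000000000000000000000000000000) (nat_lit 10)
theorem c111147 : QOK q111147 := cut [q79217, q105822, q106400, q111146] ⟨c79217, c105822, c106400, c111146, trivial⟩ (nd (nat_lit 255) (nat_lit 0) (cs (rf (nat_lit 0)) (cs (rf (nat_lit 1)) (cs (rf (nat_lit 2)) (rf (nat_lit 3)))))) q111147 (by decide +kernel)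
def q111173 : Q := Q.p (nat_lit 0x400001000004000000000000000000000000000000000000000000000000000000000000000) (nat_lit 0x80000e0000380000a00002000008000030000080000000000000000000000000000000000000000000000000000) (nat_lit 5)
theorem c111173 : QOK q111173 := cut [q99974, q111168, q111172] ⟨c99974, c111168, c111172, trivial⟩ (nd (nat_lit 320) (nat_lit 0) (cs (rf (nat_lit 0)) (cs (rf (nat_lit 1)) (rf (nat_lit 2))))) q111173 (by decide +kernel)
def q111182 : Q := Q.p (nat_lit 0x1c00006000000000000000000000000000000000000000000000000000000000000000) (nat_lit 0x39c000e300000c00000000000000000000000000000000000000000000000000000000000000) (nat_lit 7)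
theorem c111182 : QOK q111182 := cut [q108188] ⟨c108188, trivial⟩ (nd (nat_lit 273) (nat_lit 0) (cs (lf (nat_lit 12) (nat_lit 250)) (nd (nat_lit 250) (nat_lit 0) (cs (lf (nat_lit 22) (nat_lit 250)) (rf (nat_lit 0)))))) q111182 (by decide +kernel)
def q111220 : Q := Q.p (nat_lit 0x200001800006000000000000000000000000000000000000000000000000000000000000000) (nat_lit 0x400001c000600000800001f0000700001c0000000000000000000000000000000000000000000000) (nat_lit 8)
theorem c111220 : QOK q111220 := cut [q111198, q111179] ⟨c111198, c111179, trivial⟩ (nd (nat_lit 231) (nat_lit 0) (cs (rf (nat_lit 0)) (cs (nd (nat_lit 232) (nat_lit 0) (cs (lf (nat_lit 36) (nat_lit 209)) (rf (nat_lit 1)))) (nd (nat_lit 209) (nat_lit 0) (cs (lf (nat_lit 24) (nat_lit 187)) (nd (nat_lit 210) (nat_lit 0) (cs (lf (nat_lit 35) (nat_lit 187)) (lf (nat_lit 37) (nat_lit 209))))))))) q111220 (by decide +kernel)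
def q111225 : Q := Q.p (nat_lit 0x1800006000008000000000000000000000000000000000000000000000000000000000) (nat_lit 0x2000000000000000060001f00001c0000000000000000000000000000000000000000000000) (nat_lit 6)
theorem c111225 : QOK q111225 := cut [q111224] ⟨c111224, trivial⟩ (nd (nat_lit 209) (nat_lit 0) (cs (lf (nat_lit 24) (nat_lit 187)) (rf (nat_lit 0)))) q111225 (by decide +kernel)
def q111235 : Q := Q.p (nat_lit 0x1800006000008000000000000000000000000000000000000000000000000000000000) (nat_lit 0x80003a0000e4000380000170000d0000300000000000000000000000000000000000000000000000) (nat_lit 9)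
theorem c111235 : QOK q111235 := cut [q90020, q111229, q111234] ⟨c90020, c111229, c111234, trivial⟩ (nd (nat_lit 232) (nat_lit 0) (cs (rf (nat_lit 0)) (cs (rf (nat_lit 1)) (rf (nat_lit 2))))) q111235 (by decide +kernel)
def q111239 : Q := Q.p (nat_lit 0x1800006000018000000000000000000000000000000000000000000000000000000000) (nat_lit 0x6400003c0000c0000000000000000000000000000000000000000000000) (nat_lit 5)
theorem c111239 : QOK q111239 := cut [q107543] ⟨c107543, trivial⟩ (nd (nat_lit 209) (nat_lit 0) (cs (lf (nat_lit 24) (nat_lit 187)) (rf (nat_lit 0)))) q111239 (by decide +kernel)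
def q111255 : Q := Q.p (nat_lit 0x1800006000008000000000000000000000000000000000000000000000000000000000) (nat_lit 0x100000600018000000000060000180000000000000000000000000000000000000000000000) (nat_lit 5)
theorem c111255 : QOK q111255 := cut [q80709] ⟨c80709, trivial⟩ (nd (nat_lit 209) (nat_lit 0) (cs (lf (nat_lit 24) (nat_lit 187)) (rf (nat_lit 0)))) q111255 (by decide +kernel)
def q111266 : Q := Q.p (nat_lit 0x600001800006000008000000000000000000000000000000000000000000000000000000000) (nat_lit 0x400009c0000700008000004000010000000000000000000000000000000000000000000000000000) (nat_lit 6)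
theorem c111266 : QOK q111266 := cut [q109088] ⟨c109088, trivial⟩ (nd (nat_lit 296) (nat_lit 0) (cs (lf (nat_lit 41) (nat_lit 230)) (nd (nat_lit 208) (nat_lit 0) (cs (lf (nat_lit 46) (nat_lit 208)) (rf (nat_lit 0)))))) q111266 (by decide +kernel)
def q111270 : Q := Q.p (nat_lit 0x3c0000c000000000000000000000000000000000000000000000000000000000000000) (nat_lit 0xc0000300001d80000000000000060000180000600000000000000000000000000000000000000000000000) (nat_lit 8)
theorem c111270 : QOK q111270 := cut [q108508] ⟨c108508, trivial⟩ (nd (nat_lit 295) (nat_lit 0) (cs (lf (nat_lit 10) (nat_lit 273)) (rf (nat_lit 0)))) q111270 (by decide +kernel)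
def q111373 : Q := Q.p (nat_lit 0x1800006000010000000000000000000000000000000000000000000000000000000000) (nat_lit 0x4000000000000000600000f8000380000000000000000000000000000000000000000000000) (nat_lit 6)
theorem c111373 : QOK q111373 := cut [q79753] ⟨c79753, trivial⟩ (nd (nat_lit 210) (nat_lit 0) (cs (lf (nat_lit 36) (nat_lit 187)) (rf (nat_lit 0)))) q111373 (by decide +kernel)
def q111421 : Q := Q.p (nat_lit 0x1000006000000000000000000000000000000000000000000000000000000000000000) (nat_lit 0x80000e00003f0007f8000ef000000000380000e0000380000000000000000000000000000000000000000000000) (nat_lit 13)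
theorem c111421 : QOK q111421 := cut [q81413, q90151, q79744, q111149, q100208, q23452, q99974, q111414, q79586] ⟨c81413, c90151, c79744, c111149, c100208, c23452, c99974, c111414, c79586, trivial⟩ (nd (nat_lit 298) (nat_lit 0) (cs (rf (nat_lit 0)) (cs (rf (nat_lit 1)) (cs (nd (nat_lit 232) (nat_lit 0) (cs (rf (nat_lit 2)) (cs (rf (nat_lit 3)) (nd (nat_lit 299) (nat_lit 0) (cs (lf (nat_lit 29) (nat_lit 232)) (nd (nat_lit 300) (nat_lit 0) (cs (nd (nat_lit 209) (nat_lit 0) (cs (lf (nat_lit 46) (nat_lit 209)) (nd (nat_lit 275) (nat_lit 0) (cs (lf (nat_lit 18) (nat_lit 275)) (nd (nat_lit 297) (nat_lit 0) (cs (lf (nat_lit 23) (nat_lit 274)) (lf (nat_lit 41) (nat_lit 231)))))))) (cs (nd (nat_lit 275) (nat_lit 0) (cs (lf (nat_lit 18) (nat_lit 275)) (rf (nat_lit 4)))) (cs (nd (nat_lit 209) (nat_lit 0) (cs (lf (nat_lit 46) (nat_lit 209)) (nd (nat_lit 211) (nat_lit 0) (cs (lf (nat_lit 34) (nat_lit 210)) (nd (nat_lit 297) (nat_lit 0) (cs (lf (nat_lit 41) (nat_lit 231)) (nd (nat_lit 278) (nat_lit 0) (cs (lf (nat_lit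 17) (nat_lit 275)) (nd (nat_lit 296) (nat_lit 0) (cs (lf (nat_lit 16) (nat_lit 274)) (nd (nat_lit 317) (nat_lit 0) (cs (lf (nat_lit 10) (nat_lit 295)) (nd (nat_lit 295) (nat_lit 0) (cs (lf (nat_lit 11) (nat_lit 294)) (rf (nat_lit 5)))))))))))))))) (nd (nat_lit 297) (nat_lit 0) (cs (lf (nat_lit 41) (nat_lit 231)) (nd (nat_lit 278) (nat_lit 0) (cs (lf (nat_lit 17) (nat_lit 275)) (nd (nat_lit 277) (nat_lit 0) (cs (lf (nat_lit 12) (nat_lit 274)) (nd (nat_lit 301) (nat_lit 0) (cs (lf (nat_lit 18) (nat_lit 276)) (lf (nat_lit 23) (nat_lit 275))))))))))))))))))) (nd (nat_lit 320) (nat_lit 0) (cs (rf (nat_lit 6)) (cs (nd (nat_lit 321) (nat_lit 0) (cs (lf (nat_lit 29) (nat_lit 254)) (nd (nat_lit 232) (nat_lit 0) (cs (lf (nat_lit 28) (nat_lit 232)) (rf (nat_lit 7)))))) (cs (nd (nat_lit 319) (nat_lit 0) (cs (lf (nat_lit 41) (nat_lit 253)) (nd (nat_lit 232) (nat_lit 0) (cs (lf (nat_lit 40) (nat_lit 231)) (rf (nat_lit 7)))))) (nd (nat_lit 321) (nat_lit 0) (cs (lf (nat_lit 29) (nat_lit 254)) (rf (nat_lit 8)))))))))))) q111421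 (by decide +kernel)
def q111462 : Q := Q.p (nat_lit 0x1000006000018000000000000000000000000000000000000000000000000000000000) (nat_lit 0x8000000000260003c0000380000600000800000000000000000000000000000000000) (nat_lit 5)
theorem c111462 : QOK q111462 := cut [q79160, q109316] ⟨c79160, c109316, trivial⟩ (nd (nat_lit 210) (nat_lit 0) (cs (rf (nat_lit 0)) (rf (nat_lit 1)))) q111462 (by decide +kernel)
def q111513 : Q := Q.p (nat_lit 0x400001000006000010000000000000000000000000000000000000000000000000000000000) (nat_lit 0x380000ef0007bc000280000800000000000000000000000000000000000000000) (nat_lit 8)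
theorem c111513 : QOK q111513 := cut [q79181, q111470] ⟨c79181, c111470, trivial⟩ (nd (nat_lit 231) (nat_lit 0x400000000000000000000000000000000000000000000000000000000000000000000000000) (cs (rf (nat_lit 0)) (rf (nat_lit 1)))) q111513 (by decide +kernel)
def q111537 : Q := Q.p (nat_lit 0x400001000006000000000000000000000000000000000000000000000000000000000000000) (nat_lit 0x60000180000e0000380000a00002800000000010000040000000000000000000000000000000000000000000000000000) (nat_lit 7)
theorem c111537 : QOK q111537 := cut [q79586, q99974, q111493] ⟨c79586, c99974, c111493, trivial⟩ (nd (nat_lit 320) (nat_lit 0) (cs (rf (nat_lit 0)) (cs (rf (nat_lit 1)) (cs (rf (nat_lit 2)) (nd (nat_lit 321) (nat_lit 0) (cs (lf (nat_lit 29) (nat_lit 254)) (nd (nat_lit 232) (nat_lit 0) (cs (lf (nat_lit 28) (nat_lit 232)) (nd (nat_lit 297) (nat_lit 0) (cs (lf (nat_lit 41) (nat_lit 231)) (nd (nat_lit 275) (nat_lit 0) (cs (lf (nat_lit 42) (nat_lit 253)) (lf (nat_lit 36) (nat_lit 209)))))))))))))) q111537 (by decide +kernel)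
def q111580 : Q := Q.p (nat_lit 0x600001c000000000000000000000000000000000000000000000000000000000) (nat_lit 0x1c000e300038c000000000000000000000000000000000000000000000000000) (nat_lit 7)
theorem c111580 : QOK q111580 := cut [q107014] ⟨c107014, trivial⟩ (nd (nat_lit 229) (nat_lit 0) (cs (lf (nat_lit 0) (nat_lit 228)) (nd (nat_lit 206) (nat_lit 0) (cs (lf (nat_lit 22) (nat_lit 206)) (rf (nat_lit 0)))))) q111580 (by decide +kernel)
def q111590 : Q := Q.p (nat_lit 0x1800006000018000000000000000000000000000000000000000000000000000000000) (nat_lit 0x300003c00002600000000000000000000000000000000000000000000000000000000000000000000) (nat_lit 5)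
theorem c111590 : QOK q111590 := cut [q109715] ⟨c109715, trivial⟩ (nd (nat_lit 298) (nat_lit 0) (cs (lf (nat_lit 42) (nat_lit 231)) (rf (nat_lit 0)))) q111590 (by decide +kernel)
def q111593 : Q := Q.p (nat_lit 0x1800006000000000000000000000000000000000000000000000000000000000000000) (nat_lit 0x80000200003dc000e700031800050000140000000000000000000000000000000000000000000000000000) (nat_lit 7)
theorem c111593 : QOK q111593 := cut [q79958, q111275, q79442, q81363] ⟨c79958, c111275, c79442, c81363, trivial⟩ (nd (nat_lit 277) (nat_lit 0) (cs (rf (nat_lit 0)) (cs (rf (nat_lit 1)) (nd (nat_lit 274) (nat_lit 0) (cs (rf (nat_lit 2)) (nd (nat_lit 251) (nat_lit 0) (cs (rf (nat_lit 3)) (lf (nat_lit 1) (nat_lit 251))))))))) q111593 (by decide +kernel)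
def q111599 : Q := Q.p (nat_lit 0x1c00007000000000000000000000000000000000000000000000000000000000000000) (nat_lit 0x40000100000000000c00007000008000020000000000000000000000000000000000000000000000) (nat_lit 5)
theorem c111599 : QOK q111599 := cut [q111598] ⟨c111598, trivial⟩ (nd (nat_lit 251) (nat_lit 0) (cs (lf (nat_lit 0) (nat_lit 250)) (rf (nat_lit 0)))) q111599 (by decide +kernel)
def q111605 : Q := Q.p (nat_lit 0x1c00006000000000000000000000000000000000000000000000000000000000000000) (nat_lit 0x100000c00000300000c00008000020000000000000000000000000000000000000000000000000000) (nat_lit 5)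
theorem c111605 : QOK q111605 := cut [q94487] ⟨c94487, trivial⟩ (nd (nat_lit 273) (nat_lit 0) (cs (lf (nat_lit 12) (nat_lit 250)) (rf (nat_lit 0)))) q111605 (by decide +kernel)
def q111779 : Q := Q.p (nat_lit 0x800006000000000000000000000000000000000000000000000000000000000000000) (nat_lit 0x40000700003f8003fc000778000000003c0000f00001c0000000000000000000000000000000000000000000000) (nat_lit 14)
theorem c111779 : QOK q111779 := cut [q81192, q111577, q22016, q88936, q88939, q107349, q109091, q111778] ⟨c81192, c111577, c22016, c88936, c88939, c107349, c109091, c111778, trivial⟩ (nd (nat_lit 297) (nat_lit 0) (cs (rf (nat_lit 0)) (cs (rf (nat_lit 1)) (cs (nd (nat_lit 231) (nat_lit 0) (cs (rf (nat_lit 2)) (cs (rf (nat_lit 3)) (nd (nat_lit 296) (nat_lit 0) (cs (lf (nat_lit 41) (nat_lit 230)) (nd (nat_lit 295) (nat_lit 0) (cs (rf (nat_lit 4)) (cs (rf (nat_lit 5)) (nd (nat_lit 298) (nat_lit 0) (cs (lf (nat_lit 29) (nat_lit 231)) (nd (nat_lit 316) (nat_lit 0) (cs (lf (nat_lit 10) (nat_lit 294)) (nd (nat_lit 272) (nat_lit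 0) (cs (lf (nat_lit 22) (nat_lit 272)) (nd (nat_lit 208) (nat_lit 0) (cs (lf (nat_lit 46) (nat_lit 208)) (nd (nat_lit 232) (nat_lit 0) (cs (lf (nat_lit 35) (nat_lit 209)) (nd (nat_lit 276) (nat_lit 0) (cs (lf (nat_lit 17) (nat_lit 273)) (rf (nat_lit 6)))))))))))))))))))))) (rf (nat_lit 7)))))) q111779 (by decide +kernel)
def q111803 : Q := Q.p (nat_lit 0x800006000018000000000000000000000000000000000000000000000000000000000) (nat_lit 0x6400007c0001c0000600000000000000000000000000000000000000000) (nat_lit 5)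
theorem c111803 : QOK q111803 := cut [q79463, q107543] ⟨c79463, c107543, trivial⟩ (nd (nat_lit 209) (nat_lit 0) (cs (rf (nat_lit 0)) (rf (nat_lit 1)))) q111803 (by decide +kernel)
def q111919 : Q := Q.p (nat_lit 0x2000008000020000080000000000000000000000000000000000000000000000000000) (nat_lit 0x140000700001c00000000000000010000040000100000000000000000000000000000000000000000000000) (nat_lit 6)
theorem c111919 : QOK q111919 := cut [q84919] ⟨c84919, trivial⟩ (nd (nat_lit 210) (nat_lit 0) (cs (lf (nat_lit 47) (nat_lit 188)) (rf (nat_lit 0)))) q111919 (by decide +kernel)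
def q111928 : Q := Q.p (nat_lit 0x7000000000000000000000000000000000000000000000000000000000000000) (nat_lit 0xf0000188000f7000000000000000000000000000000000000000000000000000000000) (nat_lit 6)
theorem c111928 : QOK q111928 := cut [q80425, q80464, q98272, q105822] ⟨c80425, c80464, c98272, c105822, trivial⟩ (nd (nat_lit 255) (nat_lit 0) (cs (rf (nat_lit 0)) (cs (rf (nat_lit 1)) (cs (rf (nat_lit 2)) (rf (nat_lit 3)))))) q111928 (by decide +kernel)
def q111929 : Q := Q.p (nat_lit 0x7000000000000000000000000000000000000000000000000000000000000000) (nat_lit 0x7f000188000f0000000000000000000000000000000000000000000000000000000000) (nat_lit 5)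
theorem c111929 : QOK q111929 := cut [q79217, q79223, q105822] ⟨c79217, c79223, c105822, trivial⟩ (nd (nat_lit 255) (nat_lit 0) (cs (rf (nat_lit 0)) (cs (rf (nat_lit 1)) (rf (nat_lit 2))))) q111929 (by decide +kernel)
def q111963 : Q := Q.p (nat_lit 0x6000000000000000000000000000000000000000000000000000000000000000) (nat_lit 0x200001f0001ff000398001ef0003f8000fe0003b80008a00000000000000000000000000000000000) (nat_lit 15)
theorem c111963 : QOK q111963 := cut [q111943, q79217, q81927, q98272, q6259, q79066, q92249, q80524, q111959, q111960, q111961, q111962] ⟨c111943, c79217, c81927, c98272, c6259, c79066, c92249, c80524, c111959, c111960, c111961, c111962, trivial⟩ (nd (nat_lit 255) (nat_lit 0) (cs (rf (nat_lit 0)) (cs (nd (nat_lit 252) (nat_lit 0) (cs (rf (nat_lit 1)) (cs (rf (nat_lit 2)) (cs (rf (nat_lit 3)) (nd (nat_lit 230) (nat_lit 0) (cs (lf (nat_lit 23) (nat_lit 229)) (nd (nat_lit 208) (nat_lit 0) (cs (rf (nat_lit 4)) (cs (rf (nat_lit 5)) (cs (nd (nat_lit 274) (nat_lit 0) (cs (lf (nat_lit 11) (nat_lit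 251)) (nd (nat_lit 277) (nat_lit 0) (cs (lf (nat_lit 5) (nat_lit 252)) (nd (nat_lit 185) (nat_lit 0) (cs (lf (nat_lit 46) (nat_lit 185)) (nd (nat_lit 275) (nat_lit 0) (cs (lf (nat_lit 29) (nat_lit 208)) (nd (nat_lit 233) (nat_lit 0) (cs (lf (nat_lit 17) (nat_lit 230)) (nd (nat_lit 209) (nat_lit 0) (cs (lf (nat_lit 35) (nat_lit 186)) (nd (nat_lit 231) (nat_lit 0) (cs (lf (nat_lit 41) (nat_lit 208)) (nd (nat_lit 210) (nat_lit 0) (cs (lf (nat_lit 35) (nat_lit 187)) (nd (nat_lit 276) (nat_lit 0) (cs (lf (nat_lit 29) (nat_lit 209)) (rf (nat_lit 6)))))))))))))))))))) (nd (nat_lit 277) (nat_lit 0) (cs (lf (nat_lit 5) (nat_lit 252)) (nd (nat_lit 274) (nat_lit 0) (cs (lf (nat_lit 11) (nat_lit 251)) (nd (nat_lit 233) (nat_lit 0) (cs (lf (nat_lit 17) (nat_lit 230)) (rf (nat_lit 7)))))))))))))))))) (cs (rf (nat_lit 8)) (cs (rf (nat_lit 9)) (cs (rf (nat_lit 10)) (rf (nat_lit 11)))))))) q111963 (by decide +kernel)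
def q111965 : Q := Q.p (nat_lit 0xf000000000000000000000000000000000000000000000000000000000000000) (nat_lit 0xe60001000000e000000000000000000000000000000000000000000000000000000000) (nat_lit 5)
theorem c111965 : QOK q111965 := cut [q111964] ⟨c111964, trivial⟩ (nd (nat_lit 273) (nat_lit 0) (cs (lf (nat_lit 10) (nat_lit 251)) (rf (nat_lit 0)))) q111965 (by decide +kernel)
def q111984 : Q := Q.p (nat_lit 0x6000000000000000000000000000000000000000000000000000000000000000) (nat_lit 0x380002e0001b8001ef000398001ff0003f8000fe0003a80008000000000000000000000000000000000000) (nat_lit 14)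
theorem c111984 : QOK q111984 := cut [q111959, q111960, q80646, q95394, q111941, q111969, q79228, q81927, q80649, q80680, q81333, q80675, q80428, q111964, q111983] ⟨c111959, c111960, c80646, c95394, c111941, c111969, c79228, c81927, c80649, c80680, c81333, c80675, c80428, c111964, c111983, trivial⟩ (nd (nat_lit 255) (nat_lit 0) (cs (rf (nat_lit 0)) (cs (rf (nat_lit 1)) (cs (nd (nat_lit 256) (nat_lit 0) (cs (rf (nat_lit 2)) (cs (rf (nat_lit 3)) (cs (rf (nat_lit 4)) (nd (nat_lit 274) (nat_lit 0) (cs (lf (nat_lit 10) (nat_lit 252)) (rf (nat_lit 5)))))))) (cs (nd (nat_lit 252) (nat_lit 0) (cs (rf (nat_lit 6)) (cs (rf (nat_lit 7)) (nd (nat_lit 274) (nat_lit 0) (cs (lf (nat_lit 11) (nat_lit 251)) (nd (nat_lit 296) (nat_lit 0) (cs (rf (nat_lit 8)) (cs (rf (nat_lit 9)) (cs (nd (nat_lit 277) (nat_lit 0) (cs (lf (nat_lit 5) (nat_lit 252)) (nd (nat_lit 230) (nat_lit 0) (cs (lf (nat_lit 23) (nat_lit 229)) (nd (nat_lit 233) (nat_lit 0) (cs (lf (nat_lit 17) (nat_lit 230)) (nd (nat_lit 295) (nat_lit 0) (cs (lf (nat_lit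 41) (nat_lit 229)) (rf (nat_lit 10)))))))))) (nd (nat_lit 229) (nat_lit 0) (cs (lf (nat_lit 22) (nat_lit 229)) (nd (nat_lit 277) (nat_lit 0) (cs (lf (nat_lit 5) (nat_lit 252)) (nd (nat_lit 233) (nat_lit 0) (cs (lf (nat_lit 17) (nat_lit 230)) (rf (nat_lit 11))))))))))))))))) (cs (nd (nat_lit 252) (nat_lit 0) (cs (rf (nat_lit 12)) (cs (rf (nat_lit 7)) (rf (nat_lit 13))))) (rf (nat_lit 14)))))))) q111984 (by decide +kernel)
def q111985 : Q := Q.p (nat_lit 0x6000008000020000000000000000000000000000000000000000000000000000) (nat_lit 0x700001e000180000060001d0000140000000000000000000000000000000000000000000000) (nat_lit 6)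
theorem c111985 : QOK q111985 := cut [q98192, q111224] ⟨c98192, c111224, trivial⟩ (nd (nat_lit 275) (nat_lit 0) (cs (rf (nat_lit 0)) (rf (nat_lit 1)))) q111985 (by decide +kernel)
def q112020 : Q := Q.p (nat_lit 0x800006000008000020000000000000000000000000000000000000000000000000000) (nat_lit 0x20000080000700001700000000014000010000040000000000000000000000000000000000000000000000) (nat_lit 7)
theorem c112020 : QOK q112020 := cut [q112018] ⟨c112018, trivial⟩ (nd (nat_lit 274) (nat_lit 0) (cs (lf (nat_lit 41) (nat_lit 208)) (nd (nat_lit 272) (nat_lit 0) (cs (lf (nat_lit 13) (nat_lit 250)) (rf (nat_lit 0)))))) q112020 (by decide +kernel)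
def q112021 : Q := Q.p (nat_lit 0x800006000008000020000000000000000000000000000000000000000000000000000) (nat_lit 0xe0000f000001000010000040000100000000000000000000000000000000000000000000000) (nat_lit 6)
theorem c112021 : QOK q112021 := cut [q80715] ⟨c80715, trivial⟩ (nd (nat_lit 276) (nat_lit 0) (cs (lf (nat_lit 29) (nat_lit 209)) (rf (nat_lit 0)))) q112021 (by decide +kernel)
def q112045 : Q := Q.p (nat_lit 0xe000008000000000000000000000000000000000000000000000000000000000) (nat_lit 0x20000180001f0000310001f00003c0000700001000000000000000000000000000000000000000000) (nat_lit 7)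
theorem c112045 : QOK q112045 := cut [q80866, q95394, q98210, q112027] ⟨c80866, c95394, c98210, c112027, trivial⟩ (nd (nat_lit 256) (nat_lit 0) (cs (rf (nat_lit 0)) (cs (rf (nat_lit 1)) (cs (rf (nat_lit 2)) (nd (nat_lit 278) (nat_lit 0) (cs (lf (nat_lit 5) (nat_lit 253)) (nd (nat_lit 277) (nat_lit 0) (cs (lf (nat_lit 0) (nat_lit 252)) (nd (nat_lit 232) (nat_lit 0) (cs (lf (nat_lit 18) (nat_lit 231)) (rf (nat_lit 3)))))))))))) q112045 (by decide +kernel)
def q112075 : Q := Q.p (nat_lit 0xe000028000000000000000000000000000000000000000000000000000000000) (nat_lit 0x1000014000078000010000170001a0000680000000000000000000000000000000000000000000000) (nat_lit 7)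
theorem c112075 : QOK q112075 := cut [q80765, q80766, q80902, q111457, q112072] ⟨c80765, c80766, c80902, c111457, c112072, trivial⟩ (nd (nat_lit 230) (nat_lit 0) (cs (rf (nat_lit 0)) (cs (rf (nat_lit 1)) (nd (nat_lit 276) (nat_lit 0) (cs (rf (nat_lit 2)) (cs (rf (nat_lit 3)) (nd (nat_lit 189) (nat_lit 0) (cs (lf (nat_lit 37) (nat_lit 188)) (rf (nat_lit 4)))))))))) q112075 (by decide +kernel)
def q112083 : Q := Q.p (nat_lit 0xe000008000020000000000000000000000000000000000000000000000000000) (nat_lit 0x2800000000016000050000fc0000f00001400000000000000000000000000000000000) (nat_lit 9)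
theorem c112083 : QOK q112083 := cut [q1580, q80727, q80889, q80929] ⟨c1580, c80727, c80889, c80929, trivial⟩ (nd (nat_lit 187) (nat_lit 0) (cs (rf (nat_lit 0)) (cs (rf (nat_lit 1)) (cs (rf (nat_lit 2)) (rf (nat_lit 3)))))) q112083 (by decide +kernel)
def q112145 : Q := Q.p (nat_lit 0x200000c000020000000000000000000000000000000000000000000000000000000000) (nat_lit 0x140000700001c000010000000000100000c0000100000000000000000000000000000000000000000000000) (nat_lit 5)
theorem c112145 : QOK q112145 := cut [q80805, q81945, q84918] ⟨c80805, c81945, c84918, trivial⟩ (nd (nat_lit 299) (nat_lit 0) (cs (rf (nat_lit 0)) (cs (rf (nat_lit 1)) (rf (nat_lit 2))))) q112145 (by decide +kernel)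
def q112303 : Q := Q.p (nat_lit 0xe000000000000000000000000000000000000000000000000000000000000000) (nat_lit 0x800007f000118000f0000040000100000000000000000000000000000000000000000000000) (nat_lit 6)
theorem c112303 : QOK q112303 := cut [q79217, q79223, q79228] ⟨c79217, c79223, c79228, trivial⟩ (nd (nat_lit 252) (nat_lit 0) (cs (rf (nat_lit 0)) (cs (rf (nat_lit 1)) (rf (nat_lit 2))))) q112303 (by decide +kernel)
def q112380 : Q := Q.p (nat_lit 0xe000020000080000000000000000000000000000000000000000000000000000) (nat_lit 0x28000000000d00003700007c0001e00005000000000000000000000000000000000000) (nat_lit 9)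
theorem c112380 : QOK q112380 := cut [q84861, q8059, q1683] ⟨c84861, c8059, c1683, trivial⟩ (nd (nat_lit 188) (nat_lit 0) (cs (rf (nat_lit 0)) (cs (nd (nat_lit 166) (nat_lit 0) (cs (lf (nat_lit 45) (nat_lit 166)) (nd (nat_lit 210) (nat_lit 0) (cs (lf (nat_lit 24) (nat_lit 144)) (lf (nat_lit 42) (nat_lit 188)))))) (cs (nd (nat_lit 210) (nat_lit 0) (cs (lf (nat_lit 42) (nat_lit 188)) (rf (nat_lit 1)))) (nd (nat_lit 210) (nat_lit 0) (cs (lf (nat_lit 42) (nat_lit 188)) (nd (nat_lit 232) (nat_lit 0) (cs (lf (nat_lit 41) (nat_lit 187)) (nd (nat_lit 167) (nat_lit 0) (cs (lf (nat_lit 37) (nat_lit 166)) (nd (nat_lit 234) (nat_lit 0) (cs (lf (nat_lit 6) (nat_lit 231)) (nd (nat_lit 209) (nat_lit 0) (cs (lf (nat_lit 0) (nat_lit 208)) (nd (nat_lit 187) (nat_lit 0) (cs (rf (nat_lit 2)) (lf (nat_lit 47) (nat_lit 165)))))))))))))))))) q112380 (by decide +kernel)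
def q112434 : Q := Q.p (nat_lit 0xe000000000000000000000000000000000000000000000000000000000000000) (nat_lit 0x100001c0000310001fc000080000200000000000000000000000000000000000000000000000) (nat_lit 6)
theorem c112434 : QOK q112434 := cut [q80645, q98210, q111969] ⟨c80645, c98210, c111969, trivial⟩ (nd (nat_lit 256) (nat_lit 0) (cs (rf (nat_lit 0)) (cs (rf (nat_lit 1)) (rf (nat_lit 2))))) q112434 (by decide +kernel)
def q112485 : Q := Q.p (nat_lit 0x6000010000000000000000000000000000000000000000000000000000000000) (nat_lit 0xa0000380003e0000f8000080000680000f8000380000e00002800000000000000000000000000000000000) (nat_lit 11)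
theorem c112485 : QOK q112485 := cut [q79123, q79128, q79160, q79282, q79753, q105757, q80291, q79750] ⟨c79123, c79128, c79160, c79282, c79753, c105757, c80291, c79750, trivial⟩ (nd (nat_lit 210) (nat_lit 0) (cs (rf (nat_lit 0)) (cs (rf (nat_lit 1)) (cs (rf (nat_lit 2)) (cs (rf (nat_lit 3)) (nd (nat_lit 276) (nat_lit 0) (cs (rf (nat_lit 4)) (cs (rf (nat_lit 5)) (cs (nd (nat_lit 211) (nat_lit 0) (cs (lf (nat_lit 35) (nat_lit 188)) (nd (nat_lit 275) (nat_lit 0) (cs (rf (nat_lit 6)) (nd (nat_lit 209) (nat_lit 0) (cs (lf (nat_lit 47) (nat_lit 187)) (nd (nat_lit 277) (nat_lit 0) (cs (lf (nat_lit 29) (nat_lit 210)) (nd (nat_lit 278) (nat_lit 0) (cs (lf (nat_lit 18) (nat_lit 253)) (nd (nat_lit 300) (nat_lit 0) (cs (lf (nat_lit 5) (nat_lit 275)) (nd (nat_lit 233) (nat_lit 0) (cs (lf (nat_lit 26) (nat_lit 211)) (rf (nat_lit 7)))))))))))))))) (nd (nat_lit 277) (nat_lit 0) (cs (lf (nat_lit 29) (nat_lit 210)) (nd (nat_lit 278) (nat_lit 0) (cs (lf (nat_lit 18) (nat_lit 253)) (nd (nat_lit 275) (nat_lit 0) (cs (lf (nat_lit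 41) (nat_lit 209)) (nd (nat_lit 300) (nat_lit 0) (cs (lf (nat_lit 5) (nat_lit 275)) (nd (nat_lit 211) (nat_lit 0) (cs (lf (nat_lit 35) (nat_lit 188)) (nd (nat_lit 233) (nat_lit 0) (cs (lf (nat_lit 30) (nat_lit 210)) (lf (nat_lit 26) (nat_lit 211))))))))))))))))))))))) q112485 (by decide +kernel)
def q112488 : Q := Q.p (nat_lit 0x7000010000000000000000000000000000000000000000000000000000000000) (nat_lit 0x40000180000f00008c0000f8000300000c0000000000000000000000000000000000000000000000) (nat_lit 7)
theorem c112488 : QOK q112488 := cut [q81084, q92326, q86927] ⟨c81084, c92326, c86927, trivial⟩ (nd (nat_lit 251) (nat_lit 0) (cs (rf (nat_lit 0)) (cs (rf (nat_lit 1)) (nd (nat_lit 231) (nat_lit 0) (cs (lf (nat_lit 12) (nat_lit 228)) (rf (nat_lit 2))))))) q112488 (by decide +kernel)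
def q112511 : Q := Q.p (nat_lit 0x7000014000000000000000000000000000000000000000000000000000000000) (nat_lit 0x800006000008000062000040000100000000000000000000000000000000000000000000000) (nat_lit 5)
theorem c112511 : QOK q112511 := cut [q81019] ⟨c81019, trivial⟩ (nd (nat_lit 255) (nat_lit 0) (cs (lf (nat_lit 23) (nat_lit 229)) (rf (nat_lit 0)))) q112511 (by decide +kernel)
def q112557 : Q := Q.p (nat_lit 0x1000007000000000000000000000000000000000000000000000000000000000000000) (nat_lit 0x1800006000008000008000f80000e0000380000a00000000000000000000000000000000000000000) (nat_lit 7)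
theorem c112557 : QOK q112557 := cut [q79118, q81763, q112556] ⟨c79118, c81763, c112556, trivial⟩ (nd (nat_lit 232) (nat_lit 0) (cs (rf (nat_lit 0)) (cs (rf (nat_lit 1)) (rf (nat_lit 2))))) q112557 (by decide +kernel)
def q112563 : Q := Q.p (nat_lit 0x300000c00006000000000000000000000000000000000000000000000000000000000000000) (nat_lit 0x80000700001c80007000000000018000060000000000000000000000000000000000000000000000000000) (nat_lit 8)
theorem c112563 : QOK q112563 := cut [q111829] ⟨c111829, trivial⟩ (nd (nat_lit 231) (nat_lit 0) (cs (lf (nat_lit 36) (nat_lit 208)) (nd (nat_lit 210) (nat_lit 0) (cs (lf (nat_lit 34) (nat_lit 209)) (rf (nat_lit 0)))))) q112563 (by decide +kernel)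
def q112575 : Q := Q.p (nat_lit 0x100000400007000000000000000000000000000000000000000000000000000000000000000) (nat_lit 0x380001f0000ee0000b000000000140000300000c0000200000000000000000000000000000000000000000) (nat_lit 8)
theorem c112575 : QOK q112575 := cut [q81001, q81811, q111103, q112570, q81814] ⟨c81001, c81811, c111103, c112570, c81814, trivial⟩ (nd (nat_lit 319) (nat_lit 0) (cs (rf (nat_lit 0)) (cs (rf (nat_lit 1)) (cs (rf (nat_lit 2)) (cs (nd (nat_lit 318) (nat_lit 0) (cs (lf (nat_lit 29) (nat_lit 252)) (nd (nat_lit 275) (nat_lit 0) (cs (lf (nat_lit 30) (nat_lit 252)) (rf (nat_lit 3)))))) (nd (nat_lit 318) (nat_lit 0) (cs (lf (nat_lit 29) (nat_lit 252)) (nd (nat_lit 230) (nat_lit 0) (cs (lf (nat_lit 28) (nat_lit 230)) (rf (nat_lit 4))))))))))) q112575 (by decide +kernel)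
def q112624 : Q := Q.p (nat_lit 0x800006000008000000000000000000000000000000000000000000000000000000000) (nat_lit 0x140000700001c0000700001000000000010000060000100000000000000000000000000000000000000000000000) (nat_lit 6)
theorem c112624 : QOK q112624 := cut [q111577, q32033, q111899] ⟨c111577, c32033, c111899, trivial⟩ (nd (nat_lit 297) (nat_lit 0) (cs (rf (nat_lit 0)) (cs (nd (nat_lit 298) (nat_lit 0) (cs (lf (nat_lit 29) (nat_lit 231)) (nd (nat_lit 296) (nat_lit 0) (cs (lf (nat_lit 41) (nat_lit 230)) (rf (nat_lit 1)))))) (rf (nat_lit 2))))) q112624 (by decide +kernel)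
def q112694 : Q := Q.p (nat_lit 0xe000000000000000000000000000000000000000000000000000000000000000) (nat_lit 0x3e00031c000f7000000000000000000000000000000000000000000000000000000000) (nat_lit 7)
theorem c112694 : QOK q112694 := cut [q79223, q80464, q82070] ⟨c79223, c80464, c82070, trivial⟩ (nd (nat_lit 252) (nat_lit 0) (cs (rf (nat_lit 0)) (cs (rf (nat_lit 1)) (rf (nat_lit 2))))) q112694 (by decide +kernel)
def q112790 : Q := Q.p (nat_lit 0x800002000008000000000000000000000000000000000000000000000000000000000) (nat_lit 0x200001c000078000740001d000014000030000040000000000000000000000000000000000000000000000) (nat_lit 10)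
theorem c112790 : QOK q112790 := cut [q79188, q81706, q82063, q107048] ⟨c79188, c81706, c82063, c107048, trivial⟩ (nd (nat_lit 297) (nat_lit 0) (cs (rf (nat_lit 0)) (cs (rf (nat_lit 1)) (cs (rf (nat_lit 2)) (rf (nat_lit 3)))))) q112790 (by decide +kernel)
def q112792 : Q := Q.p (nat_lit 0x800002000008000000000000000000000000000000000000000000000000000000000) (nat_lit 0x400003000004000010000100000700001c0000500000000000000000000000000000000000000000) (nat_lit 5)
theorem c112792 : QOK q112792 := cut [q81901, q96741, q100882] ⟨c81901, c96741, c100882, trivial⟩ (nd (nat_lit 209) (nat_lit 0) (cs (rf (nat_lit 0)) (cs (rf (nat_lit 1)) (rf (nat_lit 2))))) q112792 (by decide +kernel)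
def q112949 : Q := Q.p (nat_lit 0x800007800000000000000000000000000000000000000000000000000000000000000) (nat_lit 0x37000380000e3000000000000000000000000000000000000000000000000000000000) (nat_lit 7)
theorem c112949 : QOK q112949 := cut [q112947] ⟨c112947, trivial⟩ (nd (nat_lit 276) (nat_lit 0) (cs (lf (nat_lit 5) (nat_lit 251)) (nd (nat_lit 228) (nat_lit 0) (cs (lf (nat_lit 22) (nat_lit 228)) (rf (nat_lit 0)))))) q112949 (by decide +kernel)
def q112994 : Q := Q.p (nat_lit 0x800003800000000000000000000000000000000000000000000000000000000000000) (nat_lit 0xe7c001c600077c00008000020000000000000000000000000000000000000000000000) (nat_lit 11)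
theorem c112994 : QOK q112994 := cut [q1998, q2065, q2090, q112993] ⟨c1998, c2065, c2090, c112993, trivial⟩ (nd (nat_lit 250) (nat_lit 0) (cs (rf (nat_lit 0)) (cs (rf (nat_lit 1)) (cs (rf (nat_lit 2)) (rf (nat_lit 3)))))) q112994 (by decide +kernel)
def q113030 : Q := Q.p (nat_lit 0xc00007000000000030000000000000000000000000000000000000000000000000000) (nat_lit 0x3000008000f00007c8000ff0000000000000000000000000000000000000000000000) (nat_lit 9)
theorem c113030 : QOK q113030 := cut [q7537, q94462, q78727, q9757, q7441, q87772] ⟨c7537, c94462, c78727, c9757, c7441, c87772, trivial⟩ (nd (nat_lit 210) (nat_lit 0) (cs (nd (nat_lit 188) (nat_lit 0) (cs (rf (nat_lit 0)) (lf (nat_lit 38) (nat_lit 187)))) (cs (nd (nat_lit 211) (nat_lit 0) (cs (rf (nat_lit 1)) (nd (nat_lit 272) (nat_lit 0) (cs (rf (nat_lit 2)) (lf (nat_lit 13) (nat_lit 250)))))) (cs (nd (nat_lit 211) (nat_lit 0) (cs (rf (nat_lit 2)) (cs (nd (nat_lit 272) (nat_lit 0) (cs (lf (nat_lit 13) (nat_lit 250)) (nd (nat_lit 186) (nat_lit 0) (cs (lf (nat_lit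 23) (nat_lit 185)) (rf (nat_lit 3)))))) (cs (nd (nat_lit 233) (nat_lit 0) (cs (lf (nat_lit 5) (nat_lit 208)) (nd (nat_lit 189) (nat_lit 0) (cs (lf (nat_lit 17) (nat_lit 186)) (nd (nat_lit 207) (nat_lit 0) (cs (lf (nat_lit 16) (nat_lit 185)) (rf (nat_lit 4)))))))) (nd (nat_lit 189) (nat_lit 0) (cs (lf (nat_lit 17) (nat_lit 186)) (nd (nat_lit 188) (nat_lit 0) (cs (lf (nat_lit 12) (nat_lit 185)) (nd (nat_lit 272) (nat_lit 0) (cs (lf (nat_lit 13) (nat_lit 250)) (rf (nat_lit 5)))))))))))) (nd (nat_lit 272) (nat_lit 0) (cs (lf (nat_lit 13) (nat_lit 250)) (nd (nat_lit 232) (nat_lit 0) (cs (lf (nat_lit 36) (nat_lit 187)) (nd (nat_lit 233) (nat_lit 0) (cs (lf (nat_lit 12) (nat_lit 229)) (nd (nat_lit 234) (nat_lit 0) (cs (lf (nat_lit 3) (nat_lit 208)) (lf (nat_lit 6) (nat_lit 231)))))))))))))) q113030 (by decide +kernel)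
def q113090 : Q := Q.p (nat_lit 0x800003800000000000000000000000000000000000000000000000000000000000000) (nat_lit 0x60001c60003fc00040000100000000000000000000000000000000000000000000000) (nat_lit 8)
theorem c113090 : QOK q113090 := cut [q85579, q108924, q81672] ⟨c85579, c108924, c81672, trivial⟩ (nd (nat_lit 228) (nat_lit 0) (cs (rf (nat_lit 0)) (cs (rf (nat_lit 1)) (nd (nat_lit 254) (nat_lit 0) (cs (lf (nat_lit 22) (nat_lit 228)) (nd (nat_lit 232) (nat_lit 0) (cs (lf (nat_lit 17) (nat_lit 229)) (nd (nat_lit 188) (nat_lit 0) (cs (lf (nat_lit 37) (nat_lit 187)) (nd (nat_lit 250) (nat_lit 0) (cs (lf (nat_lit 16) (nat_lit 228)) (rf (nat_lit 2))))))))))))) q113090 (by decide +kernel)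
def q113097 : Q := Q.p (nat_lit 0x200003800000000000000000000000000000000000000000000000000000000000000) (nat_lit 0xe50001c0000e3000000000000000000000000000000000000000000000000000000000) (nat_lit 7)
theorem c113097 : QOK q113097 := cut [q83610] ⟨c83610, trivial⟩ (nd (nat_lit 254) (nat_lit 0) (cs (lf (nat_lit 11) (nat_lit 250)) (nd (nat_lit 228) (nat_lit 0) (cs (lf (nat_lit 22) (nat_lit 228)) (rf (nat_lit 0)))))) q113097 (by decide +kernel)
def q113102 : Q := Q.p (nat_lit 0xa00003800000000000000000000000000000000000000000000000000000000000000) (nat_lit 0x1d50003c0000ef000010000040000000000000000000000000000000000000000000000) (nat_lit 10)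
theorem c113102 : QOK q113102 := cut [q94175] ⟨c94175, trivial⟩ (nd (nat_lit 254) (nat_lit 0) (cs (lf (nat_lit 11) (nat_lit 250)) (nd (nat_lit 228) (nat_lit 0) (cs (lf (nat_lit 22) (nat_lit 228)) (nd (nat_lit 255) (nat_lit 0) (cs (lf (nat_lit 10) (nat_lit 251)) (nd (nat_lit 234) (nat_lit 0) (cs (lf (nat_lit 16) (nat_lit 230)) (nd (nat_lit 256) (nat_lit 0) (cs (lf (nat_lit 17) (nat_lit 231)) (rf (nat_lit 0)))))))))))) q113102 (by decide +kernel)
def q113159 : Q := Q.p (nat_lit 0x200000800002000000000000000000000000000000000000000000000000000000000000000) (nat_lit 0x140000700001c000050000000000100000c000010000000000000000000000000000000000000000000000000000) (nat_lit 5)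
theorem c113159 : QOK q113159 := cut [q2579, q108332, q113158] ⟨c2579, c108332, c113158, trivial⟩ (nd (nat_lit 319) (nat_lit 0) (cs (rf (nat_lit 0)) (cs (rf (nat_lit 1)) (rf (nat_lit 2))))) q113159 (by decide +kernel)
def q113162 : Q := Q.p (nat_lit 0x200000800002000000000000000000000000000000000000000000000000000000000000000) (nat_lit 0x18000040000100000180007c000070000140000000000000000000000000000000000000000000000) (nat_lit 6)
theorem c113162 : QOK q113162 := cut [q32034, q81706, q108258] ⟨c32034, c81706, c108258, trivial⟩ (nd (nat_lit 231) (nat_lit 0) (cs (rf (nat_lit 0)) (cs (rf (nat_lit 1)) (rf (nat_lit 2))))) q113162 (by decide +kernel)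
def q113173 : Q := Q.p (nat_lit 0x200000800002000000000000000000000000000000000000000000000000000000000000000) (nat_lit 0x4000010000040001de000ff00077e000140000000000000000000000000000000000000000000000) (nat_lit 11)
theorem c113173 : QOK q113173 := cut [q22016, q79188, q94433, q113167, q109037, q7975] ⟨c22016, c79188, c94433, c113167, c109037, c7975, trivial⟩ (nd (nat_lit 231) (nat_lit 0) (cs (rf (nat_lit 0)) (cs (rf (nat_lit 1)) (cs (rf (nat_lit 2)) (nd (nat_lit 232) (nat_lit 0) (cs (lf (nat_lit 35) (nat_lit 209)) (nd (nat_lit 233) (nat_lit 0) (cs (rf (nat_lit 3)) (cs (nd (nat_lit 230) (nat_lit 0) (cs (lf (nat_lit 47) (nat_lit 208)) (nd (nat_lit 296) (nat_lit 0) (cs (lf (nat_lit 41) (nat_lit 230)) (rf (nat_lit 4)))))) (nd (nat_lit 230) (nat_lit 0) (cs (rf (nat_lit 5)) (lf (nat_lit 47) (nat_lit 208))))))))))))) q113173 (by decide +kernel)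
def q113177 : Q := Q.p (nat_lit 0x200000800002000000000000000000000000000000000000000000000000000000000000000) (nat_lit 0x140000700001c0000500000000004000018000040000000000000000000000000000000000000000000000000000) (nat_lit 5)
theorem c113177 : QOK q113177 := cut [q2579, q89529, q105339] ⟨c2579, c89529, c105339, trivial⟩ (nd (nat_lit 319) (nat_lit 0) (cs (rf (nat_lit 0)) (cs (rf (nat_lit 1)) (rf (nat_lit 2))))) q113177 (by decide +kernel)
def q113185 : Q := Q.p (nat_lit 0x600000800003000000000000000000000000000000000000000000000000000000000000000) (nat_lit 0x14000010000000000080007c000050000000000000000000000000000000000000000000000000000) (nat_lit 6)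
theorem c113185 : QOK q113185 := cut [q90852] ⟨c90852, trivial⟩ (nd (nat_lit 231) (nat_lit 0) (cs (lf (nat_lit 29) (nat_lit 231)) (nd (nat_lit 296) (nat_lit 0) (cs (lf (nat_lit 41) (nat_lit 230)) (rf (nat_lit 0)))))) q113185 (by decide +kernel)
def q113345 : Q := Q.p (nat_lit 0x1800002000000000000000000000000000000000000000000000000000000000000000) (nat_lit 0x40003dc000670003dc00008000020000000000000000000000000000000000000000000000000000) (nat_lit 7)
theorem c113345 : QOK q113345 := cut [q16715, q99782, q2187, q99772, q113288, q52783, q81957] ⟨c16715, c99782, c2187, c99772, c113288, c52783, c81957, trivial⟩ (nd (nat_lit 277) (nat_lit 0) (cs (rf (nat_lit 0)) (cs (rf (nat_lit 1)) (cs (nd (nat_lit 274) (nat_lit 0) (cs (rf (nat_lit 2)) (cs (rf (nat_lit 3)) (cs (rf (nat_lit 4)) (nd (nat_lit 256) (nat_lit 0) (cs (lf (nat_lit 16) (nat_lit 252)) (nd (nat_lit 295) (nat_lit 0) (cs (lf (nat_lit 10) (nat_lit 273)) (rf (nat_lit 5)))))))))) (nd (nat_lit 274) (nat_lit 0) (cs (rf (nat_lit 2)) (cs (rf (nat_lit 3)) (nd (nat_lit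 252) (nat_lit 0) (cs (lf (nat_lit 23) (nat_lit 251)) (nd (nat_lit 255) (nat_lit 0) (cs (lf (nat_lit 17) (nat_lit 252)) (rf (nat_lit 6))))))))))))) q113345 (by decide +kernel)
def q113356 : Q := Q.p (nat_lit 0xe00000800002000000000000000000000000000000000000000000000000000000000000000) (nat_lit 0x40000f700031c001f00000d000020000080000000000000000000000000000000000000000000000000000) (nat_lit 9)
theorem c113356 : QOK q113356 := cut [q28299, q28303, q90767, q113352, q113355] ⟨c28299, c28303, c90767, c113352, c113355, trivial⟩ (nd (nat_lit 278) (nat_lit 0) (cs (rf (nat_lit 0)) (cs (rf (nat_lit 1)) (cs (rf (nat_lit 2)) (cs (rf (nat_lit 3)) (rf (nat_lit 4))))))) q113356 (by decide +kernel)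
def q113371 : Q := Q.p (nat_lit 0x200000800002000000000000000000000000000000000000000000000000000000000000000) (nat_lit 0x100000c0000700001800005000014000050000180000700001c0000100000000000000000000000000000000000000000) (nat_lit 8)
theorem c113371 : QOK q113371 := cut [q99690, q99692] ⟨c99690, c99692, trivial⟩ (nd (nat_lit 320) (nat_lit 0) (cs (rf (nat_lit 0)) (cs (rf (nat_lit 1)) (nd (nat_lit 319) (nat_lit 0) (cs (lf (nat_lit 29) (nat_lit 253)) (nd (nat_lit 254) (nat_lit 0) (cs (lf (nat_lit 35) (nat_lit 231)) (nd (nat_lit 341) (nat_lit 0) (cs (lf (nat_lit 34) (nat_lit 253)) (nd (nat_lit 362) (nat_lit 0) (cs (lf (nat_lit 40) (nat_lit 274)) (nd (nat_lit 363) (nat_lit 0) (cs (lf (nat_lit 41) (nat_lit 296)) (nd (nat_lit 274) (nat_lit 0) (cs (lf (nat_lit 46) (nat_lit 274)) (lf (nat_lit 47) (nat_lit 252))))))))))))))))) q113371 (by decide +kernel)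
def q113442 : Q := Q.p (nat_lit 0x300001800006000010000000000000000000000000000000000000000000000000000000000) (nat_lit 0xe30003cc000c7000398000e80000a0000200000000000000000000000000000000000000000000000) (nat_lit 13)
theorem c113442 : QOK q113442 := cut [q104758, q112293, q113437] ⟨c104758, c112293, c113437, trivial⟩ (nd (nat_lit 273) (nat_lit 0) (cs (rf (nat_lit 0)) (cs (nd (nat_lit 295) (nat_lit 0) (cs (lf (nat_lit 12) (nat_lit 272)) (nd (nat_lit 298) (nat_lit 0) (cs (lf (nat_lit 23) (nat_lit 272)) (nd (nat_lit 299) (nat_lit 0) (cs (lf (nat_lit 29) (nat_lit 232)) (nd (nat_lit 300) (nat_lit 0) (cs (lf (nat_lit 18) (nat_lit 275)) (nd (nat_lit 322) (nat_lit 0) (cs (lf (nat_lit 5) (nat_lit 297)) (nd (nat_lit 278) (nat_lit 0) (cs (lf (nat_lit 17) (nat_lit 275)) (nd (nat_lit 316) (nat_lit 0) (cs (lf (nat_lit 10) (nat_lit 294)) (nd (nat_lit 209) (nat_lit 0) (cs (lf (nat_lit 25) (nat_lit 209)) (nd (nat_lit 233) (nat_lit 0) (cs (lf (nat_lit 35) (nat_lit 210)) (nd (nat_lit 255) (nat_lit 0) (cs (lf (nat_lit 45) (nat_lit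 233)) (rf (nat_lit 1)))))))))))))))))))))) (cs (nd (nat_lit 294) (nat_lit 0) (cs (lf (nat_lit 13) (nat_lit 272)) (nd (nat_lit 255) (nat_lit 0) (cs (lf (nat_lit 13) (nat_lit 251)) (rf (nat_lit 2)))))) (nd (nat_lit 272) (nat_lit 0) (cs (lf (nat_lit 14) (nat_lit 250)) (nd (nat_lit 295) (nat_lit 0) (cs (lf (nat_lit 12) (nat_lit 272)) (lf (nat_lit 18) (nat_lit 272)))))))))) q113442 (by decide +kernel)
def q113476 : Q := Q.p (nat_lit 0x20000080000e000000000000000000000000000000000000000000000000000000000000000) (nat_lit 0x190000f000031c000f00001c0000700000000000000000000000000000000000000000000000) (nat_lit 8)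
theorem c113476 : QOK q113476 := cut [q98207, q113466, q103466, q113474] ⟨c98207, c113466, c103466, c113474, trivial⟩ (nd (nat_lit 278) (nat_lit 0) (cs (nd (nat_lit 256) (nat_lit 0) (cs (lf (nat_lit 5) (nat_lit 253)) (nd (nat_lit 234) (nat_lit 0) (cs (lf (nat_lit 17) (nat_lit 231)) (nd (nat_lit 233) (nat_lit 0) (cs (lf (nat_lit 12) (nat_lit 230)) (rf (nat_lit 0)))))))) (cs (nd (nat_lit 252) (nat_lit 0) (cs (lf (nat_lit 4) (nat_lit 252)) (rf (nat_lit 1)))) (cs (nd (nat_lit 256) (nat_lit 0) (cs (lf (nat_lit 5) (nat_lit 253)) (nd (nat_lit 234) (nat_lit 0) (cs (lf (nat_lit 17) (nat_lit 231)) (nd (nat_lit 276) (nat_lit 0) (cs (lf (nat_lit 6) (nat_lit 253)) (nd (nat_lit 210) (nat_lit 0) (cs (lf (nat_lit 37) (nat_lit 209)) (nd (nat_lit 277) (nat_lit 0) (cs (lf (nat_lit 11) (nat_lit 274)) (rf (nat_lit 2)))))))))))) (nd (nat_lit 256) (nat_lit 0) (cs (lf (nat_lit 5) (nat_lit 253)) (rf (nat_lit 3)))))))) q113476 (by decide +kernel)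
def q113550 : Q := Q.p (nat_lit 0x200001c000000000000000000000000000000000000000000000000000000000) (nat_lit 0x1df0006380038f000000000000000000000000000000000000000000000000000) (nat_lit 8)
theorem c113550 : QOK q113550 := cut [q22540, q96758, q96769, q97963] ⟨c22540, c96758, c96769, c97963, trivial⟩ (nd (nat_lit 229) (nat_lit 0) (cs (rf (nat_lit 0)) (cs (rf (nat_lit 1)) (cs (rf (nat_lit 2)) (rf (nat_lit 3)))))) q113550 (by decide +kernel)
def q113600 : Q := Q.p (nat_lit 0x1800002000008000000000000000000000000000000000000000000000000000000000) (nat_lit 0x700007c0000e60003dc000740000c0000000000000000000000000000000000000000000000000000) (nat_lit 7)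
theorem c113600 : QOK q113600 := cut [q16715, q99782, q113327, q113593, q113594, q97558, q113595, q108498] ⟨c16715, c99782, c113327, c113593, c113594, c97558, c113595, c108498, trivial⟩ (nd (nat_lit 277) (nat_lit 0) (cs (rf (nat_lit 0)) (cs (rf (nat_lit 1)) (cs (rf (nat_lit 2)) (nd (nat_lit 255) (nat_lit 0) (cs (rf (nat_lit 3)) (cs (rf (nat_lit 4)) (cs (nd (nat_lit 254) (nat_lit 0) (cs (rf (nat_lit 5)) (rf (nat_lit 6)))) (nd (nat_lit 254) (nat_lit 0) (cs (rf (nat_lit 6)) (nd (nat_lit 274) (nat_lit 0) (cs (lf (nat_lit 12) (nat_lit 251)) (rf (nat_lit 7)))))))))))))) q113600 (by decide +kernel)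
def q113604 : Q := Q.p (nat_lit 0x3800002000018000020000000000000000000000000000000000000000000000000000) (nat_lit 0x8000000000040000040003c0000300000000000000000000000000000000000000000000000) (nat_lit 5)
theorem c113604 : QOK q113604 := cut [q90877] ⟨c90877, trivial⟩ (nd (nat_lit 210) (nat_lit 0) (cs (lf (nat_lit 35) (nat_lit 187)) (rf (nat_lit 0)))) q113604 (by decide +kernel)
def q113626 : Q := Q.p (nat_lit 0x800002000008000000000000000000000000000000000000000000000000000000000) (nat_lit 0x1000006000010000040000160001f00001c0000100000000000000000000000000000000000000000) (nat_lit 6)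
theorem c113626 : QOK q113626 := cut [q26053, q98359, q99649] ⟨c26053, c98359, c99649, trivial⟩ (nd (nat_lit 209) (nat_lit 0) (cs (rf (nat_lit 0)) (cs (rf (nat_lit 1)) (rf (nat_lit 2))))) q113626 (by decide +kernel)
def q113630 : Q := Q.p (nat_lit 0x800002000008000000000000000000000000000000000000000000000000000000000) (nat_lit 0x400003000004000010000040000700001c0000500000000000000000000000000000000000000000) (nat_lit 6)
theorem c113630 : QOK q113630 := cut [q81901, q96312, q97237, q100882] ⟨c81901, c96312, c97237, c100882, trivial⟩ (nd (nat_lit 209) (nat_lit 0) (cs (rf (nat_lit 0)) (cs (rf (nat_lit 1)) (cs (rf (nat_lit 2)) (rf (nat_lit 3)))))) q113630 (by decide +kernel)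
def q113668 : Q := Q.p (nat_lit 0xc00002000008000000000000000000000000000000000000000000000000000000000) (nat_lit 0x1000010000050000100000200000c0000300000400000000000000000000000000000000000) (nat_lit 6)
theorem c113668 : QOK q113668 := cut [q108221] ⟨c108221, trivial⟩ (nd (nat_lit 209) (nat_lit 0) (cs (lf (nat_lit 41) (nat_lit 208)) (rf (nat_lit 0)))) q113668 (by decide +kernel)
def q113678 : Q := Q.p (nat_lit 0x800002000008000000000000000000000000000000000000000000000000000000000) (nat_lit 0x400003000004000010000160001f00001c0000100000000000000000000000000000000000000000) (nat_lit 6)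
theorem c113678 : QOK q113678 := cut [q96741, q99649, q100882] ⟨c96741, c99649, c100882, trivial⟩ (nd (nat_lit 209) (nat_lit 0) (cs (rf (nat_lit 0)) (cs (rf (nat_lit 1)) (rf (nat_lit 2))))) q113678 (by decide +kernel)
def q113689 : Q := Q.p (nat_lit 0x300000800002000000000000000000000000000000000000000000000000000000000000000) (nat_lit 0x10000050000f78003ce000f7c0005800002000008000000000000000000000000000000000000000000000000000) (nat_lit 10)
theorem c113689 : QOK q113689 := cut [q11666, q11728, q108299, q11708, q89322, q111826, q100737] ⟨c11666, c11728, c108299, c11708, c89322, c111826, c100737, trivial⟩ (nd (nat_lit 295) (nat_lit 0) (cs (rf (nat_lit 0)) (cs (rf (nat_lit 1)) (cs (rf (nat_lit 2)) (nd (nat_lit 298) (nat_lit 0) (cs (rf (nat_lit 3)) (cs (nd (nat_lit 316) (nat_lit 0) (cs (lf (nat_lit 10) (nat_lit 294)) (nd (nat_lit 321) (nat_lit 0) (cs (lf (nat_lit 4) (nat_lit 295)) (nd (nat_lit 272) (nat_lit 0) (cs (lf (nat_lit 22) (nat_lit 272)) (rf (nat_lit 4)))))))) (cs (nd (nat_lit 272) (nat_lit 0) (cs (lf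 (nat_lit 22) (nat_lit 272)) (nd (nat_lit 316) (nat_lit 0) (cs (lf (nat_lit 10) (nat_lit 294)) (rf (nat_lit 5)))))) (nd (nat_lit 276) (nat_lit 0) (cs (lf (nat_lit 17) (nat_lit 273)) (nd (nat_lit 320) (nat_lit 0) (cs (lf (nat_lit 42) (nat_lit 253)) (nd (nat_lit 272) (nat_lit 0) (cs (lf (nat_lit 22) (nat_lit 272)) (rf (nat_lit 6)))))))))))))))) q113689 (by decide +kernel)
def q113700 : Q := Q.p (nat_lit 0x200000800002000000000000000000000000000000000000000000000000000000000000000) (nat_lit 0x100001c0000700007c00001c000340000500000c000030000000000000000000000000000000000000000000000000000) (nat_lit 11)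
theorem c113700 : QOK q113700 := cut [q2579, q113158, q113176] ⟨c2579, c113158, c113176, trivial⟩ (nd (nat_lit 319) (nat_lit 0) (cs (rf (nat_lit 0)) (cs (rf (nat_lit 1)) (cs (rf (nat_lit 2)) (nd (nat_lit 320) (nat_lit 0) (cs (lf (nat_lit 29) (nat_lit 253)) (nd (nat_lit 230) (nat_lit 0) (cs (lf (nat_lit 46) (nat_lit 230)) (nd (nat_lit 231) (nat_lit 0) (cs (lf (nat_lit 47) (nat_lit 208)) (nd (nat_lit 296) (nat_lit 0) (cs (lf (nat_lit 41) (nat_lit 230)) (nd (nat_lit 321) (nat_lit 0) (cs (lf (nat_lit 18) (nat_lit 296)) (nd (nat_lit 295) (nat_lit 0) (cs (lf (nat_lit 0) (nat_lit 294)) (nd (nat_lit 274) (nat_lit 0) (cs (lf (nat_lit 36) (nat_lit 208)) (nd (nat_lit 276) (nat_lit 0) (cs (lf (nat_lit 6) (nat_lit 273)) (nd (nat_lit 341) (nat_lit 0) (cs (lf (nat_lit 42) (nat_lit 274)) (lf (nat_lit 35) (nat_lit 253)))))))))))))))))))))))) q113700 (by decide +kernel)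
def q113809 : Q := Q.p (nat_lit 0x200000800002000000000000000000000000000000000000000000000000000000000000000) (nat_lit 0x100001c0000700007c00005c000040000100000c000020000000000000000000000000000000000000000000000000000) (nat_lit 9)
theorem c113809 : QOK q113809 := cut [q89625, q99280, q113176, q94435] ⟨c89625, c99280, c113176, c94435, trivial⟩ (nd (nat_lit 319) (nat_lit 0) (cs (rf (nat_lit 0)) (cs (rf (nat_lit 1)) (cs (rf (nat_lit 2)) (nd (nat_lit 320) (nat_lit 0) (cs (lf (nat_lit 29) (nat_lit 253)) (nd (nat_lit 231) (nat_lit 0) (cs (lf (nat_lit 28) (nat_lit 231)) (nd (nat_lit 296) (nat_lit 0) (cs (lf (nat_lit 41) (nat_lit 230)) (nd (nat_lit 321) (nat_lit 0) (cs (lf (nat_lit 18) (nat_lit 296)) (nd (nat_lit 294) (nat_lit 0) (cs (lf (nat_lit 1) (nat_lit 294)) (nd (nat_lit 252) (nat_lit 0) (cs (lf (nat_lit 47) (nat_lit 230)) (rf (nat_lit 3)))))))))))))))))) q113809 (by decide +kernel)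
def q113813 : Q := Q.p (nat_lit 0x800002000008000000000000000000000000000000000000000000000000000000000) (nat_lit 0x500001c0000700000400004000010000060000100000000000000000000000000000000000000000000000) (nat_lit 5)
theorem c113813 : QOK q113813 := cut [q22016, q84365, q98797] ⟨c22016, c84365, c98797, trivial⟩ (nd (nat_lit 297) (nat_lit 0) (cs (rf (nat_lit 0)) (cs (rf (nat_lit 1)) (rf (nat_lit 2))))) q113813 (by decide +kernel)
def q113844 : Q := Q.p (nat_lit 0x800002000038000000000000000000000000000000000000000000000000000000000) (nat_lit 0x3d0000c70000c0000100000000000000000000000000000000000000000000000) (nat_lit 7)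
theorem c113844 : QOK q113844 := cut [q113819] ⟨c113819, trivial⟩ (nd (nat_lit 234) (nat_lit 0) (cs (lf (nat_lit 11) (nat_lit 230)) (nd (nat_lit 256) (nat_lit 0) (cs (lf (nat_lit 5) (nat_lit 231)) (rf (nat_lit 0)))))) q113844 (by decide +kernel)
def q113850 : Q := Q.p (nat_lit 0x200001800002000038000000000000000000000000000000000000000000000000000000000) (nat_lit 0x300001c00000600004000000000080000000000000000000000000000000000000000000000000000) (nat_lit 5)
theorem c113850 : QOK q113850 := cut [q105475] ⟨c105475, trivial⟩ (nd (nat_lit 298) (nat_lit 0) (cs (lf (nat_lit 29) (nat_lit 231)) (rf (nat_lit 0)))) q113850 (by decide +kernel)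
def q113918 : Q := Q.p (nat_lit 0x200000800002000008000000000000000000000000000000000000000000000000000000000) (nat_lit 0x200000c00005c000760001d000014000010000000000000000000000000000000000000000000000000000) (nat_lit 10)
theorem c113918 : QOK q113918 := cut [q109959] ⟨c109959, trivial⟩ (nd (nat_lit 296) (nat_lit 0) (cs (lf (nat_lit 41) (nat_lit 230)) (nd (nat_lit 230) (nat_lit 0) (cs (lf (nat_lit 47) (nat_lit 208)) (nd (nat_lit 319) (nat_lit 0) (cs (lf (nat_lit 46) (nat_lit 230)) (nd (nat_lit 254) (nat_lit 0) (cs (lf (nat_lit 35) (nat_lit 231)) (nd (nat_lit 255) (nat_lit 0) (cs (lf (nat_lit 18) (nat_lit 230)) (rf (nat_lit 0)))))))))))) q113918 (by decide +kernel)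
def q113993 : Q := Q.p (nat_lit 0x7800010000040000000000000000000000000000000000000000000000000000) (nat_lit 0xa0000380000e000030000000000080000a0000380000800000000000000000000000000000000000000000) (nat_lit 9)
theorem c113993 : QOK q113993 := cut [q92319] ⟨c92319, trivial⟩ (nd (nat_lit 276) (nat_lit 0) (cs (lf (nat_lit 5) (nat_lit 251)) (nd (nat_lit 189) (nat_lit 0) (cs (lf (nat_lit 34) (nat_lit 188)) (nd (nat_lit 167) (nat_lit 0) (cs (lf (nat_lit 33) (nat_lit 166)) (rf (nat_lit 0)))))))) q113993 (by decide +kernel)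
def q114022 : Q := Q.p (nat_lit 0x300000c000020000000000000000000000000000000000000000000000000000) (nat_lit 0x1c0000700007e0001c000002000040000100000000000000000000000000000000000000000000000) (nat_lit 8)
theorem c114022 : QOK q114022 := cut [q90445, q110053, q110059] ⟨c90445, c110053, c110059, trivial⟩ (nd (nat_lit 275) (nat_lit 0) (cs (rf (nat_lit 0)) (cs (rf (nat_lit 1)) (nd (nat_lit 274) (nat_lit 0) (cs (lf (nat_lit 30) (nat_lit 208)) (rf (nat_lit 2))))))) q114022 (by decide +kernel)
def q114035 : Q := Q.p (nat_lit 0x300000c000000000000000000000000000000000000000000000000000000000) (nat_lit 0x1c00007800078000000000130001f00001c0000300000000000000000000000000000000000000000) (nat_lit 7)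
theorem c114035 : QOK q114035 := cut [q79078, q92844, q110082] ⟨c79078, c92844, c110082, trivial⟩ (nd (nat_lit 275) (nat_lit 0) (cs (rf (nat_lit 0)) (cs (rf (nat_lit 1)) (rf (nat_lit 2))))) q114035 (by decide +kernel)
def q114061 : Q := Q.p (nat_lit 0x400007000004000000000000000000000000000000000000000000000000000000000) (nat_lit 0xe200018000068000000000000000000000000000000000000000000000000000000000) (nat_lit 5)
theorem c114061 : QOK q114061 := cut [q111124] ⟨c111124, trivial⟩ (nd (nat_lit 255) (nat_lit 0) (cs (lf (nat_lit 11) (nat_lit 251)) (rf (nat_lit 0)))) q114061 (by decide +kernel)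
def q114066 : Q := Q.p (nat_lit 0x400003000004000000000000000000000000000000000000000000000000000000000) (nat_lit 0x80000e00003800008000000000080000180000e0000380000800000000000000000000000000000000000) (nat_lit 7)
theorem c114066 : QOK q114066 := cut [q82038, q25] ⟨c82038, c25, trivial⟩ (nd (nat_lit 297) (nat_lit 0) (cs (rf (nat_lit 0)) (cs (nd (nat_lit 275) (nat_lit 0) (cs (lf (nat_lit 42) (nat_lit 230)) (lf (nat_lit 24) (nat_lit 208)))) (nd (nat_lit 208) (nat_lit 0) (cs (lf (nat_lit 28) (nat_lit 208)) (nd (nat_lit 185) (nat_lit 0) (cs (lf (nat_lit 46) (nat_lit 185)) (nd (nat_lit 186) (nat_lit 0) (cs (lf (nat_lit 47) (nat_lit 163)) (rf (nat_lit 1))))))))))) q114066 (by decide +kernel)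
def q114099 : Q := Q.p (nat_lit 0x300000c000020000000000000000000000000000000000000000000000000000) (nat_lit 0x1c0000700003c00000c00000000040000100000000000000000000000000000000000000000000000) (nat_lit 6)
theorem c114099 : QOK q114099 := cut [q90445, q110053, q22284] ⟨c90445, c110053, c22284, trivial⟩ (nd (nat_lit 275) (nat_lit 0) (cs (rf (nat_lit 0)) (cs (rf (nat_lit 1)) (nd (nat_lit 274) (nat_lit 0) (cs (lf (nat_lit 30) (nat_lit 208)) (rf (nat_lit 2))))))) q114099 (by decide +kernel)
def q114160 : Q := Q.p (nat_lit 0x80000300000c000000000000000000000000000000000000000000000000000000000) (nat_lit 0x400007000000c000020001f00001c0000700000000000000000000000000000000000000000) (nat_lit 8)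
theorem c114160 : QOK q114160 := cut [q90372, q92843, q93876] ⟨c90372, c92843, c93876, trivial⟩ (nd (nat_lit 209) (nat_lit 0) (cs (rf (nat_lit 0)) (cs (rf (nat_lit 1)) (nd (nat_lit 208) (nat_lit 0) (cs (lf (nat_lit 24) (nat_lit 186)) (nd (nat_lit 276) (nat_lit 0) (cs (lf (nat_lit 29) (nat_lit 209)) (nd (nat_lit 277) (nat_lit 0) (cs (lf (nat_lit 18) (nat_lit 252)) (rf (nat_lit 2))))))))))) q114160 (by decide +kernel)
def q114174 : Q := Q.p (nat_lit 0x300000c000000000000000000000000000000000000000000000000000000000) (nat_lit 0xe00003800007800000000038001fe0007f8000380000800000000000000000000000000000000000) (nat_lit 13)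
theorem c114174 : QOK q114174 := cut [q79097, q105883, q85040, q86677, q88133] ⟨c79097, c105883, c85040, c86677, c88133, trivial⟩ (nd (nat_lit 274) (nat_lit 0) (cs (rf (nat_lit 0)) (cs (rf (nat_lit 1)) (nd (nat_lit 208) (nat_lit 0) (cs (rf (nat_lit 2)) (cs (rf (nat_lit 3)) (rf (nat_lit 4)))))))) q114174 (by decide +kernel)
def q114190 : Q := Q.p (nat_lit 0x800003000004000000000000000000000000000000000000000000000000000000000) (nat_lit 0x180000600001000000000018000070000100000000000000000000000000000000000000000000000) (nat_lit 6)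
theorem c114190 : QOK q114190 := cut [q32034] ⟨c32034, trivial⟩ (nd (nat_lit 297) (nat_lit 0) (cs (lf (nat_lit 42) (nat_lit 230)) (nd (nat_lit 231) (nat_lit 0) (cs (rf (nat_lit 0)) (lf (nat_lit 47) (nat_lit 208)))))) q114190 (by decide +kernel)
def q114255 : Q := Q.p (nat_lit 0x3000004000030000000000000000000000000000000000000000000000000000) (nat_lit 0x700007c0000000001a0001ce000120000000000000000000000000000000000000000000000) (nat_lit 7)
theorem c114255 : QOK q114255 := cut [q87241, q110104] ⟨c87241, c110104, trivial⟩ (nd (nat_lit 231) (nat_lit 0) (cs (rf (nat_lit 0)) (rf (nat_lit 1)))) q114255 (by decide +kernel)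
def q114270 : Q := Q.p (nat_lit 0x3800000000000000000000000000000000000000000000000000000000000000) (nat_lit 0x780000c40007b800000000000000000000000000000000000000000000000000000000) (nat_lit 5)
theorem c114270 : QOK q114270 := cut [q79164, q81085, q105829] ⟨c79164, c81085, c105829, trivial⟩ (nd (nat_lit 254) (nat_lit 0) (cs (rf (nat_lit 0)) (cs (rf (nat_lit 1)) (rf (nat_lit 2))))) q114270 (by decide +kernel)
def q114278 : Q := Q.p (nat_lit 0x800003c00000000000000000000000000000000000000000000000000000000000000) (nat_lit 0xe58001c000073800000000000000000000000000000000000000000000000000000000) (nat_lit 8)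
theorem c114278 : QOK q114278 := cut [q114275] ⟨c114275, trivial⟩ (nd (nat_lit 271) (nat_lit 0) (cs (lf (nat_lit 10) (nat_lit 249)) (nd (nat_lit 228) (nat_lit 0) (cs (lf (nat_lit 23) (nat_lit 227)) (nd (nat_lit 254) (nat_lit 0) (cs (lf (nat_lit 22) (nat_lit 228)) (rf (nat_lit 0)))))))) q114278 (by decide +kernel)
def q114293 : Q := Q.p (nat_lit 0x3800000000000000000000000000000000000000000000000000000000000000) (nat_lit 0x80003b8000c400007800010000040000000000000000000000000000000000000000000000) (nat_lit 6)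
theorem c114293 : QOK q114293 := cut [q79009, q79164, q92326] ⟨c79009, c79164, c92326, trivial⟩ (nd (nat_lit 254) (nat_lit 0) (cs (rf (nat_lit 0)) (cs (rf (nat_lit 1)) (rf (nat_lit 2))))) q114293 (by decide +kernel)
def q114315 : Q := Q.p (nat_lit 0x3800000000000000000000000000000000000000000000000000000000000000) (nat_lit 0x778000c400078000000000000000000000000000000000000000000000000000000000) (nat_lit 5)
theorem c114315 : QOK q114315 := cut [q79013, q103009, q105829] ⟨c79013, c103009, c105829, trivial⟩ (nd (nat_lit 254) (nat_lit 0) (cs (rf (nat_lit 0)) (cs (rf (nat_lit 1)) (rf (nat_lit 2))))) q114315 (by decide +kernel)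
def q114316 : Q := Q.p (nat_lit 0x3800000000000000000000000000000000000000000000000000000000000000) (nat_lit 0x700000c40007f800000000000000000000000000000000000000000000000000000000) (nat_lit 5)
theorem c114316 : QOK q114316 := cut [q81085, q98510, q105829] ⟨c81085, c98510, c105829, trivial⟩ (nd (nat_lit 254) (nat_lit 0) (cs (rf (nat_lit 0)) (cs (rf (nat_lit 1)) (rf (nat_lit 2))))) q114316 (by decide +kernel)
def q114324 : Q := Q.p (nat_lit 0x7800000000000000000000000000000000000000000000000000000000000000) (nat_lit 0x70000180000ee000000000000000000000000000000000000000000000000000000000) (nat_lit 6)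
theorem c114324 : QOK q114324 := cut [q114322] ⟨c114322, trivial⟩ (nd (nat_lit 277) (nat_lit 0) (cs (lf (nat_lit 4) (nat_lit 251)) (nd (nat_lit 255) (nat_lit 0) (cs (lf (nat_lit 5) (nat_lit 252)) (rf (nat_lit 0)))))) q114324 (by decide +kernel)
def q114338 : Q := Q.p (nat_lit 0x1000007000004000000000000000000000000000000000000000000000000000000000) (nat_lit 0xe0000380000e000068000000000780000e0000380000000000000000000000000000000000000000000000) (nat_lit 10)
theorem c114338 : QOK q114338 := cut [q81413, q82169, q90151, q81438, q106227] ⟨c81413, c82169, c90151, c81438, c106227, trivial⟩ (nd (nat_lit 298) (nat_lit 0) (cs (rf (nat_lit 0)) (cs (rf (nat_lit 1)) (cs (rf (nat_lit 2)) (nd (nat_lit 319) (nat_lit 0) (cs (rf (nat_lit 3)) (cs (rf (nat_lit 4)) (cs (nd (nat_lit 297) (nat_lit 0) (cs (lf (nat_lit 36) (nat_lit 231)) (lf (nat_lit 44) (nat_lit 230)))) (nd (nat_lit 320) (nat_lit 0) (cs (lf (nat_lit 41) (nat_lit 253)) (nd (nat_lit 275) (nat_lit 0) (cs (lf (nat_lit 42) (nat_lit 253)) (lf (nat_lit 43) (nat_lit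 230)))))))))))))) q114338 (by decide +kernel)
def q114349 : Q := Q.p (nat_lit 0x7000010000000000000000000000000000000000000000000000000000000000) (nat_lit 0xa0000380000e0000f800000800008000060000380000e00002800000000000000000000000000000000000) (nat_lit 8)
theorem c114349 : QOK q114349 := cut [q79123, q79128, q92319, q106114, q79136, q106079] ⟨c79123, c79128, c92319, c106114, c79136, c106079, trivial⟩ (nd (nat_lit 210) (nat_lit 0) (cs (rf (nat_lit 0)) (cs (rf (nat_lit 1)) (cs (nd (nat_lit 276) (nat_lit 0) (cs (rf (nat_lit 2)) (rf (nat_lit 3)))) (nd (nat_lit 187) (nat_lit 0) (cs (rf (nat_lit 4)) (rf (nat_lit 5)))))))) q114349 (by decide +kernel)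
def q114352 : Q := Q.p (nat_lit 0x7000004000000000000000000000000000000000000000000000000000000000) (nat_lit 0xf0000188000f8000000000000000000000000000000000000000000000000000000000) (nat_lit 5)
theorem c114352 : QOK q114352 := cut [q87169, q113999, q114321] ⟨c87169, c113999, c114321, trivial⟩ (nd (nat_lit 255) (nat_lit 0) (cs (rf (nat_lit 0)) (cs (rf (nat_lit 1)) (rf (nat_lit 2))))) q114352 (by decide +kernel)
def q114354 : Q := Q.p (nat_lit 0x7800004000000000000000000000000000000000000000000000000000000000) (nat_lit 0x20000080003700000000030000010000040000000000000000000000000000000000000000000000) (nat_lit 6)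
theorem c114354 : QOK q114354 := cut [q109722] ⟨c109722, trivial⟩ (nd (nat_lit 276) (nat_lit 0) (cs (lf (nat_lit 5) (nat_lit 251)) (rf (nat_lit 0)))) q114354 (by decide +kernel)
def q114375 : Q := Q.p (nat_lit 0x780000c000000000000000000000000000000000000000000000000000000000) (nat_lit 0x10000050000340000000000380007f0000fc0003c0000a00000000000000000000000000000000000) (nat_lit 12)
theorem c114375 : QOK q114375 := cut [q110304, q98094, q110781, q94861, q80014] ⟨c110304, c98094, c110781, c94861, c80014, trivial⟩ (nd (nat_lit 208) (nat_lit 0) (cs (rf (nat_lit 0)) (cs (nd (nat_lit 186) (nat_lit 0) (cs (lf (nat_lit 24) (nat_lit 164)) (nd (nat_lit 165) (nat_lit 0) (cs (lf (nat_lit 34) (nat_lit 164)) (nd (nat_lit 276) (nat_lit 0) (cs (lf (nat_lit 5) (nat_lit 251)) (nd (nat_lit 298) (nat_lit 0) (cs (lf (nat_lit 42) (nat_lit 231)) (nd (nat_lit 229) (nat_lit 0) (cs (lf (nat_lit 0) (nat_lit 228)) (rf (nat_lit 1)))))))))))) (cs (nd (nat_lit 276) (nat_lit 0) (cs (lf (nat_lit 5) (nat_lit 251)) (nd (nat_lit 298) (nat_lit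 0) (cs (lf (nat_lit 42) (nat_lit 231)) (nd (nat_lit 228) (nat_lit 0) (cs (lf (nat_lit 1) (nat_lit 228)) (nd (nat_lit 209) (nat_lit 0) (cs (lf (nat_lit 24) (nat_lit 187)) (rf (nat_lit 2)))))))))) (cs (nd (nat_lit 276) (nat_lit 0) (cs (lf (nat_lit 5) (nat_lit 251)) (nd (nat_lit 298) (nat_lit 0) (cs (lf (nat_lit 42) (nat_lit 231)) (nd (nat_lit 228) (nat_lit 0) (cs (lf (nat_lit 22) (nat_lit 228)) (nd (nat_lit 186) (nat_lit 0) (cs (lf (nat_lit 24) (nat_lit 164)) (nd (nat_lit 185) (nat_lit 0) (cs (lf (nat_lit 47) (nat_lit 163)) (nd (nat_lit 207) (nat_lit 0) (cs (lf (nat_lit 42) (nat_lit 185)) (nd (nat_lit 206) (nat_lit 0) (cs (lf (nat_lit 0) (nat_lit 205)) (nd (nat_lit 209) (nat_lit 0) (cs (lf (nat_lit 11) (nat_lit 205)) (rf (nat_lit 3)))))))))))))))))) (nd (nat_lit 276) (nat_lit 0) (cs (lf (nat_lit 5) (nat_lit 251)) (nd (nat_lit 298) (nat_lit 0) (cs (lf (nat_lit 42) (nat_lit 231)) (nd (nat_lit 187) (nat_lit 0) (cs (lf (nat_lit 25) (nat_lit 187)) (rf (nat_lit 4))))))))))))) q114375 (by decide +kernel)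
def q114378 : Q := Q.p (nat_lit 0x7800004000000000000000000000000000000000000000000000000000000000) (nat_lit 0x6000018000070000000003bc0000c000010000000000000000000000000000000000000000000000) (nat_lit 8)
theorem c114378 : QOK q114378 := cut [q82198, q114331] ⟨c82198, c114331, trivial⟩ (nd (nat_lit 229) (nat_lit 0) (cs (rf (nat_lit 0)) (rf (nat_lit 1)))) q114378 (by decide +kernel)
def q114385 : Q := Q.p (nat_lit 0x7000000000000000000000000000000000000000000000000000000000000000) (nat_lit 0x2000008000077000388000fc000140000500000000000000000000000000000000000000000000000) (nat_lit 11)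
theorem c114385 : QOK q114385 := cut [q79217, q81054, q113999, q106213] ⟨c79217, c81054, c113999, c106213, trivial⟩ (nd (nat_lit 255) (nat_lit 0) (cs (rf (nat_lit 0)) (cs (rf (nat_lit 1)) (cs (rf (nat_lit 2)) (nd (nat_lit 273) (nat_lit 0) (cs (lf (nat_lit 10) (nat_lit 251)) (nd (nat_lit 277) (nat_lit 0) (cs (lf (nat_lit 5) (nat_lit 252)) (rf (nat_lit 3)))))))))) q114385 (by decide +kernel)
def q114386 : Q := Q.p (nat_lit 0x7000000000000000000000000000000000000000000000000000000000000000) (nat_lit 0x80000ef00018800070000040000100000000000000000000000000000000000000000000000) (nat_lit 6)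
theorem c114386 : QOK q114386 := cut [q79228, q81054, q102864] ⟨c79228, c81054, c102864, trivial⟩ (nd (nat_lit 255) (nat_lit 0) (cs (rf (nat_lit 0)) (cs (rf (nat_lit 1)) (rf (nat_lit 2))))) q114386 (by decide +kernel)
def q114387 : Q := Q.p (nat_lit 0x7000000000000000000000000000000000000000000000000000000000000000) (nat_lit 0x40000fe000188000e0000080000200000000000000000000000000000000000000000000000) (nat_lit 6)
theorem c114387 : QOK q114387 := cut [q79223, q102864, q106246] ⟨c79223, c102864, c106246, trivial⟩ (nd (nat_lit 255) (nat_lit 0) (cs (rf (nat_lit 0)) (cs (rf (nat_lit 1)) (rf (nat_lit 2))))) q114387 (by decide +kernel)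
def q114389 : Q := Q.p (nat_lit 0x1000007000000000000000000000000000000000000000000000000000000000000000) (nat_lit 0x200000e0000380000e0000280000000007c0000e0000280000000000000000000000000000000000000000000000) (nat_lit 7)
theorem c114389 : QOK q114389 := cut [q81413, q82169, q90151, q81442, q81446, q106220] ⟨c81413, c82169, c90151, c81442, c81446, c106220, trivial⟩ (nd (nat_lit 298) (nat_lit 0) (cs (rf (nat_lit 0)) (cs (rf (nat_lit 1)) (cs (rf (nat_lit 2)) (nd (nat_lit 319) (nat_lit 0) (cs (rf (nat_lit 3)) (cs (rf (nat_lit 4)) (rf (nat_lit 5))))))))) q114389 (by decide +kernel)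
def q114429 : Q := Q.p (nat_lit 0x3800000000000000000000000000000000000000000000000000000000000000) (nat_lit 0x3dc0004600003c00000000000000000000000000000000000000000000000000000000) (nat_lit 6)
theorem c114429 : QOK q114429 := cut [q2623, q3764, q40524, q106417] ⟨c2623, c3764, c40524, c106417, trivial⟩ (nd (nat_lit 250) (nat_lit 0) (cs (rf (nat_lit 0)) (cs (rf (nat_lit 1)) (cs (rf (nat_lit 2)) (rf (nat_lit 3)))))) q114429 (by decide +kernel)
def q114477 : Q := Q.p (nat_lit 0x800003800000000000000000000000000000000000000000000000000000000000000) (nat_lit 0x100001e00007e000060000c60000f80007f0001f80007e0000000000000000000000000000000000000000) (nat_lit 16)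
theorem c114477 : QOK q114477 := cut [q79078, q79112, q95670, q106462, q106487, q90372, q106493, q114191, q113038, q20230, q1327, q61168] ⟨c79078, c79112, c95670, c106462, c106487, c90372, c106493, c114191, c113038, c20230, c1327, c61168, trivial⟩ (nd (nat_lit 230) (nat_lit 0) (cs (rf (nat_lit 0)) (cs (rf (nat_lit 1)) (cs (rf (nat_lit 2)) (cs (nd (nat_lit 228) (nat_lit 0) (cs (nd (nat_lit 297) (nat_lit 0) (cs (lf (nat_lit 42) (nat_lit 230)) (nd (nat_lit 250) (nat_lit 0) (cs (lf (nat_lit 23) (nat_lit 227)) (nd (nat_lit 249) (nat_lit 0) (cs (lf (nat_lit 17) (nat_lit 227)) (lf (nat_lit 4) (nat_lit 249)))))))) (cs (nd (nat_lit 296) (nat_lit 0) (cs (nd (nat_lit 229) (nat_lit 0) (cs (lf (nat_lit 18) (nat_lit 228)) (rf (nat_lit 3)))) (cs (nd (nat_lit 229) (nat_lit 0) (cs (lf (nat_lit 18) (nat_lit 228)) (rf (nat_lit 4)))) (cs (nd (nat_lit 297) (nat_lit 0) (cs (lf (nat_lit 42) (nat_lit 230)) (nd (nat_lit 231) (nat_lit 0) (cs (lf (nat_lit 41) (nat_lit 230)) (nd (nat_lit 298) (nat_lit 0) (cs (lf (nat_lit 29) (nat_lit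 231)) (nd (nat_lit 249) (nat_lit 0) (cs (lf (nat_lit 13) (nat_lit 227)) (nd (nat_lit 209) (nat_lit 0) (cs (lf (nat_lit 31) (nat_lit 208)) (rf (nat_lit 5)))))))))))) (nd (nat_lit 297) (nat_lit 0) (cs (lf (nat_lit 42) (nat_lit 230)) (nd (nat_lit 229) (nat_lit 0) (cs (lf (nat_lit 18) (nat_lit 228)) (rf (nat_lit 6)))))))))) (nd (nat_lit 229) (nat_lit 0) (cs (lf (nat_lit 0) (nat_lit 227)) (lf (nat_lit 18) (nat_lit 228))))))) (nd (nat_lit 274) (nat_lit 0) (cs (rf (nat_lit 7)) (cs (nd (nat_lit 208) (nat_lit 0) (cs (lf (nat_lit 24) (nat_lit 186)) (nd (nat_lit 249) (nat_lit 0) (cs (lf (nat_lit 1) (nat_lit 249)) (rf (nat_lit 8)))))) (cs (nd (nat_lit 250) (nat_lit 0) (cs (lf (nat_lit 0) (nat_lit 249)) (nd (nat_lit 228) (nat_lit 0) (cs (lf (nat_lit 23) (nat_lit 227)) (nd (nat_lit 229) (nat_lit 0) (cs (rf (nat_lit 9)) (lf (nat_lit 18) (nat_lit 228)))))))) (cs (nd (nat_lit 249) (nat_lit 0) (cs (lf (nat_lit 1) (nat_lit 249)) (nd (nat_lit 208) (nat_lit 0) (cs (lf (nat_lit 24) (nat_lit 186)) (nd (nat_lit 273) (nat_lit 0)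 (cs (lf (nat_lit 41) (nat_lit 207)) (nd (nat_lit 254) (nat_lit 0) (cs (lf (nat_lit 6) (nat_lit 251)) (nd (nat_lit 229) (nat_lit 0) (cs (lf (nat_lit 23) (nat_lit 228)) (nd (nat_lit 187) (nat_lit 0) (cs (lf (nat_lit 34) (nat_lit 186)) (nd (nat_lit 207) (nat_lit 0) (cs (lf (nat_lit 47) (nat_lit 185)) (rf (nat_lit 10)))))))))))))))) (cs (nd (nat_lit 186) (nat_lit 0) (cs (lf (nat_lit 25) (nat_lit 186)) (nd (nat_lit 250) (nat_lit 0) (cs (lf (nat_lit 0) (nat_lit 249)) (nd (nat_lit 228) (nat_lit 0) (cs (lf (nat_lit 23) (nat_lit 227)) (nd (nat_lit 229) (nat_lit 0) (cs (lf (nat_lit 18) (nat_lit 228)) (nd (nat_lit 296) (nat_lit 0) (cs (lf (nat_lit 42) (nat_lit 229)) (nd (nat_lit 209) (nat_lit 0) (cs (lf (nat_lit 37) (nat_lit 208)) (nd (nat_lit 295) (nat_lit 0) (cs (lf (nat_lit 41) (nat_lit 229)) (nd (nat_lit 293) (nat_lit 0) (cs (lf (nat_lit 13) (nat_lit 271)) (nd (nat_lit 206) (nat_lit 0) (cs (lf (nat_lit 43) (nat_lit 206)) (nd (nat_lit 184) (nat_lit 0) (cs (lf (nat_lit 24) (nat_lit 162)) (nd (nat_lit 161) (nat_lit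 0) (cs (lf (nat_lit 46) (nat_lit 161)) (rf (nat_lit 11)))))))))))))))))))))))) (nd (nat_lit 249) (nat_lit 0) (cs (lf (nat_lit 1) (nat_lit 249)) (nd (nat_lit 208) (nat_lit 0) (cs (lf (nat_lit 24) (nat_lit 186)) (nd (nat_lit 273) (nat_lit 0) (cs (lf (nat_lit 41) (nat_lit 207)) (nd (nat_lit 254) (nat_lit 0) (cs (lf (nat_lit 6) (nat_lit 251)) (nd (nat_lit 229) (nat_lit 0) (cs (lf (nat_lit 23) (nat_lit 228)) (nd (nat_lit 296) (nat_lit 0) (cs (lf (nat_lit 42) (nat_lit 229)) (lf (nat_lit 47) (nat_lit 207))))))))))))))))))))))))) q114477 (by decide +kernel)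
def q114504 : Q := Q.p (nat_lit 0x7000000000000000000000000000000000000000000000000000000000000000) (nat_lit 0xf0000188000f7000000000000000000000000000000000000000000000000000000000) (nat_lit 6)
theorem c114504 : QOK q114504 := cut [q83694, q98272, q105803, q113999] ⟨c83694, c98272, c105803, c113999, trivial⟩ (nd (nat_lit 255) (nat_lit 0) (cs (rf (nat_lit 0)) (cs (rf (nat_lit 1)) (cs (rf (nat_lit 2)) (rf (nat_lit 3)))))) q114504 (by decide +kernel)
def q114549 : Q := Q.p (nat_lit 0x7000000000000000000000000000000000000000000000000000000000000000) (nat_lit 0x80000600001dc0028e001ff8007fc001fe0001f80006a00000000000000000000000000000000000) (nat_lit 14)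
theorem c114549 : QOK q114549 := cut [q79118, q81677, q81719, q81715, q79169, q88841, q95551, q79026, q79123, q79128, q79145, q79160, q79116, q80981, q104891, q94094, q79028, q104814, q79029, q103019] ⟨c79118, c81677, c81719, c81715, c79169, c88841, c95551, c79026, c79123, c79128, c79145, c79160, c79116, c80981, c104891, c94094, c79028, c104814, c79029, c103019, trivial⟩ (nd (nat_lit 232) (nat_lit 0) (cs (rf (nat_lit 0)) (cs (rf (nat_lit 1)) (cs (nd (nat_lit 229) (nat_lit 0) (cs (rf (nat_lit 2)) (cs (nd (nat_lit 251) (nat_lit 0) (cs (lf (nat_lit 23) (nat_lit 228)) (rf (nat_lit 3)))) (cs (nd (nat_lit 275) (nat_lit 0) (cs (rf (nat_lit 4)) (cs (nd (nat_lit 230) (nat_lit 0) (cs (lf (nat_lit 18) (nat_lit 229)) (nd (nat_lit 186) (nat_lit 0) (cs (lf (nat_lit 25) (nat_lit 186)) (nd (nat_lit 210) (nat_lit 0) (cs (lf (nat_lit 36) (nat_lit 187)) (nd (nat_lit 231) (nat_lit 0) (cs (lf (nat_lit 17) (nat_lit 207)) (nd (nat_lit 207) (nat_lit 0) (cs (lf (nat_lit 23) (nat_lit 206)) (nd (nat_lit 251) (nat_lit 0) (cs (lf (nat_lit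 12) (nat_lit 228)) (rf (nat_lit 5)))))))))))))) (nd (nat_lit 297) (nat_lit 0) (cs (lf (nat_lit 30) (nat_lit 231)) (rf (nat_lit 6))))))) (nd (nat_lit 230) (nat_lit 0) (cs (rf (nat_lit 7)) (lf (nat_lit 18) (nat_lit 229)))))))) (nd (nat_lit 210) (nat_lit 0) (cs (rf (nat_lit 8)) (cs (rf (nat_lit 9)) (cs (rf (nat_lit 10)) (cs (rf (nat_lit 11)) (nd (nat_lit 233) (nat_lit 0) (cs (rf (nat_lit 12)) (cs (rf (nat_lit 13)) (cs (rf (nat_lit 14)) (nd (nat_lit 211) (nat_lit 0) (cs (rf (nat_lit 15)) (cs (nd (nat_lit 230) (nat_lit 0) (cs (rf (nat_lit 16)) (cs (rf (nat_lit 17)) (nd (nat_lit 167) (nat_lit 0) (cs (lf (nat_lit 37) (nat_lit 166)) (nd (nat_lit 229) (nat_lit 0) (cs (lf (nat_lit 18) (nat_lit 229)) (nd (nat_lit 227) (nat_lit 0) (cs (lf (nat_lit 1) (nat_lit 227)) (nd (nat_lit 208) (nat_lit 0) (cs (rf (nat_lit 18)) (lf (nat_lit 8) (nat_lit 207))))))))))))) (nd (nat_lit 276) (nat_lit 0) (cs (lf (nat_lit 30) (nat_lit 210)) (rf (nat_lit 19)))))))))))))))))))) q114549 (by decide +kernel)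
def q114601 : Q := Q.p (nat_lit 0x3800008000000000000000000000000000000000000000000000000000000000) (nat_lit 0x3b80004600005c00000000000000000000000000000000000000000000000000000000) (nat_lit 5)
theorem c114601 : QOK q114601 := cut [q12246, q90242] ⟨c12246, c90242, trivial⟩ (nd (nat_lit 250) (nat_lit 0) (cs (rf (nat_lit 0)) (rf (nat_lit 1)))) q114601 (by decide +kernel)
def q114702 : Q := Q.p (nat_lit 0x3800000000000000000000000000000000000000000000000000000000000000) (nat_lit 0x80000200001e0001c60007fc00000000000000000000000000000000000000000000000000000000) (nat_lit 9)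
theorem c114702 : QOK q114702 := cut [q90245, q92244, q40524] ⟨c90245, c92244, c40524, trivial⟩ (nd (nat_lit 232) (nat_lit 0) (cs (rf (nat_lit 0)) (cs (nd (nat_lit 254) (nat_lit 0) (cs (lf (nat_lit 17) (nat_lit 229)) (rf (nat_lit 1)))) (nd (nat_lit 250) (nat_lit 0) (cs (lf (nat_lit 16) (nat_lit 228)) (rf (nat_lit 2))))))) q114702 (by decide +kernel)
def q114740 : Q := Q.p (nat_lit 0x800002000008000000000000000000000000000000000000000000000000000000000) (nat_lit 0x200001c000078000740001d000014000030000040000000000000000000000000000000000000000000000) (nat_lit 10)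
theorem c114740 : QOK q114740 := cut [q21953, q79736, q81706, q107048] ⟨c21953, c79736, c81706, c107048, trivial⟩ (nd (nat_lit 297) (nat_lit 0) (cs (rf (nat_lit 0)) (cs (rf (nat_lit 1)) (cs (rf (nat_lit 2)) (rf (nat_lit 3)))))) q114740 (by decide +kernel)
def q114741 : Q := Q.p (nat_lit 0x800003800000000000000000000000000000000000000000000000000000000000000) (nat_lit 0xe7c001c600077c00008000020000000000000000000000000000000000000000000000) (nat_lit 11)
theorem c114741 : QOK q114741 := cut [q1998, q2065, q2068, q112993] ⟨c1998, c2065, c2068, c112993, trivial⟩ (nd (nat_lit 250) (nat_lit 0) (cs (rf (nat_lit 0)) (cs (rf (nat_lit 1)) (cs (rf (nat_lit 2)) (rf (nat_lit 3)))))) q114741 (by decide +kernel)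
def q114867 : Q := Q.p (nat_lit 0x200001800003000000000000000000000000000000000000000000000000000000000000000) (nat_lit 0x18000060001dc000678001c000004000010000000000000000000000000000000000000000000000000000) (nat_lit 8)
theorem c114867 : QOK q114867 := cut [q91097, q113288, q114865] ⟨c91097, c113288, c114865, trivial⟩ (nd (nat_lit 277) (nat_lit 0) (cs (lf (nat_lit 18) (nat_lit 252)) (nd (nat_lit 274) (nat_lit 0) (cs (rf (nat_lit 0)) (cs (rf (nat_lit 1)) (rf (nat_lit 2))))))) q114867 (by decide +kernel)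
def q114939 : Q := Q.p (nat_lit 0xe00000000000000000000000000000000000000000000000000000000000000000000) (nat_lit 0x8000020001df00031e0000fc0001000004000000000000000000000000000000000000000000000000000) (nat_lit 9)
theorem c114939 : QOK q114939 := cut [q22115, q22120, q59984, q22121, q22127, q14516] ⟨c22115, c22120, c59984, c22121, c22127, c14516, trivial⟩ (nd (nat_lit 250) (nat_lit 0) (cs (rf (nat_lit 0)) (cs (rf (nat_lit 1)) (cs (rf (nat_lit 2)) (nd (nat_lit 272) (nat_lit 0) (cs (lf (nat_lit 23) (nat_lit 249)) (nd (nat_lit 295) (nat_lit 0) (cs (rf (nat_lit 3)) (cs (rf (nat_lit 4)) (nd (nat_lit 294) (nat_lit 0) (cs (lf (nat_lit 11) (nat_lit 271)) (rf (nat_lit 5))))))))))))) q114939 (by decide +kernel)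
def q114941 : Q := Q.p (nat_lit 0xc00003800000000000000000000000000000000000000000000000000000000000000) (nat_lit 0x4000010000e00001c000077000008000020000000000000000000000000000000000000000000000) (nat_lit 6)
theorem c114941 : QOK q114941 := cut [q80247, q114275] ⟨c80247, c114275, trivial⟩ (nd (nat_lit 254) (nat_lit 0) (cs (rf (nat_lit 0)) (rf (nat_lit 1)))) q114941 (by decide +kernel)
def q114950 : Q := Q.p (nat_lit 0xc00003000000000000000000000000000000000000000000000000000000000000000) (nat_lit 0x380000e000018000000000c80000f8000380000c0000000000000000000000000000000000000000000000) (nat_lit 7)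
theorem c114950 : QOK q114950 := cut [q11506, q114947, q83724, q114948] ⟨c11506, c114947, c83724, c114948, trivial⟩ (nd (nat_lit 296) (nat_lit 0) (cs (rf (nat_lit 0)) (cs (rf (nat_lit 1)) (nd (nat_lit 230) (nat_lit 0) (cs (rf (nat_lit 2)) (rf (nat_lit 3))))))) q114950 (by decide +kernel)
def q114972 : Q := Q.p (nat_lit 0xc00003800000000000000000000000000000000000000000000000000000000000000) (nat_lit 0x40000f00001c00007f0000fc0003f0000000000000000000000000000000000000000000000) (nat_lit 12)
theorem c114972 : QOK q114972 := cut [q85524, q107141, q114275, q88741, q81994] ⟨c85524, c107141, c114275, c88741, c81994, trivial⟩ (nd (nat_lit 254) (nat_lit 0) (cs (rf (nat_lit 0)) (cs (rf (nat_lit 1)) (cs (rf (nat_lit 2)) (nd (nat_lit 276) (nat_lit 0) (cs (rf (nat_lit 3)) (nd (nat_lit 232) (nat_lit 0) (cs (lf (nat_lit 17) (nat_lit 229)) (nd (nat_lit 210) (nat_lit 0) (cs (lf (nat_lit 36) (nat_lit 187)) (nd (nat_lit 228) (nat_lit 0) (cs (lf (nat_lit 22) (nat_lit 228)) (nd (nat_lit 189) (nat_lit 0) (cs (lf (nat_lit 34)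 (nat_lit 188)) (nd (nat_lit 209) (nat_lit 0) (cs (lf (nat_lit 47) (nat_lit 187)) (nd (nat_lit 231) (nat_lit 0) (cs (lf (nat_lit 29) (nat_lit 209)) (rf (nat_lit 4)))))))))))))))))))) q114972 (by decide +kernel)
def q115045 : Q := Q.p (nat_lit 0xc00002000008000000000000000000000000000000000000000000000000000000000) (nat_lit 0x80000300001c0000f30001d0000760000fc0003e0000500000000000000000000000000000000000000000) (nat_lit 11)
theorem c115045 : QOK q115045 := cut [q80720, q101882, q88849, q115027, q79299, q104068, q97948, q98317, q81851, q80768] ⟨c80720, c101882, c88849, c115027, c79299, c104068, c97948, c98317, c81851, c80768, trivial⟩ (nd (nat_lit 254) (nat_lit 0) (cs (rf (nat_lit 0)) (cs (rf (nat_lit 1)) (cs (nd (nat_lit 276) (nat_lit 0) (cs (rf (nat_lit 2)) (cs (rf (nat_lit 3)) (nd (nat_lit 232) (nat_lit 0) (cs (nd (nat_lit 209) (nat_lit 0) (cs (lf (nat_lit 24) (nat_lit 187)) (rf (nat_lit 4)))) (nd (nat_lit 210) (nat_lit 0) (cs (lf (nat_lit 36) (nat_lit 187)) (nd (nat_lit 272) (nat_lit 0) (cs (lf (nat_lit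 13) (nat_lit 250)) (rf (nat_lit 5))))))))))) (nd (nat_lit 209) (nat_lit 0) (cs (rf (nat_lit 6)) (cs (rf (nat_lit 7)) (nd (nat_lit 255) (nat_lit 0) (cs (lf (nat_lit 6) (nat_lit 252)) (nd (nat_lit 277) (nat_lit 0) (cs (rf (nat_lit 8)) (cs (nd (nat_lit 188) (nat_lit 0) (cs (lf (nat_lit 34) (nat_lit 187)) (nd (nat_lit 252) (nat_lit 0) (cs (lf (nat_lit 5) (nat_lit 252)) (nd (nat_lit 233) (nat_lit 0) (cs (lf (nat_lit 17) (nat_lit 230)) (nd (nat_lit 230) (nat_lit 0) (cs (lf (nat_lit 23) (nat_lit 229)) (nd (nat_lit 208) (nat_lit 0) (cs (lf (nat_lit 47) (nat_lit 186)) (rf (nat_lit 9)))))))))))) (nd (nat_lit 186) (nat_lit 0) (cs (lf (nat_lit 46) (nat_lit 186)) (nd (nat_lit 188) (nat_lit 0) (cs (lf (nat_lit 34) (nat_lit 187)) (nd (nat_lit 278) (nat_lit 0) (cs (lf (nat_lit 0) (nat_lit 252)) (nd (nat_lit 276) (nat_lit 0) (cs (lf (nat_lit 29) (nat_lit 209)) (lf (nat_lit 18) (nat_lit 253)))))))))))))))))))))) q115045 (by decide +kernel)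
def q115052 : Q := Q.p (nat_lit 0x1c00006000008000000000000000000000000000000000000000000000000000000000) (nat_lit 0x300003d8000e000001800010000040000000000000000000000000000000000000000000000000000) (nat_lit 7)
theorem c115052 : QOK q115052 := cut [q80712, q98957, q115049] ⟨c80712, c98957, c115049, trivial⟩ (nd (nat_lit 277) (nat_lit 0) (cs (rf (nat_lit 0)) (cs (nd (nat_lit 298) (nat_lit 0) (cs (lf (nat_lit 42) (nat_lit 231)) (rf (nat_lit 1)))) (nd (nat_lit 295) (nat_lit 0) (cs (lf (nat_lit 10) (nat_lit 273)) (nd (nat_lit 251) (nat_lit 0) (cs (lf (nat_lit 1) (nat_lit 251)) (rf (nat_lit 2))))))))) q115052 (by decide +kernel)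
def q115061 : Q := Q.p (nat_lit 0xc00006000008000000000000000000000000000000000000000000000000000000000) (nat_lit 0x40000d800070000198000770000c0000300000000000000000000000000000000000000000000000) (nat_lit 9)
theorem c115061 : QOK q115061 := cut [q83694, q86390, q98272, q114984] ⟨c83694, c86390, c98272, c114984, trivial⟩ (nd (nat_lit 255) (nat_lit 0) (cs (lf (nat_lit 6) (nat_lit 252)) (nd (nat_lit 252) (nat_lit 0) (cs (rf (nat_lit 0)) (cs (rf (nat_lit 1)) (cs (rf (nat_lit 2)) (nd (nat_lit 233) (nat_lit 0) (cs (lf (nat_lit 17) (nat_lit 230)) (nd (nat_lit 296) (nat_lit 0) (cs (lf (nat_lit 30) (nat_lit 230)) (nd (nat_lit 229) (nat_lit 0) (cs (lf (nat_lit 22) (nat_lit 229)) (rf (nat_lit 3)))))))))))))) q115061 (by decide +kernel)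
def q115149 : Q := Q.p (nat_lit 0xc00002000000000000000000000000000000000000000000000000000000000000000) (nat_lit 0x40000100000df000738003df00008000020000000000000000000000000000000000000000000000000000) (nat_lit 8)
theorem c115149 : QOK q115149 := cut [q97408, q97409, q115095, q22710, q90588] ⟨c97408, c97409, c115095, c22710, c90588, trivial⟩ (nd (nat_lit 273) (nat_lit 0) (cs (rf (nat_lit 0)) (cs (rf (nat_lit 1)) (cs (rf (nat_lit 2)) (nd (nat_lit 276) (nat_lit 0) (cs (rf (nat_lit 3)) (rf (nat_lit 4)))))))) q115149 (by decide +kernel)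
def q115154 : Q := Q.p (nat_lit 0x800002000008000000000000000000000000000000000000000000000000000000000) (nat_lit 0x500001c0000700001400000000010000060000100000000000000000000000000000000000000000000000) (nat_lit 5)
theorem c115154 : QOK q115154 := cut [q12650, q22016, q84365] ⟨c12650, c22016, c84365, trivial⟩ (nd (nat_lit 297) (nat_lit 0) (cs (rf (nat_lit 0)) (cs (rf (nat_lit 1)) (rf (nat_lit 2))))) q115154 (by decide +kernel)
def q115171 : Q := Q.p (nat_lit 0x200000800002000000000000000000000000000000000000000000000000000000000000000) (nat_lit 0x4000018000040000100000400001c000070000140000000000000000000000000000000000000000000000) (nat_lit 5)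
theorem c115171 : QOK q115171 := cut [q81706, q89353, q98797] ⟨c81706, c89353, c98797, trivial⟩ (nd (nat_lit 231) (nat_lit 0) (cs (rf (nat_lit 0)) (cs (rf (nat_lit 1)) (rf (nat_lit 2))))) q115171 (by decide +kernel)
def q115182 : Q := Q.p (nat_lit 0x200000800002000000000000000000000000000000000000000000000000000000000000000) (nat_lit 0x100000c000010000040000400001c000070000140000000000000000000000000000000000000000000000) (nat_lit 6)
theorem c115182 : QOK q115182 := cut [q22016, q79736, q89353, q101546] ⟨c22016, c79736, c89353, c101546, trivial⟩ (nd (nat_lit 231) (nat_lit 0) (cs (rf (nat_lit 0)) (cs (rf (nat_lit 1)) (cs (rf (nat_lit 2)) (rf (nat_lit 3)))))) q115182 (by decide +kernel)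
def q115236 : Q := Q.p (nat_lit 0xc00002000008000000000000000000000000000000000000000000000000000000000) (nat_lit 0x2000000000010000060001f00001c0000500000000000000000000000000000000000000000) (nat_lit 6)
theorem c115236 : QOK q115236 := cut [q15536, q97948, q99649] ⟨c15536, c97948, c99649, trivial⟩ (nd (nat_lit 209) (nat_lit 0) (cs (rf (nat_lit 0)) (cs (rf (nat_lit 1)) (rf (nat_lit 2))))) q115236 (by decide +kernel)
def q115276 : Q := Q.p (nat_lit 0x700000800000000000000000000000000000000000000000000000000000000000000000000) (nat_lit 0xe380018c0007780000000000000000000000000000000000000000000000000000000000000000000) (nat_lit 6)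
theorem c115276 : QOK q115276 := cut [q11707, q28279] ⟨c11707, c28279, trivial⟩ (nd (nat_lit 277) (nat_lit 0) (cs (rf (nat_lit 0)) (rf (nat_lit 1)))) q115276 (by decide +kernel)
def q115292 : Q := Q.p (nat_lit 0x200000800002000000000000000000000000000000000000000000000000000000000000000) (nat_lit 0x100001c000070000180001d000017000050000180000700001c0000100000000000000000000000000000000000000000) (nat_lit 10)
theorem c115292 : QOK q115292 := cut [q97948, q2532] ⟨c97948, c2532, trivial⟩ (nd (nat_lit 232) (nat_lit 0) (cs (nd (nat_lit 210) (nat_lit 0) (cs (lf (nat_lit 33) (nat_lit 209)) (nd (nat_lit 254) (nat_lit 0) (cs (lf (nat_lit 30) (nat_lit 231)) (lf (nat_lit 36) (nat_lit 187)))))) (cs (nd (nat_lit 231) (nat_lit 0) (cs (lf (nat_lit 35) (nat_lit 209)) (nd (nat_lit 298) (nat_lit 0) (cs (lf (nat_lit 29) (nat_lit 231)) (nd (nat_lit 209) (nat_lit 0) (cs (lf (nat_lit 28) (nat_lit 209)) (nd (nat_lit 274) (nat_lit 0) (cs (lf (nat_lit 41) (nat_lit 208)) (nd (nat_lit 299) (nat_lit 0) (cs (lf (nat_lit 18) (nat_lit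 274)) (nd (nat_lit 272) (nat_lit 0) (cs (lf (nat_lit 1) (nat_lit 272)) (rf (nat_lit 0)))))))))))))) (nd (nat_lit 319) (nat_lit 0) (cs (rf (nat_lit 1)) (lf (nat_lit 34) (nat_lit 231))))))) q115292 (by decide +kernel)
def q115333 : Q := Q.p (nat_lit 0x20000080000e000000000000000000000000000000000000000000000000000000000000000) (nat_lit 0xf400031c00030000040000000000000000000000000000000000000000000000000000) (nat_lit 7)
theorem c115333 : QOK q115333 := cut [q113474] ⟨c113474, trivial⟩ (nd (nat_lit 256) (nat_lit 0) (cs (lf (nat_lit 11) (nat_lit 252)) (nd (nat_lit 278) (nat_lit 0) (cs (lf (nat_lit 5) (nat_lit 253)) (rf (nat_lit 0)))))) q115333 (by decide +kernel)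
def q115382 : Q := Q.p (nat_lit 0x200001c000000000000000000000000000000000000000000000000000000000) (nat_lit 0x400003de0006300038e000200000800000000000000000000000000000000000000000) (nat_lit 7)
theorem c115382 : QOK q115382 := cut [q97307, q97448, q109037] ⟨c97307, c97448, c109037, trivial⟩ (nd (nat_lit 233) (nat_lit 0) (cs (rf (nat_lit 0)) (cs (rf (nat_lit 1)) (rf (nat_lit 2))))) q115382 (by decide +kernel)
def q115387 : Q := Q.p (nat_lit 0x700000c000000000000000000000000000000000000000000000000000000000) (nat_lit 0x380018e00070000000000000000000000000000000000000000000000000000000000) (nat_lit 6)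
theorem c115387 : QOK q115387 := cut [q115386] ⟨c115386, trivial⟩ (nd (nat_lit 255) (nat_lit 0) (cs (lf (nat_lit 18) (nat_lit 230)) (rf (nat_lit 0)))) q115387 (by decide +kernel)
def q115468 : Q := Q.p (nat_lit 0x800002000008000000000000000000000000000000000000000000000000000000000) (nat_lit 0x300003d0000f60007dc000740000e0000380000400000000000000000000000000000000000000000) (nat_lit 10)
theorem c115468 : QOK q115468 := cut [q91107, q97533, q100391, q115430, q56839, q97575, q115084, q100389] ⟨c91107, c97533, c100391, c115430, c56839, c97575, c115084, c100389, trivial⟩ (nd (nat_lit 276) (nat_lit 0) (cs (rf (nat_lit 0)) (cs (rf (nat_lit 1)) (cs (rf (nat_lit 2)) (cs (rf (nat_lit 3)) (nd (nat_lit 274) (nat_lit 0) (cs (rf (nat_lit 4)) (cs (rf (nat_lit 5)) (cs (rf (nat_lit 6)) (nd (nat_lit 209) (nat_lit 0) (cs (lf (nat_lit 41) (nat_lit 208)) (rf (nat_lit 7))))))))))))) q115468 (by decide +kernel)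
def q115575 : Q := Q.p (nat_lit 0x200000800002000000000000000000000000000000000000000000000000000000000000000) (nat_lit 0x100000c0000f00003df001f78003df000ff0000f00001c0000400000000000000000000000000000000000000000) (nat_lit 12)
theorem c115575 : QOK q115575 := cut [q89375, q90750, q11531, q11637, q28299, q28303, q113352, q113355, q28129, q11617, q89238, q115543, q99782, q22569, q52519, q56839, q81705, q80766, q100002, q97408, q97409, q115095, q22710, q16795] ⟨c89375, c90750, c11531, c11637, c28299, c28303, c113352, c113355, c28129, c11617, c89238, c115543, c99782, c22569, c52519, c56839, c81705, c80766, c100002, c97408, c97409, c115095, c22710, c16795, trivial⟩ (nd (nat_lit 298) (nat_lit 0) (cs (rf (nat_lit 0)) (cs (rf (nat_lit 1)) (cs (nd (nat_lit 299) (nat_lit 0) (cs (rf (nat_lit 2)) (cs (rf (nat_lit 3)) (cs (nd (nat_lit 278) (nat_lit 0) (cs (rf (nat_lit 4)) (cs (rf (nat_lit 5)) (cs (rf (nat_lit 6)) (cs (rf (nat_lit 7)) (nd (nat_lit 300) (nat_lit 0) (cs (lf (nat_lit 17) (nat_lit 275)) (nd (nat_lit 276)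 (nat_lit 0) (cs (lf (nat_lit 18) (nat_lit 275)) (nd (nat_lit 320) (nat_lit 0) (cs (lf (nat_lit 42) (nat_lit 253)) (nd (nat_lit 322) (nat_lit 0) (cs (lf (nat_lit 5) (nat_lit 297)) (nd (nat_lit 321) (nat_lit 0) (cs (lf (nat_lit 0) (nat_lit 296)) (nd (nat_lit 254) (nat_lit 0) (cs (lf (nat_lit 29) (nat_lit 254)) (lf (nat_lit 24) (nat_lit 232))))))))))))))))))) (nd (nat_lit 277) (nat_lit 0) (cs (rf (nat_lit 8)) (cs (nd (nat_lit 296) (nat_lit 0) (cs (rf (nat_lit 9)) (lf (nat_lit 17) (nat_lit 274)))) (cs (nd (nat_lit 276) (nat_lit 0) (cs (nd (nat_lit 296) (nat_lit 0) (cs (lf (nat_lit 12) (nat_lit 273)) (nd (nat_lit 273) (nat_lit 0) (cs (lf (nat_lit 1) (nat_lit 273)) (rf (nat_lit 10)))))) (cs (nd (nat_lit 296) (nat_lit 0) (cs (lf (nat_lit 12) (nat_lit 273)) (nd (nat_lit 320) (nat_lit 0) (cs (lf (nat_lit 42) (nat_lit 253)) (nd (nat_lit 233) (nat_lit 0) (cs (rf (nat_lit 10)) (lf (nat_lit 37) (nat_lit 232)))))))) (rf (nat_lit 11))))) (nd (nat_lit 276) (nat_lit 0) (cs (rf (nat_lit 12)) (rf (nat_lit 11)))))))))))) (nd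 (nat_lit 274) (nat_lit 0) (cs (rf (nat_lit 13)) (cs (rf (nat_lit 14)) (cs (nd (nat_lit 299) (nat_lit 0) (cs (lf (nat_lit 18) (nat_lit 274)) (nd (nat_lit 231) (nat_lit 0) (cs (rf (nat_lit 15)) (cs (rf (nat_lit 16)) (nd (nat_lit 254) (nat_lit 0) (cs (nd (nat_lit 255) (nat_lit 0) (cs (lf (nat_lit 6) (nat_lit 252)) (nd (nat_lit 230) (nat_lit 0) (cs (lf (nat_lit 47) (nat_lit 208)) (rf (nat_lit 17)))))) (cs (nd (nat_lit 232) (nat_lit 0) (cs (lf (nat_lit 35) (nat_lit 209)) (nd (nat_lit 276) (nat_lit 0) (cs (lf (nat_lit 29) (nat_lit 232)) (rf (nat_lit 18)))))) (nd (nat_lit 232) (nat_lit 0) (cs (lf (nat_lit 35) (nat_lit 209)) (nd (nat_lit 255) (nat_lit 0) (cs (lf (nat_lit 6) (nat_lit 252)) (nd (nat_lit 321) (nat_lit 0) (cs (lf (nat_lit 44) (nat_lit 232)) (lf (nat_lit 26) (nat_lit 232)))))))))))))))) (nd (nat_lit 273) (nat_lit 0) (cs (rf (nat_lit 19)) (cs (rf (nat_lit 20)) (cs (rf (nat_lit 21)) (nd (nat_lit 276) (nat_lit 0) (cs (rf (nat_lit 22)) (cs (nd (nat_lit 209) (nat_lit 0) (cs (lf (nat_lit 25) (nat_lit 209))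 (nd (nat_lit 255) (nat_lit 0) (cs (lf (nat_lit 16) (nat_lit 251)) (nd (nat_lit 294) (nat_lit 0) (cs (lf (nat_lit 10) (nat_lit 272)) (nd (nat_lit 277) (nat_lit 0) (cs (lf (nat_lit 17) (nat_lit 252)) (nd (nat_lit 278) (nat_lit 0) (cs (lf (nat_lit 6) (nat_lit 275)) (lf (nat_lit 11) (nat_lit 274)))))))))))) (cs (nd (nat_lit 250) (nat_lit 0) (cs (lf (nat_lit 22) (nat_lit 250)) (nd (nat_lit 254) (nat_lit 0) (cs (lf (nat_lit 17) (nat_lit 251)) (nd (nat_lit 231) (nat_lit 0) (cs (lf (nat_lit 24) (nat_lit 209)) (nd (nat_lit 208) (nat_lit 0) (cs (lf (nat_lit 46) (nat_lit 208)) (nd (nat_lit 232) (nat_lit 0) (cs (lf (nat_lit 35) (nat_lit 209)) (rf (nat_lit 18)))))))))))) (nd (nat_lit 209) (nat_lit 0) (cs (lf (nat_lit 25) (nat_lit 209)) (nd (nat_lit 250) (nat_lit 0) (cs (lf (nat_lit 22) (nat_lit 250)) (nd (nat_lit 295) (nat_lit 0) (cs (lf (nat_lit 11) (nat_lit 272)) (nd (nat_lit 277) (nat_lit 0) (cs (lf (nat_lit 10) (nat_lit 273)) (rf (nat_lit 23)))))))))))))))))))))))))) q115575 (by decide +kernel)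
def q115644 : Q := Q.p (nat_lit 0x800007000004000000000000000000000000000000000000000000000000000000000) (nat_lit 0x1800006000014000000000780001e0000180000200000000000000000000000000000000000000000) (nat_lit 7)
theorem c115644 : QOK q115644 := cut [q81384, q90299, q95665] ⟨c81384, c90299, c95665, trivial⟩ (nd (nat_lit 297) (nat_lit 0) (cs (lf (nat_lit 42) (nat_lit 230)) (nd (nat_lit 231) (nat_lit 0) (cs (rf (nat_lit 0)) (cs (rf (nat_lit 1)) (rf (nat_lit 2))))))) q115644 (by decide +kernel)
def q115693 : Q := Q.p (nat_lit 0x7000000000000000000000000000000000000000000000000000000000000000) (nat_lit 0xef000188000f0000000000000000000000000000000000000000000000000000000000) (nat_lit 5)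
theorem c115693 : QOK q115693 := cut [q81054, q82259, q107554] ⟨c81054, c82259, c107554, trivial⟩ (nd (nat_lit 255) (nat_lit 0) (cs (rf (nat_lit 0)) (cs (rf (nat_lit 1)) (rf (nat_lit 2))))) q115693 (by decide +kernel)
def q115704 : Q := Q.p (nat_lit 0x7000000000000000000000000000000000000000000000000000000000000000) (nat_lit 0xf7000188000f0000000000000000000000000000000000000000000000000000000000) (nat_lit 5)
theorem c115704 : QOK q115704 := cut [q79217, q81054, q107554] ⟨c79217, c81054, c107554, trivial⟩ (nd (nat_lit 255) (nat_lit 0) (cs (rf (nat_lit 0)) (cs (rf (nat_lit 1)) (rf (nat_lit 2))))) q115704 (by decide +kernel)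
def q115833 : Q := Q.p (nat_lit 0x800003800000000000000000000000000000000000000000000000000000000000000) (nat_lit 0x100000700007f8001fe000778000000000e0000780001c0000400000000000000000000000000000000000000000) (nat_lit 13)
theorem c115833 : QOK q115833 := cut [q88933, q88941, q90658, q94505, q106510, q110743, q98891, q115821, q15961, q79187, q110327, q114616, q90637, q21971] ⟨c88933, c88941, c90658, c94505, c106510, c110743, c98891, c115821, c15961, c79187, c110327, c114616, c90637, c21971, trivial⟩ (nd (nat_lit 297) (nat_lit 0) (cs (rf (nat_lit 0)) (cs (rf (nat_lit 1)) (cs (nd (nat_lit 296) (nat_lit 0) (cs (rf (nat_lit 2)) (cs (rf (nat_lit 3)) (cs (nd (nat_lit 274) (nat_lit 0) (cs (rf (nat_lit 4)) (cs (rf (nat_lit 5)) (cs (nd (nat_lit 208) (nat_lit 0) (cs (lf (nat_lit 25) (nat_lit 208)) (nd (nat_lit 277) (nat_lit 0) (cs (lf (nat_lit 19) (nat_lit 251)) (nd (nat_lit 231) (nat_lit 0) (cs (lf (nat_lit 36) (nat_lit 208)) (nd (nat_lit 298) (nat_lit 0) (cs (lf (nat_lit 29) (nat_lit 231)) (rf (nat_lit 6))))))))))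 (nd (nat_lit 209) (nat_lit 0) (cs (lf (nat_lit 37) (nat_lit 208)) (rf (nat_lit 7)))))))) (cs (nd (nat_lit 274) (nat_lit 0) (cs (rf (nat_lit 8)) (rf (nat_lit 7)))) (nd (nat_lit 231) (nat_lit 0) (cs (lf (nat_lit 41) (nat_lit 230)) (nd (nat_lit 298) (nat_lit 0) (cs (lf (nat_lit 29) (nat_lit 231)) (rf (nat_lit 9))))))))))) (nd (nat_lit 318) (nat_lit 0) (cs (rf (nat_lit 10)) (cs (rf (nat_lit 11)) (cs (nd (nat_lit 231) (nat_lit 0) (cs (lf (nat_lit 40) (nat_lit 230)) (nd (nat_lit 298) (nat_lit 0) (cs (lf (nat_lit 29) (nat_lit 231)) (nd (nat_lit 209) (nat_lit 0) (cs (lf (nat_lit 28) (nat_lit 209)) (rf (nat_lit 12)))))))) (nd (nat_lit 319) (nat_lit 0) (cs (lf (nat_lit 41) (nat_lit 252)) (rf (nat_lit 13)))))))))))) q115833 (by decide +kernel)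
def q115872 : Q := Q.p (nat_lit 0x800003000008000000000000000000000000000000000000000000000000000000000) (nat_lit 0x500001c0000700000400000000004000030000040000000000000000000000000000000000000000000000) (nat_lit 6)
theorem c115872 : QOK q115872 := cut [q2394, q88933, q97978] ⟨c2394, c88933, c97978, trivial⟩ (nd (nat_lit 297) (nat_lit 0) (cs (rf (nat_lit 0)) (cs (rf (nat_lit 1)) (rf (nat_lit 2))))) q115872 (by decide +kernel)

end Crest.Agent.H3.Snaky.CR
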