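import Crest.Agent.H3.Snaky.Cert
import Crest.Agent.H3.Snaky.CR.CR0
import Crest.Agent.H3.Snaky.CR.CR1
import Crest.Agent.H3.Snaky.CR.CR2
import Crest.Agent.H3.Snaky.CR.CR3
import Crest.Agent.H3.Snaky.CR.CR4
import Crest.Agent.H3.Snaky.CR.CR5
import Crest.Agent.H3.Snaky.CR.CR20
import Crest.Agent.H3.Snaky.CR.CR21
import Crest.Agent.H3.Snaky.CR.CR22
import Crest.Agent.H3.Snaky.CR.CR23
import Crest.Agent.H3.Snaky.CR.CR24
import Crest.Agent.H3.Snaky.CR.CR39
import Crest.Agent.H3.Snaky.CR.CR40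
import Crest.Agent.H3.Snaky.CR.CR41
import Crest.Agent.H3.Snaky.CR.CR54
import Crest.Agent.H3.Snaky.CR.CR55

set_option autoImplicit false
set_option maxRecDepth 100000

namespace Crest.Agent.H3.Snaky.CR

open T

def q21 : Q := Q.p (nat_lit 0x2000004000010000040000000000000000000000000000000000000000000000) (nat_lit 0xe000018000000000600000b8000280000000000000000000000000000000000000000) (nat_lit 7)
theorem c21 : QOK q21 := cut [q19] ⟨c19, trivial⟩ (nd (nat_lit 252) (nat_lit 0) (cs (rf (nat_lit 0)) (lf (nat_lit 29) (nat_lit 186)))) q21 (by decide +kernel)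
def q105 : Q := Q.p (nat_lit 0x30000040000000000000000000000000000000000000000000000) (nat_lit 0x8000738001ce000fb8000100000400000000000000000000000000000000000) (nat_lit 10)
theorem c105 : QOK q105 := cut [q72, q75, q99, q104] ⟨c72, c75, c99, c104, trivial⟩ (nd (nat_lit 210) (nat_lit 0) (cs (rf (nat_lit 0)) (cs (rf (nat_lit 1)) (cs (rf (nat_lit 2)) (rf (nat_lit 3)))))) q105 (by decide +kernel)
def q111 : Q := Q.p (nat_lit 0x2000000000030000040000000000000000000000000000000000000000000000) (nat_lit 0x80000000007b8001ce000fb8000400000000000000000000000000000000000000000) (nat_lit 10)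
theorem c111 : QOK q111 := cut [q72, q75, q104, q82, q87, q109] ⟨c72, c75, c104, c82, c87, c109, trivial⟩ (nd (nat_lit 210) (nat_lit 0) (cs (rf (nat_lit 0)) (cs (rf (nat_lit 1)) (cs (rf (nat_lit 2)) (nd (nat_lit 207) (nat_lit 0) (cs (rf (nat_lit 3)) (cs (rf (nat_lit 4)) (rf (nat_lit 5))))))))) q111 (by decide +kernel)
def q132 : Q := Q.p (nat_lit 0x8000038000040000000000000000000000000000000000000000000000) (nat_lit 0x11c0000700002e000100000400000000000000000000000000000000000) (nat_lit 7)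
theorem c132 : QOK q132 := cut [q131] ⟨c131, trivial⟩ (nd (nat_lit 142) (nat_lit 0) (cs (lf (nat_lit 25) (nat_lit 142)) (rf (nat_lit 0)))) q132 (by decide +kernel)
def q150 : Q := Q.p (nat_lit 0x38000040000000000000000000000000000000000000000000000) (nat_lit 0x738000c4000738000000000000000000000000000000000000000000000) (nat_lit 8)
theorem c150 : QOK q150 := cut [q136, q141, q143, q149] ⟨c136, c141, c143, c149, trivial⟩ (nd (nat_lit 184) (nat_lit 0) (cs (rf (nat_lit 0)) (cs (nd (nat_lit 206) (nat_lit 0) (cs (lf (nat_lit 23) (nat_lit 183)) (rf (nat_lit 1)))) (cs (nd (nat_lit 210) (nat_lit 0) (cs (lf (nat_lit 22) (nat_lit 184)) (nd (nat_lit 233) (nat_lit 0) (cs (lf (nat_lit 4) (nat_lit 207)) (nd (nat_lit 228) (nat_lit 0) (cs (lf (nat_lit 10) (nat_lit 206)) (nd (nat_lit 206) (nat_lit 0) (cs (lf (nat_lit 11) (nat_lit 205)) (rf (nat_lit 2)))))))))) (rf (nat_lit 3)))))) q150 (by decide +kernel)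
def q157 : Q := Q.p (nat_lit 0x800003c000040000000000000000000000000000000000000000000000) (nat_lit 0xe0000300003c000100000400000000000000000000000000000000000) (nat_lit 6)
theorem c157 : QOK q157 := cut [q156] ⟨c156, trivial⟩ (nd (nat_lit 142) (nat_lit 0) (cs (lf (nat_lit 25) (nat_lit 142)) (rf (nat_lit 0)))) q157 (by decide +kernel)
def q181 : Q := Q.p (nat_lit 0x2000000000038000040000000000000000000000000000000000000000000000) (nat_lit 0x800000000019c000c7000030000100000400000000000000000000000000000000000) (nat_lit 8)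
theorem c181 : QOK q181 := cut [q179] ⟨c179, trivial⟩ (nd (nat_lit 231) (nat_lit 0) (cs (lf (nat_lit 42) (nat_lit 186)) (nd (nat_lit 142) (nat_lit 0) (cs (lf (nat_lit 25) (nat_lit 142)) (rf (nat_lit 0)))))) q181 (by decide +kernel)
def q263 : Q := Q.p (nat_lit 0x3000000000030000040000000000000000000000000000000000000000000000) (nat_lit 0x7e00018c000fb8007ce003f3c000c00003000000000000000000000000000000000000) (nat_lit 15)
theorem c263 : QOK q263 := cut [q39, q188, q204, q210, q225, q231, q242, q259, q261] ⟨c39, c188, c204, c210, c225, c231, c242, c259, c261, trivial⟩ (nd (nat_lit 210) (nat_lit 0) (cs (rf (nat_lit 0)) (cs (rf (nat_lit 1)) (cs (rf (nat_lit 2)) (nd (nat_lit 211) (nat_lit 0) (cs (rf (nat_lit 3)) (cs (rf (nat_lit 4)) (cs (rf (nat_lit 5)) (cs (nd (nat_lit 275) (nat_lit 0) (cs (lf (nat_lit 44) (nat_lit 186)) (nd (nat_lit 233) (nat_lit 0) (cs (lf (nat_lit 5) (nat_lit 208)) (nd (nat_lit 207) (nat_lit 0) (cs (lf (nat_lit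 4) (nat_lit 207)) (nd (nat_lit 228) (nat_lit 0) (cs (lf (nat_lit 10) (nat_lit 206)) (nd (nat_lit 206) (nat_lit 0) (cs (lf (nat_lit 11) (nat_lit 205)) (nd (nat_lit 183) (nat_lit 0) (cs (lf (nat_lit 22) (nat_lit 183)) (nd (nat_lit 182) (nat_lit 0) (cs (rf (nat_lit 6)) (lf (nat_lit 21) (nat_lit 182)))))))))))))))) (cs (rf (nat_lit 7)) (rf (nat_lit 8)))))))))))) q263 (by decide +kernel)
def q287 : Q := Q.p (nat_lit 0x1000000000030000040000000000000000000000000000000000000000000000) (nat_lit 0x6000008000738001ce000fb8000000000000000000000000000000000000000000000) (nat_lit 10)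
theorem c287 : QOK q287 := cut [q72, q75, q104, q286] ⟨c72, c75, c104, c286, trivial⟩ (nd (nat_lit 210) (nat_lit 0) (cs (rf (nat_lit 0)) (cs (rf (nat_lit 1)) (cs (rf (nat_lit 2)) (rf (nat_lit 3)))))) q287 (by decide +kernel)
def q332 : Q := Q.p (nat_lit 0x3000000000038000040000000000000000000000000000000000000000000000) (nat_lit 0xc0000000000b8001c60000b8000000000000000000000000000000000000000000000) (nat_lit 8)
theorem c332 : QOK q332 := cut [q331] ⟨c331, trivial⟩ (nd (nat_lit 231) (nat_lit 0) (cs (lf (nat_lit 42) (nat_lit 186)) (rf (nat_lit 0)))) q332 (by decide +kernel)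
def q415 : Q := Q.p (nat_lit 0x3000000000010000040000000000000000000000000000000000000000000000) (nat_lit 0x8000060000080001e000fe8001fb8007e80002000008000000000000000000000000000000) (nat_lit 13)
theorem c415 : QOK q415 := cut [q17, q367, q371, q414] ⟨c17, c367, c371, c414, trivial⟩ (nd (nat_lit 230) (nat_lit 0) (cs (rf (nat_lit 0)) (cs (rf (nat_lit 1)) (cs (rf (nat_lit 2)) (rf (nat_lit 3)))))) q415 (by decide +kernel)
def q429 : Q := Q.p (nat_lit 0x3000000000010000040000000000000000000000000000000000000000000000) (nat_lit 0xa0000080001e000fe8001fb0007e80002000008000000000000000000000000000000) (nat_lit 13)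
theorem c429 : QOK q429 := cut [q414] ⟨c414, trivial⟩ (nd (nat_lit 230) (nat_lit 0) (cs (lf (nat_lit 29) (nat_lit 186)) (rf (nat_lit 0)))) q429 (by decide +kernel)
def q501 : Q := Q.p (nat_lit 0x2000000000010000040000000000000000000000000000000000000000000000) (nat_lit 0x80000e000018000078000ec0003b8000fe0003fc0002a00000800000000000000000000000) (nat_lit 17)
theorem c501 : QOK q501 := cut [q435, q438, q6, q448, q456, q462, q472, q490, q495, q500] ⟨c435, c438, c6, c448, c456, c462, c472, c490, c495, c500, trivial⟩ (nd (nat_lit 230) (nat_lit 0) (cs (rf (nat_lit 0)) (cs (rf (nat_lit 1)) (cs (nd (nat_lit 164) (nat_lit 0) (cs (rf (nat_lit 2)) (cs (rf (nat_lit 3)) (cs (nd (nat_lit 165) (nat_lit 0) (cs (lf (nat_lit 35) (nat_lit 142)) (nd (nat_lit 184) (nat_lit 0) (cs (rf (nat_lit 4)) (cs (nd (nat_lit 229) (nat_lit 0) (cs (lf (nat_lit 41) (nat_lit 163)) (rf (nat_lit 5)))) (cs (nd (nat_lit 229) (nat_lit 0) (cs (lf (nat_lit 41) (nat_lit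 163)) (nd (nat_lit 163) (nat_lit 0) (cs (lf (nat_lit 47) (nat_lit 141)) (nd (nat_lit 166) (nat_lit 0) (cs (nd (nat_lit 144) (nat_lit 0) (cs (nd (nat_lit 188) (nat_lit 0) (cs (nd (nat_lit 162) (nat_lit 0) (cs (nd (nat_lit 139) (nat_lit 0) (cs (nd (nat_lit 161) (nat_lit 0) (cs (rf (nat_lit 6)) (lf (nat_lit 23) (nat_lit 138)))) (lf (nat_lit 22) (nat_lit 139)))) (lf (nat_lit 4) (nat_lit 162)))) (lf (nat_lit 5) (nat_lit 163)))) (lf (nat_lit 17) (nat_lit 141)))) (lf (nat_lit 10) (nat_lit 162)))))))) (rf (nat_lit 7)))))))) (rf (nat_lit 8)))))) (rf (nat_lit 9)))))) q501 (by decide +kernel)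
def q608 : Q := Q.p (nat_lit 0x2000000000018000040000100000000000000000000000000000000000000000) (nat_lit 0x198000e60003b8000ee0001f80007e00000000000000000000000000000) (nat_lit 13)
theorem c608 : QOK q608 := cut [q562, q567, q579, q585, q11, q596] ⟨c562, c567, c579, c585, c11, c596, trivial⟩ (nd (nat_lit 187) (nat_lit 0) (cs (rf (nat_lit 0)) (cs (nd (nat_lit 209) (nat_lit 0) (cs (lf (nat_lit 43) (nat_lit 164)) (nd (nat_lit 120) (nat_lit 0) (cs (nd (nat_lit 206) (nat_lit 0) (cs (lf (nat_lit 12) (nat_lit 183)) (nd (nat_lit 184) (nat_lit 0) (cs (lf (nat_lit 23) (nat_lit 183)) (nd (nat_lit 227) (nat_lit 0) (cs (lf (nat_lit 10) (nat_lit 205)) (nd (nat_lit 185) (nat_lit 0) (cs (lf (nat_lit 5) (nat_lit 184)) (nd (nat_lit 165) (nat_lit 0) (cs (nd (nat_lit 121) (nat_lit 0) (cs (rf (nat_lit 1)) (lf (nat_lit 37) (nat_lit 120)))) (lf (nat_lit 17) (nat_lit 162)))))))))))) (lf (nat_lit 25) (nat_lit 120)))))) (cs (rf (nat_lit 2)) (nd (nat_lit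 185) (nat_lit 0) (cs (rf (nat_lit 3)) (cs (nd (nat_lit 188) (nat_lit 0) (cs (lf (nat_lit 6) (nat_lit 185)) (nd (nat_lit 210) (nat_lit 0) (cs (lf (nat_lit 5) (nat_lit 185)) (nd (nat_lit 166) (nat_lit 0) (cs (lf (nat_lit 17) (nat_lit 163)) (nd (nat_lit 231) (nat_lit 0) (cs (lf (nat_lit 39) (nat_lit 165)) (lf (nat_lit 44) (nat_lit 164)))))))))) (cs (nd (nat_lit 209) (nat_lit 0) (cs (rf (nat_lit 4)) (lf (nat_lit 43) (nat_lit 164)))) (nd (nat_lit 209) (nat_lit 0) (cs (lf (nat_lit 43) (nat_lit 164)) (nd (nat_lit 183) (nat_lit 0) (cs (lf (nat_lit 1) (nat_lit 183)) (nd (nat_lit 188) (nat_lit 0) (cs (lf (nat_lit 6) (nat_lit 185)) (nd (nat_lit 166) (nat_lit 0) (cs (lf (nat_lit 17) (nat_lit 163)) (nd (nat_lit 122) (nat_lit 0) (cs (nd (nat_lit 163) (nat_lit 0) (cs (nd (nat_lit 120) (nat_lit 0) (cs (rf (nat_lit 5)) (lf (nat_lit 37) (nat_lit 119)))) (lf (nat_lit 23) (nat_lit 162)))) (lf (nat_lit 37) (nat_lit 121)))))))))))))))))))) q608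 (by decide +kernel)
def q661 : Q := Q.p (nat_lit 0x2000000000030000040000000000000000000000000000000000000000000000) (nat_lit 0x180000e0000080000a0000780000f8000380000a000000000000000000000000) (nat_lit 8)
theorem c661 : QOK q661 := cut [q628, q636, q660] ⟨c628, c636, c660, trivial⟩ (nd (nat_lit 164) (nat_lit 0) (cs (rf (nat_lit 0)) (cs (rf (nat_lit 1)) (rf (nat_lit 2))))) q661 (by decide +kernel)
def q740 : Q := Q.p (nat_lit 0x2000000000038000000000000000000000000000000000000000000000000000) (nat_lit 0x140000780003f80001c000ef0001c0000fb0000480001200000000000000000000000000000000000) (nat_lit 12)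
theorem c740 : QOK q740 := cut [q690, q697, q700, q717, q726, q738] ⟨c690, c697, c700, c717, c726, c738, trivial⟩ (nd (nat_lit 210) (nat_lit 0) (cs (rf (nat_lit 0)) (cs (nd (nat_lit 184) (nat_lit 0) (cs (lf (nat_lit 22) (nat_lit 184)) (rf (nat_lit 1)))) (nd (nat_lit 275) (nat_lit 0) (cs (nd (nat_lit 184) (nat_lit 0) (cs (lf (nat_lit 22) (nat_lit 184)) (nd (nat_lit 231) (nat_lit 0) (cs (nd (nat_lit 276) (nat_lit 0) (cs (nd (nat_lit 230) (nat_lit 0) (cs (lf (nat_lit 42) (nat_lit 208)) (nd (nat_lit 274) (nat_lit 0) (cs (nd (nat_lit 252) (nat_lit 0) (cs (lf (nat_lit 35) (nat_lit 186)) (rf (nat_lit 2)))) (lf (nat_lit 41) (nat_lit 208)))))) (lf (nat_lit 29) (nat_lit 209)))) (lf (nat_lit 35) (nat_lit 187)))))) (cs (nd (nat_lit 228) (nat_lit 0) (cs (lf (nat_lit 10) (nat_lit 206)) (nd (nat_lit 184) (nat_lit 0) (cs (lf (nat_lit 22) (nat_lit 184)) (nd (nat_lit 231) (nat_lit 0) (cs (lf (nat_lit 35) (nat_lit 187)) (rf (nat_lit 3))))))))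 (cs (nd (nat_lit 229) (nat_lit 0) (cs (lf (nat_lit 11) (nat_lit 206)) (nd (nat_lit 230) (nat_lit 0) (cs (lf (nat_lit 6) (nat_lit 207)) (nd (nat_lit 231) (nat_lit 0) (cs (lf (nat_lit 42) (nat_lit 208)) (rf (nat_lit 4)))))))) (rf (nat_lit 5))))))))) q740 (by decide +kernel)
def q768 : Q := Q.p (nat_lit 0x2000000000030000180000000000000000000000000000000000000000000000) (nat_lit 0x100000700001c0000100000c000000000000000400000000000000000000000000000000000000000) (nat_lit 6)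
theorem c768 : QOK q768 := cut [q767] ⟨c767, trivial⟩ (nd (nat_lit 231) (nat_lit 0) (cs (lf (nat_lit 35) (nat_lit 165)) (rf (nat_lit 0)))) q768 (by decide +kernel)
def q914 : Q := Q.p (nat_lit 0x38000000000000000000000000000000000000000000000000000) (nat_lit 0x700001c0000fe000078001bf0007f0001f80000e00002800000000000000000000000) (nat_lit 14)
theorem c914 : QOK q914 := cut [q117, q668, q673, q794, q799, q805, q809, q817, q825, q830, q859, q864, q893, q895, q900, q905, q907] ⟨c117, c668, c673, c794, c799, c805, c809, c817, c825, c830, c859, c864, c893, c895, c900, c905, c907, trivial⟩ (nd (nat_lit 206) (nat_lit 0) (cs (rf (nat_lit 0)) (cs (rf (nat_lit 1)) (cs (rf (nat_lit 2)) (cs (nd (nat_lit 230) (nat_lit 0) (cs (rf (nat_lit 3)) (cs (rf (nat_lit 4)) (nd (nat_lit 184) (nat_lit 0) (cs (lf (nat_lit 23) (nat_lit 183)) (nd (nat_lit 162) (nat_lit 0) (cs (rf (nat_lit 5)) (cs (nd (nat_lit 163) (nat_lit 0) (cs (rf (nat_lit 6)) (cs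 (nd (nat_lit 187) (nat_lit 0) (cs (lf (nat_lit 17) (nat_lit 184)) (nd (nat_lit 143) (nat_lit 0) (cs (lf (nat_lit 37) (nat_lit 142)) (nd (nat_lit 252) (nat_lit 0) (cs (lf (nat_lit 30) (nat_lit 186)) (rf (nat_lit 7)))))))) (cs (nd (nat_lit 187) (nat_lit 0) (cs (lf (nat_lit 17) (nat_lit 184)) (nd (nat_lit 143) (nat_lit 0) (cs (lf (nat_lit 37) (nat_lit 142)) (nd (nat_lit 252) (nat_lit 0) (cs (lf (nat_lit 30) (nat_lit 186)) (rf (nat_lit 8)))))))) (nd (nat_lit 187) (nat_lit 0) (cs (lf (nat_lit 17) (nat_lit 184)) (nd (nat_lit 143) (nat_lit 0) (cs (lf (nat_lit 37) (nat_lit 142)) (nd (nat_lit 252) (nat_lit 0) (cs (lf (nat_lit 30) (nat_lit 186)) (rf (nat_lit 9)))))))))))) (cs (nd (nat_lit 187) (nat_lit 0) (cs (lf (nat_lit 17) (nat_lit 184)) (nd (nat_lit 143) (nat_lit 0) (cs (lf (nat_lit 37) (nat_lit 142)) (nd (nat_lit 252) (nat_lit 0) (cs (lf (nat_lit 30) (nat_lit 186)) (nd (nat_lit 140) (nat_lit 0) (cs (lf (nat_lit 29) (nat_lit 140))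 (nd (nat_lit 117) (nat_lit 0) (cs (nd (nat_lit 95) (nat_lit 0) (cs (nd (nat_lit 141) (nat_lit 0) (cs (nd (nat_lit 142) (nat_lit 0) (cs (nd (nat_lit 163) (nat_lit 0) (cs (lf (nat_lit 30) (nat_lit 140)) (lf (nat_lit 6) (nat_lit 140)))) (lf (nat_lit 11) (nat_lit 139)))) (lf (nat_lit 35) (nat_lit 118)))) (lf (nat_lit 45) (nat_lit 95)))) (lf (nat_lit 46) (nat_lit 117)))))))))))) (cs (nd (nat_lit 141) (nat_lit 0) (cs (nd (nat_lit 163) (nat_lit 0) (cs (lf (nat_lit 26) (nat_lit 141)) (lf (nat_lit 30) (nat_lit 140)))) (cs (nd (nat_lit 187) (nat_lit 0) (cs (lf (nat_lit 17) (nat_lit 184)) (nd (nat_lit 143) (nat_lit 0) (cs (lf (nat_lit 37) (nat_lit 142)) (nd (nat_lit 252) (nat_lit 0) (cs (lf (nat_lit 30) (nat_lit 186)) (nd (nat_lit 140) (nat_lit 0) (cs (lf (nat_lit 35) (nat_lit 118)) (nd (nat_lit 118) (nat_lit 0) (cs (lf (nat_lit 28) (nat_lit 118)) (nd (nat_lit 117) (nat_lit 0) (cs (lf (nat_lit 46) (nat_lit 117)) (lf (nat_lit 19) (nat_lit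 117)))))))))))))) (rf (nat_lit 10))))) (nd (nat_lit 187) (nat_lit 0) (cs (lf (nat_lit 17) (nat_lit 184)) (nd (nat_lit 143) (nat_lit 0) (cs (lf (nat_lit 37) (nat_lit 142)) (nd (nat_lit 252) (nat_lit 0) (cs (lf (nat_lit 30) (nat_lit 186)) (rf (nat_lit 11)))))))))))))))))) (cs (rf (nat_lit 12)) (nd (nat_lit 230) (nat_lit 0) (cs (rf (nat_lit 4)) (cs (rf (nat_lit 13)) (nd (nat_lit 185) (nat_lit 0) (cs (nd (nat_lit 227) (nat_lit 0) (cs (lf (nat_lit 10) (nat_lit 205)) (nd (nat_lit 205) (nat_lit 0) (cs (lf (nat_lit 11) (nat_lit 204)) (nd (nat_lit 204) (nat_lit 0) (cs (lf (nat_lit 4) (nat_lit 204)) (rf (nat_lit 14)))))))) (cs (rf (nat_lit 15)) (nd (nat_lit 252) (nat_lit 0) (cs (lf (nat_lit 42) (nat_lit 185)) (nd (nat_lit 228) (nat_lit 0) (cs (lf (nat_lit 11) (nat_lit 205)) (nd (nat_lit 250) (nat_lit 0) (cs (rf (nat_lit 16)) (lf (nat_lit 30) (nat_lit 184)))))))))))))))))))) q914 (by decide +kernel)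
def q1063 : Q := Q.p (nat_lit 0x2000006000038000000000000000000000000000000000000000000000000000) (nat_lit 0x1c0000f80001f000080000000000a0000080000200000000000000000000000000000000000) (nat_lit 7)
theorem c1063 : QOK q1063 := cut [q937, q1014, q1051, q1056, q1059, q1061] ⟨c937, c1014, c1051, c1056, c1059, c1061, trivial⟩ (nd (nat_lit 251) (nat_lit 0) (cs (rf (nat_lit 0)) (cs (rf (nat_lit 1)) (cs (rf (nat_lit 2)) (cs (rf (nat_lit 3)) (nd (nat_lit 252) (nat_lit 0) (cs (nd (nat_lit 185) (nat_lit 0) (cs (lf (nat_lit 24) (nat_lit 163)) (rf (nat_lit 4)))) (rf (nat_lit 5))))))))) q1063 (by decide +kernel)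
def q1136 : Q := Q.p (nat_lit 0x38000000000000000000000000000000000000000000000000000) (nat_lit 0x140000fe000c700003e000080000200000000000000000000000000000000000) (nat_lit 9)
theorem c1136 : QOK q1136 := cut [q668, q673, q1123, q1129, q1135] ⟨c668, c673, c1123, c1129, c1135, trivial⟩ (nd (nat_lit 206) (nat_lit 0) (cs (rf (nat_lit 0)) (cs (rf (nat_lit 1)) (cs (rf (nat_lit 2)) (cs (rf (nat_lit 3)) (rf (nat_lit 4))))))) q1136 (by decide +kernel)
def q1314 : Q := Q.p (nat_lit 0xf00003000000000000000000000000000000000000000000000000000000000000000) (nat_lit 0x1c60007000000e00000000000000000000000000000000000000000000000000000000000000) (nat_lit 6)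
theorem c1314 : QOK q1314 := cut [q1313] ⟨c1313, trivial⟩ (nd (nat_lit 293) (nat_lit 0) (cs (lf (nat_lit 10) (nat_lit 271)) (rf (nat_lit 0)))) q1314 (by decide +kernel)
def q1460 : Q := Q.p (nat_lit 0x2000000000038000000000000000000000000000000000000000000000000000) (nat_lit 0x80000080000b0000c00003f0000500001400000000000000000000000000000000000) (nat_lit 6)
theorem c1460 : QOK q1460 := cut [q690, q1459] ⟨c690, c1459, trivial⟩ (nd (nat_lit 210) (nat_lit 0) (cs (rf (nat_lit 0)) (rf (nat_lit 1)))) q1460 (by decide +kernel)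
def q1530 : Q := Q.p (nat_lit 0x40000100003c000000000000000000000000000000000000000000000000000) (nat_lit 0x280000a000020000000001980000e0000380000a00000000000000000000000000000) (nat_lit 9)
theorem c1530 : QOK q1530 := cut [q1527] ⟨c1527, trivial⟩ (nd (nat_lit 184) (nat_lit 0) (cs (lf (nat_lit 23) (nat_lit 183)) (nd (nat_lit 187) (nat_lit 0) (cs (lf (nat_lit 17) (nat_lit 184)) (nd (nat_lit 249) (nat_lit 0) (cs (lf (nat_lit 41) (nat_lit 183)) (rf (nat_lit 0)))))))) q1530 (by decide +kernel)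
def q1596 : Q := Q.p (nat_lit 0x2000000000030000000000000000000000000000000000000000000000000000) (nat_lit 0x100000700001c0000100000c0001c00007e00007c0001c00000000000000000000000000000000000) (nat_lit 10)
theorem c1596 : QOK q1596 := cut [q1563, q1585, q1594, q1595] ⟨c1563, c1585, c1594, c1595, trivial⟩ (nd (nat_lit 231) (nat_lit 0) (cs (rf (nat_lit 0)) (cs (rf (nat_lit 1)) (cs (rf (nat_lit 2)) (rf (nat_lit 3)))))) q1596 (by decide +kernel)
def q1673 : Q := Q.p (nat_lit 0x38000000000000000000000000000000000000000000000000000) (nat_lit 0x1c000c70003fe000000000000000000000000000000000000000000000) (nat_lit 7)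
theorem c1673 : QOK q1673 := cut [q117, q791, q1508, q1511] ⟨c117, c791, c1508, c1511, trivial⟩ (nd (nat_lit 206) (nat_lit 0) (cs (rf (nat_lit 0)) (cs (rf (nat_lit 1)) (cs (rf (nat_lit 2)) (rf (nat_lit 3)))))) q1673 (by decide +kernel)
def q1710 : Q := Q.p (nat_lit 0x20000000000f0000000000000000000000000000000000000000000000000000) (nat_lit 0xc0001000000e0000380007e00007800000000000000000000000000000) (nat_lit 10)
theorem c1710 : QOK q1710 := cut [q1704] ⟨c1704, trivial⟩ (nd (nat_lit 186) (nat_lit 0) (cs (lf (nat_lit 23) (nat_lit 185)) (nd (nat_lit 187) (nat_lit 0) (cs (lf (nat_lit 18) (nat_lit 186)) (rf (nat_lit 0)))))) q1710 (by decide +kernel)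
def q1866 : Q := Q.p (nat_lit 0x2000000000038000000000000000000000000000000000000000000000000000) (nat_lit 0x1c0001f80001f000e7c001c4000fe0000fe0001f00007c00005000000000000000000000000) (nat_lit 16)
theorem c1866 : QOK q1866 := cut [q1119, q1774, q1667, q1663, q1613, q1639, q1786, q1796, q1797, q1803, q1804, q1812, q1820, q1824, q1828, q1830, q1832, q1773, q1827, q1836, q1837, q1082, q1845, q1847, q1850, q1852, q1855, q1857, q1865] ⟨c1119, c1774, c1667, c1663, c1613, c1639, c1786, c1796, c1797, c1803, c1804, c1812, c1820, c1824, c1828, c1830, c1832, c1773, c1827, c1836, c1837, c1082, c1845, c1847, c1850, c1852, c1855, c1857, c1865, trivial⟩ (nd (nat_lit 229) (nat_lit 0) (cs (rf (nat_lit 0)) (cs (nd (nat_lit 186) (nat_lit 0) (cs (rf (nat_lit 1)) (cs (nd (nat_lit 185) (nat_lit 0) (cs (rf (nat_lit 2)) (cs (nd (nat_lit 188) (nat_lit 0) (cs (nd (nat_lit 163) (nat_lit 0) (cs (rf (nat_lit 3)) (cs (nd (nat_lit 141) (nat_lit 0) (cs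 (rf (nat_lit 4)) (cs (rf (nat_lit 5)) (nd (nat_lit 251) (nat_lit 0) (cs (lf (nat_lit 30) (nat_lit 185)) (nd (nat_lit 187) (nat_lit 0) (cs (lf (nat_lit 11) (nat_lit 184)) (nd (nat_lit 166) (nat_lit 0) (cs (lf (nat_lit 17) (nat_lit 163)) (nd (nat_lit 143) (nat_lit 0) (cs (nd (nat_lit 252) (nat_lit 0) (cs (lf (nat_lit 29) (nat_lit 185)) (nd (nat_lit 121) (nat_lit 0) (cs (nd (nat_lit 210) (nat_lit 0) (cs (lf (nat_lit 18) (nat_lit 185)) (lf (nat_lit 45) (nat_lit 121)))) (lf (nat_lit 38) (nat_lit 120)))))) (cs (nd (nat_lit 252) (nat_lit 0) (cs (lf (nat_lit 29) (nat_lit 185)) (nd (nat_lit 250) (nat_lit 0) (cs (lf (nat_lit 41) (nat_lit 184)) (nd (nat_lit 275) (nat_lit 0) (cs (lf (nat_lit 5) (nat_lit 250)) (nd (nat_lit 140) (nat_lit 0) (cs (lf (nat_lit 47) (nat_lit 118)) (nd (nat_lit 142) (nat_lit 0) (cs (lf (nat_lit 35) (nat_lit 119)) (lf (nat_lit 4) (nat_lit 140)))))))))))) (nd (nat_lit 120) (nat_lit 0) (cs (lf (nat_lit 34) (nat_lit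 119)) (nd (nat_lit 210) (nat_lit 0) (cs (lf (nat_lit 18) (nat_lit 185)) (rf (nat_lit 6)))))))))))))))))) (nd (nat_lit 187) (nat_lit 0) (cs (lf (nat_lit 11) (nat_lit 184)) (lf (nat_lit 23) (nat_lit 162))))))) (cs (rf (nat_lit 7)) (rf (nat_lit 8))))) (cs (rf (nat_lit 9)) (nd (nat_lit 210) (nat_lit 0) (cs (lf (nat_lit 18) (nat_lit 185)) (nd (nat_lit 251) (nat_lit 0) (cs (lf (nat_lit 30) (nat_lit 185)) (nd (nat_lit 252) (nat_lit 0) (cs (lf (nat_lit 29) (nat_lit 185)) (nd (nat_lit 230) (nat_lit 0) (cs (lf (nat_lit 29) (nat_lit 186)) (nd (nat_lit 187) (nat_lit 0) (cs (lf (nat_lit 35) (nat_lit 164)) (rf (nat_lit 10)))))))))))))))) (cs (nd (nat_lit 230) (nat_lit 0) (cs (nd (nat_lit 164) (nat_lit 0) (cs (lf (nat_lit 36) (nat_lit 141)) (nd (nat_lit 210) (nat_lit 0) (cs (lf (nat_lit 6) (nat_lit 207)) (nd (nat_lit 188) (nat_lit 0) (cs (lf (nat_lit 17) (nat_lit 185)) (nd (nat_lit 187) (nat_lit 0) (cs (lf (nat_lit 12) (nat_lit 184)) (nd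 (nat_lit 143) (nat_lit 0) (cs (lf (nat_lit 37) (nat_lit 142)) (nd (nat_lit 163) (nat_lit 0) (cs (lf (nat_lit 47) (nat_lit 141)) (rf (nat_lit 11)))))))))))))) (cs (nd (nat_lit 142) (nat_lit 0) (cs (rf (nat_lit 12)) (lf (nat_lit 37) (nat_lit 141)))) (rf (nat_lit 13))))) (cs (rf (nat_lit 14)) (rf (nat_lit 15))))))) (cs (nd (nat_lit 251) (nat_lit 0) (cs (rf (nat_lit 16)) (cs (nd (nat_lit 186) (nat_lit 0) (cs (rf (nat_lit 17)) (cs (rf (nat_lit 18)) (nd (nat_lit 252) (nat_lit 0) (cs (rf (nat_lit 19)) (cs (rf (nat_lit 20)) (nd (nat_lit 230) (nat_lit 0) (cs (lf (nat_lit 29) (nat_lit 186)) (nd (nat_lit 165) (nat_lit 0) (cs (lf (nat_lit 34) (nat_lit 164)) (nd (nat_lit 227) (nat_lit 0) (cs (lf (nat_lit 1) (nat_lit 227)) (nd (nat_lit 185) (nat_lit 0) (cs (lf (nat_lit 47) (nat_lit 163)) (rf (nat_lit 21)))))))))))))))) (cs (nd (nat_lit 273) (nat_lit 0) (cs (rf (nat_lit 22)) (cs (rf (nat_lit 23)) (cs (rf (nat_lit 24)) (cs (rf (nat_lit 25))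 (rf (nat_lit 26))))))) (rf (nat_lit 27)))))) (rf (nat_lit 28)))))) q1866 (by decide +kernel)
def q1933 : Q := Q.p (nat_lit 0x38000020000000000000000000000000000000000000000000000) (nat_lit 0xc0000300001c000060000c40003c0000fc0003f0000fc00005000000000000000000000000) (nat_lit 13)
theorem c1933 : QOK q1933 := cut [q1615, q1621, q1658, q1889, q1885, q1918, q1931] ⟨c1615, c1621, c1658, c1889, c1885, c1918, c1931, trivial⟩ (nd (nat_lit 163) (nat_lit 0) (cs (rf (nat_lit 0)) (cs (rf (nat_lit 1)) (cs (rf (nat_lit 2)) (cs (nd (nat_lit 229) (nat_lit 0) (cs (nd (nat_lit 162) (nat_lit 0) (cs (lf (nat_lit 47) (nat_lit 140)) (nd (nat_lit 164) (nat_lit 0) (cs (lf (nat_lit 35) (nat_lit 141)) (nd (nat_lit 230) (nat_lit 0) (cs (lf (nat_lit 29) (nat_lit 163)) (nd (nat_lit 210) (nat_lit 0) (cs (lf (nat_lit 6) (nat_lit 207)) (nd (nat_lit 188) (nat_lit 0) (cs (lf (nat_lit 17) (nat_lit 185)) (nd (nat_lit 187) (nat_lit 0) (cs (lf (nat_lit 12) (nat_lit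 184)) (lf (nat_lit 3) (nat_lit 162)))))))))))))) (cs (nd (nat_lit 230) (nat_lit 0) (cs (lf (nat_lit 29) (nat_lit 163)) (nd (nat_lit 210) (nat_lit 0) (cs (lf (nat_lit 6) (nat_lit 207)) (nd (nat_lit 188) (nat_lit 0) (cs (lf (nat_lit 17) (nat_lit 185)) (nd (nat_lit 187) (nat_lit 0) (cs (lf (nat_lit 12) (nat_lit 184)) (nd (nat_lit 162) (nat_lit 0) (cs (lf (nat_lit 47) (nat_lit 140)) (lf (nat_lit 20) (nat_lit 162)))))))))))) (cs (nd (nat_lit 230) (nat_lit 0) (cs (lf (nat_lit 29) (nat_lit 163)) (nd (nat_lit 140) (nat_lit 0) (cs (lf (nat_lit 46) (nat_lit 140)) (nd (nat_lit 164) (nat_lit 0) (cs (lf (nat_lit 35) (nat_lit 141)) (nd (nat_lit 186) (nat_lit 0) (cs (lf (nat_lit 41) (nat_lit 163)) (nd (nat_lit 165) (nat_lit 0) (cs (lf (nat_lit 35) (nat_lit 142)) (nd (nat_lit 166) (nat_lit 0) (cs (lf (nat_lit 6) (nat_lit 163)) (nd (nat_lit 144) (nat_lit 0) (cs (lf (nat_lit 17) (nat_lit 141)) (nd (nat_lit 188) (nat_lit 0) (cs (lf (nat_lit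 5) (nat_lit 163)) (rf (nat_lit 3)))))))))))))))))) (cs (nd (nat_lit 164) (nat_lit 0) (cs (lf (nat_lit 35) (nat_lit 141)) (nd (nat_lit 186) (nat_lit 0) (cs (lf (nat_lit 30) (nat_lit 163)) (nd (nat_lit 210) (nat_lit 0) (cs (lf (nat_lit 18) (nat_lit 185)) (nd (nat_lit 188) (nat_lit 0) (cs (lf (nat_lit 17) (nat_lit 185)) (nd (nat_lit 187) (nat_lit 0) (cs (lf (nat_lit 11) (nat_lit 184)) (nd (nat_lit 166) (nat_lit 0) (cs (lf (nat_lit 17) (nat_lit 163)) (nd (nat_lit 144) (nat_lit 0) (cs (lf (nat_lit 36) (nat_lit 121)) (nd (nat_lit 145) (nat_lit 0) (cs (lf (nat_lit 14) (nat_lit 141)) (lf (nat_lit 35) (nat_lit 122)))))))))))))))))) (nd (nat_lit 230) (nat_lit 0) (cs (lf (nat_lit 29) (nat_lit 163)) (nd (nat_lit 210) (nat_lit 0) (cs (lf (nat_lit 6) (nat_lit 207)) (rf (nat_lit 4))))))))))) (nd (nat_lit 186) (nat_lit 0) (cs (nd (nat_lit 210) (nat_lit 0) (cs (lf (nat_lit 18) (nat_lit 185)) (nd (nat_lit 188) (nat_lit 0) (cs (lf (nat_lit 17)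 (nat_lit 185)) (nd (nat_lit 187) (nat_lit 0) (cs (lf (nat_lit 12) (nat_lit 184)) (lf (nat_lit 23) (nat_lit 162)))))))) (cs (nd (nat_lit 210) (nat_lit 0) (cs (lf (nat_lit 18) (nat_lit 185)) (nd (nat_lit 119) (nat_lit 0) (cs (lf (nat_lit 25) (nat_lit 119)) (nd (nat_lit 188) (nat_lit 0) (cs (lf (nat_lit 17) (nat_lit 185)) (nd (nat_lit 187) (nat_lit 0) (cs (lf (nat_lit 11) (nat_lit 184)) (nd (nat_lit 166) (nat_lit 0) (cs (lf (nat_lit 17) (nat_lit 163)) (nd (nat_lit 144) (nat_lit 0) (cs (lf (nat_lit 36) (nat_lit 121)) (nd (nat_lit 121) (nat_lit 0) (cs (lf (nat_lit 46) (nat_lit 121)) (rf (nat_lit 5)))))))))))))))) (rf (nat_lit 6)))))))))) q1933 (by decide +kernel)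
def q1986 : Q := Q.p (nat_lit 0x3c000000000000000000000000000000000000000000000000000) (nat_lit 0x8000030000c30000fc000100000400000000000000000000000000000000000) (nat_lit 8)
theorem c1986 : QOK q1986 := cut [q1983] ⟨c1983, trivial⟩ (nd (nat_lit 183) (nat_lit 0) (cs (lf (nat_lit 22) (nat_lit 183)) (nd (nat_lit 205) (nat_lit 0) (cs (lf (nat_lit 23) (nat_lit 182)) (nd (nat_lit 186) (nat_lit 0) (cs (lf (nat_lit 17) (nat_lit 183)) (rf (nat_lit 0)))))))) q1986 (by decide +kernel)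
def q2040 : Q := Q.p (nat_lit 0xe00003800000000000000000000000000000000000000000000000000000000000000) (nat_lit 0x5c0001f0000fc0003000000000000000000000000000000000000000000000000000000000000000000000) (nat_lit 9)
theorem c2040 : QOK q2040 := cut [q2039] ⟨c2039, trivial⟩ (nd (nat_lit 276) (nat_lit 0) (cs (lf (nat_lit 18) (nat_lit 251)) (rf (nat_lit 0)))) q2040 (by decide +kernel)
def q2163 : Q := Q.p (nat_lit 0x100000f0000200000000000000000000000000000000000000000) (nat_lit 0x10000060001000000e0000a00002800000000000000000000000000000) (nat_lit 6)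
theorem c2163 : QOK q2163 := cut [q2162] ⟨c2162, trivial⟩ (nd (nat_lit 121) (nat_lit 0) (cs (lf (nat_lit 37) (nat_lit 120)) (rf (nat_lit 0)))) q2163 (by decide +kernel)
def q2191 : Q := Q.p (nat_lit 0xc00003000000000000000000000000000000000000000000000000000000000000000) (nat_lit 0x5c0001f0001fe0007380018e00001c00000000000000000000000000000000000000000000000000000000) (nat_lit 11)
theorem c2191 : QOK q2191 := cut [q700, q2180, q2039, q2091, q2182, q2190] ⟨c700, c2180, c2039, c2091, c2182, c2190, trivial⟩ (nd (nat_lit 276) (nat_lit 0) (cs (rf (nat_lit 0)) (cs (nd (nat_lit 273) (nat_lit 0) (cs (rf (nat_lit 1)) (cs (nd (nat_lit 251) (nat_lit 0) (cs (rf (nat_lit 2)) (rf (nat_lit 3)))) (rf (nat_lit 4))))) (rf (nat_lit 5))))) q2191 (by decide +kernel)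
def q2216 : Q := Q.p (nat_lit 0x2000000000030000000000000000000000000000000000000000000000000000) (nat_lit 0x100000700001c0000100000c00004c0007c0000700001c00000000000000000000000000000000000) (nat_lit 8)
theorem c2216 : QOK q2216 := cut [q1563, q1594, q1595, q2215] ⟨c1563, c1594, c1595, c2215, trivial⟩ (nd (nat_lit 231) (nat_lit 0) (cs (rf (nat_lit 0)) (cs (rf (nat_lit 1)) (cs (rf (nat_lit 2)) (rf (nat_lit 3)))))) q2216 (by decide +kernel)
def q2235 : Q := Q.p (nat_lit 0x300000e0000000000000000000000000000000000000000000000) (nat_lit 0x40000180000e0001180000e0000200000000000000000000000000000000000) (nat_lit 7)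
theorem c2235 : QOK q2235 := cut [q2231] ⟨c2231, trivial⟩ (nd (nat_lit 184) (nat_lit 0) (cs (lf (nat_lit 0) (nat_lit 183)) (rf (nat_lit 0)))) q2235 (by decide +kernel)
def q2326 : Q := Q.p (nat_lit 0x2000000000030000040000000000000000000000000000000000000000000000) (nat_lit 0x80000e000018000078000c80000a0000380000e00002800000000000000000000000000000) (nat_lit 8)
theorem c2326 : QOK q2326 := cut [q435, q438, q500, q6, q448, q495, q2322] ⟨c435, c438, c500, c6, c448, c495, c2322, trivial⟩ (nd (nat_lit 230) (nat_lit 0) (cs (rf (nat_lit 0)) (cs (rf (nat_lit 1)) (cs (rf (nat_lit 2)) (nd (nat_lit 164) (nat_lit 0) (cs (rf (nat_lit 3)) (cs (rf (nat_lit 4)) (cs (rf (nat_lit 5)) (nd (nat_lit 141) (nat_lit 0) (cs (lf (nat_lit 46) (nat_lit 141)) (nd (nat_lit 143) (nat_lit 0) (cs (lf (nat_lit 34) (nat_lit 142)) (rf (nat_lit 6)))))))))))))) q2326 (by decide +kernel)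
def q2347 : Q := Q.p (nat_lit 0x2000000000030000000000000000000000000000000000000000000000000000) (nat_lit 0x100000700001e00001e0000c00004c0007f8000780001800000000000000000000000000000000000) (nat_lit 10)
theorem c2347 : QOK q2347 := cut [q1594, q2330, q2331, q1584, q2212, q2344, q2346] ⟨c1594, c2330, c2331, c1584, c2212, c2344, c2346, trivial⟩ (nd (nat_lit 231) (nat_lit 0) (cs (rf (nat_lit 0)) (cs (rf (nat_lit 1)) (cs (rf (nat_lit 2)) (cs (nd (nat_lit 187) (nat_lit 0) (cs (rf (nat_lit 3)) (cs (rf (nat_lit 4)) (rf (nat_lit 5))))) (rf (nat_lit 6))))))) q2347 (by decide +kernel)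
def q2349 : Q := Q.p (nat_lit 0x2000000000030000000000000000000000000000000000000000000000000000) (nat_lit 0x100000700001c0000100000c00004c0007c0000700000400000000000000000000000000000000000) (nat_lit 6)
theorem c2349 : QOK q2349 := cut [q1563, q1594, q1595, q2348] ⟨c1563, c1594, c1595, c2348, trivial⟩ (nd (nat_lit 231) (nat_lit 0) (cs (rf (nat_lit 0)) (cs (rf (nat_lit 1)) (cs (rf (nat_lit 2)) (rf (nat_lit 3)))))) q2349 (by decide +kernel)
def q2386 : Q := Q.p (nat_lit 0x2000008000030000000000000000000000000000000000000000000000000000) (nat_lit 0x6000018000e78001cc0007f80003c0000500000000000000000000000000000000000) (nat_lit 11)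
theorem c2386 : QOK q2386 := cut [q33, q1562, q2385] ⟨c33, c1562, c2385, trivial⟩ (nd (nat_lit 186) (nat_lit 0) (cs (rf (nat_lit 0)) (cs (rf (nat_lit 1)) (rf (nat_lit 2))))) q2386 (by decide +kernel)
def q2398 : Q := Q.p (nat_lit 0x800002000000000010000040000000000000000000000000000000000000000000000) (nat_lit 0x500001c000070000000000000001c000060000000000000000000000000000000000000000000000000000) (nat_lit 7)
theorem c2398 : QOK q2398 := cut [q2397] ⟨c2397, trivial⟩ (nd (nat_lit 231) (nat_lit 0) (cs (lf (nat_lit 45) (nat_lit 186)) (rf (nat_lit 0)))) q2398 (by decide +kernel)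
def q2458 : Q := Q.p (nat_lit 0x3c000040000000000000000000000000000000000000000000000) (nat_lit 0x700001c0000eb8000000000000000000000000000000000000000000000) (nat_lit 7)
theorem c2458 : QOK q2458 := cut [q2457] ⟨c2457, trivial⟩ (nd (nat_lit 184) (nat_lit 0) (cs (lf (nat_lit 23) (nat_lit 183)) (rf (nat_lit 0)))) q2458 (by decide +kernel)
def q2503 : Q := Q.p (nat_lit 0x3c000040000000000000000000000000000000000000000000000) (nat_lit 0x18000000001b80006f8000f80002e00002800000000000000000000000) (nat_lit 10)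
theorem c2503 : QOK q2503 := cut [q2477, q2479, q2486, q804, q863, q2493, q2497, q2500] ⟨c2477, c2479, c2486, c804, c863, c2493, c2497, c2500, trivial⟩ (nd (nat_lit 184) (nat_lit 0) (cs (lf (nat_lit 23) (nat_lit 183)) (nd (nat_lit 162) (nat_lit 0) (cs (rf (nat_lit 0)) (cs (nd (nat_lit 228) (nat_lit 0) (cs (lf (nat_lit 11) (nat_lit 205)) (nd (nat_lit 187) (nat_lit 0) (cs (lf (nat_lit 17) (nat_lit 184)) (nd (nat_lit 185) (nat_lit 0) (cs (lf (nat_lit 23) (nat_lit 161)) (nd (nat_lit 165) (nat_lit 0) (cs (lf (nat_lit 17) (nat_lit 162)) (nd (nat_lit 121) (nat_lit 0) (cs (lf (nat_lit 37) (nat_lit 120)) (rf (nat_lit 1)))))))))))) (cs (nd (nat_lit 228) (nat_lit 0) (cs (lf (nat_lit 11) (nat_lit 205)) (nd (nat_lit 187) (nat_lit 0) (cs (lf (nat_lit 17) (nat_lit 184)) (rf (nat_lit 2)))))) (cs (nd (nat_lit 140) (nat_lit 0) (cs (rf (nat_lit 3)) (cs (rf (nat_lit 4)) (cs (nd (nat_lit 141) (nat_lit 0) (cs (lf (nat_lit 35) (nat_lit 118)) (nd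 (nat_lit 187) (nat_lit 0) (cs (lf (nat_lit 17) (nat_lit 184)) (rf (nat_lit 5)))))) (rf (nat_lit 6)))))) (nd (nat_lit 187) (nat_lit 0) (cs (lf (nat_lit 17) (nat_lit 184)) (rf (nat_lit 7))))))))))) q2503 (by decide +kernel)
def q2576 : Q := Q.p (nat_lit 0x200000800002000000000000000000000000000000000000000000000000000000000000000) (nat_lit 0x700001c0000700001e0001d00001700001000018000040000000000000000000000000000000000000000000000000000) (nat_lit 9)
theorem c2576 : QOK q2576 := cut [q2532, q2541, q2547, q2567, q2575] ⟨c2532, c2541, c2547, c2567, c2575, trivial⟩ (nd (nat_lit 319) (nat_lit 0) (cs (rf (nat_lit 0)) (cs (rf (nat_lit 1)) (cs (nd (nat_lit 320) (nat_lit 0) (cs (lf (nat_lit 29) (nat_lit 253)) (rf (nat_lit 2)))) (cs (rf (nat_lit 3)) (rf (nat_lit 4))))))) q2576 (by decide +kernel)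
def q2629 : Q := Q.p (nat_lit 0x2000000000038000040000000000000000000000000000000000000000000000) (nat_lit 0x800000000019c0000700002e000000000000000000000000000000000000000000000) (nat_lit 7)
theorem c2629 : QOK q2629 := cut [q131] ⟨c131, trivial⟩ (nd (nat_lit 231) (nat_lit 0) (cs (lf (nat_lit 42) (nat_lit 186)) (rf (nat_lit 0)))) q2629 (by decide +kernel)
def q2630 : Q := Q.p (nat_lit 0x2000000000038000040000000000000000000000000000000000000000000000) (nat_lit 0x800000000019c000c7000030000000000000000000000000000000000000000000000) (nat_lit 7)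
theorem c2630 : QOK q2630 := cut [q179] ⟨c179, trivial⟩ (nd (nat_lit 231) (nat_lit 0) (cs (lf (nat_lit 42) (nat_lit 186)) (rf (nat_lit 0)))) q2630 (by decide +kernel)
def q2631 : Q := Q.p (nat_lit 0x8000038000040000000000000000000000000000000000000000000000) (nat_lit 0x10e0000700003c000000000000000000000000000000000000000000000) (nat_lit 6)
theorem c2631 : QOK q2631 := cut [q156] ⟨c156, trivial⟩ (nd (nat_lit 206) (nat_lit 0) (cs (lf (nat_lit 5) (nat_lit 206)) (rf (nat_lit 0)))) q2631 (by decide +kernel)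
def q2733 : Q := Q.p (nat_lit 0x300000e0000000000000000000000000000000000000000000000) (nat_lit 0x80007180006e0000800002000000000000000000000000000000) (nat_lit 7)
theorem c2733 : QOK q2733 := cut [q2137] ⟨c2137, trivial⟩ (nd (nat_lit 184) (nat_lit 0) (cs (lf (nat_lit 0) (nat_lit 183)) (rf (nat_lit 0)))) q2733 (by decide +kernel)
def q2867 : Q := Q.p (nat_lit 0x2000000000018000040000100000000000000000000000000000000000000000) (nat_lit 0x400019c000e70000be000080000600000000000000000000000000000000000) (nat_lit 7)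
theorem c2867 : QOK q2867 := cut [q660, q2677, q119] ⟨c660, c2677, c119, trivial⟩ (nd (nat_lit 209) (nat_lit 0) (cs (rf (nat_lit 0)) (cs (rf (nat_lit 1)) (nd (nat_lit 231) (nat_lit 0) (cs (lf (nat_lit 24) (nat_lit 142)) (rf (nat_lit 2))))))) q2867 (by decide +kernel)
def q2904 : Q := Q.p (nat_lit 0x2000000000010000040000000000000000000000000000000000000000000000) (nat_lit 0x80000e000018000060000080003bc000ff0000ee0002800000000000000000000000000000) (nat_lit 12)
theorem c2904 : QOK q2904 := cut [q435, q438, q500, q6, q448, q495, q2888, q2891, q2269, q2900] ⟨c435, c438, c500, c6, c448, c495, c2888, c2891, c2269, c2900, trivial⟩ (nd (nat_lit 230) (nat_lit 0) (cs (rf (nat_lit 0)) (cs (rf (nat_lit 1)) (cs (rf (nat_lit 2)) (nd (nat_lit 164) (nat_lit 0) (cs (rf (nat_lit 3)) (cs (rf (nat_lit 4)) (cs (rf (nat_lit 5)) (nd (nat_lit 163) (nat_lit 0) (cs (lf (nat_lit 47) (nat_lit 141)) (nd (nat_lit 188) (nat_lit 0) (cs (rf (nat_lit 6))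 (cs (nd (nat_lit 229) (nat_lit 0) (cs (lf (nat_lit 41) (nat_lit 163)) (nd (nat_lit 165) (nat_lit 0) (cs (lf (nat_lit 35) (nat_lit 142)) (rf (nat_lit 7)))))) (cs (nd (nat_lit 229) (nat_lit 0) (cs (lf (nat_lit 41) (nat_lit 163)) (nd (nat_lit 165) (nat_lit 0) (cs (lf (nat_lit 35) (nat_lit 142)) (nd (nat_lit 162) (nat_lit 0) (cs (lf (nat_lit 4) (nat_lit 162)) (nd (nat_lit 183) (nat_lit 0) (cs (lf (nat_lit 10) (nat_lit 161)) (nd (nat_lit 161) (nat_lit 0) (cs (lf (nat_lit 11) (nat_lit 160)) (rf (nat_lit 8)))))))))))) (rf (nat_lit 9)))))))))))))))) q2904 (by decide +kernel)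
def q2919 : Q := Q.p (nat_lit 0x38000000000000000000000000000000000000000000000000000) (nat_lit 0xf78001c6000fe0000000000000000000000000000000000000000000000) (nat_lit 8)
theorem c2919 : QOK q2919 := cut [q87, q139, q697, q2918] ⟨c87, c139, c697, c2918, trivial⟩ (nd (nat_lit 210) (nat_lit 0) (cs (rf (nat_lit 0)) (cs (rf (nat_lit 1)) (cs (rf (nat_lit 2)) (rf (nat_lit 3)))))) q2919 (by decide +kernel)
def q2957 : Q := Q.p (nat_lit 0xc00002000008000030000000000000000000000000000000000000000000000000000) (nat_lit 0x28000038000100001400000e0000a0000000000000000000000000000000000000000000000) (nat_lit 7)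
theorem c2957 : QOK q2957 := cut [q2956] ⟨c2956, trivial⟩ (nd (nat_lit 252) (nat_lit 0) (cs (lf (nat_lit 36) (nat_lit 186)) (rf (nat_lit 0)))) q2957 (by decide +kernel)
def q2965 : Q := Q.p (nat_lit 0x8000070000000000000000000000000000000000000000000000000000) (nat_lit 0xf7c0018e000e3c000000000000000000000000000000000000000000000) (nat_lit 7)
theorem c2965 : QOK q2965 := cut [q119, q697, q760] ⟨c119, c697, c760, trivial⟩ (nd (nat_lit 207) (nat_lit 0) (cs (rf (nat_lit 0)) (cs (rf (nat_lit 1)) (rf (nat_lit 2))))) q2965 (by decide +kernel)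
def q2982 : Q := Q.p (nat_lit 0x2000008000030000040000000000000000000000000000000000000000000000) (nat_lit 0x600001c000340001c00007b80006e0000000000000000000000000000000000000000) (nat_lit 8)
theorem c2982 : QOK q2982 := cut [q2974, q2978, q2980] ⟨c2974, c2978, c2980, trivial⟩ (nd (nat_lit 187) (nat_lit 0) (cs (rf (nat_lit 0)) (cs (rf (nat_lit 1)) (nd (nat_lit 166) (nat_lit 0) (cs (lf (nat_lit 34) (nat_lit 165)) (rf (nat_lit 2))))))) q2982 (by decide +kernel)
def q2986 : Q := Q.p (nat_lit 0x2000008000030000000000000000000000000000000000000000000000000000) (nat_lit 0x600001c000340000080007e0000780000400000000000000000000000000000000000) (nat_lit 8)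
theorem c2986 : QOK q2986 := cut [q33, q1562, q358, q2978] ⟨c33, c1562, c358, c2978, trivial⟩ (nd (nat_lit 186) (nat_lit 0) (cs (rf (nat_lit 0)) (cs (rf (nat_lit 1)) (nd (nat_lit 187) (nat_lit 0) (cs (rf (nat_lit 2)) (rf (nat_lit 3))))))) q2986 (by decide +kernel)
def q2990 : Q := Q.p (nat_lit 0x2000008000030000000000000000000000000000000000000000000000000000) (nat_lit 0x700001c0000000003000004c000140000000000000000000000000000000000000000000000) (nat_lit 7)
theorem c2990 : QOK q2990 := cut [q2989] ⟨c2989, trivial⟩ (nd (nat_lit 275) (nat_lit 0) (cs (lf (nat_lit 47) (nat_lit 186)) (rf (nat_lit 0)))) q2990 (by decide +kernel)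
def q3018 : Q := Q.p (nat_lit 0x2000008000038000000000000000000000000000000000000000000000000000) (nat_lit 0x8000330000c0000370000500000400000000000000000000000000000000000) (nat_lit 6)
theorem c3018 : QOK q3018 := cut [q108, q1459] ⟨c108, c1459, trivial⟩ (nd (nat_lit 210) (nat_lit 0) (cs (rf (nat_lit 0)) (rf (nat_lit 1)))) q3018 (by decide +kernel)
def q3055 : Q := Q.p (nat_lit 0x2000000000010000040000000000000000000000000000000000000000000000) (nat_lit 0x80000e00001800006000068000fa0001fc0007e0000e800030000000000000000000000000) (nat_lit 12)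
theorem c3055 : QOK q3055 := cut [q435, q438, q500, q6, q448, q495, q3033, q3039, q3044, q3051] ⟨c435, c438, c500, c6, c448, c495, c3033, c3039, c3044, c3051, trivial⟩ (nd (nat_lit 230) (nat_lit 0) (cs (rf (nat_lit 0)) (cs (rf (nat_lit 1)) (cs (rf (nat_lit 2)) (nd (nat_lit 164) (nat_lit 0) (cs (rf (nat_lit 3)) (cs (rf (nat_lit 4)) (cs (rf (nat_lit 5)) (nd (nat_lit 165) (nat_lit 0) (cs (lf (nat_lit 35) (nat_lit 142)) (nd (nat_lit 166) (nat_lit 0) (cs (rf (nat_lit 6)) (cs (nd (nat_lit 163) (nat_lit 0) (cs (lf (nat_lit 47) (nat_lit 141)) (nd (nat_lit 229) (nat_lit 0) (cs (lf (nat_lit 41) (nat_lit 163)) (rf (nat_lit 7)))))) (cs (rf (nat_lit 8)) (rf (nat_lit 9)))))))))))))))) q3055 (by decide +kernel)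
def q3124 : Q := Q.p (nat_lit 0x2000000000018000040000000000000000000000000000000000000000000000) (nat_lit 0x180000e0000000000a0000380000e00003800008000000000000000000000000) (nat_lit 7)
theorem c3124 : QOK q3124 := cut [q524, q614, q631, q636] ⟨c524, c614, c631, c636, trivial⟩ (nd (nat_lit 164) (nat_lit 0) (cs (rf (nat_lit 0)) (cs (rf (nat_lit 1)) (cs (rf (nat_lit 2)) (rf (nat_lit 3)))))) q3124 (by decide +kernel)
def q3171 : Q := Q.p (nat_lit 0x2000000000038000040000000000000000000000000000000000000000000000) (nat_lit 0xe00001c0003b0000c00001b8000600001800000000000000000000000000000000000) (nat_lit 10)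
theorem c3171 : QOK q3171 := cut [q3170] ⟨c3170, trivial⟩ (nd (nat_lit 231) (nat_lit 0) (cs (lf (nat_lit 42) (nat_lit 186)) (rf (nat_lit 0)))) q3171 (by decide +kernel)
def q3182 : Q := Q.p (nat_lit 0x3000000000018000040000000000000000000000000000000000000000000000) (nat_lit 0x1fc0000e0001bc0002000003c0000c0000000000000000000000000000000000000000) (nat_lit 6)
theorem c3182 : QOK q3182 := cut [q3173, q3178, q3181] ⟨c3173, c3178, c3181, trivial⟩ (nd (nat_lit 251) (nat_lit 0) (cs (rf (nat_lit 0)) (cs (rf (nat_lit 1)) (rf (nat_lit 2))))) q3182 (by decide +kernel)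
def q3206 : Q := Q.p (nat_lit 0x2000000000010000040000000000000000000000000000000000000000000000) (nat_lit 0x80000e000018000060000080001b8001fe0007e00002800000000000000000000000000000) (nat_lit 12)
theorem c3206 : QOK q3206 := cut [q435, q438, q500, q6, q448, q495, q456, q462, q490, q3201] ⟨c435, c438, c500, c6, c448, c495, c456, c462, c490, c3201, trivial⟩ (nd (nat_lit 230) (nat_lit 0) (cs (rf (nat_lit 0)) (cs (rf (nat_lit 1)) (cs (rf (nat_lit 2)) (nd (nat_lit 164) (nat_lit 0) (cs (rf (nat_lit 3)) (cs (rf (nat_lit 4)) (cs (rf (nat_lit 5)) (nd (nat_lit 165) (nat_lit 0) (cs (lf (nat_lit 35) (nat_lit 142)) (nd (nat_lit 184) (nat_lit 0) (cs (rf (nat_lit 6)) (cs (rf (nat_lit 7)) (cs (rf (nat_lit 8)) (nd (nat_lit 229) (nat_lit 0) (cs (lf (nat_lit 41) (nat_lit 163)) (rf (nat_lit 9)))))))))))))))))) q3206 (by decide +kernel)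
def q3277 : Q := Q.p (nat_lit 0x200000000001c000000000000000000000000000000000000000000000000000) (nat_lit 0x100000700001f0000140001bc000e30001f0000100000000000000000000000000000000000000000) (nat_lit 12)
theorem c3277 : QOK q3277 := cut [q1511, q1555, q3262, q3275] ⟨c1511, c1555, c3262, c3275, trivial⟩ (nd (nat_lit 209) (nat_lit 0) (cs (rf (nat_lit 0)) (cs (rf (nat_lit 1)) (cs (nd (nat_lit 187) (nat_lit 0) (cs (lf (nat_lit 17) (nat_lit 184)) (nd (nat_lit 231) (nat_lit 0) (cs (lf (nat_lit 5) (nat_lit 206)) (nd (nat_lit 274) (nat_lit 0) (cs (lf (nat_lit 40) (nat_lit 186)) (nd (nat_lit 275) (nat_lit 0) (cs (lf (nat_lit 41) (nat_lit 208)) (nd (nat_lit 298) (nat_lit 0) (cs (lf (nat_lit 28) (nat_lit 209)) (nd (nat_lit 228) (nat_lit 0) (cs (lf (nat_lit 11) (nat_lit 205)) (nd (nat_lit 210) (nat_lit 0) (cs (lf (nat_lit 10) (nat_lit 206)) (nd (nat_lit 185) (nat_lit 0) (cs (lf (nat_lit 23) (nat_lit 184)) (nd (nat_lit 272) (nat_lit 0)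 (cs (rf (nat_lit 2)) (lf (nat_lit 31) (nat_lit 184)))))))))))))))))))) (nd (nat_lit 231) (nat_lit 0) (cs (lf (nat_lit 5) (nat_lit 206)) (rf (nat_lit 3)))))))) q3277 (by decide +kernel)
def q3318 : Q := Q.p (nat_lit 0x1c000000000000000000000000000000000000000000000000000) (nat_lit 0x400001f0006380007f000080000200000000000000000000000000000000000) (nat_lit 9)
theorem c3318 : QOK q3318 := cut [q2450, q3211, q3300, q3307, q3310, q3313] ⟨c2450, c3211, c3300, c3307, c3310, c3313, trivial⟩ (nd (nat_lit 205) (nat_lit 0) (cs (rf (nat_lit 0)) (cs (rf (nat_lit 1)) (cs (rf (nat_lit 2)) (cs (rf (nat_lit 3)) (cs (nd (nat_lit 226) (nat_lit 0) (cs (lf (nat_lit 10) (nat_lit 204)) (nd (nat_lit 204) (nat_lit 0) (cs (lf (nat_lit 11) (nat_lit 203)) (rf (nat_lit 4)))))) (nd (nat_lit 182) (nat_lit 0) (cs (lf (nat_lit 22) (nat_lit 182)) (nd (nat_lit 204) (nat_lit 0) (cs (lf (nat_lit 23) (nat_lit 181)) (nd (nat_lit 185) (nat_lit 0) (cs (lf (nat_lit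 17) (nat_lit 182)) (nd (nat_lit 184) (nat_lit 0) (cs (lf (nat_lit 12) (nat_lit 181)) (rf (nat_lit 5)))))))))))))))) q3318 (by decide +kernel)
def q3421 : Q := Q.p (nat_lit 0x100001c000000000000000000000000000000000000000000000000000) (nat_lit 0x40000380000f0000e00002000003e0000e0000380000a00000000000000000000000000000) (nat_lit 8)
theorem c3421 : QOK q3421 := cut [q2412, q3414, q1527, q3392] ⟨c2412, c3414, c1527, c3392, trivial⟩ (nd (nat_lit 184) (nat_lit 0) (cs (rf (nat_lit 0)) (cs (rf (nat_lit 1)) (nd (nat_lit 250) (nat_lit 0) (cs (rf (nat_lit 2)) (cs (rf (nat_lit 3)) (nd (nat_lit 249) (nat_lit 0) (cs (lf (nat_lit 41) (nat_lit 183)) (nd (nat_lit 251) (nat_lit 0) (cs (lf (nat_lit 29) (nat_lit 184)) (nd (nat_lit 272) (nat_lit 0) (cs (lf (nat_lit 35) (nat_lit 184)) (nd (nat_lit 229) (nat_lit 0) (cs (lf (nat_lit 30) (nat_lit 206)) (nd (nat_lit 230) (nat_lit 0) (cs (lf (nat_lit 12) (nat_lit 226)) (lf (nat_lit 6) (nat_lit 227))))))))))))))))))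 q3421 (by decide +kernel)
def q3440 : Q := Q.p (nat_lit 0x1e000000000000000000000000000000000000000000000000000) (nat_lit 0x18000060000dc0000000001c0000700001c0000500000000000000000000000000000) (nat_lit 9)
theorem c3440 : QOK q3440 := cut [q3425, q3428, q3438] ⟨c3425, c3428, c3438, trivial⟩ (nd (nat_lit 183) (nat_lit 0) (cs (lf (nat_lit 23) (nat_lit 182)) (nd (nat_lit 250) (nat_lit 0) (cs (rf (nat_lit 0)) (cs (nd (nat_lit 227) (nat_lit 0) (cs (lf (nat_lit 11) (nat_lit 204)) (nd (nat_lit 230) (nat_lit 0) (cs (lf (nat_lit 5) (nat_lit 205)) (rf (nat_lit 1)))))) (rf (nat_lit 2))))))) q3440 (by decide +kernel)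
def q3448 : Q := Q.p (nat_lit 0x200000000001c000000000000000000000000000000000000000000000000000) (nat_lit 0x140000700001c0000000001ce0006300018e000000000000000000000000000000000000000000000) (nat_lit 9)
theorem c3448 : QOK q3448 := cut [q3211, q3446] ⟨c3211, c3446, trivial⟩ (nd (nat_lit 205) (nat_lit 0) (cs (rf (nat_lit 0)) (nd (nat_lit 231) (nat_lit 0) (cs (lf (nat_lit 4) (nat_lit 205)) (rf (nat_lit 1)))))) q3448 (by decide +kernel)
def q3482 : Q := Q.p (nat_lit 0x2000000000018000040000000000000000000000000000000000000000000000) (nat_lit 0x200000c0000380000f8000180000e000000000080000300000c00002000000000000000000000000000000) (nat_lit 10)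
theorem c3482 : QOK q3482 := cut [q8, q26, q30, q435, q3481] ⟨c8, c26, c30, c435, c3481, trivial⟩ (nd (nat_lit 230) (nat_lit 0) (cs (rf (nat_lit 0)) (cs (rf (nat_lit 1)) (cs (rf (nat_lit 2)) (cs (rf (nat_lit 3)) (rf (nat_lit 4))))))) q3482 (by decide +kernel)
def q3508 : Q := Q.p (nat_lit 0x18000070000000000000000000000000000000000000000000000) (nat_lit 0x80000200003c00007800180000660000900002400000000000000000000000000000) (nat_lit 7)
theorem c3508 : QOK q3508 := cut [q2312, q3503, q3507] ⟨c2312, c3503, c3507, trivial⟩ (nd (nat_lit 206) (nat_lit 0) (cs (rf (nat_lit 0)) (cs (rf (nat_lit 1)) (rf (nat_lit 2))))) q3508 (by decide +kernel)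
def q3535 : Q := Q.p (nat_lit 0x2000000000018000078000000000000000000000000000000000000000000000) (nat_lit 0x380001e00001c000070000800000b0000000000000000000000000000000000000000) (nat_lit 9)
theorem c3535 : QOK q3535 := cut [q3534] ⟨c3534, trivial⟩ (nd (nat_lit 160) (nat_lit 0) (cs (lf (nat_lit 22) (nat_lit 160)) (rf (nat_lit 0)))) q3535 (by decide +kernel)
def q3565 : Q := Q.p (nat_lit 0x2000000000018000070000000000000000000000000000000000000000000000) (nat_lit 0x380001e00003c0000700000c0000f0000fc0003f00000000000000000000000000000) (nat_lit 13)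
theorem c3565 : QOK q3565 := cut [q3507, q3546, q3560, q3564] ⟨c3507, c3546, c3560, c3564, trivial⟩ (nd (nat_lit 206) (nat_lit 0) (cs (rf (nat_lit 0)) (cs (rf (nat_lit 1)) (cs (rf (nat_lit 2)) (rf (nat_lit 3)))))) q3565 (by decide +kernel)
def q3575 : Q := Q.p (nat_lit 0x200000000001c0000f0000000000000000000000000000000000000000000000) (nat_lit 0x300001e000018000000000000006e0000b80002e00000000000000000000000000000) (nat_lit 11)
theorem c3575 : QOK q3575 := cut [q3572] ⟨c3572, trivial⟩ (nd (nat_lit 165) (nat_lit 0) (cs (lf (nat_lit 17) (nat_lit 162)) (nd (nat_lit 121) (nat_lit 0) (cs (lf (nat_lit 37) (nat_lit 120)) (nd (nat_lit 162) (nat_lit 0) (cs (lf (nat_lit 23) (nat_lit 161)) (rf (nat_lit 0)))))))) q3575 (by decide +kernel)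
def q3816 : Q := Q.p (nat_lit 0x2000000000018000040000000000000000000000000000000000000000000000) (nat_lit 0x20000080000f0000070001be0003f0000fe0003c00009000000000000000000000000) (nat_lit 11)
theorem c3816 : QOK q3816 := cut [q524, q614, q631, q3800, q3813, q3744, q3747, q3754] ⟨c524, c614, c631, c3800, c3813, c3744, c3747, c3754, trivial⟩ (nd (nat_lit 164) (nat_lit 0) (cs (rf (nat_lit 0)) (cs (rf (nat_lit 1)) (cs (rf (nat_lit 2)) (nd (nat_lit 163) (nat_lit 0) (cs (rf (nat_lit 3)) (cs (rf (nat_lit 4)) (nd (nat_lit 185) (nat_lit 0) (cs (rf (nat_lit 5)) (cs (rf (nat_lit 6)) (rf (nat_lit 7)))))))))))) q3816 (by decide +kernel)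
def q3961 : Q := Q.p (nat_lit 0x200000000001c000000000000000000000000000000000000000000000000000) (nat_lit 0xa0000f80001f00077e001e30001f00003f0000f00000c00000000000000000000000000000) (nat_lit 13)
theorem c3961 : QOK q3961 := cut [q3906, q3910, q1774, q1828, q3914, q3917, q1667, q3927, q3343, q3930, q3932, q3937, q3948, q416, q3192, q3956, q3957, q3960] ⟨c3906, c3910, c1774, c1828, c3914, c3917, c1667, c3927, c3343, c3930, c3932, c3937, c3948, c416, c3192, c3956, c3957, c3960, trivial⟩ (nd (nat_lit 186) (nat_lit 0) (cs (rf (nat_lit 0)) (cs (nd (nat_lit 187) (nat_lit 0) (cs (lf (nat_lit 12) (nat_lit 183)) (nd (nat_lit 209) (nat_lit 0) (cs (lf (nat_lit 17) (nat_lit 184)) (rf (nat_lit 1)))))) (cs (nd (nat_lit 229) (nat_lit 0) (cs (rf (nat_lit 2)) (cs (rf (nat_lit 3)) (cs (nd (nat_lit 227) (nat_lit 0) (cs (nd (nat_lit 142) (nat_lit 0) (cs (lf (nat_lit 37) (nat_lit 141)) (rf (nat_lit 4)))) (cs (nd (nat_lit 142) (nat_lit 0) (cs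 (lf (nat_lit 37) (nat_lit 141)) (nd (nat_lit 228) (nat_lit 0) (cs (lf (nat_lit 6) (nat_lit 205)) (nd (nat_lit 230) (nat_lit 0) (cs (lf (nat_lit 4) (nat_lit 227)) (nd (nat_lit 249) (nat_lit 0) (cs (lf (nat_lit 11) (nat_lit 226)) (nd (nat_lit 204) (nat_lit 0) (cs (lf (nat_lit 1) (nat_lit 204)) (rf (nat_lit 5)))))))))))) (nd (nat_lit 228) (nat_lit 0) (cs (lf (nat_lit 12) (nat_lit 204)) (lf (nat_lit 6) (nat_lit 205))))))) (nd (nat_lit 185) (nat_lit 0) (cs (rf (nat_lit 6)) (rf (nat_lit 7)))))))) (cs (nd (nat_lit 229) (nat_lit 0) (cs (rf (nat_lit 2)) (cs (rf (nat_lit 3)) (cs (nd (nat_lit 228) (nat_lit 0) (cs (rf (nat_lit 8)) (cs (nd (nat_lit 163) (nat_lit 0) (cs (rf (nat_lit 9)) (cs (nd (nat_lit 164) (nat_lit 0) (cs (lf (nat_lit 36) (nat_lit 141)) (nd (nat_lit 209) (nat_lit 0) (cs (lf (nat_lit 6) (nat_lit 206)) (nd (nat_lit 187) (nat_lit 0) (cs (lf (nat_lit 17) (nat_lit 184)) (nd (nat_lit 161) (nat_lit 0) (cs (lf (nat_lit 1) (nat_lit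 161)) (rf (nat_lit 10)))))))))) (nd (nat_lit 142) (nat_lit 0) (cs (lf (nat_lit 37) (nat_lit 141)) (nd (nat_lit 185) (nat_lit 0) (cs (lf (nat_lit 41) (nat_lit 162)) (nd (nat_lit 230) (nat_lit 0) (cs (lf (nat_lit 42) (nat_lit 163)) (nd (nat_lit 187) (nat_lit 0) (cs (lf (nat_lit 6) (nat_lit 184)) (nd (nat_lit 209) (nat_lit 0) (cs (lf (nat_lit 6) (nat_lit 206)) (nd (nat_lit 143) (nat_lit 0) (cs (lf (nat_lit 37) (nat_lit 142)) (nd (nat_lit 162) (nat_lit 0) (cs (lf (nat_lit 47) (nat_lit 140)) (rf (nat_lit 11))))))))))))))))))) (nd (nat_lit 142) (nat_lit 0) (cs (lf (nat_lit 37) (nat_lit 141)) (rf (nat_lit 12))))))) (nd (nat_lit 252) (nat_lit 0) (cs (rf (nat_lit 13)) (cs (rf (nat_lit 14)) (cs (rf (nat_lit 15)) (rf (nat_lit 16)))))))))) (rf (nat_lit 17))))))) q3961 (by decide +kernel)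
def q3992 : Q := Q.p (nat_lit 0x2000004000018000000000000000000000000000000000000000000000000000) (nat_lit 0xe000018000020000000000e0000380000a00000000000000000000000000000000000) (nat_lit 6)
theorem c3992 : QOK q3992 := cut [q1411, q3990, q3991] ⟨c1411, c3990, c3991, trivial⟩ (nd (nat_lit 252) (nat_lit 0) (cs (rf (nat_lit 0)) (cs (rf (nat_lit 1)) (rf (nat_lit 2))))) q3992 (by decide +kernel)
def q4046 : Q := Q.p (nat_lit 0x400003000004000010000000000000000000000000000000000000000000000000000) (nat_lit 0x80001ee0007b80000e00000000020000080000000000000000000000000000000000000000000000) (nat_lit 10)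
theorem c4046 : QOK q4046 := cut [q1140, q4044] ⟨c1140, c4044, trivial⟩ (nd (nat_lit 275) (nat_lit 0) (cs (rf (nat_lit 0)) (nd (nat_lit 187) (nat_lit 0) (cs (lf (nat_lit 34) (nat_lit 186)) (rf (nat_lit 1)))))) q4046 (by decide +kernel)
def q4103 : Q := Q.p (nat_lit 0x2000000000018000040000000000000000000000000000000000000000000000) (nat_lit 0x8000000000780001e60001b8000100000400000000000000000000000000000000000) (nat_lit 8)
theorem c4103 : QOK q4103 := cut [q35, q4078, q4102] ⟨c35, c4078, c4102, trivial⟩ (nd (nat_lit 209) (nat_lit 0) (cs (rf (nat_lit 0)) (cs (rf (nat_lit 1)) (rf (nat_lit 2))))) q4103 (by decide +kernel)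
def q4165 : Q := Q.p (nat_lit 0x300000400001c000000000000000000000000000000000000000000000000000) (nat_lit 0x60000980002e0001bf0000f80003f000220000300000e0000380000e00002000000000000000000000000) (nat_lit 13)
theorem c4165 : QOK q4165 := cut [q4030, q1496, q3392, q1527, q889, q3383, q4109, q4115, q4127, q4135, q4142, q4157, q4159, q4164] ⟨c4030, c1496, c3392, c1527, c889, c3383, c4109, c4115, c4127, c4135, c4142, c4157, c4159, c4164, trivial⟩ (nd (nat_lit 228) (nat_lit 0) (cs (rf (nat_lit 0)) (cs (nd (nat_lit 250) (nat_lit 0) (cs (rf (nat_lit 1)) (cs (rf (nat_lit 2)) (cs (nd (nat_lit 184) (nat_lit 0) (cs (rf (nat_lit 3)) (cs (nd (nat_lit 162) (nat_lit 0) (cs (rf (nat_lit 4)) (cs (rf (nat_lit 5)) (cs (nd (nat_lit 251) (nat_lit 0) (cs (lf (nat_lit 29) (nat_lit 184)) (nd (nat_lit 275) (nat_lit 0) (cs (lf (nat_lit 5) (nat_lit 250)) (nd (nat_lit 297) (nat_lit 0) (cs (lf (nat_lit 42) (nat_lit 230)) (rf (nat_lit 6)))))))) (rf (nat_lit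 7)))))) (cs (nd (nat_lit 251) (nat_lit 0) (cs (lf (nat_lit 29) (nat_lit 184)) (nd (nat_lit 275) (nat_lit 0) (cs (lf (nat_lit 5) (nat_lit 250)) (nd (nat_lit 297) (nat_lit 0) (cs (lf (nat_lit 42) (nat_lit 230)) (rf (nat_lit 8)))))))) (cs (rf (nat_lit 9)) (nd (nat_lit 251) (nat_lit 0) (cs (lf (nat_lit 29) (nat_lit 184)) (nd (nat_lit 275) (nat_lit 0) (cs (lf (nat_lit 5) (nat_lit 250)) (nd (nat_lit 297) (nat_lit 0) (cs (lf (nat_lit 42) (nat_lit 230)) (nd (nat_lit 162) (nat_lit 0) (cs (lf (nat_lit 28) (nat_lit 162)) (rf (nat_lit 6))))))))))))))) (nd (nat_lit 272) (nat_lit 0) (cs (rf (nat_lit 10)) (cs (nd (nat_lit 273) (nat_lit 0) (cs (lf (nat_lit 29) (nat_lit 206)) (nd (nat_lit 251) (nat_lit 0) (cs (lf (nat_lit 24) (nat_lit 184)) (nd (nat_lit 275) (nat_lit 0) (cs (lf (nat_lit 5) (nat_lit 250)) (nd (nat_lit 297) (nat_lit 0) (cs (lf (nat_lit 42) (nat_lit 230)) (nd (nat_lit 294) (nat_lit 0) (cs (nd (nat_lit 315) (nat_lit 0) (cs (nd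 (nat_lit 316) (nat_lit 0) (cs (lf (nat_lit 30) (nat_lit 250)) (lf (nat_lit 41) (nat_lit 249)))) (lf (nat_lit 40) (nat_lit 227)))) (lf (nat_lit 37) (nat_lit 206)))))))))))) (cs (nd (nat_lit 273) (nat_lit 0) (cs (lf (nat_lit 29) (nat_lit 206)) (rf (nat_lit 11)))) (nd (nat_lit 251) (nat_lit 0) (cs (lf (nat_lit 11) (nat_lit 249)) (rf (nat_lit 12)))))))))))) (rf (nat_lit 13))))) q4165 (by decide +kernel)
def q4370 : Q := Q.p (nat_lit 0x1c000050000000000000000000000000000000000000000000000) (nat_lit 0x4000038000600001a00006e0000b00002400000000000000000000000000000) (nat_lit 7)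
theorem c4370 : QOK q4370 := cut [q3313, q3503] ⟨c3313, c3503, trivial⟩ (nd (nat_lit 185) (nat_lit 0) (cs (rf (nat_lit 0)) (rf (nat_lit 1)))) q4370 (by decide +kernel)
def q4386 : Q := Q.p (nat_lit 0x2000000000070000040000000000000000000000000000000000000000000000) (nat_lit 0x8000080000f800038c001f00000500001400000000000000000000000000000000000) (nat_lit 9)
theorem c4386 : QOK q4386 := cut [q210, q231, q4378, q4384] ⟨c210, c231, c4378, c4384, trivial⟩ (nd (nat_lit 211) (nat_lit 0) (cs (rf (nat_lit 0)) (cs (rf (nat_lit 1)) (cs (nd (nat_lit 231) (nat_lit 0) (cs (lf (nat_lit 42) (nat_lit 186)) (rf (nat_lit 2)))) (nd (nat_lit 231) (nat_lit 0) (cs (lf (nat_lit 42) (nat_lit 186)) (rf (nat_lit 3)))))))) q4386 (by decide +kernel)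
def q4431 : Q := Q.p (nat_lit 0x38000040000000000000000000000000000000000000000000000) (nat_lit 0xe000470003bc000000000000000000000000000000000000000000000) (nat_lit 6)
theorem c4431 : QOK q4431 := cut [q156, q530, q791] ⟨c156, c530, c791, trivial⟩ (nd (nat_lit 206) (nat_lit 0) (cs (rf (nat_lit 0)) (cs (rf (nat_lit 1)) (rf (nat_lit 2))))) q4431 (by decide +kernel)
def q4557 : Q := Q.p (nat_lit 0x380000e0000000000000000000000000000000000000000000000) (nat_lit 0x8000020000060000000003f0003fc000fc0000d000000000000000000000000) (nat_lit 10)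
theorem c4557 : QOK q4557 := cut [q1939, q3738, q524, q4529, q4536, q4542, q4508, q4519, q4513] ⟨c1939, c3738, c524, c4529, c4536, c4542, c4508, c4519, c4513, trivial⟩ (nd (nat_lit 163) (nat_lit 0) (cs (rf (nat_lit 0)) (cs (nd (nat_lit 205) (nat_lit 0) (cs (lf (nat_lit 13) (nat_lit 183)) (nd (nat_lit 141) (nat_lit 0) (cs (lf (nat_lit 24) (nat_lit 119)) (nd (nat_lit 140) (nat_lit 0) (cs (lf (nat_lit 47) (nat_lit 118)) (nd (nat_lit 162) (nat_lit 0) (cs (lf (nat_lit 42) (nat_lit 140)) (rf (nat_lit 1)))))))))) (cs (nd (nat_lit 164) (nat_lit 0) (cs (rf (nat_lit 2)) (cs (nd (nat_lit 205) (nat_lit 0) (cs (lf (nat_lit 13) (nat_lit 183)) (nd (nat_lit 162) (nat_lit 0) (cs (lf (nat_lit 0) (nat_lit 161)) (rf (nat_lit 3)))))) (rf (nat_lit 4))))) (cs (nd (nat_lit 205) (nat_lit 0) (cs (lf (nat_lit 13) (nat_lit 183)) (nd (nat_lit 141) (nat_lit 0) (cs (lf (nat_lit 24) (nat_lit 119)) (nd (nat_lit 118) (nat_lit 0) (cs (lf (nat_lit 46) (nat_lit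 118)) (nd (nat_lit 142) (nat_lit 0) (cs (lf (nat_lit 35) (nat_lit 119)) (nd (nat_lit 164) (nat_lit 0) (cs (lf (nat_lit 30) (nat_lit 141)) (rf (nat_lit 5)))))))))))) (cs (nd (nat_lit 205) (nat_lit 0) (cs (lf (nat_lit 13) (nat_lit 183)) (nd (nat_lit 141) (nat_lit 0) (cs (lf (nat_lit 24) (nat_lit 119)) (nd (nat_lit 142) (nat_lit 0) (cs (lf (nat_lit 35) (nat_lit 119)) (nd (nat_lit 164) (nat_lit 0) (cs (lf (nat_lit 30) (nat_lit 141)) (nd (nat_lit 161) (nat_lit 0) (cs (lf (nat_lit 1) (nat_lit 161)) (rf (nat_lit 5)))))))))))) (nd (nat_lit 164) (nat_lit 0) (cs (rf (nat_lit 6)) (cs (rf (nat_lit 7)) (cs (rf (nat_lit 4)) (nd (nat_lit 161) (nat_lit 0) (cs (lf (nat_lit 1) (nat_lit 161)) (nd (nat_lit 142) (nat_lit 0) (cs (lf (nat_lit 36) (nat_lit 119)) (nd (nat_lit 205) (nat_lit 0) (cs (lf (nat_lit 13) (nat_lit 183)) (rf (nat_lit 8)))))))))))))))))) q4557 (by decide +kernel)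
def q4624 : Q := Q.p (nat_lit 0x2000000000030000040000000000000000000000000000000000000000000000) (nat_lit 0x48000100000fb8007cc003f38000400001000000000000000000000000000000000000) (nat_lit 11)
theorem c4624 : QOK q4624 := cut [q39, q188, q204, q4623] ⟨c39, c188, c204, c4623, trivial⟩ (nd (nat_lit 210) (nat_lit 0) (cs (rf (nat_lit 0)) (cs (rf (nat_lit 1)) (cs (rf (nat_lit 2)) (rf (nat_lit 3)))))) q4624 (by decide +kernel)
def q4868 : Q := Q.p (nat_lit 0x10000040000100000200000000000000000000000000000000000) (nat_lit 0x20000280000a000020000040000380000c000020000000000000000000) (nat_lit 7)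
theorem c4868 : QOK q4868 := cut [q2803] ⟨c2803, trivial⟩ (nd (nat_lit 142) (nat_lit 0) (cs (lf (nat_lit 47) (nat_lit 119)) (rf (nat_lit 0)))) q4868 (by decide +kernel)
def q4930 : Q := Q.p (nat_lit 0x10000040000100000000000000000000000000000000000000000) (nat_lit 0x80000600002e0003a0000280000e0000300000e0000380000a0000000000000) (nat_lit 11)
theorem c4930 : QOK q4930 := cut [q617, q2906, q4917, q4929] ⟨c617, c2906, c4917, c4929, trivial⟩ (nd (nat_lit 142) (nat_lit 0) (cs (rf (nat_lit 0)) (cs (rf (nat_lit 1)) (cs (rf (nat_lit 2)) (rf (nat_lit 3)))))) q4930 (by decide +kernel)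
def q4932 : Q := Q.p (nat_lit 0x2000000000010000040000000000000000000000000000000000000000000000) (nat_lit 0x80000200000c0000180000e00002c0003a0000380000a00000000000000000000000000000000000) (nat_lit 7)
theorem c4932 : QOK q4932 := cut [q500, q639, q640, q4788] ⟨c500, c639, c640, c4788, trivial⟩ (nd (nat_lit 230) (nat_lit 0) (cs (rf (nat_lit 0)) (cs (rf (nat_lit 1)) (cs (rf (nat_lit 2)) (rf (nat_lit 3)))))) q4932 (by decide +kernel)
def q5034 : Q := Q.p (nat_lit 0x2000000000018000040000000000000000000000000000000000000000000000) (nat_lit 0x180000f80001c000078000600001bc0001f0000700001800006000000000000000000000000) (nat_lit 11)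
theorem c5034 : QOK q5034 := cut [q1774, q1828, q1830, q5013, q5015, q3486, q5023, q5027, q3129, q3126, q4260, q5032] ⟨c1774, c1828, c1830, c5013, c5015, c3486, c5023, c5027, c3129, c3126, c4260, c5032, trivial⟩ (nd (nat_lit 229) (nat_lit 0) (cs (rf (nat_lit 0)) (cs (rf (nat_lit 1)) (cs (rf (nat_lit 2)) (cs (nd (nat_lit 163) (nat_lit 0) (cs (rf (nat_lit 3)) (cs (nd (nat_lit 164) (nat_lit 0) (cs (lf (nat_lit 36) (nat_lit 141)) (nd (nat_lit 230) (nat_lit 0) (cs (lf (nat_lit 47) (nat_lit 141)) (nd (nat_lit 252) (nat_lit 0) (cs (lf (nat_lit 29) (nat_lit 186)) (nd (nat_lit 274) (nat_lit 0) (cs (lf (nat_lit 42) (nat_lit 207)) (nd (nat_lit 273) (nat_lit 0) (cs (lf (nat_lit 41) (nat_lit 207)) (nd (nat_lit 271) (nat_lit 0) (cs (lf (nat_lit 13) (nat_lit 249)) (rf (nat_lit 4)))))))))))))) (cs (nd (nat_lit 185) (nat_lit 0) (cs (rf (nat_lit 5)) (nd (nat_lit 142) (nat_lit 0) (cs (lf (nat_lit 37) (nat_lit 141)) (nd (nat_lit 230) (nat_lit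 0) (cs (lf (nat_lit 42) (nat_lit 163)) (rf (nat_lit 6)))))))) (cs (rf (nat_lit 7)) (nd (nat_lit 185) (nat_lit 0) (cs (rf (nat_lit 8)) (rf (nat_lit 5))))))))) (cs (nd (nat_lit 164) (nat_lit 0) (cs (lf (nat_lit 36) (nat_lit 141)) (nd (nat_lit 251) (nat_lit 0) (cs (lf (nat_lit 39) (nat_lit 163)) (lf (nat_lit 33) (nat_lit 163)))))) (nd (nat_lit 185) (nat_lit 0) (cs (rf (nat_lit 9)) (cs (rf (nat_lit 10)) (rf (nat_lit 11))))))))))) q5034 (by decide +kernel)
def q5042 : Q := Q.p (nat_lit 0x2000000000018000040000000000000000000000000000000000000000000000) (nat_lit 0x1c0000f800060000020000180000e0000380000a000000000000000000000000) (nat_lit 8)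
theorem c5042 : QOK q5042 := cut [q524, q559, q5023, q5041] ⟨c524, c559, c5023, c5041, trivial⟩ (nd (nat_lit 164) (nat_lit 0) (cs (rf (nat_lit 0)) (cs (rf (nat_lit 1)) (cs (nd (nat_lit 230) (nat_lit 0) (cs (lf (nat_lit 28) (nat_lit 164)) (nd (nat_lit 229) (nat_lit 0) (cs (lf (nat_lit 41) (nat_lit 163)) (nd (nat_lit 163) (nat_lit 0) (cs (lf (nat_lit 47) (nat_lit 141)) (nd (nat_lit 185) (nat_lit 0) (cs (lf (nat_lit 42) (nat_lit 163)) (rf (nat_lit 2)))))))))) (rf (nat_lit 3)))))) q5042 (by decide +kernel)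
def q5240 : Q := Q.p (nat_lit 0x2000004000018000000000000000000000000000000000000000000000000000) (nat_lit 0x3e0000f80000f8003bc000070001fe0001fc0007c0001a00004000000000000000000000000) (nat_lit 14)
theorem c5240 : QOK q5240 := cut [q1051, q1832, q5056, q5059, q3988, q5064, q5067, q5069, q1079, q90, q5089, q5130, q5136, q5137, q5142, q5143, q5149, q5204, q5234, q1830, q5032] ⟨c1051, c1832, c5056, c5059, c3988, c5064, c5067, c5069, c1079, c90, c5089, c5130, c5136, c5137, c5142, c5143, c5149, c5204, c5234, c1830, c5032, trivial⟩ (nd (nat_lit 229) (nat_lit 0) (cs (nd (nat_lit 251) (nat_lit 0) (cs (rf (nat_lit 0)) (cs (rf (nat_lit 1)) (nd (nat_lit 185) (nat_lit 0) (cs (rf (nat_lit 2)) (rf (nat_lit 3))))))) (cs (nd (nat_lit 231) (nat_lit 0) (cs (rf (nat_lit 4)) (cs (nd (nat_lit 186) (nat_lit 0) (cs (lf (nat_lit 24) (nat_lit 164)) (nd (nat_lit 275) (nat_lit 0) (cs (lf (nat_lit 42) (nat_lit 208)) (rf (nat_lit 5)))))) (nd (nat_lit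 228) (nat_lit 0) (cs (nd (nat_lit 205) (nat_lit 0) (cs (lf (nat_lit 1) (nat_lit 205)) (rf (nat_lit 6)))) (cs (nd (nat_lit 227) (nat_lit 0) (cs (lf (nat_lit 12) (nat_lit 204)) (rf (nat_lit 7)))) (nd (nat_lit 206) (nat_lit 0) (cs (rf (nat_lit 8)) (nd (nat_lit 250) (nat_lit 0) (cs (lf (nat_lit 11) (nat_lit 227)) (nd (nat_lit 275) (nat_lit 0) (cs (lf (nat_lit 42) (nat_lit 208)) (nd (nat_lit 272) (nat_lit 0) (cs (lf (nat_lit 30) (nat_lit 206)) (nd (nat_lit 273) (nat_lit 0) (cs (lf (nat_lit 29) (nat_lit 206)) (nd (nat_lit 186) (nat_lit 0) (cs (lf (nat_lit 24) (nat_lit 164)) (lf (nat_lit 31) (nat_lit 185)))))))))))))))))))) (cs (nd (nat_lit 251) (nat_lit 0) (cs (rf (nat_lit 0)) (cs (rf (nat_lit 1)) (nd (nat_lit 185) (nat_lit 0) (cs (rf (nat_lit 2)) (cs (nd (nat_lit 186) (nat_lit 0) (cs (rf (nat_lit 9)) (nd (nat_lit 184) (nat_lit 0) (cs (lf (nat_lit 47) (nat_lit 162)) (nd (nat_lit 250) (nat_lit 0) (cs (lf (nat_lit 41) (nat_lit 184))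 (nd (nat_lit 183) (nat_lit 0) (cs (lf (nat_lit 0) (nat_lit 182)) (nd (nat_lit 248) (nat_lit 0) (cs (lf (nat_lit 13) (nat_lit 226)) (nd (nat_lit 160) (nat_lit 0) (cs (lf (nat_lit 22) (nat_lit 160)) (nd (nat_lit 231) (nat_lit 0) (cs (lf (nat_lit 6) (nat_lit 228)) (nd (nat_lit 205) (nat_lit 0) (cs (lf (nat_lit 1) (nat_lit 205)) (lf (nat_lit 11) (nat_lit 182)))))))))))))))))) (nd (nat_lit 250) (nat_lit 0) (cs (lf (nat_lit 41) (nat_lit 184)) (rf (nat_lit 10)))))))))) (cs (nd (nat_lit 251) (nat_lit 0) (cs (rf (nat_lit 0)) (cs (rf (nat_lit 1)) (nd (nat_lit 185) (nat_lit 0) (cs (rf (nat_lit 2)) (cs (rf (nat_lit 10)) (nd (nat_lit 186) (nat_lit 0) (cs (rf (nat_lit 9)) (nd (nat_lit 250) (nat_lit 0) (cs (lf (nat_lit 41) (nat_lit 184)) (nd (nat_lit 248) (nat_lit 0) (cs (lf (nat_lit 13) (nat_lit 226)) (nd (nat_lit 184) (nat_lit 0) (cs (lf (nat_lit 47) (nat_lit 162)) (nd (nat_lit 183) (nat_lit 0) (cs (lf (nat_lit 0) (nat_lit 182)) (nd (nat_lit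 161) (nat_lit 0) (cs (lf (nat_lit 23) (nat_lit 160)) (nd (nat_lit 205) (nat_lit 0) (cs (lf (nat_lit 11) (nat_lit 182)) (nd (nat_lit 228) (nat_lit 0) (cs (lf (nat_lit 27) (nat_lit 161)) (lf (nat_lit 44) (nat_lit 161)))))))))))))))))))))))) (cs (nd (nat_lit 185) (nat_lit 0) (cs (rf (nat_lit 11)) (cs (nd (nat_lit 186) (nat_lit 0) (cs (rf (nat_lit 9)) (cs (rf (nat_lit 12)) (rf (nat_lit 13))))) (cs (rf (nat_lit 14)) (cs (nd (nat_lit 163) (nat_lit 0) (cs (lf (nat_lit 24) (nat_lit 141)) (nd (nat_lit 140) (nat_lit 0) (cs (lf (nat_lit 46) (nat_lit 140)) (nd (nat_lit 164) (nat_lit 0) (cs (lf (nat_lit 35) (nat_lit 141)) (nd (nat_lit 231) (nat_lit 0) (cs (lf (nat_lit 25) (nat_lit 164)) (rf (nat_lit 15)))))))))) (nd (nat_lit 163) (nat_lit 0) (cs (lf (nat_lit 24) (nat_lit 141)) (rf (nat_lit 16))))))))) (cs (rf (nat_lit 17)) (cs (rf (nat_lit 18)) (nd (nat_lit 186) (nat_lit 0) (cs (rf (nat_lit 19)) (cs (rf (nat_lit 13)) (nd (nat_lit 185)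 (nat_lit 0) (cs (rf (nat_lit 20)) (cs (rf (nat_lit 12)) (nd (nat_lit 251) (nat_lit 0) (cs (lf (nat_lit 30) (nat_lit 185)) (nd (nat_lit 250) (nat_lit 0) (cs (lf (nat_lit 41) (nat_lit 184)) (nd (nat_lit 163) (nat_lit 0) (cs (lf (nat_lit 24) (nat_lit 141)) (lf (nat_lit 40) (nat_lit 162)))))))))))))))))))))) q5240 (by decide +kernel)
def q5317 : Q := Q.p (nat_lit 0x2000006000018000000000000000000000000000000000000000000000000000) (nat_lit 0x3c0001f80001f00001c000040000300000c0000300000000000000000000000000000000000) (nat_lit 10)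
theorem c5317 : QOK q5317 := cut [q937, q1051, q735, q5089, q5305, q5313] ⟨c937, c1051, c735, c5089, c5305, c5313, trivial⟩ (nd (nat_lit 251) (nat_lit 0) (cs (rf (nat_lit 0)) (cs (rf (nat_lit 1)) (cs (nd (nat_lit 185) (nat_lit 0) (cs (rf (nat_lit 2)) (cs (rf (nat_lit 3)) (nd (nat_lit 250) (nat_lit 0) (cs (lf (nat_lit 41) (nat_lit 184)) (nd (nat_lit 249) (nat_lit 0) (cs (lf (nat_lit 12) (nat_lit 226)) (nd (nat_lit 162) (nat_lit 0) (cs (lf (nat_lit 46) (nat_lit 162)) (nd (nat_lit 252) (nat_lit 0) (cs (lf (nat_lit 29) (nat_lit 185)) (nd (nat_lit 227) (nat_lit 0) (cs (lf (nat_lit 23) (nat_lit 226)) (lf (nat_lit 1) (nat_lit 227))))))))))))))) (cs (nd (nat_lit 273) (nat_lit 0) (cs (lf (nat_lit 30) (nat_lit 207)) (nd (nat_lit 274) (nat_lit 0) (cs (lf (nat_lit 29) (nat_lit 207)) (nd (nat_lit 184) (nat_lit 0) (cs (nd (nat_lit 272) (nat_lit 0) (cs (lf (nat_lit 41) (nat_lit 206)) (nd (nat_lit 252) (nat_lit 0) (cs (lf (nat_lit 12) (nat_lit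 249)) (nd (nat_lit 227) (nat_lit 0) (cs (lf (nat_lit 1) (nat_lit 227)) (rf (nat_lit 4)))))))) (lf (nat_lit 46) (nat_lit 184)))))))) (nd (nat_lit 273) (nat_lit 0) (cs (lf (nat_lit 30) (nat_lit 207)) (nd (nat_lit 274) (nat_lit 0) (cs (lf (nat_lit 29) (nat_lit 207)) (nd (nat_lit 185) (nat_lit 0) (cs (lf (nat_lit 43) (nat_lit 185)) (rf (nat_lit 5))))))))))))) q5317 (by decide +kernel)
def q5362 : Q := Q.p (nat_lit 0x2000004000018000000000000000000000000000000000000000000000000000) (nat_lit 0x200000c0000380000780001e0001a000000000060000180000e00003800008000000000000000000000000) (nat_lit 9)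
theorem c5362 : QOK q5362 := cut [q3818, q5355, q1823, q3189, q3478, q5040] ⟨c3818, c5355, c1823, c3189, c3478, c5040, trivial⟩ (nd (nat_lit 186) (nat_lit 0) (cs (rf (nat_lit 0)) (cs (rf (nat_lit 1)) (cs (nd (nat_lit 252) (nat_lit 0) (cs (rf (nat_lit 2)) (cs (rf (nat_lit 3)) (nd (nat_lit 273) (nat_lit 0) (cs (lf (nat_lit 40) (nat_lit 185)) (rf (nat_lit 4))))))) (nd (nat_lit 251) (nat_lit 0) (cs (nd (nat_lit 229) (nat_lit 0) (cs (lf (nat_lit 30) (nat_lit 185)) (lf (nat_lit 36) (nat_lit 163)))) (cs (nd (nat_lit 252) (nat_lit 0) (cs (lf (nat_lit 41) (nat_lit 185)) (rf (nat_lit 2)))) (nd (nat_lit 164) (nat_lit 0) (cs (lf (nat_lit 40) (nat_lit 163)) (rf (nat_lit 5))))))))))) q5362 (by decide +kernel)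
def q5474 : Q := Q.p (nat_lit 0x2800002000018000000000000000000000000000000000000000000000000000) (nat_lit 0x1780007c0001380000000004000050000000000000000000000000000000000000000000000) (nat_lit 9)
theorem c5474 : QOK q5474 := cut [q5473] ⟨c5473, trivial⟩ (nd (nat_lit 273) (nat_lit 0) (cs (lf (nat_lit 35) (nat_lit 185)) (rf (nat_lit 0)))) q5474 (by decide +kernel)
def q5483 : Q := Q.p (nat_lit 0x2800002000018000000000000000000000000000000000000000000000000000) (nat_lit 0x40001dc0001600005c00000000060000180000400000000000000000000000000000000000) (nat_lit 6)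
theorem c5483 : QOK q5483 := cut [q5476, q5479, q5482] ⟨c5476, c5479, c5482, trivial⟩ (nd (nat_lit 252) (nat_lit 0) (cs (rf (nat_lit 0)) (cs (rf (nat_lit 1)) (rf (nat_lit 2))))) q5483 (by decide +kernel)
def q5613 : Q := Q.p (nat_lit 0x300000400001c000000000000000000000000000000000000000000000000000) (nat_lit 0xb80007e0007b80000e0003be000200001a0000080000200000000000000000000000000000000000) (nat_lit 13)
theorem c5613 : QOK q5613 := cut [q4015, q4029, q4030, q4272] ⟨c4015, c4029, c4030, c4272, trivial⟩ (nd (nat_lit 228) (nat_lit 0) (cs (rf (nat_lit 0)) (cs (rf (nat_lit 1)) (cs (rf (nat_lit 2)) (nd (nat_lit 209) (nat_lit 0) (cs (lf (nat_lit 11) (nat_lit 205)) (nd (nat_lit 187) (nat_lit 0) (cs (lf (nat_lit 17) (nat_lit 184)) (nd (nat_lit 231) (nat_lit 0) (cs (lf (nat_lit 5) (nat_lit 206)) (rf (nat_lit 3)))))))))))) q5613 (by decide +kernel)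
def q5699 : Q := Q.p (nat_lit 0x2000000000038000040000000000000000000000000000000000000000000000) (nat_lit 0x1f00001c0007b0001c0000eb8000000000000000000000000000000000000000000000) (nat_lit 9)
theorem c5699 : QOK q5699 := cut [q39, q2456, q5698] ⟨c39, c2456, c5698, trivial⟩ (nd (nat_lit 210) (nat_lit 0) (cs (rf (nat_lit 0)) (cs (rf (nat_lit 1)) (rf (nat_lit 2))))) q5699 (by decide +kernel)
def q5803 : Q := Q.p (nat_lit 0x38000060000000000600000000000000000000000000000000000) (nat_lit 0x300000c0000080000770000980003700000000000000000000000000000) (nat_lit 9)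
theorem c5803 : QOK q5803 := cut [q5718, q5802] ⟨c5718, c5802, trivial⟩ (nd (nat_lit 143) (nat_lit 0) (cs (rf (nat_lit 0)) (rf (nat_lit 1)))) q5803 (by decide +kernel)
def q5820 : Q := Q.p (nat_lit 0x38000060000080000000000000000000000000000000000000000) (nat_lit 0x320000c0000000000140003e00003800000000000000000000000000000) (nat_lit 8)
theorem c5820 : QOK q5820 := cut [q5818] ⟨c5818, trivial⟩ (nd (nat_lit 210) (nat_lit 0) (cs (lf (nat_lit 18) (nat_lit 185)) (nd (nat_lit 232) (nat_lit 0) (cs (lf (nat_lit 5) (nat_lit 207)) (rf (nat_lit 0)))))) q5820 (by decide +kernel)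
def q5884 : Q := Q.p (nat_lit 0x2000000000004000010000040000200000000000000000000000000000000000) (nat_lit 0x20000380001e00003000000000000000080000000000000000000000000000000000000000) (nat_lit 6)
theorem c5884 : QOK q5884 := cut [q5883] ⟨c5883, trivial⟩ (nd (nat_lit 228) (nat_lit 0) (cs (lf (nat_lit 34) (nat_lit 140)) (rf (nat_lit 0)))) q5884 (by decide +kernel)
def q5913 : Q := Q.p (nat_lit 0x2000000000018000040000000000000000000000000000000000000000000000) (nat_lit 0x200000c00003c0000f80001e0003ff001e780009e000240000000000000000000000000000000000000000) (nat_lit 13)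
theorem c5913 : QOK q5913 := cut [q436, q3481, q4417, q1156, q3889, q4007, q367, q3480, q4423, q4030, q3368, q4011, q3356] ⟨c436, c3481, c4417, c1156, c3889, c4007, c367, c3480, c4423, c4030, c3368, c4011, c3356, trivial⟩ (nd (nat_lit 230) (nat_lit 0) (cs (rf (nat_lit 0)) (cs (rf (nat_lit 1)) (cs (rf (nat_lit 2)) (nd (nat_lit 206) (nat_lit 0) (cs (rf (nat_lit 3)) (cs (rf (nat_lit 4)) (cs (rf (nat_lit 5)) (nd (nat_lit 252) (nat_lit 0) (cs (rf (nat_lit 6)) (cs (rf (nat_lit 7)) (cs (rf (nat_lit 8)) (cs (nd (nat_lit 187) (nat_lit 0) (cs (lf (nat_lit 35) (nat_lit 164)) (nd (nat_lit 209) (nat_lit 0) (cs (lf (nat_lit 30) (nat_lit 186)) (nd (nat_lit 183) (nat_lit 0) (cs (lf (nat_lit 22) (nat_lit 183)) (nd (nat_lit 232) (nat_lit 0) (cs (lf (nat_lit 4) (nat_lit 206)) (nd (nat_lit 227) (nat_lit 0) (cs (lf (nat_lit 10) (nat_lit 205)) (nd (nat_lit 210) (nat_lit 0) (cs (lf (nat_lit 5) (nat_lit 207)) (nd (nat_lit 211) (nat_lit 0) (cs (lf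 (nat_lit 18) (nat_lit 186)) (lf (nat_lit 11) (nat_lit 207)))))))))))))))) (nd (nat_lit 251) (nat_lit 0) (cs (lf (nat_lit 41) (nat_lit 185)) (nd (nat_lit 228) (nat_lit 0) (cs (rf (nat_lit 9)) (cs (nd (nat_lit 231) (nat_lit 0) (cs (rf (nat_lit 10)) (cs (rf (nat_lit 11)) (nd (nat_lit 165) (nat_lit 0) (cs (lf (nat_lit 34) (nat_lit 164)) (nd (nat_lit 250) (nat_lit 0) (cs (lf (nat_lit 12) (nat_lit 227)) (nd (nat_lit 272) (nat_lit 0) (cs (lf (nat_lit 11) (nat_lit 249)) (nd (nat_lit 229) (nat_lit 0) (cs (lf (nat_lit 30) (nat_lit 206)) (rf (nat_lit 12))))))))))))) (cs (nd (nat_lit 227) (nat_lit 0) (cs (lf (nat_lit 6) (nat_lit 205)) (lf (nat_lit 21) (nat_lit 227)))) (nd (nat_lit 227) (nat_lit 0) (cs (lf (nat_lit 2) (nat_lit 227)) (lf (nat_lit 21) (nat_lit 227))))))))))))))))))))))) q5913 (by decide +kernel)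
def q5963 : Q := Q.p (nat_lit 0x2000000000018000060000000000000000000000000000000000000000000000) (nat_lit 0x200000f80001f0001fc0000780009c000278000180000600000000000000000000000000000) (nat_lit 12)
theorem c5963 : QOK q5963 := cut [q3542, q3543, q4768, q5938, q2312, q3507, q5115, q5059, q5949, q5952, q3564, q5955] ⟨c3542, c3543, c4768, c5938, c2312, c3507, c5115, c5059, c5949, c5952, c3564, c5955, trivial⟩ (nd (nat_lit 184) (nat_lit 0) (cs (rf (nat_lit 0)) (cs (rf (nat_lit 1)) (cs (rf (nat_lit 2)) (cs (nd (nat_lit 230) (nat_lit 0) (cs (nd (nat_lit 229) (nat_lit 0) (cs (rf (nat_lit 3)) (cs (nd (nat_lit 206) (nat_lit 0) (cs (rf (nat_lit 4)) (cs (rf (nat_lit 5)) (nd (nat_lit 162) (nat_lit 0) (cs (lf (nat_lit 24) (nat_lit 140)) (nd (nat_lit 231) (nat_lit 0) (cs (lf (nat_lit 18) (nat_lit 206)) (nd (nat_lit 161) (nat_lit 0) (cs (lf (nat_lit 18) (nat_lit 161)) (nd (nat_lit 159) (nat_lit 0) (cs (lf (nat_lit 1) (nat_lit 159)) (nd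 (nat_lit 275) (nat_lit 0) (cs (lf (nat_lit 42) (nat_lit 208)) (rf (nat_lit 6))))))))))))))) (nd (nat_lit 251) (nat_lit 0) (cs (lf (nat_lit 30) (nat_lit 185)) (rf (nat_lit 7))))))) (cs (nd (nat_lit 252) (nat_lit 0) (cs (lf (nat_lit 42) (nat_lit 185)) (nd (nat_lit 165) (nat_lit 0) (cs (lf (nat_lit 34) (nat_lit 164)) (rf (nat_lit 8)))))) (rf (nat_lit 9))))) (cs (nd (nat_lit 206) (nat_lit 0) (cs (rf (nat_lit 5)) (cs (rf (nat_lit 10)) (nd (nat_lit 182) (nat_lit 0) (cs (lf (nat_lit 1) (nat_lit 182)) (nd (nat_lit 205) (nat_lit 0) (cs (lf (nat_lit 12) (nat_lit 182)) (rf (nat_lit 11))))))))) (nd (nat_lit 183) (nat_lit 0) (cs (lf (nat_lit 0) (nat_lit 182)) (nd (nat_lit 160) (nat_lit 0) (cs (lf (nat_lit 22) (nat_lit 160)) (nd (nat_lit 205) (nat_lit 0) (cs (lf (nat_lit 11) (nat_lit 182)) (nd (nat_lit 206) (nat_lit 0) (cs (lf (nat_lit 17) (nat_lit 183)) (rf (nat_lit 11)))))))))))))))) q5963 (by decide +kernel)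
def q5982 : Q := Q.p (nat_lit 0x2000000000018000060000000000000000000000000000000000000000000000) (nat_lit 0xc8000120000dc0000780009c0000f8000f80000e00000800000000000000000000000) (nat_lit 11)
theorem c5982 : QOK q5982 := cut [q5952, q3543, q4768, q5134, q2312, q3507, q3734, q5856, q5964, q5968, q3509] ⟨c5952, c3543, c4768, c5134, c2312, c3507, c3734, c5856, c5964, c5968, c3509, trivial⟩ (nd (nat_lit 230) (nat_lit 0) (cs (rf (nat_lit 0)) (nd (nat_lit 184) (nat_lit 0) (cs (rf (nat_lit 1)) (cs (rf (nat_lit 2)) (cs (rf (nat_lit 3)) (cs (nd (nat_lit 206) (nat_lit 0) (cs (rf (nat_lit 4)) (cs (rf (nat_lit 5)) (nd (nat_lit 162) (nat_lit 0) (cs (rf (nat_lit 6)) (cs (rf (nat_lit 7)) (nd (nat_lit 141) (nat_lit 0) (cs (lf (nat_lit 25) (nat_lit 141)) (rf (nat_lit 8)))))))))) (cs (nd (nat_lit 141) (nat_lit 0) (cs (lf (nat_lit 25) (nat_lit 141)) (nd (nat_lit 183) (nat_lit 0) (cs (lf (nat_lit 0) (nat_lit 182)) (nd (nat_lit 161) (nat_lit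 0) (cs (lf (nat_lit 23) (nat_lit 160)) (nd (nat_lit 162) (nat_lit 0) (cs (lf (nat_lit 18) (nat_lit 161)) (nd (nat_lit 140) (nat_lit 0) (cs (lf (nat_lit 24) (nat_lit 118)) (nd (nat_lit 142) (nat_lit 0) (cs (lf (nat_lit 6) (nat_lit 139)) (nd (nat_lit 206) (nat_lit 0) (cs (lf (nat_lit 35) (nat_lit 118)) (rf (nat_lit 9)))))))))))))))) (nd (nat_lit 183) (nat_lit 0) (cs (lf (nat_lit 0) (nat_lit 182)) (nd (nat_lit 141) (nat_lit 0) (cs (lf (nat_lit 25) (nat_lit 141)) (nd (nat_lit 160) (nat_lit 0) (cs (lf (nat_lit 22) (nat_lit 160)) (nd (nat_lit 205) (nat_lit 0) (cs (lf (nat_lit 11) (nat_lit 182)) (nd (nat_lit 206) (nat_lit 0) (cs (lf (nat_lit 5) (nat_lit 205)) (rf (nat_lit 10)))))))))))))))))))) q5982 (by decide +kernel)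
def q6104 : Q := Q.p (nat_lit 0x3000004000018000050000000000000000000000000000000000000000000000) (nat_lit 0x300000f00003c000600000200000c0000000000000000000000000000000000000000) (nat_lit 8)
theorem c6104 : QOK q6104 := cut [q5949] ⟨c5949, trivial⟩ (nd (nat_lit 185) (nat_lit 0) (cs (lf (nat_lit 47) (nat_lit 163)) (nd (nat_lit 209) (nat_lit 0) (cs (lf (nat_lit 18) (nat_lit 184)) (rf (nat_lit 0)))))) q6104 (by decide +kernel)
def q6130 : Q := Q.p (nat_lit 0x4000010000040000100000000000000000000000000000000000000000) (nat_lit 0x800002000000000eb8001ee0007bc0000000000000000000000000000000000) (nat_lit 10)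
theorem c6130 : QOK q6130 := cut [q456, q490, q6121, q6126] ⟨c456, c490, c6121, c6126, trivial⟩ (nd (nat_lit 165) (nat_lit 0) (cs (lf (nat_lit 35) (nat_lit 142)) (nd (nat_lit 184) (nat_lit 0) (cs (rf (nat_lit 0)) (cs (rf (nat_lit 1)) (cs (nd (nat_lit 229) (nat_lit 0) (cs (lf (nat_lit 41) (nat_lit 163)) (nd (nat_lit 163) (nat_lit 0) (cs (lf (nat_lit 47) (nat_lit 141)) (rf (nat_lit 2)))))) (nd (nat_lit 229) (nat_lit 0) (cs (lf (nat_lit 41) (nat_lit 163)) (nd (nat_lit 163) (nat_lit 0) (cs (lf (nat_lit 47) (nat_lit 141)) (rf (nat_lit 3)))))))))))) q6130 (by decide +kernel)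
def q6170 : Q := Q.p (nat_lit 0x2000000000010000040000000000000000000000000000000000000000000000) (nat_lit 0x180000e0000280000a0000fe0003f8000f80000a000000000000000000000000) (nat_lit 12)
theorem c6170 : QOK q6170 := cut [q517, q614, q628, q631, q636, q6169] ⟨c517, c614, c628, c631, c636, c6169, trivial⟩ (nd (nat_lit 164) (nat_lit 0) (cs (rf (nat_lit 0)) (cs (rf (nat_lit 1)) (cs (rf (nat_lit 2)) (cs (rf (nat_lit 3)) (cs (rf (nat_lit 4)) (rf (nat_lit 5)))))))) q6170 (by decide +kernel)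
def q6203 : Q := Q.p (nat_lit 0x18000020000000000000000000000000000000000000000000000) (nat_lit 0x500001c00007c000200000180007f0001f00001c00007000018000040000000000000) (nat_lit 10)
theorem c6203 : QOK q6203 := cut [q1621, q6182, q6201, q6202] ⟨c1621, c6182, c6201, c6202, trivial⟩ (nd (nat_lit 163) (nat_lit 0) (cs (rf (nat_lit 0)) (cs (rf (nat_lit 1)) (cs (rf (nat_lit 2)) (rf (nat_lit 3)))))) q6203 (by decide +kernel)
def q6279 : Q := Q.p (nat_lit 0x2000000000018000020000000000000000000000000000000000000000000000) (nat_lit 0x80000300001fe0001f0001fc000220003dc000f60001f80007e00008000000000000000000000000) (nat_lit 13)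
theorem c6279 : QOK q6279 := cut [q516, q3175, q3500, q524, q3181, q454, q6217, q434, q6227, q29, q6231, q2065, q3764, q3765, q6234, q3184, q6239, q6257, q6259, q6264, q2066, q1298, q6269, q6271, q25, q6275, q3991] ⟨c516, c3175, c3500, c524, c3181, c454, c6217, c434, c6227, c29, c6231, c2065, c3764, c3765, c6234, c3184, c6239, c6257, c6259, c6264, c2066, c1298, c6269, c6271, c25, c6275, c3991, trivial⟩ (nd (nat_lit 252) (nat_lit 0) (cs (nd (nat_lit 186) (nat_lit 0) (cs (rf (nat_lit 0)) (cs (nd (nat_lit 184) (nat_lit 0) (cs (rf (nat_lit 1)) (cs (rf (nat_lit 2)) (nd (nat_lit 164) (nat_lit 0) (cs (rf (nat_lit 3)) (cs (nd (nat_lit 251) (nat_lit 0) (cs (rf (nat_lit 4)) (lf (nat_lit 31) (nat_lit 163)))) (nd (nat_lit 165) (nat_lit 0) (cs (rf (nat_lit 5)) (nd (nat_lit 142) (nat_lit 0) (cs (lf (nat_lit 36) (nat_lit 119)) (nd (nat_lit 209) (nat_lit 0) (cs (lf (nat_lit 29) (nat_lit 142)) (nd (nat_lit 143) (nat_lit 0) (cs (lf (nat_lit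 35) (nat_lit 120)) (nd (nat_lit 141) (nat_lit 0) (cs (lf (nat_lit 47) (nat_lit 119)) (nd (nat_lit 140) (nat_lit 0) (cs (lf (nat_lit 0) (nat_lit 139)) (nd (nat_lit 118) (nat_lit 0) (cs (lf (nat_lit 23) (nat_lit 117)) (lf (nat_lit 26) (nat_lit 118)))))))))))))))))))))) (cs (nd (nat_lit 230) (nat_lit 0) (cs (lf (nat_lit 29) (nat_lit 186)) (nd (nat_lit 251) (nat_lit 0) (cs (lf (nat_lit 41) (nat_lit 185)) (nd (nat_lit 187) (nat_lit 0) (cs (lf (nat_lit 35) (nat_lit 164)) (nd (nat_lit 188) (nat_lit 0) (cs (lf (nat_lit 6) (nat_lit 185)) (nd (nat_lit 166) (nat_lit 0) (cs (lf (nat_lit 17) (nat_lit 163)) (nd (nat_lit 209) (nat_lit 0) (cs (lf (nat_lit 31) (nat_lit 165)) (nd (nat_lit 122) (nat_lit 0) (cs (lf (nat_lit 37) (nat_lit 121)) (rf (nat_lit 6)))))))))))))))) (cs (nd (nat_lit 230) (nat_lit 0) (cs (lf (nat_lit 29) (nat_lit 186)) (rf (nat_lit 7)))) (cs (rf (nat_lit 8)) (nd (nat_lit 230) (nat_lit 0) (cs (lf (nat_lit 29) (nat_lit 186))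 (rf (nat_lit 9)))))))))) (cs (nd (nat_lit 251) (nat_lit 0) (cs (rf (nat_lit 10)) (cs (nd (nat_lit 250) (nat_lit 0) (cs (rf (nat_lit 11)) (cs (rf (nat_lit 12)) (cs (rf (nat_lit 13)) (nd (nat_lit 275) (nat_lit 0) (cs (lf (nat_lit 5) (nat_lit 250)) (nd (nat_lit 227) (nat_lit 0) (cs (lf (nat_lit 22) (nat_lit 227)) (nd (nat_lit 271) (nat_lit 0) (cs (lf (nat_lit 10) (nat_lit 249)) (rf (nat_lit 14)))))))))))) (cs (nd (nat_lit 250) (nat_lit 0) (cs (rf (nat_lit 11)) (cs (rf (nat_lit 15)) (nd (nat_lit 275) (nat_lit 0) (cs (lf (nat_lit 5) (nat_lit 250)) (nd (nat_lit 227) (nat_lit 0) (cs (lf (nat_lit 22) (nat_lit 227)) (nd (nat_lit 231) (nat_lit 0) (cs (lf (nat_lit 17) (nat_lit 228)) (nd (nat_lit 186) (nat_lit 0) (cs (lf (nat_lit 45) (nat_lit 186)) (rf (nat_lit 16))))))))))))) (rf (nat_lit 17)))))) (cs (nd (nat_lit 230) (nat_lit 0) (cs (lf (nat_lit 42) (nat_lit 185)) (rf (nat_lit 18)))) (cs (nd (nat_lit 251) (nat_lit 0) (cs (rf (nat_lit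 17)) (cs (nd (nat_lit 250) (nat_lit 0) (cs (rf (nat_lit 15)) (nd (nat_lit 275) (nat_lit 0) (cs (lf (nat_lit 5) (nat_lit 250)) (rf (nat_lit 19)))))) (cs (nd (nat_lit 275) (nat_lit 0) (cs (rf (nat_lit 20)) (nd (nat_lit 230) (nat_lit 0) (cs (lf (nat_lit 42) (nat_lit 185)) (rf (nat_lit 21)))))) (rf (nat_lit 22)))))) (cs (nd (nat_lit 251) (nat_lit 0) (cs (rf (nat_lit 10)) (cs (rf (nat_lit 22)) (cs (nd (nat_lit 230) (nat_lit 0) (cs (lf (nat_lit 42) (nat_lit 185)) (rf (nat_lit 23)))) (nd (nat_lit 186) (nat_lit 0) (cs (rf (nat_lit 8)) (cs (rf (nat_lit 16)) (cs (nd (nat_lit 230) (nat_lit 0) (cs (lf (nat_lit 41) (nat_lit 185)) (rf (nat_lit 24)))) (rf (nat_lit 25)))))))))) (nd (nat_lit 230) (nat_lit 0) (cs (lf (nat_lit 42) (nat_lit 185)) (rf (nat_lit 26)))))))))) q6279 (by decide +kernel)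
def q6308 : Q := Q.p (nat_lit 0x18000020000080000000000000000000000000000000000000000) (nat_lit 0x100000700001c00003c000000001df000778003df0000000000000000000000000000000000) (nat_lit 13)
theorem c6308 : QOK q6308 := cut [q1723, q6181, q6185, q6307] ⟨c1723, c6181, c6185, c6307, trivial⟩ (nd (nat_lit 229) (nat_lit 0) (cs (rf (nat_lit 0)) (cs (rf (nat_lit 1)) (cs (rf (nat_lit 2)) (rf (nat_lit 3)))))) q6308 (by decide +kernel)
def q6373 : Q := Q.p (nat_lit 0x18000020000080000000000000000000000000000000000000000) (nat_lit 0x300000f00003c000230007df000f78003bf0000e00001000000000000000000000000) (nat_lit 14)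
theorem c6373 : QOK q6373 := cut [q3743, q6340, q6285, q6304, q6336, q6339, q6290, q5551, q6347, q3721, q6360] ⟨c3743, c6340, c6285, c6304, c6336, c6339, c6290, c5551, c6347, c3721, c6360, trivial⟩ (nd (nat_lit 162) (nat_lit 0) (cs (rf (nat_lit 0)) (cs (rf (nat_lit 1)) (cs (nd (nat_lit 140) (nat_lit 0) (cs (lf (nat_lit 42) (nat_lit 140)) (nd (nat_lit 118) (nat_lit 0) (cs (lf (nat_lit 24) (nat_lit 96)) (lf (nat_lit 45) (nat_lit 118)))))) (nd (nat_lit 161) (nat_lit 0) (cs (rf (nat_lit 2)) (cs (rf (nat_lit 3)) (cs (rf (nat_lit 4)) (cs (rf (nat_lit 5)) (nd (nat_lit 164) (nat_lit 0) (cs (rf (nat_lit 6)) (cs (nd (nat_lit 138) (nat_lit 0) (cs (lf (nat_lit 22) (nat_lit 138)) (nd (nat_lit 186) (nat_lit 0) (cs (lf (nat_lit 5) (nat_lit 161)) (nd (nat_lit 119) (nat_lit 0) (cs (lf (nat_lit 25) (nat_lit 119)) (rf (nat_lit 7)))))))) (cs (nd (nat_lit 138) (nat_lit 0) (cs (lf (nat_lit 22) (nat_lit 138)) (nd (nat_lit 183) (nat_lit 0) (cs (lf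 (nat_lit 11) (nat_lit 160)) (nd (nat_lit 165) (nat_lit 0) (cs (lf (nat_lit 10) (nat_lit 161)) (nd (nat_lit 188) (nat_lit 0) (cs (lf (nat_lit 4) (nat_lit 162)) (nd (nat_lit 144) (nat_lit 0) (cs (lf (nat_lit 16) (nat_lit 140)) (rf (nat_lit 8)))))))))))) (cs (nd (nat_lit 182) (nat_lit 0) (cs (lf (nat_lit 10) (nat_lit 160)) (nd (nat_lit 186) (nat_lit 0) (cs (lf (nat_lit 5) (nat_lit 161)) (nd (nat_lit 119) (nat_lit 0) (cs (lf (nat_lit 25) (nat_lit 119)) (nd (nat_lit 139) (nat_lit 0) (cs (lf (nat_lit 23) (nat_lit 138)) (nd (nat_lit 165) (nat_lit 0) (cs (lf (nat_lit 22) (nat_lit 139)) (rf (nat_lit 9)))))))))))) (nd (nat_lit 138) (nat_lit 0) (cs (lf (nat_lit 22) (nat_lit 138)) (nd (nat_lit 183) (nat_lit 0) (cs (lf (nat_lit 11) (nat_lit 160)) (nd (nat_lit 165) (nat_lit 0) (cs (lf (nat_lit 10) (nat_lit 161)) (nd (nat_lit 144) (nat_lit 0) (cs (lf (nat_lit 16) (nat_lit 140)) (nd (nat_lit 166) (nat_lit 0) (cs (lf (nat_lit 17) (nat_lit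 141)) (nd (nat_lit 140) (nat_lit 0) (cs (nd (nat_lit 205) (nat_lit 0) (cs (lf (nat_lit 30) (nat_lit 139)) (nd (nat_lit 96) (nat_lit 0) (cs (rf (nat_lit 10)) (lf (nat_lit 37) (nat_lit 95)))))) (lf (nat_lit 22) (nat_lit 140)))))))))))))))))))))))))))) q6373 (by decide +kernel)
def q6465 : Q := Q.p (nat_lit 0x18000020000080000000000000000000000000000000000000000) (nat_lit 0x300000f00003c00023000fdf003f7800fef001fa0001c000070000000000000000000) (nat_lit 15)
theorem c6465 : QOK q6465 := cut [q6384, q6340, q3802, q6386, q6395, q2268, q3039, q6360, q6414, q6418, q6422, q6430, q2994, q1643, q1649] ⟨c6384, c6340, c3802, c6386, c6395, c2268, c3039, c6360, c6414, c6418, c6422, c6430, c2994, c1643, c1649, trivial⟩ (nd (nat_lit 164) (nat_lit 0) (cs (nd (nat_lit 142) (nat_lit 0) (cs (lf (nat_lit 30) (nat_lit 141)) (rf (nat_lit 0)))) (cs (nd (nat_lit 165) (nat_lit 0) (cs (nd (nat_lit 162) (nat_lit 0) (cs (rf (nat_lit 1)) (cs (nd (nat_lit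 161) (nat_lit 0) (cs (rf (nat_lit 2)) (cs (nd (nat_lit 143) (nat_lit 0) (cs (lf (nat_lit 17) (nat_lit 140)) (nd (nat_lit 187) (nat_lit 0) (cs (lf (nat_lit 5) (nat_lit 162)) (nd (nat_lit 138) (nat_lit 0) (cs (lf (nat_lit 22) (nat_lit 138)) (nd (nat_lit 160) (nat_lit 0) (cs (lf (nat_lit 23) (nat_lit 137)) (nd (nat_lit 159) (nat_lit 0) (cs (lf (nat_lit 4) (nat_lit 159)) (rf (nat_lit 3)))))))))))) (cs (nd (nat_lit 138) (nat_lit 0) (cs (lf (nat_lit 22) (nat_lit 138)) (nd (nat_lit 160) (nat_lit 0) (cs (lf (nat_lit 23) (nat_lit 137)) (nd (nat_lit 184) (nat_lit 0) (cs (lf (nat_lit 11) (nat_lit 161)) (lf (nat_lit 0) (nat_lit 159)))))))) (rf (nat_lit 4)))))) (cs (nd (nat_lit 187) (nat_lit 0) (cs (lf (nat_lit 5) (nat_lit 162)) (nd (nat_lit 143) (nat_lit 0) (cs (lf (nat_lit 17) (nat_lit 140)) (nd (nat_lit 121) (nat_lit 0) (cs (nd (nat_lit 100) (nat_lit 0) (cs (nd (nat_lit 99) (nat_lit 0) (cs (nd (nat_lit 98) (nat_lit 0) (cs (lf (nat_lit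 47) (nat_lit 76)) (lf (nat_lit 46) (nat_lit 98)))) (lf (nat_lit 35) (nat_lit 77)))) (lf (nat_lit 34) (nat_lit 99)))) (lf (nat_lit 40) (nat_lit 120)))))))) (nd (nat_lit 143) (nat_lit 0) (cs (lf (nat_lit 17) (nat_lit 140)) (nd (nat_lit 183) (nat_lit 0) (cs (lf (nat_lit 10) (nat_lit 161)) (nd (nat_lit 161) (nat_lit 0) (cs (lf (nat_lit 11) (nat_lit 160)) (nd (nat_lit 160) (nat_lit 0) (cs (rf (nat_lit 5)) (lf (nat_lit 5) (nat_lit 160)))))))))))))) (cs (nd (nat_lit 166) (nat_lit 0) (cs (rf (nat_lit 6)) (cs (rf (nat_lit 7)) (rf (nat_lit 8))))) (cs (rf (nat_lit 9)) (cs (rf (nat_lit 10)) (cs (rf (nat_lit 11)) (nd (nat_lit 166) (nat_lit 0) (cs (lf (nat_lit 11) (nat_lit 162)) (nd (nat_lit 144) (nat_lit 0) (cs (lf (nat_lit 17) (nat_lit 141)) (nd (nat_lit 143) (nat_lit 0) (cs (lf (nat_lit 12) (nat_lit 140)) (nd (nat_lit 167) (nat_lit 0) (cs (lf (nat_lit 10) (nat_lit 163)) (nd (nat_lit 190) (nat_lit 0) (cs (lf (nat_lit 4) (nat_lit 164))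 (nd (nat_lit 168) (nat_lit 0) (cs (lf (nat_lit 5) (nat_lit 165)) (lf (nat_lit 18) (nat_lit 143)))))))))))))))))))) (cs (nd (nat_lit 229) (nat_lit 0) (cs (lf (nat_lit 35) (nat_lit 141)) (nd (nat_lit 251) (nat_lit 0) (cs (rf (nat_lit 12)) (lf (nat_lit 34) (nat_lit 163)))))) (nd (nat_lit 142) (nat_lit 0) (cs (rf (nat_lit 13)) (cs (rf (nat_lit 0)) (cs (nd (nat_lit 165) (nat_lit 0) (cs (rf (nat_lit 10)) (cs (nd (nat_lit 143) (nat_lit 0) (cs (rf (nat_lit 14)) (cs (nd (nat_lit 121) (nat_lit 0) (cs (nd (nat_lit 99) (nat_lit 0) (cs (nd (nat_lit 144) (nat_lit 0) (cs (lf (nat_lit 6) (nat_lit 141)) (nd (nat_lit 76) (nat_lit 0) (cs (nd (nat_lit 100) (nat_lit 0) (cs (lf (nat_lit 35) (nat_lit 77)) (nd (nat_lit 122) (nat_lit 0) (cs (nd (nat_lit 123) (nat_lit 0) (cs (lf (nat_lit 6) (nat_lit 120)) (lf (nat_lit 12) (nat_lit 119)))) (lf (nat_lit 30) (nat_lit 99)))))) (lf (nat_lit 46) (nat_lit 76)))))) (lf (nat_lit 36) (nat_lit 76)))) (lf (nat_lit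 31) (nat_lit 120)))) (nd (nat_lit 121) (nat_lit 0) (cs (lf (nat_lit 31) (nat_lit 120)) (nd (nat_lit 99) (nat_lit 0) (cs (lf (nat_lit 36) (nat_lit 76)) (nd (nat_lit 100) (nat_lit 0) (cs (lf (nat_lit 35) (nat_lit 77)) (nd (nat_lit 76) (nat_lit 0) (cs (lf (nat_lit 46) (nat_lit 76)) (nd (nat_lit 187) (nat_lit 0) (cs (lf (nat_lit 34) (nat_lit 99)) (nd (nat_lit 162) (nat_lit 0) (cs (lf (nat_lit 5) (nat_lit 162)) (lf (nat_lit 12) (nat_lit 139))))))))))))))))) (nd (nat_lit 166) (nat_lit 0) (cs (lf (nat_lit 11) (nat_lit 162)) (nd (nat_lit 167) (nat_lit 0) (cs (lf (nat_lit 10) (nat_lit 163)) (lf (nat_lit 23) (nat_lit 141))))))))) (nd (nat_lit 120) (nat_lit 0) (cs (lf (nat_lit 33) (nat_lit 119)) (lf (nat_lit 39) (nat_lit 119)))))))))))) q6465 (by decide +kernel)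
def q6548 : Q := Q.p (nat_lit 0x2000000000018000020000000000000000000000000000000000000000000000) (nat_lit 0x20000080000100000c8000238003dc003ffc00ffe003ffc0005000000000000000000000000) (nat_lit 15)
theorem c6548 : QOK q6548 := cut [q1615, q1621, q1658, q6495, q516, q6511, q3175, q4465, q6533, q4768, q6514, q6513, q6175] ⟨c1615, c1621, c1658, c6495, c516, c6511, c3175, c4465, c6533, c4768, c6514, c6513, c6175, trivial⟩ (nd (nat_lit 163) (nat_lit 0) (cs (rf (nat_lit 0)) (cs (rf (nat_lit 1)) (cs (rf (nat_lit 2)) (cs (rf (nat_lit 3)) (nd (nat_lit 186) (nat_lit 0) (cs (rf (nat_lit 4)) (cs (nd (nat_lit 187) (nat_lit 0) (cs (rf (nat_lit 5)) (cs (nd (nat_lit 184) (nat_lit 0) (cs (rf (nat_lit 6)) (nd (nat_lit 162) (nat_lit 0) (cs (lf (nat_lit 23) (nat_lit 161)) (nd (nat_lit 140) (nat_lit 0) (cs (lf (nat_lit 24) (nat_lit 118)) (nd (nat_lit 165) (nat_lit 0) (cs (lf (nat_lit 17) (nat_lit 162)) (nd (nat_lit 164) (nat_lit 0) (cs (lf (nat_lit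 23) (nat_lit 139)) (rf (nat_lit 7)))))))))))) (nd (nat_lit 188) (nat_lit 0) (cs (lf (nat_lit 6) (nat_lit 185)) (nd (nat_lit 166) (nat_lit 0) (cs (lf (nat_lit 17) (nat_lit 163)) (nd (nat_lit 165) (nat_lit 0) (cs (lf (nat_lit 12) (nat_lit 162)) (nd (nat_lit 209) (nat_lit 0) (cs (lf (nat_lit 31) (nat_lit 165)) (rf (nat_lit 8))))))))))))) (cs (nd (nat_lit 187) (nat_lit 0) (cs (rf (nat_lit 5)) (cs (nd (nat_lit 184) (nat_lit 0) (cs (rf (nat_lit 9)) (nd (nat_lit 230) (nat_lit 0) (cs (lf (nat_lit 42) (nat_lit 163)) (rf (nat_lit 10)))))) (nd (nat_lit 230) (nat_lit 0) (cs (lf (nat_lit 42) (nat_lit 163)) (nd (nat_lit 188) (nat_lit 0) (cs (lf (nat_lit 6) (nat_lit 185)) (nd (nat_lit 166) (nat_lit 0) (cs (lf (nat_lit 17) (nat_lit 163)) (nd (nat_lit 165) (nat_lit 0) (cs (lf (nat_lit 12) (nat_lit 162)) (rf (nat_lit 11))))))))))))) (nd (nat_lit 230) (nat_lit 0) (cs (lf (nat_lit 42) (nat_lit 163)) (nd (nat_lit 164) (nat_lit 0) (cs (lf (nat_lit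 28) (nat_lit 164)) (nd (nat_lit 120) (nat_lit 0) (cs (lf (nat_lit 37) (nat_lit 119)) (rf (nat_lit 12))))))))))))))))) q6548 (by decide +kernel)
def q6622 : Q := Q.p (nat_lit 0x2000001000004000010000040000000000000000000000000000000000000000) (nat_lit 0x20000380001e000000000000000200000a0000280000000000000000000000000000000000) (nat_lit 7)
theorem c6622 : QOK q6622 := cut [q6621] ⟨c6621, trivial⟩ (nd (nat_lit 139) (nat_lit 0) (cs (lf (nat_lit 46) (nat_lit 139)) (rf (nat_lit 0)))) q6622 (by decide +kernel)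
def q6657 : Q := Q.p (nat_lit 0x200000000001c000010000000000000000000000000000000000000000000000) (nat_lit 0x200000e0000380001e0000f70000380002e0003f0001f80001e00002800000000000000000000000) (nat_lit 11)
theorem c6657 : QOK q6657 := cut [q805, q864, q3851, q3877, q5883, q6621, q6628, q6644] ⟨c805, c864, c3851, c3877, c5883, c6621, c6628, c6644, trivial⟩ (nd (nat_lit 162) (nat_lit 0) (cs (rf (nat_lit 0)) (cs (rf (nat_lit 1)) (cs (rf (nat_lit 2)) (cs (rf (nat_lit 3)) (nd (nat_lit 228) (nat_lit 0) (cs (rf (nat_lit 4)) (cs (rf (nat_lit 5)) (cs (rf (nat_lit 6)) (nd (nat_lit 205) (nat_lit 0) (cs (nd (nat_lit 141) (nat_lit 0) (cs (lf (nat_lit 34) (nat_lit 140)) (rf (nat_lit 7)))) (cs (nd (nat_lit 229) (nat_lit 0) (cs (lf (nat_lit 29) (nat_lit 162)) (nd (nat_lit 230) (nat_lit 0) (cs (lf (nat_lit 0) (nat_lit 204)) (lf (nat_lit 18) (nat_lit 205)))))) (nd (nat_lit 229) (nat_lit 0) (cs (lf (nat_lit 29) (nat_lit 162)) (nd (nat_lit 230)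 (nat_lit 0) (cs (lf (nat_lit 18) (nat_lit 205)) (nd (nat_lit 139) (nat_lit 0) (cs (lf (nat_lit 46) (nat_lit 139)) (nd (nat_lit 183) (nat_lit 0) (cs (lf (nat_lit 23) (nat_lit 182)) (nd (nat_lit 163) (nat_lit 0) (cs (lf (nat_lit 35) (nat_lit 140)) (nd (nat_lit 164) (nat_lit 0) (cs (lf (nat_lit 6) (nat_lit 161)) (nd (nat_lit 185) (nat_lit 0) (cs (lf (nat_lit 29) (nat_lit 163)) (lf (nat_lit 35) (nat_lit 141)))))))))))))))))))))))))))) q6657 (by decide +kernel)
def q6682 : Q := Q.p (nat_lit 0x200000000001c000000000000000000000000000000000000000000000000000) (nat_lit 0x20000380001e00003e0002200003e0000e0000380000200000000000000000000000000000) (nat_lit 8)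
theorem c6682 : QOK q6682 := cut [q3398, q4164, q6681] ⟨c3398, c4164, c6681, trivial⟩ (nd (nat_lit 228) (nat_lit 0) (cs (rf (nat_lit 0)) (cs (rf (nat_lit 1)) (rf (nat_lit 2))))) q6682 (by decide +kernel)
def q6770 : Q := Q.p (nat_lit 0x200000000001c000000000000000000000000000000000000000000000000000) (nat_lit 0x1280007e0001f80001e0001be000238001f00007f0000fc0003e0000a800000000000000000000000) (nat_lit 17)
theorem c6770 : QOK q6770 := cut [q4164, q6595, q2103, q3262, q6720, q6722, q4108, q863, q2312, q515, q6730, q337, q2094, q90, q5088, q524, q4450, q6757, q6766, q6769] ⟨c4164, c6595, c2103, c3262, c6720, c6722, c4108, c863, c2312, c515, c6730, c337, c2094, c90, c5088, c524, c4450, c6757, c6766, c6769, trivial⟩ (nd (nat_lit 228) (nat_lit 0) (cs (rf (nat_lit 0)) (cs (rf (nat_lit 1)) (cs (nd (nat_lit 185) (nat_lit 0) (cs (rf (nat_lit 2)) (cs (nd (nat_lit 187) (nat_lit 0) (cs (nd (nat_lit 186) (nat_lit 0) (cs (lf (nat_lit 12)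 (nat_lit 183)) (lf (nat_lit 6) (nat_lit 184)))) (cs (nd (nat_lit 272) (nat_lit 0) (cs (lf (nat_lit 31) (nat_lit 184)) (nd (nat_lit 209) (nat_lit 0) (cs (lf (nat_lit 17) (nat_lit 184)) (nd (nat_lit 231) (nat_lit 0) (cs (lf (nat_lit 5) (nat_lit 206)) (nd (nat_lit 274) (nat_lit 0) (cs (lf (nat_lit 40) (nat_lit 186)) (nd (nat_lit 275) (nat_lit 0) (cs (lf (nat_lit 41) (nat_lit 208)) (nd (nat_lit 298) (nat_lit 0) (cs (lf (nat_lit 28) (nat_lit 209)) (rf (nat_lit 3)))))))))))))) (nd (nat_lit 184) (nat_lit 0) (cs (rf (nat_lit 4)) (cs (nd (nat_lit 250) (nat_lit 0) (cs (lf (nat_lit 30) (nat_lit 184)) (nd (nat_lit 251) (nat_lit 0) (cs (lf (nat_lit 29) (nat_lit 184)) (nd (nat_lit 186) (nat_lit 0) (cs (lf (nat_lit 12) (nat_lit 183)) (nd (nat_lit 164) (nat_lit 0) (cs (lf (nat_lit 31) (nat_lit 163)) (nd (nat_lit 231) (nat_lit 0) (cs (lf (nat_lit 44) (nat_lit 164)) (nd (nat_lit 252) (nat_lit 0) (cs (lf (nat_lit 17) (nat_lit 228)) (nd (nat_lit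 120) (nat_lit 0) (cs (lf (nat_lit 37) (nat_lit 119)) (rf (nat_lit 5)))))))))))))))) (cs (nd (nat_lit 250) (nat_lit 0) (cs (lf (nat_lit 30) (nat_lit 184)) (nd (nat_lit 162) (nat_lit 0) (cs (rf (nat_lit 6)) (cs (nd (nat_lit 140) (nat_lit 0) (cs (rf (nat_lit 7)) (nd (nat_lit 186) (nat_lit 0) (cs (rf (nat_lit 8)) (nd (nat_lit 231) (nat_lit 0) (cs (rf (nat_lit 9)) (cs (nd (nat_lit 119) (nat_lit 0) (cs (lf (nat_lit 34) (nat_lit 118)) (nd (nat_lit 249) (nat_lit 0) (cs (lf (nat_lit 41) (nat_lit 183)) (nd (nat_lit 165) (nat_lit 0) (cs (lf (nat_lit 17) (nat_lit 162)) (nd (nat_lit 121) (nat_lit 0) (cs (lf (nat_lit 37) (nat_lit 120)) (nd (nat_lit 251) (nat_lit 0) (cs (lf (nat_lit 29) (nat_lit 184)) (nd (nat_lit 252) (nat_lit 0) (cs (lf (nat_lit 17) (nat_lit 228)) (rf (nat_lit 10)))))))))))))) (nd (nat_lit 209) (nat_lit 0) (cs (lf (nat_lit 5) (nat_lit 206)) (lf (nat_lit 47) (nat_lit 164))))))))))) (nd (nat_lit 186) (nat_lit 0) (cs (lf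 (nat_lit 23) (nat_lit 161)) (lf (nat_lit 11) (nat_lit 183))))))))) (nd (nat_lit 186) (nat_lit 0) (cs (lf (nat_lit 12) (nat_lit 183)) (rf (nat_lit 11))))))))))) (cs (nd (nat_lit 186) (nat_lit 0) (cs (rf (nat_lit 12)) (cs (nd (nat_lit 229) (nat_lit 0) (cs (rf (nat_lit 13)) (cs (nd (nat_lit 163) (nat_lit 0) (cs (lf (nat_lit 36) (nat_lit 140)) (nd (nat_lit 251) (nat_lit 0) (cs (lf (nat_lit 30) (nat_lit 185)) (rf (nat_lit 14)))))) (nd (nat_lit 164) (nat_lit 0) (cs (lf (nat_lit 36) (nat_lit 141)) (nd (nat_lit 204) (nat_lit 0) (cs (lf (nat_lit 13) (nat_lit 182)) (nd (nat_lit 163) (nat_lit 0) (cs (lf (nat_lit 36) (nat_lit 140)) (nd (nat_lit 162) (nat_lit 0) (cs (lf (nat_lit 47) (nat_lit 140)) (nd (nat_lit 161) (nat_lit 0) (cs (lf (nat_lit 0) (nat_lit 160)) (nd (nat_lit 139) (nat_lit 0) (cs (lf (nat_lit 23) (nat_lit 138)) (lf (nat_lit 44) (nat_lit 139))))))))))))))))) (nd (nat_lit 164) (nat_lit 0) (cs (rf (nat_lit 15)) (cs (rf (nat_lit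 16)) (nd (nat_lit 187) (nat_lit 0) (cs (lf (nat_lit 6) (nat_lit 184)) (nd (nat_lit 209) (nat_lit 0) (cs (lf (nat_lit 43) (nat_lit 164)) (nd (nat_lit 229) (nat_lit 0) (cs (lf (nat_lit 30) (nat_lit 163)) (nd (nat_lit 163) (nat_lit 0) (cs (lf (nat_lit 36) (nat_lit 140)) (rf (nat_lit 17)))))))))))))))) (cs (nd (nat_lit 250) (nat_lit 0) (cs (lf (nat_lit 30) (nat_lit 184)) (nd (nat_lit 163) (nat_lit 0) (cs (lf (nat_lit 33) (nat_lit 162)) (lf (nat_lit 39) (nat_lit 162)))))) (rf (nat_lit 18))))))) (rf (nat_lit 19)))))) q6770 (by decide +kernel)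
def q6775 : Q := Q.p (nat_lit 0x200000000000c000050000040000000000000000000000000000000000000000) (nat_lit 0x200000e0000380001e000030000000000270000b80002f0000000000000000000000000000000000) (nat_lit 9)
theorem c6775 : QOK q6775 := cut [q5883, q6621, q6628, q6771] ⟨c5883, c6621, c6628, c6771, trivial⟩ (nd (nat_lit 228) (nat_lit 0) (cs (rf (nat_lit 0)) (cs (rf (nat_lit 1)) (cs (rf (nat_lit 2)) (nd (nat_lit 163) (nat_lit 0) (cs (lf (nat_lit 35) (nat_lit 140)) (nd (nat_lit 161) (nat_lit 0) (cs (lf (nat_lit 47) (nat_lit 139)) (nd (nat_lit 229) (nat_lit 0) (cs (lf (nat_lit 29) (nat_lit 162)) (rf (nat_lit 3)))))))))))) q6775 (by decide +kernel)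
def q6856 : Q := Q.p (nat_lit 0x2000000000018000040000000000000000000000000000000000000000000000) (nat_lit 0x60000b80001e00007f0002780039f0007e0000f8000380000e000028000000000000000000) (nat_lit 14)
theorem c6856 : QOK q6856 := cut [q559, q530, q3889, q529, q3931, q5534, q4850, q2450, q3211, q3341, q3353, q5415, q5397, q6837, q6838, q4800, q558, q626, q4803, q4866, q6855] ⟨c559, c530, c3889, c529, c3931, c5534, c4850, c2450, c3211, c3341, c3353, c5415, c5397, c6837, c6838, c4800, c558, c626, c4803, c4866, c6855, trivial⟩ (nd (nat_lit 164) (nat_lit 0) (cs (rf (nat_lit 0)) (cs (nd (nat_lit 206) (nat_lit 0) (cs (rf (nat_lit 1)) (cs (rf (nat_lit 2)) (cs (nd (nat_lit 187) (nat_lit 0) (cs (rf (nat_lit 3)) (nd (nat_lit 230) (nat_lit 0) (cs (rf (nat_lit 4)) (cs (rf (nat_lit 5)) (nd (nat_lit 165) (nat_lit 0) (cs (rf (nat_lit 6)) (nd (nat_lit 229) (nat_lit 0) (cs (lf (nat_lit 41) (nat_lit 163)) (nd (nat_lit 163) (nat_lit 0) (cs (lf (nat_lit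 47) (nat_lit 141)) (nd (nat_lit 162) (nat_lit 0) (cs (lf (nat_lit 0) (nat_lit 161)) (nd (nat_lit 140) (nat_lit 0) (cs (lf (nat_lit 23) (nat_lit 139)) (lf (nat_lit 26) (nat_lit 140))))))))))))))))) (nd (nat_lit 205) (nat_lit 0) (cs (rf (nat_lit 7)) (cs (rf (nat_lit 8)) (cs (rf (nat_lit 9)) (cs (rf (nat_lit 10)) (cs (nd (nat_lit 182) (nat_lit 0) (cs (lf (nat_lit 22) (nat_lit 182)) (nd (nat_lit 204) (nat_lit 0) (cs (lf (nat_lit 23) (nat_lit 181)) (nd (nat_lit 229) (nat_lit 0) (cs (lf (nat_lit 5) (nat_lit 204)) (nd (nat_lit 251) (nat_lit 0) (cs (lf (nat_lit 30) (nat_lit 185)) (nd (nat_lit 228) (nat_lit 0) (cs (lf (nat_lit 0) (nat_lit 203)) (nd (nat_lit 162) (nat_lit 0) (cs (nd (nat_lit 227) (nat_lit 0) (cs (lf (nat_lit 6) (nat_lit 205)) (nd (nat_lit 271) (nat_lit 0) (cs (lf (nat_lit 43) (nat_lit 182)) (nd (nat_lit 250) (nat_lit 0) (cs (lf (nat_lit 19) (nat_lit 227)) (rf (nat_lit 11)))))))) (lf (nat_lit 25) (nat_lit 162))))))))))))))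 (nd (nat_lit 229) (nat_lit 0) (cs (rf (nat_lit 12)) (cs (rf (nat_lit 13)) (nd (nat_lit 251) (nat_lit 0) (cs (lf (nat_lit 30) (nat_lit 185)) (nd (nat_lit 226) (nat_lit 0) (cs (lf (nat_lit 10) (nat_lit 204)) (nd (nat_lit 204) (nat_lit 0) (cs (lf (nat_lit 11) (nat_lit 203)) (nd (nat_lit 228) (nat_lit 0) (cs (lf (nat_lit 0) (nat_lit 203)) (nd (nat_lit 184) (nat_lit 0) (cs (lf (nat_lit 24) (nat_lit 162)) (nd (nat_lit 183) (nat_lit 0) (cs (lf (nat_lit 18) (nat_lit 183)) (rf (nat_lit 14))))))))))))))))))))))))))) (cs (nd (nat_lit 142) (nat_lit 0) (cs (lf (nat_lit 41) (nat_lit 141)) (rf (nat_lit 15)))) (cs (nd (nat_lit 142) (nat_lit 0) (cs (rf (nat_lit 16)) (cs (rf (nat_lit 17)) (cs (rf (nat_lit 15)) (cs (rf (nat_lit 18)) (cs (rf (nat_lit 19)) (nd (nat_lit 121) (nat_lit 0) (cs (lf (nat_lit 34) (nat_lit 120)) (nd (nat_lit 120) (nat_lit 0) (cs (lf (nat_lit 35) (nat_lit 98)) (nd (nat_lit 187) (nat_lit 0) (cs (lf (nat_lit 29) (nat_lit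 120)) (nd (nat_lit 205) (nat_lit 0) (cs (lf (nat_lit 13) (nat_lit 183)) (nd (nat_lit 188) (nat_lit 0) (cs (lf (nat_lit 6) (nat_lit 185)) (nd (nat_lit 165) (nat_lit 0) (cs (lf (nat_lit 24) (nat_lit 98)) (nd (nat_lit 163) (nat_lit 0) (cs (nd (nat_lit 230) (nat_lit 0) (cs (lf (nat_lit 47) (nat_lit 141)) (lf (nat_lit 30) (nat_lit 164)))) (lf (nat_lit 0) (nat_lit 162)))))))))))))))))))))) (cs (nd (nat_lit 142) (nat_lit 0) (cs (lf (nat_lit 41) (nat_lit 141)) (rf (nat_lit 18)))) (rf (nat_lit 20)))))))) q6856 (by decide +kernel)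
def q6865 : Q := Q.p (nat_lit 0x2000000000018000040000000000000000000000000000000000000000000000) (nat_lit 0x180000e000026000380000380000e0000380000a000000000000000000000000) (nat_lit 9)
theorem c6865 : QOK q6865 := cut [q517, q559, q614, q631, q6859] ⟨c517, c559, c614, c631, c6859, trivial⟩ (nd (nat_lit 164) (nat_lit 0) (cs (rf (nat_lit 0)) (cs (rf (nat_lit 1)) (cs (rf (nat_lit 2)) (cs (rf (nat_lit 3)) (nd (nat_lit 230) (nat_lit 0) (cs (lf (nat_lit 28) (nat_lit 164)) (nd (nat_lit 229) (nat_lit 0) (cs (lf (nat_lit 41) (nat_lit 163)) (nd (nat_lit 141) (nat_lit 0) (cs (lf (nat_lit 46) (nat_lit 141)) (nd (nat_lit 165) (nat_lit 0) (cs (lf (nat_lit 35) (nat_lit 142)) (nd (nat_lit 187) (nat_lit 0) (cs (lf (nat_lit 30) (nat_lit 164)) (rf (nat_lit 4))))))))))))))))) q6865 (by decide +kernel)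
def q6902 : Q := Q.p (nat_lit 0x4000018000040000100000000000000000000000000000000000000000) (nat_lit 0x200000a000028000060000380000c000020000000000000000000) (nat_lit 7)
theorem c6902 : QOK q6902 := cut [q6901] ⟨c6901, trivial⟩ (nd (nat_lit 141) (nat_lit 0) (cs (lf (nat_lit 46) (nat_lit 141)) (rf (nat_lit 0)))) q6902 (by decide +kernel)
def q6924 : Q := Q.p (nat_lit 0x2000000000018000040000000000000000000000000000000000000000000000) (nat_lit 0x80000000001fc0002600003c000100000c00003000008000000000000000000000000) (nat_lit 8)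
theorem c6924 : QOK q6924 := cut [q524, q6922] ⟨c524, c6922, trivial⟩ (nd (nat_lit 164) (nat_lit 0) (cs (rf (nat_lit 0)) (nd (nat_lit 231) (nat_lit 0) (cs (lf (nat_lit 27) (nat_lit 164)) (rf (nat_lit 1)))))) q6924 (by decide +kernel)
def q6937 : Q := Q.p (nat_lit 0x18000040000000000000000000000000000000000000000000000) (nat_lit 0x7e000270003be0007e0000f80003e0000a000000000000000000000000) (nat_lit 9)
theorem c6937 : QOK q6937 := cut [q524, q559, q527, q530, q547, q526, q529, q4806, q2412, q6930, q6936] ⟨c524, c559, c527, c530, c547, c526, c529, c4806, c2412, c6930, c6936, trivial⟩ (nd (nat_lit 164) (nat_lit 0) (cs (rf (nat_lit 0)) (cs (rf (nat_lit 1)) (cs (nd (nat_lit 206) (nat_lit 0) (cs (rf (nat_lit 2)) (cs (rf (nat_lit 3)) (cs (rf (nat_lit 4)) (nd (nat_lit 187) (nat_lit 0) (cs (rf (nat_lit 5)) (cs (rf (nat_lit 6)) (nd (nat_lit 163) (nat_lit 0) (cs (rf (nat_lit 7)) (cs (nd (nat_lit 162) (nat_lit 0) (cs (lf (nat_lit 0) (nat_lit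 161)) (nd (nat_lit 141) (nat_lit 0) (cs (lf (nat_lit 42) (nat_lit 141)) (nd (nat_lit 184) (nat_lit 0) (cs (lf (nat_lit 30) (nat_lit 140)) (nd (nat_lit 119) (nat_lit 0) (cs (lf (nat_lit 33) (nat_lit 118)) (lf (nat_lit 24) (nat_lit 97)))))))))) (nd (nat_lit 184) (nat_lit 0) (cs (rf (nat_lit 8)) (nd (nat_lit 162) (nat_lit 0) (cs (lf (nat_lit 0) (nat_lit 161)) (rf (nat_lit 9)))))))))))))))) (rf (nat_lit 10)))))) q6937 (by decide +kernel)
def q6940 : Q := Q.p (nat_lit 0x2000000000018000040000000000000000000000000000000000000000000000) (nat_lit 0x80000000003fc0002600009c000100000000000000000000000000000000000000000) (nat_lit 7)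
theorem c6940 : QOK q6940 := cut [q504, q6922, q6938] ⟨c504, c6922, c6938, trivial⟩ (nd (nat_lit 231) (nat_lit 0) (cs (rf (nat_lit 0)) (cs (rf (nat_lit 1)) (nd (nat_lit 230) (nat_lit 0) (cs (lf (nat_lit 24) (nat_lit 164)) (rf (nat_lit 2))))))) q6940 (by decide +kernel)
def q7079 : Q := Q.p (nat_lit 0x2000000000018000040000000000000000000000000000000000000000000000) (nat_lit 0xfc0001e0001bc000240003b8000ff0001f80007e00000000000000000000000000000) (nat_lit 16)
theorem c7079 : QOK q7079 := cut [q6975, q35, q2104, q6993, q2624, q1133, q3498, q7017, q7027, q7028, q7043, q7054, q7062, q7040, q2691] ⟨c6975, c35, c2104, c6993, c2624, c1133, c3498, c7017, c7027, c7028, c7043, c7054, c7062, c7040, c2691, trivial⟩ (nd (nat_lit 187) (nat_lit 0) (cs (nd (nat_lit 188) (nat_lit 0) (cs (lf (nat_lit 6) (nat_lit 185)) (nd (nat_lit 206) (nat_lit 0) (cs (lf (nat_lit 9) (nat_lit 184)) (lf (nat_lit 15) (nat_lit 184)))))) (cs (rf (nat_lit 0)) (cs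 (nd (nat_lit 209) (nat_lit 0) (cs (rf (nat_lit 1)) (cs (nd (nat_lit 185) (nat_lit 0) (cs (nd (nat_lit 231) (nat_lit 0) (cs (lf (nat_lit 42) (nat_lit 186)) (nd (nat_lit 252) (nat_lit 0) (cs (lf (nat_lit 41) (nat_lit 186)) (nd (nat_lit 206) (nat_lit 0) (cs (lf (nat_lit 5) (nat_lit 206)) (rf (nat_lit 2)))))))) (cs (rf (nat_lit 3)) (cs (nd (nat_lit 184) (nat_lit 0) (cs (lf (nat_lit 0) (nat_lit 183)) (nd (nat_lit 231) (nat_lit 0) (cs (lf (nat_lit 42) (nat_lit 186)) (nd (nat_lit 162) (nat_lit 0) (cs (lf (nat_lit 23) (nat_lit 161)) (nd (nat_lit 252) (nat_lit 0) (cs (lf (nat_lit 41) (nat_lit 186)) (nd (nat_lit 118) (nat_lit 0) (cs (lf (nat_lit 25) (nat_lit 118)) (nd (nat_lit 165) (nat_lit 0) (cs (lf (nat_lit 17) (nat_lit 162)) (nd (nat_lit 121) (nat_lit 0) (cs (lf (nat_lit 37) (nat_lit 120)) (nd (nat_lit 251) (nat_lit 0) (cs (lf (nat_lit 43) (nat_lit 162)) (rf (nat_lit 4)))))))))))))))))) (nd (nat_lit 231) (nat_lit 0) (cs (lf (nat_lit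 42) (nat_lit 186)) (nd (nat_lit 184) (nat_lit 0) (cs (lf (nat_lit 0) (nat_lit 183)) (nd (nat_lit 252) (nat_lit 0) (cs (lf (nat_lit 41) (nat_lit 186)) (nd (nat_lit 161) (nat_lit 0) (cs (lf (nat_lit 22) (nat_lit 161)) (nd (nat_lit 165) (nat_lit 0) (cs (lf (nat_lit 17) (nat_lit 162)) (nd (nat_lit 121) (nat_lit 0) (cs (lf (nat_lit 37) (nat_lit 120)) (nd (nat_lit 206) (nat_lit 0) (cs (lf (nat_lit 5) (nat_lit 206)) (rf (nat_lit 5)))))))))))))))))))) (nd (nat_lit 185) (nat_lit 0) (cs (rf (nat_lit 6)) (cs (rf (nat_lit 3)) (cs (rf (nat_lit 7)) (cs (rf (nat_lit 8)) (nd (nat_lit 184) (nat_lit 0) (cs (lf (nat_lit 0) (nat_lit 183)) (nd (nat_lit 165) (nat_lit 0) (cs (lf (nat_lit 17) (nat_lit 162)) (nd (nat_lit 143) (nat_lit 0) (cs (lf (nat_lit 36) (nat_lit 120)) (nd (nat_lit 161) (nat_lit 0) (cs (lf (nat_lit 22) (nat_lit 161)) (nd (nat_lit 122) (nat_lit 0) (cs (lf (nat_lit 34) (nat_lit 121)) (nd (nat_lit 142) (nat_lit 0) (cs (lf (nat_lit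 47) (nat_lit 120)) (rf (nat_lit 9)))))))))))))))))))))) (cs (nd (nat_lit 188) (nat_lit 0) (cs (lf (nat_lit 6) (nat_lit 185)) (nd (nat_lit 185) (nat_lit 0) (cs (lf (nat_lit 11) (nat_lit 184)) (rf (nat_lit 10)))))) (nd (nat_lit 185) (nat_lit 0) (cs (rf (nat_lit 6)) (cs (rf (nat_lit 11)) (cs (nd (nat_lit 188) (nat_lit 0) (cs (lf (nat_lit 6) (nat_lit 185)) (rf (nat_lit 12)))) (cs (nd (nat_lit 188) (nat_lit 0) (cs (lf (nat_lit 6) (nat_lit 185)) (nd (nat_lit 166) (nat_lit 0) (cs (lf (nat_lit 17) (nat_lit 163)) (nd (nat_lit 165) (nat_lit 0) (cs (lf (nat_lit 12) (nat_lit 162)) (nd (nat_lit 121) (nat_lit 0) (cs (lf (nat_lit 37) (nat_lit 120)) (nd (nat_lit 209) (nat_lit 0) (cs (lf (nat_lit 31) (nat_lit 165)) (nd (nat_lit 122) (nat_lit 0) (cs (lf (nat_lit 37) (nat_lit 121)) (rf (nat_lit 13)))))))))))))) (nd (nat_lit 188) (nat_lit 0) (cs (lf (nat_lit 6) (nat_lit 185)) (nd (nat_lit 166) (nat_lit 0) (cs (lf (nat_lit 17) (nat_lit 163)) (nd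 (nat_lit 165) (nat_lit 0) (cs (lf (nat_lit 12) (nat_lit 162)) (nd (nat_lit 143) (nat_lit 0) (cs (lf (nat_lit 36) (nat_lit 120)) (nd (nat_lit 209) (nat_lit 0) (cs (lf (nat_lit 31) (nat_lit 165)) (nd (nat_lit 122) (nat_lit 0) (cs (lf (nat_lit 37) (nat_lit 121)) (nd (nat_lit 163) (nat_lit 0) (cs (lf (nat_lit 23) (nat_lit 162)) (nd (nat_lit 142) (nat_lit 0) (cs (lf (nat_lit 47) (nat_lit 120)) (rf (nat_lit 14)))))))))))))))))))))))))))) q7079 (by decide +kernel)
def q7115 : Q := Q.p (nat_lit 0x18000030000000000000000000000000000000000000000000000) (nat_lit 0x380000e00003e0002780000e000060000180000600000000000000000000000000000) (nat_lit 8)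
theorem c7115 : QOK q7115 := cut [q2412, q4164, q6720, q7114] ⟨c2412, c4164, c6720, c7114, trivial⟩ (nd (nat_lit 206) (nat_lit 0) (cs (rf (nat_lit 0)) (cs (nd (nat_lit 228) (nat_lit 0) (cs (rf (nat_lit 1)) (rf (nat_lit 2)))) (rf (nat_lit 3))))) q7115 (by decide +kernel)
def q7199 : Q := Q.p (nat_lit 0x18000030000080000000000000000000000000000000000000000) (nat_lit 0x80001600005e000278001c0000778001de0007600015000000000000000000000000) (nat_lit 13)
theorem c7199 : QOK q7199 := cut [q7129, q7139, q7148, q7151, q7157, q3742, q7171, q1948, q7179, q2312, q6717, q3507, q7195] ⟨c7129, c7139, c7148, c7151, c7157, c3742, c7171, c1948, c7179, c2312, c6717, c3507, c7195, trivial⟩ (nd (nat_lit 206) (nat_lit 0) (cs (rf (nat_lit 0)) (cs (nd (nat_lit 228) (nat_lit 0) (cs (lf (nat_lit 30) (nat_lit 162)) (nd (nat_lit 227) (nat_lit 0) (cs (lf (nat_lit 6) (nat_lit 205)) (nd (nat_lit 162) (nat_lit 0) (cs (lf (nat_lit 41) (nat_lit 161)) (nd (nat_lit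 118) (nat_lit 0) (cs (lf (nat_lit 25) (nat_lit 118)) (nd (nat_lit 225) (nat_lit 0) (cs (lf (nat_lit 13) (nat_lit 203)) (nd (nat_lit 161) (nat_lit 0) (cs (lf (nat_lit 47) (nat_lit 139)) (nd (nat_lit 160) (nat_lit 0) (cs (lf (nat_lit 0) (nat_lit 159)) (lf (nat_lit 5) (nat_lit 160)))))))))))))))) (cs (nd (nat_lit 205) (nat_lit 0) (cs (nd (nat_lit 226) (nat_lit 0) (cs (lf (nat_lit 10) (nat_lit 204)) (nd (nat_lit 204) (nat_lit 0) (cs (lf (nat_lit 11) (nat_lit 203)) (lf (nat_lit 12) (nat_lit 181)))))) (cs (nd (nat_lit 162) (nat_lit 0) (cs (rf (nat_lit 1)) (cs (nd (nat_lit 164) (nat_lit 0) (cs (nd (nat_lit 226) (nat_lit 0) (cs (lf (nat_lit 10) (nat_lit 204)) (nd (nat_lit 165) (nat_lit 0) (cs (lf (nat_lit 6) (nat_lit 162)) (nd (nat_lit 187) (nat_lit 0) (cs (lf (nat_lit 5) (nat_lit 162)) (lf (nat_lit 7) (nat_lit 183)))))))) (cs (rf (nat_lit 2)) (cs (nd (nat_lit 186) (nat_lit 0) (cs (lf (nat_lit 6) (nat_lit 183)) (nd (nat_lit 230) (nat_lit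 0) (cs (lf (nat_lit 42) (nat_lit 163)) (rf (nat_lit 3)))))) (rf (nat_lit 4)))))) (nd (nat_lit 186) (nat_lit 0) (cs (lf (nat_lit 6) (nat_lit 183)) (nd (nat_lit 230) (nat_lit 0) (cs (lf (nat_lit 42) (nat_lit 163)) (nd (nat_lit 161) (nat_lit 0) (cs (lf (nat_lit 0) (nat_lit 160)) (nd (nat_lit 140) (nat_lit 0) (cs (lf (nat_lit 24) (nat_lit 118)) (nd (nat_lit 139) (nat_lit 0) (cs (lf (nat_lit 47) (nat_lit 117)) (nd (nat_lit 138) (nat_lit 0) (cs (lf (nat_lit 18) (nat_lit 138)) (lf (nat_lit 0) (nat_lit 137))))))))))))))))) (nd (nat_lit 186) (nat_lit 0) (cs (lf (nat_lit 12) (nat_lit 182)) (lf (nat_lit 17) (nat_lit 183))))))) (cs (nd (nat_lit 162) (nat_lit 0) (cs (nd (nat_lit 140) (nat_lit 0) (cs (rf (nat_lit 5)) (nd (nat_lit 165) (nat_lit 0) (cs (rf (nat_lit 6)) (cs (nd (nat_lit 187) (nat_lit 0) (cs (nd (nat_lit 228) (nat_lit 0) (cs (lf (nat_lit 30) (nat_lit 162)) (nd (nat_lit 209) (nat_lit 0) (cs (lf (nat_lit 17) (nat_lit 184)) (nd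 (nat_lit 117) (nat_lit 0) (cs (lf (nat_lit 46) (nat_lit 117)) (rf (nat_lit 7)))))))) (nd (nat_lit 186) (nat_lit 0) (cs (lf (nat_lit 17) (nat_lit 162)) (lf (nat_lit 11) (nat_lit 183)))))) (nd (nat_lit 228) (nat_lit 0) (cs (lf (nat_lit 30) (nat_lit 162)) (nd (nat_lit 164) (nat_lit 0) (cs (lf (nat_lit 6) (nat_lit 162)) (rf (nat_lit 8))))))))))) (cs (nd (nat_lit 164) (nat_lit 0) (cs (rf (nat_lit 2)) (cs (rf (nat_lit 4)) (cs (nd (nat_lit 186) (nat_lit 0) (cs (rf (nat_lit 9)) (rf (nat_lit 3)))) (cs (nd (nat_lit 165) (nat_lit 0) (cs (lf (nat_lit 6) (nat_lit 162)) (rf (nat_lit 8)))) (nd (nat_lit 165) (nat_lit 0) (cs (lf (nat_lit 6) (nat_lit 162)) (nd (nat_lit 187) (nat_lit 0) (cs (lf (nat_lit 5) (nat_lit 162)) (nd (nat_lit 186) (nat_lit 0) (cs (lf (nat_lit 12) (nat_lit 183)) (lf (nat_lit 23) (nat_lit 161))))))))))))) (nd (nat_lit 228) (nat_lit 0) (cs (lf (nat_lit 30) (nat_lit 162)) (rf (nat_lit 10))))))) (nd (nat_lit 186) (nat_lit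 0) (cs (rf (nat_lit 9)) (cs (rf (nat_lit 11)) (nd (nat_lit 228) (nat_lit 0) (cs (lf (nat_lit 30) (nat_lit 162)) (nd (nat_lit 187) (nat_lit 0) (cs (lf (nat_lit 6) (nat_lit 184)) (rf (nat_lit 12)))))))))))))) q7199 (by decide +kernel)
def q7200 : Q := Q.p (nat_lit 0x18000030000080000000000000000000000000000000000000000) (nat_lit 0x80000600001e0002780000e000040000100000000000000000000000000000000000) (nat_lit 6)
theorem c7200 : QOK q7200 := cut [q2412, q7114, q7129] ⟨c2412, c7114, c7129, trivial⟩ (nd (nat_lit 206) (nat_lit 0) (cs (rf (nat_lit 0)) (cs (rf (nat_lit 1)) (rf (nat_lit 2))))) q7200 (by decide +kernel)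
def q7462 : Q := Q.p (nat_lit 0x2000008000030000000000000000000000000000000000000000000000000000) (nat_lit 0x40000100001400004c000780000700001c00007000010000000000000000000000000) (nat_lit 9)
theorem c7462 : QOK q7462 := cut [q2212, q4300, q7461] ⟨c2212, c4300, c7461, trivial⟩ (nd (nat_lit 187) (nat_lit 0) (cs (rf (nat_lit 0)) (cs (rf (nat_lit 1)) (rf (nat_lit 2))))) q7462 (by decide +kernel)
def q7507 : Q := Q.p (nat_lit 0x700001c0000000000000000000000000000000000000000000000) (nat_lit 0x14000000000030000ec000380000e000000000000000000000000000000) (nat_lit 8)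
theorem c7507 : QOK q7507 := cut [q7506] ⟨c7506, trivial⟩ (nd (nat_lit 185) (nat_lit 0) (cs (lf (nat_lit 0) (nat_lit 184)) (rf (nat_lit 0)))) q7507 (by decide +kernel)
def q7554 : Q := Q.p (nat_lit 0x2000000000070000100000000000000000000000000000000000000000000000) (nat_lit 0x3b80000c000038000e0000380000a000000000000000000000000000000) (nat_lit 7)
theorem c7554 : QOK q7554 := cut [q186, q7553] ⟨c186, c7553, trivial⟩ (nd (nat_lit 207) (nat_lit 0) (cs (rf (nat_lit 0)) (rf (nat_lit 1)))) q7554 (by decide +kernel)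
def q7599 : Q := Q.p (nat_lit 0x2000008000030000000000000000000000000000000000000000000000000000) (nat_lit 0x600001c00035c0004e0007fc000680001c00007000004000000000000000000000000) (nat_lit 11)
theorem c7599 : QOK q7599 := cut [q2212, q7591, q119, q1475, q13] ⟨c2212, c7591, c119, c1475, c13, trivial⟩ (nd (nat_lit 187) (nat_lit 0) (cs (rf (nat_lit 0)) (cs (rf (nat_lit 1)) (nd (nat_lit 207) (nat_lit 0) (cs (rf (nat_lit 2)) (cs (rf (nat_lit 3)) (nd (nat_lit 252) (nat_lit 0) (cs (lf (nat_lit 41) (nat_lit 186)) (nd (nat_lit 230) (nat_lit 0) (cs (lf (nat_lit 36) (nat_lit 164)) (nd (nat_lit 232) (nat_lit 0) (cs (lf (nat_lit 18) (nat_lit 207)) (nd (nat_lit 251) (nat_lit 0) (cs (lf (nat_lit 12) (nat_lit 228)) (nd (nat_lit 186) (nat_lit 0) (cs (lf (nat_lit 41) (nat_lit 185)) (nd (nat_lit 188) (nat_lit 0) (cs (rf (nat_lit 4)) (lf (nat_lit 6) (nat_lit 185)))))))))))))))))))) q7599 (by decide +kernel)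
def q7613 : Q := Q.p (nat_lit 0x2000000000030000000000000000000000000000000000000000000000000000) (nat_lit 0x140000700001c0000100007bc000ce0007fc000400000000000000000000000000000000000000000) (nat_lit 7)
theorem c7613 : QOK q7613 := cut [q2932, q6705, q7612] ⟨c2932, c6705, c7612, trivial⟩ (nd (nat_lit 231) (nat_lit 0) (cs (rf (nat_lit 0)) (cs (rf (nat_lit 1)) (rf (nat_lit 2))))) q7613 (by decide +kernel)
def q7620 : Q := Q.p (nat_lit 0x2000008000030000000000000000000000000000000000000000000000000000) (nat_lit 0x600001c000340000080007e0000780001800002000000000000000000000000000000) (nat_lit 8)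
theorem c7620 : QOK q7620 := cut [q1584, q4082, q7618, q2978] ⟨c1584, c4082, c7618, c2978, trivial⟩ (nd (nat_lit 187) (nat_lit 0) (cs (rf (nat_lit 0)) (cs (nd (nat_lit 186) (nat_lit 0) (cs (lf (nat_lit 47) (nat_lit 164)) (rf (nat_lit 1)))) (cs (rf (nat_lit 2)) (nd (nat_lit 186) (nat_lit 0) (cs (lf (nat_lit 47) (nat_lit 164)) (rf (nat_lit 3)))))))) q7620 (by decide +kernel)
def q7739 : Q := Q.p (nat_lit 0x2000008000030000000000000000000000000000000000000000000000000000) (nat_lit 0x4000010000040000080007c0000700001c00000000000000000000000000000000000) (nat_lit 6)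
theorem c7739 : QOK q7739 := cut [q1568, q1580, q1584, q7618] ⟨c1568, c1580, c1584, c7618, trivial⟩ (nd (nat_lit 187) (nat_lit 0) (cs (rf (nat_lit 0)) (cs (rf (nat_lit 1)) (cs (rf (nat_lit 2)) (rf (nat_lit 3)))))) q7739 (by decide +kernel)
def q7785 : Q := Q.p (nat_lit 0x2000000000070000000000000000000000000000000000000000000000000000) (nat_lit 0xfe000180000ff0000f00003f80007e0000a000000000000000000000000) (nat_lit 14)
theorem c7785 : QOK q7785 := cut [q5683, q7535, q7784] ⟨c5683, c7535, c7784, trivial⟩ (nd (nat_lit 186) (nat_lit 0) (cs (rf (nat_lit 0)) (cs (rf (nat_lit 1)) (rf (nat_lit 2))))) q7785 (by decide +kernel)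
def q7808 : Q := Q.p (nat_lit 0x78000040000000000000000000000000000000000000000000000) (nat_lit 0x300000040003b0000ec0001800006000000000000000000000000000000) (nat_lit 9)
theorem c7808 : QOK q7808 := cut [q4583] ⟨c4583, trivial⟩ (nd (nat_lit 232) (nat_lit 0) (cs (lf (nat_lit 5) (nat_lit 207)) (nd (nat_lit 185) (nat_lit 0) (cs (lf (nat_lit 23) (nat_lit 184)) (rf (nat_lit 0)))))) q7808 (by decide +kernel)
def q7832 : Q := Q.p (nat_lit 0x2000000000010000040000000000000000000000000000000000000000000000) (nat_lit 0x80000000000e0000280000a0000fe0003f8000f80000a000000000000000000000000) (nat_lit 12)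
theorem c7832 : QOK q7832 := cut [q628, q3194, q6169] ⟨c628, c3194, c6169, trivial⟩ (nd (nat_lit 164) (nat_lit 0) (cs (rf (nat_lit 0)) (cs (rf (nat_lit 1)) (rf (nat_lit 2))))) q7832 (by decide +kernel)
def q7847 : Q := Q.p (nat_lit 0x78000040000000000000000000000000000000000000000000000) (nat_lit 0x300000040003a0003e0000380000e000020000000000000000000000000) (nat_lit 8)
theorem c7847 : QOK q7847 := cut [q4628, q4641, q2647] ⟨c4628, c4641, c2647, trivial⟩ (nd (nat_lit 188) (nat_lit 0) (cs (lf (nat_lit 17) (nat_lit 185)) (nd (nat_lit 166) (nat_lit 0) (cs (rf (nat_lit 0)) (cs (rf (nat_lit 1)) (cs (nd (nat_lit 187) (nat_lit 0) (cs (lf (nat_lit 12) (nat_lit 184)) (rf (nat_lit 2)))) (nd (nat_lit 187) (nat_lit 0) (cs (lf (nat_lit 12) (nat_lit 184)) (nd (nat_lit 167) (nat_lit 0) (cs (lf (nat_lit 12) (nat_lit 163)) (nd (nat_lit 232) (nat_lit 0) (cs (lf (nat_lit 5) (nat_lit 207)) (lf (nat_lit 35) (nat_lit 144)))))))))))))) q7847 (by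 decide +kernel)
def q7860 : Q := Q.p (nat_lit 0x2000000000030000040000000000000000000000000000000000000000000000) (nat_lit 0x8000000000fb8001cc000fa0000400001000000000000000000000000000000000000) (nat_lit 8)
theorem c7860 : QOK q7860 := cut [q4623, q5683, q7827, q7858] ⟨c4623, c5683, c7827, c7858, trivial⟩ (nd (nat_lit 210) (nat_lit 0) (cs (rf (nat_lit 0)) (cs (rf (nat_lit 1)) (cs (rf (nat_lit 2)) (rf (nat_lit 3)))))) q7860 (by decide +kernel)
def q8066 : Q := Q.p (nat_lit 0x20000000000300001c0000000000000000000000000000000000000000000000) (nat_lit 0x600001c0003c00000c000000000600000000000000000000000000000000000000000) (nat_lit 7)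
theorem c8066 : QOK q8066 := cut [q8065] ⟨c8065, trivial⟩ (nd (nat_lit 206) (nat_lit 0) (cs (lf (nat_lit 13) (nat_lit 184)) (rf (nat_lit 0)))) q8066 (by decide +kernel)
def q8077 : Q := Q.p (nat_lit 0x20000000000300001c0000000000000000000000000000000000000000000000) (nat_lit 0x2c000090000760001c0000600001e00003e0000f000000000000000000000000000000) (nat_lit 10)
theorem c8077 : QOK q8077 := cut [q2922, q8062, q8042] ⟨c2922, c8062, c8042, trivial⟩ (nd (nat_lit 210) (nat_lit 0) (cs (rf (nat_lit 0)) (cs (rf (nat_lit 1)) (nd (nat_lit 189) (nat_lit 0) (cs (lf (nat_lit 6) (nat_lit 186)) (nd (nat_lit 167) (nat_lit 0) (cs (lf (nat_lit 17) (nat_lit 164)) (nd (nat_lit 145) (nat_lit 0) (cs (lf (nat_lit 36) (nat_lit 122)) (nd (nat_lit 166) (nat_lit 0) (cs (lf (nat_lit 30) (nat_lit 144)) (nd (nat_lit 144) (nat_lit 0) (cs (lf (nat_lit 36) (nat_lit 121)) (nd (nat_lit 143) (nat_lit 0) (cs (lf (nat_lit 47) (nat_lit 121)) (nd (nat_lit 165) (nat_lit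 0) (cs (lf (nat_lit 41) (nat_lit 142)) (rf (nat_lit 2))))))))))))))))))) q8077 (by decide +kernel)
def q8097 : Q := Q.p (nat_lit 0x300001e0000000000000000000000000000000000000000000000) (nat_lit 0x140001c0000000000ec000380000e000000000000000000000000000000) (nat_lit 8)
theorem c8097 : QOK q8097 := cut [q326, q7506] ⟨c326, c7506, trivial⟩ (nd (nat_lit 210) (nat_lit 0) (cs (rf (nat_lit 0)) (rf (nat_lit 1)))) q8097 (by decide +kernel)
def q8161 : Q := Q.p (nat_lit 0x20000000000100001c0000000000000000000000000000000000000000000000) (nat_lit 0xe00001c0003c000060000638001e00000000000000000000000000000000000000000) (nat_lit 7)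
theorem c8161 : QOK q8161 := cut [q8067, q8144] ⟨c8067, c8144, trivial⟩ (nd (nat_lit 209) (nat_lit 0) (cs (rf (nat_lit 0)) (rf (nat_lit 1)))) q8161 (by decide +kernel)
def q8341 : Q := Q.p (nat_lit 0x300000c0000000000000000000000000000000000000000000000) (nat_lit 0x20000080000720001ce000718001fe0007f8000f800000000000000000000000000000) (nat_lit 14)
theorem c8341 : QOK q8341 := cut [q8266, q8276, q8293, q8302, q8324, q8290, q8322, q8327, q8336, q8339, q8340] ⟨c8266, c8276, c8293, c8302, c8324, c8290, c8322, c8327, c8336, c8339, c8340, trivial⟩ (nd (nat_lit 164) (nat_lit 0) (cs (nd (nat_lit 165) (nat_lit 0) (cs (rf (nat_lit 0)) (cs (nd (nat_lit 143) (nat_lit 0) (cs (lf (nat_lit 36) (nat_lit 120)) (rf (nat_lit 1)))) (cs (nd (nat_lit 143) (nat_lit 0) (cs (lf (nat_lit 36) (nat_lit 120)) (nd (nat_lit 210) (nat_lit 0) (cs (lf (nat_lit 29) (nat_lit 143)) (nd (nat_lit 211) (nat_lit 0) (cs (lf (nat_lit 18) (nat_lit 186)) (nd (nat_lit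 189) (nat_lit 0) (cs (lf (nat_lit 17) (nat_lit 186)) (nd (nat_lit 188) (nat_lit 0) (cs (lf (nat_lit 12) (nat_lit 185)) (lf (nat_lit 23) (nat_lit 163)))))))))))) (nd (nat_lit 143) (nat_lit 0) (cs (lf (nat_lit 36) (nat_lit 120)) (nd (nat_lit 210) (nat_lit 0) (cs (lf (nat_lit 29) (nat_lit 143)) (nd (nat_lit 211) (nat_lit 0) (cs (lf (nat_lit 18) (nat_lit 186)) (nd (nat_lit 233) (nat_lit 0) (cs (lf (nat_lit 5) (nat_lit 208)) (rf (nat_lit 2)))))))))))))) (cs (rf (nat_lit 3)) (cs (rf (nat_lit 4)) (cs (nd (nat_lit 165) (nat_lit 0) (cs (rf (nat_lit 5)) (cs (rf (nat_lit 6)) (cs (rf (nat_lit 7)) (rf (nat_lit 8)))))) (cs (rf (nat_lit 9)) (rf (nat_lit 10)))))))) q8341 (by decide +kernel)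
def q8389 : Q := Q.p (nat_lit 0x300000c0000000000000000000000000000000000000000000000) (nat_lit 0x720001ce000638001fe0007f80007e00010000000000000000000000000) (nat_lit 14)
theorem c8389 : QOK q8389 := cut [q8322, q8360, q8366, q8367, q8327, q8377, q8380, q8290, q8336, q8385, q8387] ⟨c8322, c8360, c8366, c8367, c8327, c8377, c8380, c8290, c8336, c8385, c8387, trivial⟩ (nd (nat_lit 165) (nat_lit 0) (cs (nd (nat_lit 164) (nat_lit 0) (cs (rf (nat_lit 0)) (cs (rf (nat_lit 1)) (cs (rf (nat_lit 2)) (nd (nat_lit 142) (nat_lit 0) (cs (lf (nat_lit 24) (nat_lit 120)) (nd (nat_lit 207) (nat_lit 0) (cs (lf (nat_lit 41) (nat_lit 141)) (nd (nat_lit 206) (nat_lit 0) (cs (lf (nat_lit 12) (nat_lit 183)) (nd (nat_lit 184) (nat_lit 0) (cs (lf (nat_lit 23) (nat_lit 183)) (rf (nat_lit 3)))))))))))))) (cs (nd (nat_lit 164) (nat_lit 0) (cs (rf (nat_lit 4)) (cs (rf (nat_lit 1)) (cs (rf (nat_lit 5)) (nd (nat_lit 120) (nat_lit 0) (cs (lf (nat_lit 25)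 (nat_lit 120)) (rf (nat_lit 6)))))))) (cs (nd (nat_lit 164) (nat_lit 0) (cs (rf (nat_lit 7)) (cs (rf (nat_lit 0)) (cs (rf (nat_lit 4)) (rf (nat_lit 8)))))) (cs (rf (nat_lit 9)) (cs (rf (nat_lit 10)) (nd (nat_lit 164) (nat_lit 0) (cs (rf (nat_lit 4)) (cs (rf (nat_lit 2)) (rf (nat_lit 6))))))))))) q8389 (by decide +kernel)
def q8597 : Q := Q.p (nat_lit 0x1e00000000000000000000000000000000000) (nat_lit 0xe7000018000c700000000000000000000000000000) (nat_lit 7)
theorem c8597 : QOK q8597 := cut [q8596] ⟨c8596, trivial⟩ (nd (nat_lit 122) (nat_lit 0) (cs (lf (nat_lit 17) (nat_lit 119)) (rf (nat_lit 0)))) q8597 (by decide +kernel)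
def q8746 : Q := Q.p (nat_lit 0x10000060000000000000000000000000000000000000000000000) (nat_lit 0x100001c0001700007c000ef80001c000ff0003fc0003f0000d400000000000000000000000) (nat_lit 17)
theorem c8746 : QOK q8746 := cut [q8621, q8623, q8643, q4998, q7214, q5552, q8654, q8666, q6326, q8665, q8679, q8685, q8687, q8695, q8701, q3701, q4753, q8711, q8715, q8722, q8724, q7259, q1650, q1939, q5818, q7252, q5835, q6383, q3725, q3743, q8730, q8741] ⟨c8621, c8623, c8643, c4998, c7214, c5552, c8654, c8666, c6326, c8665, c8679, c8685, c8687, c8695, c8701, c3701, c4753, c8711, c8715, c8722, c8724, c7259, c1650, c1939, c5818, c7252, c5835, c6383, c3725, c3743, c8730, c8741, trivial⟩ (nd (nat_lit 163) (nat_lit 0) (cs (rf (nat_lit 0)) (cs (rf (nat_lit 1)) (cs (nd (nat_lit 164) (nat_lit 0) (cs (rf (nat_lit 2)) (cs (nd (nat_lit 142) (nat_lit 0) (cs (rf (nat_lit 3)) (cs (nd (nat_lit 230) (nat_lit 0) (cs (lf (nat_lit 42) (nat_lit 163)) (nd (nat_lit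 121) (nat_lit 0) (cs (lf (nat_lit 34) (nat_lit 120)) (nd (nat_lit 120) (nat_lit 0) (cs (lf (nat_lit 35) (nat_lit 98)) (lf (nat_lit 36) (nat_lit 97)))))))) (nd (nat_lit 207) (nat_lit 0) (cs (lf (nat_lit 30) (nat_lit 141)) (nd (nat_lit 161) (nat_lit 0) (cs (rf (nat_lit 4)) (cs (nd (nat_lit 162) (nat_lit 0) (cs (lf (nat_lit 0) (nat_lit 160)) (nd (nat_lit 230) (nat_lit 0) (cs (lf (nat_lit 42) (nat_lit 163)) (rf (nat_lit 5)))))) (nd (nat_lit 205) (nat_lit 0) (cs (rf (nat_lit 6)) (cs (rf (nat_lit 7)) (cs (nd (nat_lit 183) (nat_lit 0) (cs (rf (nat_lit 8)) (cs (rf (nat_lit 9)) (rf (nat_lit 10))))) (cs (rf (nat_lit 11)) (rf (nat_lit 12))))))))))))))) (cs (nd (nat_lit 162) (nat_lit 0) (cs (rf (nat_lit 13)) (cs (nd (nat_lit 161) (nat_lit 0) (cs (lf (nat_lit 0) (nat_lit 160)) (nd (nat_lit 230) (nat_lit 0) (cs (lf (nat_lit 42) (nat_lit 163)) (rf (nat_lit 14)))))) (cs (nd (nat_lit 230) (nat_lit 0) (cs (lf (nat_lit 42) (nat_lit 163)) (nd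 (nat_lit 161) (nat_lit 0) (cs (lf (nat_lit 0) (nat_lit 160)) (nd (nat_lit 139) (nat_lit 0) (cs (lf (nat_lit 23) (nat_lit 138)) (nd (nat_lit 140) (nat_lit 0) (cs (lf (nat_lit 18) (nat_lit 139)) (nd (nat_lit 118) (nat_lit 0) (cs (lf (nat_lit 24) (nat_lit 96)) (nd (nat_lit 207) (nat_lit 0) (cs (lf (nat_lit 42) (nat_lit 140)) (lf (nat_lit 27) (nat_lit 118)))))))))))))) (cs (nd (nat_lit 184) (nat_lit 0) (cs (rf (nat_lit 15)) (cs (rf (nat_lit 16)) (nd (nat_lit 230) (nat_lit 0) (cs (lf (nat_lit 42) (nat_lit 163)) (nd (nat_lit 165) (nat_lit 0) (cs (lf (nat_lit 6) (nat_lit 162)) (rf (nat_lit 17))))))))) (cs (nd (nat_lit 230) (nat_lit 0) (cs (lf (nat_lit 42) (nat_lit 163)) (nd (nat_lit 161) (nat_lit 0) (cs (lf (nat_lit 0) (nat_lit 160)) (nd (nat_lit 138) (nat_lit 0) (cs (lf (nat_lit 22) (nat_lit 138)) (nd (nat_lit 183) (nat_lit 0) (cs (lf (nat_lit 11) (nat_lit 160)) (nd (nat_lit 184) (nat_lit 0) (cs (lf (nat_lit 5) (nat_lit 183)) (rf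 (nat_lit 18)))))))))))) (rf (nat_lit 19)))))))) (cs (rf (nat_lit 20)) (nd (nat_lit 184) (nat_lit 0) (cs (rf (nat_lit 16)) (cs (rf (nat_lit 21)) (nd (nat_lit 142) (nat_lit 0) (cs (rf (nat_lit 22)) (rf (nat_lit 3)))))))))))) (nd (nat_lit 207) (nat_lit 0) (cs (rf (nat_lit 23)) (cs (rf (nat_lit 24)) (cs (rf (nat_lit 25)) (cs (nd (nat_lit 164) (nat_lit 0) (cs (rf (nat_lit 26)) (cs (rf (nat_lit 27)) (nd (nat_lit 162) (nat_lit 0) (cs (rf (nat_lit 28)) (cs (rf (nat_lit 29)) (rf (nat_lit 30)))))))) (nd (nat_lit 141) (nat_lit 0) (cs (lf (nat_lit 24) (nat_lit 119)) (nd (nat_lit 206) (nat_lit 0) (cs (lf (nat_lit 41) (nat_lit 140)) (nd (nat_lit 118) (nat_lit 0) (cs (lf (nat_lit 46) (nat_lit 118)) (rf (nat_lit 31))))))))))))))))) q8746 (by decide +kernel)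
def q8765 : Q := Q.p (nat_lit 0x100000f0000000000000000000000000000000000000000000000) (nat_lit 0x6e000700001c00000000000000000000000000000000000000000) (nat_lit 6)
theorem c8765 : QOK q8765 := cut [q8427] ⟨c8427, trivial⟩ (nd (nat_lit 209) (nat_lit 0) (cs (lf (nat_lit 5) (nat_lit 184)) (rf (nat_lit 0)))) q8765 (by decide +kernel)
def q8826 : Q := Q.p (nat_lit 0x2000000000010000040000000000000000000000000000000000000000000000) (nat_lit 0x80000200000c0000100000c00002c0003a00003e0000a00000000000000000000000000000000000) (nat_lit 7)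
theorem c8826 : QOK q8826 := cut [q500, q639, q4788, q7653] ⟨c500, c639, c4788, c7653, trivial⟩ (nd (nat_lit 230) (nat_lit 0) (cs (rf (nat_lit 0)) (cs (rf (nat_lit 1)) (cs (rf (nat_lit 2)) (rf (nat_lit 3)))))) q8826 (by decide +kernel)
def q8843 : Q := Q.p (nat_lit 0x2000000000070000140000000000000000000000000000000000000000000000) (nat_lit 0x1c0000000006b0001e0000380000e000000000000000000000000000000) (nat_lit 7)
theorem c8843 : QOK q8843 := cut [q7538, q7539, q7548, q7509, q8031] ⟨c7538, c7539, c7548, c7509, c8031, trivial⟩ (nd (nat_lit 166) (nat_lit 0) (cs (rf (nat_lit 0)) (cs (rf (nat_lit 1)) (cs (rf (nat_lit 2)) (nd (nat_lit 187) (nat_lit 0) (cs (rf (nat_lit 3)) (rf (nat_lit 4)))))))) q8843 (by decide +kernel)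
def q8861 : Q := Q.p (nat_lit 0x78000040000000000000000000000000000000000000000000000) (nat_lit 0x300000000003b0003ec0003f0000fc00028000000000000000000000000) (nat_lit 12)
theorem c8861 : QOK q8861 := cut [q4628, q4641, q4660, q4663, q4630] ⟨c4628, c4641, c4660, c4663, c4630, trivial⟩ (nd (nat_lit 188) (nat_lit 0) (cs (lf (nat_lit 17) (nat_lit 185)) (nd (nat_lit 166) (nat_lit 0) (cs (rf (nat_lit 0)) (cs (rf (nat_lit 1)) (cs (rf (nat_lit 2)) (cs (rf (nat_lit 3)) (nd (nat_lit 185) (nat_lit 0) (cs (lf (nat_lit 23) (nat_lit 184)) (nd (nat_lit 232) (nat_lit 0) (cs (lf (nat_lit 5) (nat_lit 207)) (nd (nat_lit 143) (nat_lit 0) (cs (lf (nat_lit 46) (nat_lit 143)) (nd (nat_lit 121) (nat_lit 0) (cs (lf (nat_lit 45) (nat_lit 121)) (rf (nat_lit 4))))))))))))))))) q8861 (by decide +kernel)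
def q8933 : Q := Q.p (nat_lit 0x2000000000030000040000000000000000000000000000000000000000000000) (nat_lit 0x20000380000e0000fc0001e0001dc000ce0000b80006f8001f80006e00000800000000000000000000000) (nat_lit 17)
theorem c8933 : QOK q8933 := cut [q658, q8871, q1486, q8874, q8879, q8890, q8901, q8903, q8915, q1485, q1170, q8931] ⟨c658, c8871, c1486, c8874, c8879, c8890, c8901, c8903, c8915, c1485, c1170, c8931, trivial⟩ (nd (nat_lit 252) (nat_lit 0) (cs (rf (nat_lit 0)) (cs (nd (nat_lit 231) (nat_lit 0) (cs (lf (nat_lit 42) (nat_lit 186)) (nd (nat_lit 187) (nat_lit 0) (cs (lf (nat_lit 41) (nat_lit 186)) (nd (nat_lit 206) (nat_lit 0) (cs (rf (nat_lit 1)) (cs (nd (nat_lit 207) (nat_lit 0) (cs (lf (nat_lit 5) (nat_lit 206)) (nd (nat_lit 228) (nat_lit 0) (cs (lf (nat_lit 11) (nat_lit 205)) (rf (nat_lit 2)))))) (cs (nd (nat_lit 250) (nat_lit 0) (cs (rf (nat_lit 3)) (cs (nd (nat_lit 251) (nat_lit 0) (cs (lf (nat_lit 17) (nat_lit 228))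 (nd (nat_lit 228) (nat_lit 0) (cs (lf (nat_lit 23) (nat_lit 227)) (nd (nat_lit 184) (nat_lit 0) (cs (lf (nat_lit 29) (nat_lit 184)) (nd (nat_lit 185) (nat_lit 0) (cs (lf (nat_lit 5) (nat_lit 184)) (lf (nat_lit 35) (nat_lit 162)))))))))) (cs (nd (nat_lit 251) (nat_lit 0) (cs (lf (nat_lit 17) (nat_lit 228)) (nd (nat_lit 271) (nat_lit 0) (cs (lf (nat_lit 10) (nat_lit 249)) (nd (nat_lit 249) (nat_lit 0) (cs (lf (nat_lit 11) (nat_lit 248)) (nd (nat_lit 227) (nat_lit 0) (cs (lf (nat_lit 23) (nat_lit 226)) (nd (nat_lit 184) (nat_lit 0) (cs (rf (nat_lit 4)) (lf (nat_lit 33) (nat_lit 183)))))))))))) (cs (nd (nat_lit 184) (nat_lit 0) (cs (rf (nat_lit 4)) (cs (nd (nat_lit 228) (nat_lit 0) (cs (nd (nat_lit 161) (nat_lit 0) (cs (lf (nat_lit 46) (nat_lit 161)) (nd (nat_lit 162) (nat_lit 0) (cs (lf (nat_lit 47) (nat_lit 139)) (nd (nat_lit 141) (nat_lit 0) (cs (lf (nat_lit 34) (nat_lit 140)) (nd (nat_lit 140) (nat_lit 0) (cs (lf (nat_lit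 35) (nat_lit 118)) (nd (nat_lit 205) (nat_lit 0) (cs (lf (nat_lit 41) (nat_lit 139)) (rf (nat_lit 5)))))))))))) (cs (nd (nat_lit 249) (nat_lit 0) (cs (lf (nat_lit 41) (nat_lit 183)) (rf (nat_lit 6)))) (cs (nd (nat_lit 183) (nat_lit 0) (cs (lf (nat_lit 47) (nat_lit 161)) (nd (nat_lit 249) (nat_lit 0) (cs (lf (nat_lit 41) (nat_lit 183)) (nd (nat_lit 272) (nat_lit 0) (cs (lf (nat_lit 46) (nat_lit 183)) (nd (nat_lit 295) (nat_lit 0) (cs (lf (nat_lit 28) (nat_lit 206)) (nd (nat_lit 294) (nat_lit 0) (cs (lf (nat_lit 29) (nat_lit 228)) (nd (nat_lit 316) (nat_lit 0) (cs (rf (nat_lit 7)) (lf (nat_lit 47) (nat_lit 227)))))))))))))) (rf (nat_lit 8)))))) (nd (nat_lit 185) (nat_lit 0) (cs (lf (nat_lit 5) (nat_lit 184)) (lf (nat_lit 11) (nat_lit 183))))))) (nd (nat_lit 251) (nat_lit 0) (cs (lf (nat_lit 17) (nat_lit 228)) (nd (nat_lit 271) (nat_lit 0) (cs (lf (nat_lit 10) (nat_lit 249)) (nd (nat_lit 249) (nat_lit 0) (cs (lf (nat_lit 11)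 (nat_lit 248)) (nd (nat_lit 184) (nat_lit 0) (cs (rf (nat_lit 4)) (lf (nat_lit 38) (nat_lit 183))))))))))))))) (nd (nat_lit 207) (nat_lit 0) (cs (lf (nat_lit 12) (nat_lit 183)) (nd (nat_lit 184) (nat_lit 0) (cs (lf (nat_lit 23) (nat_lit 183)) (nd (nat_lit 228) (nat_lit 0) (cs (lf (nat_lit 11) (nat_lit 205)) (rf (nat_lit 9)))))))))))))))) (nd (nat_lit 185) (nat_lit 0) (cs (rf (nat_lit 10)) (rf (nat_lit 11))))))) q8933 (by decide +kernel)
def q9083 : Q := Q.p (nat_lit 0x100000c0000000000800000000000000000000000000000000000) (nat_lit 0x20000090000740001ec000710001ff000378000df00006000018000000000000000000) (nat_lit 13)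
theorem c9083 : QOK q9083 := cut [q9058, q9059, q9082] ⟨c9058, c9059, c9082, trivial⟩ (nd (nat_lit 165) (nat_lit 0) (cs (rf (nat_lit 0)) (cs (rf (nat_lit 1)) (rf (nat_lit 2))))) q9083 (by decide +kernel)
def q9086 : Q := Q.p (nat_lit 0x100000c0000000000800000000000000000000000000000000000) (nat_lit 0x20000080000700001ec000710001ff000378000ff00006000018000000000000000000) (nat_lit 13)
theorem c9086 : QOK q9086 := cut [q9082] ⟨c9082, trivial⟩ (nd (nat_lit 165) (nat_lit 0) (cs (lf (nat_lit 36) (nat_lit 120)) (rf (nat_lit 0)))) q9086 (by decide +kernel)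
def q9241 : Q := Q.p (nat_lit 0x100000c0000000000000000000000000000000000000000000000) (nat_lit 0x34000fee001f38007f0000380000e0000380000a0000000000000000000) (nat_lit 9)
theorem c9241 : QOK q9241 := cut [q409, q8021, q9200, q2647, q9201, q9226, q9232, q7766, q9234, q9235] ⟨c409, c8021, c9200, c2647, c9201, c9226, c9232, c7766, c9234, c9235, trivial⟩ (nd (nat_lit 188) (nat_lit 0) (cs (rf (nat_lit 0)) (cs (rf (nat_lit 1)) (cs (rf (nat_lit 2)) (nd (nat_lit 166) (nat_lit 0) (cs (rf (nat_lit 3)) (cs (nd (nat_lit 185) (nat_lit 0) (cs (lf (nat_lit 17) (nat_lit 163)) (nd (nat_lit 206) (nat_lit 0) (cs (lf (nat_lit 10) (nat_lit 184)) (nd (nat_lit 184) (nat_lit 0) (cs (lf (nat_lit 11) (nat_lit 183)) (rf (nat_lit 4)))))))) (cs (rf (nat_lit 5)) (nd (nat_lit 210) (nat_lit 0) (cs (nd (nat_lit 185) (nat_lit 0) (cs (lf (nat_lit 5) (nat_lit 185)) (nd (nat_lit 206) (nat_lit 0) (cs (lf (nat_lit 10) (nat_lit 184)) (nd (nat_lit 184) (nat_lit 0)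 (cs (lf (nat_lit 11) (nat_lit 183)) (lf (nat_lit 16) (nat_lit 162)))))))) (cs (rf (nat_lit 6)) (nd (nat_lit 143) (nat_lit 0) (cs (rf (nat_lit 7)) (cs (rf (nat_lit 8)) (nd (nat_lit 144) (nat_lit 0) (cs (lf (nat_lit 47) (nat_lit 121)) (nd (nat_lit 123) (nat_lit 0) (cs (lf (nat_lit 34) (nat_lit 122)) (rf (nat_lit 9)))))))))))))))))))) q9241 (by decide +kernel)
def q9252 : Q := Q.p (nat_lit 0x100000c0000000000000000000000000000000000000000000000) (nat_lit 0x9000034000fce001f30003ee0005a00016000000000000000000000000000000) (nat_lit 11)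
theorem c9252 : QOK q9252 := cut [q7990, q7995, q8020, q8021] ⟨c7990, c7995, c8020, c8021, trivial⟩ (nd (nat_lit 188) (nat_lit 0) (cs (rf (nat_lit 0)) (cs (rf (nat_lit 1)) (cs (rf (nat_lit 2)) (rf (nat_lit 3)))))) q9252 (by decide +kernel)
def q9539 : Q := Q.p (nat_lit 0x300000e0000000000000000000000000000000000000000000000) (nat_lit 0x10000060001180000e0000200000800000000000000000000000000000) (nat_lit 6)
theorem c9539 : QOK q9539 := cut [q2162] ⟨c2162, trivial⟩ (nd (nat_lit 184) (nat_lit 0) (cs (lf (nat_lit 0) (nat_lit 183)) (rf (nat_lit 0)))) q9539 (by decide +kernel)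
def q9555 : Q := Q.p (nat_lit 0x300000c0000000000000000000000000000000000000000000000) (nat_lit 0x100000600000c000718001fe0007f80007800000000000000000000000000000) (nat_lit 10)
theorem c9555 : QOK q9555 := cut [q1703, q8339, q8340, q9554] ⟨c1703, c8339, c8340, c9554, trivial⟩ (nd (nat_lit 164) (nat_lit 0) (cs (rf (nat_lit 0)) (cs (rf (nat_lit 1)) (cs (rf (nat_lit 2)) (rf (nat_lit 3)))))) q9555 (by decide +kernel)
def q9578 : Q := Q.p (nat_lit 0x300000c0000100000000000000000000000000000000000000000) (nat_lit 0x200000e000000000ec0007f80007800000000000000000000000000000) (nat_lit 9)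
theorem c9578 : QOK q9578 := cut [q8322, q8327, q8377, q8380] ⟨c8322, c8327, c8377, c8380, trivial⟩ (nd (nat_lit 165) (nat_lit 0) (cs (rf (nat_lit 0)) (cs (rf (nat_lit 1)) (cs (rf (nat_lit 2)) (rf (nat_lit 3)))))) q9578 (by decide +kernel)
def q9626 : Q := Q.p (nat_lit 0x300000c0000000000000000000000000000000000000000000000) (nat_lit 0x180000600000c0003200003e0000e0000380000e000008000000000000000000) (nat_lit 8)
theorem c9626 : QOK q9626 := cut [q4867, q8339, q3932, q4950] ⟨c4867, c8339, c3932, c4950, trivial⟩ (nd (nat_lit 164) (nat_lit 0) (cs (rf (nat_lit 0)) (cs (rf (nat_lit 1)) (nd (nat_lit 163) (nat_lit 0) (cs (rf (nat_lit 2)) (rf (nat_lit 3))))))) q9626 (by decide +kernel)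
def q9675 : Q := Q.p (nat_lit 0x2000008000030000000000000000000000000000000000000000000000000000) (nat_lit 0x800001000017c001ce0001b8000480001200000000000000000000000000000000000) (nat_lit 7)
theorem c9675 : QOK q9675 := cut [q9673, q9674] ⟨c9673, c9674, trivial⟩ (nd (nat_lit 210) (nat_lit 0) (cs (rf (nat_lit 0)) (rf (nat_lit 1)))) q9675 (by decide +kernel)
def q9889 : Q := Q.p (nat_lit 0x2000000000030000000000000000000000000000000000000000000000000000) (nat_lit 0x100001c0000700003c0001f80001e003f78007cc001ff80002c0000700001c00004000000000000000000000000) (nat_lit 16)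
theorem c9889 : QOK q9889 := cut [q7421, q7437, q7440, q7452, q82, q87, q98, q5498, q7431, q9839, q1054, q9863, q5305, q102, q7416, q7443, q9887] ⟨c7421, c7437, c7440, c7452, c82, c87, c98, c5498, c7431, c9839, c1054, c9863, c5305, c102, c7416, c7443, c9887, trivial⟩ (nd (nat_lit 210) (nat_lit 0) (cs (rf (nat_lit 0)) (cs (rf (nat_lit 1)) (cs (rf (nat_lit 2)) (cs (rf (nat_lit 3)) (cs (nd (nat_lit 207) (nat_lit 0) (cs (rf (nat_lit 4)) (cs (rf (nat_lit 5)) (cs (rf (nat_lit 6)) (nd (nat_lit 229) (nat_lit 0) (cs (lf (nat_lit 11) (nat_lit 206)) (nd (nat_lit 251) (nat_lit 0) (cs (rf (nat_lit 7)) (cs (rf (nat_lit 8)) (cs (nd (nat_lit 185) (nat_lit 0) (cs (lf (nat_lit 23) (nat_lit 184)) (nd (nat_lit 232) (nat_lit 0) (cs (lf (nat_lit 5) (nat_lit 207)) (nd (nat_lit 252) (nat_lit 0) (cs (lf (nat_lit 29) (nat_lit 185)) (nd (nat_lit 163) (nat_lit 0) (cs (lf (nat_lit 28) (nat_lit 163)) (nd (nat_lit 250) (nat_lit 0) (cs (lf (nat_lit 41) (nat_lit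 184)) (nd (nat_lit 275) (nat_lit 0) (cs (lf (nat_lit 5) (nat_lit 250)) (nd (nat_lit 188) (nat_lit 0) (cs (lf (nat_lit 17) (nat_lit 185)) (nd (nat_lit 140) (nat_lit 0) (cs (lf (nat_lit 46) (nat_lit 140)) (nd (nat_lit 141) (nat_lit 0) (cs (lf (nat_lit 47) (nat_lit 118)) (nd (nat_lit 119) (nat_lit 0) (cs (lf (nat_lit 28) (nat_lit 119)) (rf (nat_lit 9)))))))))))))))))))))) (cs (nd (nat_lit 232) (nat_lit 0) (cs (lf (nat_lit 5) (nat_lit 207)) (nd (nat_lit 188) (nat_lit 0) (cs (lf (nat_lit 17) (nat_lit 185)) (nd (nat_lit 273) (nat_lit 0) (cs (lf (nat_lit 35) (nat_lit 185)) (nd (nat_lit 272) (nat_lit 0) (cs (lf (nat_lit 41) (nat_lit 206)) (nd (nat_lit 230) (nat_lit 0) (cs (lf (nat_lit 30) (nat_lit 207)) (rf (nat_lit 10)))))))))))) (cs (nd (nat_lit 184) (nat_lit 0) (cs (lf (nat_lit 22) (nat_lit 184)) (nd (nat_lit 232) (nat_lit 0) (cs (lf (nat_lit 5) (nat_lit 207)) (nd (nat_lit 188) (nat_lit 0) (cs (lf (nat_lit 17) (nat_lit 185)) (nd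 (nat_lit 273) (nat_lit 0) (cs (lf (nat_lit 35) (nat_lit 185)) (nd (nat_lit 272) (nat_lit 0) (cs (lf (nat_lit 41) (nat_lit 206)) (nd (nat_lit 295) (nat_lit 0) (cs (lf (nat_lit 34) (nat_lit 207)) (nd (nat_lit 318) (nat_lit 0) (cs (nd (nat_lit 317) (nat_lit 0) (cs (lf (nat_lit 29) (nat_lit 251)) (nd (nat_lit 339) (nat_lit 0) (cs (rf (nat_lit 11)) (lf (nat_lit 47) (nat_lit 250)))))) (lf (nat_lit 28) (nat_lit 229)))))))))))))))) (nd (nat_lit 184) (nat_lit 0) (cs (lf (nat_lit 22) (nat_lit 184)) (nd (nat_lit 232) (nat_lit 0) (cs (lf (nat_lit 5) (nat_lit 207)) (nd (nat_lit 188) (nat_lit 0) (cs (lf (nat_lit 17) (nat_lit 185)) (nd (nat_lit 273) (nat_lit 0) (cs (lf (nat_lit 35) (nat_lit 185)) (nd (nat_lit 274) (nat_lit 0) (cs (lf (nat_lit 29) (nat_lit 207)) (nd (nat_lit 230) (nat_lit 0) (cs (lf (nat_lit 30) (nat_lit 207)) (nd (nat_lit 252) (nat_lit 0) (cs (lf (nat_lit 35) (nat_lit 186)) (rf (nat_lit 12)))))))))))))))))))))))))))) (nd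 (nat_lit 211) (nat_lit 0) (cs (rf (nat_lit 13)) (cs (rf (nat_lit 14)) (cs (rf (nat_lit 15)) (rf (nat_lit 16)))))))))))) q9889 (by decide +kernel)
def q10013 : Q := Q.p (nat_lit 0x2000008000030000080000000000000000000000000000000000000000000000) (nat_lit 0x44000110000f60007c0003f78001a0000780001e000050000000000000000000000000) (nat_lit 11)
theorem c10013 : QOK q10013 := cut [q202, q9948, q10008, q756] ⟨c202, c9948, c10008, c756, trivial⟩ (nd (nat_lit 210) (nat_lit 0) (cs (nd (nat_lit 252) (nat_lit 0) (cs (lf (nat_lit 41) (nat_lit 186)) (nd (nat_lit 165) (nat_lit 0) (cs (lf (nat_lit 40) (nat_lit 164)) (nd (nat_lit 143) (nat_lit 0) (cs (lf (nat_lit 29) (nat_lit 143)) (nd (nat_lit 121) (nat_lit 0) (cs (lf (nat_lit 40) (nat_lit 120)) (lf (nat_lit 28) (nat_lit 121)))))))))) (cs (nd (nat_lit 211) (nat_lit 0) (cs (rf (nat_lit 0)) (cs (rf (nat_lit 1)) (rf (nat_lit 2))))) (nd (nat_lit 252) (nat_lit 0) (cs (lf (nat_lit 41) (nat_lit 186))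 (nd (nat_lit 230) (nat_lit 0) (cs (rf (nat_lit 3)) (lf (nat_lit 36) (nat_lit 164))))))))) q10013 (by decide +kernel)
def q10097 : Q := Q.p (nat_lit 0x2000000000030000000000000000000000000000000000000000000000000000) (nat_lit 0x4000010000ff8001cc000ff8001e00007e0001e000078000000000000000000000000) (nat_lit 12)
theorem c10097 : QOK q10097 := cut [q7437, q7440, q7452, q694, q10008, q798, q7645, q10096] ⟨c7437, c7440, c7452, c694, c10008, c798, c7645, c10096, trivial⟩ (nd (nat_lit 210) (nat_lit 0) (cs (rf (nat_lit 0)) (cs (rf (nat_lit 1)) (cs (rf (nat_lit 2)) (cs (nd (nat_lit 211) (nat_lit 0) (cs (rf (nat_lit 3)) (cs (nd (nat_lit 187) (nat_lit 0) (cs (rf (nat_lit 4)) (cs (nd (nat_lit 230) (nat_lit 0) (cs (lf (nat_lit 11) (nat_lit 207)) (nd (nat_lit 189) (nat_lit 0) (cs (lf (nat_lit 17) (nat_lit 186)) (rf (nat_lit 5)))))) (nd (nat_lit 230) (nat_lit 0) (cs (lf (nat_lit 11) (nat_lit 207)) (nd (nat_lit 233) (nat_lit 0) (cs (lf (nat_lit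 5) (nat_lit 208)) (rf (nat_lit 5))))))))) (nd (nat_lit 186) (nat_lit 0) (cs (lf (nat_lit 23) (nat_lit 185)) (nd (nat_lit 187) (nat_lit 0) (cs (lf (nat_lit 18) (nat_lit 186)) (nd (nat_lit 230) (nat_lit 0) (cs (lf (nat_lit 11) (nat_lit 207)) (rf (nat_lit 6))))))))))) (rf (nat_lit 7))))))) q10097 (by decide +kernel)
def q10108 : Q := Q.p (nat_lit 0x8000078000000000000000000000000000000000000000000000000000) (nat_lit 0x37000380000e00000000000000000000000000000000000000000000000) (nat_lit 6)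
theorem c10108 : QOK q10108 := cut [q10107] ⟨c10107, trivial⟩ (nd (nat_lit 232) (nat_lit 0) (cs (lf (nat_lit 5) (nat_lit 207)) (rf (nat_lit 0)))) q10108 (by decide +kernel)
def q10131 : Q := Q.p (nat_lit 0x2000008000030000000000000000000000000000000000000000000000000000) (nat_lit 0x20000080000600001c0003600004c0007c0000600001c00007000004000000000000000000000000) (nat_lit 9)
theorem c10131 : QOK q10131 := cut [q2212, q7591, q10130] ⟨c2212, c7591, c10130, trivial⟩ (nd (nat_lit 187) (nat_lit 0) (cs (rf (nat_lit 0)) (cs (rf (nat_lit 1)) (rf (nat_lit 2))))) q10131 (by decide +kernel)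
def q10176 : Q := Q.p (nat_lit 0xf0000000000000000000000000000000000000000000000000000) (nat_lit 0x100001c00007000018000076000000000760001c00007000010000000000000000000000000000000) (nat_lit 11)
theorem c10176 : QOK q10176 := cut [q10151, q10155, q10159, q10173] ⟨c10151, c10155, c10159, c10173, trivial⟩ (nd (nat_lit 233) (nat_lit 0) (cs (lf (nat_lit 5) (nat_lit 208)) (nd (nat_lit 166) (nat_lit 0) (cs (rf (nat_lit 0)) (cs (nd (nat_lit 229) (nat_lit 0) (cs (lf (nat_lit 10) (nat_lit 207)) (rf (nat_lit 1)))) (cs (nd (nat_lit 229) (nat_lit 0) (cs (lf (nat_lit 10) (nat_lit 207)) (rf (nat_lit 2)))) (nd (nat_lit 229) (nat_lit 0) (cs (lf (nat_lit 10) (nat_lit 207)) (rf (nat_lit 3)))))))))) q10176 (by decide +kernel)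
def q10274 : Q := Q.p (nat_lit 0x20000000000300000c0000000000000000000000000000000000000000000000) (nat_lit 0x1400007a0001ff0000f8001ff0000fc0003f0006f8001f80006e00000800000000000000000000000) (nat_lit 15)
theorem c10274 : QOK q10274 := cut [q2224, q4430, q6705, q8871, q9525, q1527, q8915, q10216, q10222, q10228, q4123, q10250, q889, q8901, q8563] ⟨c2224, c4430, c6705, c8871, c9525, c1527, c8915, c10216, c10222, c10228, c4123, c10250, c889, c8901, c8563, trivial⟩ (nd (nat_lit 184) (nat_lit 0) (cs (nd (nat_lit 165) (nat_lit 0) (cs (rf (nat_lit 0)) (nd (nat_lit 231) (nat_lit 0) (cs (lf (nat_lit 42) (nat_lit 186)) (rf (nat_lit 1)))))) (cs (nd (nat_lit 231) (nat_lit 0) (cs (rf (nat_lit 2)) (nd (nat_lit 206) (nat_lit 0) (cs (rf (nat_lit 3)) (cs (rf (nat_lit 4)) (nd (nat_lit 228) (nat_lit 0) (cs (nd (nat_lit 250) (nat_lit 0) (cs (rf (nat_lit 5)) (cs (rf (nat_lit 6)) (cs (nd (nat_lit 251) (nat_lit 0) (cs (lf (nat_lit 29) (nat_lit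 184)) (nd (nat_lit 249) (nat_lit 0) (cs (lf (nat_lit 41) (nat_lit 183)) (rf (nat_lit 7)))))) (nd (nat_lit 161) (nat_lit 0) (cs (lf (nat_lit 46) (nat_lit 161)) (rf (nat_lit 8)))))))) (cs (nd (nat_lit 250) (nat_lit 0) (cs (rf (nat_lit 8)) (cs (nd (nat_lit 249) (nat_lit 0) (cs (lf (nat_lit 41) (nat_lit 183)) (nd (nat_lit 248) (nat_lit 0) (cs (nd (nat_lit 229) (nat_lit 0) (cs (lf (nat_lit 12) (nat_lit 225)) (lf (nat_lit 7) (nat_lit 227)))) (cs (nd (nat_lit 183) (nat_lit 0) (cs (lf (nat_lit 47) (nat_lit 161)) (nd (nat_lit 229) (nat_lit 0) (cs (lf (nat_lit 7) (nat_lit 227)) (nd (nat_lit 251) (nat_lit 0) (cs (lf (nat_lit 29) (nat_lit 184)) (nd (nat_lit 270) (nat_lit 0) (cs (lf (nat_lit 11) (nat_lit 247)) (nd (nat_lit 226) (nat_lit 0) (cs (lf (nat_lit 23) (nat_lit 225)) (rf (nat_lit 9)))))))))))) (nd (nat_lit 161) (nat_lit 0) (cs (lf (nat_lit 46) (nat_lit 161)) (nd (nat_lit 251) (nat_lit 0) (cs (lf (nat_lit 29) (nat_lit 184)) (rf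 (nat_lit 10))))))))))) (cs (nd (nat_lit 183) (nat_lit 0) (cs (lf (nat_lit 47) (nat_lit 161)) (nd (nat_lit 205) (nat_lit 0) (cs (lf (nat_lit 42) (nat_lit 183)) (nd (nat_lit 249) (nat_lit 0) (cs (lf (nat_lit 41) (nat_lit 183)) (nd (nat_lit 229) (nat_lit 0) (cs (lf (nat_lit 7) (nat_lit 227)) (nd (nat_lit 248) (nat_lit 0) (cs (lf (nat_lit 12) (nat_lit 225)) (nd (nat_lit 203) (nat_lit 0) (cs (lf (nat_lit 1) (nat_lit 203)) (nd (nat_lit 227) (nat_lit 0) (cs (lf (nat_lit 41) (nat_lit 182)) (nd (nat_lit 182) (nat_lit 0) (cs (lf (nat_lit 47) (nat_lit 160)) (nd (nat_lit 181) (nat_lit 0) (cs (lf (nat_lit 11) (nat_lit 180)) (lf (nat_lit 0) (nat_lit 180)))))))))))))))))))) (rf (nat_lit 11)))))) (cs (nd (nat_lit 162) (nat_lit 0) (cs (rf (nat_lit 12)) (nd (nat_lit 229) (nat_lit 0) (cs (lf (nat_lit 29) (nat_lit 162)) (nd (nat_lit 230) (nat_lit 0) (cs (lf (nat_lit 12) (nat_lit 205)) (lf (nat_lit 23) (nat_lit 205)))))))) (cs (nd (nat_lit 249)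 (nat_lit 0) (cs (rf (nat_lit 13)) (cs (nd (nat_lit 250) (nat_lit 0) (cs (lf (nat_lit 41) (nat_lit 183)) (nd (nat_lit 251) (nat_lit 0) (cs (lf (nat_lit 29) (nat_lit 184)) (rf (nat_lit 7)))))) (nd (nat_lit 271) (nat_lit 0) (cs (lf (nat_lit 39) (nat_lit 183)) (nd (nat_lit 227) (nat_lit 0) (cs (lf (nat_lit 30) (nat_lit 205)) (lf (nat_lit 33) (nat_lit 183))))))))) (nd (nat_lit 162) (nat_lit 0) (cs (rf (nat_lit 12)) (cs (rf (nat_lit 14)) (nd (nat_lit 249) (nat_lit 0) (cs (lf (nat_lit 40) (nat_lit 161)) (nd (nat_lit 161) (nat_lit 0) (cs (lf (nat_lit 47) (nat_lit 139)) (nd (nat_lit 250) (nat_lit 0) (cs (lf (nat_lit 41) (nat_lit 183)) (lf (nat_lit 46) (nat_lit 161))))))))))))))))))))) (nd (nat_lit 206) (nat_lit 0) (cs (nd (nat_lit 183) (nat_lit 0) (cs (lf (nat_lit 2) (nat_lit 183)) (lf (nat_lit 20) (nat_lit 183)))) (cs (nd (nat_lit 205) (nat_lit 0) (cs (lf (nat_lit 8) (nat_lit 183)) (lf (nat_lit 14) (nat_lit 183)))) (cs (nd (nat_lit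 207) (nat_lit 0) (cs (lf (nat_lit 12) (nat_lit 183)) (lf (nat_lit 23) (nat_lit 183)))) (nd (nat_lit 185) (nat_lit 0) (cs (lf (nat_lit 0) (nat_lit 183)) (lf (nat_lit 11) (nat_lit 183))))))))))) q10274 (by decide +kernel)
def q10378 : Q := Q.p (nat_lit 0x2000008000030000000000000000000000000000000000000000000000000000) (nat_lit 0x1400004c0007c0000700001c00006000010000000000000000000000000) (nat_lit 8)
theorem c10378 : QOK q10378 := cut [q2212, q10374, q2333] ⟨c2212, c10374, c2333, trivial⟩ (nd (nat_lit 187) (nat_lit 0) (cs (rf (nat_lit 0)) (cs (rf (nat_lit 1)) (nd (nat_lit 164) (nat_lit 0) (cs (lf (nat_lit 46) (nat_lit 164)) (nd (nat_lit 165) (nat_lit 0) (cs (lf (nat_lit 47) (nat_lit 142)) (nd (nat_lit 143) (nat_lit 0) (cs (lf (nat_lit 41) (nat_lit 142)) (rf (nat_lit 2))))))))))) q10378 (by decide +kernel)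
def q10409 : Q := Q.p (nat_lit 0x20000000000300000c0000000000000000000000000000000000000000000000) (nat_lit 0x180000680003c0000738001ce0001000004000000000000000000000000000000) (nat_lit 9)
theorem c10409 : QOK q10409 := cut [q2973, q8029, q10407, q4714] ⟨c2973, c8029, c10407, c4714, trivial⟩ (nd (nat_lit 188) (nat_lit 0) (cs (rf (nat_lit 0)) (cs (rf (nat_lit 1)) (cs (rf (nat_lit 2)) (nd (nat_lit 166) (nat_lit 0) (cs (lf (nat_lit 31) (nat_lit 165)) (rf (nat_lit 3)))))))) q10409 (by decide +kernel)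
def q10422 : Q := Q.p (nat_lit 0x20000000000300000c0000000000000000000000000000000000000000000000) (nat_lit 0x640001900007e0001c0000720001d00002000008000000000000000000000000000000) (nat_lit 13)
theorem c10422 : QOK q10422 := cut [q7751] ⟨c7751, trivial⟩ (nd (nat_lit 231) (nat_lit 0) (cs (lf (nat_lit 47) (nat_lit 164)) (rf (nat_lit 0)))) q10422 (by decide +kernel)
def q10451 : Q := Q.p (nat_lit 0x300000c0000000000000000000000000000000000000000000000) (nat_lit 0x60000190000760001c0000738001f00003c0000f000014000000000000000000000000) (nat_lit 11)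
theorem c10451 : QOK q10451 := cut [q7749, q8140, q8144, q75, q8062, q8031, q1948, q9281, q381, q2226] ⟨c7749, c8140, c8144, c75, c8062, c8031, c1948, c9281, c381, c2226, trivial⟩ (nd (nat_lit 188) (nat_lit 0) (cs (rf (nat_lit 0)) (cs (rf (nat_lit 1)) (cs (rf (nat_lit 2)) (cs (nd (nat_lit 210) (nat_lit 0) (cs (rf (nat_lit 3)) (cs (rf (nat_lit 4)) (nd (nat_lit 185) (nat_lit 0) (cs (lf (nat_lit 0) (nat_lit 184)) (nd (nat_lit 166) (nat_lit 0) (cs (lf (nat_lit 17) (nat_lit 163)) (rf (nat_lit 5))))))))) (cs (nd (nat_lit 165) (nat_lit 0) (cs (rf (nat_lit 6)) (cs (nd (nat_lit 211) (nat_lit 0) (cs (rf (nat_lit 7)) (cs (nd (nat_lit 230) (nat_lit 0) (cs (lf (nat_lit 30) (nat_lit 164)) (nd (nat_lit 210) (nat_lit 0) (cs (lf (nat_lit 18) (nat_lit 186)) (lf (nat_lit 11) (nat_lit 207)))))) (nd (nat_lit 189) (nat_lit 0) (cs (lf (nat_lit 6) (nat_lit 186)) (nd (nat_lit 167) (nat_lit 0) (cs (lf (nat_lit 17) (nat_lit 164)) (nd (nat_lit 230) (nat_lit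 0) (cs (rf (nat_lit 8)) (lf (nat_lit 30) (nat_lit 164))))))))))) (nd (nat_lit 143) (nat_lit 0) (cs (lf (nat_lit 36) (nat_lit 120)) (nd (nat_lit 189) (nat_lit 0) (cs (lf (nat_lit 6) (nat_lit 186)) (nd (nat_lit 167) (nat_lit 0) (cs (lf (nat_lit 17) (nat_lit 164)) (nd (nat_lit 211) (nat_lit 0) (cs (lf (nat_lit 5) (nat_lit 186)) (nd (nat_lit 210) (nat_lit 0) (cs (lf (nat_lit 29) (nat_lit 143)) (nd (nat_lit 233) (nat_lit 0) (cs (lf (nat_lit 5) (nat_lit 208)) (nd (nat_lit 144) (nat_lit 0) (cs (lf (nat_lit 35) (nat_lit 121)) (lf (nat_lit 46) (nat_lit 144))))))))))))))))))) (nd (nat_lit 189) (nat_lit 0) (cs (lf (nat_lit 6) (nat_lit 186)) (nd (nat_lit 211) (nat_lit 0) (cs (lf (nat_lit 5) (nat_lit 186)) (nd (nat_lit 185) (nat_lit 0) (cs (rf (nat_lit 9)) (lf (nat_lit 4) (nat_lit 185)))))))))))))) q10451 (by decide +kernel)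
def q10487 : Q := Q.p (nat_lit 0x20000000000300000c0000000000000000000000000000000000000000000000) (nat_lit 0x180000c0000038000380007c00007000000000000000000000000000000) (nat_lit 8)
theorem c10487 : QOK q10487 := cut [q75, q7519] ⟨c75, c7519, trivial⟩ (nd (nat_lit 210) (nat_lit 0) (cs (rf (nat_lit 0)) (rf (nat_lit 1)))) q10487 (by decide +kernel)
def q10557 : Q := Q.p (nat_lit 0x2000000000038000000000000000000000000000000000000000000000000000) (nat_lit 0x100007f0000c0000730000e80003a0000a000000000000000000000000000000) (nat_lit 9)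
theorem c10557 : QOK q10557 := cut [q139, q738, q7867] ⟨c139, c738, c7867, trivial⟩ (nd (nat_lit 210) (nat_lit 0) (cs (rf (nat_lit 0)) (cs (rf (nat_lit 1)) (rf (nat_lit 2))))) q10557 (by decide +kernel)
def q10588 : Q := Q.p (nat_lit 0x20000000000300000c0000000000000000000000000000000000000000000000) (nat_lit 0xa00000c000300000100000e00003800000000000000000000000000000) (nat_lit 7)
theorem c10588 : QOK q10588 := cut [q8253] ⟨c8253, trivial⟩ (nd (nat_lit 164) (nat_lit 0) (cs (lf (nat_lit 43) (nat_lit 164)) (rf (nat_lit 0)))) q10588 (by decide +kernel)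
def q10589 : Q := Q.p (nat_lit 0x20000000000300000c0000000000000000000000000000000000000000000000) (nat_lit 0xa00000c000300000100000c00003000000000000000000000000000000) (nat_lit 6)
theorem c10589 : QOK q10589 := cut [q8340] ⟨c8340, trivial⟩ (nd (nat_lit 164) (nat_lit 0) (cs (lf (nat_lit 43) (nat_lit 164)) (rf (nat_lit 0)))) q10589 (by decide +kernel)
def q10636 : Q := Q.p (nat_lit 0x2000000000030000080000000000000000000000000000000000000000000000) (nat_lit 0x40000100000c000008000740000700001400000000000000000000000000000000000) (nat_lit 6)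
theorem c10636 : QOK q10636 := cut [q1568, q1580, q7618, q10519] ⟨c1568, c1580, c7618, c10519, trivial⟩ (nd (nat_lit 231) (nat_lit 0) (cs (rf (nat_lit 0)) (cs (rf (nat_lit 1)) (cs (rf (nat_lit 2)) (rf (nat_lit 3)))))) q10636 (by decide +kernel)
def q10638 : Q := Q.p (nat_lit 0x2000000000038000000000000000000000000000000000000000000000000000) (nat_lit 0x80007b0000c0000770000f00003c0000a000000000000000000000000000000) (nat_lit 9)
theorem c10638 : QOK q10638 := cut [q139, q1459, q7867] ⟨c139, c1459, c7867, trivial⟩ (nd (nat_lit 210) (nat_lit 0) (cs (rf (nat_lit 0)) (cs (rf (nat_lit 1)) (rf (nat_lit 2))))) q10638 (by decide +kernel)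
def q10652 : Q := Q.p (nat_lit 0x2000000000030000040000000000000000000000000000000000000000000000) (nat_lit 0x80000f8000c8000020000780000f8000380000a000000000000000000000000) (nat_lit 8)
theorem c10652 : QOK q10652 := cut [q517, q614, q628, q4389, q2322] ⟨c517, c614, c628, c4389, c2322, trivial⟩ (nd (nat_lit 164) (nat_lit 0) (cs (rf (nat_lit 0)) (cs (rf (nat_lit 1)) (cs (rf (nat_lit 2)) (cs (rf (nat_lit 3)) (nd (nat_lit 230) (nat_lit 0) (cs (lf (nat_lit 28) (nat_lit 164)) (nd (nat_lit 143) (nat_lit 0) (cs (lf (nat_lit 34) (nat_lit 142)) (nd (nat_lit 141) (nat_lit 0) (cs (lf (nat_lit 46) (nat_lit 141)) (rf (nat_lit 4))))))))))))) q10652 (by decide +kernel)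
def q10669 : Q := Q.p (nat_lit 0x2000008000038000000000000000000000000000000000000000000000000000) (nat_lit 0xf70001c0000f00000400001000000000000000000000000000000000000) (nat_lit 7)
theorem c10669 : QOK q10669 := cut [q697, q2683, q4286] ⟨c697, c2683, c4286, trivial⟩ (nd (nat_lit 210) (nat_lit 0) (cs (rf (nat_lit 0)) (cs (rf (nat_lit 1)) (rf (nat_lit 2))))) q10669 (by decide +kernel)
def q10673 : Q := Q.p (nat_lit 0x9000038000000000000000000000000000000000000000000000000000) (nat_lit 0xe60001c0000700000000000000000000000000000000000000000000000) (nat_lit 6)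
theorem c10673 : QOK q10673 := cut [q10672] ⟨c10672, trivial⟩ (nd (nat_lit 210) (nat_lit 0) (cs (lf (nat_lit 10) (nat_lit 206)) (rf (nat_lit 0)))) q10673 (by decide +kernel)
def q10767 : Q := Q.p (nat_lit 0x2000008000030000000000000000000000000000000000000000000000000000) (nat_lit 0x600001c0007600004c0000c0000700001c00007000004000000000000000000000000) (nat_lit 9)
theorem c10767 : QOK q10767 := cut [q10753, q2337, q4300, q7591, q10661, q33, q6275, q10759, q10764] ⟨c10753, c2337, c4300, c7591, c10661, c33, c6275, c10759, c10764, trivial⟩ (nd (nat_lit 232) (nat_lit 0) (cs (rf (nat_lit 0)) (cs (nd (nat_lit 187) (nat_lit 0) (cs (rf (nat_lit 1)) (cs (rf (nat_lit 2)) (cs (rf (nat_lit 3)) (cs (rf (nat_lit 4)) (nd (nat_lit 186) (nat_lit 0) (cs (rf (nat_lit 5)) (nd (nat_lit 207) (nat_lit 0) (cs (lf (nat_lit 0) (nat_lit 206)) (nd (nat_lit 252) (nat_lit 0) (cs (lf (nat_lit 41) (nat_lit 186)) (nd (nat_lit 251) (nat_lit 0) (cs (lf (nat_lit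 12) (nat_lit 228)) (rf (nat_lit 6))))))))))))))) (nd (nat_lit 252) (nat_lit 0) (cs (nd (nat_lit 233) (nat_lit 0) (cs (lf (nat_lit 18) (nat_lit 208)) (rf (nat_lit 7)))) (nd (nat_lit 187) (nat_lit 0) (cs (lf (nat_lit 41) (nat_lit 186)) (rf (nat_lit 8))))))))) q10767 (by decide +kernel)
def q11008 : Q := Q.p (nat_lit 0x3000004000030000000000000000000000000000000000000000000000000000) (nat_lit 0x180000780000c0003800000e000060000180000000000000000000000000000000000000000) (nat_lit 7)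
theorem c11008 : QOK q11008 := cut [q11001, q11004, q11005, q11007] ⟨c11001, c11004, c11005, c11007, trivial⟩ (nd (nat_lit 231) (nat_lit 0) (cs (rf (nat_lit 0)) (cs (rf (nat_lit 1)) (cs (rf (nat_lit 2)) (rf (nat_lit 3)))))) q11008 (by decide +kernel)
def q11025 : Q := Q.p (nat_lit 0x3000004000030000000000000000000000000000000000000000000000000000) (nat_lit 0x300000c00003c0000e0001bc0004e0000d0000300000800000000000000000000000000000000000) (nat_lit 11)
theorem c11025 : QOK q11025 := cut [q6271, q10062, q10944, q2065, q3187, q11017] ⟨c6271, c10062, c10944, c2065, c3187, c11017, trivial⟩ (nd (nat_lit 251) (nat_lit 0) (cs (rf (nat_lit 0)) (cs (rf (nat_lit 1)) (cs (rf (nat_lit 2)) (nd (nat_lit 250) (nat_lit 0) (cs (rf (nat_lit 3)) (cs (rf (nat_lit 4)) (nd (nat_lit 228) (nat_lit 0) (cs (lf (nat_lit 23) (nat_lit 227)) (nd (nat_lit 231) (nat_lit 0) (cs (lf (nat_lit 17) (nat_lit 228)) (nd (nat_lit 229) (nat_lit 0) (cs (lf (nat_lit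 17) (nat_lit 206)) (nd (nat_lit 205) (nat_lit 0) (cs (lf (nat_lit 22) (nat_lit 205)) (nd (nat_lit 164) (nat_lit 0) (cs (lf (nat_lit 37) (nat_lit 163)) (nd (nat_lit 165) (nat_lit 0) (cs (lf (nat_lit 37) (nat_lit 164)) (rf (nat_lit 5))))))))))))))))))))) q11025 (by decide +kernel)
def q11052 : Q := Q.p (nat_lit 0x2000004000030000000000000000000000000000000000000000000000000000) (nat_lit 0x300000e00003800007c0001e0007bc001ce0006f80002a0000000000000000000000000000000000000000) (nat_lit 16)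
theorem c11052 : QOK q11052 := cut [q1442, q10062, q1435, q2065, q3187, q10944, q11042] ⟨c1442, c10062, c1435, c2065, c3187, c10944, c11042, trivial⟩ (nd (nat_lit 252) (nat_lit 0) (cs (rf (nat_lit 0)) (cs (nd (nat_lit 251) (nat_lit 0) (cs (rf (nat_lit 1)) (cs (nd (nat_lit 186) (nat_lit 0) (cs (lf (nat_lit 41) (nat_lit 185)) (nd (nat_lit 165) (nat_lit 0) (cs (lf (nat_lit 34) (nat_lit 164)) (rf (nat_lit 2)))))) (cs (nd (nat_lit 250) (nat_lit 0) (cs (rf (nat_lit 3)) (cs (rf (nat_lit 4)) (nd (nat_lit 228) (nat_lit 0) (cs (lf (nat_lit 23) (nat_lit 227)) (nd (nat_lit 231) (nat_lit 0) (cs (lf (nat_lit 17) (nat_lit 228)) (nd (nat_lit 210) (nat_lit 0) (cs (lf (nat_lit 13) (nat_lit 206)) (nd (nat_lit 211) (nat_lit 0) (cs (lf (nat_lit 6) (nat_lit 208)) (nd (nat_lit 233) (nat_lit 0) (cs (lf (nat_lit 5) (nat_lit 208)) (nd (nat_lit 189) (nat_lit 0) (cs (lf (nat_lit 17) (nat_lit 186)) (nd (nat_lit 185) (nat_lit 0) (cs (lf (nat_lit 22) (nat_lit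 185)) (nd (nat_lit 184) (nat_lit 0) (cs (lf (nat_lit 21) (nat_lit 184)) (nd (nat_lit 206) (nat_lit 0) (cs (lf (nat_lit 35) (nat_lit 162)) (nd (nat_lit 165) (nat_lit 0) (cs (lf (nat_lit 37) (nat_lit 164)) (nd (nat_lit 183) (nat_lit 0) (cs (lf (nat_lit 47) (nat_lit 161)) (nd (nat_lit 272) (nat_lit 0) (cs (lf (nat_lit 11) (nat_lit 249)) (lf (nat_lit 46) (nat_lit 183))))))))))))))))))))))))))))) (rf (nat_lit 5)))))) (cs (nd (nat_lit 274) (nat_lit 0) (cs (lf (nat_lit 35) (nat_lit 186)) (nd (nat_lit 185) (nat_lit 0) (cs (lf (nat_lit 46) (nat_lit 185)) (nd (nat_lit 273) (nat_lit 0) (cs (lf (nat_lit 41) (nat_lit 207)) (nd (nat_lit 271) (nat_lit 0) (cs (lf (nat_lit 13) (nat_lit 249)) (nd (nat_lit 296) (nat_lit 0) (cs (lf (nat_lit 34) (nat_lit 208)) (nd (nat_lit 319) (nat_lit 0) (cs (lf (nat_lit 28) (nat_lit 230)) (nd (nat_lit 318) (nat_lit 0) (cs (lf (nat_lit 29) (nat_lit 252)) (rf (nat_lit 6)))))))))))))))) (nd (nat_lit 187) (nat_lit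 0) (cs (lf (nat_lit 30) (nat_lit 186)) (nd (nat_lit 165) (nat_lit 0) (cs (lf (nat_lit 39) (nat_lit 164)) (lf (nat_lit 33) (nat_lit 164)))))))))) q11052 (by decide +kernel)
def q11120 : Q := Q.p (nat_lit 0x2000000000070000000000000000000000000000000000000000000000000000) (nat_lit 0x1dc00038c000ff800060000380000e000000000000000000000000000000) (nat_lit 10)
theorem c11120 : QOK q11120 := cut [q8031, q11118] ⟨c8031, c11118, trivial⟩ (nd (nat_lit 185) (nat_lit 0) (cs (nd (nat_lit 207) (nat_lit 0) (cs (lf (nat_lit 23) (nat_lit 184)) (nd (nat_lit 188) (nat_lit 0) (cs (lf (nat_lit 17) (nat_lit 185)) (nd (nat_lit 187) (nat_lit 0) (cs (lf (nat_lit 12) (nat_lit 184)) (nd (nat_lit 166) (nat_lit 0) (cs (lf (nat_lit 31) (nat_lit 165)) (rf (nat_lit 0)))))))))) (cs (nd (nat_lit 184) (nat_lit 0) (cs (lf (nat_lit 21) (nat_lit 184)) (nd (nat_lit 186) (nat_lit 0) (cs (lf (nat_lit 0) (nat_lit 183)) (lf (nat_lit 18) (nat_lit 185)))))) (nd (nat_lit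 211) (nat_lit 0) (cs (lf (nat_lit 22) (nat_lit 185)) (rf (nat_lit 1))))))) q11120 (by decide +kernel)
def q11309 : Q := Q.p (nat_lit 0x2000004000030000000000000000000000000000000000000000000000000000) (nat_lit 0x80000280001e0001b8000cf800ff80005e0001f80003a00008000000000000000000000000) (nat_lit 11)
theorem c11309 : QOK q11309 := cut [q1178, q1251, q1175, q8578, q10655, q10862, q1267, q1282, q1295, q612, q11307] ⟨c1178, c1251, c1175, c8578, c10655, c10862, c1267, c1282, c1295, c612, c11307, trivial⟩ (nd (nat_lit 229) (nat_lit 0) (cs (rf (nat_lit 0)) (cs (rf (nat_lit 1)) (cs (nd (nat_lit 186) (nat_lit 0) (cs (rf (nat_lit 2)) (cs (rf (nat_lit 3)) (cs (rf (nat_lit 4)) (rf (nat_lit 5)))))) (nd (nat_lit 186) (nat_lit 0) (cs (rf (nat_lit 5)) (cs (nd (nat_lit 228) (nat_lit 0) (cs (lf (nat_lit 12) (nat_lit 205)) (nd (nat_lit 251) (nat_lit 0) (cs (nd (nat_lit 206) (nat_lit 0) (cs (rf (nat_lit 6)) (cs (rf (nat_lit 7)) (cs (rf (nat_lit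 8)) (nd (nat_lit 162) (nat_lit 0) (cs (lf (nat_lit 25) (nat_lit 162)) (nd (nat_lit 231) (nat_lit 0) (cs (lf (nat_lit 23) (nat_lit 205)) (nd (nat_lit 250) (nat_lit 0) (cs (lf (nat_lit 11) (nat_lit 227)) (lf (nat_lit 6) (nat_lit 228)))))))))))) (nd (nat_lit 273) (nat_lit 0) (cs (lf (nat_lit 30) (nat_lit 207)) (lf (nat_lit 39) (nat_lit 185)))))))) (cs (nd (nat_lit 227) (nat_lit 0) (cs (lf (nat_lit 13) (nat_lit 205)) (nd (nat_lit 164) (nat_lit 0) (cs (lf (nat_lit 28) (nat_lit 164)) (rf (nat_lit 9)))))) (rf (nat_lit 10)))))))))) q11309 (by decide +kernel)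
def q11459 : Q := Q.p (nat_lit 0x200000000001e000000000000000000000000000000000000000000000000000) (nat_lit 0x140000700001c0000000001c000060000140000000000000000000000000000000000000000000000) (nat_lit 8)
theorem c11459 : QOK q11459 := cut [q11458] ⟨c11458, trivial⟩ (nd (nat_lit 231) (nat_lit 0) (cs (lf (nat_lit 4) (nat_lit 205)) (rf (nat_lit 0)))) q11459 (by decide +kernel)
def q11471 : Q := Q.p (nat_lit 0x2000000000038000000000000000000000000000000000000000000000000000) (nat_lit 0x140000700001c00000000019c0000600005c000000000000000000000000000000000000000000000) (nat_lit 7)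
theorem c11471 : QOK q11471 := cut [q117, q6706] ⟨c117, c6706, trivial⟩ (nd (nat_lit 206) (nat_lit 0) (cs (rf (nat_lit 0)) (rf (nat_lit 1)))) q11471 (by decide +kernel)
def q11529 : Q := Q.p (nat_lit 0x800002000000000018000000000000000000000000000000000000000000000000000) (nat_lit 0x400001e00077c0009e0007fc000e00007700005c0001700000000000000000000000000000000000) (nat_lit 14)
theorem c11529 : QOK q11529 := cut [q1411, q1999, q2066, q1857, q2460, q11484, q11488, q1998, q2068, q11490, q11501, q11503, q11504, q11506, q5304, q4421, q139] ⟨c1411, c1999, c2066, c1857, c2460, c11484, c11488, c1998, c2068, c11490, c11501, c11503, c11504, c11506, c5304, c4421, c139, trivial⟩ (nd (nat_lit 252) (nat_lit 0) (cs (nd (nat_lit 230) (nat_lit 0) (cs (lf (nat_lit 24) (nat_lit 186)) (rf (nat_lit 0)))) (cs (nd (nat_lit 251) (nat_lit 0) (cs (rf (nat_lit 1)) (cs (rf (nat_lit 2)) (cs (nd (nat_lit 229) (nat_lit 0) (cs (rf (nat_lit 3)) (cs (nd (nat_lit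 186) (nat_lit 0) (cs (lf (nat_lit 30) (nat_lit 185)) (nd (nat_lit 142) (nat_lit 0) (cs (lf (nat_lit 37) (nat_lit 141)) (nd (nat_lit 209) (nat_lit 0) (cs (lf (nat_lit 44) (nat_lit 186)) (nd (nat_lit 210) (nat_lit 0) (cs (lf (nat_lit 11) (nat_lit 206)) (nd (nat_lit 188) (nat_lit 0) (cs (lf (nat_lit 17) (nat_lit 185)) (nd (nat_lit 233) (nat_lit 0) (cs (lf (nat_lit 4) (nat_lit 207)) (nd (nat_lit 211) (nat_lit 0) (cs (lf (nat_lit 5) (nat_lit 208)) (nd (nat_lit 144) (nat_lit 0) (cs (lf (nat_lit 25) (nat_lit 144)) (rf (nat_lit 4)))))))))))))))))) (cs (rf (nat_lit 5)) (rf (nat_lit 6)))))) (nd (nat_lit 250) (nat_lit 0) (cs (rf (nat_lit 7)) (cs (rf (nat_lit 8)) (nd (nat_lit 227) (nat_lit 0) (cs (lf (nat_lit 22) (nat_lit 227)) (nd (nat_lit 231) (nat_lit 0) (cs (lf (nat_lit 17) (nat_lit 228)) (nd (nat_lit 271) (nat_lit 0) (cs (lf (nat_lit 10) (nat_lit 249)) (nd (nat_lit 186) (nat_lit 0) (cs (lf (nat_lit 45) (nat_lit 186)) (rf (nat_lit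 9))))))))))))))))) (cs (nd (nat_lit 251) (nat_lit 0) (cs (rf (nat_lit 2)) (nd (nat_lit 186) (nat_lit 0) (cs (lf (nat_lit 26) (nat_lit 186)) (nd (nat_lit 209) (nat_lit 0) (cs (lf (nat_lit 44) (nat_lit 186)) (rf (nat_lit 9)))))))) (cs (nd (nat_lit 274) (nat_lit 0) (cs (rf (nat_lit 10)) (cs (rf (nat_lit 11)) (cs (nd (nat_lit 230) (nat_lit 0) (cs (lf (nat_lit 47) (nat_lit 185)) (rf (nat_lit 12)))) (cs (nd (nat_lit 296) (nat_lit 0) (cs (rf (nat_lit 13)) (cs (nd (nat_lit 209) (nat_lit 0) (cs (nd (nat_lit 229) (nat_lit 0) (cs (nd (nat_lit 210) (nat_lit 0) (cs (lf (nat_lit 11) (nat_lit 206)) (nd (nat_lit 188) (nat_lit 0) (cs (lf (nat_lit 17) (nat_lit 185)) (nd (nat_lit 232) (nat_lit 0) (cs (lf (nat_lit 5) (nat_lit 207)) (nd (nat_lit 251) (nat_lit 0) (cs (rf (nat_lit 14)) (lf (nat_lit 27) (nat_lit 207)))))))))) (lf (nat_lit 45) (nat_lit 207)))) (lf (nat_lit 37) (nat_lit 208)))) (nd (nat_lit 229) (nat_lit 0) (cs (lf (nat_lit 45) (nat_lit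 207)) (nd (nat_lit 251) (nat_lit 0) (cs (lf (nat_lit 42) (nat_lit 229)) (lf (nat_lit 27) (nat_lit 207))))))))) (nd (nat_lit 230) (nat_lit 0) (cs (lf (nat_lit 47) (nat_lit 185)) (nd (nat_lit 273) (nat_lit 0) (cs (lf (nat_lit 41) (nat_lit 207)) (rf (nat_lit 15))))))))))) (cs (nd (nat_lit 230) (nat_lit 0) (cs (lf (nat_lit 24) (nat_lit 186)) (nd (nat_lit 274) (nat_lit 0) (cs (lf (nat_lit 47) (nat_lit 185)) (rf (nat_lit 12)))))) (nd (nat_lit 251) (nat_lit 0) (cs (rf (nat_lit 1)) (nd (nat_lit 186) (nat_lit 0) (cs (lf (nat_lit 26) (nat_lit 186)) (nd (nat_lit 229) (nat_lit 0) (cs (lf (nat_lit 30) (nat_lit 185)) (nd (nat_lit 142) (nat_lit 0) (cs (lf (nat_lit 37) (nat_lit 141)) (nd (nat_lit 209) (nat_lit 0) (cs (lf (nat_lit 44) (nat_lit 186)) (nd (nat_lit 210) (nat_lit 0) (cs (lf (nat_lit 11) (nat_lit 206)) (rf (nat_lit 16)))))))))))))))))))) q11529 (by decide +kernel)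
def q11539 : Q := Q.p (nat_lit 0x600000800002000000000038000000000000000000000000000000000000000000000000000) (nat_lit 0x40001700001c000730000c0000770000100000400000000000000000000000000000000000) (nat_lit 8)
theorem c11539 : QOK q11539 := cut [q139, q1459, q1857, q5695] ⟨c139, c1459, c1857, c5695, trivial⟩ (nd (nat_lit 210) (nat_lit 0) (cs (rf (nat_lit 0)) (cs (rf (nat_lit 1)) (nd (nat_lit 229) (nat_lit 0) (cs (lf (nat_lit 11) (nat_lit 206)) (nd (nat_lit 251) (nat_lit 0) (cs (rf (nat_lit 2)) (cs (rf (nat_lit 3)) (nd (nat_lit 232) (nat_lit 0) (cs (lf (nat_lit 5) (nat_lit 207)) (nd (nat_lit 188) (nat_lit 0) (cs (lf (nat_lit 17) (nat_lit 185)) (nd (nat_lit 273) (nat_lit 0) (cs (lf (nat_lit 35) (nat_lit 185)) (nd (nat_lit 272) (nat_lit 0) (cs (lf (nat_lit 41) (nat_lit 206)) (lf (nat_lit 2) (nat_lit 272)))))))))))))))))) q11539 (by decide +kernel)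
def q11634 : Q := Q.p (nat_lit 0x700000800002000000000000000000000000000000000000000000000000000000000000000) (nat_lit 0x1e0000388000f700031000040000100000000000000000000000000000000000000000000000000000) (nat_lit 8)
theorem c11634 : QOK q11634 := cut [q11627, q11632, q11633] ⟨c11627, c11632, c11633, trivial⟩ (nd (nat_lit 299) (nat_lit 0) (cs (rf (nat_lit 0)) (cs (rf (nat_lit 1)) (rf (nat_lit 2))))) q11634 (by decide +kernel)
def q12125 : Q := Q.p (nat_lit 0x280001a000000000000000000000000000000000000000000000000000) (nat_lit 0xc0000700001c000170000470000100007e0003f0001fc0000700001400000000000000000000000) (nat_lit 12)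
theorem c12125 : QOK q12125 := cut [q3435, q5260, q5267, q12030, q12045, q12055, q12063, q3667, q12042, q12078, q12117, q3650, q3657, q12114, q12121] ⟨c3435, c5260, c5267, c12030, c12045, c12055, c12063, c3667, c12042, c12078, c12117, c3650, c3657, c12114, c12121, trivial⟩ (nd (nat_lit 183) (nat_lit 0) (cs (nd (nat_lit 161) (nat_lit 0) (cs (rf (nat_lit 0)) (cs (rf (nat_lit 1)) (cs (rf (nat_lit 2)) (nd (nat_lit 138) (nat_lit 0) (cs (lf (nat_lit 46) (nat_lit 138)) (nd (nat_lit 162) (nat_lit 0) (cs (lf (nat_lit 35) (nat_lit 139)) (nd (nat_lit 226) (nat_lit 0) (cs (lf (nat_lit 41) (nat_lit 160)) (nd (nat_lit 249) (nat_lit 0) (cs (lf (nat_lit 34) (nat_lit 161)) (nd (nat_lit 272) (nat_lit 0) (cs (lf (nat_lit 28) (nat_lit 183)) (nd (nat_lit 271) (nat_lit 0) (cs (lf (nat_lit 29) (nat_lit 205)) (nd (nat_lit 293) (nat_lit 0) (cs (lf (nat_lit 47) (nat_lit 204)) (rf (nat_lit 3)))))))))))))))))))) (cs (rf (nat_lit 4)) (cs (nd (nat_lit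 161) (nat_lit 0) (cs (rf (nat_lit 0)) (cs (rf (nat_lit 1)) (cs (rf (nat_lit 2)) (nd (nat_lit 162) (nat_lit 0) (cs (lf (nat_lit 35) (nat_lit 139)) (nd (nat_lit 163) (nat_lit 0) (cs (nd (nat_lit 226) (nat_lit 0) (cs (lf (nat_lit 41) (nat_lit 160)) (nd (nat_lit 164) (nat_lit 0) (cs (lf (nat_lit 11) (nat_lit 160)) (nd (nat_lit 142) (nat_lit 0) (cs (lf (nat_lit 17) (nat_lit 139)) (lf (nat_lit 38) (nat_lit 141)))))))) (cs (nd (nat_lit 226) (nat_lit 0) (cs (lf (nat_lit 41) (nat_lit 160)) (nd (nat_lit 160) (nat_lit 0) (cs (lf (nat_lit 47) (nat_lit 138)) (nd (nat_lit 185) (nat_lit 0) (cs (lf (nat_lit 5) (nat_lit 160)) (nd (nat_lit 141) (nat_lit 0) (cs (lf (nat_lit 29) (nat_lit 141)) (lf (nat_lit 17) (nat_lit 138)))))))))) (cs (nd (nat_lit 138) (nat_lit 0) (cs (lf (nat_lit 46) (nat_lit 138)) (nd (nat_lit 226) (nat_lit 0) (cs (lf (nat_lit 41) (nat_lit 160)) (nd (nat_lit 164) (nat_lit 0) (cs (lf (nat_lit 11) (nat_lit 160)) (nd (nat_lit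 165) (nat_lit 0) (cs (lf (nat_lit 10) (nat_lit 161)) (nd (nat_lit 143) (nat_lit 0) (cs (lf (nat_lit 17) (nat_lit 140)) (nd (nat_lit 230) (nat_lit 0) (cs (lf (nat_lit 32) (nat_lit 142)) (rf (nat_lit 5)))))))))))))) (nd (nat_lit 164) (nat_lit 0) (cs (lf (nat_lit 11) (nat_lit 160)) (rf (nat_lit 6)))))))))))))) (cs (nd (nat_lit 249) (nat_lit 0) (cs (rf (nat_lit 7)) (cs (rf (nat_lit 8)) (cs (nd (nat_lit 162) (nat_lit 0) (cs (lf (nat_lit 34) (nat_lit 161)) (nd (nat_lit 272) (nat_lit 0) (cs (lf (nat_lit 28) (nat_lit 183)) (nd (nat_lit 140) (nat_lit 0) (cs (lf (nat_lit 33) (nat_lit 139)) (nd (nat_lit 271) (nat_lit 0) (cs (lf (nat_lit 29) (nat_lit 205)) (nd (nat_lit 204) (nat_lit 0) (cs (lf (nat_lit 47) (nat_lit 182)) (nd (nat_lit 163) (nat_lit 0) (cs (lf (nat_lit 44) (nat_lit 140)) (nd (nat_lit 293) (nat_lit 0) (cs (rf (nat_lit 3)) (lf (nat_lit 46) (nat_lit 204)))))))))))))))) (cs (rf (nat_lit 9)) (nd (nat_lit 162) (nat_lit 0) (cs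 (lf (nat_lit 34) (nat_lit 161)) (nd (nat_lit 161) (nat_lit 0) (cs (lf (nat_lit 35) (nat_lit 139)) (nd (nat_lit 226) (nat_lit 0) (cs (lf (nat_lit 41) (nat_lit 160)) (nd (nat_lit 250) (nat_lit 0) (cs (lf (nat_lit 29) (nat_lit 183)) (nd (nat_lit 224) (nat_lit 0) (cs (nd (nat_lit 204) (nat_lit 0) (cs (lf (nat_lit 36) (nat_lit 138)) (nd (nat_lit 271) (nat_lit 0) (cs (lf (nat_lit 47) (nat_lit 182)) (lf (nat_lit 42) (nat_lit 204)))))) (lf (nat_lit 1) (nat_lit 224))))))))))))))))) (cs (rf (nat_lit 10)) (cs (nd (nat_lit 249) (nat_lit 0) (cs (rf (nat_lit 11)) (cs (rf (nat_lit 12)) (rf (nat_lit 7))))) (nd (nat_lit 161) (nat_lit 0) (cs (rf (nat_lit 0)) (cs (nd (nat_lit 162) (nat_lit 0) (cs (lf (nat_lit 35) (nat_lit 139)) (nd (nat_lit 226) (nat_lit 0) (cs (lf (nat_lit 41) (nat_lit 160)) (rf (nat_lit 13)))))) (nd (nat_lit 160) (nat_lit 0) (cs (lf (nat_lit 47) (nat_lit 138)) (nd (nat_lit 248) (nat_lit 0) (cs (lf (nat_lit 40) (nat_lit 160))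 (rf (nat_lit 14)))))))))))))))) q12125 (by decide +kernel)
def q12171 : Q := Q.p (nat_lit 0x2000002000018000000000000000000000000000000000000000000000000000) (nat_lit 0x400001c000078000180000400006400007c0001c0000600000000000000000000000000000000000) (nat_lit 7)
theorem c12171 : QOK q12171 := cut [q1832, q1857, q5432, q5435, q5492, q9858] ⟨c1832, c1857, c5432, c5435, c5492, c9858, trivial⟩ (nd (nat_lit 251) (nat_lit 0) (cs (rf (nat_lit 0)) (cs (rf (nat_lit 1)) (cs (rf (nat_lit 2)) (nd (nat_lit 273) (nat_lit 0) (cs (rf (nat_lit 3)) (cs (rf (nat_lit 4)) (rf (nat_lit 5))))))))) q12171 (by decide +kernel)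
def q12191 : Q := Q.p (nat_lit 0x2000018000000000000000000000000000000000000000000000000000) (nat_lit 0x180000600001c0000580006600007e0001c0000700000000000000000000000000000000000) (nat_lit 11)
theorem c12191 : QOK q12191 := cut [q1832, q1857, q5432, q5525, q6790, q12189] ⟨c1832, c1857, c5432, c5525, c6790, c12189, trivial⟩ (nd (nat_lit 251) (nat_lit 0) (cs (rf (nat_lit 0)) (cs (rf (nat_lit 1)) (cs (rf (nat_lit 2)) (nd (nat_lit 184) (nat_lit 0) (cs (nd (nat_lit 185) (nat_lit 0) (cs (lf (nat_lit 47) (nat_lit 162)) (nd (nat_lit 182) (nat_lit 0) (cs (lf (nat_lit 1) (nat_lit 182)) (nd (nat_lit 209) (nat_lit 0) (cs (lf (nat_lit 18) (nat_lit 184)) (nd (nat_lit 274) (nat_lit 0) (cs (lf (nat_lit 28) (nat_lit 185)) (nd (nat_lit 273) (nat_lit 0) (cs (lf (nat_lit 29) (nat_lit 207)) (rf (nat_lit 3)))))))))))) (cs (nd (nat_lit 206) (nat_lit 0) (cs (lf (nat_lit 42) (nat_lit 184)) (rf (nat_lit 4)))) (rf (nat_lit 5))))))))) q12191 (by decide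 +kernel)
def q12203 : Q := Q.p (nat_lit 0x300000c000018000000000000000000000000000000000000000000000000000) (nat_lit 0xc0001fe0007f80000e00002000000000000000000000000000000000000000000000000000000000) (nat_lit 10)
theorem c12203 : QOK q12203 := cut [q1298, q4044, q4061] ⟨c1298, c4044, c4061, trivial⟩ (nd (nat_lit 275) (nat_lit 0) (cs (rf (nat_lit 0)) (nd (nat_lit 274) (nat_lit 0) (cs (rf (nat_lit 1)) (rf (nat_lit 2)))))) q12203 (by decide +kernel)
def q12403 : Q := Q.p (nat_lit 0x200000400001c000000000100000000000000000000000000000000000000000) (nat_lit 0x3e0001f80000f8003be0000100073e000ef8003ff0000a00002800000000000000000000000) (nat_lit 14)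
theorem c12403 : QOK q12403 := cut [q12349, q12357, q12364, q3859, q12366, q3802, q2268, q12363, q12369, q12312, q1497, q12284, q12289, q5247, q6180, q12325, q4810, q12395] ⟨c12349, c12357, c12364, c3859, c12366, c3802, c2268, c12363, c12369, c12312, c1497, c12284, c12289, c5247, c6180, c12325, c4810, c12395, trivial⟩ (nd (nat_lit 163) (nat_lit 0) (cs (rf (nat_lit 0)) (cs (nd (nat_lit 162) (nat_lit 0) (cs (nd (nat_lit 140) (nat_lit 0) (cs (nd (nat_lit 184) (nat_lit 0) (cs (lf (nat_lit 29) (nat_lit 140)) (nd (nat_lit 141) (nat_lit 0) (cs (lf (nat_lit 30) (nat_lit 140)) (lf (nat_lit 35) (nat_lit 118)))))) (cs (rf (nat_lit 1)) (nd (nat_lit 139) (nat_lit 0) (cs (lf (nat_lit 18) (nat_lit 139)) (nd (nat_lit 184) (nat_lit 0) (cs (lf (nat_lit 29) (nat_lit 140)) (lf (nat_lit 47) (nat_lit 117))))))))) (cs (rf (nat_lit 2)) (cs (nd (nat_lit 184) (nat_lit 0) (cs (nd (nat_lit 228) (nat_lit 0) (cs (lf (nat_lit 35) (nat_lit 140)) (rf (nat_lit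 3)))) (nd (nat_lit 183) (nat_lit 0) (cs (lf (nat_lit 6) (nat_lit 161)) (rf (nat_lit 4)))))) (cs (nd (nat_lit 161) (nat_lit 0) (cs (rf (nat_lit 5)) (cs (nd (nat_lit 142) (nat_lit 0) (cs (lf (nat_lit 17) (nat_lit 139)) (nd (nat_lit 160) (nat_lit 0) (cs (rf (nat_lit 6)) (lf (nat_lit 16) (nat_lit 138)))))) (cs (rf (nat_lit 7)) (nd (nat_lit 182) (nat_lit 0) (cs (lf (nat_lit 10) (nat_lit 160)) (nd (nat_lit 142) (nat_lit 0) (cs (lf (nat_lit 17) (nat_lit 139)) (nd (nat_lit 139) (nat_lit 0) (cs (lf (nat_lit 23) (nat_lit 138)) (rf (nat_lit 8)))))))))))) (nd (nat_lit 161) (nat_lit 0) (cs (rf (nat_lit 5)) (cs (rf (nat_lit 9)) (nd (nat_lit 183) (nat_lit 0) (cs (lf (nat_lit 11) (nat_lit 160)) (nd (nat_lit 142) (nat_lit 0) (cs (lf (nat_lit 17) (nat_lit 139)) (nd (nat_lit 184) (nat_lit 0) (cs (lf (nat_lit 6) (nat_lit 161)) (nd (nat_lit 228) (nat_lit 0) (cs (lf (nat_lit 42) (nat_lit 161)) (rf (nat_lit 10)))))))))))))))))) (cs (nd (nat_lit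 185) (nat_lit 0) (cs (lf (nat_lit 24) (nat_lit 141)) (nd (nat_lit 229) (nat_lit 0) (cs (lf (nat_lit 35) (nat_lit 141)) (rf (nat_lit 11)))))) (cs (nd (nat_lit 185) (nat_lit 0) (cs (lf (nat_lit 24) (nat_lit 141)) (nd (nat_lit 229) (nat_lit 0) (cs (lf (nat_lit 35) (nat_lit 141)) (nd (nat_lit 140) (nat_lit 0) (cs (lf (nat_lit 46) (nat_lit 140)) (nd (nat_lit 231) (nat_lit 0) (cs (lf (nat_lit 18) (nat_lit 206)) (nd (nat_lit 275) (nat_lit 0) (cs (lf (nat_lit 42) (nat_lit 208)) (rf (nat_lit 12)))))))))))) (cs (nd (nat_lit 185) (nat_lit 0) (cs (lf (nat_lit 24) (nat_lit 141)) (nd (nat_lit 229) (nat_lit 0) (cs (nd (nat_lit 250) (nat_lit 0) (cs (lf (nat_lit 40) (nat_lit 162)) (rf (nat_lit 13)))) (cs (rf (nat_lit 14)) (rf (nat_lit 15))))))) (cs (nd (nat_lit 141) (nat_lit 0) (cs (lf (nat_lit 26) (nat_lit 141)) (nd (nat_lit 162) (nat_lit 0) (cs (rf (nat_lit 2)) (cs (nd (nat_lit 184) (nat_lit 0) (cs (lf (nat_lit 30) (nat_lit 140)) (nd (nat_lit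 97) (nat_lit 0) (cs (lf (nat_lit 37) (nat_lit 96)) (nd (nat_lit 165) (nat_lit 0) (cs (lf (nat_lit 11) (nat_lit 161)) (nd (nat_lit 144) (nat_lit 0) (cs (lf (nat_lit 16) (nat_lit 140)) (nd (nat_lit 166) (nat_lit 0) (cs (lf (nat_lit 17) (nat_lit 141)) (nd (nat_lit 167) (nat_lit 0) (cs (rf (nat_lit 16)) (lf (nat_lit 22) (nat_lit 141)))))))))))))) (nd (nat_lit 184) (nat_lit 0) (cs (lf (nat_lit 30) (nat_lit 140)) (rf (nat_lit 17))))))))) (nd (nat_lit 185) (nat_lit 0) (cs (lf (nat_lit 24) (nat_lit 141)) (nd (nat_lit 229) (nat_lit 0) (cs (lf (nat_lit 35) (nat_lit 141)) (nd (nat_lit 231) (nat_lit 0) (cs (lf (nat_lit 18) (nat_lit 206)) (nd (nat_lit 275) (nat_lit 0) (cs (lf (nat_lit 42) (nat_lit 208)) (rf (nat_lit 14))))))))))))))))) q12403 (by decide +kernel)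
def q12594 : Q := Q.p (nat_lit 0x300000400001c000010000000000000000000000000000000000000000000000) (nat_lit 0x380000e000030000000000200000e0001f80001e00002800000000000000000000000) (nat_lit 9)
theorem c12594 : QOK q12594 := cut [q805, q864, q3851, q6635, q809, q825, q830, q12588] ⟨c805, c864, c3851, c6635, c809, c825, c830, c12588, trivial⟩ (nd (nat_lit 162) (nat_lit 0) (cs (rf (nat_lit 0)) (cs (rf (nat_lit 1)) (cs (rf (nat_lit 2)) (cs (rf (nat_lit 3)) (nd (nat_lit 163) (nat_lit 0) (cs (rf (nat_lit 4)) (cs (rf (nat_lit 5)) (cs (rf (nat_lit 6)) (nd (nat_lit 228) (nat_lit 0) (cs (lf (nat_lit 35) (nat_lit 140)) (nd (nat_lit 139) (nat_lit 0) (cs (lf (nat_lit 46) (nat_lit 139)) (nd (nat_lit 251) (nat_lit 0) (cs (lf (nat_lit 28) (nat_lit 162)) (nd (nat_lit 250) (nat_lit 0) (cs (lf (nat_lit 29) (nat_lit 184)) (rf (nat_lit 7))))))))))))))))))) q12594 (by decide +kernel)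
def q12644 : Q := Q.p (nat_lit 0x2000000000018000000000000000000000000000000000000000000000000000) (nat_lit 0x780007e0000180007ff000e7c0077f0003f0000f80003e00000000000000000000000000000) (nat_lit 14)
theorem c12644 : QOK q12644 := cut [q3989, q3996, q4183, q1156, q3464, q4007, q4032, q141, q3286, q4318, q1257, q905, q4240, q6550, q8, q4473, q2412, q12622, q29, q4263, q5142, q3308, q12635] ⟨c3989, c3996, c4183, c1156, c3464, c4007, c4032, c141, c3286, c4318, c1257, c905, c4240, c6550, c8, c4473, c2412, c12622, c29, c4263, c5142, c3308, c12635, trivial⟩ (nd (nat_lit 230) (nat_lit 0) (cs (rf (nat_lit 0)) (cs (rf (nat_lit 1)) (cs (rf (nat_lit 2)) (cs (nd (nat_lit 206) (nat_lit 0) (cs (rf (nat_lit 3)) (cs (rf (nat_lit 4)) (cs (rf (nat_lit 5)) (cs (rf (nat_lit 6)) (nd (nat_lit 209) (nat_lit 0) (cs (rf (nat_lit 7)) (cs (rf (nat_lit 8)) (cs (rf (nat_lit 9)) (nd (nat_lit 183) (nat_lit 0) (cs (lf (nat_lit 22) (nat_lit 183)) (nd (nat_lit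 227) (nat_lit 0) (cs (lf (nat_lit 10) (nat_lit 205)) (nd (nat_lit 231) (nat_lit 0) (cs (lf (nat_lit 5) (nat_lit 206)) (nd (nat_lit 275) (nat_lit 0) (cs (lf (nat_lit 42) (nat_lit 208)) (nd (nat_lit 276) (nat_lit 0) (cs (lf (nat_lit 29) (nat_lit 209)) (nd (nat_lit 274) (nat_lit 0) (cs (lf (nat_lit 41) (nat_lit 208)) (nd (nat_lit 252) (nat_lit 0) (cs (lf (nat_lit 47) (nat_lit 185)) (rf (nat_lit 10))))))))))))))))))))))))) (nd (nat_lit 206) (nat_lit 0) (cs (rf (nat_lit 3)) (cs (rf (nat_lit 4)) (cs (rf (nat_lit 5)) (nd (nat_lit 185) (nat_lit 0) (cs (rf (nat_lit 11)) (cs (rf (nat_lit 12)) (cs (rf (nat_lit 13)) (cs (nd (nat_lit 186) (nat_lit 0) (cs (rf (nat_lit 14)) (cs (nd (nat_lit 252) (nat_lit 0) (cs (lf (nat_lit 42) (nat_lit 185)) (nd (nat_lit 164) (nat_lit 0) (cs (lf (nat_lit 28) (nat_lit 164)) (nd (nat_lit 143) (nat_lit 0) (cs (lf (nat_lit 34) (nat_lit 142)) (rf (nat_lit 15)))))))) (cs (nd (nat_lit 184) (nat_lit 0) (cs (rf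 (nat_lit 16)) (nd (nat_lit 252) (nat_lit 0) (cs (lf (nat_lit 42) (nat_lit 185)) (nd (nat_lit 251) (nat_lit 0) (cs (lf (nat_lit 41) (nat_lit 185)) (nd (nat_lit 162) (nat_lit 0) (cs (lf (nat_lit 43) (nat_lit 162)) (nd (nat_lit 140) (nat_lit 0) (cs (lf (nat_lit 24) (nat_lit 118)) (nd (nat_lit 141) (nat_lit 0) (cs (lf (nat_lit 35) (nat_lit 118)) (rf (nat_lit 17)))))))))))))) (nd (nat_lit 252) (nat_lit 0) (cs (rf (nat_lit 18)) (lf (nat_lit 42) (nat_lit 185)))))))) (nd (nat_lit 229) (nat_lit 0) (cs (rf (nat_lit 19)) (cs (rf (nat_lit 20)) (cs (nd (nat_lit 231) (nat_lit 0) (cs (lf (nat_lit 18) (nat_lit 206)) (nd (nat_lit 186) (nat_lit 0) (cs (lf (nat_lit 24) (nat_lit 164)) (nd (nat_lit 251) (nat_lit 0) (cs (lf (nat_lit 30) (nat_lit 185)) (nd (nat_lit 184) (nat_lit 0) (cs (lf (nat_lit 47) (nat_lit 162)) (rf (nat_lit 21)))))))))) (nd (nat_lit 231) (nat_lit 0) (cs (lf (nat_lit 18) (nat_lit 206)) (nd (nat_lit 163) (nat_lit 0) (cs (lf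 (nat_lit 24) (nat_lit 141)) (nd (nat_lit 142) (nat_lit 0) (cs (lf (nat_lit 34) (nat_lit 141)) (nd (nat_lit 162) (nat_lit 0) (cs (lf (nat_lit 47) (nat_lit 140)) (nd (nat_lit 184) (nat_lit 0) (cs (lf (nat_lit 42) (nat_lit 162)) (rf (nat_lit 22)))))))))))))))))))))))))))))) q12644 (by decide +kernel)
def q13007 : Q := Q.p (nat_lit 0x1e00000000000000000000000000000000000000000000000000000000000000000000) (nat_lit 0x39c0006000038000000000000000000000000000000000000000000000000000000000000000) (nat_lit 6)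
theorem c13007 : QOK q13007 := cut [q13006] ⟨c13006, trivial⟩ (nd (nat_lit 295) (nat_lit 0) (cs (lf (nat_lit 11) (nat_lit 272)) (rf (nat_lit 0)))) q13007 (by decide +kernel)
def q13042 : Q := Q.p (nat_lit 0xe00002000000000000000000000000000000000000000000000000000000000000000) (nat_lit 0x100000600001c0003f40007f8003ff0001180000800002000000000000000000000000000000000000000000000000000000000) (nat_lit 11)
theorem c13042 : QOK q13042 := cut [q12908, q12938, q2579, q12932, q13014, q13026, q13034, q13041] ⟨c12908, c12938, c2579, c12932, c13014, c13026, c13034, c13041, trivial⟩ (nd (nat_lit 297) (nat_lit 0) (cs (rf (nat_lit 0)) (cs (rf (nat_lit 1)) (cs (nd (nat_lit 319) (nat_lit 0) (cs (rf (nat_lit 2)) (cs (rf (nat_lit 3)) (cs (nd (nat_lit 342) (nat_lit 0) (cs (lf (nat_lit 28) (nat_lit 253)) (nd (nat_lit 341) (nat_lit 0) (cs (lf (nat_lit 29) (nat_lit 275)) (nd (nat_lit 296) (nat_lit 0) (cs (lf (nat_lit 42) (nat_lit 274)) (nd (nat_lit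 272) (nat_lit 0) (cs (lf (nat_lit 0) (nat_lit 271)) (rf (nat_lit 4)))))))))) (cs (nd (nat_lit 320) (nat_lit 0) (cs (lf (nat_lit 29) (nat_lit 253)) (nd (nat_lit 295) (nat_lit 0) (cs (nd (nat_lit 294) (nat_lit 0) (cs (lf (nat_lit 2) (nat_lit 294)) (lf (nat_lit 6) (nat_lit 272)))) (cs (rf (nat_lit 5)) (nd (nat_lit 318) (nat_lit 0) (cs (lf (nat_lit 41) (nat_lit 252)) (nd (nat_lit 294) (nat_lit 0) (cs (lf (nat_lit 21) (nat_lit 294)) (lf (nat_lit 6) (nat_lit 272))))))))))) (nd (nat_lit 340) (nat_lit 0) (cs (lf (nat_lit 40) (nat_lit 252)) (nd (nat_lit 341) (nat_lit 0) (cs (lf (nat_lit 41) (nat_lit 274)) (nd (nat_lit 296) (nat_lit 0) (cs (lf (nat_lit 42) (nat_lit 274)) (rf (nat_lit 6))))))))))))) (rf (nat_lit 7)))))) q13042 (by decide +kernel)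
def q13149 : Q := Q.p (nat_lit 0xe0000200000800002000000000000000000000000000000000000000000000000000000000000000) (nat_lit 0x3cc000f00007cc0000000000000000000000000000000000000000000000000000000000000000000000000) (nat_lit 9)
theorem c13149 : QOK q13149 := cut [q13148] ⟨c13148, trivial⟩ (nd (nat_lit 320) (nat_lit 0) (cs (lf (nat_lit 29) (nat_lit 253)) (rf (nat_lit 0)))) q13149 (by decide +kernel)
def q13236 : Q := Q.p (nat_lit 0x40000000000c00002000000000010000000000000000000000000000000000000000000000000000) (nat_lit 0x30000080000300001000001e00006000000000040000000000000000000000000000000000000000000000) (nat_lit 6)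
theorem c13236 : QOK q13236 := cut [q12652, q13235] ⟨c12652, c13235, trivial⟩ (nd (nat_lit 252) (nat_lit 0) (cs (rf (nat_lit 0)) (rf (nat_lit 1)))) q13236 (by decide +kernel)
def q13372 : Q := Q.p (nat_lit 0x1e00002000002000010000000000000000000000000000000000000000000000000000) (nat_lit 0x40000100000d780001c0001b80075e003ef0003dc0003e0000f80000000000000000000000000000000000) (nat_lit 13)
theorem c13372 : QOK q13372 := cut [q1550, q117, q13340, q153, q13353, q13356, q13362, q13367] ⟨c1550, c117, c13340, c153, c13353, c13356, c13362, c13367, trivial⟩ (nd (nat_lit 207) (nat_lit 0) (cs (nd (nat_lit 251) (nat_lit 0) (cs (lf (nat_lit 29) (nat_lit 207)) (lf (nat_lit 35) (nat_lit 185)))) (cs (nd (nat_lit 209) (nat_lit 0) (cs (nd (nat_lit 206) (nat_lit 0) (cs (rf (nat_lit 0)) (cs (nd (nat_lit 298) (nat_lit 0) (cs (lf (nat_lit 5) (nat_lit 273)) (nd (nat_lit 320) (nat_lit 0) (cs (rf (nat_lit 1)) (lf (nat_lit 42) (nat_lit 253)))))) (cs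 (nd (nat_lit 187) (nat_lit 0) (cs (lf (nat_lit 17) (nat_lit 184)) (nd (nat_lit 228) (nat_lit 0) (cs (lf (nat_lit 11) (nat_lit 205)) (nd (nat_lit 184) (nat_lit 0) (cs (lf (nat_lit 23) (nat_lit 183)) (nd (nat_lit 162) (nat_lit 0) (cs (lf (nat_lit 24) (nat_lit 140)) (nd (nat_lit 143) (nat_lit 0) (cs (nd (nat_lit 230) (nat_lit 0) (cs (lf (nat_lit 37) (nat_lit 142)) (lf (nat_lit 31) (nat_lit 186)))) (nd (nat_lit 298) (nat_lit 0) (cs (lf (nat_lit 5) (nat_lit 273)) (nd (nat_lit 163) (nat_lit 0) (cs (lf (nat_lit 35) (nat_lit 140)) (nd (nat_lit 161) (nat_lit 0) (cs (lf (nat_lit 47) (nat_lit 139)) (nd (nat_lit 164) (nat_lit 0) (cs (lf (nat_lit 16) (nat_lit 139)) (lf (nat_lit 4) (nat_lit 161)))))))))))))))))))) (rf (nat_lit 2)))))) (cs (nd (nat_lit 210) (nat_lit 0) (cs (nd (nat_lit 188) (nat_lit 0) (cs (lf (nat_lit 17) (nat_lit 185)) (nd (nat_lit 187) (nat_lit 0) (cs (lf (nat_lit 12) (nat_lit 184)) (nd (nat_lit 230) (nat_lit 0) (cs (lf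 (nat_lit 6) (nat_lit 207)) (lf (nat_lit 31) (nat_lit 186)))))))) (cs (nd (nat_lit 298) (nat_lit 0) (cs (lf (nat_lit 5) (nat_lit 273)) (nd (nat_lit 320) (nat_lit 0) (cs (lf (nat_lit 42) (nat_lit 253)) (nd (nat_lit 232) (nat_lit 0) (cs (lf (nat_lit 5) (nat_lit 207)) (nd (nat_lit 188) (nat_lit 0) (cs (lf (nat_lit 17) (nat_lit 185)) (nd (nat_lit 206) (nat_lit 0) (cs (lf (nat_lit 16) (nat_lit 184)) (nd (nat_lit 183) (nat_lit 0) (cs (lf (nat_lit 22) (nat_lit 183)) (nd (nat_lit 205) (nat_lit 0) (cs (lf (nat_lit 23) (nat_lit 182)) (nd (nat_lit 204) (nat_lit 0) (cs (rf (nat_lit 3)) (lf (nat_lit 5) (nat_lit 204)))))))))))))))))) (cs (nd (nat_lit 298) (nat_lit 0) (cs (lf (nat_lit 5) (nat_lit 273)) (nd (nat_lit 320) (nat_lit 0) (cs (lf (nat_lit 42) (nat_lit 253)) (rf (nat_lit 4)))))) (rf (nat_lit 5)))))) (cs (nd (nat_lit 298) (nat_lit 0) (cs (lf (nat_lit 5) (nat_lit 273)) (nd (nat_lit 320) (nat_lit 0) (cs (lf (nat_lit 42) (nat_lit 253))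 (nd (nat_lit 210) (nat_lit 0) (cs (lf (nat_lit 11) (nat_lit 206)) (rf (nat_lit 4)))))))) (cs (rf (nat_lit 6)) (nd (nat_lit 210) (nat_lit 0) (cs (lf (nat_lit 11) (nat_lit 206)) (nd (nat_lit 298) (nat_lit 0) (cs (lf (nat_lit 5) (nat_lit 273)) (nd (nat_lit 320) (nat_lit 0) (cs (lf (nat_lit 42) (nat_lit 253)) (rf (nat_lit 5))))))))))))) (nd (nat_lit 298) (nat_lit 0) (cs (lf (nat_lit 5) (nat_lit 273)) (nd (nat_lit 320) (nat_lit 0) (cs (lf (nat_lit 42) (nat_lit 253)) (nd (nat_lit 251) (nat_lit 0) (cs (lf (nat_lit 29) (nat_lit 207)) (nd (nat_lit 184) (nat_lit 0) (cs (lf (nat_lit 46) (nat_lit 184)) (rf (nat_lit 7))))))))))))) q13372 (by decide +kernel)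
def q14106 : Q := Q.p (nat_lit 0x800000c00002000000000010000000000000000000000000000000000000000000000000000) (nat_lit 0x80000f00007f0007fc001f70007f0000f98003f40001e0000040000000000000000000000000000000000000000000000) (nat_lit 16)
theorem c14106 : QOK q14106 := cut [q13941, q13948, q12652, q13912, q13952, q13996, q14017, q14020, q14029, q14034, q14037, q14062, q14079, q14081, q14092, q14094] ⟨c13941, c13948, c12652, c13912, c13952, c13996, c14017, c14020, c14029, c14034, c14037, c14062, c14079, c14081, c14092, c14094, trivial⟩ (nd (nat_lit 300) (nat_lit 0) (cs (rf (nat_lit 0)) (cs (rf (nat_lit 1)) (cs (nd (nat_lit 252) (nat_lit 0) (cs (rf (nat_lit 2)) (cs (nd (nat_lit 277) (nat_lit 0) (cs (rf (nat_lit 3)) (nd (nat_lit 322) (nat_lit 0) (cs (rf (nat_lit 4)) (cs (rf (nat_lit 5)) (cs (rf (nat_lit 6)) (rf (nat_lit 7)))))))) (nd (nat_lit 277) (nat_lit 0) (cs (rf (nat_lit 3)) (nd (nat_lit 322) (nat_lit 0) (cs (rf (nat_lit 4)) (cs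 (rf (nat_lit 6)) (cs (rf (nat_lit 7)) (rf (nat_lit 8))))))))))) (nd (nat_lit 301) (nat_lit 0) (cs (rf (nat_lit 9)) (cs (nd (nat_lit 298) (nat_lit 0) (cs (lf (nat_lit 22) (nat_lit 275)) (nd (nat_lit 279) (nat_lit 0) (cs (lf (nat_lit 17) (nat_lit 276)) (nd (nat_lit 324) (nat_lit 0) (cs (nd (nat_lit 320) (nat_lit 0) (cs (rf (nat_lit 10)) (lf (nat_lit 11) (nat_lit 297)))) (lf (nat_lit 4) (nat_lit 298)))))))) (cs (nd (nat_lit 302) (nat_lit 0) (cs (nd (nat_lit 280) (nat_lit 0) (cs (lf (nat_lit 17) (nat_lit 277)) (nd (nat_lit 324) (nat_lit 0) (cs (lf (nat_lit 5) (nat_lit 299)) (nd (nat_lit 298) (nat_lit 0) (cs (lf (nat_lit 4) (nat_lit 298)) (lf (nat_lit 16) (nat_lit 276)))))))) (cs (nd (nat_lit 280) (nat_lit 0) (cs (lf (nat_lit 17) (nat_lit 277)) (nd (nat_lit 279) (nat_lit 0) (cs (nd (nat_lit 321) (nat_lit 0) (cs (lf (nat_lit 11) (nat_lit 298)) (nd (nat_lit 303) (nat_lit 0) (cs (nd (nat_lit 278) (nat_lit 0) (cs (lf (nat_lit 18) (nat_lit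 278)) (lf (nat_lit 0) (nat_lit 277)))) (lf (nat_lit 10) (nat_lit 299)))))) (lf (nat_lit 12) (nat_lit 276)))))) (cs (nd (nat_lit 324) (nat_lit 0) (cs (lf (nat_lit 5) (nat_lit 299)) (nd (nat_lit 298) (nat_lit 0) (cs (lf (nat_lit 4) (nat_lit 298)) (nd (nat_lit 320) (nat_lit 0) (cs (lf (nat_lit 10) (nat_lit 298)) (lf (nat_lit 11) (nat_lit 297)))))))) (nd (nat_lit 324) (nat_lit 0) (cs (lf (nat_lit 5) (nat_lit 299)) (nd (nat_lit 280) (nat_lit 0) (cs (lf (nat_lit 17) (nat_lit 277)) (nd (nat_lit 321) (nat_lit 0) (cs (lf (nat_lit 11) (nat_lit 298)) (nd (nat_lit 303) (nat_lit 0) (cs (lf (nat_lit 10) (nat_lit 299)) (nd (nat_lit 278) (nat_lit 0) (cs (nd (nat_lit 343) (nat_lit 0) (cs (lf (nat_lit 30) (nat_lit 277)) (nd (nat_lit 279) (nat_lit 0) (cs (lf (nat_lit 18) (nat_lit 278)) (rf (nat_lit 11)))))) (lf (nat_lit 23) (nat_lit 277)))))))))))))))) (nd (nat_lit 302) (nat_lit 0) (cs (nd (nat_lit 281) (nat_lit 0) (cs (nd (nat_lit 321) (nat_lit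 0) (cs (lf (nat_lit 11) (nat_lit 298)) (nd (nat_lit 303) (nat_lit 0) (cs (lf (nat_lit 10) (nat_lit 299)) (lf (nat_lit 17) (nat_lit 278)))))) (lf (nat_lit 16) (nat_lit 277)))) (cs (nd (nat_lit 277) (nat_lit 0) (cs (lf (nat_lit 2) (nat_lit 274)) (nd (nat_lit 344) (nat_lit 0) (cs (rf (nat_lit 12)) (cs (nd (nat_lit 321) (nat_lit 0) (cs (lf (nat_lit 11) (nat_lit 298)) (nd (nat_lit 324) (nat_lit 0) (cs (lf (nat_lit 5) (nat_lit 299)) (rf (nat_lit 13)))))) (cs (rf (nat_lit 14)) (rf (nat_lit 15)))))))) (nd (nat_lit 277) (nat_lit 0) (cs (lf (nat_lit 23) (nat_lit 276)) (nd (nat_lit 325) (nat_lit 0) (cs (nd (nat_lit 303) (nat_lit 0) (cs (lf (nat_lit 22) (nat_lit 277)) (lf (nat_lit 5) (nat_lit 300)))) (lf (nat_lit 4) (nat_lit 299))))))))))))))))) q14106 (by decide +kernel)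
def q14252 : Q := Q.p (nat_lit 0x1d00003000000000010000000000000000000000000000000000000000000000000000) (nat_lit 0x2a0000fc0003f0003fc0000f0000fc0003e0002f800018000060000080000000000000000000000000000000000) (nat_lit 13)
theorem c14252 : QOK q14252 := cut [q14115, q14128, q14136, q14138, q14145, q14148, q14152, q14121, q14179, q14184, q14188, q14190, q14250] ⟨c14115, c14128, c14136, c14138, c14145, c14148, c14152, c14121, c14179, c14184, c14188, c14190, c14250, trivial⟩ (nd (nat_lit 250) (nat_lit 0) (cs (lf (nat_lit 1) (nat_lit 250)) (nd (nat_lit 294) (nat_lit 0) (cs (nd (nat_lit 316) (nat_lit 0) (cs (rf (nat_lit 0)) (cs (rf (nat_lit 1)) (nd (nat_lit 315) (nat_lit 0) (cs (lf (nat_lit 41) (nat_lit 249)) (nd (nat_lit 317) (nat_lit 0) (cs (lf (nat_lit 29) (nat_lit 250)) (nd (nat_lit 295) (nat_lit 0) (cs (nd (nat_lit 296) (nat_lit 0) (cs (lf (nat_lit 12) (nat_lit 292)) (lf (nat_lit 15) (nat_lit 272)))) (lf (nat_lit 24) (nat_lit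 228))))))))))) (cs (nd (nat_lit 228) (nat_lit 0) (cs (nd (nat_lit 293) (nat_lit 0) (cs (lf (nat_lit 41) (nat_lit 227)) (rf (nat_lit 2)))) (cs (nd (nat_lit 207) (nat_lit 0) (cs (lf (nat_lit 34) (nat_lit 206)) (nd (nat_lit 206) (nat_lit 0) (cs (rf (nat_lit 3)) (cs (nd (nat_lit 184) (nat_lit 0) (cs (nd (nat_lit 183) (nat_lit 0) (cs (lf (nat_lit 18) (nat_lit 183)) (lf (nat_lit 47) (nat_lit 161)))) (cs (nd (nat_lit 295) (nat_lit 0) (cs (lf (nat_lit 29) (nat_lit 228)) (nd (nat_lit 296) (nat_lit 0) (cs (lf (nat_lit 15) (nat_lit 272)) (nd (nat_lit 249) (nat_lit 0) (cs (lf (nat_lit 41) (nat_lit 183)) (nd (nat_lit 227) (nat_lit 0) (cs (lf (nat_lit 6) (nat_lit 205)) (lf (nat_lit 36) (nat_lit 161)))))))))) (rf (nat_lit 4))))) (cs (rf (nat_lit 5)) (nd (nat_lit 227) (nat_lit 0) (cs (lf (nat_lit 6) (nat_lit 205)) (lf (nat_lit 47) (nat_lit 205)))))))))) (nd (nat_lit 205) (nat_lit 0) (cs (lf (nat_lit 46) (nat_lit 205)) (nd (nat_lit 207) (nat_lit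 0) (cs (lf (nat_lit 34) (nat_lit 206)) (rf (nat_lit 6))))))))) (cs (nd (nat_lit 316) (nat_lit 0) (cs (rf (nat_lit 7)) (cs (rf (nat_lit 1)) (cs (nd (nat_lit 315) (nat_lit 0) (cs (lf (nat_lit 41) (nat_lit 249)) (nd (nat_lit 314) (nat_lit 0) (cs (nd (nat_lit 227) (nat_lit 0) (cs (lf (nat_lit 46) (nat_lit 227)) (nd (nat_lit 295) (nat_lit 0) (cs (lf (nat_lit 12) (nat_lit 291)) (nd (nat_lit 296) (nat_lit 0) (cs (lf (nat_lit 12) (nat_lit 271)) (lf (nat_lit 6) (nat_lit 293)))))))) (cs (nd (nat_lit 249) (nat_lit 0) (cs (lf (nat_lit 47) (nat_lit 227)) (nd (nat_lit 317) (nat_lit 0) (cs (lf (nat_lit 29) (nat_lit 250)) (nd (nat_lit 292) (nat_lit 0) (cs (lf (nat_lit 23) (nat_lit 291)) (nd (nat_lit 295) (nat_lit 0) (cs (nd (nat_lit 336) (nat_lit 0) (cs (lf (nat_lit 11) (nat_lit 313)) (nd (nat_lit 271) (nat_lit 0) (cs (lf (nat_lit 33) (nat_lit 248)) (lf (nat_lit 38) (nat_lit 248)))))) (lf (nat_lit 17) (nat_lit 292)))))))))) (rf (nat_lit 8)))))))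 (rf (nat_lit 9)))))) (cs (nd (nat_lit 295) (nat_lit 0) (cs (nd (nat_lit 296) (nat_lit 0) (cs (lf (nat_lit 12) (nat_lit 271)) (lf (nat_lit 15) (nat_lit 272)))) (rf (nat_lit 10)))) (cs (rf (nat_lit 11)) (rf (nat_lit 12)))))))))) q14252 (by decide +kernel)
def q14320 : Q := Q.p (nat_lit 0x300000c00003000000000000000000000000000000000000000000000000000000000000000) (nat_lit 0x18000078000c80000000000800002000000000000000000000000000000000000000000000000000000000) (nat_lit 6)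
theorem c14320 : QOK q14320 := cut [q14319] ⟨c14319, trivial⟩ (nd (nat_lit 318) (nat_lit 0) (cs (lf (nat_lit 30) (nat_lit 252)) (rf (nat_lit 0)))) q14320 (by decide +kernel)
def q14431 : Q := Q.p (nat_lit 0x80000200000e00002000000000000000000000000000000000000000000000000000000000000000) (nat_lit 0x500001c0000700039f000f78007df0000000000800000000000000000000000000000000000000000000000000000000000000) (nat_lit 13)
theorem c14431 : QOK q14431 := cut [q13132, q13153, q13148, q14399, q14404, q13144, q14415, q13152, q14420] ⟨c13132, c13153, c13148, c14399, c14404, c13144, c14415, c13152, c14420, trivial⟩ (nd (nat_lit 318) (nat_lit 0) (cs (lf (nat_lit 41) (nat_lit 252)) (nd (nat_lit 317) (nat_lit 0) (cs (rf (nat_lit 0)) (cs (rf (nat_lit 1)) (cs (nd (nat_lit 320) (nat_lit 0) (cs (rf (nat_lit 2)) (cs (rf (nat_lit 3)) (cs (nd (nat_lit 295) (nat_lit 0) (cs (lf (nat_lit 23) (nat_lit 294)) (nd (nat_lit 298) (nat_lit 0) (cs (lf (nat_lit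 17) (nat_lit 295)) (nd (nat_lit 339) (nat_lit 0) (cs (lf (nat_lit 11) (nat_lit 316)) (nd (nat_lit 361) (nat_lit 0) (cs (lf (nat_lit 34) (nat_lit 273)) (rf (nat_lit 4)))))))))) (cs (nd (nat_lit 338) (nat_lit 0) (cs (lf (nat_lit 10) (nat_lit 316)) (nd (nat_lit 295) (nat_lit 0) (cs (lf (nat_lit 23) (nat_lit 294)) (nd (nat_lit 321) (nat_lit 0) (cs (lf (nat_lit 22) (nat_lit 295)) (rf (nat_lit 5)))))))) (nd (nat_lit 295) (nat_lit 0) (cs (lf (nat_lit 23) (nat_lit 294)) (nd (nat_lit 338) (nat_lit 0) (cs (lf (nat_lit 10) (nat_lit 316)) (rf (nat_lit 6))))))))))) (nd (nat_lit 316) (nat_lit 0) (cs (rf (nat_lit 7)) (cs (rf (nat_lit 8)) (cs (nd (nat_lit 293) (nat_lit 0) (cs (lf (nat_lit 22) (nat_lit 293)) (nd (nat_lit 315) (nat_lit 0) (cs (lf (nat_lit 16) (nat_lit 293)) (lf (nat_lit 23) (nat_lit 292)))))) (nd (nat_lit 293) (nat_lit 0) (cs (lf (nat_lit 22) (nat_lit 293)) (nd (nat_lit 338) (nat_lit 0) (cs (lf (nat_lit 11) (nat_lit 315)) (nd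 (nat_lit 320) (nat_lit 0) (cs (lf (nat_lit 10) (nat_lit 316)) (nd (nat_lit 295) (nat_lit 0) (cs (lf (nat_lit 36) (nat_lit 250)) (nd (nat_lit 360) (nat_lit 0) (cs (rf (nat_lit 6)) (lf (nat_lit 30) (nat_lit 294)))))))))))))))))))))) q14431 (by decide +kernel)
def q14601 : Q := Q.p (nat_lit 0x200000c00002000000000010000000000000000000000000000000000000000000000000000) (nat_lit 0x400003c0003fc000fc0007df0004380011f0000700000c000040000000000000000000000000000000000000000000000) (nat_lit 12)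
theorem c14601 : QOK q14601 := cut [q12834, q13481, q12910, q13048, q14368, q14393, q14394, q12932, q12673, q13408] ⟨c12834, c13481, c12910, c13048, c14368, c14393, c14394, c12932, c12673, c13408, trivial⟩ (nd (nat_lit 273) (nat_lit 0) (cs (rf (nat_lit 0)) (cs (rf (nat_lit 1)) (cs (nd (nat_lit 319) (nat_lit 0) (cs (nd (nat_lit 340) (nat_lit 0) (cs (lf (nat_lit 40) (nat_lit 252)) (nd (nat_lit 320) (nat_lit 0) (cs (lf (nat_lit 29) (nat_lit 253)) (nd (nat_lit 341) (nat_lit 0) (cs (lf (nat_lit 41) (nat_lit 274)) (nd (nat_lit 338) (nat_lit 0) (cs (nd (nat_lit 321) (nat_lit 0) (cs (nd (nat_lit 296) (nat_lit 0) (cs (lf (nat_lit 42) (nat_lit 274)) (rf (nat_lit 2)))) (lf (nat_lit 6) (nat_lit 318)))) (lf (nat_lit 13) (nat_lit 316)))))))))) (cs (rf (nat_lit 3)) (nd (nat_lit 320) (nat_lit 0) (cs (lf (nat_lit 29) (nat_lit 253)) (nd (nat_lit 321) (nat_lit 0) (cs (rf (nat_lit 4)) (cs (rf (nat_lit 5)) (cs (rf (nat_lit 6)) (nd (nat_lit 230)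 (nat_lit 0) (cs (lf (nat_lit 46) (nat_lit 230)) (nd (nat_lit 318) (nat_lit 0) (cs (lf (nat_lit 41) (nat_lit 252)) (nd (nat_lit 343) (nat_lit 0) (cs (lf (nat_lit 5) (nat_lit 318)) (nd (nat_lit 299) (nat_lit 0) (cs (lf (nat_lit 17) (nat_lit 296)) (nd (nat_lit 296) (nat_lit 0) (cs (lf (nat_lit 23) (nat_lit 295)) (lf (nat_lit 19) (nat_lit 273))))))))))))))))))))) (nd (nat_lit 319) (nat_lit 0) (cs (rf (nat_lit 7)) (cs (rf (nat_lit 3)) (nd (nat_lit 272) (nat_lit 0) (cs (rf (nat_lit 8)) (cs (rf (nat_lit 9)) (nd (nat_lit 294) (nat_lit 0) (cs (lf (nat_lit 11) (nat_lit 271)) (nd (nat_lit 250) (nat_lit 0) (cs (lf (nat_lit 23) (nat_lit 249)) (nd (nat_lit 230) (nat_lit 0) (cs (lf (nat_lit 46) (nat_lit 230)) (nd (nat_lit 318) (nat_lit 0) (cs (lf (nat_lit 41) (nat_lit 252)) (nd (nat_lit 320) (nat_lit 0) (cs (lf (nat_lit 29) (nat_lit 253)) (nd (nat_lit 295) (nat_lit 0) (cs (lf (nat_lit 2) (nat_lit 294)) (nd (nat_lit 229) (nat_lit 0) (cs (lf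 (nat_lit 32) (nat_lit 207)) (nd (nat_lit 228) (nat_lit 0) (cs (lf (nat_lit 35) (nat_lit 206)) (lf (nat_lit 24) (nat_lit 206)))))))))))))))))))))))))))) q14601 (by decide +kernel)
def q14622 : Q := Q.p (nat_lit 0x1e00002000000000010000000000000000000000000000000000000000000000000000) (nat_lit 0x700003c0007f8001fc000ff8000dc0000000001c0000300000c000050000000000000000000000000000000000000000000000) (nat_lit 14)
theorem c14622 : QOK q14622 := cut [q13317, q14616, q12686] ⟨c13317, c14616, c12686, trivial⟩ (nd (nat_lit 251) (nat_lit 0) (cs (lf (nat_lit 23) (nat_lit 250)) (nd (nat_lit 318) (nat_lit 0) (cs (rf (nat_lit 0)) (cs (rf (nat_lit 1)) (nd (nat_lit 295) (nat_lit 0) (cs (lf (nat_lit 11) (nat_lit 272)) (nd (nat_lit 298) (nat_lit 0) (cs (lf (nat_lit 5) (nat_lit 273)) (nd (nat_lit 320) (nat_lit 0) (cs (lf (nat_lit 42) (nat_lit 253)) (nd (nat_lit 229) (nat_lit 0) (cs (lf (nat_lit 28) (nat_lit 229)) (rf (nat_lit 2)))))))))))))))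 q14622 (by decide +kernel)
def q14660 : Q := Q.p (nat_lit 0x1c00002000000000000000000000000000000000000000000000000000000000000000) (nat_lit 0x100007f0006380039f00002000008000000000000000000000000000000000000000000000000000) (nat_lit 8)
theorem c14660 : QOK q14660 := cut [q12683, q13258, q14655, q14659] ⟨c12683, c13258, c14655, c14659, trivial⟩ (nd (nat_lit 273) (nat_lit 0) (cs (rf (nat_lit 0)) (cs (rf (nat_lit 1)) (cs (rf (nat_lit 2)) (rf (nat_lit 3)))))) q14660 (by decide +kernel)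
def q14691 : Q := Q.p (nat_lit 0xe00003000000000000000000000000000000000000000000000000000000000000000) (nat_lit 0x1c00007180000e00000000000000000000000000000000000000000000000000000000000000) (nat_lit 6)
theorem c14691 : QOK q14691 := cut [q1313] ⟨c1313, trivial⟩ (nd (nat_lit 272) (nat_lit 0) (cs (lf (nat_lit 12) (nat_lit 249)) (rf (nat_lit 0)))) q14691 (by decide +kernel)
def q14709 : Q := Q.p (nat_lit 0x200000e00002000000000010000000000000000000000000000000000000000000000000000) (nat_lit 0x200000e0001180001600005000004000000000000000000000000000000000000000000000000000) (nat_lit 7)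
theorem c14709 : QOK q14709 := cut [q14708] ⟨c14708, trivial⟩ (nd (nat_lit 252) (nat_lit 0) (cs (lf (nat_lit 25) (nat_lit 208)) (rf (nat_lit 0)))) q14709 (by decide +kernel)
def q14770 : Q := Q.p (nat_lit 0xe00003000000000010000000000000000000000000000000000000000000000000000) (nat_lit 0x1c0000700001f0001000000e0000380000c000050000000000000000000000000000000000000000000000) (nat_lit 8)
theorem c14770 : QOK q14770 := cut [q5304, q12659, q14764, q14769] ⟨c5304, c12659, c14764, c14769, trivial⟩ (nd (nat_lit 251) (nat_lit 0) (cs (rf (nat_lit 0)) (cs (nd (nat_lit 295) (nat_lit 0) (cs (rf (nat_lit 1)) (cs (nd (nat_lit 317) (nat_lit 0) (cs (lf (nat_lit 30) (nat_lit 251)) (nd (nat_lit 316) (nat_lit 0) (cs (lf (nat_lit 41) (nat_lit 250)) (nd (nat_lit 294) (nat_lit 0) (cs (lf (nat_lit 36) (nat_lit 228)) (lf (nat_lit 6) (nat_lit 272)))))))) (rf (nat_lit 2))))) (rf (nat_lit 3))))) q14770 (by decide +kernel)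
def q14821 : Q := Q.p (nat_lit 0xc00003000000000010000000000000000000000000000000000000000000000000000) (nat_lit 0x100002e0001380000e00006000028000080000000000000000000000000000000000000000000000) (nat_lit 9)
theorem c14821 : QOK q14821 := cut [q14819] ⟨c14819, trivial⟩ (nd (nat_lit 230) (nat_lit 0) (cs (lf (nat_lit 29) (nat_lit 208)) (rf (nat_lit 0)))) q14821 (by decide +kernel)
def q15082 : Q := Q.p (nat_lit 0x100000c00003000000000010000000000000000000000000000000000000000000000000000) (nat_lit 0x100000fe2003ff801f9f001efc0073f0018fc0043e0002f800018000060000000000000000000000000000000000000000) (nat_lit 15)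
theorem c15082 : QOK q15082 := cut [q14914, q14310, q14956, q14250, q14790, q14971, q14973, q14974, q14977, q14984, q15057, q700, q2190, q2180, q12665, q15058, q15066, q15069, q15078] ⟨c14914, c14310, c14956, c14250, c14790, c14971, c14973, c14974, c14977, c14984, c15057, c700, c2190, c2180, c12665, c15058, c15066, c15069, c15078, trivial⟩ (nd (nat_lit 297) (nat_lit 0) (cs (rf (nat_lit 0)) (cs (nd (nat_lit 272) (nat_lit 0) (cs (rf (nat_lit 1)) (cs (nd (nat_lit 319) (nat_lit 0) (cs (lf (nat_lit 42) (nat_lit 252)) (nd (nat_lit 320) (nat_lit 0) (cs (lf (nat_lit 29) (nat_lit 253)) (nd (nat_lit 294) (nat_lit 0) (cs (lf (nat_lit 1) (nat_lit 294)) (nd (nat_lit 273) (nat_lit 0) (cs (lf (nat_lit 11) (nat_lit 271)) (nd (nat_lit 250) (nat_lit 0) (cs (lf (nat_lit 23) (nat_lit 249)) (nd (nat_lit 321) (nat_lit 0) (cs (lf (nat_lit 18) (nat_lit 296)) (rf (nat_lit 2)))))))))))))) (cs (nd (nat_lit 250) (nat_lit 0) (cs (nd (nat_lit 294) (nat_lit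 0) (cs (rf (nat_lit 3)) (cs (rf (nat_lit 4)) (rf (nat_lit 5))))) (cs (rf (nat_lit 6)) (rf (nat_lit 7))))) (nd (nat_lit 319) (nat_lit 0) (cs (lf (nat_lit 42) (nat_lit 252)) (nd (nat_lit 273) (nat_lit 0) (cs (lf (nat_lit 12) (nat_lit 249)) (rf (nat_lit 8)))))))))) (cs (rf (nat_lit 9)) (cs (rf (nat_lit 10)) (cs (nd (nat_lit 276) (nat_lit 0) (cs (rf (nat_lit 11)) (cs (rf (nat_lit 12)) (nd (nat_lit 273) (nat_lit 0) (cs (rf (nat_lit 13)) (cs (rf (nat_lit 14)) (nd (nat_lit 298) (nat_lit 0) (cs (lf (nat_lit 5) (nat_lit 273)) (nd (nat_lit 250) (nat_lit 0) (cs (lf (nat_lit 1) (nat_lit 250)) (nd (nat_lit 295) (nat_lit 0) (cs (lf (nat_lit 11) (nat_lit 272)) (rf (nat_lit 15)))))))))))))) (nd (nat_lit 294) (nat_lit 0) (cs (nd (nat_lit 295) (nat_lit 0) (cs (lf (nat_lit 12) (nat_lit 271)) (lf (nat_lit 17) (nat_lit 272)))) (cs (nd (nat_lit 272) (nat_lit 0) (cs (rf (nat_lit 1)) (cs (nd (nat_lit 319) (nat_lit 0) (cs (lf (nat_lit 42) (nat_lit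 252)) (rf (nat_lit 16)))) (cs (nd (nat_lit 250) (nat_lit 0) (cs (rf (nat_lit 5)) (cs (rf (nat_lit 6)) (rf (nat_lit 7))))) (rf (nat_lit 17)))))) (cs (nd (nat_lit 276) (nat_lit 0) (cs (rf (nat_lit 11)) (lf (nat_lit 13) (nat_lit 272)))) (nd (nat_lit 319) (nat_lit 0) (cs (lf (nat_lit 42) (nat_lit 252)) (nd (nat_lit 295) (nat_lit 0) (cs (lf (nat_lit 12) (nat_lit 271)) (rf (nat_lit 18)))))))))))))))) q15082 (by decide +kernel)
def q15124 : Q := Q.p (nat_lit 0x140000000000c00003000000000000000000000000000000000000000000000000000000000000000) (nat_lit 0x1fe0002b00002e0000000000000000000000000000000000000000000000000000000000000000000000000) (nat_lit 6)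
theorem c15124 : QOK q15124 := cut [q13129, q13158, q13603] ⟨c13129, c13158, c13603, trivial⟩ (nd (nat_lit 319) (nat_lit 0) (cs (rf (nat_lit 0)) (cs (rf (nat_lit 1)) (cs (rf (nat_lit 2)) (nd (nat_lit 297) (nat_lit 0) (cs (lf (nat_lit 29) (nat_lit 253)) (lf (nat_lit 42) (nat_lit 252)))))))) q15124 (by decide +kernel)
def q15319 : Q := Q.p (nat_lit 0x800000c00000000078000000000000000000000000000000000000000000000000000) (nat_lit 0x80000380002e0000f80017f8000380031f0000780031e000000000000000000000000000000000000000000000) (nat_lit 13)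
theorem c15319 : QOK q15319 := cut [q117, q15260, q15264, q15267, q15253, q15251, q15232, q15282, q11170, q15305, q15307, q15262, q15313] ⟨c117, c15260, c15264, c15267, c15253, c15251, c15232, c15282, c11170, c15305, c15307, c15262, c15313, trivial⟩ (nd (nat_lit 206) (nat_lit 0) (cs (rf (nat_lit 0)) (cs (rf (nat_lit 1)) (cs (nd (nat_lit 188) (nat_lit 0) (cs (lf (nat_lit 17) (nat_lit 185)) (nd (nat_lit 232) (nat_lit 0) (cs (lf (nat_lit 5) (nat_lit 207)) (rf (nat_lit 2)))))) (cs (nd (nat_lit 188) (nat_lit 0) (cs (lf (nat_lit 17) (nat_lit 185)) (nd (nat_lit 232) (nat_lit 0) (cs (lf (nat_lit 5) (nat_lit 207)) (nd (nat_lit 184) (nat_lit 0) (cs (lf (nat_lit 23) (nat_lit 183)) (nd (nat_lit 273) (nat_lit 0) (cs (rf (nat_lit 3)) (lf (nat_lit 26) (nat_lit 184)))))))))) (nd (nat_lit 249) (nat_lit 0) (cs (nd (nat_lit 227) (nat_lit 0) (cs (lf (nat_lit 10) (nat_lit 205)) (nd (nat_lit 205) (nat_lit 0) (cs (lf (nat_lit 11) (nat_lit 204))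 (nd (nat_lit 183) (nat_lit 0) (cs (lf (nat_lit 23) (nat_lit 182)) (lf (nat_lit 29) (nat_lit 183)))))))) (cs (nd (nat_lit 248) (nat_lit 0) (cs (rf (nat_lit 4)) (cs (nd (nat_lit 188) (nat_lit 0) (cs (lf (nat_lit 17) (nat_lit 185)) (nd (nat_lit 225) (nat_lit 0) (cs (lf (nat_lit 22) (nat_lit 225)) (nd (nat_lit 247) (nat_lit 0) (cs (lf (nat_lit 23) (nat_lit 224)) (rf (nat_lit 5)))))))) (cs (nd (nat_lit 226) (nat_lit 0) (cs (lf (nat_lit 23) (nat_lit 225)) (nd (nat_lit 270) (nat_lit 0) (cs (lf (nat_lit 11) (nat_lit 247)) (nd (nat_lit 292) (nat_lit 0) (cs (rf (nat_lit 6)) (cs (nd (nat_lit 273) (nat_lit 0) (cs (lf (nat_lit 5) (nat_lit 248)) (nd (nat_lit 188) (nat_lit 0) (cs (lf (nat_lit 17) (nat_lit 185)) (nd (nat_lit 313) (nat_lit 0) (cs (lf (nat_lit 40) (nat_lit 225)) (nd (nat_lit 314) (nat_lit 0) (cs (lf (nat_lit 41) (nat_lit 247)) (rf (nat_lit 7)))))))))) (cs (nd (nat_lit 232) (nat_lit 0) (cs (lf (nat_lit 5) (nat_lit 207)) (nd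 (nat_lit 188) (nat_lit 0) (cs (lf (nat_lit 17) (nat_lit 185)) (nd (nat_lit 273) (nat_lit 0) (cs (lf (nat_lit 5) (nat_lit 248)) (nd (nat_lit 291) (nat_lit 0) (cs (lf (nat_lit 41) (nat_lit 225)) (nd (nat_lit 271) (nat_lit 0) (cs (rf (nat_lit 8)) (lf (nat_lit 7) (nat_lit 269)))))))))))) (nd (nat_lit 273) (nat_lit 0) (cs (lf (nat_lit 5) (nat_lit 248)) (nd (nat_lit 232) (nat_lit 0) (cs (lf (nat_lit 5) (nat_lit 207)) (nd (nat_lit 293) (nat_lit 0) (cs (lf (nat_lit 29) (nat_lit 226)) (nd (nat_lit 204) (nat_lit 0) (cs (lf (nat_lit 28) (nat_lit 204)) (nd (nat_lit 205) (nat_lit 0) (cs (nd (nat_lit 181) (nat_lit 0) (cs (lf (nat_lit 22) (nat_lit 181)) (lf (nat_lit 46) (nat_lit 181)))) (lf (nat_lit 35) (nat_lit 182)))))))))))))))))))) (rf (nat_lit 9)))))) (cs (nd (nat_lit 273) (nat_lit 0) (cs (rf (nat_lit 10)) (nd (nat_lit 232) (nat_lit 0) (cs (lf (nat_lit 5) (nat_lit 207)) (nd (nat_lit 188) (nat_lit 0) (cs (lf (nat_lit 17) (nat_lit 185))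 (nd (nat_lit 228) (nat_lit 0) (cs (lf (nat_lit 11) (nat_lit 205)) (rf (nat_lit 11)))))))))) (nd (nat_lit 232) (nat_lit 0) (cs (lf (nat_lit 5) (nat_lit 207)) (nd (nat_lit 188) (nat_lit 0) (cs (lf (nat_lit 17) (nat_lit 185)) (nd (nat_lit 227) (nat_lit 0) (cs (lf (nat_lit 10) (nat_lit 205)) (nd (nat_lit 205) (nat_lit 0) (cs (lf (nat_lit 11) (nat_lit 204)) (rf (nat_lit 12))))))))))))))))))) q15319 (by decide +kernel)
def q15393 : Q := Q.p (nat_lit 0x800002800000000078000000000000000000000000000000000000000000000000000) (nat_lit 0x740003f0000de00077c0001700036e00004000350000100000400000000000000000000000000000000000) (nat_lit 12)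
theorem c15393 : QOK q15393 := cut [q15142, q15358, q15361, q15364, q14866, q14907, q15375, q929, q9858, q15387] ⟨c15142, c15358, c15361, c15364, c14866, c14907, c15375, c929, c9858, c15387, trivial⟩ (nd (nat_lit 252) (nat_lit 0) (cs (rf (nat_lit 0)) (cs (nd (nat_lit 188) (nat_lit 0) (cs (lf (nat_lit 17) (nat_lit 185)) (nd (nat_lit 250) (nat_lit 0) (cs (lf (nat_lit 5) (nat_lit 250)) (nd (nat_lit 271) (nat_lit 0) (cs (lf (nat_lit 10) (nat_lit 249)) (nd (nat_lit 249) (nat_lit 0) (cs (lf (nat_lit 11) (nat_lit 248)) (nd (nat_lit 226) (nat_lit 0) (cs (lf (nat_lit 22) (nat_lit 226)) (nd (nat_lit 248) (nat_lit 0) (cs (lf (nat_lit 23) (nat_lit 225)) (nd (nat_lit 230) (nat_lit 0) (cs (lf (nat_lit 24) (nat_lit 186)) (lf (nat_lit 16) (nat_lit 226)))))))))))))))) (cs (nd (nat_lit 273) (nat_lit 0) (cs (rf (nat_lit 1)) (cs (nd (nat_lit 188) (nat_lit 0) (cs (lf (nat_lit 17) (nat_lit 185)) (rf (nat_lit 2)))) (cs (nd (nat_lit 188) (nat_lit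 0) (cs (lf (nat_lit 17) (nat_lit 185)) (nd (nat_lit 232) (nat_lit 0) (cs (lf (nat_lit 5) (nat_lit 207)) (rf (nat_lit 3)))))) (nd (nat_lit 274) (nat_lit 0) (cs (rf (nat_lit 4)) (cs (rf (nat_lit 5)) (cs (nd (nat_lit 188) (nat_lit 0) (cs (lf (nat_lit 17) (nat_lit 185)) (nd (nat_lit 276) (nat_lit 0) (cs (lf (nat_lit 18) (nat_lit 251)) (nd (nat_lit 296) (nat_lit 0) (cs (lf (nat_lit 25) (nat_lit 207)) (nd (nat_lit 318) (nat_lit 0) (cs (lf (nat_lit 30) (nat_lit 252)) (nd (nat_lit 319) (nat_lit 0) (cs (lf (nat_lit 29) (nat_lit 252)) (nd (nat_lit 298) (nat_lit 0) (cs (lf (nat_lit 5) (nat_lit 273)) (nd (nat_lit 320) (nat_lit 0) (cs (lf (nat_lit 42) (nat_lit 253)) (nd (nat_lit 295) (nat_lit 0) (cs (lf (nat_lit 18) (nat_lit 295)) (lf (nat_lit 37) (nat_lit 207)))))))))))))))))) (nd (nat_lit 188) (nat_lit 0) (cs (lf (nat_lit 17) (nat_lit 185)) (nd (nat_lit 276) (nat_lit 0) (cs (lf (nat_lit 18) (nat_lit 251)) (nd (nat_lit 229) (nat_lit 0)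 (cs (lf (nat_lit 29) (nat_lit 207)) (rf (nat_lit 6)))))))))))))))) (cs (nd (nat_lit 273) (nat_lit 0) (cs (rf (nat_lit 1)) (cs (rf (nat_lit 2)) (cs (rf (nat_lit 3)) (nd (nat_lit 272) (nat_lit 0) (cs (rf (nat_lit 7)) (nd (nat_lit 188) (nat_lit 0) (cs (lf (nat_lit 17) (nat_lit 185)) (nd (nat_lit 229) (nat_lit 0) (cs (lf (nat_lit 41) (nat_lit 206)) (nd (nat_lit 184) (nat_lit 0) (cs (lf (nat_lit 46) (nat_lit 184)) (rf (nat_lit 8)))))))))))))) (nd (nat_lit 188) (nat_lit 0) (cs (lf (nat_lit 17) (nat_lit 185)) (nd (nat_lit 186) (nat_lit 0) (cs (lf (nat_lit 26) (nat_lit 186)) (nd (nat_lit 229) (nat_lit 0) (cs (lf (nat_lit 30) (nat_lit 185)) (nd (nat_lit 142) (nat_lit 0) (cs (lf (nat_lit 37) (nat_lit 141)) (nd (nat_lit 232) (nat_lit 0) (cs (lf (nat_lit 5) (nat_lit 207)) (rf (nat_lit 9))))))))))))))))) q15393 (by decide +kernel)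
def q15461 : Q := Q.p (nat_lit 0x8000020000000000f0000000000000000000000000000000000000000000000000000) (nat_lit 0x580003780001c0000e000100000680000000000000000000000000000000000000000000000) (nat_lit 10)
theorem c15461 : QOK q15461 := cut [q726] ⟨c726, trivial⟩ (nd (nat_lit 230) (nat_lit 0) (cs (lf (nat_lit 11) (nat_lit 207)) (nd (nat_lit 189) (nat_lit 0) (cs (lf (nat_lit 17) (nat_lit 186)) (nd (nat_lit 231) (nat_lit 0) (cs (rf (nat_lit 0)) (lf (nat_lit 6) (nat_lit 208)))))))) q15461 (by decide +kernel)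
def q15522 : Q := Q.p (nat_lit 0x1c00002000000000000000000000000000000000000000000000000000000000000000) (nat_lit 0x38e0006380039f00000000000000000000000000000000000000000000000000000000000000) (nat_lit 7)
theorem c15522 : QOK q15522 := cut [q13258, q15516, q15518, q15521] ⟨c13258, c15516, c15518, c15521, trivial⟩ (nd (nat_lit 273) (nat_lit 0) (cs (rf (nat_lit 0)) (cs (rf (nat_lit 1)) (cs (rf (nat_lit 2)) (rf (nat_lit 3)))))) q15522 (by decide +kernel)
def q15538 : Q := Q.p (nat_lit 0x1c00002000000000010000000000000000000000000000000000000000000000000000) (nat_lit 0x40000700001c0000700003c000060000398000780001e00005c0000400000000000000000000000000000000000000000) (nat_lit 11)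
theorem c15538 : QOK q15538 := cut [q15523, q13005, q13254, q14275, q15527, q15529, q15531, q15537] ⟨c15523, c13005, c13254, c14275, c15527, c15529, c15531, c15537, trivial⟩ (nd (nat_lit 209) (nat_lit 0) (cs (rf (nat_lit 0)) (cs (nd (nat_lit 277) (nat_lit 0) (cs (rf (nat_lit 1)) (cs (rf (nat_lit 2)) (nd (nat_lit 255) (nat_lit 0) (cs (lf (nat_lit 17) (nat_lit 252)) (nd (nat_lit 299) (nat_lit 0) (cs (lf (nat_lit 5) (nat_lit 274)) (nd (nat_lit 321) (nat_lit 0) (cs (rf (nat_lit 3)) (cs (rf (nat_lit 4)) (cs (rf (nat_lit 5)) (rf (nat_lit 6))))))))))))) (rf (nat_lit 7))))) q15538 (by decide +kernel)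
def q15623 : Q := Q.p (nat_lit 0x1c00002000000000000000000000000000000000000000000000000000000000000000) (nat_lit 0x40000100000ee0000380001700008000020000000000000000000000000000000000000000000000000000) (nat_lit 7)
theorem c15623 : QOK q15623 := cut [q15512, q13258] ⟨c15512, c13258, trivial⟩ (nd (nat_lit 298) (nat_lit 0) (cs (rf (nat_lit 0)) (nd (nat_lit 273) (nat_lit 0) (cs (lf (nat_lit 5) (nat_lit 273)) (rf (nat_lit 1)))))) q15623 (by decide +kernel)
def q15717 : Q := Q.p (nat_lit 0x200000c00002000008000000000000000000000000000000000000000000000000000000000) (nat_lit 0x100000c000070000180000500000000001000010000040000000000000000000000000000000000000000000000000000) (nat_lit 7)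
theorem c15717 : QOK q15717 := cut [q15716] ⟨c15716, trivial⟩ (nd (nat_lit 210) (nat_lit 0) (cs (lf (nat_lit 34) (nat_lit 209)) (rf (nat_lit 0)))) q15717 (by decide +kernel)
def q15910 : Q := Q.p (nat_lit 0x140000d00002000000000010000000000000000000000000000000000000000000000000000) (nat_lit 0x280000e0000380000200000c0001f8000be0006f8001d8000420000000000000000000000000000000000000000) (nat_lit 12)
theorem c15910 : QOK q15910 := cut [q14190, q14195, q15806, q15809, q15820, q15823, q15891, q14184, q15909] ⟨c14190, c14195, c15806, c15809, c15820, c15823, c15891, c14184, c15909, trivial⟩ (nd (nat_lit 250) (nat_lit 0) (cs (rf (nat_lit 0)) (cs (nd (nat_lit 228) (nat_lit 0) (cs (rf (nat_lit 1)) (cs (rf (nat_lit 2)) (cs (rf (nat_lit 3)) (cs (rf (nat_lit 4)) (rf (nat_lit 5))))))) (cs (nd (nat_lit 228) (nat_lit 0) (cs (rf (nat_lit 1)) (cs (rf (nat_lit 2)) (cs (rf (nat_lit 3)) (cs (rf (nat_lit 5)) (nd (nat_lit 209) (nat_lit 0) (cs (lf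 (nat_lit 37) (nat_lit 208)) (rf (nat_lit 6))))))))) (cs (nd (nat_lit 316) (nat_lit 0) (cs (rf (nat_lit 7)) (nd (nat_lit 251) (nat_lit 0) (cs (lf (nat_lit 35) (nat_lit 228)) (nd (nat_lit 252) (nat_lit 0) (cs (lf (nat_lit 11) (nat_lit 249)) (lf (nat_lit 0) (nat_lit 249)))))))) (cs (nd (nat_lit 316) (nat_lit 0) (cs (rf (nat_lit 7)) (nd (nat_lit 209) (nat_lit 0) (cs (lf (nat_lit 37) (nat_lit 208)) (nd (nat_lit 227) (nat_lit 0) (cs (lf (nat_lit 46) (nat_lit 227)) (nd (nat_lit 229) (nat_lit 0) (cs (lf (nat_lit 34) (nat_lit 228)) (nd (nat_lit 228) (nat_lit 0) (cs (lf (nat_lit 35) (nat_lit 206)) (lf (nat_lit 47) (nat_lit 205)))))))))))) (rf (nat_lit 8)))))))) q15910 (by decide +kernel)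
def q16123 : Q := Q.p (nat_lit 0x2000008000038000000000000000000000000000000000000000000000000000) (nat_lit 0x4000010000120000460001f8000060000100000400000000000000000000000000000) (nat_lit 9)
theorem c16123 : QOK q16123 := cut [q16122] ⟨c16122, trivial⟩ (nd (nat_lit 206) (nat_lit 0) (cs (lf (nat_lit 5) (nat_lit 206)) (rf (nat_lit 0)))) q16123 (by decide +kernel)
def q16448 : Q := Q.p (nat_lit 0x2000000000070000000000000000000000000000000000000000000000000000) (nat_lit 0x140000700003c00001c000f8000780003f80001c00007000010000000000000000000000000000000) (nat_lit 9)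
theorem c16448 : QOK q16448 := cut [q7464, q9673, q2359, q16135, q16427, q694, q207, q687, q9413, q10154, q16360, q16446] ⟨c7464, c9673, c2359, c16135, c16427, c694, c207, c687, c9413, c10154, c16360, c16446, trivial⟩ (nd (nat_lit 231) (nat_lit 0) (cs (rf (nat_lit 0)) (cs (rf (nat_lit 1)) (cs (nd (nat_lit 275) (nat_lit 0) (cs (rf (nat_lit 2)) (cs (rf (nat_lit 3)) (nd (nat_lit 297) (nat_lit 0) (cs (lf (nat_lit 34) (nat_lit 209)) (rf (nat_lit 4))))))) (nd (nat_lit 211) (nat_lit 0) (cs (rf (nat_lit 5)) (cs (nd (nat_lit 188) (nat_lit 0) (cs (rf (nat_lit 6)) (cs (rf (nat_lit 7)) (nd (nat_lit 190) (nat_lit 0) (cs (lf (nat_lit 16) (nat_lit 186)) (nd (nat_lit 212) (nat_lit 0) (cs (lf (nat_lit 17) (nat_lit 187)) (nd (nat_lit 213) (nat_lit 0) (cs (lf (nat_lit 10) (nat_lit 209)) (lf (nat_lit 23) (nat_lit 187))))))))))) (cs (nd (nat_lit 233) (nat_lit 0) (cs (lf (nat_lit 5) (nat_lit 208)) (nd (nat_lit 166) (nat_lit 0) (cs (rf (nat_lit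 8)) (cs (rf (nat_lit 9)) (rf (nat_lit 10))))))) (cs (nd (nat_lit 234) (nat_lit 0) (cs (lf (nat_lit 4) (nat_lit 208)) (nd (nat_lit 212) (nat_lit 0) (cs (lf (nat_lit 5) (nat_lit 209)) (nd (nat_lit 213) (nat_lit 0) (cs (lf (nat_lit 10) (nat_lit 209)) (nd (nat_lit 192) (nat_lit 0) (cs (lf (nat_lit 16) (nat_lit 188)) (nd (nat_lit 188) (nat_lit 0) (cs (lf (nat_lit 23) (nat_lit 187)) (nd (nat_lit 214) (nat_lit 0) (cs (lf (nat_lit 17) (nat_lit 189)) (lf (nat_lit 22) (nat_lit 188)))))))))))))) (rf (nat_lit 11))))))))))) q16448 (by decide +kernel)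
def q16568 : Q := Q.p (nat_lit 0x80000f0000000000c00000000000000000000000000000000000000000) (nat_lit 0x40000700001d0000700001a6000738001fe0007f8001f0000780000000000000000000) (nat_lit 13)
theorem c16568 : QOK q16568 := cut [q16454, q16475, q16541, q16542, q16477, q15447, q8049, q16396, q7486] ⟨c16454, c16475, c16541, c16542, c16477, c15447, c8049, c16396, c7486, trivial⟩ (nd (nat_lit 144) (nat_lit 0) (cs (rf (nat_lit 0)) (cs (nd (nat_lit 145) (nat_lit 0) (cs (rf (nat_lit 1)) (nd (nat_lit 186) (nat_lit 0) (cs (lf (nat_lit 23) (nat_lit 185)) (nd (nat_lit 164) (nat_lit 0) (cs (lf (nat_lit 24) (nat_lit 142)) (nd (nat_lit 165) (nat_lit 0) (cs (lf (nat_lit 17) (nat_lit 142)) (lf (nat_lit 12) (nat_lit 141)))))))))) (cs (rf (nat_lit 2)) (cs (nd (nat_lit 186) (nat_lit 0) (cs (lf (nat_lit 23) (nat_lit 185)) (nd (nat_lit 142) (nat_lit 0) (cs (lf (nat_lit 25) (nat_lit 142)) (nd (nat_lit 143) (nat_lit 0) (cs (lf (nat_lit 0) (nat_lit 141))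 (rf (nat_lit 3)))))))) (nd (nat_lit 145) (nat_lit 0) (cs (rf (nat_lit 1)) (cs (nd (nat_lit 189) (nat_lit 0) (cs (lf (nat_lit 41) (nat_lit 144)) (rf (nat_lit 4)))) (nd (nat_lit 146) (nat_lit 0) (cs (rf (nat_lit 5)) (cs (nd (nat_lit 143) (nat_lit 0) (cs (rf (nat_lit 6)) (cs (nd (nat_lit 168) (nat_lit 0) (cs (rf (nat_lit 7)) (nd (nat_lit 164) (nat_lit 0) (cs (lf (nat_lit 13) (nat_lit 142)) (nd (nat_lit 124) (nat_lit 0) (cs (lf (nat_lit 17) (nat_lit 121)) (nd (nat_lit 102) (nat_lit 0) (cs (nd (nat_lit 121) (nat_lit 0) (cs (lf (nat_lit 23) (nat_lit 120)) (nd (nat_lit 101) (nat_lit 0) (cs (nd (nat_lit 103) (nat_lit 0) (cs (nd (nat_lit 122) (nat_lit 0) (cs (lf (nat_lit 14) (nat_lit 99)) (lf (nat_lit 9) (nat_lit 99)))) (lf (nat_lit 35) (nat_lit 80)))) (lf (nat_lit 47) (nat_lit 79)))))) (lf (nat_lit 36) (nat_lit 79)))))))))) (nd (nat_lit 120) (nat_lit 0) (cs (lf (nat_lit 22) (nat_lit 120)) (nd (nat_lit 142) (nat_lit 0) (cs (lf (nat_lit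 0) (nat_lit 141)) (lf (nat_lit 23) (nat_lit 119))))))))) (nd (nat_lit 147) (nat_lit 0) (cs (lf (nat_lit 6) (nat_lit 144)) (nd (nat_lit 169) (nat_lit 0) (cs (lf (nat_lit 5) (nat_lit 144)) (nd (nat_lit 143) (nat_lit 0) (cs (rf (nat_lit 8)) (lf (nat_lit 19) (nat_lit 143))))))))))))))))))) q16568 (by decide +kernel)
def q17095 : Q := Q.p (nat_lit 0x800002000000000078000000000000000000000000000000000000000000000000000) (nat_lit 0x40000700001c0001f80007f8001fe0007780039e0000b800002000030000000000000000000000000000000000000000000000) (nat_lit 14)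
theorem c17095 : QOK q17095 := cut [q715, q16976, q16981, q16980, q11657, q11867, q16876, q14913, q2614, q16993, q16998, q17013, q17024, q17093, q17092] ⟨c715, c16976, c16981, c16980, c11657, c11867, c16876, c14913, c2614, c16993, c16998, c17013, c17024, c17093, c17092, trivial⟩ (nd (nat_lit 296) (nat_lit 0) (cs (nd (nat_lit 231) (nat_lit 0) (cs (rf (nat_lit 0)) (lf (nat_lit 40) (nat_lit 208)))) (cs (nd (nat_lit 297) (nat_lit 0) (cs (nd (nat_lit 298) (nat_lit 0) (cs (nd (nat_lit 231) (nat_lit 0) (cs (lf (nat_lit 29) (nat_lit 231)) (lf (nat_lit 28) (nat_lit 209)))) (cs (nd (nat_lit 228) (nat_lit 0) (cs (lf (nat_lit 10) (nat_lit 206)) (nd (nat_lit 184) (nat_lit 0) (cs (lf (nat_lit 22) (nat_lit 184)) (nd (nat_lit 276) (nat_lit 0) (cs (lf (nat_lit 25) (nat_lit 209)) (rf (nat_lit 1)))))))) (cs (nd (nat_lit 228) (nat_lit 0) (cs (lf (nat_lit 10) (nat_lit 206)) (nd (nat_lit 184) (nat_lit 0) (cs (lf (nat_lit 22) (nat_lit 184)) (rf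 (nat_lit 2)))))) (nd (nat_lit 320) (nat_lit 0) (cs (rf (nat_lit 3)) (nd (nat_lit 228) (nat_lit 0) (cs (lf (nat_lit 10) (nat_lit 206)) (nd (nat_lit 295) (nat_lit 0) (cs (rf (nat_lit 4)) (lf (nat_lit 5) (nat_lit 295)))))))))))) (cs (nd (nat_lit 228) (nat_lit 0) (cs (lf (nat_lit 10) (nat_lit 206)) (nd (nat_lit 231) (nat_lit 0) (cs (lf (nat_lit 41) (nat_lit 230)) (rf (nat_lit 5)))))) (cs (nd (nat_lit 319) (nat_lit 0) (cs (rf (nat_lit 6)) (cs (nd (nat_lit 184) (nat_lit 0) (cs (lf (nat_lit 22) (nat_lit 184)) (rf (nat_lit 7)))) (cs (nd (nat_lit 341) (nat_lit 0) (cs (rf (nat_lit 8)) (cs (nd (nat_lit 228) (nat_lit 0) (cs (lf (nat_lit 10) (nat_lit 206)) (nd (nat_lit 184) (nat_lit 0) (cs (lf (nat_lit 22) (nat_lit 184)) (nd (nat_lit 364) (nat_lit 0) (cs (lf (nat_lit 28) (nat_lit 275)) (nd (nat_lit 363) (nat_lit 0) (cs (lf (nat_lit 29) (nat_lit 297)) (rf (nat_lit 9)))))))))) (cs (nd (nat_lit 362) (nat_lit 0) (cs (lf (nat_lit 40) (nat_lit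 274)) (nd (nat_lit 228) (nat_lit 0) (cs (lf (nat_lit 10) (nat_lit 206)) (nd (nat_lit 363) (nat_lit 0) (cs (lf (nat_lit 41) (nat_lit 296)) (rf (nat_lit 10)))))))) (nd (nat_lit 228) (nat_lit 0) (cs (lf (nat_lit 10) (nat_lit 206)) (nd (nat_lit 342) (nat_lit 0) (cs (lf (nat_lit 29) (nat_lit 275)) (nd (nat_lit 184) (nat_lit 0) (cs (lf (nat_lit 22) (nat_lit 184)) (nd (nat_lit 318) (nat_lit 0) (cs (lf (nat_lit 41) (nat_lit 252)) (nd (nat_lit 363) (nat_lit 0) (cs (lf (nat_lit 42) (nat_lit 296)) (nd (nat_lit 343) (nat_lit 0) (cs (lf (nat_lit 18) (nat_lit 318)) (nd (nat_lit 317) (nat_lit 0) (cs (lf (nat_lit 0) (nat_lit 316)) (nd (nat_lit 298) (nat_lit 0) (cs (lf (nat_lit 35) (nat_lit 275)) (lf (nat_lit 6) (nat_lit 295)))))))))))))))))))))) (nd (nat_lit 295) (nat_lit 0) (cs (nd (nat_lit 294) (nat_lit 0) (cs (lf (nat_lit 17) (nat_lit 272)) (lf (nat_lit 5) (nat_lit 294)))) (cs (nd (nat_lit 229) (nat_lit 0) (cs (lf (nat_lit 11) (nat_lit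 206)) (nd (nat_lit 184) (nat_lit 0) (cs (lf (nat_lit 22) (nat_lit 184)) (nd (nat_lit 318) (nat_lit 0) (cs (lf (nat_lit 41) (nat_lit 252)) (nd (nat_lit 320) (nat_lit 0) (cs (lf (nat_lit 18) (nat_lit 295)) (nd (nat_lit 273) (nat_lit 0) (cs (rf (nat_lit 11)) (lf (nat_lit 25) (nat_lit 229)))))))))))) (nd (nat_lit 318) (nat_lit 0) (cs (lf (nat_lit 41) (nat_lit 252)) (nd (nat_lit 294) (nat_lit 0) (cs (lf (nat_lit 17) (nat_lit 272)) (lf (nat_lit 0) (nat_lit 293))))))))))))) (nd (nat_lit 184) (nat_lit 0) (cs (lf (nat_lit 22) (nat_lit 184)) (nd (nat_lit 318) (nat_lit 0) (cs (lf (nat_lit 36) (nat_lit 230)) (rf (nat_lit 12)))))))))) (cs (rf (nat_lit 13)) (nd (nat_lit 274) (nat_lit 0) (cs (lf (nat_lit 37) (nat_lit 208)) (rf (nat_lit 14)))))))) q17095 (by decide +kernel)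
def q17311 : Q := Q.p (nat_lit 0x400001000004000010000000000000000000000000000000000000000000000) (nat_lit 0x40000100000f80003c0002f00003e0002f0000be000010000000000000000000000000000000000) (nat_lit 12)
theorem c17311 : QOK q17311 := cut [q17214, q17226, q17230, q17242, q17241, q17273, q17279, q17294, q17299, q17285] ⟨c17214, c17226, c17230, c17242, c17241, c17273, c17279, c17294, c17299, c17285, trivial⟩ (nd (nat_lit 249) (nat_lit 0) (cs (lf (nat_lit 41) (nat_lit 183)) (nd (nat_lit 183) (nat_lit 0) (cs (lf (nat_lit 47) (nat_lit 161)) (nd (nat_lit 247) (nat_lit 0) (cs (nd (nat_lit 248) (nat_lit 0) (cs (nd (nat_lit 227) (nat_lit 0) (cs (nd (nat_lit 268) (nat_lit 0) (cs (rf (nat_lit 0)) (lf (nat_lit 10) (nat_lit 246)))) (lf (nat_lit 12) (nat_lit 224)))) (lf (nat_lit 17) (nat_lit 225)))) (cs (nd (nat_lit 182) (nat_lit 0) (cs (nd (nat_lit 185) (nat_lit 0) (cs (lf (nat_lit 35) (nat_lit 162)) (rf (nat_lit 1)))) (cs (nd (nat_lit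 185) (nat_lit 0) (cs (lf (nat_lit 35) (nat_lit 162)) (nd (nat_lit 160) (nat_lit 0) (cs (lf (nat_lit 23) (nat_lit 159)) (nd (nat_lit 227) (nat_lit 0) (cs (nd (nat_lit 226) (nat_lit 0) (cs (rf (nat_lit 2)) (lf (nat_lit 26) (nat_lit 160)))) (lf (nat_lit 44) (nat_lit 160)))))))) (cs (nd (nat_lit 185) (nat_lit 0) (cs (lf (nat_lit 35) (nat_lit 162)) (nd (nat_lit 159) (nat_lit 0) (cs (lf (nat_lit 22) (nat_lit 159)) (rf (nat_lit 3)))))) (cs (nd (nat_lit 185) (nat_lit 0) (cs (lf (nat_lit 35) (nat_lit 162)) (nd (nat_lit 203) (nat_lit 0) (cs (lf (nat_lit 10) (nat_lit 181)) (nd (nat_lit 181) (nat_lit 0) (cs (lf (nat_lit 11) (nat_lit 180)) (nd (nat_lit 180) (nat_lit 0) (cs (lf (nat_lit 4) (nat_lit 180)) (nd (nat_lit 158) (nat_lit 0) (cs (lf (nat_lit 22) (nat_lit 158)) (lf (nat_lit 43) (nat_lit 158)))))))))))) (cs (nd (nat_lit 185) (nat_lit 0) (cs (lf (nat_lit 35) (nat_lit 162)) (nd (nat_lit 203) (nat_lit 0) (cs (lf (nat_lit 10) (nat_lit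 181)) (nd (nat_lit 181) (nat_lit 0) (cs (lf (nat_lit 11) (nat_lit 180)) (nd (nat_lit 180) (nat_lit 0) (cs (lf (nat_lit 4) (nat_lit 180)) (nd (nat_lit 225) (nat_lit 0) (cs (lf (nat_lit 35) (nat_lit 159)) (lf (nat_lit 47) (nat_lit 158)))))))))))) (nd (nat_lit 181) (nat_lit 0) (cs (rf (nat_lit 4)) (cs (nd (nat_lit 158) (nat_lit 0) (cs (lf (nat_lit 22) (nat_lit 158)) (nd (nat_lit 180) (nat_lit 0) (cs (lf (nat_lit 4) (nat_lit 180)) (lf (nat_lit 23) (nat_lit 157)))))) (cs (nd (nat_lit 158) (nat_lit 0) (cs (lf (nat_lit 22) (nat_lit 158)) (nd (nat_lit 203) (nat_lit 0) (cs (lf (nat_lit 11) (nat_lit 180)) (nd (nat_lit 225) (nat_lit 0) (cs (lf (nat_lit 35) (nat_lit 159)) (nd (nat_lit 246) (nat_lit 0) (cs (nd (nat_lit 204) (nat_lit 0) (cs (nd (nat_lit 205) (nat_lit 0) (cs (lf (nat_lit 11) (nat_lit 202)) (lf (nat_lit 5) (nat_lit 203)))) (lf (nat_lit 30) (nat_lit 181)))) (lf (nat_lit 41) (nat_lit 180)))))))))) (rf (nat_lit 5))))))))))))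 (cs (nd (nat_lit 163) (nat_lit 0) (cs (lf (nat_lit 34) (nat_lit 162)) (nd (nat_lit 248) (nat_lit 0) (cs (lf (nat_lit 17) (nat_lit 225)) (rf (nat_lit 6)))))) (cs (nd (nat_lit 203) (nat_lit 0) (cs (nd (nat_lit 248) (nat_lit 0) (cs (lf (nat_lit 17) (nat_lit 225)) (nd (nat_lit 268) (nat_lit 0) (cs (lf (nat_lit 10) (nat_lit 246)) (rf (nat_lit 7)))))) (cs (rf (nat_lit 8)) (nd (nat_lit 248) (nat_lit 0) (cs (lf (nat_lit 17) (nat_lit 225)) (nd (nat_lit 225) (nat_lit 0) (cs (lf (nat_lit 23) (nat_lit 224)) (nd (nat_lit 268) (nat_lit 0) (cs (lf (nat_lit 10) (nat_lit 246)) (rf (nat_lit 9))))))))))) (cs (nd (nat_lit 248) (nat_lit 0) (cs (rf (nat_lit 6)) (nd (nat_lit 203) (nat_lit 0) (cs (nd (nat_lit 225) (nat_lit 0) (cs (lf (nat_lit 23) (nat_lit 224)) (rf (nat_lit 9)))) (cs (rf (nat_lit 7)) (rf (nat_lit 8))))))) (nd (nat_lit 163) (nat_lit 0) (cs (lf (nat_lit 34) (nat_lit 162)) (nd (nat_lit 248) (nat_lit 0) (cs (lf (nat_lit 17) (nat_lit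 225)) (nd (nat_lit 227) (nat_lit 0) (cs (rf (nat_lit 0)) (lf (nat_lit 12) (nat_lit 224)))))))))))))))))) q17311 (by decide +kernel)
def q17355 : Q := Q.p (nat_lit 0x2400011000064000000000000000000000000000000000000000000000000000) (nat_lit 0x1e80007e0001f000012000088000020001b80006f8000f80000a00000000000000000000000000000) (nat_lit 12)
theorem c17355 : QOK q17355 := cut [q3767, q17316, q17321, q17322, q17331] ⟨c3767, c17316, c17321, c17322, c17331, trivial⟩ (nd (nat_lit 184) (nat_lit 0) (cs (rf (nat_lit 0)) (cs (rf (nat_lit 1)) (cs (rf (nat_lit 2)) (cs (nd (nat_lit 275) (nat_lit 0) (cs (rf (nat_lit 3)) (cs (nd (nat_lit 163) (nat_lit 0) (cs (lf (nat_lit 34) (nat_lit 162)) (rf (nat_lit 4)))) (nd (nat_lit 183) (nat_lit 0) (cs (lf (nat_lit 47) (nat_lit 161)) (nd (nat_lit 231) (nat_lit 0) (cs (lf (nat_lit 35) (nat_lit 187)) (nd (nat_lit 163) (nat_lit 0) (cs (lf (nat_lit 34) (nat_lit 162)) (nd (nat_lit 276) (nat_lit 0) (cs (lf (nat_lit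 29) (nat_lit 209)) (nd (nat_lit 274) (nat_lit 0) (cs (lf (nat_lit 41) (nat_lit 208)) (nd (nat_lit 187) (nat_lit 0) (cs (lf (nat_lit 40) (nat_lit 186)) (nd (nat_lit 143) (nat_lit 0) (cs (lf (nat_lit 25) (nat_lit 143)) (nd (nat_lit 272) (nat_lit 0) (cs (lf (nat_lit 46) (nat_lit 183)) (nd (nat_lit 273) (nat_lit 0) (cs (lf (nat_lit 23) (nat_lit 249)) (lf (nat_lit 29) (nat_lit 206))))))))))))))))))))))) (nd (nat_lit 275) (nat_lit 0) (cs (rf (nat_lit 3)) (cs (rf (nat_lit 4)) (nd (nat_lit 161) (nat_lit 0) (cs (lf (nat_lit 46) (nat_lit 161)) (nd (nat_lit 162) (nat_lit 0) (cs (lf (nat_lit 47) (nat_lit 139)) (nd (nat_lit 188) (nat_lit 0) (cs (lf (nat_lit 32) (nat_lit 187)) (nd (nat_lit 227) (nat_lit 0) (cs (lf (nat_lit 41) (nat_lit 161)) (nd (nat_lit 140) (nat_lit 0) (cs (lf (nat_lit 40) (nat_lit 139)) (nd (nat_lit 141) (nat_lit 0) (cs (lf (nat_lit 35) (nat_lit 118)) (nd (nat_lit 159) (nat_lit 0) (cs (lf (nat_lit 13) (nat_lit 137))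 (nd (nat_lit 143) (nat_lit 0) (cs (lf (nat_lit 7) (nat_lit 139)) (nd (nat_lit 165) (nat_lit 0) (cs (lf (nat_lit 26) (nat_lit 143)) (lf (nat_lit 45) (nat_lit 143)))))))))))))))))))))))))))) q17355 (by decide +kernel)
def q17456 : Q := Q.p (nat_lit 0x2400010000064000000000000000000000000000000000000000000000000000) (nat_lit 0x280006f8001be0001b8000bf00003c0013c0004e0000280000000000000000000000000000000000) (nat_lit 14)
theorem c17456 : QOK q17456 := cut [q17429, q17154, q17168, q17150, q17152, q17369, q17433, q17445] ⟨c17429, c17154, c17168, c17150, c17152, c17369, c17433, c17445, trivial⟩ (nd (nat_lit 231) (nat_lit 0) (cs (rf (nat_lit 0)) (cs (nd (nat_lit 228) (nat_lit 0) (cs (rf (nat_lit 1)) (cs (rf (nat_lit 2)) (cs (nd (nat_lit 272) (nat_lit 0) (cs (rf (nat_lit 3)) (cs (rf (nat_lit 4)) (cs (rf (nat_lit 5)) (nd (nat_lit 271) (nat_lit 0) (cs (lf (nat_lit 41) (nat_lit 205)) (nd (nat_lit 251) (nat_lit 0) (cs (lf (nat_lit 7) (nat_lit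 249)) (nd (nat_lit 270) (nat_lit 0) (cs (lf (nat_lit 12) (nat_lit 247)) (nd (nat_lit 205) (nat_lit 0) (cs (lf (nat_lit 47) (nat_lit 183)) (nd (nat_lit 273) (nat_lit 0) (cs (lf (nat_lit 29) (nat_lit 206)) (nd (nat_lit 248) (nat_lit 0) (cs (lf (nat_lit 23) (nat_lit 247)) (nd (nat_lit 275) (nat_lit 0) (cs (lf (nat_lit 30) (nat_lit 209)) (nd (nat_lit 276) (nat_lit 0) (cs (lf (nat_lit 29) (nat_lit 209)) (rf (nat_lit 6)))))))))))))))))))))) (rf (nat_lit 7)))))) (nd (nat_lit 228) (nat_lit 0) (cs (rf (nat_lit 1)) (cs (rf (nat_lit 2)) (cs (rf (nat_lit 7)) (nd (nat_lit 272) (nat_lit 0) (cs (rf (nat_lit 3)) (cs (rf (nat_lit 4)) (cs (rf (nat_lit 5)) (nd (nat_lit 271) (nat_lit 0) (cs (lf (nat_lit 41) (nat_lit 205)) (nd (nat_lit 251) (nat_lit 0) (cs (lf (nat_lit 7) (nat_lit 249)) (nd (nat_lit 270) (nat_lit 0) (cs (lf (nat_lit 12) (nat_lit 247)) (nd (nat_lit 205) (nat_lit 0) (cs (lf (nat_lit 47) (nat_lit 183)) (nd (nat_lit 166) (nat_lit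 0) (cs (lf (nat_lit 37) (nat_lit 165)) (nd (nat_lit 273) (nat_lit 0) (cs (lf (nat_lit 29) (nat_lit 206)) (nd (nat_lit 248) (nat_lit 0) (cs (lf (nat_lit 23) (nat_lit 247)) (rf (nat_lit 6))))))))))))))))))))))))))) q17456 (by decide +kernel)
def q17594 : Q := Q.p (nat_lit 0x400001000004000010000000000000000000000000000000000000000000000) (nat_lit 0x20000380000e0000380000200000800002000020000080000000000000000000000000000000000000000) (nat_lit 7)
theorem c17594 : QOK q17594 := cut [q7721, q17369, q17406, q17589] ⟨c7721, c17369, c17406, c17589, trivial⟩ (nd (nat_lit 272) (nat_lit 0) (cs (rf (nat_lit 0)) (cs (rf (nat_lit 1)) (cs (rf (nat_lit 2)) (nd (nat_lit 163) (nat_lit 0) (cs (lf (nat_lit 34) (nat_lit 162)) (nd (nat_lit 249) (nat_lit 0) (cs (lf (nat_lit 41) (nat_lit 183)) (nd (nat_lit 295) (nat_lit 0) (cs (lf (nat_lit 28) (nat_lit 206)) (nd (nat_lit 294) (nat_lit 0) (cs (lf (nat_lit 29) (nat_lit 228)) (rf (nat_lit 3))))))))))))))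 q17594 (by decide +kernel)
def q17641 : Q := Q.p (nat_lit 0x2000001000004000010000000000000000000000000000000000000000000000) (nat_lit 0x20000380001e000020000000000200000e0000380000a00000000000000000000000000000) (nat_lit 8)
theorem c17641 : QOK q17641 := cut [q1273, q5881, q17640] ⟨c1273, c5881, c17640, trivial⟩ (nd (nat_lit 162) (nat_lit 0) (cs (rf (nat_lit 0)) (cs (nd (nat_lit 251) (nat_lit 0) (cs (lf (nat_lit 28) (nat_lit 162)) (nd (nat_lit 250) (nat_lit 0) (cs (lf (nat_lit 29) (nat_lit 184)) (nd (nat_lit 163) (nat_lit 0) (cs (lf (nat_lit 34) (nat_lit 162)) (rf (nat_lit 1)))))))) (rf (nat_lit 2))))) q17641 (by decide +kernel)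
def q17646 : Q := Q.p (nat_lit 0x2000001000034000010000000000000000000000000000000000000000000000) (nat_lit 0x20001b80001e0001a800002000040000060000180000200000000000000000000000000000) (nat_lit 9)
theorem c17646 : QOK q17646 := cut [q17314, q17588, q17633, q17640] ⟨c17314, c17588, c17633, c17640, trivial⟩ (nd (nat_lit 162) (nat_lit 0) (cs (rf (nat_lit 0)) (cs (rf (nat_lit 1)) (cs (rf (nat_lit 2)) (rf (nat_lit 3)))))) q17646 (by decide +kernel)
def q17877 : Q := Q.p (nat_lit 0x2000000000034000010000000000000000000000000000000000000000000000) (nat_lit 0x80001780007f8001fe0001f8001be000038001ce0007e0001f80001a00000000000000000000000000000) (nat_lit 14)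
theorem c17877 : QOK q17877 := cut [q1273, q17559, q10250, q17127, q17152, q17159, q17567, q17688, q17314, q17344, q17870, q5883, q17376, q17550, q17553, q5881, q17691] ⟨c1273, c17559, c10250, c17127, c17152, c17159, c17567, c17688, c17314, c17344, c17870, c5883, c17376, c17550, c17553, c5881, c17691, trivial⟩ (nd (nat_lit 228) (nat_lit 0) (cs (nd (nat_lit 162) (nat_lit 0) (cs (rf (nat_lit 0)) (nd (nat_lit 251) (nat_lit 0) (cs (lf (nat_lit 28) (nat_lit 162)) (nd (nat_lit 250) (nat_lit 0) (cs (lf (nat_lit 29) (nat_lit 184)) (rf (nat_lit 1)))))))) (cs (nd (nat_lit 250) (nat_lit 0) (cs (rf (nat_lit 2)) (cs (nd (nat_lit 272) (nat_lit 0) (cs (rf (nat_lit 3)) (cs (rf (nat_lit 4)) (nd (nat_lit 271) (nat_lit 0) (cs (lf (nat_lit 41) (nat_lit 205)) (rf (nat_lit 5))))))) (cs (rf (nat_lit 6)) (rf (nat_lit 7)))))) (cs (nd (nat_lit 162) (nat_lit 0) (cs (rf (nat_lit 0)) (cs (rf (nat_lit 8)) (cs (rf (nat_lit 9)) (nd (nat_lit 163) (nat_lit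 0) (cs (lf (nat_lit 35) (nat_lit 140)) (nd (nat_lit 164) (nat_lit 0) (cs (nd (nat_lit 165) (nat_lit 0) (cs (lf (nat_lit 11) (nat_lit 161)) (nd (nat_lit 143) (nat_lit 0) (cs (lf (nat_lit 17) (nat_lit 140)) (nd (nat_lit 187) (nat_lit 0) (cs (lf (nat_lit 5) (nat_lit 162)) (nd (nat_lit 142) (nat_lit 0) (cs (lf (nat_lit 47) (nat_lit 120)) (lf (nat_lit 42) (nat_lit 142)))))))))) (cs (nd (nat_lit 161) (nat_lit 0) (cs (lf (nat_lit 47) (nat_lit 139)) (nd (nat_lit 227) (nat_lit 0) (cs (lf (nat_lit 41) (nat_lit 161)) (nd (nat_lit 142) (nat_lit 0) (cs (lf (nat_lit 17) (nat_lit 139)) (nd (nat_lit 186) (nat_lit 0) (cs (lf (nat_lit 29) (nat_lit 142)) (lf (nat_lit 5) (nat_lit 161)))))))))) (nd (nat_lit 161) (nat_lit 0) (cs (lf (nat_lit 47) (nat_lit 139)) (rf (nat_lit 10))))))))))))) (cs (nd (nat_lit 162) (nat_lit 0) (cs (rf (nat_lit 0)) (rf (nat_lit 11)))) (nd (nat_lit 250) (nat_lit 0) (cs (rf (nat_lit 12)) (cs (rf (nat_lit 13)) (cs (nd (nat_lit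 251) (nat_lit 0) (cs (lf (nat_lit 29) (nat_lit 184)) (nd (nat_lit 162) (nat_lit 0) (cs (lf (nat_lit 28) (nat_lit 162)) (nd (nat_lit 141) (nat_lit 0) (cs (lf (nat_lit 34) (nat_lit 140)) (nd (nat_lit 119) (nat_lit 0) (cs (lf (nat_lit 33) (nat_lit 118)) (rf (nat_lit 14)))))))))) (cs (nd (nat_lit 251) (nat_lit 0) (cs (lf (nat_lit 29) (nat_lit 184)) (nd (nat_lit 162) (nat_lit 0) (cs (lf (nat_lit 28) (nat_lit 162)) (nd (nat_lit 141) (nat_lit 0) (cs (lf (nat_lit 34) (nat_lit 140)) (nd (nat_lit 119) (nat_lit 0) (cs (lf (nat_lit 33) (nat_lit 118)) (rf (nat_lit 15)))))))))) (cs (rf (nat_lit 7)) (rf (nat_lit 16))))))))))))) q17877 (by decide +kernel)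
def q18284 : Q := Q.p (nat_lit 0x2800000000010000040000000000000000000000000000000000000000000000) (nat_lit 0x280007e0001fe0007f8001ff0001780005e00004000010000000000000000000000000000000000000000000000) (nat_lit 14)
theorem c18284 : QOK q18284 := cut [q18191, q18252, q18253, q18283] ⟨c18191, c18252, c18253, c18283, trivial⟩ (nd (nat_lit 252) (nat_lit 0) (cs (rf (nat_lit 0)) (cs (rf (nat_lit 1)) (cs (rf (nat_lit 2)) (rf (nat_lit 3)))))) q18284 (by decide +kernel)
def q18306 : Q := Q.p (nat_lit 0x2800000000018000040000000000000000000000000000000000000000000000) (nat_lit 0x60000380001600073e001e700079e000040000000000000000000000000000000000000000) (nat_lit 10)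
theorem c18306 : QOK q18306 := cut [q530, q18287, q18290, q18295, q18297, q140, q3211] ⟨c530, c18287, c18290, c18295, c18297, c140, c3211, trivial⟩ (nd (nat_lit 206) (nat_lit 0) (cs (rf (nat_lit 0)) (cs (nd (nat_lit 228) (nat_lit 0) (cs (nd (nat_lit 209) (nat_lit 0) (cs (lf (nat_lit 11) (nat_lit 205)) (nd (nat_lit 187) (nat_lit 0) (cs (lf (nat_lit 17) (nat_lit 184)) (rf (nat_lit 1)))))) (cs (rf (nat_lit 2)) (cs (rf (nat_lit 3)) (rf (nat_lit 4)))))) (cs (nd (nat_lit 228) (nat_lit 0) (cs (nd (nat_lit 229) (nat_lit 0) (cs (lf (nat_lit 30) (nat_lit 185)) (nd (nat_lit 227) (nat_lit 0) (cs (lf (nat_lit 12) (nat_lit 204)) (lf (nat_lit 6) (nat_lit 205)))))) (cs (rf (nat_lit 2)) (cs (rf (nat_lit 3)) (cs (nd (nat_lit 209) (nat_lit 0) (cs (lf (nat_lit 11) (nat_lit 205)) (nd (nat_lit 183) (nat_lit 0) (cs (lf (nat_lit 22) (nat_lit 183)) (nd (nat_lit 182) (nat_lit 0) (cs (rf (nat_lit 5)) (lf (nat_lit 21) (nat_lit 182)))))))) (nd (nat_lit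 209) (nat_lit 0) (cs (lf (nat_lit 11) (nat_lit 205)) (rf (nat_lit 1))))))))) (nd (nat_lit 205) (nat_lit 0) (cs (lf (nat_lit 17) (nat_lit 183)) (nd (nat_lit 229) (nat_lit 0) (cs (lf (nat_lit 30) (nat_lit 185)) (rf (nat_lit 6)))))))))) q18306 (by decide +kernel)
def q18307 : Q := Q.p (nat_lit 0x280000000003c000000000000000000000000000000000000000000000000000) (nat_lit 0x20000380001600001800000000018000000000000000000000000000000000000000000000) (nat_lit 6)
theorem c18307 : QOK q18307 := cut [q18287] ⟨c18287, trivial⟩ (nd (nat_lit 228) (nat_lit 0) (cs (lf (nat_lit 11) (nat_lit 205)) (rf (nat_lit 0)))) q18307 (by decide +kernel)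
def q18388 : Q := Q.p (nat_lit 0x10000040000100000400000000000000000000000000000000000) (nat_lit 0x2000008000028000020000180000e0000380000a0000000000000) (nat_lit 7)
theorem c18388 : QOK q18388 := cut [q556, q18381] ⟨c556, c18381, trivial⟩ (nd (nat_lit 120) (nat_lit 0) (cs (rf (nat_lit 0)) (cs (rf (nat_lit 1)) (nd (nat_lit 187) (nat_lit 0) (cs (lf (nat_lit 29) (nat_lit 120)) (nd (nat_lit 98) (nat_lit 0) (cs (lf (nat_lit 28) (nat_lit 98)) (nd (nat_lit 77) (nat_lit 0) (cs (lf (nat_lit 34) (nat_lit 76)) (nd (nat_lit 76) (nat_lit 0) (cs (lf (nat_lit 35) (nat_lit 54)) (nd (nat_lit 141) (nat_lit 0) (cs (lf (nat_lit 47) (nat_lit 119)) (lf (nat_lit 41) (nat_lit 75))))))))))))))) q18388 (by decide +kernel)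
def q18619 : Q := Q.p (nat_lit 0x2000000000014000050000000000000000000000000000000000000000000000) (nat_lit 0x20000380000e0001f80001f80007e0006800018e0002e0000380000a00000000000000000000000000000) (nat_lit 14)
theorem c18619 : QOK q18619 := cut [q1819, q18570, q18571, q18585, q18600, q18606, q18608, q5882, q1837, q18617] ⟨c1819, c18570, c18571, c18585, c18600, c18606, c18608, c5882, c1837, c18617, trivial⟩ (nd (nat_lit 228) (nat_lit 0) (cs (nd (nat_lit 250) (nat_lit 0) (cs (nd (nat_lit 251) (nat_lit 0) (cs (lf (nat_lit 29) (nat_lit 184)) (nd (nat_lit 227) (nat_lit 0) (cs (lf (nat_lit 19) (nat_lit 227)) (nd (nat_lit 226) (nat_lit 0) (cs (lf (nat_lit 0) (nat_lit 225)) (nd (nat_lit 207) (nat_lit 0) (cs (lf (nat_lit 6) (nat_lit 205)) (lf (nat_lit 15) (nat_lit 204)))))))))) (cs (nd (nat_lit 161) (nat_lit 0) (cs (lf (nat_lit 46) (nat_lit 161)) (nd (nat_lit 271) (nat_lit 0) (cs (lf (nat_lit 40) (nat_lit 183)) (nd (nat_lit 272) (nat_lit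 0) (cs (lf (nat_lit 41) (nat_lit 205)) (nd (nat_lit 273) (nat_lit 0) (cs (lf (nat_lit 29) (nat_lit 206)) (nd (nat_lit 252) (nat_lit 0) (cs (lf (nat_lit 15) (nat_lit 249)) (nd (nat_lit 230) (nat_lit 0) (cs (lf (nat_lit 29) (nat_lit 186)) (nd (nat_lit 229) (nat_lit 0) (cs (lf (nat_lit 0) (nat_lit 227)) (nd (nat_lit 207) (nat_lit 0) (cs (lf (nat_lit 30) (nat_lit 206)) (nd (nat_lit 209) (nat_lit 0) (cs (lf (nat_lit 6) (nat_lit 206)) (nd (nat_lit 187) (nat_lit 0) (cs (lf (nat_lit 35) (nat_lit 164)) (lf (nat_lit 17) (nat_lit 184)))))))))))))))))))))) (cs (nd (nat_lit 161) (nat_lit 0) (cs (lf (nat_lit 46) (nat_lit 161)) (nd (nat_lit 271) (nat_lit 0) (cs (lf (nat_lit 40) (nat_lit 183)) (nd (nat_lit 272) (nat_lit 0) (cs (lf (nat_lit 41) (nat_lit 205)) (nd (nat_lit 252) (nat_lit 0) (cs (lf (nat_lit 8) (nat_lit 249)) (nd (nat_lit 230) (nat_lit 0) (cs (lf (nat_lit 29) (nat_lit 186)) (nd (nat_lit 227) (nat_lit 0) (cs (lf (nat_lit 2) (nat_lit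 227)) (nd (nat_lit 209) (nat_lit 0) (cs (rf (nat_lit 0)) (lf (nat_lit 8) (nat_lit 205)))))))))))))))) (cs (rf (nat_lit 1)) (nd (nat_lit 249) (nat_lit 0) (cs (lf (nat_lit 41) (nat_lit 183)) (nd (nat_lit 183) (nat_lit 0) (cs (lf (nat_lit 47) (nat_lit 161)) (nd (nat_lit 207) (nat_lit 0) (cs (lf (nat_lit 18) (nat_lit 183)) (nd (nat_lit 181) (nat_lit 0) (cs (lf (nat_lit 1) (nat_lit 181)) (nd (nat_lit 273) (nat_lit 0) (cs (lf (nat_lit 28) (nat_lit 184)) (nd (nat_lit 272) (nat_lit 0) (cs (lf (nat_lit 29) (nat_lit 206)) (nd (nat_lit 274) (nat_lit 0) (cs (lf (nat_lit 18) (nat_lit 249)) (nd (nat_lit 247) (nat_lit 0) (cs (lf (nat_lit 1) (nat_lit 247)) (nd (nat_lit 294) (nat_lit 0) (cs (lf (nat_lit 34) (nat_lit 206)) (nd (nat_lit 315) (nat_lit 0) (cs (lf (nat_lit 40) (nat_lit 227)) (rf (nat_lit 2))))))))))))))))))))))))))) (cs (rf (nat_lit 3)) (cs (rf (nat_lit 4)) (cs (rf (nat_lit 5)) (cs (rf (nat_lit 6)) (nd (nat_lit 251) (nat_lit 0)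 (cs (rf (nat_lit 7)) (cs (nd (nat_lit 162) (nat_lit 0) (cs (lf (nat_lit 28) (nat_lit 162)) (nd (nat_lit 141) (nat_lit 0) (cs (lf (nat_lit 34) (nat_lit 140)) (nd (nat_lit 119) (nat_lit 0) (cs (lf (nat_lit 33) (nat_lit 118)) (nd (nat_lit 227) (nat_lit 0) (cs (lf (nat_lit 41) (nat_lit 161)) (nd (nat_lit 209) (nat_lit 0) (cs (lf (nat_lit 8) (nat_lit 205)) (nd (nat_lit 252) (nat_lit 0) (cs (rf (nat_lit 8)) (lf (nat_lit 21) (nat_lit 227)))))))))))))) (rf (nat_lit 9))))))))))) q18619 (by decide +kernel)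
def q18650 : Q := Q.p (nat_lit 0x2000000000014000050000000000000000000000000000000000000000000000) (nat_lit 0xe0001f80001e000078000220000080000e0000380000a00000000000000000000000000000) (nat_lit 11)
theorem c18650 : QOK q18650 := cut [q18608, q18547, q18570, q18622, q889, q8563, q18625, q18627, q18632, q18646, q8565] ⟨c18608, c18547, c18570, c18622, c889, c8563, c18625, c18627, c18632, c18646, c8565, trivial⟩ (nd (nat_lit 228) (nat_lit 0) (cs (rf (nat_lit 0)) (cs (nd (nat_lit 250) (nat_lit 0) (cs (rf (nat_lit 1)) (cs (rf (nat_lit 2)) (rf (nat_lit 3))))) (cs (nd (nat_lit 162) (nat_lit 0) (cs (rf (nat_lit 4)) (cs (rf (nat_lit 5)) (cs (rf (nat_lit 6)) (nd (nat_lit 227) (nat_lit 0) (cs (lf (nat_lit 41) (nat_lit 161)) (nd (nat_lit 141) (nat_lit 0) (cs (lf (nat_lit 34) (nat_lit 140)) (nd (nat_lit 139) (nat_lit 0) (cs (lf (nat_lit 46) (nat_lit 139)) (rf (nat_lit 7)))))))))))) (cs (nd (nat_lit 250) (nat_lit 0) (cs (rf (nat_lit 2))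 (cs (rf (nat_lit 3)) (nd (nat_lit 161) (nat_lit 0) (cs (lf (nat_lit 46) (nat_lit 161)) (rf (nat_lit 8))))))) (cs (rf (nat_lit 9)) (nd (nat_lit 162) (nat_lit 0) (cs (rf (nat_lit 4)) (cs (rf (nat_lit 5)) (cs (rf (nat_lit 6)) (nd (nat_lit 249) (nat_lit 0) (cs (lf (nat_lit 40) (nat_lit 161)) (nd (nat_lit 141) (nat_lit 0) (cs (lf (nat_lit 34) (nat_lit 140)) (rf (nat_lit 10)))))))))))))))) q18650 (by decide +kernel)
def q18663 : Q := Q.p (nat_lit 0x200000000001c000010000000000000000000000000000000000000000000000) (nat_lit 0x20000380001e00073e000e00007000000e0000380000a00000000000000000000000000000) (nat_lit 8)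
theorem c18663 : QOK q18663 := cut [q18654, q18655, q18662] ⟨c18654, c18655, c18662, trivial⟩ (nd (nat_lit 228) (nat_lit 0) (cs (rf (nat_lit 0)) (cs (rf (nat_lit 1)) (rf (nat_lit 2))))) q18663 (by decide +kernel)
def q18710 : Q := Q.p (nat_lit 0x1c000050000000000000000000000000000000000000000000000) (nat_lit 0x738001e0000188000000000000000000000000000000000000000000000) (nat_lit 7)
theorem c18710 : QOK q18710 := cut [q18709] ⟨c18709, trivial⟩ (nd (nat_lit 209) (nat_lit 0) (cs (lf (nat_lit 23) (nat_lit 183)) (rf (nat_lit 0)))) q18710 (by decide +kernel)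
def q18731 : Q := Q.p (nat_lit 0x10000070000000000000000000000000000000000000000000000) (nat_lit 0x1cb80038c000e78000000000000000000000000000000000000000) (nat_lit 9)
theorem c18731 : QOK q18731 := cut [q4752, q4767, q4771, q18728] ⟨c4752, c4767, c4771, c18728, trivial⟩ (nd (nat_lit 183) (nat_lit 0) (cs (rf (nat_lit 0)) (cs (rf (nat_lit 1)) (cs (rf (nat_lit 2)) (nd (nat_lit 204) (nat_lit 0) (cs (lf (nat_lit 10) (nat_lit 182)) (nd (nat_lit 161) (nat_lit 0) (cs (lf (nat_lit 23) (nat_lit 160)) (rf (nat_lit 3)))))))))) q18731 (by decide +kernel)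
def q18751 : Q := Q.p (nat_lit 0x2000002000018000040000000000000000000000000000000000000000000000) (nat_lit 0x140001fc0001f00005c00020000080000200000000000000000000000000000000000000000) (nat_lit 9)
theorem c18751 : QOK q18751 := cut [q18253, q2623, q3764, q18255, q3782, q18741, q2066, q18748] ⟨c18253, c2623, c3764, c18255, c3782, c18741, c2066, c18748, trivial⟩ (nd (nat_lit 251) (nat_lit 0) (cs (lf (nat_lit 30) (nat_lit 185)) (nd (nat_lit 252) (nat_lit 0) (cs (rf (nat_lit 0)) (cs (nd (nat_lit 250) (nat_lit 0) (cs (rf (nat_lit 1)) (cs (rf (nat_lit 2)) (cs (rf (nat_lit 3)) (nd (nat_lit 275) (nat_lit 0) (cs (lf (nat_lit 5) (nat_lit 250)) (rf (nat_lit 4)))))))) (cs (nd (nat_lit 250) (nat_lit 0) (cs (rf (nat_lit 4)) (cs (nd (nat_lit 271) (nat_lit 0) (cs (lf (nat_lit 10) (nat_lit 249)) (nd (nat_lit 249) (nat_lit 0) (cs (lf (nat_lit 11) (nat_lit 248)) (rf (nat_lit 5)))))) (nd (nat_lit 227) (nat_lit 0) (cs (lf (nat_lit 22) (nat_lit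 227)) (nd (nat_lit 249) (nat_lit 0) (cs (lf (nat_lit 23) (nat_lit 226)) (rf (nat_lit 5))))))))) (cs (nd (nat_lit 275) (nat_lit 0) (cs (lf (nat_lit 26) (nat_lit 186)) (rf (nat_lit 6)))) (nd (nat_lit 230) (nat_lit 0) (cs (lf (nat_lit 29) (nat_lit 186)) (rf (nat_lit 7))))))))))) q18751 (by decide +kernel)
def q18787 : Q := Q.p (nat_lit 0x3000000000010000040000000000000000000000000000000000000000000000) (nat_lit 0x280007e0001fe0007f8001ff0000f80005e00004000010000000000000000000000000000000000000000000000) (nat_lit 14)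
theorem c18787 : QOK q18787 := cut [q18191, q18252, q18253, q18283] ⟨c18191, c18252, c18253, c18283, trivial⟩ (nd (nat_lit 251) (nat_lit 0) (cs (rf (nat_lit 0)) (cs (rf (nat_lit 1)) (cs (rf (nat_lit 2)) (rf (nat_lit 3)))))) q18787 (by decide +kernel)
def q18852 : Q := Q.p (nat_lit 0x200000000001c000070000000000000000000000000000000000000000000000) (nat_lit 0x1fc0001e00007800000000180000680000a00002800000000000000000000000000000) (nat_lit 10)
theorem c18852 : QOK q18852 := cut [q18834, q4356, q6024, q18847] ⟨c18834, c4356, c6024, c18847, trivial⟩ (nd (nat_lit 251) (nat_lit 0) (cs (nd (nat_lit 187) (nat_lit 0) (cs (lf (nat_lit 6) (nat_lit 184)) (nd (nat_lit 165) (nat_lit 0) (cs (lf (nat_lit 17) (nat_lit 162)) (nd (nat_lit 121) (nat_lit 0) (cs (lf (nat_lit 37) (nat_lit 120)) (nd (nat_lit 252) (nat_lit 0) (cs (lf (nat_lit 31) (nat_lit 164)) (nd (nat_lit 229) (nat_lit 0) (cs (lf (nat_lit 29) (nat_lit 185)) (rf (nat_lit 0))))))))))))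 (cs (nd (nat_lit 250) (nat_lit 0) (cs (rf (nat_lit 1)) (nd (nat_lit 228) (nat_lit 0) (cs (lf (nat_lit 29) (nat_lit 184)) (lf (nat_lit 35) (nat_lit 162)))))) (cs (nd (nat_lit 187) (nat_lit 0) (cs (lf (nat_lit 6) (nat_lit 184)) (nd (nat_lit 165) (nat_lit 0) (cs (lf (nat_lit 17) (nat_lit 162)) (nd (nat_lit 121) (nat_lit 0) (cs (lf (nat_lit 37) (nat_lit 120)) (nd (nat_lit 229) (nat_lit 0) (cs (lf (nat_lit 30) (nat_lit 185)) (rf (nat_lit 2)))))))))) (cs (nd (nat_lit 229) (nat_lit 0) (cs (lf (nat_lit 30) (nat_lit 185)) (nd (nat_lit 252) (nat_lit 0) (cs (lf (nat_lit 29) (nat_lit 185)) (rf (nat_lit 3)))))) (nd (nat_lit 229) (nat_lit 0) (cs (lf (nat_lit 30) (nat_lit 185)) (nd (nat_lit 252) (nat_lit 0) (cs (lf (nat_lit 29) (nat_lit 185)) (rf (nat_lit 0))))))))))) q18852 (by decide +kernel)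
def q18909 : Q := Q.p (nat_lit 0x10000070000000000000000000000000000000000000000000000) (nat_lit 0x10000050000e60001800006e0000a00002800000000000000000000000000000) (nat_lit 9)
theorem c18909 : QOK q18909 := cut [q8755, q18905, q18907] ⟨c8755, c18905, c18907, trivial⟩ (nd (nat_lit 187) (nat_lit 0) (cs (rf (nat_lit 0)) (cs (rf (nat_lit 1)) (nd (nat_lit 205) (nat_lit 0) (cs (lf (nat_lit 10) (nat_lit 183)) (rf (nat_lit 2))))))) q18909 (by decide +kernel)
def q19075 : Q := Q.p (nat_lit 0x10000070000000000000000000000000000000000000000000000) (nat_lit 0x14000058001ee000380000e80000a00002000000000000000000000000000000) (nat_lit 7)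
theorem c19075 : QOK q19075 := cut [q18714, q18727, q19074] ⟨c18714, c18727, c19074, trivial⟩ (nd (nat_lit 187) (nat_lit 0) (cs (rf (nat_lit 0)) (cs (rf (nat_lit 1)) (rf (nat_lit 2))))) q19075 (by decide +kernel)
def q19079 : Q := Q.p (nat_lit 0x10000070000000000000000000000000000000000000000000000) (nat_lit 0x1cf80038c000e38000000000000000000000000000000000000000) (nat_lit 9)
theorem c19079 : QOK q19079 := cut [q4752, q4767, q4771, q19076] ⟨c4752, c4767, c4771, c19076, trivial⟩ (nd (nat_lit 183) (nat_lit 0) (cs (rf (nat_lit 0)) (cs (rf (nat_lit 1)) (cs (rf (nat_lit 2)) (nd (nat_lit 160) (nat_lit 0) (cs (lf (nat_lit 22) (nat_lit 160)) (nd (nat_lit 205) (nat_lit 0) (cs (lf (nat_lit 11) (nat_lit 182)) (rf (nat_lit 3)))))))))) q19079 (by decide +kernel)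
def q19091 : Q := Q.p (nat_lit 0x10000070000000000000000000000000000000000000000000000) (nat_lit 0x780000f80000c0000f8000fc0001f00001c00005000000000000000000) (nat_lit 13)
theorem c19091 : QOK q19091 := cut [q4752, q4767, q4771, q19006] ⟨c4752, c4767, c4771, c19006, trivial⟩ (nd (nat_lit 183) (nat_lit 0) (cs (rf (nat_lit 0)) (cs (rf (nat_lit 1)) (cs (rf (nat_lit 2)) (rf (nat_lit 3)))))) q19091 (by decide +kernel)
def q19101 : Q := Q.p (nat_lit 0x2000003000004000030000040000100000000000000000000000000000000000) (nat_lit 0x1200004800000000000000080000080000e00003800008000000000000000000) (nat_lit 7)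
theorem c19101 : QOK q19101 := cut [q19099] ⟨c19099, trivial⟩ (nd (nat_lit 227) (nat_lit 0) (cs (lf (nat_lit 41) (nat_lit 161)) (nd (nat_lit 230) (nat_lit 0) (cs (lf (nat_lit 4) (nat_lit 227)) (rf (nat_lit 0)))))) q19101 (by decide +kernel)
def q19139 : Q := Q.p (nat_lit 0x10000070000000000000000000000000000000000000000000000) (nat_lit 0x380006e000780000ee0000380000e0000380000a000000000000000000) (nat_lit 10)
theorem c19139 : QOK q19139 := cut [q18719, q18915, q19138] ⟨c18719, c18915, c19138, trivial⟩ (nd (nat_lit 187) (nat_lit 0) (cs (rf (nat_lit 0)) (cs (rf (nat_lit 1)) (rf (nat_lit 2))))) q19139 (by decide +kernel)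
def q19176 : Q := Q.p (nat_lit 0x140000f0000000000000000000000000000000000000000000000) (nat_lit 0x14000050000600000000001e0000380000e00003800008000000000000000000) (nat_lit 8)
theorem c19176 : QOK q19176 := cut [q8760, q18528, q19099, q17780] ⟨c8760, c18528, c19099, c17780, trivial⟩ (nd (nat_lit 162) (nat_lit 0) (cs (lf (nat_lit 23) (nat_lit 161)) (nd (nat_lit 140) (nat_lit 0) (cs (rf (nat_lit 0)) (cs (rf (nat_lit 1)) (cs (rf (nat_lit 2)) (nd (nat_lit 209) (nat_lit 0) (cs (lf (nat_lit 5) (nat_lit 184)) (rf (nat_lit 3)))))))))) q19176 (by decide +kernel)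
def q19292 : Q := Q.p (nat_lit 0x100001c0000000000000000000000000000000000000000000000) (nat_lit 0x10000140000e7000038000ef000380000e000020000000000000000000000000) (nat_lit 9)
theorem c19292 : QOK q19292 := cut [q19170, q9084, q19276, q19279, q19282, q19289, q19291] ⟨c19170, c9084, c19276, c19279, c19282, c19289, c19291, trivial⟩ (nd (nat_lit 185) (nat_lit 0) (cs (rf (nat_lit 0)) (cs (nd (nat_lit 166) (nat_lit 0) (cs (lf (nat_lit 17) (nat_lit 163)) (nd (nat_lit 143) (nat_lit 0) (cs (rf (nat_lit 1)) (cs (nd (nat_lit 162) (nat_lit 0) (cs (lf (nat_lit 22) (nat_lit 162)) (rf (nat_lit 2)))) (cs (nd (nat_lit 162) (nat_lit 0) (cs (lf (nat_lit 22) (nat_lit 162)) (rf (nat_lit 3)))) (nd (nat_lit 210) (nat_lit 0) (cs (lf (nat_lit 5) (nat_lit 185)) (nd (nat_lit 162) (nat_lit 0) (cs (lf (nat_lit 22) (nat_lit 162)) (rf (nat_lit 4)))))))))))) (cs (rf (nat_lit 5)) (rf (nat_lit 6)))))) q19292 (by decide +kernel)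
def q19506 : Q := Q.p (nat_lit 0x20000000000100001c0000000000000000000000000000000000000000000000) (nat_lit 0xe000018000c4000367000e38007ef003ff0007fc000fe0003f0003fe0000000000000) (nat_lit 16)
theorem c19506 : QOK q19506 := cut [q9084, q19168, q4748, q9009, q19315, q19320, q7508, q19329, q19272, q19333, q19440, q19441, q9913, q19331, q19495, q19498, q19499, q8766, q4979, q19504] ⟨c9084, c19168, c4748, c9009, c19315, c19320, c7508, c19329, c19272, c19333, c19440, c19441, c9913, c19331, c19495, c19498, c19499, c8766, c4979, c19504, trivial⟩ (nd (nat_lit 143) (nat_lit 0) (cs (rf (nat_lit 0)) (cs (nd (nat_lit 185) (nat_lit 0) (cs (rf (nat_lit 1)) (cs (nd (nat_lit 252) (nat_lit 0) (cs (rf (nat_lit 2)) (cs (nd (nat_lit 166) (nat_lit 0) (cs (lf (nat_lit 17) (nat_lit 163)) (nd (nat_lit 144) (nat_lit 0) (cs (rf (nat_lit 3)) (cs (rf (nat_lit 4)) (nd (nat_lit 162) (nat_lit 0) (cs (lf (nat_lit 22) (nat_lit 162)) (rf (nat_lit 5)))))))))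 (nd (nat_lit 230) (nat_lit 0) (cs (lf (nat_lit 29) (nat_lit 186)) (nd (nat_lit 251) (nat_lit 0) (cs (lf (nat_lit 41) (nat_lit 185)) (nd (nat_lit 209) (nat_lit 0) (cs (lf (nat_lit 30) (nat_lit 186)) (rf (nat_lit 6))))))))))) (cs (rf (nat_lit 7)) (cs (nd (nat_lit 163) (nat_lit 0) (cs (rf (nat_lit 8)) (nd (nat_lit 167) (nat_lit 0) (cs (lf (nat_lit 16) (nat_lit 163)) (nd (nat_lit 145) (nat_lit 0) (cs (nd (nat_lit 168) (nat_lit 0) (cs (rf (nat_lit 9)) (lf (nat_lit 15) (nat_lit 164)))) (cs (rf (nat_lit 10)) (cs (nd (nat_lit 230) (nat_lit 0) (cs (lf (nat_lit 42) (nat_lit 163)) (nd (nat_lit 119) (nat_lit 0) (cs (lf (nat_lit 25) (nat_lit 119)) (nd (nat_lit 189) (nat_lit 0) (cs (lf (nat_lit 17) (nat_lit 164)) (rf (nat_lit 11)))))))) (nd (nat_lit 144) (nat_lit 0) (cs (nd (nat_lit 119) (nat_lit 0) (cs (lf (nat_lit 25) (nat_lit 119)) (nd (nat_lit 120) (nat_lit 0) (cs (lf (nat_lit 21) (nat_lit 119)) (nd (nat_lit 121) (nat_lit 0) (cs (lf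 (nat_lit 0) (nat_lit 118)) (lf (nat_lit 3) (nat_lit 119)))))))) (cs (nd (nat_lit 146) (nat_lit 0) (cs (nd (nat_lit 168) (nat_lit 0) (cs (lf (nat_lit 5) (nat_lit 143)) (nd (nat_lit 125) (nat_lit 0) (cs (lf (nat_lit 16) (nat_lit 121)) (nd (nat_lit 147) (nat_lit 0) (cs (lf (nat_lit 17) (nat_lit 122)) (nd (nat_lit 190) (nat_lit 0) (cs (nd (nat_lit 148) (nat_lit 0) (cs (lf (nat_lit 6) (nat_lit 145)) (nd (nat_lit 123) (nat_lit 0) (cs (lf (nat_lit 23) (nat_lit 122)) (lf (nat_lit 24) (nat_lit 101)))))) (lf (nat_lit 30) (nat_lit 124)))))))))) (cs (nd (nat_lit 119) (nat_lit 0) (cs (lf (nat_lit 25) (nat_lit 119)) (nd (nat_lit 124) (nat_lit 0) (cs (lf (nat_lit 17) (nat_lit 121)) (nd (nat_lit 121) (nat_lit 0) (cs (lf (nat_lit 23) (nat_lit 120)) (nd (nat_lit 102) (nat_lit 0) (cs (lf (nat_lit 36) (nat_lit 79)) (nd (nat_lit 230) (nat_lit 0) (cs (lf (nat_lit 42) (nat_lit 163)) (nd (nat_lit 122) (nat_lit 0) (cs (nd (nat_lit 103) (nat_lit 0)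 (cs (lf (nat_lit 14) (nat_lit 99)) (nd (nat_lit 100) (nat_lit 0) (cs (lf (nat_lit 24) (nat_lit 78)) (lf (nat_lit 8) (nat_lit 99)))))) (lf (nat_lit 18) (nat_lit 121)))))))))))))) (cs (nd (nat_lit 169) (nat_lit 0) (cs (lf (nat_lit 4) (nat_lit 143)) (nd (nat_lit 119) (nat_lit 0) (cs (lf (nat_lit 25) (nat_lit 119)) (nd (nat_lit 121) (nat_lit 0) (cs (lf (nat_lit 23) (nat_lit 120)) (rf (nat_lit 12)))))))) (nd (nat_lit 119) (nat_lit 0) (cs (lf (nat_lit 25) (nat_lit 119)) (nd (nat_lit 168) (nat_lit 0) (cs (lf (nat_lit 5) (nat_lit 143)) (nd (nat_lit 124) (nat_lit 0) (cs (lf (nat_lit 17) (nat_lit 121)) (nd (nat_lit 102) (nat_lit 0) (cs (lf (nat_lit 36) (nat_lit 79)) (nd (nat_lit 101) (nat_lit 0) (cs (lf (nat_lit 47) (nat_lit 79)) (nd (nat_lit 190) (nat_lit 0) (cs (nd (nat_lit 212) (nat_lit 0) (cs (nd (nat_lit 213) (nat_lit 0) (cs (lf (nat_lit 29) (nat_lit 146)) (lf (nat_lit 28) (nat_lit 124)))) (lf (nat_lit 42) (nat_lit 145)))) (lf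 (nat_lit 25) (nat_lit 101)))))))))))))))))) (nd (nat_lit 230) (nat_lit 0) (cs (lf (nat_lit 42) (nat_lit 163)) (nd (nat_lit 168) (nat_lit 0) (cs (rf (nat_lit 13)) (lf (nat_lit 0) (nat_lit 142))))))))))))))))) (rf (nat_lit 14))))))) (cs (nd (nat_lit 167) (nat_lit 0) (cs (rf (nat_lit 15)) (cs (rf (nat_lit 16)) (nd (nat_lit 189) (nat_lit 0) (cs (lf (nat_lit 17) (nat_lit 164)) (nd (nat_lit 209) (nat_lit 0) (cs (lf (nat_lit 6) (nat_lit 186)) (rf (nat_lit 17))))))))) (nd (nat_lit 166) (nat_lit 0) (cs (nd (nat_lit 121) (nat_lit 0) (cs (lf (nat_lit 38) (nat_lit 120)) (rf (nat_lit 18)))) (rf (nat_lit 19)))))))) q19506 (by decide +kernel)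
def q19511 : Q := Q.p (nat_lit 0x100001c0000000000000000000000000000000000000000000000) (nat_lit 0x3e70006380038e0000000000000000000000000000000000000000) (nat_lit 9)
theorem c19511 : QOK q19511 := cut [q7989, q8028, q9055, q19507] ⟨c7989, c8028, c9055, c19507, trivial⟩ (nd (nat_lit 189) (nat_lit 0) (cs (rf (nat_lit 0)) (cs (rf (nat_lit 1)) (cs (rf (nat_lit 2)) (nd (nat_lit 167) (nat_lit 0) (cs (lf (nat_lit 17) (nat_lit 164)) (nd (nat_lit 211) (nat_lit 0) (cs (lf (nat_lit 5) (nat_lit 186)) (nd (nat_lit 185) (nat_lit 0) (cs (lf (nat_lit 4) (nat_lit 185)) (rf (nat_lit 3)))))))))))) q19511 (by decide +kernel)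
def q19745 : Q := Q.p (nat_lit 0x40000100000c0000100000000000000000000000000000000000000000) (nat_lit 0x20000000000200000c0000300000e0000380000a0000000000000) (nat_lit 7)
theorem c19745 : QOK q19745 := cut [q2, q18390, q18391] ⟨c2, c18390, c18391, trivial⟩ (nd (nat_lit 142) (nat_lit 0) (cs (rf (nat_lit 0)) (cs (rf (nat_lit 1)) (rf (nat_lit 2))))) q19745 (by decide +kernel)
def q19803 : Q := Q.p (nat_lit 0x100000c0000000000000000000000000000000000000000000000) (nat_lit 0x10001e7000f38007ff0003e0000f800038000080000000000000000000) (nat_lit 12)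
theorem c19803 : QOK q19803 := cut [q19729, q19161, q19777, q19779, q19788, q18911, q19155, q19799, q18907, q18915, q19728] ⟨c19729, c19161, c19777, c19779, c19788, c18911, c19155, c19799, c18907, c18915, c19728, trivial⟩ (nd (nat_lit 185) (nat_lit 0) (cs (rf (nat_lit 0)) (cs (nd (nat_lit 188) (nat_lit 0) (cs (rf (nat_lit 1)) (cs (rf (nat_lit 2)) (cs (nd (nat_lit 163) (nat_lit 0) (cs (lf (nat_lit 23) (nat_lit 162)) (nd (nat_lit 119) (nat_lit 0) (cs (lf (nat_lit 25) (nat_lit 119)) (nd (nat_lit 189) (nat_lit 0) (cs (lf (nat_lit 22) (nat_lit 163)) (rf (nat_lit 3)))))))) (nd (nat_lit 162) (nat_lit 0) (cs (lf (nat_lit 22) (nat_lit 162)) (nd (nat_lit 211) (nat_lit 0) (cs (lf (nat_lit 4) (nat_lit 185)) (rf (nat_lit 4)))))))))) (cs (nd (nat_lit 184) (nat_lit 0) (cs (rf (nat_lit 5)) (cs (rf (nat_lit 6)) (rf (nat_lit 7))))) (cs (nd (nat_lit 184) (nat_lit 0) (cs (rf (nat_lit 8)) (cs (rf (nat_lit 5)) (rf (nat_lit 6))))) (nd (nat_lit 184)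 (nat_lit 0) (cs (rf (nat_lit 9)) (cs (rf (nat_lit 6)) (rf (nat_lit 10)))))))))) q19803 (by decide +kernel)
def q19919 : Q := Q.p (nat_lit 0x20000000000100000c0000800000000000000000000000000000000000000000) (nat_lit 0x80000e000018000560003e0000720007300007e0007fc00072000140000000000000000000) (nat_lit 13)
theorem c19919 : QOK q19919 := cut [q435, q19829, q19717, q9184, q19512, q19833, q19835, q19436, q19842, q19353, q19441, q19851, q19857, q9961, q19861, q19333, q19433, q19870, q19916, q9045] ⟨c435, c19829, c19717, c9184, c19512, c19833, c19835, c19436, c19842, c19353, c19441, c19851, c19857, c9961, c19861, c19333, c19433, c19870, c19916, c9045, trivial⟩ (nd (nat_lit 230) (nat_lit 0) (cs (rf (nat_lit 0)) (cs (rf (nat_lit 1)) (nd (nat_lit 189) (nat_lit 0) (cs (nd (nat_lit 188) (nat_lit 0) (cs (lf (nat_lit 17) (nat_lit 164)) (rf (nat_lit 2)))) (cs (nd (nat_lit 145) (nat_lit 0) (cs (nd (nat_lit 143) (nat_lit 0) (cs (rf (nat_lit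 3)) (cs (rf (nat_lit 4)) (cs (nd (nat_lit 168) (nat_lit 0) (cs (lf (nat_lit 14) (nat_lit 164)) (rf (nat_lit 5)))) (rf (nat_lit 6)))))) (cs (nd (nat_lit 123) (nat_lit 0) (cs (rf (nat_lit 7)) (nd (nat_lit 188) (nat_lit 0) (cs (lf (nat_lit 41) (nat_lit 122)) (nd (nat_lit 190) (nat_lit 0) (cs (lf (nat_lit 10) (nat_lit 186)) (lf (nat_lit 29) (nat_lit 123)))))))) (cs (nd (nat_lit 123) (nat_lit 0) (cs (rf (nat_lit 8)) (nd (nat_lit 143) (nat_lit 0) (cs (rf (nat_lit 9)) (rf (nat_lit 4)))))) (nd (nat_lit 188) (nat_lit 0) (cs (lf (nat_lit 17) (nat_lit 164)) (rf (nat_lit 10)))))))) (cs (nd (nat_lit 211) (nat_lit 0) (cs (nd (nat_lit 210) (nat_lit 0) (cs (nd (nat_lit 145) (nat_lit 0) (cs (lf (nat_lit 41) (nat_lit 144)) (nd (nat_lit 188) (nat_lit 0) (cs (lf (nat_lit 36) (nat_lit 122)) (lf (nat_lit 0) (nat_lit 185)))))) (rf (nat_lit 11)))) (cs (rf (nat_lit 12)) (cs (nd (nat_lit 188) (nat_lit 0) (cs (lf (nat_lit 5) (nat_lit 186)) (nd (nat_lit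 210) (nat_lit 0) (cs (lf (nat_lit 0) (nat_lit 185)) (nd (nat_lit 209) (nat_lit 0) (cs (lf (nat_lit 6) (nat_lit 186)) (lf (nat_lit 11) (nat_lit 207)))))))) (nd (nat_lit 145) (nat_lit 0) (cs (rf (nat_lit 13)) (rf (nat_lit 14)))))))) (cs (nd (nat_lit 168) (nat_lit 0) (cs (lf (nat_lit 14) (nat_lit 164)) (nd (nat_lit 143) (nat_lit 0) (cs (rf (nat_lit 3)) (cs (rf (nat_lit 4)) (cs (rf (nat_lit 6)) (nd (nat_lit 145) (nat_lit 0) (cs (rf (nat_lit 15)) (cs (rf (nat_lit 5)) (nd (nat_lit 124) (nat_lit 0) (cs (nd (nat_lit 102) (nat_lit 0) (cs (lf (nat_lit 38) (nat_lit 101)) (lf (nat_lit 33) (nat_lit 101)))) (cs (nd (nat_lit 123) (nat_lit 0) (cs (lf (nat_lit 35) (nat_lit 101)) (nd (nat_lit 101) (nat_lit 0) (cs (rf (nat_lit 16)) (lf (nat_lit 29) (nat_lit 101)))))) (nd (nat_lit 211) (nat_lit 0) (cs (lf (nat_lit 34) (nat_lit 123)) (rf (nat_lit 17)))))))))))))))) (cs (rf (nat_lit 18)) (nd (nat_lit 188) (nat_lit 0) (cs (lf (nat_lit 17) (nat_lit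 164)) (rf (nat_lit 19))))))))))))) q19919 (by decide +kernel)
def q20029 : Q := Q.p (nat_lit 0x100000c0000100000000000000000000000000000000000000000) (nat_lit 0x60000190000740003c700033c003ef8007c0001e000050000000000000000000000000) (nat_lit 12)
theorem c20029 : QOK q20029 := cut [q18440, q19722, q20002, q20000, q20024, q20025] ⟨c18440, c19722, c20002, c20000, c20024, c20025, trivial⟩ (nd (nat_lit 188) (nat_lit 0) (cs (rf (nat_lit 0)) (cs (rf (nat_lit 1)) (cs (rf (nat_lit 2)) (nd (nat_lit 185) (nat_lit 0) (cs (rf (nat_lit 3)) (cs (rf (nat_lit 4)) (nd (nat_lit 166) (nat_lit 0) (cs (lf (nat_lit 17) (nat_lit 163)) (nd (nat_lit 165) (nat_lit 0) (cs (lf (nat_lit 12) (nat_lit 162)) (rf (nat_lit 5))))))))))))) q20029 (by decide +kernel)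
def q20096 : Q := Q.p (nat_lit 0x6000010000000000780000000000000000000000000000000000000000) (nat_lit 0x118000e8000300000800007000008000020000000000000000000000000) (nat_lit 8)
theorem c20096 : QOK q20096 := cut [q20095] ⟨c20095, trivial⟩ (nd (nat_lit 145) (nat_lit 0) (cs (lf (nat_lit 16) (nat_lit 141)) (rf (nat_lit 0)))) q20096 (by decide +kernel)
def q20132 : Q := Q.p (nat_lit 0x10000040000100000000000000000000000000000000000000000) (nat_lit 0x2000008000020000ef8003fc001ff8000a000000000000000000000000) (nat_lit 12)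
theorem c20132 : QOK q20132 := cut [q619, q18163, q18380, q20131] ⟨c619, c18163, c18380, c20131, trivial⟩ (nd (nat_lit 142) (nat_lit 0) (cs (rf (nat_lit 0)) (cs (rf (nat_lit 1)) (cs (rf (nat_lit 2)) (rf (nat_lit 3)))))) q20132 (by decide +kernel)
def q20152 : Q := Q.p (nat_lit 0x2000000000010000040000100000400000000000000000000000000000000000) (nat_lit 0x80000e00001800004000008000020000280000a00002800000000000000000000000000000) (nat_lit 8)
theorem c20152 : QOK q20152 := cut [q20150] ⟨c20150, trivial⟩ (nd (nat_lit 143) (nat_lit 0) (cs (lf (nat_lit 35) (nat_lit 120)) (nd (nat_lit 119) (nat_lit 0) (cs (lf (nat_lit 46) (nat_lit 119)) (rf (nat_lit 0)))))) q20152 (by decide +kernel)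
def q20265 : Q := Q.p (nat_lit 0x3c000040000000000000000000000000000000000000000000000) (nat_lit 0x718001c0000eb8000000000000000000000000000000000000000000000) (nat_lit 8)
theorem c20265 : QOK q20265 := cut [q2457] ⟨c2457, trivial⟩ (nd (nat_lit 184) (nat_lit 0) (cs (lf (nat_lit 23) (nat_lit 183)) (nd (nat_lit 227) (nat_lit 0) (cs (lf (nat_lit 10) (nat_lit 205)) (rf (nat_lit 0)))))) q20265 (by decide +kernel)
def q20456 : Q := Q.p (nat_lit 0x18000060000000000000000000000000000000000000000000000) (nat_lit 0x8000020000000001800007f0003fc0003c00000000000000000000000000000) (nat_lit 8)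
theorem c20456 : QOK q20456 := cut [q5818, q20442, q6330, q5835, q16253, q3493, q20449, q20455] ⟨c5818, c20442, c6330, c5835, c16253, c3493, c20449, c20455, trivial⟩ (nd (nat_lit 163) (nat_lit 0) (cs (rf (nat_lit 0)) (cs (rf (nat_lit 1)) (cs (nd (nat_lit 141) (nat_lit 0) (cs (lf (nat_lit 24) (nat_lit 119)) (nd (nat_lit 140) (nat_lit 0) (cs (lf (nat_lit 47) (nat_lit 118)) (nd (nat_lit 162) (nat_lit 0) (cs (lf (nat_lit 42) (nat_lit 140)) (nd (nat_lit 161) (nat_lit 0) (cs (lf (nat_lit 0) (nat_lit 160)) (rf (nat_lit 2)))))))))) (cs (nd (nat_lit 164) (nat_lit 0) (cs (rf (nat_lit 3)) (cs (rf (nat_lit 4)) (nd (nat_lit 229) (nat_lit 0) (cs (lf (nat_lit 30) (nat_lit 163)) (rf (nat_lit 5))))))) (cs (rf (nat_lit 6)) (rf (nat_lit 7)))))))) q20456 (by decide +kernel)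
def q20464 : Q := Q.p (nat_lit 0x10000060000000000000000000000000000000000000000000000) (nat_lit 0x2000018000e780019c000ff8001f80007e00000000000000000000000000000) (nat_lit 12)
theorem c20464 : QOK q20464 := cut [q4772, q18911, q18931, q18907, q18915, q19725, q19799] ⟨c4772, c18911, c18931, c18907, c18915, c19725, c19799, trivial⟩ (nd (nat_lit 184) (nat_lit 0) (cs (rf (nat_lit 0)) (cs (rf (nat_lit 1)) (cs (rf (nat_lit 2)) (nd (nat_lit 187) (nat_lit 0) (cs (rf (nat_lit 3)) (cs (rf (nat_lit 4)) (cs (rf (nat_lit 5)) (rf (nat_lit 6)))))))))) q20464 (by decide +kernel)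
def q20475 : Q := Q.p (nat_lit 0x2000000000018000060000000000000000000000000000000000000000000000) (nat_lit 0x380001e00003c000e700001c000378000500001000000000000000000000000000000) (nat_lit 9)
theorem c20475 : QOK q20475 := cut [q3927, q20381, q3500, q4774, q20468, q3507, q3499] ⟨c3927, c20381, c3500, c4774, c20468, c3507, c3499, trivial⟩ (nd (nat_lit 206) (nat_lit 0) (cs (rf (nat_lit 0)) (cs (rf (nat_lit 1)) (cs (nd (nat_lit 184) (nat_lit 0) (cs (rf (nat_lit 2)) (cs (rf (nat_lit 3)) (rf (nat_lit 4))))) (cs (nd (nat_lit 184) (nat_lit 0) (cs (rf (nat_lit 2)) (rf (nat_lit 5)))) (nd (nat_lit 205) (nat_lit 0) (cs (lf (nat_lit 12) (nat_lit 182)) (nd (nat_lit 183) (nat_lit 0) (cs (lf (nat_lit 23) (nat_lit 182)) (nd (nat_lit 184) (nat_lit 0) (cs (lf (nat_lit 18) (nat_lit 183)) (nd (nat_lit 160) (nat_lit 0) (cs (rf (nat_lit 6)) (lf (nat_lit 22) (nat_lit 160))))))))))))))) q20475 (by decide +kernel)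
def q20494 : Q := Q.p (nat_lit 0x200000000000c000030000000000200000000000000000000000000000000000) (nat_lit 0x1f80001e00001800000000000000080000000000000000000000000000000000000000) (nat_lit 7)
theorem c20494 : QOK q20494 := cut [q20493] ⟨c20493, trivial⟩ (nd (nat_lit 228) (nat_lit 0) (cs (lf (nat_lit 37) (nat_lit 140)) (rf (nat_lit 0)))) q20494 (by decide +kernel)
def q20521 : Q := Q.p (nat_lit 0x2000000000018000060000000000000000000000000000000000000000000000) (nat_lit 0x700001c00003c0000000001c000ff0003fc0001c00000000000000000000000000000) (nat_lit 13)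
theorem c20521 : QOK q20521 := cut [q90, q3126, q1663, q3129, q3728, q16253] ⟨c90, c3126, c1663, c3129, c3728, c16253, trivial⟩ (nd (nat_lit 229) (nat_lit 0) (cs (rf (nat_lit 0)) (cs (rf (nat_lit 1)) (nd (nat_lit 163) (nat_lit 0) (cs (rf (nat_lit 2)) (cs (rf (nat_lit 3)) (nd (nat_lit 164) (nat_lit 0) (cs (rf (nat_lit 4)) (rf (nat_lit 5)))))))))) q20521 (by decide +kernel)
def q20537 : Q := Q.p (nat_lit 0x18000060000000000000000000000000000000000000000000000) (nat_lit 0x280000e00003c0006700001c0001c0000300000c00000000000000000000000000000) (nat_lit 10)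
theorem c20537 : QOK q20537 := cut [q20517, q20525, q20536] ⟨c20517, c20525, c20536, trivial⟩ (nd (nat_lit 163) (nat_lit 0) (cs (rf (nat_lit 0)) (cs (rf (nat_lit 1)) (rf (nat_lit 2))))) q20537 (by decide +kernel)
def q20647 : Q := Q.p (nat_lit 0x10000070000000000000000000000000000000000000000000000) (nat_lit 0x1cf80038c000f80000000000000000000000000000000000000000) (nat_lit 7)
theorem c20647 : QOK q20647 := cut [q18920, q19076, q20644] ⟨c18920, c19076, c20644, trivial⟩ (nd (nat_lit 205) (nat_lit 0) (cs (rf (nat_lit 0)) (cs (rf (nat_lit 1)) (nd (nat_lit 183) (nat_lit 0) (cs (lf (nat_lit 11) (nat_lit 182)) (nd (nat_lit 182) (nat_lit 0) (cs (lf (nat_lit 4) (nat_lit 182)) (rf (nat_lit 2))))))))) q20647 (by decide +kernel)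

end Crest.Agent.H3.Snaky.CR
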