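import Crest.Agent.H3.Snaky.Cert
import Crest.Agent.H3.Snaky.CR.CR0
import Crest.Agent.H3.Snaky.CR.CR1
import Crest.Agent.H3.Snaky.CR.CR2
import Crest.Agent.H3.Snaky.CR.CR3
import Crest.Agent.H3.Snaky.CR.CR4
import Crest.Agent.H3.Snaky.CR.CR5
import Crest.Agent.H3.Snaky.CR.CR6
import Crest.Agent.H3.Snaky.CR.CR7
import Crest.Agent.H3.Snaky.CR.CR8
import Crest.Agent.H3.Snaky.CR.CR9
import Crest.Agent.H3.Snaky.CR.CR10
import Crest.Agent.H3.Snaky.CR.CR20
import Crest.Agent.H3.Snaky.CR.CR21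
import Crest.Agent.H3.Snaky.CR.CR22
import Crest.Agent.H3.Snaky.CR.CR23
import Crest.Agent.H3.Snaky.CR.CR24
import Crest.Agent.H3.Snaky.CR.CR25
import Crest.Agent.H3.Snaky.CR.CR26
import Crest.Agent.H3.Snaky.CR.CR27
import Crest.Agent.H3.Snaky.CR.CR28
import Crest.Agent.H3.Snaky.CR.CR39
import Crest.Agent.H3.Snaky.CR.CR40
import Crest.Agent.H3.Snaky.CR.CR41
import Crest.Agent.H3.Snaky.CR.CR42
import Crest.Agent.H3.Snaky.CR.CR43
import Crest.Agent.H3.Snaky.CR.CR44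
import Crest.Agent.H3.Snaky.CR.CR54
import Crest.Agent.H3.Snaky.CR.CR55
import Crest.Agent.H3.Snaky.CR.CR56
import Crest.Agent.H3.Snaky.CR.CR57

set_option autoImplicit false
set_option maxRecDepth 100000

namespace Crest.Agent.H3.Snaky.CR

open T

def q20662 : Q := Q.p (nat_lit 0x2000000000014000070000000000000000000000000000000000000000000000) (nat_lit 0x20001f80001e00003e0002b0000000001e0000380000a00000000000000000000000000000) (nat_lit 8)
theorem c20662 : QOK q20662 := cut [q18585, q18655, q19097, q3507, q20466, q20493] ⟨c18585, c18655, c19097, c3507, c20466, c20493, trivial⟩ (nd (nat_lit 228) (nat_lit 0) (cs (rf (nat_lit 0)) (cs (rf (nat_lit 1)) (cs (rf (nat_lit 2)) (nd (nat_lit 207) (nat_lit 0) (cs (rf (nat_lit 3)) (cs (rf (nat_lit 4)) (rf (nat_lit 5))))))))) q20662 (by decide +kernel)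
def q20786 : Q := Q.p (nat_lit 0x4000010000040000180000000000000000000000000000000000000000) (nat_lit 0x8000020000000003ae000e700079c0000000000000000000000000000000000) (nat_lit 9)
theorem c20786 : QOK q20786 := cut [q2900, q2888, q20779, q20783] ⟨c2900, c2888, c20779, c20783, trivial⟩ (nd (nat_lit 188) (nat_lit 0) (cs (rf (nat_lit 0)) (cs (nd (nat_lit 229) (nat_lit 0) (cs (lf (nat_lit 41) (nat_lit 163)) (rf (nat_lit 1)))) (cs (nd (nat_lit 229) (nat_lit 0) (cs (lf (nat_lit 41) (nat_lit 163)) (rf (nat_lit 2)))) (nd (nat_lit 229) (nat_lit 0) (cs (lf (nat_lit 41) (nat_lit 163)) (nd (nat_lit 165) (nat_lit 0) (cs (lf (nat_lit 35) (nat_lit 142)) (rf (nat_lit 3)))))))))) q20786 (by decide +kernel)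
def q20897 : Q := Q.p (nat_lit 0x100000c0000000000000000000000000000000000000000000000) (nat_lit 0x100001c00017c000ef000138001fe0003d0000e000038000000000000000000000000) (nat_lit 11)
theorem c20897 : QOK q20897 := cut [q7194, q18713, q20873, q9274, q9292, q18907, q19151, q9273, q9291, q20874, q7622, q20883] ⟨c7194, c18713, c20873, c9274, c9292, c18907, c19151, c9273, c9291, c20874, c7622, c20883, trivial⟩ (nd (nat_lit 165) (nat_lit 0) (cs (rf (nat_lit 0)) (cs (rf (nat_lit 1)) (cs (rf (nat_lit 2)) (nd (nat_lit 185) (nat_lit 0) (cs (rf (nat_lit 3)) (cs (rf (nat_lit 4)) (cs (nd (nat_lit 184) (nat_lit 0) (cs (rf (nat_lit 5)) (rf (nat_lit 6)))) (nd (nat_lit 166) (nat_lit 0) (cs (rf (nat_lit 7)) (cs (rf (nat_lit 8)) (nd (nat_lit 144) (nat_lit 0) (cs (nd (nat_lit 122) (nat_lit 0) (cs (lf (nat_lit 36) (nat_lit 99)) (nd (nat_lit 188) (nat_lit 0) (cs (lf (nat_lit 41) (nat_lit 121)) (rf (nat_lit 9)))))) (cs (nd (nat_lit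 210) (nat_lit 0) (cs (nd (nat_lit 211) (nat_lit 0) (cs (lf (nat_lit 20) (nat_lit 185)) (lf (nat_lit 3) (nat_lit 185)))) (cs (nd (nat_lit 209) (nat_lit 0) (cs (lf (nat_lit 18) (nat_lit 185)) (rf (nat_lit 10)))) (cs (nd (nat_lit 143) (nat_lit 0) (cs (lf (nat_lit 36) (nat_lit 120)) (nd (nat_lit 232) (nat_lit 0) (cs (lf (nat_lit 44) (nat_lit 143)) (lf (nat_lit 27) (nat_lit 143)))))) (nd (nat_lit 121) (nat_lit 0) (cs (lf (nat_lit 37) (nat_lit 120)) (nd (nat_lit 188) (nat_lit 0) (cs (lf (nat_lit 5) (nat_lit 185)) (nd (nat_lit 206) (nat_lit 0) (cs (lf (nat_lit 10) (nat_lit 184)) (nd (nat_lit 163) (nat_lit 0) (cs (lf (nat_lit 23) (nat_lit 162)) (rf (nat_lit 11)))))))))))))) (cs (nd (nat_lit 121) (nat_lit 0) (cs (lf (nat_lit 37) (nat_lit 120)) (nd (nat_lit 122) (nat_lit 0) (cs (lf (nat_lit 36) (nat_lit 99)) (nd (nat_lit 188) (nat_lit 0) (cs (lf (nat_lit 47) (nat_lit 99)) (rf (nat_lit 9)))))))) (nd (nat_lit 122) (nat_lit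 0) (cs (lf (nat_lit 36) (nat_lit 99)) (nd (nat_lit 143) (nat_lit 0) (cs (lf (nat_lit 36) (nat_lit 120)) (lf (nat_lit 30) (nat_lit 121))))))))))))))))))))) q20897 (by decide +kernel)
def q20925 : Q := Q.p (nat_lit 0x20000000000100000c0000000000000000000000000000000000000000000000) (nat_lit 0x6a000198000760003ce000730003fe0007c0001f000078000000000000000000000000) (nat_lit 14)
theorem c20925 : QOK q20925 := cut [q19722, q584, q19289, q20854, q18447, q20024, q7086, q2868, q1812, q20005, q4659, q20911, q20918, q20921, q20924] ⟨c19722, c584, c19289, c20854, c18447, c20024, c7086, c2868, c1812, c20005, c4659, c20911, c20918, c20921, c20924, trivial⟩ (nd (nat_lit 188) (nat_lit 0) (cs (rf (nat_lit 0)) (cs (nd (nat_lit 185) (nat_lit 0) (cs (rf (nat_lit 1)) (cs (rf (nat_lit 2)) (cs (rf (nat_lit 3)) (nd (nat_lit 164) (nat_lit 0) (cs (rf (nat_lit 4)) (cs (rf (nat_lit 5)) (cs (nd (nat_lit 207) (nat_lit 0) (cs (rf (nat_lit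 6)) (nd (nat_lit 229) (nat_lit 0) (cs (rf (nat_lit 7)) (nd (nat_lit 163) (nat_lit 0) (cs (rf (nat_lit 8)) (nd (nat_lit 166) (nat_lit 0) (cs (lf (nat_lit 17) (nat_lit 163)) (nd (nat_lit 144) (nat_lit 0) (cs (rf (nat_lit 9)) (cs (nd (nat_lit 230) (nat_lit 0) (cs (lf (nat_lit 42) (nat_lit 163)) (nd (nat_lit 210) (nat_lit 0) (cs (lf (nat_lit 5) (nat_lit 185)) (rf (nat_lit 10)))))) (cs (nd (nat_lit 210) (nat_lit 0) (cs (lf (nat_lit 5) (nat_lit 185)) (nd (nat_lit 230) (nat_lit 0) (cs (lf (nat_lit 29) (nat_lit 163)) (nd (nat_lit 143) (nat_lit 0) (cs (lf (nat_lit 34) (nat_lit 142)) (lf (nat_lit 47) (nat_lit 121)))))))) (nd (nat_lit 165) (nat_lit 0) (cs (lf (nat_lit 17) (nat_lit 141)) (nd (nat_lit 230) (nat_lit 0) (cs (lf (nat_lit 35) (nat_lit 142)) (lf (nat_lit 42) (nat_lit 163)))))))))))))))))) (rf (nat_lit 11)))))))))) (cs (rf (nat_lit 12)) (cs (rf (nat_lit 13)) (rf (nat_lit 14))))))) q20925 (by decide +kernel)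
def q21015 : Q := Q.p (nat_lit 0x100000c0000000000000000000000000000000000000000000000) (nat_lit 0x60000190000740007ee001f30003e0000780001e000070000000000000000000000000) (nat_lit 12)
theorem c21015 : QOK q21015 := cut [q19722, q20564, q20861, q584, q4961, q9084, q19276, q19279, q19282, q18713] ⟨c19722, c20564, c20861, c584, c4961, c9084, c19276, c19279, c19282, c18713, trivial⟩ (nd (nat_lit 188) (nat_lit 0) (cs (rf (nat_lit 0)) (cs (rf (nat_lit 1)) (cs (rf (nat_lit 2)) (nd (nat_lit 185) (nat_lit 0) (cs (rf (nat_lit 3)) (cs (rf (nat_lit 4)) (cs (nd (nat_lit 166) (nat_lit 0) (cs (lf (nat_lit 17) (nat_lit 163)) (nd (nat_lit 143) (nat_lit 0) (cs (rf (nat_lit 5)) (cs (rf (nat_lit 6)) (cs (rf (nat_lit 7)) (nd (nat_lit 206) (nat_lit 0) (cs (lf (nat_lit 10) (nat_lit 184)) (nd (nat_lit 210) (nat_lit 0) (cs (lf (nat_lit 5) (nat_lit 185)) (rf (nat_lit 8)))))))))))) (nd (nat_lit 166) (nat_lit 0) (cs (lf (nat_lit 17) (nat_lit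 163)) (nd (nat_lit 165) (nat_lit 0) (cs (lf (nat_lit 12) (nat_lit 162)) (rf (nat_lit 9)))))))))))))) q21015 (by decide +kernel)
def q21078 : Q := Q.p (nat_lit 0x40000380000000000000000000000000000000000000000) (nat_lit 0x3ae000c700071c0000000000000000000000000000000000) (nat_lit 7)
theorem c21078 : QOK q21078 := cut [q20778, q20783] ⟨c20778, c20783, trivial⟩ (nd (nat_lit 188) (nat_lit 0) (cs (rf (nat_lit 0)) (cs (rf (nat_lit 1)) (nd (nat_lit 189) (nat_lit 0) (cs (lf (nat_lit 3) (nat_lit 163)) (lf (nat_lit 20) (nat_lit 163))))))) q21078 (by decide +kernel)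
def q21161 : Q := Q.p (nat_lit 0x2000000000018000040000000000000000000000000000000000000000000000) (nat_lit 0xa0001f80001e00005e000670003be0002e0000380000e00000000000000000000000000000) (nat_lit 12)
theorem c21161 : QOK q21161 := cut [q530, q18355, q20282, q526, q529, q21134, q3414, q18654, q17131, q18570, q19636, q21142, q2412, q6722, q6730, q3392, q1823] ⟨c530, c18355, c20282, c526, c529, c21134, c3414, c18654, c17131, c18570, c19636, c21142, c2412, c6722, c6730, c3392, c1823, trivial⟩ (nd (nat_lit 206) (nat_lit 0) (cs (rf (nat_lit 0)) (cs (rf (nat_lit 1)) (cs (rf (nat_lit 2)) (nd (nat_lit 187) (nat_lit 0) (cs (rf (nat_lit 3)) (cs (rf (nat_lit 4)) (nd (nat_lit 252) (nat_lit 0) (cs (nd (nat_lit 228) (nat_lit 0) (cs (nd (nat_lit 227) (nat_lit 0) (cs (lf (nat_lit 6) (nat_lit 205)) (nd (nat_lit 225) (nat_lit 0) (cs (lf (nat_lit 13) (nat_lit 203)) (nd (nat_lit 250) (nat_lit 0) (cs (lf (nat_lit 20) (nat_lit 227))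 (rf (nat_lit 5)))))))) (cs (nd (nat_lit 184) (nat_lit 0) (cs (rf (nat_lit 6)) (cs (rf (nat_lit 7)) (cs (nd (nat_lit 250) (nat_lit 0) (cs (rf (nat_lit 8)) (cs (rf (nat_lit 9)) (rf (nat_lit 10))))) (nd (nat_lit 209) (nat_lit 0) (cs (lf (nat_lit 11) (nat_lit 205)) (lf (nat_lit 23) (nat_lit 183)))))))) (cs (nd (nat_lit 209) (nat_lit 0) (cs (lf (nat_lit 11) (nat_lit 205)) (nd (nat_lit 184) (nat_lit 0) (cs (lf (nat_lit 23) (nat_lit 183)) (nd (nat_lit 185) (nat_lit 0) (cs (lf (nat_lit 18) (nat_lit 184)) (rf (nat_lit 11)))))))) (cs (nd (nat_lit 184) (nat_lit 0) (cs (rf (nat_lit 12)) (cs (rf (nat_lit 6)) (nd (nat_lit 185) (nat_lit 0) (cs (rf (nat_lit 11)) (nd (nat_lit 250) (nat_lit 0) (cs (lf (nat_lit 30) (nat_lit 184)) (nd (nat_lit 251) (nat_lit 0) (cs (lf (nat_lit 29) (nat_lit 184)) (rf (nat_lit 13))))))))))) (nd (nat_lit 250) (nat_lit 0) (cs (rf (nat_lit 5)) (cs (nd (nat_lit 251) (nat_lit 0) (cs (lf (nat_lit 23) (nat_lit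 227)) (nd (nat_lit 184) (nat_lit 0) (cs (lf (nat_lit 29) (nat_lit 184)) (nd (nat_lit 249) (nat_lit 0) (cs (lf (nat_lit 41) (nat_lit 183)) (rf (nat_lit 14)))))))) (nd (nat_lit 227) (nat_lit 0) (cs (lf (nat_lit 20) (nat_lit 227)) (nd (nat_lit 225) (nat_lit 0) (cs (rf (nat_lit 15)) (lf (nat_lit 13) (nat_lit 203)))))))))))))) (cs (nd (nat_lit 230) (nat_lit 0) (cs (lf (nat_lit 35) (nat_lit 164)) (rf (nat_lit 16)))) (nd (nat_lit 230) (nat_lit 0) (cs (lf (nat_lit 35) (nat_lit 164)) (lf (nat_lit 29) (nat_lit 186)))))))))))))) q21161 (by decide +kernel)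
def q21259 : Q := Q.p (nat_lit 0x2000000000018000040000000000000000000000000000000000000000000000) (nat_lit 0x180000e000018000060000260003bc001ff0007780003a0000e000020000000000000000000) (nat_lit 11)
theorem c21259 : QOK q21259 := cut [q4880, q18188, q4806, q6859, q10295, q21242, q6930, q537, q6901, q18457, q20123, q2802] ⟨c4880, c18188, c4806, c6859, c10295, c21242, c6930, c537, c6901, c18457, c20123, c2802, trivial⟩ (nd (nat_lit 164) (nat_lit 0) (cs (rf (nat_lit 0)) (cs (rf (nat_lit 1)) (cs (nd (nat_lit 163) (nat_lit 0) (cs (rf (nat_lit 2)) (cs (nd (nat_lit 230) (nat_lit 0) (cs (lf (nat_lit 47) (nat_lit 141)) (nd (nat_lit 229) (nat_lit 0) (cs (lf (nat_lit 41) (nat_lit 163)) (nd (nat_lit 252) (nat_lit 0) (cs (lf (nat_lit 29) (nat_lit 186)) (nd (nat_lit 187) (nat_lit 0) (cs (lf (nat_lit 35) (nat_lit 164)) (nd (nat_lit 274) (nat_lit 0) (cs (lf (nat_lit 34) (nat_lit 186)) (lf (nat_lit 42) (nat_lit 207))))))))))))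 (nd (nat_lit 187) (nat_lit 0) (cs (rf (nat_lit 3)) (cs (rf (nat_lit 4)) (nd (nat_lit 184) (nat_lit 0) (cs (nd (nat_lit 162) (nat_lit 0) (cs (lf (nat_lit 0) (nat_lit 161)) (nd (nat_lit 165) (nat_lit 0) (cs (lf (nat_lit 11) (nat_lit 161)) (nd (nat_lit 139) (nat_lit 0) (cs (lf (nat_lit 22) (nat_lit 139)) (rf (nat_lit 5)))))))) (cs (nd (nat_lit 162) (nat_lit 0) (cs (lf (nat_lit 0) (nat_lit 161)) (nd (nat_lit 206) (nat_lit 0) (cs (lf (nat_lit 12) (nat_lit 183)) (rf (nat_lit 6)))))) (cs (nd (nat_lit 206) (nat_lit 0) (cs (lf (nat_lit 12) (nat_lit 183)) (nd (nat_lit 183) (nat_lit 0) (cs (lf (nat_lit 18) (nat_lit 183)) (rf (nat_lit 7)))))) (nd (nat_lit 206) (nat_lit 0) (cs (lf (nat_lit 12) (nat_lit 183)) (nd (nat_lit 161) (nat_lit 0) (cs (lf (nat_lit 1) (nat_lit 161)) (nd (nat_lit 183) (nat_lit 0) (cs (lf (nat_lit 18) (nat_lit 183)) (nd (nat_lit 185) (nat_lit 0) (cs (lf (nat_lit 0) (nat_lit 182)) (lf (nat_lit 23) (nat_lit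 160)))))))))))))))))))) (cs (nd (nat_lit 141) (nat_lit 0) (cs (rf (nat_lit 8)) (cs (rf (nat_lit 9)) (rf (nat_lit 10))))) (nd (nat_lit 142) (nat_lit 0) (cs (lf (nat_lit 41) (nat_lit 141)) (rf (nat_lit 11))))))))) q21259 (by decide +kernel)
def q21274 : Q := Q.p (nat_lit 0x1000014000040000180000000000000000000000000000000000000000) (nat_lit 0x400000000009e0000700002e0000800002000000000000000000000000) (nat_lit 8)
theorem c21274 : QOK q21274 := cut [q21273] ⟨c21273, trivial⟩ (nd (nat_lit 141) (nat_lit 0) (cs (lf (nat_lit 42) (nat_lit 141)) (rf (nat_lit 0)))) q21274 (by decide +kernel)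
def q21388 : Q := Q.p (nat_lit 0x10000040000100000400000000000000000000000000000000000) (nat_lit 0x20000280000a000020000000000100000e0000380000a0000000000000) (nat_lit 8)
theorem c21388 : QOK q21388 := cut [q18381] ⟨c18381, trivial⟩ (nd (nat_lit 207) (nat_lit 0) (cs (lf (nat_lit 41) (nat_lit 141)) (nd (nat_lit 120) (nat_lit 0) (cs (lf (nat_lit 40) (nat_lit 119)) (rf (nat_lit 0)))))) q21388 (by decide +kernel)
def q21528 : Q := Q.p (nat_lit 0x2000000000010000060000000000000000000000000000000000000000000000) (nat_lit 0x380001e00007e003ef80079c001df8000180000600000000000000000000000000000) (nat_lit 11)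
theorem c21528 : QOK q21528 := cut [q4753, q4772, q4774, q20671, q20660, q20667, q21474, q17691, q21504, q20465, q21512, q20663, q20609, q19172] ⟨c4753, c4772, c4774, c20671, c20660, c20667, c21474, c17691, c21504, c20465, c21512, c20663, c20609, c19172, trivial⟩ (nd (nat_lit 184) (nat_lit 0) (cs (rf (nat_lit 0)) (cs (rf (nat_lit 1)) (cs (rf (nat_lit 2)) (cs (rf (nat_lit 3)) (nd (nat_lit 206) (nat_lit 0) (cs (rf (nat_lit 4)) (cs (rf (nat_lit 5)) (cs (nd (nat_lit 187) (nat_lit 0) (cs (lf (nat_lit 11) (nat_lit 183)) (nd (nat_lit 209) (nat_lit 0) (cs (lf (nat_lit 5) (nat_lit 184)) (nd (nat_lit 162) (nat_lit 0) (cs (lf (nat_lit 23) (nat_lit 161)) (nd (nat_lit 163) (nat_lit 0) (cs (lf (nat_lit 18) (nat_lit 162)) (nd (nat_lit 228) (nat_lit 0) (cs (lf (nat_lit 30) (nat_lit 162)) (nd (nat_lit 229) (nat_lit 0) (cs (lf (nat_lit 29) (nat_lit 162)) (rf (nat_lit 6)))))))))))))) (cs (nd (nat_lit 228) (nat_lit 0) (cs (nd (nat_lit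 250) (nat_lit 0) (cs (lf (nat_lit 35) (nat_lit 162)) (rf (nat_lit 7)))) (cs (rf (nat_lit 8)) (cs (nd (nat_lit 250) (nat_lit 0) (cs (lf (nat_lit 35) (nat_lit 162)) (nd (nat_lit 249) (nat_lit 0) (cs (lf (nat_lit 41) (nat_lit 183)) (nd (nat_lit 207) (nat_lit 0) (cs (lf (nat_lit 30) (nat_lit 184)) (nd (nat_lit 204) (nat_lit 0) (cs (lf (nat_lit 13) (nat_lit 182)) (nd (nat_lit 209) (nat_lit 0) (cs (lf (nat_lit 18) (nat_lit 184)) (rf (nat_lit 9)))))))))))) (cs (nd (nat_lit 250) (nat_lit 0) (cs (lf (nat_lit 35) (nat_lit 162)) (rf (nat_lit 10)))) (nd (nat_lit 250) (nat_lit 0) (cs (lf (nat_lit 35) (nat_lit 162)) (nd (nat_lit 251) (nat_lit 0) (cs (lf (nat_lit 29) (nat_lit 184)) (nd (nat_lit 162) (nat_lit 0) (cs (lf (nat_lit 28) (nat_lit 162)) (nd (nat_lit 139) (nat_lit 0) (cs (lf (nat_lit 46) (nat_lit 139)) (nd (nat_lit 117) (nat_lit 0) (cs (lf (nat_lit 45) (nat_lit 117)) (nd (nat_lit 227) (nat_lit 0) (cs (lf (nat_lit 19)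 (nat_lit 227)) (nd (nat_lit 207) (nat_lit 0) (cs (lf (nat_lit 30) (nat_lit 184)) (lf (nat_lit 6) (nat_lit 205))))))))))))))))))))) (cs (nd (nat_lit 207) (nat_lit 0) (cs (rf (nat_lit 11)) (nd (nat_lit 209) (nat_lit 0) (cs (lf (nat_lit 18) (nat_lit 184)) (rf (nat_lit 12)))))) (nd (nat_lit 187) (nat_lit 0) (cs (lf (nat_lit 11) (nat_lit 183)) (nd (nat_lit 161) (nat_lit 0) (cs (lf (nat_lit 22) (nat_lit 161)) (nd (nat_lit 188) (nat_lit 0) (cs (lf (nat_lit 10) (nat_lit 184)) (rf (nat_lit 13))))))))))))))))))) q21528 (by decide +kernel)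
def q21603 : Q := Q.p (nat_lit 0x2000000000010000060000000000000000000000000000000000000000000000) (nat_lit 0xbc0001f80007c0006f80001c0001f8003fc0003f0000d000000000000000000000000) (nat_lit 15)
theorem c21603 : QOK q21603 := cut [q8623, q9715, q20161, q4772, q4774, q21579, q21067, q21559, q4752, q4767, q18924, q18928, q6003, q1931, q20525, q20536] ⟨c8623, c9715, c20161, c4772, c4774, c21579, c21067, c21559, c4752, c4767, c18924, c18928, c6003, c1931, c20525, c20536, trivial⟩ (nd (nat_lit 163) (nat_lit 0) (cs (rf (nat_lit 0)) (cs (rf (nat_lit 1)) (cs (nd (nat_lit 230) (nat_lit 0) (cs (rf (nat_lit 2)) (nd (nat_lit 184) (nat_lit 0) (cs (rf (nat_lit 3)) (cs (rf (nat_lit 4)) (cs (nd (nat_lit 229) (nat_lit 0) (cs (rf (nat_lit 5)) (cs (nd (nat_lit 228) (nat_lit 0) (cs (rf (nat_lit 6)) (nd (nat_lit 251) (nat_lit 0) (cs (lf (nat_lit 36) (nat_lit 163)) (nd (nat_lit 206) (nat_lit 0) (cs (lf (nat_lit 30) (nat_lit 162)) (lf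 (nat_lit 24) (nat_lit 162)))))))) (nd (nat_lit 228) (nat_lit 0) (cs (rf (nat_lit 6)) (rf (nat_lit 7))))))) (nd (nat_lit 183) (nat_lit 0) (cs (rf (nat_lit 8)) (cs (rf (nat_lit 9)) (nd (nat_lit 205) (nat_lit 0) (cs (lf (nat_lit 11) (nat_lit 182)) (nd (nat_lit 227) (nat_lit 0) (cs (rf (nat_lit 10)) (cs (rf (nat_lit 11)) (cs (nd (nat_lit 161) (nat_lit 0) (cs (lf (nat_lit 23) (nat_lit 160)) (nd (nat_lit 228) (nat_lit 0) (cs (lf (nat_lit 29) (nat_lit 161)) (nd (nat_lit 139) (nat_lit 0) (cs (lf (nat_lit 28) (nat_lit 139)) (nd (nat_lit 118) (nat_lit 0) (cs (lf (nat_lit 34) (nat_lit 117)) (nd (nat_lit 96) (nat_lit 0) (cs (nd (nat_lit 116) (nat_lit 0) (cs (lf (nat_lit 46) (nat_lit 116)) (nd (nat_lit 248) (nat_lit 0) (cs (lf (nat_lit 40) (nat_lit 160)) (nd (nat_lit 249) (nat_lit 0) (cs (lf (nat_lit 41) (nat_lit 182)) (lf (nat_lit 7) (nat_lit 226)))))))) (lf (nat_lit 33) (nat_lit 95)))))))))))) (nd (nat_lit 160) (nat_lit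 0) (cs (lf (nat_lit 22) (nat_lit 160)) (nd (nat_lit 249) (nat_lit 0) (cs (lf (nat_lit 35) (nat_lit 161)) (rf (nat_lit 12))))))))))))))))))))) (nd (nat_lit 207) (nat_lit 0) (cs (rf (nat_lit 13)) (cs (rf (nat_lit 14)) (rf (nat_lit 15))))))))) q21603 (by decide +kernel)
def q21618 : Q := Q.p (nat_lit 0x18000070000000000000000000000000000000000000000000000) (nat_lit 0x80000600001c0000700000c000070000180000200000000000000000000000000000) (nat_lit 7)
theorem c21618 : QOK q21618 := cut [q3507, q3564, q3509, q21606] ⟨c3507, c3564, c3509, c21606, trivial⟩ (nd (nat_lit 206) (nat_lit 0) (cs (rf (nat_lit 0)) (cs (rf (nat_lit 1)) (cs (nd (nat_lit 183) (nat_lit 0) (cs (lf (nat_lit 0) (nat_lit 182)) (nd (nat_lit 205) (nat_lit 0) (cs (lf (nat_lit 12) (nat_lit 182)) (nd (nat_lit 160) (nat_lit 0) (cs (rf (nat_lit 2)) (lf (nat_lit 22) (nat_lit 160)))))))) (nd (nat_lit 205) (nat_lit 0) (cs (lf (nat_lit 12) (nat_lit 182)) (nd (nat_lit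 183) (nat_lit 0) (cs (lf (nat_lit 23) (nat_lit 182)) (nd (nat_lit 226) (nat_lit 0) (cs (lf (nat_lit 10) (nat_lit 204)) (nd (nat_lit 161) (nat_lit 0) (cs (lf (nat_lit 23) (nat_lit 160)) (rf (nat_lit 3)))))))))))))) q21618 (by decide +kernel)
def q21832 : Q := Q.p (nat_lit 0x10000040000000000c00000000000000000000000000000000000) (nat_lit 0xc000030001cf800f3c003ff80003000008000000000000000000) (nat_lit 11)
theorem c21832 : QOK q21832 := cut [q5770, q18373, q21801, q9094, q21810, q9117, q9126, q9131, q16672, q21809, q9143, q9147, q9153, q9159, q9166, q20416, q20686, q20690, q21823] ⟨c5770, c18373, c21801, c9094, c21810, c9117, c9126, c9131, c16672, c21809, c9143, c9147, c9153, c9159, c9166, c20416, c20686, c20690, c21823, trivial⟩ (nd (nat_lit 141) (nat_lit 0) (cs (nd (nat_lit 140) (nat_lit 0) (cs (rf (nat_lit 0)) (cs (rf (nat_lit 1)) (cs (rf (nat_lit 2)) (nd (nat_lit 121) (nat_lit 0) (cs (lf (nat_lit 17) (nat_lit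 118)) (nd (nat_lit 117) (nat_lit 0) (cs (lf (nat_lit 22) (nat_lit 117)) (nd (nat_lit 162) (nat_lit 0) (cs (lf (nat_lit 11) (nat_lit 139)) (rf (nat_lit 3)))))))))))) (cs (rf (nat_lit 4)) (cs (nd (nat_lit 140) (nat_lit 0) (cs (rf (nat_lit 0)) (cs (rf (nat_lit 5)) (cs (rf (nat_lit 1)) (rf (nat_lit 2)))))) (cs (nd (nat_lit 144) (nat_lit 0) (cs (rf (nat_lit 6)) (cs (rf (nat_lit 7)) (cs (rf (nat_lit 8)) (cs (rf (nat_lit 9)) (nd (nat_lit 122) (nat_lit 0) (cs (lf (nat_lit 17) (nat_lit 119)) (nd (nat_lit 121) (nat_lit 0) (cs (lf (nat_lit 12) (nat_lit 118)) (nd (nat_lit 167) (nat_lit 0) (cs (lf (nat_lit 4) (nat_lit 141)) (nd (nat_lit 145) (nat_lit 0) (cs (lf (nat_lit 5) (nat_lit 142)) (nd (nat_lit 120) (nat_lit 0) (cs (lf (nat_lit 18) (nat_lit 120)) (lf (nat_lit 0) (nat_lit 119))))))))))))))))) (cs (nd (nat_lit 140) (nat_lit 0) (cs (rf (nat_lit 10)) (cs (rf (nat_lit 11)) (cs (rf (nat_lit 12)) (cs (rf (nat_lit 13)) (cs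 (rf (nat_lit 14)) (rf (nat_lit 1)))))))) (cs (nd (nat_lit 144) (nat_lit 0) (cs (rf (nat_lit 15)) (cs (rf (nat_lit 16)) (nd (nat_lit 122) (nat_lit 0) (cs (lf (nat_lit 17) (nat_lit 119)) (nd (nat_lit 121) (nat_lit 0) (cs (lf (nat_lit 12) (nat_lit 118)) (rf (nat_lit 17))))))))) (nd (nat_lit 140) (nat_lit 0) (cs (rf (nat_lit 1)) (cs (nd (nat_lit 162) (nat_lit 0) (cs (lf (nat_lit 11) (nat_lit 139)) (nd (nat_lit 121) (nat_lit 0) (cs (lf (nat_lit 17) (nat_lit 118)) (nd (nat_lit 163) (nat_lit 0) (cs (lf (nat_lit 6) (nat_lit 140)) (nd (nat_lit 119) (nat_lit 0) (cs (lf (nat_lit 27) (nat_lit 119)) (rf (nat_lit 18)))))))))) (nd (nat_lit 122) (nat_lit 0) (cs (lf (nat_lit 16) (nat_lit 118)) (nd (nat_lit 118) (nat_lit 0) (cs (lf (nat_lit 23) (nat_lit 117)) (nd (nat_lit 144) (nat_lit 0) (cs (lf (nat_lit 17) (nat_lit 119)) (lf (nat_lit 22) (nat_lit 118)))))))))))))))))) q21832 (by decide +kernel)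
def q21932 : Q := Q.p (nat_lit 0x200000800002000000000010000000000000000000000000000000000000000000000000000) (nat_lit 0x140000700001c000000000000000100000c000000000000000000000000000000000000000000000000000000000) (nat_lit 6)
theorem c21932 : QOK q21932 := cut [q21931] ⟨c21931, trivial⟩ (nd (nat_lit 230) (nat_lit 0) (cs (lf (nat_lit 45) (nat_lit 208)) (rf (nat_lit 0)))) q21932 (by decide +kernel)
def q21995 : Q := Q.p (nat_lit 0x18000078000000000000000000000000000000000000000000000000000) (nat_lit 0x7000380000e30000000000000000000000000000000000000000000000) (nat_lit 6)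
theorem c21995 : QOK q21995 := cut [q10107] ⟨c10107, trivial⟩ (nd (nat_lit 184) (nat_lit 0) (cs (lf (nat_lit 22) (nat_lit 184)) (rf (nat_lit 0)))) q21995 (by decide +kernel)
def q22001 : Q := Q.p (nat_lit 0x800002000008000010000000000000000000000000000000000000000000000000000) (nat_lit 0x700003400001c0003000006c000180000000000000000000000000000000000000000000000) (nat_lit 6)
theorem c22001 : QOK q22001 := cut [q2359, q2931] ⟨c2359, c2931, trivial⟩ (nd (nat_lit 209) (nat_lit 0) (cs (rf (nat_lit 0)) (rf (nat_lit 1)))) q22001 (by decide +kernel)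
def q22107 : Q := Q.p (nat_lit 0x200000800002000000000010000000000000000000000000000000000000000000000000000) (nat_lit 0x500001c00007c0003f80001e0007780009e0007bc000ee0003bc000000000000000000000000000000000000000000000) (nat_lit 15)
theorem c22107 : QOK q22107 := cut [q2532, q2541, q11607, q21929, q22050, q15709, q15714, q11604, q11603, q22056, q22060, q12839, q16004, q22071, q22078, q22085, q22089, q13011, q13034] ⟨c2532, c2541, c11607, c21929, c22050, c15709, c15714, c11604, c11603, c22056, c22060, c12839, c16004, c22071, c22078, c22085, c22089, c13011, c13034, trivial⟩ (nd (nat_lit 319) (nat_lit 0) (cs (rf (nat_lit 0)) (cs (rf (nat_lit 1)) (cs (rf (nat_lit 2)) (cs (rf (nat_lit 3)) (cs (rf (nat_lit 4)) (nd (nat_lit 274) (nat_lit 0) (cs (rf (nat_lit 5)) (cs (rf (nat_lit 6)) (cs (nd (nat_lit 341) (nat_lit 0) (cs (lf (nat_lit 47) (nat_lit 252)) (rf (nat_lit 7)))) (cs (nd (nat_lit 318) (nat_lit 0) (cs (lf (nat_lit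 41) (nat_lit 252)) (nd (nat_lit 296) (nat_lit 0) (cs (rf (nat_lit 8)) (nd (nat_lit 317) (nat_lit 0) (cs (rf (nat_lit 9)) (cs (nd (nat_lit 316) (nat_lit 0) (cs (lf (nat_lit 12) (nat_lit 293)) (nd (nat_lit 294) (nat_lit 0) (cs (lf (nat_lit 23) (nat_lit 293)) (nd (nat_lit 295) (nat_lit 0) (cs (lf (nat_lit 17) (nat_lit 272)) (lf (nat_lit 5) (nat_lit 294)))))))) (nd (nat_lit 315) (nat_lit 0) (cs (lf (nat_lit 13) (nat_lit 293)) (nd (nat_lit 252) (nat_lit 0) (cs (lf (nat_lit 41) (nat_lit 251)) (nd (nat_lit 251) (nat_lit 0) (cs (lf (nat_lit 47) (nat_lit 229)) (nd (nat_lit 250) (nat_lit 0) (cs (lf (nat_lit 0) (nat_lit 249)) (nd (nat_lit 271) (nat_lit 0) (cs (lf (nat_lit 10) (nat_lit 249)) (nd (nat_lit 228) (nat_lit 0) (cs (lf (nat_lit 23) (nat_lit 227)) (nd (nat_lit 295) (nat_lit 0) (cs (lf (nat_lit 44) (nat_lit 228)) (rf (nat_lit 10))))))))))))))))))))))) (nd (nat_lit 296) (nat_lit 0) (cs (rf (nat_lit 8)) (cs (rf (nat_lit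 11)) (nd (nat_lit 273) (nat_lit 0) (cs (rf (nat_lit 12)) (cs (nd (nat_lit 272) (nat_lit 0) (cs (lf (nat_lit 0) (nat_lit 271)) (nd (nat_lit 341) (nat_lit 0) (cs (lf (nat_lit 42) (nat_lit 274)) (nd (nat_lit 340) (nat_lit 0) (cs (lf (nat_lit 41) (nat_lit 274)) (nd (nat_lit 294) (nat_lit 0) (cs (lf (nat_lit 11) (nat_lit 271)) (rf (nat_lit 13)))))))))) (cs (nd (nat_lit 209) (nat_lit 0) (cs (lf (nat_lit 37) (nat_lit 208)) (nd (nat_lit 341) (nat_lit 0) (cs (lf (nat_lit 42) (nat_lit 274)) (nd (nat_lit 207) (nat_lit 0) (cs (nd (nat_lit 340) (nat_lit 0) (cs (lf (nat_lit 41) (nat_lit 274)) (rf (nat_lit 14)))) (cs (rf (nat_lit 15)) (nd (nat_lit 340) (nat_lit 0) (cs (lf (nat_lit 41) (nat_lit 274)) (rf (nat_lit 16))))))))))) (cs (nd (nat_lit 341) (nat_lit 0) (cs (lf (nat_lit 42) (nat_lit 274)) (nd (nat_lit 272) (nat_lit 0) (cs (lf (nat_lit 0) (nat_lit 271)) (nd (nat_lit 340) (nat_lit 0) (cs (lf (nat_lit 41) (nat_lit 274))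 (nd (nat_lit 249) (nat_lit 0) (cs (lf (nat_lit 22) (nat_lit 249)) (nd (nat_lit 209) (nat_lit 0) (cs (lf (nat_lit 37) (nat_lit 208)) (nd (nat_lit 294) (nat_lit 0) (cs (lf (nat_lit 11) (nat_lit 271)) (nd (nat_lit 295) (nat_lit 0) (cs (rf (nat_lit 17)) (lf (nat_lit 5) (nat_lit 294)))))))))))))))) (nd (nat_lit 341) (nat_lit 0) (cs (lf (nat_lit 42) (nat_lit 274)) (nd (nat_lit 340) (nat_lit 0) (cs (lf (nat_lit 41) (nat_lit 274)) (nd (nat_lit 209) (nat_lit 0) (cs (lf (nat_lit 37) (nat_lit 208)) (rf (nat_lit 18))))))))))))))))))))))))))) q22107 (by decide +kernel)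
def q22132 : Q := Q.p (nat_lit 0xe00000000000000000000000000000000000000000000000000000000000000000000) (nat_lit 0x8000020001df00031e0000fc0001000004000000000000000000000000000000000000000000000000000) (nat_lit 9)
theorem c22132 : QOK q22132 := cut [q22115, q22119, q22120, q22121, q22127] ⟨c22115, c22119, c22120, c22121, c22127, trivial⟩ (nd (nat_lit 250) (nat_lit 0) (cs (rf (nat_lit 0)) (cs (rf (nat_lit 1)) (cs (rf (nat_lit 2)) (nd (nat_lit 272) (nat_lit 0) (cs (lf (nat_lit 23) (nat_lit 249)) (nd (nat_lit 295) (nat_lit 0) (cs (rf (nat_lit 3)) (cs (rf (nat_lit 4)) (nd (nat_lit 294) (nat_lit 0) (cs (lf (nat_lit 11) (nat_lit 271)) (nd (nat_lit 317) (nat_lit 0) (cs (lf (nat_lit 42) (nat_lit 250)) (lf (nat_lit 24) (nat_lit 228))))))))))))))) q22132 (by decide +kernel)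
def q22157 : Q := Q.p (nat_lit 0xf0000000000000000000000000000000000000000000000000000) (nat_lit 0x7380000c000638000000000000000000000000000000000000000000000) (nat_lit 7)
theorem c22157 : QOK q22157 := cut [q22156] ⟨c22156, trivial⟩ (nd (nat_lit 189) (nat_lit 0) (cs (lf (nat_lit 17) (nat_lit 186)) (rf (nat_lit 0)))) q22157 (by decide +kernel)
def q22276 : Q := Q.p (nat_lit 0xc00002000008000010000000000000000000000000000000000000000000000000000) (nat_lit 0x80000200006c0003380001e0003600002e0000a0000000000000000000000000000000000000000000000) (nat_lit 9)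
theorem c22276 : QOK q22276 := cut [q22235, q22270, q22273] ⟨c22235, c22270, c22273, trivial⟩ (nd (nat_lit 252) (nat_lit 0) (cs (rf (nat_lit 0)) (cs (rf (nat_lit 1)) (nd (nat_lit 187) (nat_lit 0) (cs (lf (nat_lit 37) (nat_lit 186)) (nd (nat_lit 230) (nat_lit 0) (cs (lf (nat_lit 29) (nat_lit 208)) (rf (nat_lit 2))))))))) q22276 (by decide +kernel)
def q22314 : Q := Q.p (nat_lit 0x600001000000000010000000000000000000000000000000000000000000000000000) (nat_lit 0x1800000000000000070000e80000a0000000000000000000000000000000000000000000000) (nat_lit 6)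
theorem c22314 : QOK q22314 := cut [q22313] ⟨c22313, trivial⟩ (nd (nat_lit 230) (nat_lit 0) (cs (lf (nat_lit 41) (nat_lit 207)) (rf (nat_lit 0)))) q22314 (by decide +kernel)
def q22348 : Q := Q.p (nat_lit 0xc00003000000000000000000000000000000000000000000000000000000000000000) (nat_lit 0x18000060001de0007380018e0000300000c000030000000000000000000000000000000000000000000000) (nat_lit 11)
theorem c22348 : QOK q22348 := cut [q700, q2190, q2182, q22310, q5304, q22344] ⟨c700, c2190, c2182, c22310, c5304, c22344, trivial⟩ (nd (nat_lit 276) (nat_lit 0) (cs (rf (nat_lit 0)) (cs (rf (nat_lit 1)) (nd (nat_lit 273) (nat_lit 0) (cs (rf (nat_lit 2)) (cs (rf (nat_lit 3)) (nd (nat_lit 251) (nat_lit 0) (cs (rf (nat_lit 4)) (nd (nat_lit 298) (nat_lit 0) (cs (lf (nat_lit 5) (nat_lit 273)) (rf (nat_lit 5)))))))))))) q22348 (by decide +kernel)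
def q22349 : Q := Q.p (nat_lit 0xc00001000000000010000000000000000000000000000000000000000000000000000) (nat_lit 0x3000000000000000070000e80000a0000000000000000000000000000000000000000000000) (nat_lit 6)
theorem c22349 : QOK q22349 := cut [q22313] ⟨c22313, trivial⟩ (nd (nat_lit 230) (nat_lit 0) (cs (lf (nat_lit 29) (nat_lit 208)) (rf (nat_lit 0)))) q22349 (by decide +kernel)
def q22354 : Q := Q.p (nat_lit 0xc00003000004000010000000000000000000000000000000000000000000000000000) (nat_lit 0x180000600001800000000000000020000280000a0000000000000000000000000000000000000000000000) (nat_lit 6)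
theorem c22354 : QOK q22354 := cut [q22353] ⟨c22353, trivial⟩ (nd (nat_lit 187) (nat_lit 0) (cs (lf (nat_lit 34) (nat_lit 186)) (rf (nat_lit 0)))) q22354 (by decide +kernel)
def q22481 : Q := Q.p (nat_lit 0x200000c00002000008000000000000000000000000000000000000000000000000000000000) (nat_lit 0x40001700007c0001f00006d0001d60007380039e00072000348000e0000380000a000000000000000000000000000000000000) (nat_lit 13)
theorem c22481 : QOK q22481 := cut [q22408, q22413, q13474, q22422, q22426, q22431, q13890, q22458, q22461, q22465, q22477, q13254] ⟨c22408, c22413, c13474, c22422, c22426, c22431, c13890, c22458, c22461, c22465, c22477, c13254, trivial⟩ (nd (nat_lit 299) (nat_lit 0) (cs (nd (nat_lit 296) (nat_lit 0) (cs (lf (nat_lit 41) (nat_lit 230)) (nd (nat_lit 298) (nat_lit 0) (cs (lf (nat_lit 18) (nat_lit 274)) (lf (nat_lit 23) (nat_lit 273)))))) (cs (nd (nat_lit 296) (nat_lit 0) (cs (lf (nat_lit 41) (nat_lit 230))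 (nd (nat_lit 273) (nat_lit 0) (cs (lf (nat_lit 19) (nat_lit 273)) (nd (nat_lit 272) (nat_lit 0) (cs (lf (nat_lit 0) (nat_lit 271)) (nd (nat_lit 210) (nat_lit 0) (cs (lf (nat_lit 34) (nat_lit 209)) (rf (nat_lit 0)))))))))) (cs (nd (nat_lit 210) (nat_lit 0) (cs (lf (nat_lit 34) (nat_lit 209)) (rf (nat_lit 1)))) (nd (nat_lit 277) (nat_lit 0) (cs (nd (nat_lit 296) (nat_lit 0) (cs (lf (nat_lit 41) (nat_lit 230)) (nd (nat_lit 276) (nat_lit 0) (cs (lf (nat_lit 5) (nat_lit 274)) (lf (nat_lit 6) (nat_lit 274)))))) (cs (nd (nat_lit 318) (nat_lit 0) (cs (lf (nat_lit 40) (nat_lit 230)) (nd (nat_lit 276) (nat_lit 0) (cs (lf (nat_lit 5) (nat_lit 274)) (nd (nat_lit 255) (nat_lit 0) (cs (lf (nat_lit 17) (nat_lit 252)) (nd (nat_lit 252) (nat_lit 0) (cs (lf (nat_lit 23) (nat_lit 251)) (rf (nat_lit 2)))))))))) (cs (nd (nat_lit 234) (nat_lit 0) (cs (nd (nat_lit 232) (nat_lit 0) (cs (lf (nat_lit 35) (nat_lit 209)) (nd (nat_lit 233)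 (nat_lit 0) (cs (lf (nat_lit 11) (nat_lit 230)) (rf (nat_lit 3)))))) (cs (nd (nat_lit 296) (nat_lit 0) (cs (lf (nat_lit 41) (nat_lit 230)) (nd (nat_lit 232) (nat_lit 0) (cs (lf (nat_lit 35) (nat_lit 209)) (nd (nat_lit 233) (nat_lit 0) (cs (lf (nat_lit 11) (nat_lit 230)) (nd (nat_lit 256) (nat_lit 0) (cs (lf (nat_lit 5) (nat_lit 231)) (rf (nat_lit 4)))))))))) (cs (nd (nat_lit 256) (nat_lit 0) (cs (nd (nat_lit 366) (nat_lit 0) (cs (nd (nat_lit 210) (nat_lit 0) (cs (lf (nat_lit 34) (nat_lit 209)) (nd (nat_lit 321) (nat_lit 0) (cs (lf (nat_lit 33) (nat_lit 233)) (nd (nat_lit 343) (nat_lit 0) (cs (lf (nat_lit 28) (nat_lit 277)) (rf (nat_lit 5)))))))) (cs (nd (nat_lit 318) (nat_lit 0) (cs (lf (nat_lit 40) (nat_lit 230)) (nd (nat_lit 319) (nat_lit 0) (cs (lf (nat_lit 41) (nat_lit 252)) (nd (nat_lit 341) (nat_lit 0) (cs (lf (nat_lit 47) (nat_lit 252)) (nd (nat_lit 364) (nat_lit 0) (cs (lf (nat_lit 28) (nat_lit 275))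 (nd (nat_lit 363) (nat_lit 0) (cs (lf (nat_lit 29) (nat_lit 297)) (nd (nat_lit 384) (nat_lit 0) (cs (lf (nat_lit 40) (nat_lit 296)) (nd (nat_lit 385) (nat_lit 0) (cs (lf (nat_lit 41) (nat_lit 318)) (lf (nat_lit 7) (nat_lit 362)))))))))))))))) (nd (nat_lit 210) (nat_lit 0) (cs (lf (nat_lit 34) (nat_lit 209)) (nd (nat_lit 296) (nat_lit 0) (cs (lf (nat_lit 41) (nat_lit 230)) (nd (nat_lit 321) (nat_lit 0) (cs (lf (nat_lit 33) (nat_lit 233)) (nd (nat_lit 344) (nat_lit 0) (cs (lf (nat_lit 27) (nat_lit 277)) (rf (nat_lit 6))))))))))))) (cs (rf (nat_lit 7)) (nd (nat_lit 210) (nat_lit 0) (cs (lf (nat_lit 34) (nat_lit 209)) (rf (nat_lit 8))))))) (cs (nd (nat_lit 256) (nat_lit 0) (cs (rf (nat_lit 4)) (cs (rf (nat_lit 7)) (cs (rf (nat_lit 8)) (nd (nat_lit 296) (nat_lit 0) (cs (lf (nat_lit 41) (nat_lit 230)) (nd (nat_lit 255) (nat_lit 0) (cs (lf (nat_lit 30) (nat_lit 233)) (rf (nat_lit 9)))))))))) (nd (nat_lit 296) (nat_lit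 0) (cs (lf (nat_lit 41) (nat_lit 230)) (nd (nat_lit 232) (nat_lit 0) (cs (lf (nat_lit 35) (nat_lit 209)) (nd (nat_lit 233) (nat_lit 0) (cs (lf (nat_lit 11) (nat_lit 230)) (nd (nat_lit 212) (nat_lit 0) (cs (lf (nat_lit 17) (nat_lit 209)) (nd (nat_lit 256) (nat_lit 0) (cs (lf (nat_lit 5) (nat_lit 231)) (lf (nat_lit 39) (nat_lit 211))))))))))))))))) (cs (nd (nat_lit 210) (nat_lit 0) (cs (lf (nat_lit 34) (nat_lit 209)) (rf (nat_lit 10)))) (nd (nat_lit 276) (nat_lit 0) (cs (lf (nat_lit 5) (nat_lit 274)) (rf (nat_lit 11))))))))))))) q22481 (by decide +kernel)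
def q22505 : Q := Q.p (nat_lit 0xc00003000000000000000000000000000000000000000000000000000000000000000) (nat_lit 0x1c0000f0001fe0007380018e00008000020000000000000000000000000000000000000000000000000000) (nat_lit 11)
theorem c22505 : QOK q22505 := cut [q700, q2190, q2182, q22310, q5304, q22499] ⟨c700, c2190, c2182, c22310, c5304, c22499, trivial⟩ (nd (nat_lit 276) (nat_lit 0) (cs (rf (nat_lit 0)) (cs (rf (nat_lit 1)) (nd (nat_lit 273) (nat_lit 0) (cs (rf (nat_lit 2)) (cs (rf (nat_lit 3)) (nd (nat_lit 251) (nat_lit 0) (cs (rf (nat_lit 4)) (nd (nat_lit 298) (nat_lit 0) (cs (lf (nat_lit 5) (nat_lit 273)) (nd (nat_lit 209) (nat_lit 0) (cs (lf (nat_lit 25) (nat_lit 209)) (nd (nat_lit 295) (nat_lit 0) (cs (lf (nat_lit 11) (nat_lit 272)) (rf (nat_lit 5)))))))))))))))) q22505 (by decide +kernel)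
def q22607 : Q := Q.p (nat_lit 0x1c00002000000000000000000000000000000000000000000000000000000000000000) (nat_lit 0x38e0006380039f00000000000000000000000000000000000000000000000000000000000000) (nat_lit 7)
theorem c22607 : QOK q22607 := cut [q13258, q15516, q15518, q15625] ⟨c13258, c15516, c15518, c15625, trivial⟩ (nd (nat_lit 273) (nat_lit 0) (cs (rf (nat_lit 0)) (cs (rf (nat_lit 1)) (cs (rf (nat_lit 2)) (rf (nat_lit 3)))))) q22607 (by decide +kernel)
def q22796 : Q := Q.p (nat_lit 0xe00002000000000010000000000000000000000000000000000000000000000000000) (nat_lit 0xffc001fe000ffc003df00071c0039b8002b0000ec0003bc000000000000000000000000000000000000000000000) (nat_lit 16)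
theorem c22796 : QOK q22796 := cut [q15829, q22076, q22657, q1208, q22195, q22714, q22133, q22722, q22729, q22726, q22089, q13268, q15588, q22744, q22752, q22758, q1680, q22764, q22784, q22789, q22793] ⟨c15829, c22076, c22657, c1208, c22195, c22714, c22133, c22722, c22729, c22726, c22089, c13268, c15588, c22744, c22752, c22758, c1680, c22764, c22784, c22789, c22793, trivial⟩ (nd (nat_lit 296) (nat_lit 0) (cs (rf (nat_lit 0)) (cs (nd (nat_lit 276) (nat_lit 0) (cs (rf (nat_lit 1)) (cs (rf (nat_lit 2)) (nd (nat_lit 272) (nat_lit 0) (cs (rf (nat_lit 3)) (cs (rf (nat_lit 4)) (nd (nat_lit 209) (nat_lit 0) (cs (lf (nat_lit 37) (nat_lit 208)) (nd (nat_lit 298) (nat_lit 0) (cs (lf (nat_lit 5) (nat_lit 273)) (nd (nat_lit 320) (nat_lit 0) (cs (lf (nat_lit 42) (nat_lit 253)) (rf (nat_lit 5)))))))))))))) (cs (nd (nat_lit 295) (nat_lit 0) (cs (rf (nat_lit 6)) (cs (nd (nat_lit 339) (nat_lit 0) (cs (nd (nat_lit 317) (nat_lit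 0) (cs (lf (nat_lit 30) (nat_lit 273)) (rf (nat_lit 7)))) (cs (nd (nat_lit 317) (nat_lit 0) (cs (lf (nat_lit 30) (nat_lit 273)) (nd (nat_lit 340) (nat_lit 0) (cs (lf (nat_lit 29) (nat_lit 273)) (nd (nat_lit 209) (nat_lit 0) (cs (lf (nat_lit 37) (nat_lit 208)) (rf (nat_lit 8)))))))) (cs (nd (nat_lit 209) (nat_lit 0) (cs (lf (nat_lit 37) (nat_lit 208)) (nd (nat_lit 276) (nat_lit 0) (cs (lf (nat_lit 6) (nat_lit 273)) (nd (nat_lit 298) (nat_lit 0) (cs (lf (nat_lit 5) (nat_lit 273)) (nd (nat_lit 320) (nat_lit 0) (cs (lf (nat_lit 42) (nat_lit 253)) (nd (nat_lit 340) (nat_lit 0) (cs (lf (nat_lit 31) (nat_lit 252)) (nd (nat_lit 317) (nat_lit 0) (cs (lf (nat_lit 29) (nat_lit 273)) (rf (nat_lit 9)))))))))))))) (cs (nd (nat_lit 276) (nat_lit 0) (cs (lf (nat_lit 6) (nat_lit 273)) (nd (nat_lit 209) (nat_lit 0) (cs (lf (nat_lit 37) (nat_lit 208)) (nd (nat_lit 207) (nat_lit 0) (cs (rf (nat_lit 10)) (cs (nd (nat_lit 340) (nat_lit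 0) (cs (lf (nat_lit 31) (nat_lit 252)) (nd (nat_lit 342) (nat_lit 0) (cs (rf (nat_lit 11)) (nd (nat_lit 341) (nat_lit 0) (cs (rf (nat_lit 12)) (cs (nd (nat_lit 229) (nat_lit 0) (cs (lf (nat_lit 26) (nat_lit 207)) (rf (nat_lit 13)))) (cs (nd (nat_lit 229) (nat_lit 0) (cs (lf (nat_lit 26) (nat_lit 207)) (rf (nat_lit 14)))) (nd (nat_lit 229) (nat_lit 0) (cs (lf (nat_lit 26) (nat_lit 207)) (rf (nat_lit 15)))))))))))) (nd (nat_lit 183) (nat_lit 0) (cs (nd (nat_lit 184) (nat_lit 0) (cs (lf (nat_lit 21) (nat_lit 183)) (rf (nat_lit 16)))) (nd (nat_lit 340) (nat_lit 0) (cs (lf (nat_lit 31) (nat_lit 252)) (nd (nat_lit 342) (nat_lit 0) (cs (rf (nat_lit 11)) (rf (nat_lit 17))))))))))))))) (nd (nat_lit 340) (nat_lit 0) (cs (lf (nat_lit 31) (nat_lit 252)) (nd (nat_lit 317) (nat_lit 0) (cs (lf (nat_lit 30) (nat_lit 273)) (lf (nat_lit 29) (nat_lit 273))))))))))) (nd (nat_lit 317) (nat_lit 0) (cs (nd (nat_lit 339) (nat_lit 0)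 (cs (lf (nat_lit 30) (nat_lit 273)) (nd (nat_lit 340) (nat_lit 0) (cs (lf (nat_lit 29) (nat_lit 273)) (nd (nat_lit 293) (nat_lit 0) (cs (lf (nat_lit 13) (nat_lit 271)) (nd (nat_lit 209) (nat_lit 0) (cs (lf (nat_lit 37) (nat_lit 208)) (nd (nat_lit 338) (nat_lit 0) (cs (lf (nat_lit 41) (nat_lit 272)) (nd (nat_lit 316) (nat_lit 0) (cs (lf (nat_lit 36) (nat_lit 250)) (nd (nat_lit 315) (nat_lit 0) (cs (lf (nat_lit 12) (nat_lit 292)) (lf (nat_lit 18) (nat_lit 315)))))))))))))))) (cs (nd (nat_lit 339) (nat_lit 0) (cs (lf (nat_lit 30) (nat_lit 273)) (rf (nat_lit 7)))) (cs (nd (nat_lit 293) (nat_lit 0) (cs (lf (nat_lit 13) (nat_lit 271)) (nd (nat_lit 209) (nat_lit 0) (cs (lf (nat_lit 37) (nat_lit 208)) (nd (nat_lit 318) (nat_lit 0) (cs (lf (nat_lit 30) (nat_lit 252)) (nd (nat_lit 251) (nat_lit 0) (cs (lf (nat_lit 24) (nat_lit 229)) (rf (nat_lit 18)))))))))) (nd (nat_lit 340) (nat_lit 0) (cs (lf (nat_lit 31) (nat_lit 252))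 (rf (nat_lit 19))))))))))) (nd (nat_lit 318) (nat_lit 0) (cs (lf (nat_lit 30) (nat_lit 252)) (nd (nat_lit 276) (nat_lit 0) (cs (rf (nat_lit 1)) (cs (rf (nat_lit 2)) (rf (nat_lit 20))))))))))) q22796 (by decide +kernel)
def q22821 : Q := Q.p (nat_lit 0xe00002000000000000000000000000000000000000000000000000000000000000000) (nat_lit 0x18000060000380000f0000180001f0000380000e0000380000a0000000000000000000000000000000000000000) (nat_lit 11)
theorem c22821 : QOK q22821 := cut [q13256, q22195, q22820] ⟨c13256, c22195, c22820, trivial⟩ (nd (nat_lit 272) (nat_lit 0) (cs (rf (nat_lit 0)) (cs (rf (nat_lit 1)) (rf (nat_lit 2))))) q22821 (by decide +kernel)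
def q22858 : Q := Q.p (nat_lit 0x100001c00002000000000000000000000000000000000000000000000000000000000000000) (nat_lit 0x10000040003880006000038000000000000000000000000000000000000000000000000000000000000000) (nat_lit 6)
theorem c22858 : QOK q22858 := cut [q22857] ⟨c22857, trivial⟩ (nd (nat_lit 318) (nat_lit 0) (cs (lf (nat_lit 30) (nat_lit 252)) (rf (nat_lit 0)))) q22858 (by decide +kernel)
def q22901 : Q := Q.p (nat_lit 0xe00002000000000000000000000000000000000000000000000000000000000000000) (nat_lit 0x10000070001180001f00002000008000000000000000000000000000000000000000000000000000) (nat_lit 6)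
theorem c22901 : QOK q22901 := cut [q13256, q22195, q22408] ⟨c13256, c22195, c22408, trivial⟩ (nd (nat_lit 272) (nat_lit 0) (cs (rf (nat_lit 0)) (cs (rf (nat_lit 1)) (rf (nat_lit 2))))) q22901 (by decide +kernel)
def q23006 : Q := Q.p (nat_lit 0x300000c00002000000000010000000000000000000000000000000000000000000000000000) (nat_lit 0x20001b80007e0001b80000e00003c0001f8007be000ef800738000000000000000000000000000000000000000000000) (nat_lit 15)
theorem c23006 : QOK q23006 := cut [q11816, q14789, q15069, q22940, q15820, q22816, q22946, q22948, q22961, q22971, q14159, q22977, q2609, q22991, q15826] ⟨c11816, c14789, c15069, c22940, c15820, c22816, c22946, c22948, c22961, c22971, c14159, c22977, c2609, c22991, c15826, trivial⟩ (nd (nat_lit 294) (nat_lit 0) (cs (nd (nat_lit 319) (nat_lit 0) (cs (rf (nat_lit 0)) (rf (nat_lit 1)))) (cs (nd (nat_lit 272) (nat_lit 0) (cs (rf (nat_lit 2)) (cs (nd (nat_lit 250) (nat_lit 0)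 (cs (nd (nat_lit 273) (nat_lit 0) (cs (lf (nat_lit 23) (nat_lit 249)) (lf (nat_lit 11) (nat_lit 271)))) (rf (nat_lit 3)))) (cs (nd (nat_lit 250) (nat_lit 0) (cs (rf (nat_lit 3)) (cs (nd (nat_lit 228) (nat_lit 0) (cs (rf (nat_lit 4)) (cs (rf (nat_lit 5)) (cs (rf (nat_lit 6)) (rf (nat_lit 7)))))) (cs (rf (nat_lit 8)) (cs (nd (nat_lit 228) (nat_lit 0) (cs (rf (nat_lit 5)) (cs (rf (nat_lit 6)) (cs (rf (nat_lit 7)) (nd (nat_lit 209) (nat_lit 0) (cs (lf (nat_lit 37) (nat_lit 208)) (nd (nat_lit 207) (nat_lit 0) (cs (lf (nat_lit 34) (nat_lit 206)) (rf (nat_lit 9)))))))))) (cs (nd (nat_lit 227) (nat_lit 0) (cs (rf (nat_lit 10)) (cs (nd (nat_lit 209) (nat_lit 0) (cs (lf (nat_lit 37) (nat_lit 208)) (rf (nat_lit 11)))) (nd (nat_lit 209) (nat_lit 0) (cs (lf (nat_lit 37) (nat_lit 208)) (nd (nat_lit 316) (nat_lit 0) (cs (lf (nat_lit 46) (nat_lit 227)) (nd (nat_lit 315) (nat_lit 0) (cs (lf (nat_lit 41) (nat_lit 249)) (nd (nat_lit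 228) (nat_lit 0) (cs (lf (nat_lit 40) (nat_lit 227)) (nd (nat_lit 251) (nat_lit 0) (cs (lf (nat_lit 19) (nat_lit 227)) (nd (nat_lit 339) (nat_lit 0) (cs (lf (nat_lit 28) (nat_lit 250)) (nd (nat_lit 338) (nat_lit 0) (cs (lf (nat_lit 29) (nat_lit 272)) (nd (nat_lit 341) (nat_lit 0) (cs (lf (nat_lit 19) (nat_lit 315)) (nd (nat_lit 319) (nat_lit 0) (cs (lf (nat_lit 42) (nat_lit 274)) (rf (nat_lit 12))))))))))))))))))))))) (nd (nat_lit 231) (nat_lit 0) (cs (lf (nat_lit 36) (nat_lit 208)) (nd (nat_lit 232) (nat_lit 0) (cs (lf (nat_lit 35) (nat_lit 209)) (nd (nat_lit 251) (nat_lit 0) (cs (lf (nat_lit 14) (nat_lit 228)) (nd (nat_lit 316) (nat_lit 0) (cs (lf (nat_lit 35) (nat_lit 228)) (nd (nat_lit 317) (nat_lit 0) (cs (lf (nat_lit 29) (nat_lit 250)) (rf (nat_lit 13)))))))))))))))))) (nd (nat_lit 250) (nat_lit 0) (cs (rf (nat_lit 3)) (nd (nat_lit 273) (nat_lit 0) (cs (lf (nat_lit 23) (nat_lit 249)) (lf (nat_lit 0) (nat_lit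 271)))))))))) (nd (nat_lit 272) (nat_lit 0) (cs (rf (nat_lit 2)) (cs (rf (nat_lit 14)) (cs (nd (nat_lit 295) (nat_lit 0) (cs (lf (nat_lit 23) (nat_lit 271)) (lf (nat_lit 12) (nat_lit 271)))) (nd (nat_lit 271) (nat_lit 0) (cs (lf (nat_lit 20) (nat_lit 271)) (lf (nat_lit 2) (nat_lit 271))))))))))) q23006 (by decide +kernel)
def q23108 : Q := Q.p (nat_lit 0x140000c00002000000000010000000000000000000000000000000000000000000000000000) (nat_lit 0x40000380000e0000380002200013c0001fc007be000efc00738000000000000000000000000000000000000000000000) (nat_lit 13)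
theorem c23108 : QOK q23108 := cut [q15913, q15066, q22961, q22956, q22991, q23069, q22951, q23075, q15822, q15891, q22945, q22948, q15814, q23088, q14159, q15903, q15907, q22977, q23100, q23102, q15911, q22071] ⟨c15913, c15066, c22961, c22956, c22991, c23069, c22951, c23075, c15822, c15891, c22945, c22948, c15814, c23088, c14159, c15903, c15907, c22977, c23100, c23102, c15911, c22071, trivial⟩ (nd (nat_lit 272) (nat_lit 0) (cs (rf (nat_lit 0)) (cs (nd (nat_lit 209) (nat_lit 0) (cs (lf (nat_lit 37) (nat_lit 208)) (rf (nat_lit 1)))) (cs (nd (nat_lit 209) (nat_lit 0) (cs (lf (nat_lit 37) (nat_lit 208)) (nd (nat_lit 250) (nat_lit 0) (cs (rf (nat_lit 2)) (cs (nd (nat_lit 316) (nat_lit 0) (cs (rf (nat_lit 3)) (cs (rf (nat_lit 4)) (nd (nat_lit 317) (nat_lit 0) (cs (lf (nat_lit 29) (nat_lit 250)) (nd (nat_lit 315) (nat_lit 0) (cs (lf (nat_lit 41) (nat_lit 249)) (rf (nat_lit 5))))))))) (cs (nd (nat_lit 316) (nat_lit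 0) (cs (rf (nat_lit 6)) (cs (rf (nat_lit 5)) (nd (nat_lit 315) (nat_lit 0) (cs (lf (nat_lit 41) (nat_lit 249)) (nd (nat_lit 293) (nat_lit 0) (cs (lf (nat_lit 36) (nat_lit 227)) (nd (nat_lit 339) (nat_lit 0) (cs (lf (nat_lit 28) (nat_lit 250)) (nd (nat_lit 338) (nat_lit 0) (cs (lf (nat_lit 29) (nat_lit 272)) (rf (nat_lit 7))))))))))))) (cs (nd (nat_lit 228) (nat_lit 0) (cs (rf (nat_lit 8)) (cs (rf (nat_lit 9)) (cs (rf (nat_lit 10)) (rf (nat_lit 11)))))) (cs (nd (nat_lit 228) (nat_lit 0) (cs (rf (nat_lit 8)) (cs (rf (nat_lit 10)) (cs (rf (nat_lit 11)) (nd (nat_lit 227) (nat_lit 0) (cs (lf (nat_lit 47) (nat_lit 205)) (nd (nat_lit 226) (nat_lit 0) (cs (nd (nat_lit 251) (nat_lit 0) (cs (lf (nat_lit 0) (nat_lit 225)) (lf (nat_lit 19) (nat_lit 227)))) (cs (nd (nat_lit 293) (nat_lit 0) (cs (lf (nat_lit 41) (nat_lit 227)) (nd (nat_lit 229) (nat_lit 0) (cs (lf (nat_lit 16) (nat_lit 204)) (nd (nat_lit 251) (nat_lit 0) (cs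 (lf (nat_lit 19) (nat_lit 227)) (rf (nat_lit 12)))))))) (nd (nat_lit 229) (nat_lit 0) (cs (lf (nat_lit 35) (nat_lit 206)) (nd (nat_lit 293) (nat_lit 0) (cs (lf (nat_lit 41) (nat_lit 227)) (rf (nat_lit 13))))))))))))))) (cs (nd (nat_lit 227) (nat_lit 0) (cs (rf (nat_lit 14)) (cs (rf (nat_lit 15)) (rf (nat_lit 16))))) (nd (nat_lit 227) (nat_lit 0) (cs (rf (nat_lit 14)) (cs (rf (nat_lit 17)) (cs (nd (nat_lit 316) (nat_lit 0) (cs (lf (nat_lit 46) (nat_lit 227)) (rf (nat_lit 18)))) (nd (nat_lit 249) (nat_lit 0) (cs (lf (nat_lit 42) (nat_lit 227)) (rf (nat_lit 19))))))))))))))))) (nd (nat_lit 273) (nat_lit 0) (cs (rf (nat_lit 20)) (rf (nat_lit 21)))))))) q23108 (by decide +kernel)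
def q23141 : Q := Q.p (nat_lit 0x140000d00002000000000000000000000000000000000000000000000000000000000000000) (nat_lit 0x80000200001980002a0000080001000008000020000000000000000000000000000000000000000000000000000) (nat_lit 7)
theorem c23141 : QOK q23141 := cut [q23140] ⟨c23140, trivial⟩ (nd (nat_lit 209) (nat_lit 0) (cs (lf (nat_lit 37) (nat_lit 208)) (rf (nat_lit 0)))) q23141 (by decide +kernel)
def q23273 : Q := Q.p (nat_lit 0x1c00002000000000000000000000000000000000000000000000000000000000000000) (nat_lit 0x1e0006380039f00000000000000000000000000000000000000000000000000000000000000) (nat_lit 7)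
theorem c23273 : QOK q23273 := cut [q13258, q15516, q15620, q15625, q22710] ⟨c13258, c15516, c15620, c15625, c22710, trivial⟩ (nd (nat_lit 273) (nat_lit 0) (cs (rf (nat_lit 0)) (cs (rf (nat_lit 1)) (cs (rf (nat_lit 2)) (cs (rf (nat_lit 3)) (rf (nat_lit 4))))))) q23273 (by decide +kernel)
def q23483 : Q := Q.p (nat_lit 0x800002000000000010000000000000000000000000000000000000000000000000000) (nat_lit 0x140000700001c0003f8000ff8003fe001f780018c0007f0001e8000700001000000000000000000000000000000000000000000) (nat_lit 15)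
theorem c23483 : QOK q23483 := cut [q2521, q16036, q21954, q22017, q21929, q22927, q23372, q23384, q11815, q14913, q11666, q11728, q23388, q23394, q23401, q23404, q23411, q23413, q23422, q23428, q23400, q23409, q11597, q23438, q11531, q11637, q22525, q23448, q23451, q23454, q23456, q23464, q23470, q23386, q16741, q21939, q23481] ⟨c2521, c16036, c21954, c22017, c21929, c22927, c23372, c23384, c11815, c14913, c11666, c11728, c23388, c23394, c23401, c23404, c23411, c23413, c23422, c23428, c23400, c23409, c11597, c23438, c11531, c11637, c22525, c23448, c23451, c23454, c23456, c23464, c23470, c23386, c16741, c21939, c23481, trivial⟩ (nd (nat_lit 297) (nat_lit 0) (cs (rf (nat_lit 0)) (cs (rf (nat_lit 1)) (cs (rf (nat_lit 2)) (cs (rf (nat_lit 3)) (cs (nd (nat_lit 319) (nat_lit 0) (cs (rf (nat_lit 4)) (cs (rf (nat_lit 5)) (cs (rf (nat_lit 6)) (cs (rf (nat_lit 7)) (cs (nd (nat_lit 296) (nat_lit 0) (cs (rf (nat_lit 8))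 (cs (rf (nat_lit 9)) (cs (nd (nat_lit 295) (nat_lit 0) (cs (rf (nat_lit 10)) (cs (rf (nat_lit 11)) (cs (nd (nat_lit 298) (nat_lit 0) (cs (rf (nat_lit 12)) (cs (rf (nat_lit 13)) (cs (rf (nat_lit 14)) (cs (nd (nat_lit 316) (nat_lit 0) (cs (lf (nat_lit 10) (nat_lit 294)) (rf (nat_lit 15)))) (cs (rf (nat_lit 16)) (nd (nat_lit 276) (nat_lit 0) (cs (lf (nat_lit 17) (nat_lit 273)) (nd (nat_lit 341) (nat_lit 0) (cs (lf (nat_lit 30) (nat_lit 275)) (nd (nat_lit 342) (nat_lit 0) (cs (lf (nat_lit 29) (nat_lit 275)) (nd (nat_lit 316) (nat_lit 0) (cs (lf (nat_lit 10) (nat_lit 294)) (nd (nat_lit 273) (nat_lit 0) (cs (lf (nat_lit 23) (nat_lit 272)) (nd (nat_lit 274) (nat_lit 0) (cs (lf (nat_lit 18) (nat_lit 273)) (rf (nat_lit 17)))))))))))))))))))) (rf (nat_lit 18)))))) (cs (rf (nat_lit 19)) (nd (nat_lit 295) (nat_lit 0) (cs (rf (nat_lit 10)) (cs (rf (nat_lit 11)) (cs (rf (nat_lit 18)) (nd (nat_lit 298) (nat_lit 0) (cs (rf (nat_lit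 13)) (cs (rf (nat_lit 20)) (cs (rf (nat_lit 15)) (cs (rf (nat_lit 21)) (nd (nat_lit 320) (nat_lit 0) (cs (lf (nat_lit 5) (nat_lit 295)) (nd (nat_lit 276) (nat_lit 0) (cs (lf (nat_lit 17) (nat_lit 273)) (nd (nat_lit 341) (nat_lit 0) (cs (lf (nat_lit 30) (nat_lit 275)) (nd (nat_lit 316) (nat_lit 0) (cs (lf (nat_lit 10) (nat_lit 294)) (nd (nat_lit 273) (nat_lit 0) (cs (lf (nat_lit 23) (nat_lit 272)) (nd (nat_lit 274) (nat_lit 0) (cs (lf (nat_lit 5) (nat_lit 273)) (rf (nat_lit 17)))))))))))))))))))))))))))) (nd (nat_lit 298) (nat_lit 0) (cs (rf (nat_lit 22)) (cs (rf (nat_lit 23)) (cs (nd (nat_lit 299) (nat_lit 0) (cs (rf (nat_lit 24)) (cs (rf (nat_lit 25)) (cs (nd (nat_lit 296) (nat_lit 0) (cs (rf (nat_lit 26)) (cs (rf (nat_lit 27)) (cs (rf (nat_lit 28)) (cs (rf (nat_lit 29)) (nd (nat_lit 277) (nat_lit 0) (cs (lf (nat_lit 17) (nat_lit 274)) (nd (nat_lit 276) (nat_lit 0) (cs (lf (nat_lit 12) (nat_lit 273)) (nd (nat_lit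 341) (nat_lit 0) (cs (lf (nat_lit 30) (nat_lit 275)) (nd (nat_lit 340) (nat_lit 0) (cs (lf (nat_lit 41) (nat_lit 274)) (rf (nat_lit 30))))))))))))))) (rf (nat_lit 31)))))) (cs (rf (nat_lit 32)) (nd (nat_lit 299) (nat_lit 0) (cs (rf (nat_lit 33)) (cs (rf (nat_lit 31)) (nd (nat_lit 296) (nat_lit 0) (cs (rf (nat_lit 26)) (cs (rf (nat_lit 27)) (cs (rf (nat_lit 28)) (cs (rf (nat_lit 29)) (nd (nat_lit 277) (nat_lit 0) (cs (lf (nat_lit 17) (nat_lit 274)) (nd (nat_lit 276) (nat_lit 0) (cs (lf (nat_lit 12) (nat_lit 273)) (nd (nat_lit 341) (nat_lit 0) (cs (lf (nat_lit 30) (nat_lit 275)) (nd (nat_lit 317) (nat_lit 0) (cs (lf (nat_lit 10) (nat_lit 295)) (rf (nat_lit 30))))))))))))))))))))))))))))) (nd (nat_lit 318) (nat_lit 0) (cs (rf (nat_lit 34)) (cs (rf (nat_lit 35)) (rf (nat_lit 36))))))))))) q23483 (by decide +kernel)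
def q23529 : Q := Q.p (nat_lit 0x1e000000000000000000000000000000000000000000000000000) (nat_lit 0x18000060000dc0000000001c0000700001c0000500000000000000000000000000000) (nat_lit 9)
theorem c23529 : QOK q23529 := cut [q3425, q3438, q23526] ⟨c3425, c3438, c23526, trivial⟩ (nd (nat_lit 183) (nat_lit 0) (cs (lf (nat_lit 23) (nat_lit 182)) (nd (nat_lit 250) (nat_lit 0) (cs (rf (nat_lit 0)) (cs (rf (nat_lit 1)) (nd (nat_lit 230) (nat_lit 0) (cs (lf (nat_lit 5) (nat_lit 205)) (rf (nat_lit 2))))))))) q23529 (by decide +kernel)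
def q23589 : Q := Q.p (nat_lit 0x80000240000000001c000000000000000000000000000000000000000000000000000) (nat_lit 0xe000078000138000fc0000000003c0000e0000380000000000000000000000000000000000) (nat_lit 9)
theorem c23589 : QOK q23589 := cut [q1496, q23564, q21132, q23584, q23587] ⟨c1496, c23564, c21132, c23584, c23587, trivial⟩ (nd (nat_lit 228) (nat_lit 0) (cs (rf (nat_lit 0)) (cs (rf (nat_lit 1)) (nd (nat_lit 272) (nat_lit 0) (cs (nd (nat_lit 273) (nat_lit 0) (cs (lf (nat_lit 29) (nat_lit 206)) (nd (nat_lit 249) (nat_lit 0) (cs (lf (nat_lit 19) (nat_lit 249)) (nd (nat_lit 247) (nat_lit 0) (cs (lf (nat_lit 1) (nat_lit 247)) (nd (nat_lit 229) (nat_lit 0) (cs (lf (nat_lit 30) (nat_lit 206)) (nd (nat_lit 227) (nat_lit 0) (cs (lf (nat_lit 12) (nat_lit 204)) (nd (nat_lit 230) (nat_lit 0) (cs (lf (nat_lit 6) (nat_lit 227)) (lf (nat_lit 4) (nat_lit 227)))))))))))))) (cs (nd (nat_lit 271) (nat_lit 0) (cs (lf (nat_lit 41)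 (nat_lit 205)) (nd (nat_lit 229) (nat_lit 0) (cs (lf (nat_lit 30) (nat_lit 206)) (nd (nat_lit 227) (nat_lit 0) (cs (lf (nat_lit 12) (nat_lit 204)) (nd (nat_lit 252) (nat_lit 0) (cs (lf (nat_lit 3) (nat_lit 227)) (rf (nat_lit 2)))))))))) (cs (rf (nat_lit 3)) (rf (nat_lit 4))))))))) q23589 (by decide +kernel)
def q23596 : Q := Q.p (nat_lit 0x800002c00000000004000000000000000000000000000000000000000000000000000) (nat_lit 0x120000100001b8000000000300000c0000200000000000000000000000000000000000) (nat_lit 7)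
theorem c23596 : QOK q23596 := cut [q23595] ⟨c23595, trivial⟩ (nd (nat_lit 252) (nat_lit 0) (cs (lf (nat_lit 5) (nat_lit 250)) (rf (nat_lit 0)))) q23596 (by decide +kernel)
def q23601 : Q := Q.p (nat_lit 0x800002400001000004000000000000000000000000000000000000000000000000000) (nat_lit 0x1680001a00000800000000018000060000080000000000000000000000000000000000) (nat_lit 6)
theorem c23601 : QOK q23601 := cut [q15320, q23534, q23600] ⟨c15320, c23534, c23600, trivial⟩ (nd (nat_lit 251) (nat_lit 0) (cs (rf (nat_lit 0)) (cs (rf (nat_lit 1)) (rf (nat_lit 2))))) q23601 (by decide +kernel)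
def q23758 : Q := Q.p (nat_lit 0x80000200000000001e000000000000000000000000000000000000000000000000000) (nat_lit 0xa0001790001e4000df80001c000370000c8000320000000000000000000000000000000000) (nat_lit 15)
theorem c23758 : QOK q23758 := cut [q153, q3392, q23599, q23725, q23734, q23737, q23741, q23742, q23755, q23757] ⟨c153, c3392, c23599, c23725, c23734, c23737, c23741, c23742, c23755, c23757, trivial⟩ (nd (nat_lit 204) (nat_lit 0) (cs (rf (nat_lit 0)) (cs (nd (nat_lit 181) (nat_lit 0) (cs (lf (nat_lit 22) (nat_lit 181)) (nd (nat_lit 203) (nat_lit 0) (cs (lf (nat_lit 23) (nat_lit 180)) (nd (nat_lit 224) (nat_lit 0) (cs (lf (nat_lit 10) (nat_lit 202)) (nd (nat_lit 202) (nat_lit 0) (cs (lf (nat_lit 11) (nat_lit 201)) (nd (nat_lit 228) (nat_lit 0) (cs (lf (nat_lit 4) (nat_lit 202)) (nd (nat_lit 250) (nat_lit 0) (cs (rf (nat_lit 1)) (cs (rf (nat_lit 2)) (cs (nd (nat_lit 230) (nat_lit 0) (cs (lf (nat_lit 5) (nat_lit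 205)) (nd (nat_lit 137) (nat_lit 0) (cs (nd (nat_lit 246) (nat_lit 0) (cs (nd (nat_lit 184) (nat_lit 0) (cs (lf (nat_lit 17) (nat_lit 181)) (rf (nat_lit 3)))) (lf (nat_lit 30) (nat_lit 180)))) (lf (nat_lit 37) (nat_lit 136)))))) (nd (nat_lit 273) (nat_lit 0) (cs (nd (nat_lit 230) (nat_lit 0) (cs (lf (nat_lit 5) (nat_lit 205)) (rf (nat_lit 4)))) (cs (nd (nat_lit 230) (nat_lit 0) (cs (lf (nat_lit 5) (nat_lit 205)) (nd (nat_lit 137) (nat_lit 0) (cs (lf (nat_lit 37) (nat_lit 136)) (nd (nat_lit 246) (nat_lit 0) (cs (lf (nat_lit 30) (nat_lit 180)) (rf (nat_lit 5)))))))) (cs (rf (nat_lit 6)) (rf (nat_lit 7)))))))))))))))))))) (cs (nd (nat_lit 230) (nat_lit 0) (cs (lf (nat_lit 5) (nat_lit 205)) (rf (nat_lit 8)))) (rf (nat_lit 9)))))) q23758 (by decide +kernel)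
def q23916 : Q := Q.p (nat_lit 0x1c000010000040000000000000000000000000000000000000000) (nat_lit 0xc0000300000200002e0003a0000e80000000000000000000000000000000000) (nat_lit 8)
theorem c23916 : QOK q23916 := cut [q6789, q23906, q23910] ⟨c6789, c23906, c23910, trivial⟩ (nd (nat_lit 183) (nat_lit 0) (cs (rf (nat_lit 0)) (nd (nat_lit 228) (nat_lit 0) (cs (rf (nat_lit 1)) (cs (rf (nat_lit 2)) (nd (nat_lit 229) (nat_lit 0) (cs (lf (nat_lit 29) (nat_lit 162)) (nd (nat_lit 163) (nat_lit 0) (cs (lf (nat_lit 35) (nat_lit 140)) (nd (nat_lit 164) (nat_lit 0) (cs (lf (nat_lit 6) (nat_lit 161)) (nd (nat_lit 185) (nat_lit 0) (cs (lf (nat_lit 35) (nat_lit 141)) (lf (nat_lit 41) (nat_lit 162))))))))))))))) q23916 (by decide +kernel)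
def q23942 : Q := Q.p (nat_lit 0x80000200000000001c000010000000000000000000000000000000000000000000000) (nat_lit 0x17c0001e000070000000000280000e0001f80001e00002800000000000000000000000) (nat_lit 9)
theorem c23942 : QOK q23942 := cut [q3851, q18105, q23940, q23941] ⟨c3851, c18105, c23940, c23941, trivial⟩ (nd (nat_lit 162) (nat_lit 0) (cs (rf (nat_lit 0)) (cs (rf (nat_lit 1)) (cs (rf (nat_lit 2)) (rf (nat_lit 3)))))) q23942 (by decide +kernel)
def q24062 : Q := Q.p (nat_lit 0x80000200000000001c000010000000000000000000000000000000000000000000000) (nat_lit 0x17c0001f8001f60000380000f8001f80007f8000f80003e0000b800008000000000000) (nat_lit 11)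
theorem c24062 : QOK q24062 := cut [q3851, q23943, q23944, q6789, q23947, q15215, q23956, q23958, q23963, q23976, q23984, q23991, q24003, q24019, q24021, q24027, q24037, q24058, q24047, q24043, q24054] ⟨c3851, c23943, c23944, c6789, c23947, c15215, c23956, c23958, c23963, c23976, c23984, c23991, c24003, c24019, c24021, c24027, c24037, c24058, c24047, c24043, c24054, trivial⟩ (nd (nat_lit 162) (nat_lit 0) (cs (rf (nat_lit 0)) (cs (nd (nat_lit 161) (nat_lit 0) (cs (rf (nat_lit 1)) (cs (nd (nat_lit 228) (nat_lit 0) (cs (lf (nat_lit 47) (nat_lit 139)) (nd (nat_lit 141) (nat_lit 0) (cs (lf (nat_lit 34) (nat_lit 140)) (rf (nat_lit 2)))))) (cs (nd (nat_lit 183) (nat_lit 0) (cs (rf (nat_lit 3)) (cs (nd (nat_lit 251) (nat_lit 0) (cs (rf (nat_lit 4)) (cs (nd (nat_lit 250) (nat_lit 0) (cs (rf (nat_lit 5)) (lf (nat_lit 43) (nat_lit 161)))) (rf (nat_lit 6))))) (nd (nat_lit 228) (nat_lit 0) (cs (lf (nat_lit 42) (nat_lit 161))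 (nd (nat_lit 229) (nat_lit 0) (cs (lf (nat_lit 29) (nat_lit 162)) (nd (nat_lit 182) (nat_lit 0) (cs (lf (nat_lit 0) (nat_lit 181)) (rf (nat_lit 7))))))))))) (nd (nat_lit 182) (nat_lit 0) (cs (rf (nat_lit 8)) (cs (nd (nat_lit 205) (nat_lit 0) (cs (lf (nat_lit 22) (nat_lit 182)) (nd (nat_lit 230) (nat_lit 0) (cs (lf (nat_lit 5) (nat_lit 205)) (nd (nat_lit 204) (nat_lit 0) (cs (lf (nat_lit 4) (nat_lit 204)) (nd (nat_lit 226) (nat_lit 0) (cs (lf (nat_lit 11) (nat_lit 203)) (nd (nat_lit 160) (nat_lit 0) (cs (lf (nat_lit 35) (nat_lit 138)) (nd (nat_lit 137) (nat_lit 0) (cs (nd (nat_lit 138) (nat_lit 0) (cs (lf (nat_lit 47) (nat_lit 115)) (lf (nat_lit 18) (nat_lit 137)))) (lf (nat_lit 46) (nat_lit 137)))))))))))))) (cs (nd (nat_lit 160) (nat_lit 0) (cs (nd (nat_lit 163) (nat_lit 0) (cs (lf (nat_lit 11) (nat_lit 159)) (nd (nat_lit 141) (nat_lit 0) (cs (lf (nat_lit 17) (nat_lit 138)) (nd (nat_lit 97) (nat_lit 0) (cs (lf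 (nat_lit 37) (nat_lit 96)) (nd (nat_lit 138) (nat_lit 0) (cs (lf (nat_lit 23) (nat_lit 137)) (rf (nat_lit 9)))))))))) (cs (nd (nat_lit 138) (nat_lit 0) (cs (rf (nat_lit 10)) (nd (nat_lit 116) (nat_lit 0) (cs (rf (nat_lit 11)) (cs (nd (nat_lit 93) (nat_lit 0) (cs (lf (nat_lit 46) (nat_lit 93)) (nd (nat_lit 94) (nat_lit 0) (cs (lf (nat_lit 47) (nat_lit 71)) (nd (nat_lit 139) (nat_lit 0) (cs (nd (nat_lit 204) (nat_lit 0) (cs (lf (nat_lit 30) (nat_lit 138)) (lf (nat_lit 35) (nat_lit 116)))) (lf (nat_lit 24) (nat_lit 72)))))))) (cs (nd (nat_lit 93) (nat_lit 0) (cs (lf (nat_lit 46) (nat_lit 93)) (nd (nat_lit 94) (nat_lit 0) (cs (lf (nat_lit 47) (nat_lit 71)) (rf (nat_lit 12)))))) (nd (nat_lit 117) (nat_lit 0) (cs (nd (nat_lit 204) (nat_lit 0) (cs (nd (nat_lit 225) (nat_lit 0) (cs (nd (nat_lit 226) (nat_lit 0) (cs (lf (nat_lit 8) (nat_lit 203)) (lf (nat_lit 41) (nat_lit 159)))) (lf (nat_lit 40) (nat_lit 137)))) (lf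 (nat_lit 34) (nat_lit 116)))) (lf (nat_lit 35) (nat_lit 94)))))))))) (cs (nd (nat_lit 181) (nat_lit 0) (cs (rf (nat_lit 13)) (nd (nat_lit 204) (nat_lit 0) (cs (nd (nat_lit 139) (nat_lit 0) (cs (lf (nat_lit 30) (nat_lit 138)) (rf (nat_lit 14)))) (lf (nat_lit 20) (nat_lit 181)))))) (rf (nat_lit 15)))))) (nd (nat_lit 181) (nat_lit 0) (cs (nd (nat_lit 160) (nat_lit 0) (cs (rf (nat_lit 13)) (lf (nat_lit 6) (nat_lit 159)))) (lf (nat_lit 2) (nat_lit 181)))))))))))) (cs (nd (nat_lit 140) (nat_lit 0) (cs (lf (nat_lit 29) (nat_lit 140)) (rf (nat_lit 16)))) (cs (rf (nat_lit 17)) (cs (nd (nat_lit 140) (nat_lit 0) (cs (lf (nat_lit 29) (nat_lit 140)) (rf (nat_lit 18)))) (cs (nd (nat_lit 140) (nat_lit 0) (cs (lf (nat_lit 29) (nat_lit 140)) (rf (nat_lit 19)))) (nd (nat_lit 140) (nat_lit 0) (cs (lf (nat_lit 29) (nat_lit 140)) (rf (nat_lit 20))))))))))) q24062 (by decide +kernel)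
def q24145 : Q := Q.p (nat_lit 0x1c000010000000000000000000000000000000000000000000000) (nat_lit 0x40000d400003c0002e0007f8001ff0001f00003c0000f000028000000000000) (nat_lit 13)
theorem c24145 : QOK q24145 := cut [q24058, q24063, q23943, q24065, q17752, q17524, q24086, q24087, q2411, q6789, q18033, q24091, q17816, q18007, q24090, q24100, q18006, q24117, q859, q3870, q24112, q24125, q863, q2497, q18104, q17733, q24137, q17699] ⟨c24058, c24063, c23943, c24065, c17752, c17524, c24086, c24087, c2411, c6789, c18033, c24091, c17816, c18007, c24090, c24100, c18006, c24117, c859, c3870, c24112, c24125, c863, c2497, c18104, c17733, c24137, c17699, trivial⟩ (nd (nat_lit 162) (nat_lit 0) (cs (rf (nat_lit 0)) (cs (nd (nat_lit 163) (nat_lit 0) (cs (rf (nat_lit 1)) (cs (nd (nat_lit 161) (nat_lit 0) (cs (rf (nat_lit 2)) (cs (nd (nat_lit 139) (nat_lit 0) (cs (lf (nat_lit 42) (nat_lit 139)) (nd (nat_lit 138) (nat_lit 0) (cs (lf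 (nat_lit 18) (nat_lit 138)) (rf (nat_lit 3)))))) (nd (nat_lit 182) (nat_lit 0) (cs (rf (nat_lit 4)) (nd (nat_lit 183) (nat_lit 0) (cs (lf (nat_lit 21) (nat_lit 182)) (lf (nat_lit 6) (nat_lit 160))))))))) (cs (nd (nat_lit 228) (nat_lit 0) (cs (lf (nat_lit 35) (nat_lit 140)) (nd (nat_lit 161) (nat_lit 0) (cs (lf (nat_lit 47) (nat_lit 139)) (nd (nat_lit 183) (nat_lit 0) (cs (lf (nat_lit 42) (nat_lit 161)) (rf (nat_lit 5)))))))) (nd (nat_lit 185) (nat_lit 0) (cs (rf (nat_lit 6)) (rf (nat_lit 7)))))))) (cs (nd (nat_lit 183) (nat_lit 0) (cs (rf (nat_lit 8)) (cs (rf (nat_lit 9)) (nd (nat_lit 139) (nat_lit 0) (cs (rf (nat_lit 10)) (cs (rf (nat_lit 11)) (nd (nat_lit 161) (nat_lit 0) (cs (rf (nat_lit 12)) (nd (nat_lit 140) (nat_lit 0) (cs (rf (nat_lit 13)) (rf (nat_lit 14)))))))))))) (cs (nd (nat_lit 183) (nat_lit 0) (cs (rf (nat_lit 8)) (cs (rf (nat_lit 9)) (nd (nat_lit 139) (nat_lit 0) (cs (rf (nat_lit 10)) (cs (rf (nat_lit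 11)) (nd (nat_lit 161) (nat_lit 0) (cs (rf (nat_lit 12)) (nd (nat_lit 138) (nat_lit 0) (cs (nd (nat_lit 163) (nat_lit 0) (cs (lf (nat_lit 18) (nat_lit 138)) (rf (nat_lit 3)))) (cs (rf (nat_lit 15)) (nd (nat_lit 136) (nat_lit 0) (cs (lf (nat_lit 1) (nat_lit 136)) (nd (nat_lit 163) (nat_lit 0) (cs (lf (nat_lit 18) (nat_lit 138)) (nd (nat_lit 205) (nat_lit 0) (cs (lf (nat_lit 47) (nat_lit 116)) (nd (nat_lit 118) (nat_lit 0) (cs (lf (nat_lit 34) (nat_lit 117)) (nd (nat_lit 230) (nat_lit 0) (cs (lf (nat_lit 5) (nat_lit 205)) (rf (nat_lit 16))))))))))))))))))))))) (cs (rf (nat_lit 17)) (cs (nd (nat_lit 141) (nat_lit 0) (cs (rf (nat_lit 18)) (cs (rf (nat_lit 19)) (cs (nd (nat_lit 163) (nat_lit 0) (cs (lf (nat_lit 30) (nat_lit 140)) (nd (nat_lit 185) (nat_lit 0) (cs (lf (nat_lit 29) (nat_lit 141)) (nd (nat_lit 182) (nat_lit 0) (cs (lf (nat_lit 1) (nat_lit 182)) (nd (nat_lit 118) (nat_lit 0) (cs (lf (nat_lit 25) (nat_lit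 118)) (rf (nat_lit 20)))))))))) (nd (nat_lit 140) (nat_lit 0) (cs (lf (nat_lit 35) (nat_lit 118)) (nd (nat_lit 118) (nat_lit 0) (cs (lf (nat_lit 28) (nat_lit 118)) (nd (nat_lit 183) (nat_lit 0) (cs (lf (nat_lit 41) (nat_lit 117)) (nd (nat_lit 181) (nat_lit 0) (cs (lf (nat_lit 1) (nat_lit 181)) (rf (nat_lit 21)))))))))))))) (nd (nat_lit 183) (nat_lit 0) (cs (rf (nat_lit 9)) (nd (nat_lit 140) (nat_lit 0) (cs (rf (nat_lit 22)) (cs (rf (nat_lit 23)) (cs (rf (nat_lit 24)) (nd (nat_lit 163) (nat_lit 0) (cs (nd (nat_lit 164) (nat_lit 0) (cs (lf (nat_lit 6) (nat_lit 161)) (rf (nat_lit 25)))) (cs (nd (nat_lit 164) (nat_lit 0) (cs (lf (nat_lit 6) (nat_lit 161)) (nd (nat_lit 141) (nat_lit 0) (cs (lf (nat_lit 35) (nat_lit 118)) (nd (nat_lit 185) (nat_lit 0) (cs (lf (nat_lit 29) (nat_lit 141)) (nd (nat_lit 142) (nat_lit 0) (cs (lf (nat_lit 35) (nat_lit 119)) (nd (nat_lit 143) (nat_lit 0) (cs (lf (nat_lit 6) (nat_lit 140))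 (lf (nat_lit 12) (nat_lit 139)))))))))))) (cs (nd (nat_lit 141) (nat_lit 0) (cs (lf (nat_lit 35) (nat_lit 118)) (nd (nat_lit 185) (nat_lit 0) (cs (lf (nat_lit 29) (nat_lit 141)) (rf (nat_lit 26)))))) (nd (nat_lit 141) (nat_lit 0) (cs (lf (nat_lit 35) (nat_lit 118)) (nd (nat_lit 164) (nat_lit 0) (cs (lf (nat_lit 6) (nat_lit 161)) (rf (nat_lit 27))))))))))))))))))))))) q24145 (by decide +kernel)
def q24307 : Q := Q.p (nat_lit 0x80000200000000001c000010000000000000000000000000000000000000000000000) (nat_lit 0x17c0001e0001e60000380002e0007fc001fe000ffc0001800004000000000000000000) (nat_lit 15)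
theorem c24307 : QOK q24307 := cut [q2411, q24087, q864, q17733, q4253, q23654, q1079, q24184, q24199, q24204, q2020, q1999, q24198, q24207, q24264, q24305, q24269] ⟨c2411, c24087, c864, c17733, c4253, c23654, c1079, c24184, c24199, c24204, c2020, c1999, c24198, c24207, c24264, c24305, c24269, trivial⟩ (nd (nat_lit 185) (nat_lit 0) (cs (nd (nat_lit 183) (nat_lit 0) (cs (rf (nat_lit 0)) (nd (nat_lit 163) (nat_lit 0) (cs (rf (nat_lit 1)) (nd (nat_lit 162) (nat_lit 0) (cs (rf (nat_lit 2)) (cs (nd (nat_lit 229) (nat_lit 0) (cs (lf (nat_lit 42) (nat_lit 162)) (nd (nat_lit 164) (nat_lit 0) (cs (lf (nat_lit 35) (nat_lit 141)) (lf (nat_lit 6) (nat_lit 161)))))) (nd (nat_lit 164) (nat_lit 0) (cs (lf (nat_lit 6) (nat_lit 161)) (nd (nat_lit 140) (nat_lit 0) (cs (lf (nat_lit 24) (nat_lit 118)) (rf (nat_lit 3))))))))))))) (cs (nd (nat_lit 229) (nat_lit 0) (cs (rf (nat_lit 4)) (cs (nd (nat_lit 163) (nat_lit 0) (cs (rf (nat_lit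 5)) (cs (nd (nat_lit 140) (nat_lit 0) (cs (lf (nat_lit 25) (nat_lit 140)) (nd (nat_lit 142) (nat_lit 0) (cs (lf (nat_lit 34) (nat_lit 141)) (nd (nat_lit 230) (nat_lit 0) (cs (lf (nat_lit 29) (nat_lit 163)) (rf (nat_lit 6)))))))) (nd (nat_lit 141) (nat_lit 0) (cs (lf (nat_lit 36) (nat_lit 118)) (nd (nat_lit 140) (nat_lit 0) (cs (lf (nat_lit 47) (nat_lit 118)) (lf (nat_lit 25) (nat_lit 140))))))))) (rf (nat_lit 7))))) (cs (nd (nat_lit 163) (nat_lit 0) (cs (rf (nat_lit 1)) (cs (rf (nat_lit 8)) (nd (nat_lit 182) (nat_lit 0) (cs (lf (nat_lit 1) (nat_lit 182)) (rf (nat_lit 9))))))) (cs (nd (nat_lit 251) (nat_lit 0) (cs (rf (nat_lit 10)) (nd (nat_lit 252) (nat_lit 0) (cs (rf (nat_lit 11)) (cs (rf (nat_lit 12)) (nd (nat_lit 182) (nat_lit 0) (cs (lf (nat_lit 1) (nat_lit 182)) (rf (nat_lit 13))))))))) (cs (rf (nat_lit 14)) (cs (rf (nat_lit 15)) (nd (nat_lit 163) (nat_lit 0) (cs (rf (nat_lit 1)) (cs (rf (nat_lit 8)) (rf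 (nat_lit 16)))))))))))) q24307 (by decide +kernel)
def q24320 : Q := Q.p (nat_lit 0x400000e000000000000000000000000000000000000000000000000000) (nat_lit 0x2700001c0003b800000000000000000000000000000000000000000000) (nat_lit 7)
theorem c24320 : QOK q24320 := cut [q23813] ⟨c23813, trivial⟩ (nd (nat_lit 204) (nat_lit 0) (cs (lf (nat_lit 4) (nat_lit 204)) (rf (nat_lit 0)))) q24320 (by decide +kernel)
def q24359 : Q := Q.p (nat_lit 0x80000200000000001e000000000000000000000000000000000000000000000000000) (nat_lit 0x17c0001e00003e00001c0003b8001e00003e0000e00002800000000000000000000000) (nat_lit 8)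
theorem c24359 : QOK q24359 := cut [q3506, q3851, q18105, q23940, q24117, q24358] ⟨c3506, c3851, c18105, c23940, c24117, c24358, trivial⟩ (nd (nat_lit 184) (nat_lit 0) (cs (rf (nat_lit 0)) (cs (nd (nat_lit 162) (nat_lit 0) (cs (rf (nat_lit 1)) (cs (rf (nat_lit 2)) (cs (rf (nat_lit 3)) (rf (nat_lit 4)))))) (rf (nat_lit 5))))) q24359 (by decide +kernel)
def q24376 : Q := Q.p (nat_lit 0x80000200000100000c000000000000000000000000000000000000000000000000000) (nat_lit 0x1780001e000028000000000300000c0000200000000000000000000000000000000000) (nat_lit 6)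
theorem c24376 : QOK q24376 := cut [q1496, q3392, q23535] ⟨c1496, c3392, c23535, trivial⟩ (nd (nat_lit 250) (nat_lit 0) (cs (rf (nat_lit 0)) (cs (rf (nat_lit 1)) (rf (nat_lit 2))))) q24376 (by decide +kernel)
def q24448 : Q := Q.p (nat_lit 0x80000200000000001c000000000000000000000000000000000000000000000000000) (nat_lit 0x15c0001f0000fe0000300001e0000380007c0000700001400000000000000000000000) (nat_lit 11)
theorem c24448 : QOK q24448 := cut [q18354, q23522, q23523, q3425, q23836, q15394] ⟨c18354, c23522, c23523, c3425, c23836, c15394, trivial⟩ (nd (nat_lit 205) (nat_lit 0) (cs (rf (nat_lit 0)) (cs (rf (nat_lit 1)) (cs (rf (nat_lit 2)) (nd (nat_lit 183) (nat_lit 0) (cs (lf (nat_lit 23) (nat_lit 182)) (nd (nat_lit 250) (nat_lit 0) (cs (rf (nat_lit 3)) (cs (nd (nat_lit 228) (nat_lit 0) (cs (lf (nat_lit 42) (nat_lit 183)) (nd (nat_lit 227) (nat_lit 0) (cs (lf (nat_lit 11) (nat_lit 204)) (lf (nat_lit 24) (nat_lit 161))))))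 (cs (rf (nat_lit 4)) (nd (nat_lit 230) (nat_lit 0) (cs (lf (nat_lit 5) (nat_lit 205)) (nd (nat_lit 227) (nat_lit 0) (cs (lf (nat_lit 11) (nat_lit 204)) (nd (nat_lit 249) (nat_lit 0) (cs (lf (nat_lit 29) (nat_lit 183)) (nd (nat_lit 248) (nat_lit 0) (cs (lf (nat_lit 41) (nat_lit 182)) (nd (nat_lit 184) (nat_lit 0) (cs (lf (nat_lit 30) (nat_lit 183)) (nd (nat_lit 251) (nat_lit 0) (cs (lf (nat_lit 16) (nat_lit 226)) (rf (nat_lit 5)))))))))))))))))))))))) q24448 (by decide +kernel)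
def q24464 : Q := Q.p (nat_lit 0x200000000001c000000000000000000000000000000000000000000000000000) (nat_lit 0x1c0000fe0000300003e0000fc0007c0000700001400000000000000000000000) (nat_lit 13)
theorem c24464 : QOK q24464 := cut [q18354, q23522, q23523, q24463] ⟨c18354, c23522, c23523, c24463, trivial⟩ (nd (nat_lit 205) (nat_lit 0) (cs (rf (nat_lit 0)) (cs (rf (nat_lit 1)) (cs (rf (nat_lit 2)) (rf (nat_lit 3)))))) q24464 (by decide +kernel)
def q24465 : Q := Q.p (nat_lit 0x1e000000000000000000000000000000000000000000000000000) (nat_lit 0x700001c0003f800000000000000000000000000000000000000000000) (nat_lit 7)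
theorem c24465 : QOK q24465 := cut [q126, q4169, q23813, q23818] ⟨c126, c4169, c23813, c23818, trivial⟩ (nd (nat_lit 204) (nat_lit 0) (cs (rf (nat_lit 0)) (cs (rf (nat_lit 1)) (cs (rf (nat_lit 2)) (rf (nat_lit 3)))))) q24465 (by decide +kernel)
def q24530 : Q := Q.p (nat_lit 0xc00002000000000038000000000000000000000000000000000000000000000000000) (nat_lit 0x400001e00013c0001e000060000000000a0000000000000000000000000000000000000000000000) (nat_lit 7)
theorem c24530 : QOK q24530 := cut [q11503, q24527, q24529] ⟨c11503, c24527, c24529, trivial⟩ (nd (nat_lit 252) (nat_lit 0) (cs (rf (nat_lit 0)) (cs (nd (nat_lit 230) (nat_lit 0) (cs (lf (nat_lit 35) (nat_lit 186)) (rf (nat_lit 1)))) (rf (nat_lit 2))))) q24530 (by decide +kernel)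
def q24531 : Q := Q.p (nat_lit 0xc00002000000000028000000000000000000000000000000000000000000000000000) (nat_lit 0x400005000033c0001e0000a0000000000a0000000000000000000000000000000000000000000000) (nat_lit 6)
theorem c24531 : QOK q24531 := cut [q11503, q15503, q24524] ⟨c11503, c15503, c24524, trivial⟩ (nd (nat_lit 252) (nat_lit 0) (cs (rf (nat_lit 0)) (cs (rf (nat_lit 1)) (rf (nat_lit 2))))) q24531 (by decide +kernel)
def q24644 : Q := Q.p (nat_lit 0x800002000000000038000000000000000000000000000000000000000000000000000) (nat_lit 0x500003400001c001fb0003c0000fb0000400000000000000000000000000000000000000000) (nat_lit 11)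
theorem c24644 : QOK q24644 := cut [q1593, q2359, q137, q10384, q16624, q16684] ⟨c1593, c2359, c137, c10384, c16624, c16684, trivial⟩ (nd (nat_lit 231) (nat_lit 0) (cs (rf (nat_lit 0)) (cs (rf (nat_lit 1)) (nd (nat_lit 210) (nat_lit 0) (cs (lf (nat_lit 35) (nat_lit 187)) (nd (nat_lit 211) (nat_lit 0) (cs (rf (nat_lit 2)) (cs (nd (nat_lit 276) (nat_lit 0) (cs (lf (nat_lit 29) (nat_lit 209)) (nd (nat_lit 184) (nat_lit 0) (cs (lf (nat_lit 22) (nat_lit 184)) (nd (nat_lit 228) (nat_lit 0) (cs (lf (nat_lit 10) (nat_lit 206)) (rf (nat_lit 3)))))))) (cs (nd (nat_lit 232) (nat_lit 0) (cs (lf (nat_lit 5) (nat_lit 207)) (rf (nat_lit 4)))) (nd (nat_lit 234) (nat_lit 0) (cs (lf (nat_lit 4) (nat_lit 208)) (nd (nat_lit 276) (nat_lit 0) (cs (lf (nat_lit 29) (nat_lit 209)) (rf (nat_lit 5))))))))))))))) q24644 (by decide +kernel)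
def q24702 : Q := Q.p (nat_lit 0x800002000000000018000000000000000000000000000000000000000000000000000) (nat_lit 0x400001100001c0007fc001e7000fbe000780001e00005000000000000000000000000000000) (nat_lit 12)
theorem c24702 : QOK q24702 := cut [q22628, q24562, q117, q24675, q4299, q1496, q24691, q24693, q24694, q22368, q23509, q1125] ⟨c22628, c24562, c117, c24675, c4299, c1496, c24691, c24693, c24694, c22368, c23509, c1125, trivial⟩ (nd (nat_lit 209) (nat_lit 0) (cs (rf (nat_lit 0)) (cs (rf (nat_lit 1)) (cs (nd (nat_lit 206) (nat_lit 0) (cs (rf (nat_lit 2)) (cs (rf (nat_lit 3)) (nd (nat_lit 250) (nat_lit 0) (cs (nd (nat_lit 187) (nat_lit 0) (cs (lf (nat_lit 17) (nat_lit 184)) (nd (nat_lit 231) (nat_lit 0) (cs (lf (nat_lit 5) (nat_lit 206)) (nd (nat_lit 276) (nat_lit 0) (cs (lf (nat_lit 29) (nat_lit 209)) (nd (nat_lit 252) (nat_lit 0) (cs (lf (nat_lit 1) (nat_lit 250)) (rf (nat_lit 4)))))))))) (nd (nat_lit 228) (nat_lit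 0) (cs (lf (nat_lit 11) (nat_lit 205)) (rf (nat_lit 5))))))))) (cs (rf (nat_lit 6)) (cs (rf (nat_lit 7)) (cs (rf (nat_lit 8)) (nd (nat_lit 206) (nat_lit 0) (cs (rf (nat_lit 2)) (cs (rf (nat_lit 9)) (cs (rf (nat_lit 10)) (nd (nat_lit 227) (nat_lit 0) (cs (lf (nat_lit 10) (nat_lit 205)) (nd (nat_lit 205) (nat_lit 0) (cs (lf (nat_lit 11) (nat_lit 204)) (nd (nat_lit 230) (nat_lit 0) (cs (lf (nat_lit 5) (nat_lit 205)) (nd (nat_lit 229) (nat_lit 0) (cs (lf (nat_lit 0) (nat_lit 204)) (nd (nat_lit 187) (nat_lit 0) (cs (lf (nat_lit 17) (nat_lit 184)) (nd (nat_lit 143) (nat_lit 0) (cs (lf (nat_lit 37) (nat_lit 142)) (rf (nat_lit 11))))))))))))))))))))))))) q24702 (by decide +kernel)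
def q24742 : Q := Q.p (nat_lit 0xc00002000000000018000000000000000000000000000000000000000000000000000) (nat_lit 0x1dc0003300008f0007e0001e6000fbc000400000000000000000000000000000000000000000) (nat_lit 11)
theorem c24742 : QOK q24742 := cut [q24691, q24706, q22087, q22627, q24709, q24710, q24718, q1022, q24738, q24741] ⟨c24691, c24706, c22087, c22627, c24709, c24710, c24718, c1022, c24738, c24741, trivial⟩ (nd (nat_lit 209) (nat_lit 0) (cs (rf (nat_lit 0)) (cs (rf (nat_lit 1)) (cs (nd (nat_lit 210) (nat_lit 0) (cs (rf (nat_lit 2)) (cs (rf (nat_lit 3)) (cs (nd (nat_lit 233) (nat_lit 0) (cs (lf (nat_lit 4) (nat_lit 207)) (nd (nat_lit 273) (nat_lit 0) (cs (rf (nat_lit 4)) (cs (nd (nat_lit 211) (nat_lit 0) (cs (lf (nat_lit 5) (nat_lit 208)) (nd (nat_lit 190) (nat_lit 0) (cs (lf (nat_lit 16) (nat_lit 186)) (nd (nat_lit 212) (nat_lit 0) (cs (lf (nat_lit 17) (nat_lit 187)) (nd (nat_lit 277) (nat_lit 0) (cs (lf (nat_lit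 31) (nat_lit 189)) (rf (nat_lit 5)))))))))) (rf (nat_lit 6))))))) (nd (nat_lit 273) (nat_lit 0) (cs (rf (nat_lit 4)) (cs (nd (nat_lit 233) (nat_lit 0) (cs (lf (nat_lit 4) (nat_lit 207)) (nd (nat_lit 211) (nat_lit 0) (cs (lf (nat_lit 5) (nat_lit 208)) (nd (nat_lit 277) (nat_lit 0) (cs (rf (nat_lit 5)) (nd (nat_lit 184) (nat_lit 0) (cs (lf (nat_lit 22) (nat_lit 184)) (nd (nat_lit 206) (nat_lit 0) (cs (lf (nat_lit 23) (nat_lit 183)) (nd (nat_lit 188) (nat_lit 0) (cs (lf (nat_lit 16) (nat_lit 184)) (lf (nat_lit 43) (nat_lit 188)))))))))))))) (cs (nd (nat_lit 233) (nat_lit 0) (cs (lf (nat_lit 4) (nat_lit 207)) (rf (nat_lit 6)))) (nd (nat_lit 233) (nat_lit 0) (cs (lf (nat_lit 4) (nat_lit 207)) (nd (nat_lit 211) (nat_lit 0) (cs (lf (nat_lit 5) (nat_lit 208)) (nd (nat_lit 229) (nat_lit 0) (cs (lf (nat_lit 10) (nat_lit 207)) (nd (nat_lit 251) (nat_lit 0) (cs (lf (nat_lit 29) (nat_lit 207)) (rf (nat_lit 7))))))))))))))))))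 (cs (rf (nat_lit 8)) (rf (nat_lit 9))))))) q24742 (by decide +kernel)
def q24756 : Q := Q.p (nat_lit 0x100000c00003000000000000000000000000000000000000000000000000000000000000000) (nat_lit 0x380000e0000000001000000e00002000000000000000000000000000000000000000000000000000000000) (nat_lit 6)
theorem c24756 : QOK q24756 := cut [q24755] ⟨c24755, trivial⟩ (nd (nat_lit 318) (nat_lit 0) (cs (lf (nat_lit 30) (nat_lit 252)) (rf (nat_lit 0)))) q24756 (by decide +kernel)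
def q24759 : Q := Q.p (nat_lit 0xc00003000000000018000000000000000000000000000000000000000000000000000) (nat_lit 0x10000000000000001c00006600079c000400000000000000000000000000000000000000000) (nat_lit 6)
theorem c24759 : QOK q24759 := cut [q22283, q24706, q24741, q1475] ⟨c22283, c24706, c24741, c1475, trivial⟩ (nd (nat_lit 209) (nat_lit 0) (cs (rf (nat_lit 0)) (cs (rf (nat_lit 1)) (cs (rf (nat_lit 2)) (nd (nat_lit 187) (nat_lit 0) (cs (rf (nat_lit 3)) (lf (nat_lit 32) (nat_lit 186)))))))) q24759 (by decide +kernel)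
def q24768 : Q := Q.p (nat_lit 0xc00003000000000010000000000000000000000000000000000000000000000000000) (nat_lit 0x1ce0007380018e00004000000000000000000000000000000000000000000000000000000000) (nat_lit 8)
theorem c24768 : QOK q24768 := cut [q700, q13451, q22310, q24766] ⟨c700, c13451, c22310, c24766, trivial⟩ (nd (nat_lit 276) (nat_lit 0) (cs (rf (nat_lit 0)) (cs (rf (nat_lit 1)) (nd (nat_lit 273) (nat_lit 0) (cs (rf (nat_lit 2)) (rf (nat_lit 3))))))) q24768 (by decide +kernel)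
def q24794 : Q := Q.p (nat_lit 0xc00002000000000018000000000000000000000000000000000000000000000000000) (nat_lit 0x1d8000738000900007e0001e6000fbc000400000000000000000000000000000000000000000) (nat_lit 16)
theorem c24794 : QOK q24794 := cut [q24706, q24738, q24741, q22087, q22627, q12684] ⟨c24706, c24738, c24741, c22087, c22627, c12684, trivial⟩ (nd (nat_lit 209) (nat_lit 0) (cs (rf (nat_lit 0)) (cs (rf (nat_lit 1)) (cs (rf (nat_lit 2)) (nd (nat_lit 210) (nat_lit 0) (cs (rf (nat_lit 3)) (cs (rf (nat_lit 4)) (cs (nd (nat_lit 184) (nat_lit 0) (cs (lf (nat_lit 22) (nat_lit 184)) (nd (nat_lit 183) (nat_lit 0) (cs (lf (nat_lit 21) (nat_lit 183)) (nd (nat_lit 233) (nat_lit 0) (cs (lf (nat_lit 4) (nat_lit 207)) (nd (nat_lit 211) (nat_lit 0) (cs (lf (nat_lit 5) (nat_lit 208)) (nd (nat_lit 230) (nat_lit 0) (cs (lf (nat_lit 11) (nat_lit 207)) (nd (nat_lit 252) (nat_lit 0) (cs (lf (nat_lit 35) (nat_lit 186)) (nd (nat_lit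 273) (nat_lit 0) (cs (lf (nat_lit 41) (nat_lit 207)) (nd (nat_lit 190) (nat_lit 0) (cs (lf (nat_lit 16) (nat_lit 186)) (nd (nat_lit 271) (nat_lit 0) (cs (lf (nat_lit 13) (nat_lit 249)) (nd (nat_lit 212) (nat_lit 0) (cs (lf (nat_lit 17) (nat_lit 187)) (nd (nat_lit 277) (nat_lit 0) (cs (lf (nat_lit 31) (nat_lit 189)) (nd (nat_lit 276) (nat_lit 0) (cs (lf (nat_lit 18) (nat_lit 252)) (rf (nat_lit 5)))))))))))))))))))))))))) (nd (nat_lit 184) (nat_lit 0) (cs (lf (nat_lit 22) (nat_lit 184)) (nd (nat_lit 206) (nat_lit 0) (cs (lf (nat_lit 23) (nat_lit 183)) (nd (nat_lit 187) (nat_lit 0) (cs (lf (nat_lit 17) (nat_lit 184)) (nd (nat_lit 233) (nat_lit 0) (cs (lf (nat_lit 4) (nat_lit 207)) (nd (nat_lit 230) (nat_lit 0) (cs (lf (nat_lit 31) (nat_lit 186)) (nd (nat_lit 211) (nat_lit 0) (cs (lf (nat_lit 5) (nat_lit 208)) (lf (nat_lit 11) (nat_lit 207)))))))))))))))))))))) q24794 (by decide +kernel)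
def q24956 : Q := Q.p (nat_lit 0x1e000000000000000000000000000000000000000000000000000) (nat_lit 0x20000280002000003c0000fc000ff0000f00000000000000000000000000000) (nat_lit 10)
theorem c24956 : QOK q24956 := cut [q24954] ⟨c24954, trivial⟩ (nd (nat_lit 183) (nat_lit 0) (cs (lf (nat_lit 23) (nat_lit 182)) (nd (nat_lit 184) (nat_lit 0) (cs (lf (nat_lit 18) (nat_lit 183)) (rf (nat_lit 0)))))) q24956 (by decide +kernel)
def q25013 : Q := Q.p (nat_lit 0x80000200000000001c000010000000000000000000000000000000000000000000000) (nat_lit 0x17c0001e000070000630001a00007f0001f80001e00002800000000000000000000000) (nat_lit 11)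
theorem c25013 : QOK q25013 := cut [q864, q3851, q18105, q23941, q24063, q24998, q24087, q24295, q2419, q23939, q23947, q15215] ⟨c864, c3851, c18105, c23941, c24063, c24998, c24087, c24295, c2419, c23939, c23947, c15215, trivial⟩ (nd (nat_lit 162) (nat_lit 0) (cs (rf (nat_lit 0)) (cs (rf (nat_lit 1)) (cs (rf (nat_lit 2)) (cs (rf (nat_lit 3)) (nd (nat_lit 163) (nat_lit 0) (cs (rf (nat_lit 4)) (cs (nd (nat_lit 228) (nat_lit 0) (cs (lf (nat_lit 35) (nat_lit 140)) (nd (nat_lit 139) (nat_lit 0) (cs (lf (nat_lit 46) (nat_lit 139)) (rf (nat_lit 5)))))) (cs (nd (nat_lit 185) (nat_lit 0) (cs (rf (nat_lit 6)) (cs (rf (nat_lit 7)) (nd (nat_lit 209) (nat_lit 0) (cs (lf (nat_lit 18) (nat_lit 184)) (nd (nat_lit 229) (nat_lit 0) (cs (lf (nat_lit 42) (nat_lit 162)) (nd (nat_lit 230) (nat_lit 0) (cs (lf (nat_lit 29) (nat_lit 163)) (nd (nat_lit 204) (nat_lit 0) (cs (lf (nat_lit 1) (nat_lit 204)) (nd (nat_lit 187) (nat_lit 0) (cs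 (lf (nat_lit 17) (nat_lit 184)) (nd (nat_lit 165) (nat_lit 0) (cs (lf (nat_lit 36) (nat_lit 142)) (nd (nat_lit 164) (nat_lit 0) (cs (lf (nat_lit 6) (nat_lit 162)) (lf (nat_lit 35) (nat_lit 141))))))))))))))))))) (nd (nat_lit 251) (nat_lit 0) (cs (rf (nat_lit 8)) (cs (rf (nat_lit 9)) (cs (rf (nat_lit 10)) (nd (nat_lit 250) (nat_lit 0) (cs (rf (nat_lit 11)) (nd (nat_lit 228) (nat_lit 0) (cs (lf (nat_lit 34) (nat_lit 162)) (lf (nat_lit 29) (nat_lit 184))))))))))))))))))) q25013 (by decide +kernel)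
def q25023 : Q := Q.p (nat_lit 0x80000200000000001c000000000000000000000000000000000000000000000000000) (nat_lit 0x1680001e000078000600003b80000e0001f80001e00002800000000000000000000000) (nat_lit 12)
theorem c25023 : QOK q25023 := cut [q684, q22368, q864, q18105, q23941, q23944, q25022] ⟨c684, c22368, c864, c18105, c23941, c23944, c25022, trivial⟩ (nd (nat_lit 209) (nat_lit 0) (cs (rf (nat_lit 0)) (cs (rf (nat_lit 1)) (cs (nd (nat_lit 184) (nat_lit 0) (cs (lf (nat_lit 23) (nat_lit 183)) (nd (nat_lit 162) (nat_lit 0) (cs (rf (nat_lit 2)) (cs (rf (nat_lit 3)) (cs (rf (nat_lit 4)) (nd (nat_lit 228) (nat_lit 0) (cs (lf (nat_lit 11) (nat_lit 205)) (nd (nat_lit 187) (nat_lit 0) (cs (lf (nat_lit 17) (nat_lit 184)) (nd (nat_lit 141) (nat_lit 0) (cs (lf (nat_lit 34) (nat_lit 140)) (nd (nat_lit 139) (nat_lit 0) (cs (lf (nat_lit 46) (nat_lit 139)) (rf (nat_lit 5)))))))))))))))) (rf (nat_lit 6)))))) q25023 (by decide +kernel)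
def q25031 : Q := Q.p (nat_lit 0x80000200000000001c000000000000000000000000000000000000000000000000000) (nat_lit 0xa00017e0001f80007e000220000300000c0000200000000000000000000000000000000000) (nat_lit 9)
theorem c25031 : QOK q25031 := cut [q4164, q1496, q24654, q25029] ⟨c4164, c1496, c24654, c25029, trivial⟩ (nd (nat_lit 228) (nat_lit 0) (cs (rf (nat_lit 0)) (nd (nat_lit 250) (nat_lit 0) (cs (rf (nat_lit 1)) (cs (rf (nat_lit 2)) (rf (nat_lit 3))))))) q25031 (by decide +kernel)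
def q25042 : Q := Q.p (nat_lit 0x800002000000000038000000000000000000000000000000000000000000000000000) (nat_lit 0x500003400001c0007c000004000080000000000000000000000000000000000000000000000) (nat_lit 6)
theorem c25042 : QOK q25042 := cut [q2359, q25040] ⟨c2359, c25040, trivial⟩ (nd (nat_lit 231) (nat_lit 0) (cs (rf (nat_lit 0)) (nd (nat_lit 232) (nat_lit 0) (cs (lf (nat_lit 0) (nat_lit 206)) (rf (nat_lit 1)))))) q25042 (by decide +kernel)
def q25060 : Q := Q.p (nat_lit 0x800002000000000018000000000000000000000000000000000000000000000000000) (nat_lit 0x500001400000c0007fc001e6000fbc0007e0001f80001e00002800000000000000000000000) (nat_lit 17)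
theorem c25060 : QOK q25060 := cut [q22628, q24562, q24691, q24693, q24694, q25043, q117, q24659, q24675, q864, q3851, q18105, q23941] ⟨c22628, c24562, c24691, c24693, c24694, c25043, c117, c24659, c24675, c864, c3851, c18105, c23941, trivial⟩ (nd (nat_lit 209) (nat_lit 0) (cs (rf (nat_lit 0)) (cs (rf (nat_lit 1)) (cs (rf (nat_lit 2)) (cs (rf (nat_lit 3)) (cs (rf (nat_lit 4)) (cs (rf (nat_lit 5)) (nd (nat_lit 206) (nat_lit 0) (cs (rf (nat_lit 6)) (cs (rf (nat_lit 7)) (cs (rf (nat_lit 8)) (nd (nat_lit 184) (nat_lit 0) (cs (lf (nat_lit 23) (nat_lit 183)) (nd (nat_lit 162) (nat_lit 0) (cs (rf (nat_lit 9)) (cs (rf (nat_lit 10)) (cs (rf (nat_lit 11)) (cs (rf (nat_lit 12)) (nd (nat_lit 228) (nat_lit 0) (cs (lf (nat_lit 11) (nat_lit 205)) (nd (nat_lit 187) (nat_lit 0) (cs (lf (nat_lit 17) (nat_lit 184)) (nd (nat_lit 139) (nat_lit 0) (cs (lf (nat_lit 46) (nat_lit 139)) (nd (nat_lit 229) (nat_lit 0) (cs (lf (nat_lit 29)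 (nat_lit 162)) (nd (nat_lit 163) (nat_lit 0) (cs (lf (nat_lit 35) (nat_lit 140)) (nd (nat_lit 231) (nat_lit 0) (cs (lf (nat_lit 5) (nat_lit 206)) (nd (nat_lit 274) (nat_lit 0) (cs (lf (nat_lit 41) (nat_lit 208)) (nd (nat_lit 276) (nat_lit 0) (cs (lf (nat_lit 29) (nat_lit 209)) (nd (nat_lit 185) (nat_lit 0) (cs (lf (nat_lit 41) (nat_lit 162)) (nd (nat_lit 164) (nat_lit 0) (cs (lf (nat_lit 35) (nat_lit 141)) (nd (nat_lit 165) (nat_lit 0) (cs (lf (nat_lit 6) (nat_lit 162)) (nd (nat_lit 143) (nat_lit 0) (cs (lf (nat_lit 41) (nat_lit 142)) (lf (nat_lit 17) (nat_lit 140)))))))))))))))))))))))))))))))))))))))))))) q25060 (by decide +kernel)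
def q25291 : Q := Q.p (nat_lit 0x80000e00002000000000010000000000000000000000000000000000000000000000000000) (nat_lit 0x140000740001f8000ff8003fe001f7c0000c0000f0000740000c000000000000000000000000000000000000000000000000000) (nat_lit 14)
theorem c25291 : QOK q25291 := cut [q25197, q22691, q25205, q25247, q25117, q25188, q12714, q25255, q12769, q12803, q12775, q12784, q14566, q25254, q14174, q25276, q25147, q12762, q22660, q25202] ⟨c25197, c22691, c25205, c25247, c25117, c25188, c12714, c25255, c12769, c12803, c12775, c12784, c14566, c25254, c14174, c25276, c25147, c12762, c22660, c25202, trivial⟩ (nd (nat_lit 317) (nat_lit 0) (cs (rf (nat_lit 0)) (cs (nd (nat_lit 339) (nat_lit 0) (cs (rf (nat_lit 1)) (rf (nat_lit 2)))) (cs (rf (nat_lit 3)) (cs (nd (nat_lit 251) (nat_lit 0) (cs (rf (nat_lit 4)) (cs (rf (nat_lit 5)) (nd (nat_lit 316) (nat_lit 0) (cs (lf (nat_lit 41) (nat_lit 250)) (nd (nat_lit 315) (nat_lit 0)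 (cs (rf (nat_lit 6)) (cs (nd (nat_lit 318) (nat_lit 0) (cs (lf (nat_lit 29) (nat_lit 251)) (nd (nat_lit 296) (nat_lit 0) (cs (lf (nat_lit 12) (nat_lit 292)) (lf (nat_lit 17) (nat_lit 293)))))) (cs (nd (nat_lit 228) (nat_lit 0) (cs (lf (nat_lit 46) (nat_lit 228)) (rf (nat_lit 7)))) (nd (nat_lit 318) (nat_lit 0) (cs (lf (nat_lit 29) (nat_lit 251)) (nd (nat_lit 296) (nat_lit 0) (cs (lf (nat_lit 17) (nat_lit 293)) (nd (nat_lit 293) (nat_lit 0) (cs (lf (nat_lit 23) (nat_lit 292)) (lf (nat_lit 13) (nat_lit 271))))))))))))))))) (cs (nd (nat_lit 318) (nat_lit 0) (cs (nd (nat_lit 319) (nat_lit 0) (cs (rf (nat_lit 8)) (cs (rf (nat_lit 9)) (nd (nat_lit 229) (nat_lit 0) (cs (nd (nat_lit 251) (nat_lit 0) (cs (lf (nat_lit 34) (nat_lit 207)) (nd (nat_lit 228) (nat_lit 0) (cs (lf (nat_lit 47) (nat_lit 206)) (lf (nat_lit 46) (nat_lit 228)))))) (nd (nat_lit 316) (nat_lit 0) (cs (rf (nat_lit 10)) (cs (nd (nat_lit 297) (nat_lit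 0) (cs (lf (nat_lit 17) (nat_lit 294)) (rf (nat_lit 11)))) (cs (nd (nat_lit 315) (nat_lit 0) (cs (rf (nat_lit 12)) (cs (rf (nat_lit 13)) (cs (nd (nat_lit 341) (nat_lit 0) (cs (lf (nat_lit 5) (nat_lit 316)) (nd (nat_lit 297) (nat_lit 0) (cs (lf (nat_lit 17) (nat_lit 294)) (nd (nat_lit 336) (nat_lit 0) (cs (lf (nat_lit 10) (nat_lit 314)) (nd (nat_lit 314) (nat_lit 0) (cs (lf (nat_lit 11) (nat_lit 313)) (nd (nat_lit 313) (nat_lit 0) (cs (rf (nat_lit 14)) (lf (nat_lit 16) (nat_lit 291)))))))))))) (nd (nat_lit 336) (nat_lit 0) (cs (lf (nat_lit 10) (nat_lit 314)) (nd (nat_lit 314) (nat_lit 0) (cs (lf (nat_lit 11) (nat_lit 313)) (nd (nat_lit 294) (nat_lit 0) (cs (lf (nat_lit 23) (nat_lit 293)) (lf (nat_lit 12) (nat_lit 291)))))))))))) (nd (nat_lit 293) (nat_lit 0) (cs (lf (nat_lit 22) (nat_lit 293)) (nd (nat_lit 315) (nat_lit 0) (cs (lf (nat_lit 23) (nat_lit 292)) (nd (nat_lit 314) (nat_lit 0) (cs (lf (nat_lit 17) (nat_lit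 292)) (rf (nat_lit 15))))))))))))))))) (cs (nd (nat_lit 251) (nat_lit 0) (cs (lf (nat_lit 29) (nat_lit 251)) (rf (nat_lit 5)))) (nd (nat_lit 340) (nat_lit 0) (cs (lf (nat_lit 32) (nat_lit 252)) (rf (nat_lit 16))))))) (nd (nat_lit 339) (nat_lit 0) (cs (rf (nat_lit 17)) (cs (rf (nat_lit 18)) (cs (rf (nat_lit 19)) (nd (nat_lit 338) (nat_lit 0) (cs (lf (nat_lit 41) (nat_lit 272)) (nd (nat_lit 340) (nat_lit 0) (cs (lf (nat_lit 29) (nat_lit 273)) (nd (nat_lit 318) (nat_lit 0) (cs (lf (nat_lit 32) (nat_lit 252)) (nd (nat_lit 319) (nat_lit 0) (cs (lf (nat_lit 38) (nat_lit 252)) (lf (nat_lit 6) (nat_lit 316)))))))))))))))))))) q25291 (by decide +kernel)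
def q25323 : Q := Q.p (nat_lit 0x80000e00000000000000000000000000000000000000000000000000000000000000000000) (nat_lit 0x3940007000038000000000000000000000000000000000000000000000000000000000000000) (nat_lit 6)
theorem c25323 : QOK q25323 := cut [q13006] ⟨c13006, trivial⟩ (nd (nat_lit 276) (nat_lit 0) (cs (lf (nat_lit 11) (nat_lit 272)) (rf (nat_lit 0)))) q25323 (by decide +kernel)
def q25420 : Q := Q.p (nat_lit 0x100000c0000000000800002000000000000000000000000000000000000000000000000000000000000000) (nat_lit 0x80000300003ee000f30007ce0003000008000000000000000000000000000000000000000000000000000000000000000) (nat_lit 9)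
theorem c25420 : QOK q25420 := cut [q13058, q13073, q13106, q13129, q13222, q25415] ⟨c13058, c13073, c13106, c13129, c13222, c25415, trivial⟩ (nd (nat_lit 320) (nat_lit 0) (cs (rf (nat_lit 0)) (cs (rf (nat_lit 1)) (cs (rf (nat_lit 2)) (cs (rf (nat_lit 3)) (cs (rf (nat_lit 4)) (rf (nat_lit 5)))))))) q25420 (by decide +kernel)
def q25556 : Q := Q.p (nat_lit 0xe00003000000000010000000000000000000000000000000000000000000000000000) (nat_lit 0x1c80007180000e000040000280000a0000000000000000000000000000000000000000000000) (nat_lit 9)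
theorem c25556 : QOK q25556 := cut [q1313] ⟨c1313, trivial⟩ (nd (nat_lit 272) (nat_lit 0) (cs (lf (nat_lit 12) (nat_lit 249)) (nd (nat_lit 230) (nat_lit 0) (cs (lf (nat_lit 41) (nat_lit 207)) (nd (nat_lit 187) (nat_lit 0) (cs (lf (nat_lit 34) (nat_lit 186)) (nd (nat_lit 185) (nat_lit 0) (cs (lf (nat_lit 46) (nat_lit 185)) (rf (nat_lit 0)))))))))) q25556 (by decide +kernel)
def q25690 : Q := Q.p (nat_lit 0x40000000000c00003000000000000000000000000000000000000000000000000000000000000000) (nat_lit 0x80000200003fe000fb0007e00007380018e00020000080000000000000000000000000000000000000000000000000000) (nat_lit 11)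
theorem c25690 : QOK q25690 := cut [q700, q14689, q13603, q25675, q13158, q15121, q25672, q25414, q13024, q13057, q13098, q25682, q25687] ⟨c700, c14689, c13603, c25675, c13158, c15121, c25672, c25414, c13024, c13057, c13098, c25682, c25687, trivial⟩ (nd (nat_lit 276) (nat_lit 0) (cs (rf (nat_lit 0)) (cs (rf (nat_lit 1)) (nd (nat_lit 319) (nat_lit 0) (cs (rf (nat_lit 2)) (cs (rf (nat_lit 3)) (cs (nd (nat_lit 320) (nat_lit 0) (cs (rf (nat_lit 4)) (cs (rf (nat_lit 5)) (rf (nat_lit 6))))) (nd (nat_lit 320) (nat_lit 0) (cs (rf (nat_lit 7)) (cs (nd (nat_lit 321) (nat_lit 0) (cs (rf (nat_lit 8)) (cs (rf (nat_lit 9)) (rf (nat_lit 10))))) (cs (rf (nat_lit 11)) (rf (nat_lit 12))))))))))))) q25690 (by decide +kernel)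
def q25793 : Q := Q.p (nat_lit 0x100000c00003000000000010000000000000000000000000000000000000000000000000000) (nat_lit 0x20000b80006e0001b80006e00003e0000e0000380002e000038000020000000000000000000000000000000000000000) (nat_lit 12)
theorem c25793 : QOK q25793 := cut [q14310, q14306, q25766, q23140, q25762, q25768, q22991, q25756, q25771, q22971, q25760, q25776, q25778, q14305, q15826, q15073, q14792] ⟨c14310, c14306, c25766, c23140, c25762, c25768, c22991, c25756, c25771, c22971, c25760, c25776, c25778, c14305, c15826, c15073, c14792, trivial⟩ (nd (nat_lit 272) (nat_lit 0) (cs (rf (nat_lit 0)) (cs (nd (nat_lit 250) (nat_lit 0) (cs (rf (nat_lit 1)) (cs (rf (nat_lit 2)) (cs (nd (nat_lit 294) (nat_lit 0) (cs (rf (nat_lit 3)) (cs (rf (nat_lit 4)) (nd (nat_lit 251) (nat_lit 0) (cs (lf (nat_lit 11) (nat_lit 249)) (rf (nat_lit 5))))))) (nd (nat_lit 294) (nat_lit 0) (cs (rf (nat_lit 3)) (cs (rf (nat_lit 4)) (cs (nd (nat_lit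 316) (nat_lit 0) (cs (rf (nat_lit 6)) (cs (rf (nat_lit 7)) (nd (nat_lit 317) (nat_lit 0) (cs (lf (nat_lit 29) (nat_lit 250)) (rf (nat_lit 8))))))) (cs (nd (nat_lit 228) (nat_lit 0) (cs (rf (nat_lit 9)) (cs (rf (nat_lit 10)) (rf (nat_lit 11))))) (nd (nat_lit 295) (nat_lit 0) (cs (lf (nat_lit 12) (nat_lit 271)) (nd (nat_lit 271) (nat_lit 0) (cs (lf (nat_lit 18) (nat_lit 271)) (nd (nat_lit 269) (nat_lit 0) (cs (rf (nat_lit 12)) (lf (nat_lit 1) (nat_lit 269))))))))))))))))) (cs (nd (nat_lit 250) (nat_lit 0) (cs (rf (nat_lit 13)) (cs (rf (nat_lit 2)) (cs (nd (nat_lit 294) (nat_lit 0) (cs (rf (nat_lit 14)) (nd (nat_lit 228) (nat_lit 0) (cs (rf (nat_lit 15)) (cs (rf (nat_lit 10)) (nd (nat_lit 207) (nat_lit 0) (cs (lf (nat_lit 34) (nat_lit 206)) (nd (nat_lit 227) (nat_lit 0) (cs (lf (nat_lit 20) (nat_lit 227)) (nd (nat_lit 206) (nat_lit 0) (cs (lf (nat_lit 35) (nat_lit 184)) (lf (nat_lit 6) (nat_lit 205)))))))))))))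 (nd (nat_lit 273) (nat_lit 0) (cs (lf (nat_lit 23) (nat_lit 249)) (rf (nat_lit 16)))))))) (nd (nat_lit 273) (nat_lit 0) (cs (lf (nat_lit 12) (nat_lit 249)) (rf (nat_lit 16)))))))) q25793 (by decide +kernel)
def q25897 : Q := Q.p (nat_lit 0x200000c00002000000000010000000000000000000000000000000000000000000000000000) (nat_lit 0x100000780001f0001cc0001300001000004000000000000000000000000000000000000000000000000000000000) (nat_lit 9)
theorem c25897 : QOK q25897 := cut [q22569, q25895, q25896] ⟨c22569, c25895, c25896, trivial⟩ (nd (nat_lit 298) (nat_lit 0) (cs (rf (nat_lit 0)) (cs (rf (nat_lit 1)) (rf (nat_lit 2))))) q25897 (by decide +kernel)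
def q25898 : Q := Q.p (nat_lit 0x200000e00002000000000010000000000000000000000000000000000000000000000000000) (nat_lit 0xe0007180001800004000000000000000000000000000000000000000000000000000000000) (nat_lit 6)
theorem c25898 : QOK q25898 := cut [q14866] ⟨c14866, trivial⟩ (nd (nat_lit 252) (nat_lit 0) (cs (lf (nat_lit 25) (nat_lit 208)) (rf (nat_lit 0)))) q25898 (by decide +kernel)
def q25915 : Q := Q.p (nat_lit 0x80000200000c00002000000000010000000000000000000000000000000000000000000000000000) (nat_lit 0x5e0003780001f0003300001800006000000000000000000000000000000000000000000000000000000000) (nat_lit 11)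
theorem c25915 : QOK q25915 := cut [q21914, q14713, q25913] ⟨c21914, c14713, c25913, trivial⟩ (nd (nat_lit 320) (nat_lit 0) (cs (lf (nat_lit 29) (nat_lit 253)) (nd (nat_lit 295) (nat_lit 0) (cs (rf (nat_lit 0)) (cs (nd (nat_lit 230) (nat_lit 0) (cs (lf (nat_lit 46) (nat_lit 230)) (rf (nat_lit 1)))) (cs (nd (nat_lit 318) (nat_lit 0) (cs (lf (nat_lit 41) (nat_lit 252)) (nd (nat_lit 296) (nat_lit 0) (cs (lf (nat_lit 18) (nat_lit 295)) (nd (nat_lit 276) (nat_lit 0) (cs (lf (nat_lit 6) (nat_lit 273)) (nd (nat_lit 252) (nat_lit 0) (cs (lf (nat_lit 47) (nat_lit 230)) (nd (nat_lit 251) (nat_lit 0) (cs (lf (nat_lit 47) (nat_lit 229)) (nd (nat_lit 317) (nat_lit 0) (cs (lf (nat_lit 41) (nat_lit 251)) (nd (nat_lit 316) (nat_lit 0) (cs (lf (nat_lit 12) (nat_lit 293)) (nd (nat_lit 338) (nat_lit 0) (cs (lf (nat_lit 11) (nat_lit 315)) (lf (nat_lit 37) (nat_lit 250)))))))))))))))))) (rf (nat_lit 2)))))))) q25915 (by decide +kernel)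
def q25970 : Q := Q.p (nat_lit 0x80000200000c00002000000000010000000000000000000000000000000000000000000000000000) (nat_lit 0x3d00007600039f0001300001000004000000000000000000000000000000000000000000000000000000000) (nat_lit 9)
theorem c25970 : QOK q25970 := cut [q14713, q25913, q13026] ⟨c14713, c25913, c13026, trivial⟩ (nd (nat_lit 320) (nat_lit 0) (cs (lf (nat_lit 29) (nat_lit 253)) (nd (nat_lit 295) (nat_lit 0) (cs (rf (nat_lit 0)) (cs (rf (nat_lit 1)) (nd (nat_lit 230) (nat_lit 0) (cs (rf (nat_lit 2)) (lf (nat_lit 26) (nat_lit 208))))))))) q25970 (by decide +kernel)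
def q25983 : Q := Q.p (nat_lit 0x300000c00002000000000010000000000000000000000000000000000000000000000000000) (nat_lit 0x600007800004c0000000001000004000000000000000000000000000000000000000000000000000000000) (nat_lit 6)
theorem c25983 : QOK q25983 := cut [q14914] ⟨c14914, trivial⟩ (nd (nat_lit 252) (nat_lit 0) (cs (lf (nat_lit 25) (nat_lit 208)) (rf (nat_lit 0)))) q25983 (by decide +kernel)
def q26275 : Q := Q.p (nat_lit 0x800000400001000004000000000000000000000000000000000000000000000000000) (nat_lit 0x8000038000ee0001780000a000028000020000300000c0000200000000000000000000000000000000000) (nat_lit 8)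
theorem c26275 : QOK q26275 := cut [q17478, q26187, q26193, q26274] ⟨c17478, c26187, c26193, c26274, trivial⟩ (nd (nat_lit 272) (nat_lit 0) (cs (rf (nat_lit 0)) (cs (rf (nat_lit 1)) (cs (rf (nat_lit 2)) (rf (nat_lit 3)))))) q26275 (by decide +kernel)
def q26298 : Q := Q.p (nat_lit 0x800002400000000014000000000000000000000000000000000000000000000000000) (nat_lit 0x980003e0006f80007f8001bc000ff8000380003e0000e80002a0000000000000000000000000000000000) (nat_lit 13)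
theorem c26298 : QOK q26298 := cut [q26181, q26258, q26269, q26276, q17375, q23598, q26281, q17478, q26274] ⟨c26181, c26258, c26269, c26276, c17375, c23598, c26281, c17478, c26274, trivial⟩ (nd (nat_lit 228) (nat_lit 0) (cs (rf (nat_lit 0)) (cs (rf (nat_lit 1)) (cs (rf (nat_lit 2)) (cs (rf (nat_lit 3)) (cs (nd (nat_lit 272) (nat_lit 0) (cs (rf (nat_lit 4)) (cs (rf (nat_lit 5)) (cs (nd (nat_lit 273) (nat_lit 0) (cs (lf (nat_lit 29) (nat_lit 206)) (nd (nat_lit 183) (nat_lit 0) (cs (lf (nat_lit 46) (nat_lit 183)) (rf (nat_lit 6)))))) (nd (nat_lit 273) (nat_lit 0) (cs (lf (nat_lit 29) (nat_lit 206)) (nd (nat_lit 183) (nat_lit 0) (cs (lf (nat_lit 46) (nat_lit 183)) (nd (nat_lit 274) (nat_lit 0) (cs (lf (nat_lit 23) (nat_lit 249)) (nd (nat_lit 252) (nat_lit 0) (cs (lf (nat_lit 12) (nat_lit 249)) (nd (nat_lit 297) (nat_lit 0) (cs (lf (nat_lit 5) (nat_lit 272)) (lf (nat_lit 25) (nat_lit 208)))))))))))))))) (nd (nat_lit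 272) (nat_lit 0) (cs (rf (nat_lit 7)) (cs (rf (nat_lit 5)) (cs (rf (nat_lit 8)) (cs (nd (nat_lit 273) (nat_lit 0) (cs (lf (nat_lit 29) (nat_lit 206)) (nd (nat_lit 184) (nat_lit 0) (cs (lf (nat_lit 28) (nat_lit 184)) (nd (nat_lit 163) (nat_lit 0) (cs (lf (nat_lit 34) (nat_lit 162)) (nd (nat_lit 141) (nat_lit 0) (cs (lf (nat_lit 33) (nat_lit 140)) (rf (nat_lit 6)))))))))) (nd (nat_lit 273) (nat_lit 0) (cs (lf (nat_lit 29) (nat_lit 206)) (nd (nat_lit 184) (nat_lit 0) (cs (lf (nat_lit 28) (nat_lit 184)) (nd (nat_lit 249) (nat_lit 0) (cs (lf (nat_lit 41) (nat_lit 183)) (lf (nat_lit 19) (nat_lit 249))))))))))))))))))) q26298 (by decide +kernel)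
def q26528 : Q := Q.p (nat_lit 0x2000001800016000000000000000000000000000000000000000000000000000) (nat_lit 0x8000130000e400008000010000040000000000000000000000000000000000000000) (nat_lit 6)
theorem c26528 : QOK q26528 := cut [q26469] ⟨c26469, trivial⟩ (nd (nat_lit 207) (nat_lit 0) (cs (lf (nat_lit 11) (nat_lit 204)) (rf (nat_lit 0)))) q26528 (by decide +kernel)
def q26711 : Q := Q.p (nat_lit 0x800002000001000016000000000000000000000000000000000000000000000000000) (nat_lit 0x800002f80007e00013c000ef80001c0003f0000f80003e0000000000000000000000000000000000) (nat_lit 14)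
theorem c26711 : QOK q26711 := cut [q24373, q26648, q26650, q26655, q26662, q26447, q26702, q26704] ⟨c24373, c26648, c26650, c26655, c26662, c26447, c26702, c26704, trivial⟩ (nd (nat_lit 204) (nat_lit 0) (cs (rf (nat_lit 0)) (cs (nd (nat_lit 227) (nat_lit 0) (cs (rf (nat_lit 1)) (rf (nat_lit 2)))) (cs (rf (nat_lit 3)) (nd (nat_lit 227) (nat_lit 0) (cs (rf (nat_lit 1)) (cs (nd (nat_lit 226) (nat_lit 0) (cs (rf (nat_lit 4)) (cs (nd (nat_lit 203) (nat_lit 0) (cs (lf (nat_lit 0) (nat_lit 202)) (nd (nat_lit 184) (nat_lit 0) (cs (lf (nat_lit 17) (nat_lit 181)) (nd (nat_lit 162) (nat_lit 0) (cs (lf (nat_lit 36) (nat_lit 139)) (nd (nat_lit 181) (nat_lit 0) (cs (lf (nat_lit 23) (nat_lit 180)) (nd (nat_lit 141) (nat_lit 0) (cs (lf (nat_lit 34) (nat_lit 140)) (nd (nat_lit 137) (nat_lit 0) (cs (lf (nat_lit 25) (nat_lit 137)) (nd (nat_lit 248) (nat_lit 0) (cs (lf (nat_lit 42) (nat_lit 181)) (nd (nat_lit 161) (nat_lit 0) (cs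 (lf (nat_lit 47) (nat_lit 139)) (lf (nat_lit 37) (nat_lit 160)))))))))))))))))) (nd (nat_lit 203) (nat_lit 0) (cs (lf (nat_lit 0) (nat_lit 202)) (nd (nat_lit 224) (nat_lit 0) (cs (lf (nat_lit 13) (nat_lit 202)) (nd (nat_lit 181) (nat_lit 0) (cs (lf (nat_lit 23) (nat_lit 180)) (nd (nat_lit 184) (nat_lit 0) (cs (lf (nat_lit 17) (nat_lit 181)) (nd (nat_lit 162) (nat_lit 0) (cs (lf (nat_lit 36) (nat_lit 139)) (nd (nat_lit 137) (nat_lit 0) (cs (lf (nat_lit 25) (nat_lit 137)) (nd (nat_lit 161) (nat_lit 0) (cs (lf (nat_lit 47) (nat_lit 139)) (nd (nat_lit 163) (nat_lit 0) (cs (lf (nat_lit 35) (nat_lit 140)) (nd (nat_lit 160) (nat_lit 0) (cs (lf (nat_lit 10) (nat_lit 159)) (lf (nat_lit 22) (nat_lit 137))))))))))))))))))))))) (cs (nd (nat_lit 203) (nat_lit 0) (cs (lf (nat_lit 0) (nat_lit 202)) (nd (nat_lit 184) (nat_lit 0) (cs (lf (nat_lit 17) (nat_lit 181)) (rf (nat_lit 5)))))) (nd (nat_lit 226) (nat_lit 0) (cs (rf (nat_lit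 4)) (cs (nd (nat_lit 203) (nat_lit 0) (cs (lf (nat_lit 0) (nat_lit 202)) (nd (nat_lit 225) (nat_lit 0) (cs (lf (nat_lit 12) (nat_lit 202)) (nd (nat_lit 180) (nat_lit 0) (cs (lf (nat_lit 22) (nat_lit 180)) (nd (nat_lit 247) (nat_lit 0) (cs (lf (nat_lit 11) (nat_lit 224)) (nd (nat_lit 269) (nat_lit 0) (cs (lf (nat_lit 30) (nat_lit 203)) (nd (nat_lit 270) (nat_lit 0) (cs (lf (nat_lit 29) (nat_lit 203)) (nd (nat_lit 248) (nat_lit 0) (cs (lf (nat_lit 35) (nat_lit 182)) (nd (nat_lit 271) (nat_lit 0) (cs (lf (nat_lit 29) (nat_lit 204)) (nd (nat_lit 272) (nat_lit 0) (cs (lf (nat_lit 18) (nat_lit 247)) (nd (nat_lit 294) (nat_lit 0) (cs (lf (nat_lit 5) (nat_lit 269)) (lf (nat_lit 26) (nat_lit 205)))))))))))))))))))))) (cs (nd (nat_lit 203) (nat_lit 0) (cs (lf (nat_lit 0) (nat_lit 202)) (rf (nat_lit 6)))) (nd (nat_lit 203) (nat_lit 0) (cs (lf (nat_lit 0) (nat_lit 202)) (nd (nat_lit 225) (nat_lit 0) (cs (lf (nat_lit 12)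 (nat_lit 202)) (nd (nat_lit 180) (nat_lit 0) (cs (lf (nat_lit 22) (nat_lit 180)) (nd (nat_lit 247) (nat_lit 0) (cs (lf (nat_lit 11) (nat_lit 224)) (rf (nat_lit 7)))))))))))))))))))))) q26711 (by decide +kernel)
def q26968 : Q := Q.p (nat_lit 0x800002000000000016000000000000000000000000000000000000000000000000000) (nat_lit 0x840002f00017c0001fc000fc0000900003f0000f00003c0000000000000000000000000000000000) (nat_lit 11)
theorem c26968 : QOK q26968 := cut [q671, q23759, q23805, q26517, q3528, q26947, q26948, q26958, q5182, q24668, q1225, q26622, q26468, q26563, q3639, q26597, q4939, q26480, q26769] ⟨c671, c23759, c23805, c26517, c3528, c26947, c26948, c26958, c5182, c24668, c1225, c26622, c26468, c26563, c3639, c26597, c4939, c26480, c26769, trivial⟩ (nd (nat_lit 227) (nat_lit 0) (cs (nd (nat_lit 207) (nat_lit 0) (cs (lf (nat_lit 11) (nat_lit 204)) (rf (nat_lit 0)))) (cs (nd (nat_lit 249) (nat_lit 0) (cs (rf (nat_lit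 1)) (cs (rf (nat_lit 2)) (cs (nd (nat_lit 183) (nat_lit 0) (cs (nd (nat_lit 228) (nat_lit 0) (cs (rf (nat_lit 3)) (nd (nat_lit 160) (nat_lit 0) (cs (lf (nat_lit 46) (nat_lit 160)) (nd (nat_lit 184) (nat_lit 0) (cs (lf (nat_lit 36) (nat_lit 161)) (nd (nat_lit 250) (nat_lit 0) (cs (lf (nat_lit 42) (nat_lit 183)) (rf (nat_lit 4)))))))))) (cs (rf (nat_lit 5)) (nd (nat_lit 250) (nat_lit 0) (cs (lf (nat_lit 29) (nat_lit 183)) (nd (nat_lit 161) (nat_lit 0) (cs (lf (nat_lit 28) (nat_lit 161)) (rf (nat_lit 6))))))))) (rf (nat_lit 7)))))) (cs (nd (nat_lit 207) (nat_lit 0) (cs (lf (nat_lit 11) (nat_lit 204)) (nd (nat_lit 230) (nat_lit 0) (cs (lf (nat_lit 5) (nat_lit 205)) (nd (nat_lit 229) (nat_lit 0) (cs (lf (nat_lit 0) (nat_lit 204)) (nd (nat_lit 228) (nat_lit 0) (cs (lf (nat_lit 4) (nat_lit 227)) (rf (nat_lit 8)))))))))) (cs (nd (nat_lit 249) (nat_lit 0) (cs (rf (nat_lit 1)) (cs (rf (nat_lit 2)) (cs (rf (nat_lit 7))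 (nd (nat_lit 207) (nat_lit 0) (cs (lf (nat_lit 11) (nat_lit 204)) (rf (nat_lit 9)))))))) (nd (nat_lit 230) (nat_lit 0) (cs (rf (nat_lit 10)) (cs (rf (nat_lit 11)) (nd (nat_lit 228) (nat_lit 0) (cs (rf (nat_lit 12)) (cs (nd (nat_lit 250) (nat_lit 0) (cs (rf (nat_lit 13)) (cs (nd (nat_lit 183) (nat_lit 0) (cs (lf (nat_lit 24) (nat_lit 161)) (nd (nat_lit 182) (nat_lit 0) (cs (lf (nat_lit 19) (nat_lit 182)) (nd (nat_lit 180) (nat_lit 0) (cs (lf (nat_lit 1) (nat_lit 180)) (nd (nat_lit 249) (nat_lit 0) (cs (lf (nat_lit 47) (nat_lit 160)) (nd (nat_lit 271) (nat_lit 0) (cs (rf (nat_lit 14)) (lf (nat_lit 30) (nat_lit 205)))))))))))) (rf (nat_lit 15))))) (cs (nd (nat_lit 183) (nat_lit 0) (cs (rf (nat_lit 16)) (rf (nat_lit 17)))) (rf (nat_lit 18)))))))))))))) q26968 (by decide +kernel)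
def q27132 : Q := Q.p (nat_lit 0x6000004000000000000000000000000000000000000000000000) (nat_lit 0x200000e0000780001fe0001f0003bc001ff0007fc000f80002a00000000000000000000000) (nat_lit 14)
theorem c27132 : QOK q27132 := cut [q26887, q27025, q27030, q27031, q26981, q27007, q27066, q27067, q3968, q23811, q26654, q26861, q26928, q27079, q27084, q27121, q26997] ⟨c26887, c27025, c27030, c27031, c26981, c27007, c27066, c27067, c3968, c23811, c26654, c26861, c26928, c27079, c27084, c27121, c26997, trivial⟩ (nd (nat_lit 204) (nat_lit 0) (cs (rf (nat_lit 0)) (cs (nd (nat_lit 160) (nat_lit 0) (cs (rf (nat_lit 1)) (cs (rf (nat_lit 2)) (cs (nd (nat_lit 226) (nat_lit 0) (cs (nd (nat_lit 227) (nat_lit 0) (cs (lf (nat_lit 29) (nat_lit 160)) (rf (nat_lit 3)))) (cs (nd (nat_lit 137) (nat_lit 0) (cs (lf (nat_lit 46) (nat_lit 137)) (nd (nat_lit 247) (nat_lit 0) (cs (nd (nat_lit 139) (nat_lit 0) (cs (nd (nat_lit 248) (nat_lit 0) (cs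 (lf (nat_lit 41) (nat_lit 181)) (nd (nat_lit 270) (nat_lit 0) (cs (lf (nat_lit 35) (nat_lit 182)) (nd (nat_lit 271) (nat_lit 0) (cs (lf (nat_lit 29) (nat_lit 204)) (lf (nat_lit 28) (nat_lit 182)))))))) (lf (nat_lit 34) (nat_lit 138)))) (lf (nat_lit 40) (nat_lit 159)))))) (cs (nd (nat_lit 139) (nat_lit 0) (cs (lf (nat_lit 34) (nat_lit 138)) (nd (nat_lit 137) (nat_lit 0) (cs (lf (nat_lit 46) (nat_lit 137)) (nd (nat_lit 225) (nat_lit 0) (cs (lf (nat_lit 41) (nat_lit 159)) (rf (nat_lit 4)))))))) (nd (nat_lit 137) (nat_lit 0) (cs (lf (nat_lit 46) (nat_lit 137)) (nd (nat_lit 227) (nat_lit 0) (cs (lf (nat_lit 29) (nat_lit 160)) (nd (nat_lit 161) (nat_lit 0) (cs (lf (nat_lit 35) (nat_lit 138)) (nd (nat_lit 183) (nat_lit 0) (cs (lf (nat_lit 30) (nat_lit 160)) (nd (nat_lit 180) (nat_lit 0) (cs (lf (nat_lit 1) (nat_lit 180)) (rf (nat_lit 5)))))))))))))))) (cs (rf (nat_lit 6)) (rf (nat_lit 7))))))) (cs (nd (nat_lit 203)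 (nat_lit 0) (cs (rf (nat_lit 8)) (cs (rf (nat_lit 9)) (cs (rf (nat_lit 10)) (nd (nat_lit 181) (nat_lit 0) (cs (rf (nat_lit 11)) (nd (nat_lit 225) (nat_lit 0) (cs (lf (nat_lit 11) (nat_lit 202)) (nd (nat_lit 184) (nat_lit 0) (cs (lf (nat_lit 17) (nat_lit 181)) (nd (nat_lit 247) (nat_lit 0) (cs (lf (nat_lit 30) (nat_lit 181)) (nd (nat_lit 248) (nat_lit 0) (cs (lf (nat_lit 29) (nat_lit 181)) (nd (nat_lit 159) (nat_lit 0) (cs (lf (nat_lit 28) (nat_lit 159)) (nd (nat_lit 158) (nat_lit 0) (cs (lf (nat_lit 47) (nat_lit 136)) (lf (nat_lit 19) (nat_lit 158)))))))))))))))))))) (cs (nd (nat_lit 203) (nat_lit 0) (cs (rf (nat_lit 10)) (cs (rf (nat_lit 12)) (cs (nd (nat_lit 184) (nat_lit 0) (cs (lf (nat_lit 17) (nat_lit 181)) (nd (nat_lit 202) (nat_lit 0) (cs (lf (nat_lit 16) (nat_lit 180)) (nd (nat_lit 227) (nat_lit 0) (cs (lf (nat_lit 5) (nat_lit 202)) (rf (nat_lit 13)))))))) (nd (nat_lit 184) (nat_lit 0) (cs (lf (nat_lit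 17) (nat_lit 181)) (rf (nat_lit 14)))))))) (cs (rf (nat_lit 15)) (cs (nd (nat_lit 203) (nat_lit 0) (cs (rf (nat_lit 10)) (cs (rf (nat_lit 14)) (nd (nat_lit 184) (nat_lit 0) (cs (lf (nat_lit 17) (nat_lit 181)) (nd (nat_lit 202) (nat_lit 0) (cs (lf (nat_lit 16) (nat_lit 180)) (nd (nat_lit 227) (nat_lit 0) (cs (lf (nat_lit 5) (nat_lit 202)) (nd (nat_lit 201) (nat_lit 0) (cs (lf (nat_lit 4) (nat_lit 201)) (nd (nat_lit 222) (nat_lit 0) (cs (nd (nat_lit 200) (nat_lit 0) (cs (lf (nat_lit 16) (nat_lit 178)) (lf (nat_lit 11) (nat_lit 199)))) (lf (nat_lit 10) (nat_lit 200))))))))))))))) (nd (nat_lit 203) (nat_lit 0) (cs (rf (nat_lit 8)) (cs (rf (nat_lit 16)) (rf (nat_lit 14)))))))))))) q27132 (by decide +kernel)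
def q27255 : Q := Q.p (nat_lit 0x6000018000000000000000000000000000000000000000000000) (nat_lit 0x60000180000700001c000270000fe0007e0001f80000000000000000000000000000) (nat_lit 11)
theorem c27255 : QOK q27255 := cut [q27198, q27213, q18005, q27199, q27180] ⟨c27198, c27213, c18005, c27199, c27180, trivial⟩ (nd (nat_lit 182) (nat_lit 0) (cs (rf (nat_lit 0)) (cs (rf (nat_lit 1)) (cs (nd (nat_lit 204) (nat_lit 0) (cs (rf (nat_lit 2)) (cs (rf (nat_lit 3)) (nd (nat_lit 160) (nat_lit 0) (cs (rf (nat_lit 4)) (cs (nd (nat_lit 116) (nat_lit 0) (cs (lf (nat_lit 25) (nat_lit 116)) (nd (nat_lit 159) (nat_lit 0) (cs (lf (nat_lit 18) (nat_lit 159)) (nd (nat_lit 157) (nat_lit 0) (cs (lf (nat_lit 1) (nat_lit 157)) (nd (nat_lit 226) (nat_lit 0) (cs (lf (nat_lit 47) (nat_lit 137)) (nd (nat_lit 247) (nat_lit 0) (cs (lf (nat_lit 40) (nat_lit 159)) (nd (nat_lit 248) (nat_lit 0) (cs (lf (nat_lit 30) (nat_lit 182)) (lf (nat_lit 41)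 (nat_lit 181)))))))))))))) (nd (nat_lit 138) (nat_lit 0) (cs (lf (nat_lit 24) (nat_lit 116)) (nd (nat_lit 115) (nat_lit 0) (cs (lf (nat_lit 46) (nat_lit 115)) (nd (nat_lit 139) (nat_lit 0) (cs (lf (nat_lit 35) (nat_lit 116)) (nd (nat_lit 161) (nat_lit 0) (cs (lf (nat_lit 41) (nat_lit 138)) (nd (nat_lit 140) (nat_lit 0) (cs (lf (nat_lit 35) (nat_lit 117)) (nd (nat_lit 141) (nat_lit 0) (cs (lf (nat_lit 6) (nat_lit 138)) (nd (nat_lit 119) (nat_lit 0) (cs (lf (nat_lit 32) (nat_lit 118)) (lf (nat_lit 17) (nat_lit 116)))))))))))))))))))))) (cs (nd (nat_lit 181) (nat_lit 0) (cs (lf (nat_lit 0) (nat_lit 180)) (nd (nat_lit 162) (nat_lit 0) (cs (lf (nat_lit 17) (nat_lit 159)) (nd (nat_lit 140) (nat_lit 0) (cs (lf (nat_lit 36) (nat_lit 117)) (nd (nat_lit 141) (nat_lit 0) (cs (lf (nat_lit 35) (nat_lit 118)) (nd (nat_lit 117) (nat_lit 0) (cs (lf (nat_lit 46) (nat_lit 117)) (nd (nat_lit 159) (nat_lit 0) (cs (lf (nat_lit 23)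 (nat_lit 158)) (nd (nat_lit 160) (nat_lit 0) (cs (lf (nat_lit 18) (nat_lit 159)) (lf (nat_lit 14) (nat_lit 137)))))))))))))))) (nd (nat_lit 181) (nat_lit 0) (cs (lf (nat_lit 0) (nat_lit 180)) (nd (nat_lit 162) (nat_lit 0) (cs (lf (nat_lit 17) (nat_lit 159)) (nd (nat_lit 118) (nat_lit 0) (cs (lf (nat_lit 37) (nat_lit 117)) (nd (nat_lit 159) (nat_lit 0) (cs (lf (nat_lit 23) (nat_lit 158)) (nd (nat_lit 203) (nat_lit 0) (cs (lf (nat_lit 11) (nat_lit 180)) (nd (nat_lit 204) (nat_lit 0) (cs (lf (nat_lit 6) (nat_lit 181)) (nd (nat_lit 226) (nat_lit 0) (cs (lf (nat_lit 24) (nat_lit 137)) (lf (nat_lit 42) (nat_lit 159))))))))))))))))))))) q27255 (by decide +kernel)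
def q27405 : Q := Q.p (nat_lit 0x800002000000000014000010000000000000000000000000000000000000000000000) (nat_lit 0x1780001e00007a0002380002e0007f8001fe0003f8000380000e000020000000000000) (nat_lit 16)
theorem c27405 : QOK q27405 := cut [q27348, q23944, q27351, q27358, q2497, q27346, q27347, q27362, q27366, q27377, q27380, q8563, q18054, q24037, q24043, q24057, q17817, q24998, q18625, q27403] ⟨c27348, c23944, c27351, c27358, c2497, c27346, c27347, c27362, c27366, c27377, c27380, c8563, c18054, c24037, c24043, c24057, c17817, c24998, c18625, c27403, trivial⟩ (nd (nat_lit 162) (nat_lit 0) (cs (rf (nat_lit 0)) (cs (nd (nat_lit 228) (nat_lit 0) (cs (rf (nat_lit 1)) (cs (rf (nat_lit 2)) (rf (nat_lit 3))))) (cs (nd (nat_lit 140) (nat_lit 0) (cs (rf (nat_lit 4)) (cs (rf (nat_lit 5)) (cs (rf (nat_lit 6)) (nd (nat_lit 141) (nat_lit 0) (cs (lf (nat_lit 35) (nat_lit 118)) (nd (nat_lit 160) (nat_lit 0) (cs (rf (nat_lit 7))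 (cs (rf (nat_lit 8)) (cs (rf (nat_lit 9)) (rf (nat_lit 10)))))))))))) (cs (nd (nat_lit 228) (nat_lit 0) (cs (rf (nat_lit 11)) (cs (rf (nat_lit 12)) (rf (nat_lit 1))))) (cs (nd (nat_lit 140) (nat_lit 0) (cs (rf (nat_lit 13)) (cs (rf (nat_lit 14)) (cs (rf (nat_lit 15)) (cs (nd (nat_lit 119) (nat_lit 0) (cs (lf (nat_lit 34) (nat_lit 118)) (nd (nat_lit 118) (nat_lit 0) (cs (lf (nat_lit 35) (nat_lit 96)) (nd (nat_lit 183) (nat_lit 0) (cs (lf (nat_lit 41) (nat_lit 117)) (rf (nat_lit 16)))))))) (nd (nat_lit 117) (nat_lit 0) (cs (lf (nat_lit 46) (nat_lit 117)) (nd (nat_lit 118) (nat_lit 0) (cs (lf (nat_lit 47) (nat_lit 95)) (nd (nat_lit 183) (nat_lit 0) (cs (lf (nat_lit 41) (nat_lit 117)) (nd (nat_lit 96) (nat_lit 0) (cs (lf (nat_lit 40) (nat_lit 95)) (nd (nat_lit 75) (nat_lit 0) (cs (lf (nat_lit 34) (nat_lit 74)) (nd (nat_lit 53) (nat_lit 0) (cs (nd (nat_lit 163) (nat_lit 0) (cs (nd (nat_lit 181) (nat_lit 0) (cs (lf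 (nat_lit 13) (nat_lit 159)) (nd (nat_lit 228) (nat_lit 0) (cs (lf (nat_lit 35) (nat_lit 140)) (rf (nat_lit 17)))))) (lf (nat_lit 29) (nat_lit 96)))) (lf (nat_lit 33) (nat_lit 52))))))))))))))))))) (nd (nat_lit 228) (nat_lit 0) (cs (rf (nat_lit 18)) (cs (rf (nat_lit 1)) (rf (nat_lit 19))))))))))) q27405 (by decide +kernel)
def q27449 : Q := Q.p (nat_lit 0x100001c000010000000000000000000000000000000000000000000000) (nat_lit 0x1c000060000600001a00007e0001f80001e00002800000000000000000000000) (nat_lit 11)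
theorem c27449 : QOK q27449 := cut [q864, q23567, q23941, q875] ⟨c864, c23567, c23941, c875, trivial⟩ (nd (nat_lit 162) (nat_lit 0) (cs (rf (nat_lit 0)) (cs (rf (nat_lit 1)) (cs (rf (nat_lit 2)) (nd (nat_lit 139) (nat_lit 0) (cs (lf (nat_lit 46) (nat_lit 139)) (nd (nat_lit 229) (nat_lit 0) (cs (lf (nat_lit 29) (nat_lit 162)) (nd (nat_lit 209) (nat_lit 0) (cs (lf (nat_lit 6) (nat_lit 206)) (nd (nat_lit 187) (nat_lit 0) (cs (lf (nat_lit 17) (nat_lit 184)) (nd (nat_lit 163) (nat_lit 0) (cs (lf (nat_lit 35) (nat_lit 140)) (nd (nat_lit 185) (nat_lit 0) (cs (rf (nat_lit 3)) (lf (nat_lit 30) (nat_lit 162)))))))))))))))))) q27449 (by decide +kernel)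
def q27497 : Q := Q.p (nat_lit 0x800002000000000014000010000000000000000000000000000000000000000000000) (nat_lit 0x800017c0001f00007f0002bc0000f0003fc000ff0000fc000380000a000000000000000000) (nat_lit 16)
theorem c27497 : QOK q27497 := cut [q13616, q18528, q23906, q23944, q27351, q17813, q17830, q27460, q17828, q27472, q2497, q17819, q1279, q1288, q1273, q8563, q18625, q23603, q23725, q23798, q2478, q18959, q18975, q18979, q27340, q18963, q20529, q27164] ⟨c13616, c18528, c23906, c23944, c27351, c17813, c17830, c27460, c17828, c27472, c2497, c17819, c1279, c1288, c1273, c8563, c18625, c23603, c23725, c23798, c2478, c18959, c18975, c18979, c27340, c18963, c20529, c27164, trivial⟩ (nd (nat_lit 183) (nat_lit 0) (cs (rf (nat_lit 0)) (cs (nd (nat_lit 162) (nat_lit 0) (cs (nd (nat_lit 207) (nat_lit 0) (cs (lf (nat_lit 18) (nat_lit 183)) (nd (nat_lit 181) (nat_lit 0) (cs (lf (nat_lit 1) (nat_lit 181)) (nd (nat_lit 140)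 (nat_lit 0) (cs (lf (nat_lit 29) (nat_lit 140)) (rf (nat_lit 1)))))))) (cs (nd (nat_lit 228) (nat_lit 0) (cs (rf (nat_lit 2)) (cs (rf (nat_lit 3)) (rf (nat_lit 4))))) (cs (nd (nat_lit 207) (nat_lit 0) (cs (lf (nat_lit 18) (nat_lit 183)) (nd (nat_lit 181) (nat_lit 0) (cs (lf (nat_lit 1) (nat_lit 181)) (nd (nat_lit 140) (nat_lit 0) (cs (lf (nat_lit 29) (nat_lit 140)) (rf (nat_lit 5)))))))) (cs (nd (nat_lit 139) (nat_lit 0) (cs (rf (nat_lit 6)) (cs (rf (nat_lit 7)) (nd (nat_lit 207) (nat_lit 0) (cs (lf (nat_lit 18) (nat_lit 183)) (nd (nat_lit 181) (nat_lit 0) (cs (lf (nat_lit 1) (nat_lit 181)) (rf (nat_lit 8))))))))) (cs (nd (nat_lit 207) (nat_lit 0) (cs (lf (nat_lit 18) (nat_lit 183)) (nd (nat_lit 181) (nat_lit 0) (cs (lf (nat_lit 1) (nat_lit 181)) (nd (nat_lit 140) (nat_lit 0) (cs (lf (nat_lit 29) (nat_lit 140)) (nd (nat_lit 117) (nat_lit 0) (cs (lf (nat_lit 46) (nat_lit 117)) (nd (nat_lit 118) (nat_lit 0) (cs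 (lf (nat_lit 47) (nat_lit 95)) (rf (nat_lit 9)))))))))))) (nd (nat_lit 140) (nat_lit 0) (cs (rf (nat_lit 10)) (cs (rf (nat_lit 5)) (cs (nd (nat_lit 139) (nat_lit 0) (cs (lf (nat_lit 47) (nat_lit 117)) (rf (nat_lit 7)))) (nd (nat_lit 207) (nat_lit 0) (cs (lf (nat_lit 29) (nat_lit 140)) (nd (nat_lit 181) (nat_lit 0) (cs (lf (nat_lit 1) (nat_lit 181)) (rf (nat_lit 11)))))))))))))))) (cs (nd (nat_lit 228) (nat_lit 0) (cs (rf (nat_lit 12)) (cs (rf (nat_lit 13)) (cs (nd (nat_lit 162) (nat_lit 0) (cs (rf (nat_lit 14)) (cs (rf (nat_lit 15)) (cs (rf (nat_lit 16)) (rf (nat_lit 4)))))) (nd (nat_lit 250) (nat_lit 0) (cs (rf (nat_lit 17)) (cs (rf (nat_lit 18)) (cs (nd (nat_lit 249) (nat_lit 0) (cs (lf (nat_lit 41) (nat_lit 183)) (nd (nat_lit 162) (nat_lit 0) (cs (lf (nat_lit 40) (nat_lit 161)) (nd (nat_lit 141) (nat_lit 0) (cs (lf (nat_lit 34) (nat_lit 140)) (nd (nat_lit 119) (nat_lit 0) (cs (lf (nat_lit 33) (nat_lit 118))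 (nd (nat_lit 272) (nat_lit 0) (cs (lf (nat_lit 46) (nat_lit 183)) (rf (nat_lit 19)))))))))))) (nd (nat_lit 205) (nat_lit 0) (cs (lf (nat_lit 42) (nat_lit 183)) (nd (nat_lit 249) (nat_lit 0) (cs (lf (nat_lit 41) (nat_lit 183)) (nd (nat_lit 162) (nat_lit 0) (cs (lf (nat_lit 40) (nat_lit 161)) (nd (nat_lit 229) (nat_lit 0) (cs (lf (nat_lit 29) (nat_lit 162)) (nd (nat_lit 140) (nat_lit 0) (cs (lf (nat_lit 36) (nat_lit 117)) (rf (nat_lit 20)))))))))))))))))))) (nd (nat_lit 205) (nat_lit 0) (cs (rf (nat_lit 21)) (cs (rf (nat_lit 22)) (cs (rf (nat_lit 23)) (cs (rf (nat_lit 24)) (nd (nat_lit 227) (nat_lit 0) (cs (rf (nat_lit 25)) (cs (rf (nat_lit 26)) (rf (nat_lit 27)))))))))))))) q27497 (by decide +kernel)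
def q27546 : Q := Q.p (nat_lit 0x800002000000000014000010000000000000000000000000000000000000000000000) (nat_lit 0xa0001780001fc0007f0000be0002e0007f8001fe0000e00002800000000000000000000000) (nat_lit 12)
theorem c27546 : QOK q27546 := cut [q27416, q3386, q23603, q23725, q2659, q27512, q27525, q1273, q23088, q17164, q8563, q18625, q27358, q14145, q18054, q27348, q27412] ⟨c27416, c3386, c23603, c23725, c2659, c27512, c27525, c1273, c23088, c17164, c8563, c18625, c27358, c14145, c18054, c27348, c27412, trivial⟩ (nd (nat_lit 228) (nat_lit 0) (cs (rf (nat_lit 0)) (cs (nd (nat_lit 250) (nat_lit 0) (cs (rf (nat_lit 1)) (cs (rf (nat_lit 2)) (rf (nat_lit 3))))) (cs (nd (nat_lit 227) (nat_lit 0) (cs (rf (nat_lit 4)) (cs (nd (nat_lit 226) (nat_lit 0) (cs (rf (nat_lit 5)) (cs (nd (nat_lit 207) (nat_lit 0) (cs (lf (nat_lit 15) (nat_lit 204)) (lf (nat_lit 12) (nat_lit 203)))) (cs (nd (nat_lit 207) (nat_lit 0) (cs (lf (nat_lit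 15) (nat_lit 204)) (lf (nat_lit 9) (nat_lit 204)))) (nd (nat_lit 203) (nat_lit 0) (cs (nd (nat_lit 225) (nat_lit 0) (cs (lf (nat_lit 23) (nat_lit 202)) (nd (nat_lit 205) (nat_lit 0) (cs (lf (nat_lit 12) (nat_lit 202)) (nd (nat_lit 249) (nat_lit 0) (cs (lf (nat_lit 30) (nat_lit 183)) (nd (nat_lit 247) (nat_lit 0) (cs (lf (nat_lit 11) (nat_lit 224)) (nd (nat_lit 229) (nat_lit 0) (cs (lf (nat_lit 10) (nat_lit 225)) (nd (nat_lit 252) (nat_lit 0) (cs (lf (nat_lit 3) (nat_lit 227)) (lf (nat_lit 4) (nat_lit 226)))))))))))))) (cs (nd (nat_lit 204) (nat_lit 0) (cs (lf (nat_lit 18) (nat_lit 203)) (nd (nat_lit 205) (nat_lit 0) (cs (lf (nat_lit 17) (nat_lit 181)) (lf (nat_lit 0) (nat_lit 202)))))) (cs (nd (nat_lit 204) (nat_lit 0) (cs (lf (nat_lit 18) (nat_lit 203)) (nd (nat_lit 185) (nat_lit 0) (cs (lf (nat_lit 14) (nat_lit 181)) (nd (nat_lit 182) (nat_lit 0) (cs (nd (nat_lit 160) (nat_lit 0) (cs (lf (nat_lit 29) (nat_lit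 160)) (rf (nat_lit 6)))) (lf (nat_lit 8) (nat_lit 181)))))))) (cs (nd (nat_lit 202) (nat_lit 0) (cs (lf (nat_lit 21) (nat_lit 202)) (nd (nat_lit 204) (nat_lit 0) (cs (lf (nat_lit 0) (nat_lit 201)) (lf (nat_lit 18) (nat_lit 203)))))) (nd (nat_lit 202) (nat_lit 0) (cs (lf (nat_lit 21) (nat_lit 202)) (nd (nat_lit 204) (nat_lit 0) (cs (lf (nat_lit 0) (nat_lit 201)) (lf (nat_lit 3) (nat_lit 202))))))))))))))) (nd (nat_lit 162) (nat_lit 0) (cs (rf (nat_lit 7)) (nd (nat_lit 229) (nat_lit 0) (cs (lf (nat_lit 29) (nat_lit 162)) (nd (nat_lit 226) (nat_lit 0) (cs (lf (nat_lit 16) (nat_lit 204)) (nd (nat_lit 230) (nat_lit 0) (cs (lf (nat_lit 4) (nat_lit 227)) (rf (nat_lit 8))))))))))))) (cs (nd (nat_lit 250) (nat_lit 0) (cs (rf (nat_lit 9)) (rf (nat_lit 2)))) (cs (nd (nat_lit 162) (nat_lit 0) (cs (rf (nat_lit 10)) (cs (rf (nat_lit 11)) (rf (nat_lit 12))))) (cs (nd (nat_lit 250) (nat_lit 0) (cs (rf (nat_lit 13)) (cs (rf (nat_lit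 2)) (rf (nat_lit 3))))) (nd (nat_lit 162) (nat_lit 0) (cs (rf (nat_lit 14)) (cs (rf (nat_lit 15)) (cs (rf (nat_lit 12)) (rf (nat_lit 16))))))))))))) q27546 (by decide +kernel)
def q27630 : Q := Q.p (nat_lit 0x1000014000010000000000000000000000000000000000000000000000) (nat_lit 0x80000200002bc0002f0003fc000ff0000f80003e00002000000000000000000) (nat_lit 12)
theorem c27630 : QOK q27630 := cut [q13616, q864, q23567, q23910, q24117, q1273, q862, q17913, q23943, q12112, q5208, q27607, q27611, q17811, q27624] ⟨c13616, c864, c23567, c23910, c24117, c1273, c862, c17913, c23943, c12112, c5208, c27607, c27611, c17811, c27624, trivial⟩ (nd (nat_lit 183) (nat_lit 0) (cs (rf (nat_lit 0)) (cs (nd (nat_lit 207) (nat_lit 0) (cs (lf (nat_lit 18) (nat_lit 183)) (nd (nat_lit 162) (nat_lit 0) (cs (rf (nat_lit 1)) (cs (rf (nat_lit 2)) (cs (rf (nat_lit 3)) (rf (nat_lit 4)))))))) (nd (nat_lit 162) (nat_lit 0) (cs (rf (nat_lit 5)) (cs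 (nd (nat_lit 229) (nat_lit 0) (cs (lf (nat_lit 29) (nat_lit 162)) (nd (nat_lit 141) (nat_lit 0) (cs (lf (nat_lit 34) (nat_lit 140)) (nd (nat_lit 140) (nat_lit 0) (cs (lf (nat_lit 35) (nat_lit 118)) (nd (nat_lit 118) (nat_lit 0) (cs (rf (nat_lit 6)) (lf (nat_lit 41) (nat_lit 117)))))))))) (cs (nd (nat_lit 229) (nat_lit 0) (cs (lf (nat_lit 29) (nat_lit 162)) (rf (nat_lit 7)))) (cs (nd (nat_lit 161) (nat_lit 0) (cs (rf (nat_lit 8)) (nd (nat_lit 182) (nat_lit 0) (cs (rf (nat_lit 9)) (cs (nd (nat_lit 160) (nat_lit 0) (cs (rf (nat_lit 10)) (nd (nat_lit 229) (nat_lit 0) (cs (lf (nat_lit 29) (nat_lit 162)) (rf (nat_lit 11)))))) (nd (nat_lit 181) (nat_lit 0) (cs (nd (nat_lit 229) (nat_lit 0) (cs (lf (nat_lit 29) (nat_lit 162)) (nd (nat_lit 202) (nat_lit 0) (cs (lf (nat_lit 10) (nat_lit 180)) (nd (nat_lit 159) (nat_lit 0) (cs (lf (nat_lit 23) (nat_lit 158)) (nd (nat_lit 160) (nat_lit 0) (cs (lf (nat_lit 5) (nat_lit 159))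 (rf (nat_lit 12)))))))))) (lf (nat_lit 12) (nat_lit 158))))))))) (cs (nd (nat_lit 229) (nat_lit 0) (cs (lf (nat_lit 29) (nat_lit 162)) (nd (nat_lit 141) (nat_lit 0) (cs (lf (nat_lit 34) (nat_lit 140)) (nd (nat_lit 140) (nat_lit 0) (cs (lf (nat_lit 35) (nat_lit 118)) (nd (nat_lit 118) (nat_lit 0) (cs (lf (nat_lit 41) (nat_lit 117)) (rf (nat_lit 13)))))))))) (nd (nat_lit 139) (nat_lit 0) (cs (lf (nat_lit 46) (nat_lit 139)) (nd (nat_lit 229) (nat_lit 0) (cs (lf (nat_lit 29) (nat_lit 162)) (nd (nat_lit 163) (nat_lit 0) (cs (lf (nat_lit 35) (nat_lit 140)) (nd (nat_lit 164) (nat_lit 0) (cs (lf (nat_lit 6) (nat_lit 161)) (rf (nat_lit 14))))))))))))))))))) q27630 (by decide +kernel)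
def q27671 : Q := Q.p (nat_lit 0x800002000001000014000000000000000000000000000000000000000000000000000) (nat_lit 0x80000e000038000ee00017e0001f8001a00006a0001b80000e0000380000a00000000000000000000000000000) (nat_lit 13)
theorem c27671 : QOK q27671 := cut [q24654, q26269, q27635, q26193, q26555, q27639, q3767, q17164, q27415, q6086, q18590, q2085] ⟨c24654, c26269, c27635, c26193, c26555, c27639, c3767, c17164, c27415, c6086, c18590, c2085, trivial⟩ (nd (nat_lit 250) (nat_lit 0) (cs (rf (nat_lit 0)) (cs (rf (nat_lit 1)) (cs (rf (nat_lit 2)) (cs (nd (nat_lit 272) (nat_lit 0) (cs (rf (nat_lit 3)) (cs (rf (nat_lit 4)) (cs (nd (nat_lit 183) (nat_lit 0) (cs (lf (nat_lit 46) (nat_lit 183)) (nd (nat_lit 271) (nat_lit 0) (cs (lf (nat_lit 41) (nat_lit 205)) (nd (nat_lit 251) (nat_lit 0) (cs (lf (nat_lit 7) (nat_lit 249)) (nd (nat_lit 269) (nat_lit 0) (cs (lf (nat_lit 13) (nat_lit 247)) (nd (nat_lit 207) (nat_lit 0) (cs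 (lf (nat_lit 35) (nat_lit 184)) (rf (nat_lit 5)))))))))))) (nd (nat_lit 183) (nat_lit 0) (cs (lf (nat_lit 46) (nat_lit 183)) (nd (nat_lit 207) (nat_lit 0) (cs (lf (nat_lit 35) (nat_lit 184)) (nd (nat_lit 271) (nat_lit 0) (cs (lf (nat_lit 41) (nat_lit 205)) (nd (nat_lit 229) (nat_lit 0) (cs (lf (nat_lit 30) (nat_lit 206)) (nd (nat_lit 209) (nat_lit 0) (cs (lf (nat_lit 6) (nat_lit 206)) (nd (nat_lit 187) (nat_lit 0) (cs (lf (nat_lit 17) (nat_lit 184)) (nd (nat_lit 231) (nat_lit 0) (cs (lf (nat_lit 5) (nat_lit 206)) (nd (nat_lit 252) (nat_lit 0) (cs (lf (nat_lit 41) (nat_lit 186)) (lf (nat_lit 8) (nat_lit 249)))))))))))))))))))))) (cs (nd (nat_lit 184) (nat_lit 0) (cs (rf (nat_lit 6)) (cs (rf (nat_lit 7)) (cs (rf (nat_lit 8)) (cs (nd (nat_lit 249) (nat_lit 0) (cs (lf (nat_lit 41) (nat_lit 183)) (nd (nat_lit 161) (nat_lit 0) (cs (lf (nat_lit 46) (nat_lit 161)) (nd (nat_lit 162) (nat_lit 0) (cs (lf (nat_lit 47) (nat_lit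 139)) (nd (nat_lit 229) (nat_lit 0) (cs (lf (nat_lit 29) (nat_lit 162)) (nd (nat_lit 247) (nat_lit 0) (cs (lf (nat_lit 13) (nat_lit 225)) (nd (nat_lit 207) (nat_lit 0) (cs (lf (nat_lit 24) (nat_lit 140)) (rf (nat_lit 9)))))))))))))) (cs (nd (nat_lit 249) (nat_lit 0) (cs (lf (nat_lit 41) (nat_lit 183)) (nd (nat_lit 161) (nat_lit 0) (cs (lf (nat_lit 46) (nat_lit 161)) (rf (nat_lit 10)))))) (nd (nat_lit 163) (nat_lit 0) (cs (lf (nat_lit 34) (nat_lit 162)) (nd (nat_lit 249) (nat_lit 0) (cs (lf (nat_lit 41) (nat_lit 183)) (nd (nat_lit 162) (nat_lit 0) (cs (lf (nat_lit 35) (nat_lit 140)) (nd (nat_lit 229) (nat_lit 0) (cs (lf (nat_lit 29) (nat_lit 162)) (nd (nat_lit 247) (nat_lit 0) (cs (lf (nat_lit 13) (nat_lit 225)) (nd (nat_lit 207) (nat_lit 0) (cs (lf (nat_lit 24) (nat_lit 140)) (nd (nat_lit 209) (nat_lit 0) (cs (lf (nat_lit 23) (nat_lit 183)) (lf (nat_lit 6) (nat_lit 206)))))))))))))))))))))) (nd (nat_lit 272)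 (nat_lit 0) (cs (rf (nat_lit 11)) (rf (nat_lit 4)))))))))) q27671 (by decide +kernel)
def q27675 : Q := Q.p (nat_lit 0x80000200000100001c000000000000000000000000000000000000000000000000000) (nat_lit 0x400001500001c0007a0000e00007a0000080000200000000000000000000000000000000000) (nat_lit 7)
theorem c27675 : QOK q27675 := cut [q22828, q25073, q1496, q1099, q27674] ⟨c22828, c25073, c1496, c1099, c27674, trivial⟩ (nd (nat_lit 209) (nat_lit 0) (cs (rf (nat_lit 0)) (cs (rf (nat_lit 1)) (cs (nd (nat_lit 250) (nat_lit 0) (cs (rf (nat_lit 2)) (nd (nat_lit 187) (nat_lit 0) (cs (lf (nat_lit 17) (nat_lit 184)) (nd (nat_lit 231) (nat_lit 0) (cs (lf (nat_lit 5) (nat_lit 206)) (nd (nat_lit 252) (nat_lit 0) (cs (lf (nat_lit 41) (nat_lit 186)) (rf (nat_lit 3)))))))))) (rf (nat_lit 4)))))) q27675 (by decide +kernel)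
def q27749 : Q := Q.p (nat_lit 0x800002000001000014000000000000000000000000000000000000000000000000000) (nat_lit 0x200000f00017f0001fc0002f0002bc0001e0000f00003c0000a00000000000000000000000000000) (nat_lit 12)
theorem c27749 : QOK q27749 := cut [q18583, q21548, q2659, q23603, q6789, q1273, q27412, q27422, q3917, q23605, q27688, q26606, q26462, q27687, q14766, q23781, q26524, q26956, q27743] ⟨c18583, c21548, c2659, c23603, c6789, c1273, c27412, c27422, c3917, c23605, c27688, c26606, c26462, c27687, c14766, c23781, c26524, c26956, c27743, trivial⟩ (nd (nat_lit 227) (nat_lit 0) (cs (rf (nat_lit 0)) (cs (rf (nat_lit 1)) (cs (nd (nat_lit 184) (nat_lit 0) (cs (rf (nat_lit 2)) (cs (nd (nat_lit 250) (nat_lit 0) (cs (rf (nat_lit 3)) (nd (nat_lit 207) (nat_lit 0) (cs (lf (nat_lit 6) (nat_lit 205)) (nd (nat_lit 249) (nat_lit 0) (cs (lf (nat_lit 41) (nat_lit 183)) (nd (nat_lit 183) (nat_lit 0) (cs (lf (nat_lit 47) (nat_lit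 161)) (rf (nat_lit 4)))))))))) (nd (nat_lit 162) (nat_lit 0) (cs (rf (nat_lit 5)) (cs (rf (nat_lit 6)) (rf (nat_lit 7)))))))) (nd (nat_lit 249) (nat_lit 0) (cs (rf (nat_lit 8)) (cs (nd (nat_lit 184) (nat_lit 0) (cs (lf (nat_lit 36) (nat_lit 161)) (nd (nat_lit 271) (nat_lit 0) (cs (lf (nat_lit 30) (nat_lit 205)) (lf (nat_lit 33) (nat_lit 183)))))) (cs (nd (nat_lit 250) (nat_lit 0) (cs (rf (nat_lit 9)) (cs (nd (nat_lit 184) (nat_lit 0) (cs (lf (nat_lit 36) (nat_lit 161)) (nd (nat_lit 183) (nat_lit 0) (cs (lf (nat_lit 47) (nat_lit 161)) (nd (nat_lit 205) (nat_lit 0) (cs (lf (nat_lit 29) (nat_lit 183)) (nd (nat_lit 160) (nat_lit 0) (cs (lf (nat_lit 46) (nat_lit 160)) (rf (nat_lit 10)))))))))) (cs (nd (nat_lit 251) (nat_lit 0) (cs (lf (nat_lit 19) (nat_lit 227)) (nd (nat_lit 225) (nat_lit 0) (cs (lf (nat_lit 1) (nat_lit 225)) (nd (nat_lit 184) (nat_lit 0) (cs (lf (nat_lit 29) (nat_lit 184)) (nd (nat_lit 183) (nat_lit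 0) (cs (lf (nat_lit 47) (nat_lit 161)) (nd (nat_lit 205) (nat_lit 0) (cs (lf (nat_lit 42) (nat_lit 183)) (nd (nat_lit 160) (nat_lit 0) (cs (lf (nat_lit 46) (nat_lit 160)) (rf (nat_lit 11)))))))))))))) (nd (nat_lit 248) (nat_lit 0) (cs (rf (nat_lit 12)) (cs (rf (nat_lit 13)) (nd (nat_lit 251) (nat_lit 0) (cs (lf (nat_lit 19) (nat_lit 227)) (nd (nat_lit 273) (nat_lit 0) (cs (rf (nat_lit 14)) (lf (nat_lit 5) (nat_lit 248))))))))))))) (nd (nat_lit 271) (nat_lit 0) (cs (lf (nat_lit 30) (nat_lit 205)) (nd (nat_lit 205) (nat_lit 0) (cs (rf (nat_lit 15)) (cs (rf (nat_lit 16)) (cs (rf (nat_lit 17)) (nd (nat_lit 272) (nat_lit 0) (cs (lf (nat_lit 29) (nat_lit 205)) (nd (nat_lit 270) (nat_lit 0) (cs (lf (nat_lit 41) (nat_lit 204)) (rf (nat_lit 18)))))))))))))))))))) q27749 (by decide +kernel)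
def q28045 : Q := Q.p (nat_lit 0x1c0000000000200000800000000000000000000000000000000000000000000000000000000000000000000) (nat_lit 0x1ce000230003e60000100000000000000000000000000000000000000000000000000000000000000000000000000) (nat_lit 8)
theorem c28045 : QOK q28045 := cut [q28039, q28042, q28044] ⟨c28039, c28042, c28044, trivial⟩ (nd (nat_lit 323) (nat_lit 0) (cs (nd (nat_lit 345) (nat_lit 0) (cs (lf (nat_lit 17) (nat_lit 320)) (rf (nat_lit 0)))) (cs (rf (nat_lit 1)) (rf (nat_lit 2))))) q28045 (by decide +kernel)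
def q28407 : Q := Q.p (nat_lit 0x1c0000000000200000800000000000000000000000000000000000000000000000000000000000000000000) (nat_lit 0x38e000e30007f60000100000000000000000000000000000000000000000000000000000000000000000000000000) (nat_lit 7)
theorem c28407 : QOK q28407 := cut [q28334, q28400, q28401, q28406] ⟨c28334, c28400, c28401, c28406, trivial⟩ (nd (nat_lit 345) (nat_lit 0) (cs (rf (nat_lit 0)) (cs (rf (nat_lit 1)) (cs (nd (nat_lit 368) (nat_lit 0) (cs (lf (nat_lit 4) (nat_lit 342)) (nd (nat_lit 346) (nat_lit 0) (cs (lf (nat_lit 5) (nat_lit 343)) (nd (nat_lit 321) (nat_lit 0) (cs (lf (nat_lit 23) (nat_lit 320)) (nd (nat_lit 322) (nat_lit 0) (cs (lf (nat_lit 18) (nat_lit 321)) (rf (nat_lit 2)))))))))) (rf (nat_lit 3)))))) q28407 (by decide +kernel)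
def q28531 : Q := Q.p (nat_lit 0x1c0000000000200000800000000000000000000000000000000000000000000000000000000000000000000) (nat_lit 0x200003c0001fe0003f0003ee00063800077c003de000f3c0038000020000000000000000000000000000000000000000000000000000000000) (nat_lit 13)
theorem c28531 : QOK q28531 := cut [q28312, q28411, q28419, q28409, q28459, q28461, q28465, q28474, q28477, q28478, q28485, q28490, q28514, q28515, q28528, q28530] ⟨c28312, c28411, c28419, c28409, c28459, c28461, c28465, c28474, c28477, c28478, c28485, c28490, c28514, c28515, c28528, c28530, trivial⟩ (nd (nat_lit 366) (nat_lit 0) (cs (rf (nat_lit 0)) (cs (nd (nat_lit 388) (nat_lit 0) (cs (rf (nat_lit 1)) (cs (nd (nat_lit 387) (nat_lit 0) (cs (nd (nat_lit 322) (nat_lit 0) (cs (lf (nat_lit 41) (nat_lit 321)) (nd (nat_lit 389) (nat_lit 0) (cs (lf (nat_lit 29) (nat_lit 322)) (rf (nat_lit 2)))))) (cs (nd (nat_lit 365) (nat_lit 0) (cs (nd (nat_lit 409) (nat_lit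 0) (cs (lf (nat_lit 30) (nat_lit 343)) (lf (nat_lit 47) (nat_lit 320)))) (cs (nd (nat_lit 321) (nat_lit 0) (cs (nd (nat_lit 341) (nat_lit 0) (cs (lf (nat_lit 0) (nat_lit 340)) (nd (nat_lit 320) (nat_lit 0) (cs (nd (nat_lit 363) (nat_lit 0) (cs (lf (nat_lit 11) (nat_lit 340)) (nd (nat_lit 345) (nat_lit 0) (cs (lf (nat_lit 18) (nat_lit 320)) (nd (nat_lit 385) (nat_lit 0) (cs (nd (nat_lit 386) (nat_lit 0) (cs (lf (nat_lit 41) (nat_lit 320)) (lf (nat_lit 12) (nat_lit 362)))) (lf (nat_lit 30) (nat_lit 319)))))))) (lf (nat_lit 47) (nat_lit 298)))))) (lf (nat_lit 24) (nat_lit 299)))) (nd (nat_lit 340) (nat_lit 0) (cs (lf (nat_lit 1) (nat_lit 340)) (nd (nat_lit 409) (nat_lit 0) (cs (lf (nat_lit 30) (nat_lit 343)) (nd (nat_lit 408) (nat_lit 0) (cs (nd (nat_lit 321) (nat_lit 0) (cs (lf (nat_lit 24) (nat_lit 299)) (lf (nat_lit 40) (nat_lit 320)))) (lf (nat_lit 41) (nat_lit 342))))))))))) (cs (nd (nat_lit 321) (nat_lit 0)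 (cs (rf (nat_lit 3)) (cs (nd (nat_lit 362) (nat_lit 0) (cs (nd (nat_lit 341) (nat_lit 0) (cs (lf (nat_lit 10) (nat_lit 340)) (nd (nat_lit 340) (nat_lit 0) (cs (lf (nat_lit 4) (nat_lit 340)) (lf (nat_lit 17) (nat_lit 318)))))) (cs (nd (nat_lit 386) (nat_lit 0) (cs (nd (nat_lit 408) (nat_lit 0) (cs (nd (nat_lit 389) (nat_lit 0) (cs (nd (nat_lit 411) (nat_lit 0) (cs (lf (nat_lit 5) (nat_lit 386)) (lf (nat_lit 24) (nat_lit 322)))) (lf (nat_lit 11) (nat_lit 385)))) (lf (nat_lit 38) (nat_lit 320)))) (cs (rf (nat_lit 4)) (rf (nat_lit 5))))) (cs (nd (nat_lit 341) (nat_lit 0) (cs (lf (nat_lit 10) (nat_lit 340)) (rf (nat_lit 6)))) (rf (nat_lit 7)))))) (cs (rf (nat_lit 8)) (rf (nat_lit 9)))))) (cs (nd (nat_lit 322) (nat_lit 0) (cs (lf (nat_lit 41) (nat_lit 321)) (nd (nat_lit 389) (nat_lit 0) (cs (lf (nat_lit 29) (nat_lit 322)) (rf (nat_lit 10)))))) (nd (nat_lit 322) (nat_lit 0) (cs (lf (nat_lit 41) (nat_lit 321)) (nd (nat_lit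 389) (nat_lit 0) (cs (lf (nat_lit 29) (nat_lit 322)) (nd (nat_lit 300) (nat_lit 0) (cs (lf (nat_lit 40) (nat_lit 299)) (nd (nat_lit 279) (nat_lit 0) (cs (lf (nat_lit 34) (nat_lit 278)) (nd (nat_lit 278) (nat_lit 0) (cs (lf (nat_lit 35) (nat_lit 256)) (rf (nat_lit 11))))))))))))))))) (cs (rf (nat_lit 12)) (rf (nat_lit 13)))))) (cs (rf (nat_lit 14)) (rf (nat_lit 15)))))) q28531 (by decide +kernel)
def q28641 : Q := Q.p (nat_lit 0x1c0000000000200000800002000000000000000000000000000000000000000000000000000000000000000) (nat_lit 0x8000760001f80006e000638003f60003d8000f000039000080000000000000000000000000000000000000000000000000000000000) (nat_lit 14)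
theorem c28641 : QOK q28641 := cut [q27991, q27996, q28016, q28033, q28385, q28569, q28571, q28578, q16795, q28594, q28622, q28036, q28001, q28564, q28638] ⟨c27991, c27996, c28016, c28033, c28385, c28569, c28571, c28578, c16795, c28594, c28622, c28036, c28001, c28564, c28638, trivial⟩ (nd (nat_lit 322) (nat_lit 0) (cs (rf (nat_lit 0)) (cs (rf (nat_lit 1)) (cs (nd (nat_lit 365) (nat_lit 0) (cs (rf (nat_lit 2)) (cs (nd (nat_lit 387) (nat_lit 0) (cs (lf (nat_lit 30) (nat_lit 321)) (rf (nat_lit 3)))) (cs (nd (nat_lit 276) (nat_lit 0) (cs (nd (nat_lit 278) (nat_lit 0) (cs (rf (nat_lit 4)) (lf (nat_lit 37) (nat_lit 277)))) (cs (nd (nat_lit 340) (nat_lit 0) (cs (rf (nat_lit 5)) (cs (nd (nat_lit 298) (nat_lit 0) (cs (nd (nat_lit 299) (nat_lit 0) (cs (nd (nat_lit 300) (nat_lit 0) (cs (lf (nat_lit 18) (nat_lit 275)) (nd (nat_lit 277) (nat_lit 0) (cs (lf (nat_lit 42) (nat_lit 277)) (rf (nat_lit 6)))))) (lf (nat_lit 44)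 (nat_lit 276)))) (lf (nat_lit 26) (nat_lit 276)))) (cs (nd (nat_lit 298) (nat_lit 0) (cs (lf (nat_lit 26) (nat_lit 276)) (rf (nat_lit 7)))) (nd (nat_lit 321) (nat_lit 0) (cs (lf (nat_lit 13) (nat_lit 318)) (nd (nat_lit 298) (nat_lit 0) (cs (lf (nat_lit 26) (nat_lit 276)) (lf (nat_lit 45) (nat_lit 276)))))))))) (cs (nd (nat_lit 300) (nat_lit 0) (cs (lf (nat_lit 36) (nat_lit 277)) (nd (nat_lit 298) (nat_lit 0) (cs (lf (nat_lit 26) (nat_lit 276)) (nd (nat_lit 299) (nat_lit 0) (cs (lf (nat_lit 18) (nat_lit 275)) (lf (nat_lit 44) (nat_lit 276)))))))) (nd (nat_lit 298) (nat_lit 0) (cs (lf (nat_lit 43) (nat_lit 253)) (nd (nat_lit 277) (nat_lit 0) (cs (rf (nat_lit 8)) (nd (nat_lit 340) (nat_lit 0) (cs (rf (nat_lit 5)) (cs (rf (nat_lit 7)) (nd (nat_lit 299) (nat_lit 0) (cs (rf (nat_lit 6)) (lf (nat_lit 44) (nat_lit 276))))))))))))))) (cs (nd (nat_lit 387) (nat_lit 0) (cs (lf (nat_lit 30) (nat_lit 321)) (nd (nat_lit 321)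 (nat_lit 0) (cs (nd (nat_lit 298) (nat_lit 0) (cs (lf (nat_lit 46) (nat_lit 298)) (nd (nat_lit 299) (nat_lit 0) (cs (lf (nat_lit 47) (nat_lit 276)) (lf (nat_lit 0) (nat_lit 296)))))) (cs (nd (nat_lit 388) (nat_lit 0) (cs (lf (nat_lit 29) (nat_lit 321)) (nd (nat_lit 299) (nat_lit 0) (cs (nd (nat_lit 277) (nat_lit 0) (cs (lf (nat_lit 24) (nat_lit 255)) (nd (nat_lit 386) (nat_lit 0) (cs (lf (nat_lit 41) (nat_lit 320)) (rf (nat_lit 9)))))) (lf (nat_lit 43) (nat_lit 299)))))) (cs (nd (nat_lit 320) (nat_lit 0) (cs (lf (nat_lit 47) (nat_lit 298)) (nd (nat_lit 388) (nat_lit 0) (cs (lf (nat_lit 29) (nat_lit 321)) (nd (nat_lit 362) (nat_lit 0) (cs (nd (nat_lit 341) (nat_lit 0) (cs (lf (nat_lit 10) (nat_lit 340)) (nd (nat_lit 340) (nat_lit 0) (cs (lf (nat_lit 11) (nat_lit 339)) (lf (nat_lit 17) (nat_lit 318)))))) (cs (nd (nat_lit 363) (nat_lit 0) (cs (lf (nat_lit 9) (nat_lit 340)) (nd (nat_lit 386) (nat_lit 0) (cs (lf (nat_lit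 41) (nat_lit 320)) (lf (nat_lit 21) (nat_lit 362)))))) (cs (nd (nat_lit 345) (nat_lit 0) (cs (lf (nat_lit 18) (nat_lit 320)) (nd (nat_lit 386) (nat_lit 0) (cs (lf (nat_lit 41) (nat_lit 320)) (nd (nat_lit 385) (nat_lit 0) (cs (lf (nat_lit 22) (nat_lit 362)) (nd (nat_lit 384) (nat_lit 0) (cs (lf (nat_lit 23) (nat_lit 361)) (lf (nat_lit 17) (nat_lit 362)))))))))) (nd (nat_lit 384) (nat_lit 0) (cs (nd (nat_lit 386) (nat_lit 0) (cs (lf (nat_lit 41) (nat_lit 320)) (nd (nat_lit 385) (nat_lit 0) (cs (lf (nat_lit 23) (nat_lit 361)) (lf (nat_lit 17) (nat_lit 362)))))) (nd (nat_lit 340) (nat_lit 0) (cs (lf (nat_lit 13) (nat_lit 318)) (rf (nat_lit 10)))))))))))))) (nd (nat_lit 298) (nat_lit 0) (cs (lf (nat_lit 46) (nat_lit 298)) (nd (nat_lit 299) (nat_lit 0) (cs (lf (nat_lit 47) (nat_lit 276)) (nd (nat_lit 277) (nat_lit 0) (cs (lf (nat_lit 29) (nat_lit 277)) (lf (nat_lit 24) (nat_lit 255)))))))))))))) (nd (nat_lit 387) (nat_lit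 0) (cs (lf (nat_lit 30) (nat_lit 321)) (nd (nat_lit 300) (nat_lit 0) (cs (lf (nat_lit 33) (nat_lit 299)) (lf (nat_lit 39) (nat_lit 299))))))))))) (nd (nat_lit 323) (nat_lit 0) (cs (rf (nat_lit 11)) (nd (nat_lit 300) (nat_lit 0) (cs (rf (nat_lit 12)) (cs (rf (nat_lit 13)) (rf (nat_lit 14))))))))))) q28641 (by decide +kernel)
def q28709 : Q := Q.p (nat_lit 0x1c0000000000200000800002000000000000000000000000000000000000000000000000000000000000000) (nat_lit 0x280000e000038000fe0001e0000ff00003d0000f0000390000a0000000000000000000000000000000000000000000000000000000000) (nat_lit 14)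
theorem c28709 : QOK q28709 := cut [q28334, q28400, q28656, q28663, q28664, q28671, q28387, q28680, q28001, q28563, q28539, q28546, q28688, q28696, q28708] ⟨c28334, c28400, c28656, c28663, c28664, c28671, c28387, c28680, c28001, c28563, c28539, c28546, c28688, c28696, c28708, trivial⟩ (nd (nat_lit 345) (nat_lit 0) (cs (rf (nat_lit 0)) (cs (rf (nat_lit 1)) (cs (rf (nat_lit 2)) (cs (rf (nat_lit 3)) (cs (nd (nat_lit 322) (nat_lit 0) (cs (nd (nat_lit 368) (nat_lit 0) (cs (lf (nat_lit 4) (nat_lit 342)) (nd (nat_lit 346) (nat_lit 0) (cs (lf (nat_lit 5) (nat_lit 343)) (rf (nat_lit 4)))))) (cs (nd (nat_lit 346) (nat_lit 0) (cs (rf (nat_lit 4)) (cs (nd (nat_lit 369) (nat_lit 0) (cs (lf (nat_lit 4) (nat_lit 343)) (nd (nat_lit 347) (nat_lit 0) (cs (lf (nat_lit 5) (nat_lit 344)) (nd (nat_lit 365) (nat_lit 0) (cs (nd (nat_lit 387) (nat_lit 0) (cs (lf (nat_lit 30) (nat_lit 321)) (nd (nat_lit 278) (nat_lit 0) (cs (lf (nat_lit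 37) (nat_lit 277)) (rf (nat_lit 5)))))) (lf (nat_lit 10) (nat_lit 343)))))))) (nd (nat_lit 278) (nat_lit 0) (cs (rf (nat_lit 6)) (nd (nat_lit 368) (nat_lit 0) (cs (lf (nat_lit 5) (nat_lit 343)) (rf (nat_lit 7))))))))) (cs (nd (nat_lit 300) (nat_lit 0) (cs (rf (nat_lit 8)) (cs (rf (nat_lit 9)) (cs (nd (nat_lit 366) (nat_lit 0) (cs (rf (nat_lit 10)) (cs (rf (nat_lit 11)) (nd (nat_lit 367) (nat_lit 0) (cs (lf (nat_lit 29) (nat_lit 300)) (nd (nat_lit 365) (nat_lit 0) (cs (lf (nat_lit 41) (nat_lit 299)) (nd (nat_lit 346) (nat_lit 0) (cs (lf (nat_lit 6) (nat_lit 343)) (rf (nat_lit 12))))))))))) (nd (nat_lit 278) (nat_lit 0) (cs (lf (nat_lit 29) (nat_lit 278)) (lf (nat_lit 41) (nat_lit 277)))))))) (rf (nat_lit 13)))))) (rf (nat_lit 14)))))))) q28709 (by decide +kernel)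
def q28769 : Q := Q.p (nat_lit 0xc0000000000e00000800000000000000000000000000000000000000000000000000000000000000000000) (nat_lit 0x10a0007f80003e0002780011c000f380000400001000000000000000000000000000000000000000000000000000000000) (nat_lit 13)
theorem c28769 : QOK q28769 := cut [q28119, q28164, q28280, q28570, q28763] ⟨c28119, c28164, c28280, c28570, c28763, trivial⟩ (nd (nat_lit 296) (nat_lit 0) (cs (rf (nat_lit 0)) (cs (rf (nat_lit 1)) (cs (rf (nat_lit 2)) (cs (nd (nat_lit 318) (nat_lit 0) (cs (lf (nat_lit 11) (nat_lit 295)) (nd (nat_lit 340) (nat_lit 0) (cs (lf (nat_lit 30) (nat_lit 274)) (nd (nat_lit 277) (nat_lit 0) (cs (lf (nat_lit 17) (nat_lit 274)) (nd (nat_lit 321) (nat_lit 0) (cs (lf (nat_lit 41) (nat_lit 276)) (nd (nat_lit 365) (nat_lit 0) (cs (lf (nat_lit 47) (nat_lit 276)) (nd (nat_lit 366) (nat_lit 0) (cs (lf (nat_lit 29) (nat_lit 299)) (lf (nat_lit 1) (nat_lit 340)))))))))))))) (nd (nat_lit 340)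 (nat_lit 0) (cs (rf (nat_lit 3)) (cs (nd (nat_lit 317) (nat_lit 0) (cs (lf (nat_lit 10) (nat_lit 295)) (nd (nat_lit 278) (nat_lit 0) (cs (lf (nat_lit 16) (nat_lit 274)) (nd (nat_lit 300) (nat_lit 0) (cs (lf (nat_lit 17) (nat_lit 275)) (nd (nat_lit 295) (nat_lit 0) (cs (lf (nat_lit 11) (nat_lit 294)) (nd (nat_lit 272) (nat_lit 0) (cs (lf (nat_lit 22) (nat_lit 272)) (nd (nat_lit 294) (nat_lit 0) (cs (lf (nat_lit 23) (nat_lit 271)) (nd (nat_lit 339) (nat_lit 0) (cs (lf (nat_lit 42) (nat_lit 272)) (nd (nat_lit 228) (nat_lit 0) (cs (nd (nat_lit 365) (nat_lit 0) (cs (nd (nat_lit 341) (nat_lit 0) (cs (lf (nat_lit 4) (nat_lit 339)) (lf (nat_lit 5) (nat_lit 340)))) (lf (nat_lit 32) (nat_lit 277)))) (lf (nat_lit 25) (nat_lit 228)))))))))))))))))) (nd (nat_lit 278) (nat_lit 0) (cs (lf (nat_lit 16) (nat_lit 274)) (nd (nat_lit 300) (nat_lit 0) (cs (lf (nat_lit 17) (nat_lit 275)) (nd (nat_lit 365) (nat_lit 0) (cs (lf (nat_lit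 32) (nat_lit 277)) (nd (nat_lit 341) (nat_lit 0) (cs (lf (nat_lit 5) (nat_lit 340)) (rf (nat_lit 4)))))))))))))))))) q28769 (by decide +kernel)
def q28785 : Q := Q.p (nat_lit 0xc0000000000600000800002000000000000000000000000000000000000000000000000000000000000000) (nat_lit 0x20000000001f0000398001f0000390000e0000380000000000000000000000000000000000000000000000000000) (nat_lit 12)
theorem c28785 : QOK q28785 := cut [q28739, q28743, q28716, q28779, q28782] ⟨c28739, c28743, c28716, c28779, c28782, trivial⟩ (nd (nat_lit 276) (nat_lit 0) (cs (lf (nat_lit 43) (nat_lit 253)) (nd (nat_lit 299) (nat_lit 0) (cs (rf (nat_lit 0)) (cs (rf (nat_lit 1)) (cs (nd (nat_lit 300) (nat_lit 0) (cs (lf (nat_lit 18) (nat_lit 275)) (nd (nat_lit 321) (nat_lit 0) (cs (lf (nat_lit 42) (nat_lit 276)) (rf (nat_lit 2)))))) (cs (rf (nat_lit 3)) (nd (nat_lit 321) (nat_lit 0) (cs (lf (nat_lit 42) (nat_lit 276)) (rf (nat_lit 4))))))))))) q28785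 (by decide +kernel)
def q28935 : Q := Q.p (nat_lit 0x1c0000000000200000800002000000000000000000000000000000000000000000000000000000000000000) (nat_lit 0xbc0003e0000fe000030000d6000390000f000039000080000000000000000000000000000000000000000000000000000000000) (nat_lit 14)
theorem c28935 : QOK q28935 := cut [q27995, q28914, q28564, q28930, q28932] ⟨c27995, c28914, c28564, c28930, c28932, trivial⟩ (nd (nat_lit 341) (nat_lit 0) (cs (rf (nat_lit 0)) (cs (nd (nat_lit 322) (nat_lit 0) (cs (lf (nat_lit 17) (nat_lit 319)) (rf (nat_lit 1)))) (nd (nat_lit 322) (nat_lit 0) (cs (lf (nat_lit 17) (nat_lit 319)) (nd (nat_lit 300) (nat_lit 0) (cs (rf (nat_lit 2)) (cs (nd (nat_lit 363) (nat_lit 0) (cs (lf (nat_lit 11) (nat_lit 340)) (nd (nat_lit 366) (nat_lit 0) (cs (lf (nat_lit 5) (nat_lit 341)) (nd (nat_lit 279) (nat_lit 0) (cs (lf (nat_lit 34) (nat_lit 278)) (nd (nat_lit 277) (nat_lit 0) (cs (lf (nat_lit 46) (nat_lit 277)) (nd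 (nat_lit 387) (nat_lit 0) (cs (lf (nat_lit 40) (nat_lit 299)) (nd (nat_lit 388) (nat_lit 0) (cs (lf (nat_lit 41) (nat_lit 321)) (nd (nat_lit 389) (nat_lit 0) (cs (lf (nat_lit 29) (nat_lit 322)) (nd (nat_lit 386) (nat_lit 0) (cs (nd (nat_lit 407) (nat_lit 0) (cs (nd (nat_lit 385) (nat_lit 0) (cs (lf (nat_lit 35) (nat_lit 319)) (lf (nat_lit 11) (nat_lit 384)))) (lf (nat_lit 10) (nat_lit 385)))) (lf (nat_lit 22) (nat_lit 363)))))))))))))))))) (cs (rf (nat_lit 3)) (rf (nat_lit 4))))))))))) q28935 (by decide +kernel)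
def q28936 : Q := Q.p (nat_lit 0x1c0000000000200000800000000000000000000000000000000000000000000000000000000000000000000) (nat_lit 0x200003be000630001c60001100004000000000000000000000000000000000000000000000000000000000000000000000) (nat_lit 7)
theorem c28936 : QOK q28936 := cut [q27955, q28054, q28406] ⟨c27955, c28054, c28406, trivial⟩ (nd (nat_lit 345) (nat_lit 0) (cs (rf (nat_lit 0)) (cs (rf (nat_lit 1)) (rf (nat_lit 2))))) q28936 (by decide +kernel)
def q28981 : Q := Q.p (nat_lit 0x1c0000000000200000800002000000000000000000000000000000000000000000000000000000000000000) (nat_lit 0xe0000380000f80077e001e30007d60003d0001f000079000140000000000000000000000000000000000000000000000000000000000) (nat_lit 14)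
theorem c28981 : QOK q28981 := cut [q28037, q28042, q28940, q28963, q28980] ⟨c28037, c28042, c28940, c28963, c28980, trivial⟩ (nd (nat_lit 323) (nat_lit 0) (cs (rf (nat_lit 0)) (cs (rf (nat_lit 1)) (cs (nd (nat_lit 345) (nat_lit 0) (cs (lf (nat_lit 17) (nat_lit 320)) (nd (nat_lit 279) (nat_lit 0) (cs (nd (nat_lit 301) (nat_lit 0) (cs (lf (nat_lit 41) (nat_lit 278)) (nd (nat_lit 258) (nat_lit 0) (cs (lf (nat_lit 34) (nat_lit 257)) (nd (nat_lit 257) (nat_lit 0) (cs (lf (nat_lit 35) (nat_lit 235)) (rf (nat_lit 2)))))))) (cs (rf (nat_lit 3)) (nd (nat_lit 364) (nat_lit 0) (cs (lf (nat_lit 11) (nat_lit 341)) (nd (nat_lit 298) (nat_lit 0) (cs (lf (nat_lit 44) (nat_lit 275)) (nd (nat_lit 346) (nat_lit 0) (cs (lf (nat_lit 10) (nat_lit 342)) (nd (nat_lit 368) (nat_lit 0) (cs (lf (nat_lit 5) (nat_lit 343)) (lf (nat_lit 25) (nat_lit 279))))))))))))))) (rf (nat_lit 4)))))) q28981 (by decide +kernel)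
def q29096 : Q := Q.p (nat_lit 0x1c0000000000200000800000000000000000000000000000000000000000000000000000000000000000000) (nat_lit 0x7fe000e30003860000100000000000000000000000000000000000000000000000000000000000000000000000000) (nat_lit 7)
theorem c29096 : QOK q29096 := cut [q28039, q28987, q29092] ⟨c28039, c28987, c29092, trivial⟩ (nd (nat_lit 345) (nat_lit 0) (cs (rf (nat_lit 0)) (cs (rf (nat_lit 1)) (rf (nat_lit 2))))) q29096 (by decide +kernel)
def q29394 : Q := Q.p (nat_lit 0xc0000200000200000800002000000000000000000000000000000000000000000000000000000000000000) (nat_lit 0x7ff000ff8003bf000738001d7c0075e00073c0010000000000000000000000000000000000000000000000000000000000000000) (nat_lit 14)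
theorem c29394 : QOK q29394 := cut [q13978, q29182, q28474, q29289, q28469, q29337, q29344, q29216, q29357, q29362, q29366, q29393] ⟨c13978, c29182, c28474, c29289, c28469, c29337, c29344, c29216, c29357, c29362, c29366, c29393, trivial⟩ (nd (nat_lit 322) (nat_lit 0) (cs (rf (nat_lit 0)) (cs (rf (nat_lit 1)) (cs (nd (nat_lit 362) (nat_lit 0) (cs (rf (nat_lit 2)) (cs (nd (nat_lit 278) (nat_lit 0) (cs (rf (nat_lit 3)) (nd (nat_lit 340) (nat_lit 0) (cs (lf (nat_lit 13) (nat_lit 318)) (nd (nat_lit 296) (nat_lit 0) (cs (lf (nat_lit 32) (nat_lit 274)) (nd (nat_lit 276) (nat_lit 0) (cs (lf (nat_lit 7) (nat_lit 274)) (nd (nat_lit 298) (nat_lit 0) (cs (lf (nat_lit 43) (nat_lit 253)) (nd (nat_lit 295) (nat_lit 0) (cs (lf (nat_lit 12) (nat_lit 272)) (rf (nat_lit 4)))))))))))))) (cs (nd (nat_lit 386) (nat_lit 0) (cs (nd (nat_lit 387) (nat_lit 0) (cs (nd (nat_lit 365) (nat_lit 0) (cs (lf (nat_lit 41) (nat_lit 320)) (lf (nat_lit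 35) (nat_lit 299)))) (cs (nd (nat_lit 385) (nat_lit 0) (cs (nd (nat_lit 363) (nat_lit 0) (cs (nd (nat_lit 361) (nat_lit 0) (cs (lf (nat_lit 21) (nat_lit 361)) (lf (nat_lit 0) (nat_lit 360)))) (lf (nat_lit 18) (nat_lit 362)))) (cs (nd (nat_lit 388) (nat_lit 0) (cs (lf (nat_lit 22) (nat_lit 362)) (nd (nat_lit 407) (nat_lit 0) (cs (lf (nat_lit 11) (nat_lit 384)) (nd (nat_lit 410) (nat_lit 0) (cs (lf (nat_lit 5) (nat_lit 385)) (nd (nat_lit 389) (nat_lit 0) (cs (lf (nat_lit 10) (nat_lit 385)) (nd (nat_lit 368) (nat_lit 0) (cs (nd (nat_lit 390) (nat_lit 0) (cs (nd (nat_lit 413) (nat_lit 0) (cs (nd (nat_lit 391) (nat_lit 0) (cs (lf (nat_lit 5) (nat_lit 388)) (lf (nat_lit 11) (nat_lit 387)))) (lf (nat_lit 4) (nat_lit 387)))) (lf (nat_lit 17) (nat_lit 365)))) (lf (nat_lit 16) (nat_lit 364)))))))))))) (nd (nat_lit 384) (nat_lit 0) (cs (lf (nat_lit 23) (nat_lit 361)) (nd (nat_lit 405) (nat_lit 0) (cs (nd (nat_lit 383) (nat_lit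 0) (cs (rf (nat_lit 5)) (lf (nat_lit 11) (nat_lit 382)))) (lf (nat_lit 10) (nat_lit 383))))))))) (nd (nat_lit 365) (nat_lit 0) (cs (lf (nat_lit 35) (nat_lit 299)) (rf (nat_lit 6))))))) (cs (nd (nat_lit 364) (nat_lit 0) (cs (rf (nat_lit 7)) (cs (rf (nat_lit 8)) (cs (rf (nat_lit 9)) (rf (nat_lit 10)))))) (cs (nd (nat_lit 364) (nat_lit 0) (cs (lf (nat_lit 30) (nat_lit 320)) (rf (nat_lit 9)))) (cs (nd (nat_lit 364) (nat_lit 0) (cs (lf (nat_lit 30) (nat_lit 320)) (rf (nat_lit 10)))) (cs (nd (nat_lit 364) (nat_lit 0) (cs (lf (nat_lit 30) (nat_lit 320)) (rf (nat_lit 8)))) (nd (nat_lit 364) (nat_lit 0) (cs (lf (nat_lit 30) (nat_lit 320)) (rf (nat_lit 7)))))))))) (nd (nat_lit 341) (nat_lit 0) (cs (lf (nat_lit 12) (nat_lit 318)) (nd (nat_lit 363) (nat_lit 0) (cs (nd (nat_lit 361) (nat_lit 0) (cs (lf (nat_lit 15) (nat_lit 339)) (lf (nat_lit 12) (nat_lit 338)))) (lf (nat_lit 6) (nat_lit 340)))))))))) (rf (nat_lit 11))))))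 q29394 (by decide +kernel)
def q29431 : Q := Q.p (nat_lit 0xc0000200000200000800002000000000000000000000000000000000000000000000000000000000000000) (nat_lit 0x30000130001d38003dc000d380010000000000000000000000000000000000000000000000000000000000000000) (nat_lit 8)
theorem c29431 : QOK q29431 := cut [q29182, q29184, q15042, q28792, q29178] ⟨c29182, c29184, c15042, c28792, c29178, trivial⟩ (nd (nat_lit 322) (nat_lit 0) (cs (rf (nat_lit 0)) (cs (rf (nat_lit 1)) (nd (nat_lit 298) (nat_lit 0) (cs (rf (nat_lit 2)) (cs (rf (nat_lit 3)) (nd (nat_lit 340) (nat_lit 0) (cs (lf (nat_lit 13) (nat_lit 318)) (nd (nat_lit 299) (nat_lit 0) (cs (lf (nat_lit 0) (nat_lit 296)) (rf (nat_lit 4)))))))))))) q29431 (by decide +kernel)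
def q29488 : Q := Q.p (nat_lit 0xc0000200000200000800002000000000000000000000000000000000000000000000000000000000000000) (nat_lit 0x10000130001d38001dc0003380018000060000100000000000000000000000000000000000000000000000000000) (nat_lit 9)
theorem c29488 : QOK q29488 := cut [q29182, q29184, q15042, q28792] ⟨c29182, c29184, c15042, c28792, trivial⟩ (nd (nat_lit 322) (nat_lit 0) (cs (rf (nat_lit 0)) (cs (rf (nat_lit 1)) (nd (nat_lit 298) (nat_lit 0) (cs (rf (nat_lit 2)) (cs (rf (nat_lit 3)) (nd (nat_lit 340) (nat_lit 0) (cs (lf (nat_lit 13) (nat_lit 318)) (nd (nat_lit 299) (nat_lit 0) (cs (lf (nat_lit 0) (nat_lit 296)) (nd (nat_lit 277) (nat_lit 0) (cs (lf (nat_lit 41) (nat_lit 276)) (nd (nat_lit 255) (nat_lit 0) (cs (lf (nat_lit 29) (nat_lit 255)) (nd (nat_lit 234) (nat_lit 0) (cs (lf (nat_lit 34) (nat_lit 233)) (nd (nat_lit 233) (nat_lit 0) (cs (lf (nat_lit 35) (nat_lit 211)) (lf (nat_lit 28) (nat_lit 233))))))))))))))))))))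 q29488 (by decide +kernel)
def q29787 : Q := Q.p (nat_lit 0xc0000000000200000800002000000000000000000000000000000000000000000000000000000000000000) (nat_lit 0x20000b80003fc001ff0007fc003ff00073c003b70002d8000b000000000000000000000000000000000000000000000000000000000000000000000) (nat_lit 15)
theorem c29787 : QOK q29787 := cut [q29550, q11848, q29498, q29548, q29559, q29563, q29569, q29671, q29682, q28335, q28338, q29590, q27995, q28993, q29549, q29231, q29523, q29257, q29708, q29710, q29713, q29501, q29767, q29785, q29506] ⟨c29550, c11848, c29498, c29548, c29559, c29563, c29569, c29671, c29682, c28335, c28338, c29590, c27995, c28993, c29549, c29231, c29523, c29257, c29708, c29710, c29713, c29501, c29767, c29785, c29506, trivial⟩ (nd (nat_lit 364) (nat_lit 0) (cs (rf (nat_lit 0)) (cs (nd (nat_lit 320) (nat_lit 0) (cs (rf (nat_lit 1)) (nd (nat_lit 386) (nat_lit 0) (cs (rf (nat_lit 2)) (cs (rf (nat_lit 3)) (nd (nat_lit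 385) (nat_lit 0) (cs (lf (nat_lit 41) (nat_lit 319)) (nd (nat_lit 366) (nat_lit 0) (cs (nd (nat_lit 299) (nat_lit 0) (cs (lf (nat_lit 34) (nat_lit 298)) (rf (nat_lit 4)))) (cs (nd (nat_lit 387) (nat_lit 0) (cs (lf (nat_lit 29) (nat_lit 320)) (nd (nat_lit 384) (nat_lit 0) (cs (rf (nat_lit 5)) (lf (nat_lit 16) (nat_lit 362)))))) (rf (nat_lit 6)))))))))))) (cs (rf (nat_lit 7)) (cs (rf (nat_lit 8)) (cs (nd (nat_lit 320) (nat_lit 0) (cs (rf (nat_lit 1)) (nd (nat_lit 344) (nat_lit 0) (cs (rf (nat_lit 9)) (cs (rf (nat_lit 10)) (cs (rf (nat_lit 11)) (nd (nat_lit 341) (nat_lit 0) (cs (rf (nat_lit 12)) (cs (nd (nat_lit 366) (nat_lit 0) (cs (lf (nat_lit 5) (nat_lit 341)) (nd (nat_lit 340) (nat_lit 0) (cs (lf (nat_lit 4) (nat_lit 340)) (nd (nat_lit 339) (nat_lit 0) (cs (lf (nat_lit 17) (nat_lit 317)) (rf (nat_lit 13)))))))) (nd (nat_lit 366) (nat_lit 0) (cs (lf (nat_lit 5) (nat_lit 341)) (nd (nat_lit 363) (nat_lit 0) (cs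 (lf (nat_lit 11) (nat_lit 340)) (nd (nat_lit 385) (nat_lit 0) (cs (lf (nat_lit 30) (nat_lit 319)) (nd (nat_lit 365) (nat_lit 0) (cs (lf (nat_lit 11) (nat_lit 362)) (nd (nat_lit 388) (nat_lit 0) (cs (lf (nat_lit 5) (nat_lit 363)) (nd (nat_lit 321) (nat_lit 0) (cs (lf (nat_lit 42) (nat_lit 321)) (lf (nat_lit 24) (nat_lit 299))))))))))))))))))))))) (cs (nd (nat_lit 386) (nat_lit 0) (cs (rf (nat_lit 2)) (cs (rf (nat_lit 14)) (nd (nat_lit 363) (nat_lit 0) (cs (rf (nat_lit 15)) (cs (rf (nat_lit 16)) (nd (nat_lit 320) (nat_lit 0) (cs (rf (nat_lit 1)) (nd (nat_lit 385) (nat_lit 0) (cs (rf (nat_lit 17)) (nd (nat_lit 321) (nat_lit 0) (cs (lf (nat_lit 35) (nat_lit 298)) (nd (nat_lit 344) (nat_lit 0) (cs (lf (nat_lit 6) (nat_lit 341)) (nd (nat_lit 387) (nat_lit 0) (cs (lf (nat_lit 29) (nat_lit 320)) (nd (nat_lit 388) (nat_lit 0) (cs (lf (nat_lit 18) (nat_lit 363)) (nd (nat_lit 410) (nat_lit 0) (cs (lf (nat_lit 5) (nat_lit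 385)) (lf (nat_lit 26) (nat_lit 321)))))))))))))))))))))) (cs (nd (nat_lit 320) (nat_lit 0) (cs (rf (nat_lit 1)) (nd (nat_lit 386) (nat_lit 0) (cs (rf (nat_lit 18)) (cs (nd (nat_lit 409) (nat_lit 0) (cs (lf (nat_lit 28) (nat_lit 320)) (nd (nat_lit 408) (nat_lit 0) (cs (lf (nat_lit 29) (nat_lit 342)) (rf (nat_lit 19)))))) (rf (nat_lit 20))))))) (cs (nd (nat_lit 386) (nat_lit 0) (cs (rf (nat_lit 2)) (cs (rf (nat_lit 21)) (cs (nd (nat_lit 320) (nat_lit 0) (cs (lf (nat_lit 45) (nat_lit 275)) (nd (nat_lit 409) (nat_lit 0) (cs (lf (nat_lit 28) (nat_lit 320)) (nd (nat_lit 408) (nat_lit 0) (cs (lf (nat_lit 29) (nat_lit 342)) (nd (nat_lit 430) (nat_lit 0) (cs (lf (nat_lit 34) (nat_lit 342)) (nd (nat_lit 451) (nat_lit 0) (cs (nd (nat_lit 452) (nat_lit 0) (cs (nd (nat_lit 363) (nat_lit 0) (cs (lf (nat_lit 47) (nat_lit 341)) (lf (nat_lit 46) (nat_lit 363)))) (lf (nat_lit 41) (nat_lit 385)))) (lf (nat_lit 40) (nat_lit 363))))))))))))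 (nd (nat_lit 320) (nat_lit 0) (cs (rf (nat_lit 1)) (rf (nat_lit 18)))))))) (cs (rf (nat_lit 22)) (cs (rf (nat_lit 23)) (nd (nat_lit 386) (nat_lit 0) (cs (rf (nat_lit 2)) (cs (nd (nat_lit 320) (nat_lit 0) (cs (rf (nat_lit 1)) (rf (nat_lit 24)))) (rf (nat_lit 14)))))))))))))))) q29787 (by decide +kernel)
def q29929 : Q := Q.p (nat_lit 0x1c0000400000200000800002000000000000000000000000000000000000000000000000000000000000000) (nat_lit 0x60000200003a00001d0000f0000390000a0000000000000000000000000000000000000000000000000000000000) (nat_lit 8)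
theorem c29929 : QOK q29929 := cut [q28036, q28001, q28564, q29927] ⟨c28036, c28001, c28564, c29927, trivial⟩ (nd (nat_lit 323) (nat_lit 0) (cs (rf (nat_lit 0)) (nd (nat_lit 300) (nat_lit 0) (cs (rf (nat_lit 1)) (cs (rf (nat_lit 2)) (rf (nat_lit 3))))))) q29929 (by decide +kernel)
def q29955 : Q := Q.p (nat_lit 0xc0000000000600000800002000000000000000000000000000000000000000000000000000000000000000) (nat_lit 0x14000070000100001e700039c001f000039000060000100000000000000000000000000000000000000000000000000000) (nat_lit 10)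
theorem c29955 : QOK q29955 := cut [q28111, q28124, q28298, q28305, q28727, q28129, q29952] ⟨c28111, c28124, c28298, c28305, c28727, c28129, c29952, trivial⟩ (nd (nat_lit 299) (nat_lit 0) (cs (rf (nat_lit 0)) (cs (rf (nat_lit 1)) (cs (rf (nat_lit 2)) (cs (rf (nat_lit 3)) (cs (rf (nat_lit 4)) (nd (nat_lit 277) (nat_lit 0) (cs (nd (nat_lit 278) (nat_lit 0) (cs (nd (nat_lit 321) (nat_lit 0) (cs (lf (nat_lit 41) (nat_lit 276)) (lf (nat_lit 35) (nat_lit 255)))) (lf (nat_lit 12) (nat_lit 274)))) (cs (rf (nat_lit 5)) (nd (nat_lit 321) (nat_lit 0) (cs (lf (nat_lit 41) (nat_lit 276)) (rf (nat_lit 6))))))))))))) q29955 (by decide +kernel)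
def q30126 : Q := Q.p (nat_lit 0x200000c0000000000200000800002000000000000000000000000000000000000000000000000000000000000000) (nat_lit 0x16000058000370001df000738001f70001500007000001000000000000000000000000000000000000000000000000000000000000000) (nat_lit 13)
theorem c30126 : QOK q30126 := cut [q27967, q28316, q30082, q28385, q30121, q30123, q30125] ⟨c27967, c28316, c30082, c28385, c30121, c30123, c30125, trivial⟩ (nd (nat_lit 341) (nat_lit 0) (cs (nd (nat_lit 344) (nat_lit 0) (cs (rf (nat_lit 0)) (cs (rf (nat_lit 1)) (cs (nd (nat_lit 363) (nat_lit 0) (cs (lf (nat_lit 11) (nat_lit 340)) (nd (nat_lit 385) (nat_lit 0) (cs (nd (nat_lit 320) (nat_lit 0) (cs (lf (nat_lit 30) (nat_lit 319)) (nd (nat_lit 298) (nat_lit 0) (cs (lf (nat_lit 45) (nat_lit 253)) (lf (nat_lit 39) (nat_lit 297)))))) (cs (nd (nat_lit 322) (nat_lit 0) (cs (lf (nat_lit 17) (nat_lit 319)) (nd (nat_lit 278) (nat_lit 0) (cs (lf (nat_lit 37) (nat_lit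 277)) (nd (nat_lit 366) (nat_lit 0) (cs (lf (nat_lit 5) (nat_lit 341)) (nd (nat_lit 364) (nat_lit 0) (cs (lf (nat_lit 11) (nat_lit 362)) (nd (nat_lit 298) (nat_lit 0) (cs (rf (nat_lit 2)) (lf (nat_lit 37) (nat_lit 297)))))))))))) (cs (nd (nat_lit 366) (nat_lit 0) (cs (lf (nat_lit 5) (nat_lit 341)) (nd (nat_lit 322) (nat_lit 0) (cs (lf (nat_lit 17) (nat_lit 319)) (nd (nat_lit 278) (nat_lit 0) (cs (lf (nat_lit 37) (nat_lit 277)) (nd (nat_lit 320) (nat_lit 0) (cs (lf (nat_lit 30) (nat_lit 319)) (nd (nat_lit 276) (nat_lit 0) (cs (rf (nat_lit 3)) (lf (nat_lit 37) (nat_lit 275)))))))))))) (nd (nat_lit 322) (nat_lit 0) (cs (lf (nat_lit 17) (nat_lit 319)) (nd (nat_lit 278) (nat_lit 0) (cs (lf (nat_lit 37) (nat_lit 277)) (nd (nat_lit 366) (nat_lit 0) (cs (lf (nat_lit 5) (nat_lit 341)) (nd (nat_lit 364) (nat_lit 0) (cs (lf (nat_lit 11) (nat_lit 362)) (nd (nat_lit 407) (nat_lit 0) (cs (nd (nat_lit 408) (nat_lit 0) (cs (nd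 (nat_lit 321) (nat_lit 0) (cs (lf (nat_lit 31) (nat_lit 320)) (nd (nat_lit 388) (nat_lit 0) (cs (lf (nat_lit 42) (nat_lit 321)) (lf (nat_lit 5) (nat_lit 363)))))) (lf (nat_lit 29) (nat_lit 341)))) (lf (nat_lit 30) (nat_lit 341)))))))))))))))))) (cs (nd (nat_lit 366) (nat_lit 0) (cs (lf (nat_lit 5) (nat_lit 341)) (nd (nat_lit 363) (nat_lit 0) (cs (lf (nat_lit 11) (nat_lit 340)) (nd (nat_lit 364) (nat_lit 0) (cs (lf (nat_lit 6) (nat_lit 341)) (rf (nat_lit 2)))))))) (nd (nat_lit 322) (nat_lit 0) (cs (lf (nat_lit 17) (nat_lit 319)) (nd (nat_lit 278) (nat_lit 0) (cs (lf (nat_lit 37) (nat_lit 277)) (nd (nat_lit 363) (nat_lit 0) (cs (lf (nat_lit 11) (nat_lit 340)) (nd (nat_lit 364) (nat_lit 0) (cs (lf (nat_lit 6) (nat_lit 341)) (nd (nat_lit 320) (nat_lit 0) (cs (lf (nat_lit 45) (nat_lit 275)) (nd (nat_lit 385) (nat_lit 0) (cs (lf (nat_lit 30) (nat_lit 319)) (nd (nat_lit 366) (nat_lit 0) (cs (lf (nat_lit 11) (nat_lit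 362)) (rf (nat_lit 2))))))))))))))))))))) (cs (rf (nat_lit 4)) (cs (rf (nat_lit 5)) (rf (nat_lit 6)))))) q30126 (by decide +kernel)
def q30210 : Q := Q.p (nat_lit 0x200000c0000000000200000800002000000000000000000000000000000000000000000000000000000000000000) (nat_lit 0x100001e8003fe0007f80039f000738003f60001580005000000000000000000000000000000000000000000000000000000000000000000000) (nat_lit 14)
theorem c30210 : QOK q30210 := cut [q30050, q29502, q29198, q30131, q30135, q30140, q15042, q28335, q28622, q30164, q30165, q29278, q30174, q29844, q30185, q30189, q30194, q30206, q30209] ⟨c30050, c29502, c29198, c30131, c30135, c30140, c15042, c28335, c28622, c30164, c30165, c29278, c30174, c29844, c30185, c30189, c30194, c30206, c30209, trivial⟩ (nd (nat_lit 387) (nat_lit 0) (cs (rf (nat_lit 0)) (cs (nd (nat_lit 386) (nat_lit 0) (cs (nd (nat_lit 364) (nat_lit 0) (cs (nd (nat_lit 408) (nat_lit 0) (cs (lf (nat_lit 30)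 (nat_lit 342)) (nd (nat_lit 362) (nat_lit 0) (cs (rf (nat_lit 1)) (nd (nat_lit 340) (nat_lit 0) (cs (rf (nat_lit 2)) (cs (rf (nat_lit 3)) (cs (nd (nat_lit 405) (nat_lit 0) (cs (nd (nat_lit 407) (nat_lit 0) (cs (lf (nat_lit 41) (nat_lit 341)) (lf (nat_lit 13) (nat_lit 383)))) (nd (nat_lit 318) (nat_lit 0) (cs (lf (nat_lit 33) (nat_lit 274)) (nd (nat_lit 383) (nat_lit 0) (cs (rf (nat_lit 4)) (lf (nat_lit 39) (nat_lit 317)))))))) (rf (nat_lit 5)))))))))) (cs (nd (nat_lit 298) (nat_lit 0) (cs (rf (nat_lit 6)) (nd (nat_lit 344) (nat_lit 0) (cs (rf (nat_lit 7)) (cs (nd (nat_lit 408) (nat_lit 0) (cs (lf (nat_lit 30) (nat_lit 342)) (nd (nat_lit 345) (nat_lit 0) (cs (lf (nat_lit 6) (nat_lit 342)) (nd (nat_lit 367) (nat_lit 0) (cs (lf (nat_lit 5) (nat_lit 342)) (nd (nat_lit 323) (nat_lit 0) (cs (lf (nat_lit 17) (nat_lit 320)) (nd (nat_lit 322) (nat_lit 0) (cs (lf (nat_lit 12) (nat_lit 319)) (nd (nat_lit 300) (nat_lit 0)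 (cs (lf (nat_lit 36) (nat_lit 277)) (lf (nat_lit 42) (nat_lit 300)))))))))))))) (nd (nat_lit 362) (nat_lit 0) (cs (rf (nat_lit 1)) (nd (nat_lit 340) (nat_lit 0) (cs (rf (nat_lit 2)) (cs (rf (nat_lit 3)) (cs (rf (nat_lit 5)) (nd (nat_lit 384) (nat_lit 0) (cs (rf (nat_lit 8)) (cs (nd (nat_lit 408) (nat_lit 0) (cs (lf (nat_lit 30) (nat_lit 342)) (nd (nat_lit 385) (nat_lit 0) (cs (lf (nat_lit 23) (nat_lit 361)) (nd (nat_lit 318) (nat_lit 0) (cs (lf (nat_lit 33) (nat_lit 274)) (nd (nat_lit 406) (nat_lit 0) (cs (lf (nat_lit 11) (nat_lit 383)) (nd (nat_lit 317) (nat_lit 0) (cs (lf (nat_lit 46) (nat_lit 317)) (lf (nat_lit 47) (nat_lit 295)))))))))))) (nd (nat_lit 385) (nat_lit 0) (cs (lf (nat_lit 23) (nat_lit 361)) (lf (nat_lit 12) (nat_lit 361)))))))))))))))))) (cs (rf (nat_lit 9)) (rf (nat_lit 10)))))) (cs (nd (nat_lit 388) (nat_lit 0) (cs (nd (nat_lit 364) (nat_lit 0) (cs (rf (nat_lit 11)) (cs (rf (nat_lit 9)) (rf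 (nat_lit 12))))) (cs (nd (nat_lit 363) (nat_lit 0) (cs (nd (nat_lit 389) (nat_lit 0) (cs (lf (nat_lit 22) (nat_lit 363)) (nd (nat_lit 412) (nat_lit 0) (cs (nd (nat_lit 368) (nat_lit 0) (cs (lf (nat_lit 16) (nat_lit 364)) (nd (nat_lit 390) (nat_lit 0) (cs (lf (nat_lit 17) (nat_lit 365)) (lf (nat_lit 5) (nat_lit 387)))))) (lf (nat_lit 4) (nat_lit 386)))))) (nd (nat_lit 362) (nat_lit 0) (cs (lf (nat_lit 21) (nat_lit 362)) (rf (nat_lit 13)))))) (nd (nat_lit 321) (nat_lit 0) (cs (lf (nat_lit 29) (nat_lit 321)) (rf (nat_lit 14))))))) (cs (rf (nat_lit 15)) (rf (nat_lit 16)))))) (cs (rf (nat_lit 17)) (rf (nat_lit 18)))))) q30210 (by decide +kernel)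
def q30353 : Q := Q.p (nat_lit 0x200000c0000000000000000000000000000000000000000000000000000000000000000000000000000000000000) (nat_lit 0x140000500007f0007dc001f30001e0000300000c000000000000000000000000000000000000000000000000000000000000000000000) (nat_lit 10)
theorem c30353 : QOK q30353 := cut [q30022, q30045, q29001, q30320, q30082, q30352] ⟨c30022, c30045, c29001, c30320, c30082, c30352, trivial⟩ (nd (nat_lit 366) (nat_lit 0) (cs (rf (nat_lit 0)) (cs (rf (nat_lit 1)) (cs (nd (nat_lit 344) (nat_lit 0) (cs (rf (nat_lit 2)) (cs (nd (nat_lit 364) (nat_lit 0) (cs (nd (nat_lit 345) (nat_lit 0) (cs (lf (nat_lit 11) (nat_lit 341)) (nd (nat_lit 323) (nat_lit 0) (cs (lf (nat_lit 17) (nat_lit 320)) (nd (nat_lit 346) (nat_lit 0) (cs (lf (nat_lit 10) (nat_lit 342)) (nd (nat_lit 369) (nat_lit 0) (cs (lf (nat_lit 4) (nat_lit 343)) (nd (nat_lit 347) (nat_lit 0) (cs (lf (nat_lit 5) (nat_lit 344)) (nd (nat_lit 322) (nat_lit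 0) (cs (lf (nat_lit 18) (nat_lit 322)) (lf (nat_lit 23) (nat_lit 321)))))))))))))) (cs (rf (nat_lit 3)) (nd (nat_lit 363) (nat_lit 0) (cs (rf (nat_lit 4)) (lf (nat_lit 12) (nat_lit 340))))))) (nd (nat_lit 341) (nat_lit 0) (cs (lf (nat_lit 0) (nat_lit 340)) (nd (nat_lit 363) (nat_lit 0) (cs (lf (nat_lit 11) (nat_lit 340)) (nd (nat_lit 364) (nat_lit 0) (cs (lf (nat_lit 17) (nat_lit 341)) (rf (nat_lit 4))))))))))) (cs (nd (nat_lit 341) (nat_lit 0) (cs (lf (nat_lit 0) (nat_lit 340)) (nd (nat_lit 367) (nat_lit 0) (cs (lf (nat_lit 3) (nat_lit 341)) (lf (nat_lit 21) (nat_lit 341)))))) (rf (nat_lit 5))))))) q30353 (by decide +kernel)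
def q30366 : Q := Q.p (nat_lit 0x200000c0000000000200000800002000000000000000000000000000000000000000000000000000000000000000) (nat_lit 0x100001e0003fc000ff0001de000738001b40002500009000000000000000000000000000000000000000000000000000000000000000000000) (nat_lit 14)
theorem c30366 : QOK q30366 := cut [q30022, q30045, q30352, q30050, q30209, q30249, q30220, q30194, q30217, q30227, q30232, q30307, q30221, q30290] ⟨c30022, c30045, c30352, c30050, c30209, c30249, c30220, c30194, c30217, c30227, c30232, c30307, c30221, c30290, trivial⟩ (nd (nat_lit 366) (nat_lit 0) (cs (rf (nat_lit 0)) (cs (rf (nat_lit 1)) (cs (rf (nat_lit 2)) (nd (nat_lit 340) (nat_lit 0) (cs (lf (nat_lit 1) (nat_lit 340)) (nd (nat_lit 387) (nat_lit 0) (cs (rf (nat_lit 3)) (cs (rf (nat_lit 4)) (cs (rf (nat_lit 5)) (nd (nat_lit 388) (nat_lit 0) (cs (rf (nat_lit 6)) (cs (nd (nat_lit 386) (nat_lit 0) (cs (rf (nat_lit 7)) (cs (rf (nat_lit 8)) (cs (nd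 (nat_lit 384) (nat_lit 0) (cs (lf (nat_lit 13) (nat_lit 362)) (nd (nat_lit 408) (nat_lit 0) (cs (lf (nat_lit 36) (nat_lit 320)) (nd (nat_lit 430) (nat_lit 0) (cs (lf (nat_lit 30) (nat_lit 364)) (nd (nat_lit 389) (nat_lit 0) (cs (lf (nat_lit 11) (nat_lit 385)) (rf (nat_lit 9)))))))))) (nd (nat_lit 385) (nat_lit 0) (cs (lf (nat_lit 12) (nat_lit 362)) (rf (nat_lit 10)))))))) (nd (nat_lit 364) (nat_lit 0) (cs (nd (nat_lit 363) (nat_lit 0) (cs (lf (nat_lit 5) (nat_lit 363)) (nd (nat_lit 362) (nat_lit 0) (cs (lf (nat_lit 12) (nat_lit 339)) (lf (nat_lit 23) (nat_lit 339)))))) (cs (rf (nat_lit 11)) (nd (nat_lit 386) (nat_lit 0) (cs (rf (nat_lit 12)) (rf (nat_lit 13)))))))))))))))))))) q30366 (by decide +kernel)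
def q30412 : Q := Q.p (nat_lit 0x200000c0000000000200000800002000000000000000000000000000000000000000000000000000000000000000) (nat_lit 0x100001e0000fc0007f0001de000f30003d6000350000d000000000000000000000000000000000000000000000000000000000000000000000) (nat_lit 13)
theorem c30412 : QOK q30412 := cut [q30071, q30209, q30022, q30045, q29001, q29090, q29988, q30320, q30302, q30370, q30337, q30342, q30411] ⟨c30071, c30209, c30022, c30045, c29001, c29090, c29988, c30320, c30302, c30370, c30337, c30342, c30411, trivial⟩ (nd (nat_lit 387) (nat_lit 0) (cs (rf (nat_lit 0)) (cs (rf (nat_lit 1)) (cs (nd (nat_lit 366) (nat_lit 0) (cs (rf (nat_lit 2)) (cs (rf (nat_lit 3)) (cs (nd (nat_lit 344) (nat_lit 0) (cs (rf (nat_lit 4)) (cs (nd (nat_lit 341) (nat_lit 0) (cs (lf (nat_lit 0) (nat_lit 340)) (nd (nat_lit 363) (nat_lit 0) (cs (lf (nat_lit 11) (nat_lit 340)) (nd (nat_lit 345) (nat_lit 0) (cs (nd (nat_lit 346) (nat_lit 0)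 (cs (lf (nat_lit 6) (nat_lit 343)) (rf (nat_lit 5)))) (lf (nat_lit 13) (nat_lit 341)))))))) (cs (nd (nat_lit 364) (nat_lit 0) (cs (rf (nat_lit 6)) (cs (rf (nat_lit 7)) (nd (nat_lit 300) (nat_lit 0) (cs (nd (nat_lit 363) (nat_lit 0) (cs (lf (nat_lit 12) (nat_lit 340)) (nd (nat_lit 298) (nat_lit 0) (cs (lf (nat_lit 25) (nat_lit 298)) (nd (nat_lit 385) (nat_lit 0) (cs (lf (nat_lit 11) (nat_lit 362)) (nd (nat_lit 407) (nat_lit 0) (cs (lf (nat_lit 30) (nat_lit 341)) (nd (nat_lit 388) (nat_lit 0) (cs (lf (nat_lit 5) (nat_lit 363)) (rf (nat_lit 8)))))))))))) (lf (nat_lit 37) (nat_lit 299))))))) (nd (nat_lit 300) (nat_lit 0) (cs (lf (nat_lit 37) (nat_lit 299)) (nd (nat_lit 341) (nat_lit 0) (cs (lf (nat_lit 0) (nat_lit 340)) (nd (nat_lit 363) (nat_lit 0) (cs (lf (nat_lit 11) (nat_lit 340)) (nd (nat_lit 364) (nat_lit 0) (cs (lf (nat_lit 6) (nat_lit 341)) (nd (nat_lit 388) (nat_lit 0) (cs (lf (nat_lit 5) (nat_lit 363))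 (nd (nat_lit 410) (nat_lit 0) (cs (lf (nat_lit 42) (nat_lit 343)) (rf (nat_lit 9)))))))))))))))))) (nd (nat_lit 367) (nat_lit 0) (cs (lf (nat_lit 18) (nat_lit 342)) (nd (nat_lit 364) (nat_lit 0) (cs (rf (nat_lit 10)) (cs (rf (nat_lit 11)) (cs (nd (nat_lit 389) (nat_lit 0) (cs (lf (nat_lit 5) (nat_lit 364)) (nd (nat_lit 345) (nat_lit 0) (cs (lf (nat_lit 17) (nat_lit 342)) (nd (nat_lit 344) (nat_lit 0) (cs (lf (nat_lit 12) (nat_lit 341)) (nd (nat_lit 322) (nat_lit 0) (cs (lf (nat_lit 24) (nat_lit 300)) (lf (nat_lit 42) (nat_lit 322)))))))))) (nd (nat_lit 298) (nat_lit 0) (cs (lf (nat_lit 44) (nat_lit 275)) (nd (nat_lit 389) (nat_lit 0) (cs (lf (nat_lit 5) (nat_lit 364)) (nd (nat_lit 386) (nat_lit 0) (cs (lf (nat_lit 11) (nat_lit 363)) (nd (nat_lit 345) (nat_lit 0) (cs (lf (nat_lit 17) (nat_lit 342)) (nd (nat_lit 408) (nat_lit 0) (cs (lf (nat_lit 30) (nat_lit 342)) (nd (nat_lit 407) (nat_lit 0) (cs (lf (nat_lit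 41) (nat_lit 341)) (lf (nat_lit 7) (nat_lit 385)))))))))))))))))))))))) (rf (nat_lit 12)))))) q30412 (by decide +kernel)
def q30431 : Q := Q.p (nat_lit 0x200000c0000000000200000800002000000000000000000000000000000000000000000000000000000000000000) (nat_lit 0x100001c0000780001f0001df000f38000770001500001000000000000000000000000000000000000000000000000000000000000000000000) (nat_lit 11)
theorem c30431 : QOK q30431 := cut [q30050, q30411, q30022, q28996, q30125, q11848, q30049, q30194, q30224] ⟨c30050, c30411, c30022, c28996, c30125, c11848, c30049, c30194, c30224, trivial⟩ (nd (nat_lit 387) (nat_lit 0) (cs (rf (nat_lit 0)) (cs (rf (nat_lit 1)) (nd (nat_lit 366) (nat_lit 0) (cs (rf (nat_lit 2)) (cs (nd (nat_lit 341) (nat_lit 0) (cs (rf (nat_lit 3)) (cs (rf (nat_lit 4)) (nd (nat_lit 320) (nat_lit 0) (cs (rf (nat_lit 5)) (cs (rf (nat_lit 6)) (nd (nat_lit 363) (nat_lit 0) (cs (nd (nat_lit 385) (nat_lit 0) (cs (lf (nat_lit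 30) (nat_lit 319)) (nd (nat_lit 384) (nat_lit 0) (cs (lf (nat_lit 14) (nat_lit 362)) (lf (nat_lit 8) (nat_lit 362)))))) (cs (nd (nat_lit 362) (nat_lit 0) (cs (lf (nat_lit 6) (nat_lit 340)) (nd (nat_lit 360) (nat_lit 0) (cs (nd (nat_lit 385) (nat_lit 0) (cs (lf (nat_lit 30) (nat_lit 319)) (nd (nat_lit 386) (nat_lit 0) (cs (lf (nat_lit 12) (nat_lit 362)) (lf (nat_lit 18) (nat_lit 362)))))) (lf (nat_lit 13) (nat_lit 338)))))) (nd (nat_lit 344) (nat_lit 0) (cs (lf (nat_lit 11) (nat_lit 340)) (nd (nat_lit 300) (nat_lit 0) (cs (lf (nat_lit 37) (nat_lit 299)) (nd (nat_lit 345) (nat_lit 0) (cs (lf (nat_lit 13) (nat_lit 341)) (nd (nat_lit 346) (nat_lit 0) (cs (lf (nat_lit 22) (nat_lit 320)) (lf (nat_lit 6) (nat_lit 343))))))))))))))))))) (nd (nat_lit 386) (nat_lit 0) (cs (rf (nat_lit 7)) (rf (nat_lit 8)))))))))) q30431 (by decide +kernel)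
def q30593 : Q := Q.p (nat_lit 0xc0000300000200000800000000000000000000000000000000000000000000000000000000000000000000) (nat_lit 0x40000100000ee000738001c60000900002000000000000000000000000000000000000000000000000000000000000000000000) (nat_lit 7)
theorem c30593 : QOK q30593 := cut [q29132, q29136, q30592] ⟨c29132, c29136, c30592, trivial⟩ (nd (nat_lit 341) (nat_lit 0) (cs (rf (nat_lit 0)) (cs (rf (nat_lit 1)) (rf (nat_lit 2))))) q30593 (by decide +kernel)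
def q30696 : Q := Q.p (nat_lit 0xc0000100000200000800000000000000000000000000000000000000000000000000000000000000000000) (nat_lit 0xb00003fc001fe0003fc001fe00033c000270000d80002000000000000000000000000000000000000000000000000000000000000000000000) (nat_lit 13)
theorem c30696 : QOK q30696 := cut [q29671] ⟨c29671, trivial⟩ (nd (nat_lit 364) (nat_lit 0) (cs (lf (nat_lit 45) (nat_lit 275)) (rf (nat_lit 0)))) q30696 (by decide +kernel)
def q30748 : Q := Q.p (nat_lit 0xc0000300000200000800002000000000000000000000000000000000000000000000000000000000000000) (nat_lit 0x700001c000060000120001c00001900007000019000000000000000000000000000000000000000000000000000000000000000) (nat_lit 10)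
theorem c30748 : QOK q30748 := cut [q30062, q29137, q29951, q28377, q29142, q13902, q30746] ⟨c30062, c29137, c29951, c28377, c29142, c13902, c30746, trivial⟩ (nd (nat_lit 322) (nat_lit 0) (cs (rf (nat_lit 0)) (nd (nat_lit 365) (nat_lit 0) (cs (rf (nat_lit 1)) (cs (nd (nat_lit 277) (nat_lit 0) (cs (nd (nat_lit 299) (nat_lit 0) (cs (lf (nat_lit 36) (nat_lit 254)) (rf (nat_lit 2)))) (cs (nd (nat_lit 278) (nat_lit 0) (cs (rf (nat_lit 3)) (rf (nat_lit 4)))) (nd (nat_lit 299) (nat_lit 0) (cs (lf (nat_lit 36) (nat_lit 254)) (rf (nat_lit 5))))))) (rf (nat_lit 6))))))) q30748 (by decide +kernel)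
def q30796 : Q := Q.p (nat_lit 0xc0000300000200000800002000000000000000000000000000000000000000000000000000000000000000) (nat_lit 0xe00007f0007f80007e000700001c0000790000f000039000000000000000000000000000000000000000000000000000000000000000) (nat_lit 12)
theorem c30796 : QOK q30796 := cut [q30746, q29221, q30781, q29140, q29142, q28960, q29216, q29452, q29215, q30790, q30792] ⟨c30746, c29221, c30781, c29140, c29142, c28960, c29216, c29452, c29215, c30790, c30792, trivial⟩ (nd (nat_lit 365) (nat_lit 0) (cs (rf (nat_lit 0)) (cs (nd (nat_lit 364) (nat_lit 0) (cs (rf (nat_lit 1)) (cs (rf (nat_lit 2)) (nd (nat_lit 278) (nat_lit 0) (cs (rf (nat_lit 3)) (nd (nat_lit 322) (nat_lit 0) (cs (rf (nat_lit 4)) (cs (nd (nat_lit 323) (nat_lit 0) (cs (lf (nat_lit 6) (nat_lit 320)) (nd (nat_lit 301) (nat_lit 0) (cs (lf (nat_lit 17) (nat_lit 298)) (nd (nat_lit 345) (nat_lit 0) (cs (lf (nat_lit 5) (nat_lit 320)) (nd (nat_lit 344)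 (nat_lit 0) (cs (lf (nat_lit 11) (nat_lit 341)) (nd (nat_lit 279) (nat_lit 0) (cs (lf (nat_lit 47) (nat_lit 256)) (lf (nat_lit 36) (nat_lit 256)))))))))))) (cs (nd (nat_lit 323) (nat_lit 0) (cs (lf (nat_lit 6) (nat_lit 320)) (nd (nat_lit 301) (nat_lit 0) (cs (lf (nat_lit 17) (nat_lit 298)) (nd (nat_lit 256) (nat_lit 0) (cs (lf (nat_lit 38) (nat_lit 255)) (nd (nat_lit 345) (nat_lit 0) (cs (lf (nat_lit 5) (nat_lit 320)) (lf (nat_lit 45) (nat_lit 256)))))))))) (nd (nat_lit 323) (nat_lit 0) (cs (lf (nat_lit 6) (nat_lit 320)) (nd (nat_lit 345) (nat_lit 0) (cs (lf (nat_lit 5) (nat_lit 320)) (nd (nat_lit 344) (nat_lit 0) (cs (lf (nat_lit 11) (nat_lit 341)) (lf (nat_lit 37) (nat_lit 277))))))))))))))))) (cs (nd (nat_lit 364) (nat_lit 0) (cs (rf (nat_lit 5)) (cs (nd (nat_lit 387) (nat_lit 0) (cs (nd (nat_lit 386) (nat_lit 0) (cs (lf (nat_lit 29) (nat_lit 320)) (lf (nat_lit 30) (nat_lit 320)))) (cs (nd (nat_lit 365) (nat_lit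 0) (cs (lf (nat_lit 42) (nat_lit 320)) (nd (nat_lit 322) (nat_lit 0) (cs (lf (nat_lit 35) (nat_lit 299)) (nd (nat_lit 388) (nat_lit 0) (cs (lf (nat_lit 29) (nat_lit 321)) (nd (nat_lit 323) (nat_lit 0) (cs (lf (nat_lit 6) (nat_lit 320)) (nd (nat_lit 301) (nat_lit 0) (cs (lf (nat_lit 17) (nat_lit 298)) (nd (nat_lit 389) (nat_lit 0) (cs (lf (nat_lit 18) (nat_lit 364)) (nd (nat_lit 363) (nat_lit 0) (cs (lf (nat_lit 0) (nat_lit 362)) (nd (nat_lit 345) (nat_lit 0) (cs (lf (nat_lit 5) (nat_lit 320)) (lf (nat_lit 7) (nat_lit 341)))))))))))))))))) (nd (nat_lit 362) (nat_lit 0) (cs (rf (nat_lit 6)) (cs (nd (nat_lit 386) (nat_lit 0) (cs (lf (nat_lit 30) (nat_lit 320)) (nd (nat_lit 385) (nat_lit 0) (cs (lf (nat_lit 41) (nat_lit 319)) (nd (nat_lit 384) (nat_lit 0) (cs (lf (nat_lit 23) (nat_lit 361)) (nd (nat_lit 383) (nat_lit 0) (cs (lf (nat_lit 17) (nat_lit 361)) (rf (nat_lit 7)))))))))) (cs (nd (nat_lit 386) (nat_lit 0)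 (cs (lf (nat_lit 30) (nat_lit 320)) (nd (nat_lit 385) (nat_lit 0) (cs (lf (nat_lit 41) (nat_lit 319)) (nd (nat_lit 363) (nat_lit 0) (cs (rf (nat_lit 8)) (lf (nat_lit 18) (nat_lit 362)))))))) (nd (nat_lit 386) (nat_lit 0) (cs (lf (nat_lit 30) (nat_lit 320)) (nd (nat_lit 385) (nat_lit 0) (cs (lf (nat_lit 41) (nat_lit 319)) (nd (nat_lit 361) (nat_lit 0) (cs (lf (nat_lit 2) (nat_lit 361)) (lf (nat_lit 21) (nat_lit 361))))))))))))))) (cs (rf (nat_lit 2)) (rf (nat_lit 9)))))) (nd (nat_lit 387) (nat_lit 0) (cs (lf (nat_lit 42) (nat_lit 320)) (nd (nat_lit 300) (nat_lit 0) (cs (lf (nat_lit 34) (nat_lit 299)) (nd (nat_lit 299) (nat_lit 0) (cs (lf (nat_lit 35) (nat_lit 277)) (rf (nat_lit 10)))))))))))) q30796 (by decide +kernel)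
def q30984 : Q := Q.p (nat_lit 0xc0000000000200000800002000000000000000000000000000000000000000000000000000000000000000) (nat_lit 0xa0000380000e0000380003fe000f30003f60007d0001d000060000000000000000000000000000000000000000000000000000000000000000) (nat_lit 11)
theorem c30984 : QOK q30984 := cut [q27955, q28039, q28054, q28058, q28066, q28068, q28098, q30572, q30698, q28530, q30699, q28514, q29607, q30702, q28477, q27996, q28537, q29891, q28417] ⟨c27955, c28039, c28054, c28058, c28066, c28068, c28098, c30572, c30698, c28530, c30699, c28514, c29607, c30702, c28477, c27996, c28537, c29891, c28417, trivial⟩ (nd (nat_lit 344) (nat_lit 0) (cs (nd (nat_lit 345) (nat_lit 0) (cs (rf (nat_lit 0)) (cs (rf (nat_lit 1)) (cs (nd (nat_lit 323) (nat_lit 0) (cs (lf (nat_lit 17) (nat_lit 320)) (rf (nat_lit 2)))) (rf (nat_lit 3)))))) (cs (rf (nat_lit 4)) (cs (rf (nat_lit 5)) (cs (rf (nat_lit 6)) (cs (rf (nat_lit 7)) (cs (rf (nat_lit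 8)) (nd (nat_lit 366) (nat_lit 0) (cs (rf (nat_lit 9)) (cs (rf (nat_lit 10)) (cs (nd (nat_lit 388) (nat_lit 0) (cs (rf (nat_lit 11)) (cs (rf (nat_lit 12)) (cs (nd (nat_lit 322) (nat_lit 0) (cs (rf (nat_lit 13)) (nd (nat_lit 389) (nat_lit 0) (cs (lf (nat_lit 29) (nat_lit 322)) (nd (nat_lit 300) (nat_lit 0) (cs (lf (nat_lit 28) (nat_lit 300)) (nd (nat_lit 387) (nat_lit 0) (cs (lf (nat_lit 40) (nat_lit 299)) (lf (nat_lit 41) (nat_lit 321)))))))))) (nd (nat_lit 321) (nat_lit 0) (cs (lf (nat_lit 42) (nat_lit 321)) (rf (nat_lit 14)))))))) (nd (nat_lit 322) (nat_lit 0) (cs (rf (nat_lit 15)) (nd (nat_lit 388) (nat_lit 0) (cs (rf (nat_lit 16)) (cs (rf (nat_lit 17)) (nd (nat_lit 299) (nat_lit 0) (cs (lf (nat_lit 46) (nat_lit 299)) (nd (nat_lit 387) (nat_lit 0) (cs (lf (nat_lit 41) (nat_lit 321)) (nd (nat_lit 300) (nat_lit 0) (cs (lf (nat_lit 40) (nat_lit 299)) (rf (nat_lit 18)))))))))))))))))))))))) q30984 (by decide +kernel)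
def q31156 : Q := Q.p (nat_lit 0xc0000200000200000800000000000000000000000000000000000000000000000000000000000000000000) (nat_lit 0xb00003fc001fe0007fc001fe00033c000570001d80006000000000000000000000000000000000000000000000000000000000000000000000) (nat_lit 13)
theorem c31156 : QOK q31156 := cut [q29222, q29671, q29767, q30790, q30631, q30788] ⟨c29222, c29671, c29767, c30790, c30631, c30788, trivial⟩ (nd (nat_lit 364) (nat_lit 0) (cs (rf (nat_lit 0)) (cs (rf (nat_lit 1)) (cs (rf (nat_lit 2)) (nd (nat_lit 365) (nat_lit 0) (cs (nd (nat_lit 298) (nat_lit 0) (cs (lf (nat_lit 44) (nat_lit 275)) (nd (nat_lit 299) (nat_lit 0) (cs (lf (nat_lit 36) (nat_lit 276)) (nd (nat_lit 278) (nat_lit 0) (cs (lf (nat_lit 34) (nat_lit 277)) (nd (nat_lit 296) (nat_lit 0) (cs (lf (nat_lit 5) (nat_lit 296)) (nd (nat_lit 318) (nat_lit 0) (cs (lf (nat_lit 11) (nat_lit 295)) (nd (nat_lit 362) (nat_lit 0) (cs (lf (nat_lit 31) (nat_lit 274))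 (nd (nat_lit 363) (nat_lit 0) (cs (lf (nat_lit 12) (nat_lit 339)) (lf (nat_lit 17) (nat_lit 340)))))))))))))))) (cs (nd (nat_lit 320) (nat_lit 0) (cs (lf (nat_lit 45) (nat_lit 275)) (rf (nat_lit 3)))) (cs (nd (nat_lit 299) (nat_lit 0) (cs (lf (nat_lit 36) (nat_lit 276)) (rf (nat_lit 4)))) (nd (nat_lit 277) (nat_lit 0) (cs (lf (nat_lit 37) (nat_lit 276)) (nd (nat_lit 320) (nat_lit 0) (cs (lf (nat_lit 45) (nat_lit 275)) (nd (nat_lit 387) (nat_lit 0) (cs (lf (nat_lit 42) (nat_lit 320)) (rf (nat_lit 5)))))))))))))))) q31156 (by decide +kernel)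
def q31305 : Q := Q.p (nat_lit 0x50000000000200000800000000000000010000000000000000000000000000000000000000000000000000) (nat_lit 0x16000058001ffc003ae000e7c0009c0002300001c00006000000000000000000000000000000000000000000000000000000000) (nat_lit 12)
theorem c31305 : QOK q31305 := cut [q31219, q31235, q13277, q22741, q31218, q31242, q31268, q28903, q31266, q31209, q31275, q15588, q31287, q31292, q27993, q31298, q25486, q29134] ⟨c31219, c31235, c13277, c22741, c31218, c31242, c31268, c28903, c31266, c31209, c31275, c15588, c31287, c31292, c27993, c31298, c25486, c29134, trivial⟩ (nd (nat_lit 341) (nat_lit 0) (cs (rf (nat_lit 0)) (cs (rf (nat_lit 1)) (cs (nd (nat_lit 339) (nat_lit 0) (cs (rf (nat_lit 2)) (cs (rf (nat_lit 3)) (cs (rf (nat_lit 4)) (nd (nat_lit 317) (nat_lit 0) (cs (lf (nat_lit 23) (nat_lit 316)) (nd (nat_lit 384) (nat_lit 0) (cs (rf (nat_lit 5)) (cs (nd (nat_lit 361) (nat_lit 0) (cs (lf (nat_lit 11)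 (nat_lit 338)) (nd (nat_lit 364) (nat_lit 0) (cs (lf (nat_lit 5) (nat_lit 339)) (nd (nat_lit 383) (nat_lit 0) (cs (lf (nat_lit 29) (nat_lit 317)) (nd (nat_lit 318) (nat_lit 0) (cs (lf (nat_lit 30) (nat_lit 317)) (lf (nat_lit 35) (nat_lit 295)))))))))) (cs (nd (nat_lit 364) (nat_lit 0) (cs (lf (nat_lit 5) (nat_lit 339)) (nd (nat_lit 361) (nat_lit 0) (cs (lf (nat_lit 11) (nat_lit 338)) (nd (nat_lit 295) (nat_lit 0) (cs (lf (nat_lit 28) (nat_lit 295)) (nd (nat_lit 272) (nat_lit 0) (cs (nd (nat_lit 273) (nat_lit 0) (cs (lf (nat_lit 47) (nat_lit 250)) (nd (nat_lit 251) (nat_lit 0) (cs (lf (nat_lit 28) (nat_lit 251)) (nd (nat_lit 230) (nat_lit 0) (cs (lf (nat_lit 33) (nat_lit 207)) (lf (nat_lit 34) (nat_lit 229)))))))) (lf (nat_lit 46) (nat_lit 272)))))))))) (nd (nat_lit 361) (nat_lit 0) (cs (lf (nat_lit 11) (nat_lit 338)) (nd (nat_lit 406) (nat_lit 0) (cs (lf (nat_lit 27) (nat_lit 317)) (lf (nat_lit 44) (nat_lit 317))))))))))))))))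 (cs (rf (nat_lit 6)) (cs (nd (nat_lit 343) (nat_lit 0) (cs (rf (nat_lit 7)) (cs (rf (nat_lit 8)) (cs (nd (nat_lit 317) (nat_lit 0) (cs (lf (nat_lit 22) (nat_lit 317)) (nd (nat_lit 316) (nat_lit 0) (cs (lf (nat_lit 21) (nat_lit 316)) (nd (nat_lit 322) (nat_lit 0) (cs (lf (nat_lit 16) (nat_lit 318)) (nd (nat_lit 344) (nat_lit 0) (cs (lf (nat_lit 17) (nat_lit 319)) (nd (nat_lit 363) (nat_lit 0) (cs (lf (nat_lit 11) (nat_lit 340)) (nd (nat_lit 345) (nat_lit 0) (cs (lf (nat_lit 10) (nat_lit 341)) (rf (nat_lit 9)))))))))))))) (nd (nat_lit 317) (nat_lit 0) (cs (lf (nat_lit 22) (nat_lit 317)) (nd (nat_lit 339) (nat_lit 0) (cs (lf (nat_lit 23) (nat_lit 316)) (nd (nat_lit 321) (nat_lit 0) (cs (lf (nat_lit 17) (nat_lit 318)) (nd (nat_lit 364) (nat_lit 0) (cs (lf (nat_lit 5) (nat_lit 339)) (nd (nat_lit 386) (nat_lit 0) (cs (lf (nat_lit 30) (nat_lit 320)) (nd (nat_lit 277) (nat_lit 0) (cs (lf (nat_lit 37) (nat_lit 276)) (nd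 (nat_lit 363) (nat_lit 0) (cs (lf (nat_lit 0) (nat_lit 338)) (rf (nat_lit 10)))))))))))))))))))) (cs (nd (nat_lit 339) (nat_lit 0) (cs (rf (nat_lit 2)) (cs (rf (nat_lit 11)) (cs (rf (nat_lit 12)) (cs (rf (nat_lit 13)) (cs (nd (nat_lit 360) (nat_lit 0) (cs (lf (nat_lit 10) (nat_lit 338)) (nd (nat_lit 338) (nat_lit 0) (cs (lf (nat_lit 11) (nat_lit 337)) (nd (nat_lit 363) (nat_lit 0) (cs (lf (nat_lit 5) (nat_lit 338)) (nd (nat_lit 362) (nat_lit 0) (cs (lf (nat_lit 0) (nat_lit 337)) (nd (nat_lit 343) (nat_lit 0) (cs (rf (nat_lit 14)) (lf (nat_lit 6) (nat_lit 340)))))))))))) (nd (nat_lit 317) (nat_lit 0) (cs (lf (nat_lit 23) (nat_lit 316)) (nd (nat_lit 360) (nat_lit 0) (cs (lf (nat_lit 10) (nat_lit 338)) (nd (nat_lit 318) (nat_lit 0) (cs (lf (nat_lit 18) (nat_lit 317)) (nd (nat_lit 362) (nat_lit 0) (cs (lf (nat_lit 33) (nat_lit 274)) (rf (nat_lit 15)))))))))))))))) (nd (nat_lit 343) (nat_lit 0) (cs (rf (nat_lit 16))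 (cs (rf (nat_lit 7)) (rf (nat_lit 17)))))))))))) q31305 (by decide +kernel)
def q31355 : Q := Q.p (nat_lit 0x140000c00001200000800002000000000000000000000000000000000000000000000000000000000000000) (nat_lit 0x200000a000300000010000f000039000080000000000000000000000000000000000000000000000000000000000) (nat_lit 8)
theorem c31355 : QOK q31355 := cut [q28564] ⟨c28564, trivial⟩ (nd (nat_lit 343) (nat_lit 0) (cs (lf (nat_lit 12) (nat_lit 319)) (nd (nat_lit 324) (nat_lit 0) (cs (lf (nat_lit 6) (nat_lit 321)) (rf (nat_lit 0)))))) q31355 (by decide +kernel)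
def q31690 : Q := Q.p (nat_lit 0x140000400000200000800002000000000000000000000000000000000000000000000000000000000000000) (nat_lit 0x280000e0000380001e0000eb00002c0003d0003f0000390000e0000080000000000000000000000000000000000000000000000000000) (nat_lit 11)
theorem c31690 : QOK q31690 := cut [q29893, q31639, q31027, q31650, q31659, q31667, q31668, q31671, q31689] ⟨c29893, c31639, c31027, c31650, c31659, c31667, c31668, c31671, c31689, trivial⟩ (nd (nat_lit 300) (nat_lit 0) (cs (nd (nat_lit 366) (nat_lit 0) (cs (rf (nat_lit 0)) (cs (rf (nat_lit 1)) (cs (nd (nat_lit 365) (nat_lit 0) (cs (lf (nat_lit 41) (nat_lit 299)) (nd (nat_lit 279) (nat_lit 0) (cs (lf (nat_lit 34) (nat_lit 278)) (nd (nat_lit 299) (nat_lit 0) (cs (lf (nat_lit 47) (nat_lit 277)) (nd (nat_lit 321) (nat_lit 0) (cs (lf (nat_lit 42) (nat_lit 299)) (nd (nat_lit 298) (nat_lit 0) (cs (lf (nat_lit 0) (nat_lit 296)) (nd (nat_lit 318) (nat_lit 0) (cs (lf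 (nat_lit 10) (nat_lit 296)) (nd (nat_lit 343) (nat_lit 0) (cs (lf (nat_lit 47) (nat_lit 276)) (rf (nat_lit 2)))))))))))))))) (rf (nat_lit 3)))))) (cs (rf (nat_lit 4)) (cs (rf (nat_lit 5)) (cs (rf (nat_lit 6)) (cs (rf (nat_lit 7)) (rf (nat_lit 8)))))))) q31690 (by decide +kernel)
def q32138 : Q := Q.p (nat_lit 0x2000000000010000040000700000000000000000000000000000000000000000) (nat_lit 0xbc0001f80007c0000f0003be0000f00035c0000000000000000000000000000000000) (nat_lit 15)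
theorem c32138 : QOK q32138 := cut [q21056, q20783, q32089, q5067, q32103, q21070, q5397, q6121] ⟨c21056, c20783, c32089, c5067, c32103, c21070, c5397, c6121, trivial⟩ (nd (nat_lit 163) (nat_lit 0) (cs (rf (nat_lit 0)) (cs (nd (nat_lit 188) (nat_lit 0) (cs (lf (nat_lit 5) (nat_lit 163)) (nd (nat_lit 144) (nat_lit 0) (cs (lf (nat_lit 17) (nat_lit 141)) (rf (nat_lit 1)))))) (cs (nd (nat_lit 229) (nat_lit 0) (cs (nd (nat_lit 188) (nat_lit 0) (cs (lf (nat_lit 5) (nat_lit 163)) (rf (nat_lit 2)))) (cs (nd (nat_lit 142) (nat_lit 0) (cs (lf (nat_lit 40) (nat_lit 141)) (nd (nat_lit 188) (nat_lit 0) (cs (lf (nat_lit 5) (nat_lit 163)) (nd (nat_lit 144) (nat_lit 0) (cs (lf (nat_lit 17) (nat_lit 141)) (nd (nat_lit 230) (nat_lit 0) (cs (lf (nat_lit 41) (nat_lit 163)) (nd (nat_lit 252) (nat_lit 0) (cs (lf (nat_lit 29) (nat_lit 186)) (lf (nat_lit 34) (nat_lit 164)))))))))))) (cs (nd (nat_lit 207) (nat_lit 0) (cs (lf (nat_lit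 36) (nat_lit 141)) (nd (nat_lit 188) (nat_lit 0) (cs (lf (nat_lit 5) (nat_lit 163)) (nd (nat_lit 205) (nat_lit 0) (cs (nd (nat_lit 144) (nat_lit 0) (cs (lf (nat_lit 17) (nat_lit 141)) (nd (nat_lit 206) (nat_lit 0) (cs (lf (nat_lit 17) (nat_lit 183)) (nd (nat_lit 182) (nat_lit 0) (cs (lf (nat_lit 22) (nat_lit 182)) (nd (nat_lit 204) (nat_lit 0) (cs (lf (nat_lit 23) (nat_lit 181)) (lf (nat_lit 5) (nat_lit 204)))))))))) (cs (nd (nat_lit 185) (nat_lit 0) (cs (lf (nat_lit 11) (nat_lit 162)) (nd (nat_lit 230) (nat_lit 0) (cs (lf (nat_lit 42) (nat_lit 163)) (nd (nat_lit 228) (nat_lit 0) (cs (lf (nat_lit 41) (nat_lit 162)) (rf (nat_lit 3)))))))) (nd (nat_lit 227) (nat_lit 0) (cs (rf (nat_lit 4)) (cs (nd (nat_lit 228) (nat_lit 0) (cs (lf (nat_lit 12) (nat_lit 204)) (rf (nat_lit 5)))) (nd (nat_lit 144) (nat_lit 0) (cs (lf (nat_lit 17) (nat_lit 141)) (nd (nat_lit 206) (nat_lit 0) (cs (lf (nat_lit 17) (nat_lit 183)) (nd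 (nat_lit 183) (nat_lit 0) (cs (lf (nat_lit 23) (nat_lit 182)) (nd (nat_lit 184) (nat_lit 0) (cs (lf (nat_lit 14) (nat_lit 161)) (nd (nat_lit 249) (nat_lit 0) (cs (lf (nat_lit 30) (nat_lit 183)) (nd (nat_lit 250) (nat_lit 0) (cs (lf (nat_lit 29) (nat_lit 183)) (nd (nat_lit 228) (nat_lit 0) (cs (lf (nat_lit 47) (nat_lit 161)) (nd (nat_lit 248) (nat_lit 0) (cs (lf (nat_lit 12) (nat_lit 225)) (lf (nat_lit 41) (nat_lit 182)))))))))))))))))))))))))))) (nd (nat_lit 144) (nat_lit 0) (cs (lf (nat_lit 17) (nat_lit 141)) (nd (nat_lit 207) (nat_lit 0) (cs (lf (nat_lit 36) (nat_lit 141)) (nd (nat_lit 185) (nat_lit 0) (cs (lf (nat_lit 30) (nat_lit 163)) (lf (nat_lit 11) (nat_lit 162)))))))))))) (cs (nd (nat_lit 229) (nat_lit 0) (cs (rf (nat_lit 2)) (cs (nd (nat_lit 188) (nat_lit 0) (cs (lf (nat_lit 5) (nat_lit 163)) (nd (nat_lit 144) (nat_lit 0) (cs (lf (nat_lit 17) (nat_lit 141)) (nd (nat_lit 207) (nat_lit 0) (cs (lf (nat_lit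 36) (nat_lit 141)) (rf (nat_lit 6)))))))) (nd (nat_lit 207) (nat_lit 0) (cs (lf (nat_lit 36) (nat_lit 141)) (nd (nat_lit 188) (nat_lit 0) (cs (lf (nat_lit 5) (nat_lit 163)) (nd (nat_lit 144) (nat_lit 0) (cs (lf (nat_lit 17) (nat_lit 141)) (nd (nat_lit 184) (nat_lit 0) (cs (lf (nat_lit 10) (nat_lit 162)) (nd (nat_lit 162) (nat_lit 0) (cs (lf (nat_lit 11) (nat_lit 161)) (nd (nat_lit 140) (nat_lit 0) (cs (lf (nat_lit 27) (nat_lit 140)) (lf (nat_lit 23) (nat_lit 139))))))))))))))))) (cs (nd (nat_lit 144) (nat_lit 0) (cs (lf (nat_lit 17) (nat_lit 141)) (nd (nat_lit 184) (nat_lit 0) (cs (lf (nat_lit 10) (nat_lit 162)) (rf (nat_lit 7)))))) (nd (nat_lit 188) (nat_lit 0) (cs (lf (nat_lit 5) (nat_lit 163)) (nd (nat_lit 162) (nat_lit 0) (cs (lf (nat_lit 4) (nat_lit 162)) (nd (nat_lit 139) (nat_lit 0) (cs (lf (nat_lit 22) (nat_lit 139)) (nd (nat_lit 161) (nat_lit 0) (cs (lf (nat_lit 23) (nat_lit 138)) (nd (nat_lit 185) (nat_lit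 0) (cs (lf (nat_lit 0) (nat_lit 160)) (lf (nat_lit 11) (nat_lit 162)))))))))))))))))) q32138 (by decide +kernel)
def q32248 : Q := Q.p (nat_lit 0x4000010000040000100000000000000000000000000000000000000000) (nat_lit 0x800002000080001fb8007ec000fa00004000010000000000000000000000000) (nat_lit 9)
theorem c32248 : QOK q32248 := cut [q32085, q32147, q32154, q32197, q9436] ⟨c32085, c32147, c32154, c32197, c9436, trivial⟩ (nd (nat_lit 165) (nat_lit 0) (cs (lf (nat_lit 35) (nat_lit 142)) (nd (nat_lit 166) (nat_lit 0) (cs (rf (nat_lit 0)) (cs (rf (nat_lit 1)) (cs (rf (nat_lit 2)) (cs (rf (nat_lit 3)) (nd (nat_lit 229) (nat_lit 0) (cs (lf (nat_lit 41) (nat_lit 163)) (nd (nat_lit 163) (nat_lit 0) (cs (lf (nat_lit 47) (nat_lit 141)) (nd (nat_lit 188) (nat_lit 0) (cs (lf (nat_lit 5) (nat_lit 163)) (rf (nat_lit 4))))))))))))))) q32248 (by decide +kernel)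
def q32327 : Q := Q.p (nat_lit 0x2000000000000000040000180000400000000000000000000000000000000000) (nat_lit 0x20000380001e000038000060003be001e700073e0001000004000000000000000000000000) (nat_lit 14)
theorem c32327 : QOK q32327 := cut [q2270, q3803, q32056, q2257, q32296, q17777, q32300, q5883, q32311, q20777, q21241, q32326] ⟨c2270, c3803, c32056, c2257, c32296, c17777, c32300, c5883, c32311, c20777, c21241, c32326, trivial⟩ (nd (nat_lit 162) (nat_lit 0) (cs (rf (nat_lit 0)) (cs (rf (nat_lit 1)) (cs (rf (nat_lit 2)) (cs (nd (nat_lit 165) (nat_lit 0) (cs (rf (nat_lit 3)) (cs (nd (nat_lit 187) (nat_lit 0) (cs (lf (nat_lit 5) (nat_lit 162)) (nd (nat_lit 98) (nat_lit 0) (cs (nd (nat_lit 184) (nat_lit 0) (cs (lf (nat_lit 11) (nat_lit 161)) (nd (nat_lit 166) (nat_lit 0) (cs (lf (nat_lit 10) (nat_lit 162)) (nd (nat_lit 167) (nat_lit 0) (cs (lf (nat_lit 6) (nat_lit 164)) (lf (nat_lit 23) (nat_lit 141)))))))) (lf (nat_lit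 25) (nat_lit 98)))))) (cs (nd (nat_lit 184) (nat_lit 0) (cs (lf (nat_lit 11) (nat_lit 161)) (nd (nat_lit 140) (nat_lit 0) (cs (lf (nat_lit 23) (nat_lit 139)) (nd (nat_lit 187) (nat_lit 0) (cs (lf (nat_lit 5) (nat_lit 162)) (nd (nat_lit 206) (nat_lit 0) (cs (rf (nat_lit 4)) (cs (nd (nat_lit 98) (nat_lit 0) (cs (lf (nat_lit 25) (nat_lit 98)) (nd (nat_lit 185) (nat_lit 0) (cs (lf (nat_lit 11) (nat_lit 183)) (rf (nat_lit 5)))))) (cs (nd (nat_lit 98) (nat_lit 0) (cs (lf (nat_lit 25) (nat_lit 98)) (nd (nat_lit 228) (nat_lit 0) (cs (lf (nat_lit 35) (nat_lit 140)) (nd (nat_lit 227) (nat_lit 0) (cs (lf (nat_lit 41) (nat_lit 161)) (rf (nat_lit 6)))))))) (nd (nat_lit 205) (nat_lit 0) (cs (lf (nat_lit 41) (nat_lit 139)) (nd (nat_lit 98) (nat_lit 0) (cs (lf (nat_lit 25) (nat_lit 98)) (nd (nat_lit 228) (nat_lit 0) (cs (lf (nat_lit 35) (nat_lit 140)) (rf (nat_lit 7)))))))))))))))))) (cs (nd (nat_lit 139) (nat_lit 0) (cs (lf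 (nat_lit 22) (nat_lit 139)) (nd (nat_lit 188) (nat_lit 0) (cs (lf (nat_lit 4) (nat_lit 162)) (nd (nat_lit 166) (nat_lit 0) (cs (lf (nat_lit 5) (nat_lit 163)) (rf (nat_lit 8)))))))) (cs (nd (nat_lit 183) (nat_lit 0) (cs (lf (nat_lit 10) (nat_lit 161)) (nd (nat_lit 140) (nat_lit 0) (cs (lf (nat_lit 23) (nat_lit 139)) (nd (nat_lit 166) (nat_lit 0) (cs (lf (nat_lit 22) (nat_lit 140)) (rf (nat_lit 9)))))))) (nd (nat_lit 187) (nat_lit 0) (cs (lf (nat_lit 5) (nat_lit 162)) (nd (nat_lit 98) (nat_lit 0) (cs (lf (nat_lit 25) (nat_lit 98)) (nd (nat_lit 183) (nat_lit 0) (cs (lf (nat_lit 10) (nat_lit 161)) (nd (nat_lit 140) (nat_lit 0) (cs (lf (nat_lit 23) (nat_lit 139)) (nd (nat_lit 166) (nat_lit 0) (cs (lf (nat_lit 22) (nat_lit 140)) (rf (nat_lit 10)))))))))))))))))) (rf (nat_lit 11))))))) q32327 (by decide +kernel)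
def q32457 : Q := Q.p (nat_lit 0x2000000000010000040000000000000000000000000000000000000000000000) (nat_lit 0x140000700001f00007e000ffc003fe001ff80019e0006f800188000480000300000c00002000000000000000000000000000000) (nat_lit 16)
theorem c32457 : QOK q32457 := cut [q8, q26, q32260, q21929, q23372, q23384, q11815, q14913, q23428, q11666, q11728, q23388, q23401, q23411, q23390, q32409, q32422, q23400, q23409, q11597, q23438, q23470, q11637, q23397, q23464, q11659, q23454, q32432, q13089, q13630, q32453] ⟨c8, c26, c32260, c21929, c23372, c23384, c11815, c14913, c23428, c11666, c11728, c23388, c23401, c23411, c23390, c32409, c32422, c23400, c23409, c11597, c23438, c23470, c11637, c23397, c23464, c11659, c23454, c32432, c13089, c13630, c32453, trivial⟩ (nd (nat_lit 230) (nat_lit 0) (cs (rf (nat_lit 0)) (cs (rf (nat_lit 1)) (cs (nd (nat_lit 252) (nat_lit 0) (cs (lf (nat_lit 29) (nat_lit 186)) (rf (nat_lit 2)))) (nd (nat_lit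 275) (nat_lit 0) (cs (lf (nat_lit 27) (nat_lit 186)) (nd (nat_lit 297) (nat_lit 0) (cs (lf (nat_lit 45) (nat_lit 208)) (nd (nat_lit 319) (nat_lit 0) (cs (rf (nat_lit 3)) (cs (rf (nat_lit 4)) (cs (rf (nat_lit 5)) (cs (nd (nat_lit 296) (nat_lit 0) (cs (rf (nat_lit 6)) (cs (rf (nat_lit 7)) (cs (rf (nat_lit 8)) (cs (nd (nat_lit 295) (nat_lit 0) (cs (rf (nat_lit 9)) (cs (rf (nat_lit 10)) (cs (nd (nat_lit 298) (nat_lit 0) (cs (rf (nat_lit 11)) (cs (rf (nat_lit 12)) (cs (rf (nat_lit 13)) (cs (nd (nat_lit 276) (nat_lit 0) (cs (lf (nat_lit 17) (nat_lit 273)) (nd (nat_lit 341) (nat_lit 0) (cs (lf (nat_lit 30) (nat_lit 275)) (nd (nat_lit 342) (nat_lit 0) (cs (lf (nat_lit 29) (nat_lit 275)) (nd (nat_lit 273) (nat_lit 0) (cs (lf (nat_lit 23) (nat_lit 272)) (nd (nat_lit 317) (nat_lit 0) (cs (lf (nat_lit 11) (nat_lit 294)) (nd (nat_lit 251) (nat_lit 0) (cs (lf (nat_lit 33) (nat_lit 207)) (rf (nat_lit 14)))))))))))))) (nd (nat_lit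 316) (nat_lit 0) (cs (lf (nat_lit 10) (nat_lit 294)) (rf (nat_lit 15))))))))) (rf (nat_lit 16)))))) (nd (nat_lit 295) (nat_lit 0) (cs (rf (nat_lit 9)) (cs (rf (nat_lit 10)) (cs (rf (nat_lit 16)) (nd (nat_lit 298) (nat_lit 0) (cs (rf (nat_lit 17)) (cs (rf (nat_lit 18)) (cs (rf (nat_lit 15)) (nd (nat_lit 273) (nat_lit 0) (cs (lf (nat_lit 23) (nat_lit 272)) (nd (nat_lit 320) (nat_lit 0) (cs (lf (nat_lit 5) (nat_lit 295)) (nd (nat_lit 251) (nat_lit 0) (cs (lf (nat_lit 33) (nat_lit 207)) (nd (nat_lit 317) (nat_lit 0) (cs (lf (nat_lit 11) (nat_lit 294)) (nd (nat_lit 276) (nat_lit 0) (cs (lf (nat_lit 17) (nat_lit 273)) (rf (nat_lit 14))))))))))))))))))))))))) (cs (nd (nat_lit 298) (nat_lit 0) (cs (rf (nat_lit 19)) (cs (rf (nat_lit 20)) (cs (rf (nat_lit 21)) (nd (nat_lit 299) (nat_lit 0) (cs (rf (nat_lit 22)) (cs (rf (nat_lit 23)) (cs (rf (nat_lit 24)) (nd (nat_lit 296) (nat_lit 0) (cs (rf (nat_lit 25)) (cs (rf (nat_lit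 26)) (cs (nd (nat_lit 273) (nat_lit 0) (cs (lf (nat_lit 22) (nat_lit 273)) (rf (nat_lit 27)))) (nd (nat_lit 321) (nat_lit 0) (cs (lf (nat_lit 5) (nat_lit 296)) (nd (nat_lit 277) (nat_lit 0) (cs (lf (nat_lit 17) (nat_lit 274)) (nd (nat_lit 274) (nat_lit 0) (cs (lf (nat_lit 23) (nat_lit 273)) (nd (nat_lit 255) (nat_lit 0) (cs (rf (nat_lit 28)) (cs (nd (nat_lit 341) (nat_lit 0) (cs (lf (nat_lit 42) (nat_lit 274)) (nd (nat_lit 233) (nat_lit 0) (cs (lf (nat_lit 41) (nat_lit 232)) (nd (nat_lit 212) (nat_lit 0) (cs (lf (nat_lit 34) (nat_lit 211)) (nd (nat_lit 211) (nat_lit 0) (cs (lf (nat_lit 40) (nat_lit 210)) (lf (nat_lit 35) (nat_lit 189)))))))))) (cs (nd (nat_lit 233) (nat_lit 0) (cs (lf (nat_lit 41) (nat_lit 232)) (nd (nat_lit 276) (nat_lit 0) (cs (lf (nat_lit 17) (nat_lit 252)) (lf (nat_lit 36) (nat_lit 210)))))) (nd (nat_lit 233) (nat_lit 0) (cs (lf (nat_lit 41) (nat_lit 232)) (rf (nat_lit 29))))))))))))))))))))))))))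 (rf (nat_lit 30)))))))))))))))) q32457 (by decide +kernel)
def q32466 : Q := Q.p (nat_lit 0x100000400000e0000000000000000000000000000000000000000) (nat_lit 0x20000080000ac000100000e00001800002000000000000000000000000) (nat_lit 7)
theorem c32466 : QOK q32466 := cut [q32464] ⟨c32464, trivial⟩ (nd (nat_lit 164) (nat_lit 0) (cs (lf (nat_lit 5) (nat_lit 161)) (nd (nat_lit 182) (nat_lit 0) (cs (lf (nat_lit 10) (nat_lit 160)) (rf (nat_lit 0)))))) q32466 (by decide +kernel)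
def q32489 : Q := Q.p (nat_lit 0x100000400000c0000000000000000000000000000000000000000) (nat_lit 0x300000c00003c0000f0001b0000030000700001c00000000000000000000000000000) (nat_lit 10)
theorem c32489 : QOK q32489 := cut [q32472, q32473, q32474, q32478, q32483, q32488] ⟨c32472, c32473, c32474, c32478, c32483, c32488, trivial⟩ (nd (nat_lit 185) (nat_lit 0) (cs (rf (nat_lit 0)) (cs (nd (nat_lit 207) (nat_lit 0) (cs (rf (nat_lit 1)) (cs (rf (nat_lit 2)) (cs (nd (nat_lit 160) (nat_lit 0) (cs (lf (nat_lit 1) (nat_lit 160)) (rf (nat_lit 3)))) (nd (nat_lit 141) (nat_lit 0) (cs (lf (nat_lit 24) (nat_lit 119)) (nd (nat_lit 160) (nat_lit 0) (cs (lf (nat_lit 1) (nat_lit 160)) (nd (nat_lit 120) (nat_lit 0) (cs (lf (nat_lit 34) (nat_lit 119)) (rf (nat_lit 4)))))))))))) (rf (nat_lit 5))))) q32489 (by decide +kernel)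
def q32664 : Q := Q.p (nat_lit 0x2000000000004000030000040000000000000000000000000000000000000000) (nat_lit 0x80000380001e00003800008000000000000000380000e00002800000000000000000000000) (nat_lit 7)
theorem c32664 : QOK q32664 := cut [q17588, q19108, q335, q32661] ⟨c17588, c19108, c335, c32661, trivial⟩ (nd (nat_lit 228) (nat_lit 0) (cs (rf (nat_lit 0)) (cs (rf (nat_lit 1)) (cs (nd (nat_lit 249) (nat_lit 0) (cs (lf (nat_lit 40) (nat_lit 161)) (nd (nat_lit 250) (nat_lit 0) (cs (lf (nat_lit 41) (nat_lit 183)) (nd (nat_lit 207) (nat_lit 0) (cs (rf (nat_lit 2)) (lf (nat_lit 30) (nat_lit 184)))))))) (nd (nat_lit 249) (nat_lit 0) (cs (lf (nat_lit 40) (nat_lit 161)) (nd (nat_lit 250) (nat_lit 0) (cs (lf (nat_lit 41) (nat_lit 183)) (rf (nat_lit 3)))))))))) q32664 (by decide +kernel)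
def q32692 : Q := Q.p (nat_lit 0x10000050000040000100000000000000000000000000000000000) (nat_lit 0x80000e0000380000f8003a8000080000280000600000800000000000000000000000) (nat_lit 9)
theorem c32692 : QOK q32692 := cut [q32628, q32686, q32687, q32689] ⟨c32628, c32686, c32687, c32689, trivial⟩ (nd (nat_lit 206) (nat_lit 0) (cs (rf (nat_lit 0)) (cs (rf (nat_lit 1)) (cs (rf (nat_lit 2)) (nd (nat_lit 117) (nat_lit 0) (cs (lf (nat_lit 46) (nat_lit 117)) (nd (nat_lit 95) (nat_lit 0) (cs (lf (nat_lit 45) (nat_lit 95)) (rf (nat_lit 3)))))))))) q32692 (by decide +kernel)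
def q32744 : Q := Q.p (nat_lit 0x2000000000010000050000040000100000000000000000000000000000000000) (nat_lit 0x280001e0000380000e0003a0000080000200000000000000000000000000000000000) (nat_lit 7)
theorem c32744 : QOK q32744 := cut [q16276, q32687, q32689, q32743] ⟨c16276, c32687, c32689, c32743, trivial⟩ (nd (nat_lit 206) (nat_lit 0) (cs (rf (nat_lit 0)) (cs (rf (nat_lit 1)) (cs (rf (nat_lit 2)) (rf (nat_lit 3)))))) q32744 (by decide +kernel)
def q32985 : Q := Q.p (nat_lit 0x10000040000140000000002000000000000000000000000000000) (nat_lit 0x100004800077e001df800fff000fe0001f00007c0000000) (nat_lit 14)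
theorem c32985 : QOK q32985 := cut [q32822, q32825, q32838, q32845, q32852, q32855, q32858, q32871, q32605, q32844, q32970, q32972, q32976, q32935, q18161] ⟨c32822, c32825, c32838, c32845, c32852, c32855, c32858, c32871, c32605, c32844, c32970, c32972, c32976, c32935, c18161, trivial⟩ (nd (nat_lit 119) (nat_lit 0) (cs (rf (nat_lit 0)) (cs (nd (nat_lit 120) (nat_lit 0) (cs (nd (nat_lit 142) (nat_lit 0) (cs (lf (nat_lit 35) (nat_lit 98)) (lf (nat_lit 46) (nat_lit 119)))) (cs (nd (nat_lit 122) (nat_lit 0) (cs (nd (nat_lit 101) (nat_lit 0) (cs (lf (nat_lit 16) (nat_lit 97)) (nd (nat_lit 123) (nat_lit 0) (cs (lf (nat_lit 17) (nat_lit 98)) (rf (nat_lit 1)))))) (nd (nat_lit 140) (nat_lit 0) (cs (lf (nat_lit 10) (nat_lit 118)) (nd (nat_lit 118) (nat_lit 0) (cs (lf (nat_lit 11) (nat_lit 117)) (nd (nat_lit 95) (nat_lit 0) (cs (nd (nat_lit 117) (nat_lit 0) (cs (lf (nat_lit 42) (nat_lit 95)) (lf (nat_lit 23) (nat_lit 94))))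 (lf (nat_lit 22) (nat_lit 95)))))))))) (rf (nat_lit 2))))) (cs (nd (nat_lit 120) (nat_lit 0) (cs (rf (nat_lit 2)) (cs (rf (nat_lit 3)) (cs (nd (nat_lit 118) (nat_lit 0) (cs (rf (nat_lit 4)) (cs (rf (nat_lit 5)) (cs (rf (nat_lit 6)) (nd (nat_lit 139) (nat_lit 0) (cs (lf (nat_lit 10) (nat_lit 117)) (nd (nat_lit 96) (nat_lit 0) (cs (lf (nat_lit 23) (nat_lit 95)) (nd (nat_lit 99) (nat_lit 0) (cs (lf (nat_lit 17) (nat_lit 96)) (nd (nat_lit 122) (nat_lit 0) (cs (lf (nat_lit 22) (nat_lit 96)) (nd (nat_lit 145) (nat_lit 0) (cs (lf (nat_lit 4) (nat_lit 119)) (nd (nat_lit 123) (nat_lit 0) (cs (lf (nat_lit 5) (nat_lit 120)) (nd (nat_lit 124) (nat_lit 0) (cs (nd (nat_lit 102) (nat_lit 0) (cs (lf (nat_lit 17) (nat_lit 99)) (lf (nat_lit 16) (nat_lit 98)))) (lf (nat_lit 23) (nat_lit 98)))))))))))))))))))) (rf (nat_lit 7)))))) (cs (nd (nat_lit 97) (nat_lit 0) (cs (nd (nat_lit 141) (nat_lit 0) (cs (rf (nat_lit 8)) (lf (nat_lit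 27) (nat_lit 97)))) (cs (nd (nat_lit 120) (nat_lit 0) (cs (rf (nat_lit 9)) (cs (nd (nat_lit 118) (nat_lit 0) (cs (rf (nat_lit 5)) (nd (nat_lit 140) (nat_lit 0) (cs (lf (nat_lit 11) (nat_lit 117)) (lf (nat_lit 30) (nat_lit 96)))))) (cs (nd (nat_lit 141) (nat_lit 0) (cs (lf (nat_lit 27) (nat_lit 97)) (nd (nat_lit 122) (nat_lit 0) (cs (lf (nat_lit 11) (nat_lit 118)) (nd (nat_lit 100) (nat_lit 0) (cs (lf (nat_lit 17) (nat_lit 97)) (nd (nat_lit 99) (nat_lit 0) (cs (lf (nat_lit 12) (nat_lit 96)) (nd (nat_lit 98) (nat_lit 0) (cs (nd (nat_lit 78) (nat_lit 0) (cs (nd (nat_lit 34) (nat_lit 0) (cs (nd (nat_lit 54) (nat_lit 0) (cs (nd (nat_lit 144) (nat_lit 0) (cs (nd (nat_lit 77) (nat_lit 0) (cs (lf (nat_lit 47) (nat_lit 55)) (lf (nat_lit 42) (nat_lit 77)))) (lf (nat_lit 5) (nat_lit 119)))) (lf (nat_lit 37) (nat_lit 53)))) (lf (nat_lit 37) (nat_lit 33)))) (lf (nat_lit 17) (nat_lit 75)))) (lf (nat_lit 5) (nat_lit 97))))))))))))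 (nd (nat_lit 141) (nat_lit 0) (cs (lf (nat_lit 27) (nat_lit 97)) (nd (nat_lit 122) (nat_lit 0) (cs (lf (nat_lit 23) (nat_lit 96)) (lf (nat_lit 11) (nat_lit 118)))))))))) (cs (rf (nat_lit 10)) (nd (nat_lit 118) (nat_lit 0) (cs (nd (nat_lit 140) (nat_lit 0) (cs (lf (nat_lit 30) (nat_lit 96)) (rf (nat_lit 11)))) (cs (nd (nat_lit 140) (nat_lit 0) (cs (lf (nat_lit 30) (nat_lit 96)) (nd (nat_lit 53) (nat_lit 0) (cs (nd (nat_lit 120) (nat_lit 0) (cs (lf (nat_lit 11) (nat_lit 117)) (rf (nat_lit 12)))) (lf (nat_lit 37) (nat_lit 52)))))) (nd (nat_lit 120) (nat_lit 0) (cs (rf (nat_lit 9)) (cs (rf (nat_lit 13)) (rf (nat_lit 12)))))))))))) (nd (nat_lit 142) (nat_lit 0) (cs (lf (nat_lit 46) (nat_lit 119)) (rf (nat_lit 14))))))))) q32985 (by decide +kernel)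
def q33032 : Q := Q.p (nat_lit 0x18000070000140000400000000000000000000000000000000000) (nat_lit 0x80000200001c001c7000380001e00000380000600000000000000000000000000000) (nat_lit 7)
theorem c33032 : QOK q33032 := cut [q32665, q33025] ⟨c32665, c33025, trivial⟩ (nd (nat_lit 206) (nat_lit 0) (cs (rf (nat_lit 0)) (cs (nd (nat_lit 118) (nat_lit 0) (cs (lf (nat_lit 25) (nat_lit 118)) (rf (nat_lit 1)))) (nd (nat_lit 187) (nat_lit 0) (cs (lf (nat_lit 6) (nat_lit 184)) (nd (nat_lit 165) (nat_lit 0) (cs (lf (nat_lit 17) (nat_lit 162)) (nd (nat_lit 140) (nat_lit 0) (cs (lf (nat_lit 24) (nat_lit 118)) (nd (nat_lit 139) (nat_lit 0) (cs (lf (nat_lit 47) (nat_lit 117)) (lf (nat_lit 2) (nat_lit 139))))))))))))) q33032 (by decide +kernel)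
def q33125 : Q := Q.p (nat_lit 0x100000400003c0000000000000000000000000000000000000000) (nat_lit 0x200000800003e0000f0001be000000000580000e0000380000a000000000000000000) (nat_lit 10)
theorem c33125 : QOK q33125 := cut [q33069, q19066, q33123] ⟨c33069, c19066, c33123, trivial⟩ (nd (nat_lit 140) (nat_lit 0) (cs (lf (nat_lit 23) (nat_lit 139)) (nd (nat_lit 207) (nat_lit 0) (cs (rf (nat_lit 0)) (cs (nd (nat_lit 187) (nat_lit 0) (cs (lf (nat_lit 5) (nat_lit 162)) (nd (nat_lit 184) (nat_lit 0) (cs (lf (nat_lit 11) (nat_lit 161)) (nd (nat_lit 205) (nat_lit 0) (cs (lf (nat_lit 13) (nat_lit 183)) (nd (nat_lit 118) (nat_lit 0) (cs (lf (nat_lit 28) (nat_lit 118)) (rf (nat_lit 1)))))))))) (rf (nat_lit 2))))))) q33125 (by decide +kernel)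
def q33280 : Q := Q.p (nat_lit 0x18000040000340000000002000000000000000000000000000000) (nat_lit 0x80000200011e000c7001fbe007c0001f5c007de0007fc000e8000000000000000000) (nat_lit 13)
theorem c33280 : QOK q33280 := cut [q33190, q527, q32527, q33094, q19216, q32858, q33210, q33216, q33232, q33235, q33258, q33261, q33273, q33279] ⟨c33190, c527, c32527, c33094, c19216, c32858, c33210, c33216, c33232, c33235, c33258, c33261, c33273, c33279, trivial⟩ (nd (nat_lit 120) (nat_lit 0) (cs (nd (nat_lit 142) (nat_lit 0) (cs (lf (nat_lit 40) (nat_lit 119)) (lf (nat_lit 35) (nat_lit 98)))) (cs (nd (nat_lit 142) (nat_lit 0) (cs (lf (nat_lit 40) (nat_lit 119)) (rf (nat_lit 0)))) (cs (nd (nat_lit 166) (nat_lit 0) (cs (nd (nat_lit 206) (nat_lit 0) (cs (rf (nat_lit 1)) (cs (rf (nat_lit 2)) (cs (rf (nat_lit 3)) (nd (nat_lit 188) (nat_lit 0) (cs (nd (nat_lit 187) (nat_lit 0) (cs (lf (nat_lit 6) (nat_lit 185)) (lf (nat_lit 9) (nat_lit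 184)))) (cs (nd (nat_lit 122) (nat_lit 0) (cs (nd (nat_lit 119) (nat_lit 0) (cs (nd (nat_lit 118) (nat_lit 0) (cs (rf (nat_lit 4)) (cs (rf (nat_lit 5)) (nd (nat_lit 144) (nat_lit 0) (cs (lf (nat_lit 5) (nat_lit 119)) (nd (nat_lit 100) (nat_lit 0) (cs (lf (nat_lit 17) (nat_lit 97)) (nd (nat_lit 189) (nat_lit 0) (cs (lf (nat_lit 29) (nat_lit 122)) (nd (nat_lit 140) (nat_lit 0) (cs (lf (nat_lit 11) (nat_lit 117)) (nd (nat_lit 184) (nat_lit 0) (cs (lf (nat_lit 35) (nat_lit 96)) (lf (nat_lit 28) (nat_lit 118))))))))))))))) (cs (nd (nat_lit 96) (nat_lit 0) (cs (lf (nat_lit 22) (nat_lit 96)) (nd (nat_lit 100) (nat_lit 0) (cs (lf (nat_lit 17) (nat_lit 97)) (nd (nat_lit 118) (nat_lit 0) (cs (lf (nat_lit 23) (nat_lit 95)) (lf (nat_lit 16) (nat_lit 96)))))))) (nd (nat_lit 144) (nat_lit 0) (cs (lf (nat_lit 47) (nat_lit 99)) (lf (nat_lit 5) (nat_lit 119))))))) (cs (rf (nat_lit 6)) (cs (rf (nat_lit 7)) (cs (rf (nat_lit 8))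 (cs (rf (nat_lit 9)) (nd (nat_lit 144) (nat_lit 0) (cs (lf (nat_lit 47) (nat_lit 99)) (nd (nat_lit 101) (nat_lit 0) (cs (lf (nat_lit 34) (nat_lit 100)) (nd (nat_lit 100) (nat_lit 0) (cs (lf (nat_lit 35) (nat_lit 78)) (lf (nat_lit 12) (nat_lit 97)))))))))))))) (cs (nd (nat_lit 122) (nat_lit 0) (cs (rf (nat_lit 6)) (cs (rf (nat_lit 8)) (cs (rf (nat_lit 9)) (nd (nat_lit 185) (nat_lit 0) (cs (lf (nat_lit 7) (nat_lit 184)) (nd (nat_lit 184) (nat_lit 0) (cs (lf (nat_lit 12) (nat_lit 161)) (nd (nat_lit 118) (nat_lit 0) (cs (lf (nat_lit 25) (nat_lit 118)) (nd (nat_lit 99) (nat_lit 0) (cs (nd (nat_lit 119) (nat_lit 0) (cs (rf (nat_lit 4)) (lf (nat_lit 17) (nat_lit 96)))) (lf (nat_lit 44) (nat_lit 99)))))))))))))) (nd (nat_lit 122) (nat_lit 0) (cs (rf (nat_lit 6)) (cs (rf (nat_lit 7)) (cs (rf (nat_lit 8)) (nd (nat_lit 187) (nat_lit 0) (cs (lf (nat_lit 6) (nat_lit 185)) (nd (nat_lit 144) (nat_lit 0) (cs (lf (nat_lit 36)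 (nat_lit 99)) (lf (nat_lit 47) (nat_lit 99)))))))))))))))))) (cs (nd (nat_lit 167) (nat_lit 0) (cs (lf (nat_lit 11) (nat_lit 163)) (nd (nat_lit 189) (nat_lit 0) (cs (lf (nat_lit 5) (nat_lit 164)) (nd (nat_lit 187) (nat_lit 0) (cs (lf (nat_lit 6) (nat_lit 164)) (lf (nat_lit 7) (nat_lit 185)))))))) (cs (rf (nat_lit 10)) (cs (rf (nat_lit 11)) (cs (nd (nat_lit 167) (nat_lit 0) (cs (lf (nat_lit 11) (nat_lit 163)) (nd (nat_lit 145) (nat_lit 0) (cs (lf (nat_lit 17) (nat_lit 142)) (nd (nat_lit 168) (nat_lit 0) (cs (lf (nat_lit 10) (nat_lit 164)) (nd (nat_lit 191) (nat_lit 0) (cs (lf (nat_lit 4) (nat_lit 165)) (nd (nat_lit 169) (nat_lit 0) (cs (lf (nat_lit 5) (nat_lit 166)) (nd (nat_lit 144) (nat_lit 0) (cs (lf (nat_lit 18) (nat_lit 144)) (nd (nat_lit 122) (nat_lit 0) (cs (lf (nat_lit 0) (nat_lit 119)) (nd (nat_lit 147) (nat_lit 0) (cs (lf (nat_lit 17) (nat_lit 144)) (nd (nat_lit 100) (nat_lit 0) (cs (lf (nat_lit 24)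 (nat_lit 78)) (nd (nat_lit 99) (nat_lit 0) (cs (lf (nat_lit 47) (nat_lit 77)) (lf (nat_lit 42) (nat_lit 99)))))))))))))))))))))) (nd (nat_lit 167) (nat_lit 0) (cs (lf (nat_lit 11) (nat_lit 163)) (nd (nat_lit 145) (nat_lit 0) (cs (lf (nat_lit 17) (nat_lit 142)) (nd (nat_lit 187) (nat_lit 0) (cs (lf (nat_lit 6) (nat_lit 164)) (nd (nat_lit 188) (nat_lit 0) (cs (lf (nat_lit 6) (nat_lit 185)) (rf (nat_lit 12)))))))))))))))) (rf (nat_lit 13)))))) q33280 (by decide +kernel)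
def q33347 : Q := Q.p (nat_lit 0x10000040000340000000000000000000000000000000000000000) (nat_lit 0x80000280000e0001b8000c80000d80003e0000f80000a000000000000000000) (nat_lit 10)
theorem c33347 : QOK q33347 := cut [q456, q32721, q32986, q33281, q33282, q33279, q33313, q33315, q33335, q454, q8811, q524] ⟨c456, c32721, c32986, c33281, c33282, c33279, c33313, c33315, c33335, c454, c8811, c524, trivial⟩ (nd (nat_lit 184) (nat_lit 0) (cs (rf (nat_lit 0)) (cs (rf (nat_lit 1)) (cs (nd (nat_lit 121) (nat_lit 0) (cs (rf (nat_lit 2)) (cs (rf (nat_lit 3)) (cs (rf (nat_lit 4)) (nd (nat_lit 120) (nat_lit 0) (cs (rf (nat_lit 5)) (cs (nd (nat_lit 140) (nat_lit 0) (cs (rf (nat_lit 6)) (cs (rf (nat_lit 7)) (cs (nd (nat_lit 118) (nat_lit 0) (cs (nd (nat_lit 95) (nat_lit 0) (cs (lf (nat_lit 46) (nat_lit 95)) (nd (nat_lit 183) (nat_lit 0) (cs (lf (nat_lit 41) (nat_lit 117)) (nd (nat_lit 96) (nat_lit 0) (cs (lf (nat_lit 47) (nat_lit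 73)) (nd (nat_lit 97) (nat_lit 0) (cs (lf (nat_lit 35) (nat_lit 74)) (lf (nat_lit 3) (nat_lit 95)))))))))) (cs (nd (nat_lit 119) (nat_lit 0) (cs (lf (nat_lit 35) (nat_lit 96)) (lf (nat_lit 11) (nat_lit 117)))) (nd (nat_lit 95) (nat_lit 0) (cs (lf (nat_lit 46) (nat_lit 95)) (nd (nat_lit 119) (nat_lit 0) (cs (lf (nat_lit 11) (nat_lit 117)) (lf (nat_lit 22) (nat_lit 95))))))))) (nd (nat_lit 139) (nat_lit 0) (cs (lf (nat_lit 20) (nat_lit 139)) (nd (nat_lit 118) (nat_lit 0) (cs (nd (nat_lit 117) (nat_lit 0) (cs (lf (nat_lit 47) (nat_lit 95)) (lf (nat_lit 42) (nat_lit 117)))) (lf (nat_lit 8) (nat_lit 117)))))))))) (cs (nd (nat_lit 140) (nat_lit 0) (cs (rf (nat_lit 6)) (cs (rf (nat_lit 7)) (nd (nat_lit 142) (nat_lit 0) (cs (lf (nat_lit 35) (nat_lit 98)) (nd (nat_lit 119) (nat_lit 0) (cs (lf (nat_lit 47) (nat_lit 97)) (nd (nat_lit 207) (nat_lit 0) (cs (lf (nat_lit 41) (nat_lit 141)) (nd (nat_lit 118) (nat_lit 0) (cs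 (lf (nat_lit 11) (nat_lit 117)) (nd (nat_lit 95) (nat_lit 0) (cs (lf (nat_lit 46) (nat_lit 95)) (lf (nat_lit 22) (nat_lit 95))))))))))))))) (nd (nat_lit 142) (nat_lit 0) (cs (lf (nat_lit 35) (nat_lit 98)) (nd (nat_lit 163) (nat_lit 0) (cs (lf (nat_lit 11) (nat_lit 161)) (rf (nat_lit 8)))))))))))))) (nd (nat_lit 185) (nat_lit 0) (cs (rf (nat_lit 9)) (cs (rf (nat_lit 10)) (nd (nat_lit 207) (nat_lit 0) (cs (rf (nat_lit 11)) (cs (nd (nat_lit 140) (nat_lit 0) (cs (lf (nat_lit 24) (nat_lit 118)) (nd (nat_lit 229) (nat_lit 0) (cs (lf (nat_lit 30) (nat_lit 163)) (lf (nat_lit 45) (nat_lit 140)))))) (nd (nat_lit 120) (nat_lit 0) (cs (lf (nat_lit 37) (nat_lit 119)) (nd (nat_lit 140) (nat_lit 0) (cs (lf (nat_lit 24) (nat_lit 118)) (nd (nat_lit 139) (nat_lit 0) (cs (lf (nat_lit 20) (nat_lit 139)) (nd (nat_lit 206) (nat_lit 0) (cs (lf (nat_lit 47) (nat_lit 117)) (nd (nat_lit 205) (nat_lit 0) (cs (lf (nat_lit 41) (nat_lit 139))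 (lf (nat_lit 6) (nat_lit 183)))))))))))))))))))))) q33347 (by decide +kernel)
def q33772 : Q := Q.p (nat_lit 0x10000040000040000500001000000000000000000000000000000) (nat_lit 0x2000008000028000120000080006fe000ff0007fe000fe0003c0000b00) (nat_lit 14)
theorem c33772 : QOK q33772 := cut [q33656, q33567, q33524, q33744, q33761, q33572, q33648, q33654, q33581, q33599, q33623, q33624, q33587] ⟨c33656, c33567, c33524, c33744, c33761, c33572, c33648, c33654, c33581, c33599, c33623, c33624, c33587, trivial⟩ (nd (nat_lit 97) (nat_lit 0) (cs (rf (nat_lit 0)) (cs (nd (nat_lit 98) (nat_lit 0) (cs (rf (nat_lit 1)) (cs (nd (nat_lit 99) (nat_lit 0) (cs (nd (nat_lit 121) (nat_lit 0) (cs (nd (nat_lit 96) (nat_lit 0) (cs (lf (nat_lit 0) (nat_lit 95)) (lf (nat_lit 5) (nat_lit 96)))) (lf (nat_lit 31) (nat_lit 98)))) (cs (nd (nat_lit 77) (nat_lit 0) (cs (rf (nat_lit 2)) (lf (nat_lit 30) (nat_lit 76)))) (nd (nat_lit 96) (nat_lit 0)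 (cs (nd (nat_lit 121) (nat_lit 0) (cs (lf (nat_lit 0) (nat_lit 95)) (lf (nat_lit 5) (nat_lit 96)))) (cs (nd (nat_lit 73) (nat_lit 0) (cs (nd (nat_lit 117) (nat_lit 0) (cs (nd (nat_lit 121) (nat_lit 0) (cs (lf (nat_lit 5) (nat_lit 96)) (rf (nat_lit 3)))) (lf (nat_lit 10) (nat_lit 95)))) (lf (nat_lit 22) (nat_lit 73)))) (nd (nat_lit 73) (nat_lit 0) (cs (lf (nat_lit 22) (nat_lit 73)) (nd (nat_lit 95) (nat_lit 0) (cs (lf (nat_lit 23) (nat_lit 72)) (lf (nat_lit 44) (nat_lit 73)))))))))))) (nd (nat_lit 96) (nat_lit 0) (cs (nd (nat_lit 75) (nat_lit 0) (cs (lf (nat_lit 32) (nat_lit 74)) (nd (nat_lit 53) (nat_lit 0) (cs (lf (nat_lit 24) (nat_lit 31)) (lf (nat_lit 45) (nat_lit 53)))))) (cs (nd (nat_lit 95) (nat_lit 0) (cs (lf (nat_lit 5) (nat_lit 95)) (nd (nat_lit 116) (nat_lit 0) (cs (lf (nat_lit 10) (nat_lit 94)) (nd (nat_lit 94) (nat_lit 0) (cs (nd (nat_lit 76) (nat_lit 0) (cs (lf (nat_lit 17) (nat_lit 73)) (lf (nat_lit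 16) (nat_lit 72)))) (lf (nat_lit 11) (nat_lit 93)))))))) (nd (nat_lit 95) (nat_lit 0) (cs (lf (nat_lit 5) (nat_lit 95)) (rf (nat_lit 4)))))))))) (nd (nat_lit 96) (nat_lit 0) (cs (rf (nat_lit 5)) (cs (rf (nat_lit 6)) (cs (rf (nat_lit 7)) (nd (nat_lit 95) (nat_lit 0) (cs (rf (nat_lit 8)) (cs (rf (nat_lit 9)) (cs (rf (nat_lit 10)) (cs (rf (nat_lit 11)) (nd (nat_lit 98) (nat_lit 0) (cs (lf (nat_lit 5) (nat_lit 95)) (nd (nat_lit 116) (nat_lit 0) (cs (lf (nat_lit 10) (nat_lit 94)) (nd (nat_lit 76) (nat_lit 0) (cs (lf (nat_lit 17) (nat_lit 73)) (nd (nat_lit 53) (nat_lit 0) (cs (lf (nat_lit 46) (nat_lit 53)) (nd (nat_lit 72) (nat_lit 0) (cs (rf (nat_lit 12)) (lf (nat_lit 22) (nat_lit 72)))))))))))))))))))))))) q33772 (by decide +kernel)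
def q34008 : Q := Q.p (nat_lit 0x10000040000040000500000400000000000000000000000000000) (nat_lit 0x2e0000ff000af80013f0002fc003bf000ee0000f80002e000028000000) (nat_lit 14)
theorem c34008 : QOK q34008 := cut [q33792, q33796, q33927, q33978, q33980, q33984, q34007] ⟨c33792, c33796, c33927, c33978, c33980, c33984, c34007, trivial⟩ (nd (nat_lit 119) (nat_lit 0) (cs (rf (nat_lit 0)) (cs (nd (nat_lit 138) (nat_lit 0) (cs (nd (nat_lit 141) (nat_lit 0) (cs (lf (nat_lit 44) (nat_lit 119)) (nd (nat_lit 116) (nat_lit 0) (cs (lf (nat_lit 1) (nat_lit 116)) (nd (nat_lit 139) (nat_lit 0) (cs (lf (nat_lit 23) (nat_lit 115)) (lf (nat_lit 12) (nat_lit 115)))))))) (cs (nd (nat_lit 141) (nat_lit 0) (cs (lf (nat_lit 44) (nat_lit 119)) (nd (nat_lit 75) (nat_lit 0) (cs (lf (nat_lit 37) (nat_lit 74)) (nd (nat_lit 139) (nat_lit 0) (cs (lf (nat_lit 12) (nat_lit 115)) (rf (nat_lit 1)))))))) (cs (nd (nat_lit 141) (nat_lit 0) (cs (lf (nat_lit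 44) (nat_lit 119)) (nd (nat_lit 75) (nat_lit 0) (cs (lf (nat_lit 37) (nat_lit 74)) (nd (nat_lit 116) (nat_lit 0) (cs (lf (nat_lit 1) (nat_lit 116)) (nd (nat_lit 139) (nat_lit 0) (cs (lf (nat_lit 23) (nat_lit 115)) (rf (nat_lit 1)))))))))) (cs (rf (nat_lit 2)) (rf (nat_lit 3))))))) (cs (rf (nat_lit 4)) (cs (rf (nat_lit 5)) (rf (nat_lit 6))))))) q34008 (by decide +kernel)
def q34122 : Q := Q.p (nat_lit 0x70000100000000000000000000000000000000000) (nat_lit 0xc0000300001c0000780000c0000f80001c0000700001c00005000000000000) (nat_lit 11)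
theorem c34122 : QOK q34122 := cut [q34116, q34120] ⟨c34116, c34120, trivial⟩ (nd (nat_lit 159) (nat_lit 0) (cs (rf (nat_lit 0)) (cs (nd (nat_lit 180) (nat_lit 0) (cs (lf (nat_lit 10) (nat_lit 158)) (nd (nat_lit 158) (nat_lit 0) (cs (lf (nat_lit 11) (nat_lit 157)) (lf (nat_lit 16) (nat_lit 136)))))) (nd (nat_lit 136) (nat_lit 0) (cs (lf (nat_lit 22) (nat_lit 136)) (rf (nat_lit 1))))))) q34122 (by decide +kernel)
def q34442 : Q := Q.p (nat_lit 0x10000000000040000700000000000000000000000000000000000) (nat_lit 0x180000f00000c0000380000c0003f80001c00007000000000000000000) (nat_lit 12)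
theorem c34442 : QOK q34442 := cut [q6479, q9145, q34438, q34441] ⟨c6479, c9145, c34438, c34441, trivial⟩ (nd (nat_lit 139) (nat_lit 0) (cs (rf (nat_lit 0)) (cs (rf (nat_lit 1)) (cs (rf (nat_lit 2)) (rf (nat_lit 3)))))) q34442 (by decide +kernel)
def q34539 : Q := Q.p (nat_lit 0x10000040000040000300000000000000000000000000000000000) (nat_lit 0x80000738000cc0007b80000000000000000000000000000) (nat_lit 7)
theorem c34539 : QOK q34539 := cut [q33510, q33511, q33514, q33517] ⟨c33510, c33511, c33514, c33517, trivial⟩ (nd (nat_lit 142) (nat_lit 0) (cs (rf (nat_lit 0)) (cs (rf (nat_lit 1)) (cs (rf (nat_lit 2)) (rf (nat_lit 3)))))) q34539 (by decide +kernel)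
def q34739 : Q := Q.p (nat_lit 0x2000000000010000040000040000100000000000000000000000000000000000) (nat_lit 0x80000e0000380001e0000380000f8003bc000f00001e80007f8000f80007a000000000000000000) (nat_lit 16)
theorem c34739 : QOK q34739 := cut [q34677, q19066, q34689, q34696, q34691, q32520, q34721, q34725, q34731, q32628, q32686, q34734, q34737] ⟨c34677, c19066, c34689, c34696, c34691, c32520, c34721, c34725, c34731, c32628, c32686, c34734, c34737, trivial⟩ (nd (nat_lit 184) (nat_lit 0) (cs (rf (nat_lit 0)) (cs (nd (nat_lit 118) (nat_lit 0) (cs (rf (nat_lit 1)) (cs (rf (nat_lit 2)) (cs (rf (nat_lit 3)) (nd (nat_lit 142) (nat_lit 0) (cs (nd (nat_lit 183) (nat_lit 0) (cs (lf (nat_lit 41) (nat_lit 117)) (nd (nat_lit 185) (nat_lit 0) (cs (lf (nat_lit 29) (nat_lit 118)) (nd (nat_lit 164) (nat_lit 0) (cs (lf (nat_lit 17) (nat_lit 161)) (nd (nat_lit 119) (nat_lit 0) (cs (lf (nat_lit 46) (nat_lit 119)) (rf (nat_lit 4))))))))))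 (cs (nd (nat_lit 117) (nat_lit 0) (cs (lf (nat_lit 47) (nat_lit 95)) (nd (nat_lit 183) (nat_lit 0) (cs (lf (nat_lit 41) (nat_lit 117)) (nd (nat_lit 185) (nat_lit 0) (cs (lf (nat_lit 29) (nat_lit 118)) (nd (nat_lit 164) (nat_lit 0) (cs (lf (nat_lit 17) (nat_lit 161)) (nd (nat_lit 141) (nat_lit 0) (cs (lf (nat_lit 47) (nat_lit 119)) (rf (nat_lit 5)))))))))))) (cs (nd (nat_lit 95) (nat_lit 0) (cs (lf (nat_lit 46) (nat_lit 95)) (nd (nat_lit 96) (nat_lit 0) (cs (lf (nat_lit 47) (nat_lit 73)) (nd (nat_lit 183) (nat_lit 0) (cs (lf (nat_lit 41) (nat_lit 117)) (nd (nat_lit 185) (nat_lit 0) (cs (lf (nat_lit 29) (nat_lit 118)) (nd (nat_lit 164) (nat_lit 0) (cs (lf (nat_lit 17) (nat_lit 161)) (nd (nat_lit 121) (nat_lit 0) (cs (lf (nat_lit 34) (nat_lit 120)) (nd (nat_lit 120) (nat_lit 0) (cs (lf (nat_lit 35) (nat_lit 98)) (lf (nat_lit 20) (nat_lit 95)))))))))))))))) (nd (nat_lit 117) (nat_lit 0) (cs (lf (nat_lit 47) (nat_lit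 95)) (nd (nat_lit 141) (nat_lit 0) (cs (rf (nat_lit 5)) (lf (nat_lit 18) (nat_lit 117)))))))))))))) (cs (nd (nat_lit 118) (nat_lit 0) (cs (rf (nat_lit 1)) (cs (rf (nat_lit 6)) (nd (nat_lit 185) (nat_lit 0) (cs (lf (nat_lit 29) (nat_lit 118)) (rf (nat_lit 7))))))) (cs (rf (nat_lit 8)) (cs (nd (nat_lit 206) (nat_lit 0) (cs (rf (nat_lit 9)) (cs (rf (nat_lit 10)) (rf (nat_lit 11))))) (nd (nat_lit 206) (nat_lit 0) (cs (rf (nat_lit 9)) (cs (rf (nat_lit 10)) (rf (nat_lit 12))))))))))) q34739 (by decide +kernel)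
def q34771 : Q := Q.p (nat_lit 0x10000050000040000100000000000000000000000000000000000) (nat_lit 0x60000a8000730000e00006c00003000008000000000000000000) (nat_lit 7)
theorem c34771 : QOK q34771 := cut [q5874, q34536] ⟨c5874, c34536, trivial⟩ (nd (nat_lit 119) (nat_lit 0) (cs (rf (nat_lit 0)) (cs (nd (nat_lit 141) (nat_lit 0) (cs (lf (nat_lit 30) (nat_lit 118)) (rf (nat_lit 1)))) (nd (nat_lit 118) (nat_lit 0) (cs (lf (nat_lit 35) (nat_lit 96)) (nd (nat_lit 183) (nat_lit 0) (cs (lf (nat_lit 41) (nat_lit 117)) (nd (nat_lit 161) (nat_lit 0) (cs (lf (nat_lit 36) (nat_lit 95)) (nd (nat_lit 185) (nat_lit 0) (cs (lf (nat_lit 18) (nat_lit 161)) (lf (nat_lit 23) (nat_lit 160))))))))))))) q34771 (by decide +kernel)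
def q35007 : Q := Q.p (nat_lit 0x40000040000100000400000000000000000000000000000) (nat_lit 0x1000004000138000ef800fbc001ff0007fc000380000e0000200) (nat_lit 13)
theorem c35007 : QOK q35007 := cut [q24124, q34875, q34926, q34937, q34945, q34948, q34950, q34961, q34966, q34971, q34979, q34982, q34985, q35006] ⟨c24124, c34875, c34926, c34937, c34945, c34948, c34950, c34961, c34966, c34971, c34979, c34982, c34985, c35006, trivial⟩ (nd (nat_lit 96) (nat_lit 0) (cs (rf (nat_lit 0)) (cs (rf (nat_lit 1)) (cs (rf (nat_lit 2)) (cs (rf (nat_lit 3)) (cs (nd (nat_lit 117) (nat_lit 0) (cs (nd (nat_lit 75) (nat_lit 0) (cs (lf (nat_lit 34) (nat_lit 74)) (nd (nat_lit 74) (nat_lit 0) (cs (lf (nat_lit 35) (nat_lit 52)) (nd (nat_lit 139) (nat_lit 0) (cs (lf (nat_lit 41) (nat_lit 73)) (lf (nat_lit 36) (nat_lit 51)))))))) (cs (nd (nat_lit 116) (nat_lit 0) (cs (rf (nat_lit 4)) (cs (nd (nat_lit 119) (nat_lit 0) (cs (rf (nat_lit 5)) (cs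 (nd (nat_lit 141) (nat_lit 0) (cs (nd (nat_lit 74) (nat_lit 0) (cs (lf (nat_lit 24) (nat_lit 52)) (nd (nat_lit 93) (nat_lit 0) (cs (lf (nat_lit 22) (nat_lit 93)) (nd (nat_lit 139) (nat_lit 0) (cs (lf (nat_lit 41) (nat_lit 73)) (nd (nat_lit 138) (nat_lit 0) (cs (lf (nat_lit 12) (nat_lit 115)) (nd (nat_lit 53) (nat_lit 0) (cs (lf (nat_lit 34) (nat_lit 52)) (rf (nat_lit 6)))))))))))) (lf (nat_lit 5) (nat_lit 116)))) (cs (nd (nat_lit 137) (nat_lit 0) (cs (lf (nat_lit 10) (nat_lit 115)) (nd (nat_lit 93) (nat_lit 0) (cs (lf (nat_lit 22) (nat_lit 93)) (rf (nat_lit 7)))))) (cs (nd (nat_lit 137) (nat_lit 0) (cs (lf (nat_lit 10) (nat_lit 115)) (rf (nat_lit 8)))) (nd (nat_lit 93) (nat_lit 0) (cs (lf (nat_lit 22) (nat_lit 93)) (nd (nat_lit 137) (nat_lit 0) (cs (lf (nat_lit 10) (nat_lit 115)) (rf (nat_lit 9))))))))))) (cs (rf (nat_lit 10)) (cs (rf (nat_lit 11)) (rf (nat_lit 12))))))) (cs (nd (nat_lit 97) (nat_lit 0) (cs (lf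 (nat_lit 35) (nat_lit 74)) (nd (nat_lit 98) (nat_lit 0) (cs (lf (nat_lit 6) (nat_lit 95)) (nd (nat_lit 116) (nat_lit 0) (cs (lf (nat_lit 12) (nat_lit 93)) (lf (nat_lit 9) (nat_lit 94)))))))) (nd (nat_lit 116) (nat_lit 0) (cs (rf (nat_lit 4)) (cs (rf (nat_lit 10)) (cs (rf (nat_lit 11)) (cs (rf (nat_lit 12)) (nd (nat_lit 119) (nat_lit 0) (cs (rf (nat_lit 5)) (cs (rf (nat_lit 7)) (cs (rf (nat_lit 8)) (cs (rf (nat_lit 9)) (nd (nat_lit 93) (nat_lit 0) (cs (lf (nat_lit 22) (nat_lit 93)) (nd (nat_lit 141) (nat_lit 0) (cs (lf (nat_lit 5) (nat_lit 116)) (nd (nat_lit 74) (nat_lit 0) (cs (lf (nat_lit 24) (nat_lit 52)) (nd (nat_lit 139) (nat_lit 0) (cs (lf (nat_lit 41) (nat_lit 73)) (nd (nat_lit 138) (nat_lit 0) (cs (lf (nat_lit 12) (nat_lit 115)) (nd (nat_lit 97) (nat_lit 0) (cs (lf (nat_lit 17) (nat_lit 94)) (rf (nat_lit 6)))))))))))))))))))))))))))) (rf (nat_lit 13)))))))) q35007 (by decide +kernel)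
def q35121 : Q := Q.p (nat_lit 0x10000040000060000100000400000000000000000000000000000) (nat_lit 0x80000b0000300001ef8003bc001df8000380000e000028000000) (nat_lit 11)
theorem c35121 : QOK q35121 := cut [q35118, q35119, q34789] ⟨c35118, c35119, c34789, trivial⟩ (nd (nat_lit 117) (nat_lit 0) (cs (rf (nat_lit 0)) (cs (rf (nat_lit 1)) (nd (nat_lit 184) (nat_lit 0) (cs (lf (nat_lit 47) (nat_lit 95)) (rf (nat_lit 2))))))) q35121 (by decide +kernel)
def q35128 : Q := Q.p (nat_lit 0x10000040000060000100000400000000000000000000000000000) (nat_lit 0x80000a0000b8000310001ef8003bc001cf8000380000e000028000000) (nat_lit 13)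
theorem c35128 : QOK q35128 := cut [q35124, q34745, q35118, q35127] ⟨c35124, c34745, c35118, c35127, trivial⟩ (nd (nat_lit 183) (nat_lit 0) (cs (rf (nat_lit 0)) (cs (nd (nat_lit 184) (nat_lit 0) (cs (rf (nat_lit 1)) (nd (nat_lit 117) (nat_lit 0) (cs (lf (nat_lit 47) (nat_lit 95)) (rf (nat_lit 2)))))) (rf (nat_lit 3))))) q35128 (by decide +kernel)
def q35153 : Q := Q.p (nat_lit 0x2000000000004000010000040000080000000000000000000000000000000000) (nat_lit 0x20000380001e00003000000000000000020000000000000000000000000000000000000000) (nat_lit 6)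
theorem c35153 : QOK q35153 := cut [q5883] ⟨c5883, trivial⟩ (nd (nat_lit 228) (nat_lit 0) (cs (lf (nat_lit 46) (nat_lit 139)) (rf (nat_lit 0)))) q35153 (by decide +kernel)
def q35450 : Q := Q.p (nat_lit 0x2000000000000000010000040000100000000000000000000000000000000000) (nat_lit 0x200001e00003800006000000000020000680000f80002800002000000000000000000) (nat_lit 8)
theorem c35450 : QOK q35450 := cut [q34919, q35444, q35449] ⟨c34919, c35444, c35449, trivial⟩ (nd (nat_lit 117) (nat_lit 0) (cs (rf (nat_lit 0)) (cs (nd (nat_lit 118) (nat_lit 0) (cs (lf (nat_lit 47) (nat_lit 95)) (nd (nat_lit 119) (nat_lit 0) (cs (lf (nat_lit 35) (nat_lit 96)) (nd (nat_lit 141) (nat_lit 0) (cs (lf (nat_lit 30) (nat_lit 118)) (rf (nat_lit 1)))))))) (rf (nat_lit 2))))) q35450 (by decide +kernel)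
def q35457 : Q := Q.p (nat_lit 0x50000040000100000000000000000000000000000000000) (nat_lit 0x2000008000120000ef0003f8000ff0000a000008000000000000) (nat_lit 9)
theorem c35457 : QOK q35457 := cut [q33490, q33491, q35456] ⟨c33490, c33491, c35456, trivial⟩ (nd (nat_lit 118) (nat_lit 0) (cs (rf (nat_lit 0)) (cs (rf (nat_lit 1)) (rf (nat_lit 2))))) q35457 (by decide +kernel)
def q35462 : Q := Q.p (nat_lit 0x40000040000100000400000000000000000000000000000) (nat_lit 0x800006000018000100000ef0003b8000ef00002000008000000000000) (nat_lit 9)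
theorem c35462 : QOK q35462 := cut [q32702, q34730, q35456] ⟨c32702, c34730, c35456, trivial⟩ (nd (nat_lit 184) (nat_lit 0) (cs (rf (nat_lit 0)) (cs (rf (nat_lit 1)) (rf (nat_lit 2))))) q35462 (by decide +kernel)
def q35560 : Q := Q.p (nat_lit 0x400001e0000000000000000000000000000000000000000) (nat_lit 0x720000e000039c0000000000000000000000000000000000) (nat_lit 7)
theorem c35560 : QOK q35560 := cut [q35558] ⟨c35558, trivial⟩ (nd (nat_lit 139) (nat_lit 0) (cs (lf (nat_lit 23) (nat_lit 138)) (nd (nat_lit 165) (nat_lit 0) (cs (lf (nat_lit 22) (nat_lit 139)) (rf (nat_lit 0)))))) q35560 (by decide +kernel)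
def q35565 : Q := Q.p (nat_lit 0x10000040000140000000000000000000000000000000000000000) (nat_lit 0x2000008000020000620000f8000380000a000000000000000000000000) (nat_lit 7)
theorem c35565 : QOK q35565 := cut [q617, q619, q18163, q35564] ⟨c617, c619, c18163, c35564, trivial⟩ (nd (nat_lit 142) (nat_lit 0) (cs (rf (nat_lit 0)) (cs (rf (nat_lit 1)) (cs (rf (nat_lit 2)) (rf (nat_lit 3)))))) q35565 (by decide +kernel)
def q35584 : Q := Q.p (nat_lit 0x100000400001c0000000000000000000000000000000000000000) (nat_lit 0x300000e0003a0000e000077e0003c0000e000038000020000000000000) (nat_lit 9)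
theorem c35584 : QOK q35584 := cut [q20178, q35567, q35575, q35579, q35583] ⟨c20178, c35567, c35575, c35579, c35583, trivial⟩ (nd (nat_lit 142) (nat_lit 0) (cs (rf (nat_lit 0)) (cs (rf (nat_lit 1)) (cs (rf (nat_lit 2)) (cs (rf (nat_lit 3)) (rf (nat_lit 4))))))) q35584 (by decide +kernel)
def q35592 : Q := Q.p (nat_lit 0x100000400001c0000000000000000000000000000000000000000) (nat_lit 0x200000a00002c0002300007c0003c0000e000038000020000000000000) (nat_lit 9)
theorem c35592 : QOK q35592 := cut [q20178, q35567, q35579, q35583] ⟨c20178, c35567, c35579, c35583, trivial⟩ (nd (nat_lit 142) (nat_lit 0) (cs (rf (nat_lit 0)) (cs (rf (nat_lit 1)) (cs (rf (nat_lit 2)) (cs (rf (nat_lit 3)) (nd (nat_lit 207) (nat_lit 0) (cs (lf (nat_lit 41) (nat_lit 141)) (nd (nat_lit 141) (nat_lit 0) (cs (lf (nat_lit 47) (nat_lit 119)) (nd (nat_lit 161) (nat_lit 0) (cs (lf (nat_lit 12) (nat_lit 138)) (nd (nat_lit 139) (nat_lit 0) (cs (lf (nat_lit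 23) (nat_lit 138)) (nd (nat_lit 183) (nat_lit 0) (cs (lf (nat_lit 11) (nat_lit 160)) (nd (nat_lit 140) (nat_lit 0) (cs (lf (nat_lit 18) (nat_lit 139)) (nd (nat_lit 118) (nat_lit 0) (cs (lf (nat_lit 30) (nat_lit 117)) (lf (nat_lit 43) (nat_lit 118))))))))))))))))))))) q35592 (by decide +kernel)
def q35611 : Q := Q.p (nat_lit 0x100000400001c0000000000000000000000000000000000000000) (nat_lit 0x300000e0003a0000e00007fe0001c0000e000038000080000000000000) (nat_lit 10)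
theorem c35611 : QOK q35611 := cut [q619, q35575, q35597, q35603, q32492, q32747, q35605, q32226] ⟨c619, c35575, c35597, c35603, c32492, c32747, c35605, c32226, trivial⟩ (nd (nat_lit 142) (nat_lit 0) (cs (rf (nat_lit 0)) (cs (rf (nat_lit 1)) (cs (rf (nat_lit 2)) (cs (rf (nat_lit 3)) (cs (nd (nat_lit 165) (nat_lit 0) (cs (rf (nat_lit 4)) (cs (rf (nat_lit 5)) (nd (nat_lit 207) (nat_lit 0) (cs (lf (nat_lit 41) (nat_lit 141)) (rf (nat_lit 6))))))) (nd (nat_lit 119) (nat_lit 0) (cs (lf (nat_lit 46) (nat_lit 119)) (nd (nat_lit 120) (nat_lit 0) (cs (lf (nat_lit 47) (nat_lit 97)) (nd (nat_lit 98) (nat_lit 0) (cs (lf (nat_lit 41) (nat_lit 97)) (rf (nat_lit 7)))))))))))))) q35611 (by decide +kernel)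
def q35615 : Q := Q.p (nat_lit 0x100000400001c0000000000000000000000000000000000000000) (nat_lit 0x2000008000000000220003e0000380000e000038000020000000000000) (nat_lit 7)
theorem c35615 : QOK q35615 := cut [q32371, q32494, q35583] ⟨c32371, c32494, c35583, trivial⟩ (nd (nat_lit 142) (nat_lit 0) (cs (rf (nat_lit 0)) (cs (rf (nat_lit 1)) (rf (nat_lit 2))))) q35615 (by decide +kernel)
def q35860 : Q := Q.p (nat_lit 0x40000100000400000000000000000000000000000) (nat_lit 0x200001800002000008000fbc001fe0007fc00020000000000000) (nat_lit 11)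
theorem c35860 : QOK q35860 := cut [q33680, q34937, q35467] ⟨c33680, c34937, c35467, trivial⟩ (nd (nat_lit 96) (nat_lit 0) (cs (rf (nat_lit 0)) (cs (rf (nat_lit 1)) (rf (nat_lit 2))))) q35860 (by decide +kernel)
def q35907 : Q := Q.p (nat_lit 0x40000700000000000000000000000000000000000) (nat_lit 0x4000010000e9c0018e0001f0000280000a000000000000000000) (nat_lit 9)
theorem c35907 : QOK q35907 := cut [q9072, q35900, q35893, q35896, q34562, q35906] ⟨c9072, c35900, c35893, c35896, c34562, c35906, trivial⟩ (nd (nat_lit 119) (nat_lit 0) (cs (rf (nat_lit 0)) (cs (rf (nat_lit 1)) (cs (nd (nat_lit 117) (nat_lit 0) (cs (rf (nat_lit 2)) (cs (rf (nat_lit 3)) (nd (nat_lit 75) (nat_lit 0) (cs (lf (nat_lit 37) (nat_lit 74)) (nd (nat_lit 143) (nat_lit 0) (cs (lf (nat_lit 22) (nat_lit 117)) (nd (nat_lit 144) (nat_lit 0) (cs (lf (nat_lit 10) (nat_lit 140)) (rf (nat_lit 4))))))))))) (rf (nat_lit 5)))))) q35907 (by decide +kernel)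
def q35966 : Q := Q.p (nat_lit 0x10000040000040000700000000000000000000000000000000000) (nat_lit 0x140000700001c0003f8000fc0009f8000b80000e0003dc000fc000ff0000c0000000000000) (nat_lit 14)
theorem c35966 : QOK q35966 := cut [q9145, q35883, q35961, q35964] ⟨c9145, c35883, c35961, c35964, trivial⟩ (nd (nat_lit 139) (nat_lit 0) (cs (rf (nat_lit 0)) (cs (rf (nat_lit 1)) (cs (rf (nat_lit 2)) (rf (nat_lit 3)))))) q35966 (by decide +kernel)
def q35972 : Q := Q.p (nat_lit 0x10000040000040000500000000000000000000000000000000000) (nat_lit 0x280000e0000980000380072f801ffc00fff8007fc000fc0000e0000280) (nat_lit 15)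
theorem c35972 : QOK q35972 := cut [q34402, q35461, q35466, q35468, q35689, q35420, q35110, q35114, q24124, q34875, q34881, q34926, q34937, q35006] ⟨c34402, c35461, c35466, c35468, c35689, c35420, c35110, c35114, c24124, c34875, c34881, c34926, c34937, c35006, trivial⟩ (nd (nat_lit 118) (nat_lit 0) (cs (rf (nat_lit 0)) (cs (rf (nat_lit 1)) (cs (rf (nat_lit 2)) (cs (rf (nat_lit 3)) (cs (rf (nat_lit 4)) (cs (nd (nat_lit 117) (nat_lit 0) (cs (rf (nat_lit 5)) (nd (nat_lit 116) (nat_lit 0) (cs (rf (nat_lit 6)) (cs (rf (nat_lit 7)) (nd (nat_lit 141) (nat_lit 0) (cs (lf (nat_lit 21) (nat_lit 116)) (lf (nat_lit 3) (nat_lit 116))))))))) (nd (nat_lit 96) (nat_lit 0) (cs (rf (nat_lit 8)) (cs (rf (nat_lit 9)) (cs (rf (nat_lit 10)) (cs (rf (nat_lit 11)) (cs (rf (nat_lit 12)) (rf (nat_lit 13))))))))))))))) q35972 (by decide +kernel)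
def q35978 : Q := Q.p (nat_lit 0x40000780000000000000000000000000000000000) (nat_lit 0x40000100000b80000700006e0000800002000000000000000000) (nat_lit 7)
theorem c35978 : QOK q35978 := cut [q35866, q35888, q35977] ⟨c35866, c35888, c35977, trivial⟩ (nd (nat_lit 117) (nat_lit 0) (cs (rf (nat_lit 0)) (cs (rf (nat_lit 1)) (rf (nat_lit 2))))) q35978 (by decide +kernel)
def q36026 : Q := Q.p (nat_lit 0x10000040000140000500000000000000000000000000000000000) (nat_lit 0x200002c0000e00039f0002b8000270000400001000000000000000000000000) (nat_lit 8)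
theorem c36026 : QOK q36026 := cut [q36010, q36012, q36014, q36023, q36025] ⟨c36010, c36012, c36014, c36023, c36025, trivial⟩ (nd (nat_lit 205) (nat_lit 0) (cs (rf (nat_lit 0)) (cs (nd (nat_lit 161) (nat_lit 0) (cs (rf (nat_lit 1)) (rf (nat_lit 2)))) (cs (rf (nat_lit 3)) (rf (nat_lit 4)))))) q36026 (by decide +kernel)
def q36160 : Q := Q.p (nat_lit 0x10000040000040000780000000000000000000000000000000000) (nat_lit 0x2e0000f00009e00039c0000700036e0000800002000000000000000000) (nat_lit 13)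
theorem c36160 : QOK q36160 := cut [q36144, q36151, q36157] ⟨c36144, c36151, c36157, trivial⟩ (nd (nat_lit 206) (nat_lit 0) (cs (nd (nat_lit 164) (nat_lit 0) (cs (lf (nat_lit 5) (nat_lit 139)) (nd (nat_lit 138) (nat_lit 0) (cs (lf (nat_lit 4) (nat_lit 138)) (nd (nat_lit 159) (nat_lit 0) (cs (lf (nat_lit 10) (nat_lit 137)) (nd (nat_lit 137) (nat_lit 0) (cs (lf (nat_lit 11) (nat_lit 136)) (nd (nat_lit 114) (nat_lit 0) (cs (lf (nat_lit 22) (nat_lit 114)) (nd (nat_lit 113) (nat_lit 0) (cs (lf (nat_lit 21) (nat_lit 113)) (rf (nat_lit 0)))))))))))))) (cs (nd (nat_lit 120) (nat_lit 0) (cs (lf (nat_lit 17) (nat_lit 117)) (nd (nat_lit 184) (nat_lit 0) (cs (lf (nat_lit 47) (nat_lit 117)) (rf (nat_lit 1)))))) (nd (nat_lit 117) (nat_lit 0) (cs (lf (nat_lit 43) (nat_lit 117)) (nd (nat_lit 73) (nat_lit 0) (cs (lf (nat_lit 25) (nat_lit 73)) (rf (nat_lit 2))))))))) q36160 (by decide +kernel)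
def q36170 : Q := Q.p (nat_lit 0x40000700000000000000000000000000000000000) (nat_lit 0x100001b80000e0003380000800002000000000000000000) (nat_lit 6)
theorem c36170 : QOK q36170 := cut [q35867, q36167, q36169] ⟨c35867, c36167, c36169, trivial⟩ (nd (nat_lit 139) (nat_lit 0) (cs (rf (nat_lit 0)) (cs (rf (nat_lit 1)) (rf (nat_lit 2))))) q36170 (by decide +kernel)
def q36189 : Q := Q.p (nat_lit 0x40000040000780000000000000000000000000000000000) (nat_lit 0x200008c0003b0000000003400001000000000000000000000000) (nat_lit 7)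
theorem c36189 : QOK q36189 := cut [q36188] ⟨c36188, trivial⟩ (nd (nat_lit 120) (nat_lit 0) (cs (lf (nat_lit 17) (nat_lit 117)) (rf (nat_lit 0)))) q36189 (by decide +kernel)
def q36246 : Q := Q.p (nat_lit 0x10000040000040000580000000000000000000000000000000000) (nat_lit 0x2e0000f00009e0003a0000240003700005800012000000000000000000) (nat_lit 13)
theorem c36246 : QOK q36246 := cut [q35888, q36235] ⟨c35888, c36235, trivial⟩ (nd (nat_lit 117) (nat_lit 0) (cs (rf (nat_lit 0)) (cs (nd (nat_lit 184) (nat_lit 0) (cs (lf (nat_lit 42) (nat_lit 117)) (nd (nat_lit 141) (nat_lit 0) (cs (lf (nat_lit 23) (nat_lit 116)) (nd (nat_lit 120) (nat_lit 0) (cs (lf (nat_lit 17) (nat_lit 117)) (nd (nat_lit 164) (nat_lit 0) (cs (lf (nat_lit 5) (nat_lit 139)) (nd (nat_lit 163) (nat_lit 0) (cs (lf (nat_lit 0) (nat_lit 138)) (nd (nat_lit 207) (nat_lit 0) (cs (lf (nat_lit 41) (nat_lit 141)) (nd (nat_lit 76) (nat_lit 0) (cs (lf (nat_lit 37)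 (nat_lit 75)) (nd (nat_lit 161) (nat_lit 0) (cs (lf (nat_lit 5) (nat_lit 161)) (nd (nat_lit 183) (nat_lit 0) (cs (lf (nat_lit 11) (nat_lit 160)) (nd (nat_lit 118) (nat_lit 0) (cs (lf (nat_lit 41) (nat_lit 117)) (lf (nat_lit 35) (nat_lit 95)))))))))))))))))))))) (cs (rf (nat_lit 1)) (nd (nat_lit 73) (nat_lit 0) (cs (lf (nat_lit 25) (nat_lit 73)) (nd (nat_lit 141) (nat_lit 0) (cs (lf (nat_lit 23) (nat_lit 116)) (nd (nat_lit 120) (nat_lit 0) (cs (lf (nat_lit 17) (nat_lit 117)) (nd (nat_lit 164) (nat_lit 0) (cs (lf (nat_lit 5) (nat_lit 139)) (nd (nat_lit 163) (nat_lit 0) (cs (lf (nat_lit 0) (nat_lit 138)) (nd (nat_lit 207) (nat_lit 0) (cs (lf (nat_lit 41) (nat_lit 141)) (nd (nat_lit 76) (nat_lit 0) (cs (lf (nat_lit 37) (nat_lit 75)) (nd (nat_lit 161) (nat_lit 0) (cs (lf (nat_lit 5) (nat_lit 161)) (nd (nat_lit 183) (nat_lit 0) (cs (lf (nat_lit 11) (nat_lit 160)) (nd (nat_lit 118) (nat_lit 0) (cs (lf (nat_lit 35) (nat_lit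 95)) (lf (nat_lit 30) (nat_lit 117)))))))))))))))))))))))))) q36246 (by decide +kernel)
def q36324 : Q := Q.p (nat_lit 0x10000040000040000580000000000000000000000000000000000) (nat_lit 0x200003e0000f80009f0003bc0000700007e000ff8000fc00000000000000000) (nat_lit 14)
theorem c36324 : QOK q36324 := cut [q35888, q34633, q36249, q32526, q35940, q36301, q8656, q34433, q33711, q36258, q36321, q36323] ⟨c35888, c34633, c36249, c32526, c35940, c36301, c8656, c34433, c33711, c36258, c36321, c36323, trivial⟩ (nd (nat_lit 117) (nat_lit 0) (cs (rf (nat_lit 0)) (cs (nd (nat_lit 205) (nat_lit 0) (cs (nd (nat_lit 184) (nat_lit 0) (cs (lf (nat_lit 42) (nat_lit 117)) (rf (nat_lit 1)))) (cs (nd (nat_lit 206) (nat_lit 0) (cs (lf (nat_lit 43) (nat_lit 117)) (nd (nat_lit 207) (nat_lit 0) (cs (lf (nat_lit 17) (nat_lit 183)) (nd (nat_lit 226) (nat_lit 0) (cs (lf (nat_lit 10) (nat_lit 204)) (nd (nat_lit 204) (nat_lit 0) (cs (lf (nat_lit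 11) (nat_lit 203)) (nd (nat_lit 181) (nat_lit 0) (cs (lf (nat_lit 22) (nat_lit 181)) (nd (nat_lit 180) (nat_lit 0) (cs (lf (nat_lit 21) (nat_lit 180)) (rf (nat_lit 2)))))))))))))) (cs (nd (nat_lit 206) (nat_lit 0) (cs (lf (nat_lit 43) (nat_lit 117)) (nd (nat_lit 207) (nat_lit 0) (cs (lf (nat_lit 17) (nat_lit 183)) (rf (nat_lit 3)))))) (cs (nd (nat_lit 161) (nat_lit 0) (cs (rf (nat_lit 4)) (cs (rf (nat_lit 5)) (nd (nat_lit 183) (nat_lit 0) (cs (lf (nat_lit 30) (nat_lit 139)) (rf (nat_lit 6))))))) (nd (nat_lit 206) (nat_lit 0) (cs (lf (nat_lit 43) (nat_lit 117)) (nd (nat_lit 207) (nat_lit 0) (cs (lf (nat_lit 17) (nat_lit 183)) (nd (nat_lit 182) (nat_lit 0) (cs (lf (nat_lit 22) (nat_lit 182)) (nd (nat_lit 181) (nat_lit 0) (cs (lf (nat_lit 21) (nat_lit 181)) (rf (nat_lit 2))))))))))))))) (cs (nd (nat_lit 95) (nat_lit 0) (cs (lf (nat_lit 24) (nat_lit 73)) (nd (nat_lit 161) (nat_lit 0) (cs (rf (nat_lit 7)) (cs (rf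 (nat_lit 5)) (cs (nd (nat_lit 72) (nat_lit 0) (cs (lf (nat_lit 46) (nat_lit 72)) (nd (nat_lit 96) (nat_lit 0) (cs (lf (nat_lit 35) (nat_lit 73)) (nd (nat_lit 118) (nat_lit 0) (cs (lf (nat_lit 41) (nat_lit 95)) (rf (nat_lit 8)))))))) (nd (nat_lit 74) (nat_lit 0) (cs (lf (nat_lit 34) (nat_lit 73)) (nd (nat_lit 72) (nat_lit 0) (cs (lf (nat_lit 46) (nat_lit 72)) (nd (nat_lit 160) (nat_lit 0) (cs (lf (nat_lit 41) (nat_lit 94)) (nd (nat_lit 159) (nat_lit 0) (cs (lf (nat_lit 12) (nat_lit 136)) (nd (nat_lit 180) (nat_lit 0) (cs (lf (nat_lit 10) (nat_lit 158)) (nd (nat_lit 137) (nat_lit 0) (cs (lf (nat_lit 23) (nat_lit 136)) (nd (nat_lit 163) (nat_lit 0) (cs (lf (nat_lit 22) (nat_lit 137)) (rf (nat_lit 9)))))))))))))))))))))) (cs (rf (nat_lit 10)) (rf (nat_lit 11))))))) q36324 (by decide +kernel)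
def q36703 : Q := Q.p (nat_lit 0x10000040000140000400000000000000000000000000000000000) (nat_lit 0x700003e0000f80039f0002be0001f0003fc000ff0002f80001c000000000000) (nat_lit 13)
theorem c36703 : QOK q36703 := cut [q36504, q36514, q11202, q36515, q36518, q36523, q36537, q36550, q19735, q36612, q36668, q36702] ⟨c36504, c36514, c11202, c36515, c36518, c36523, c36537, c36550, c19735, c36612, c36668, c36702, trivial⟩ (nd (nat_lit 161) (nat_lit 0) (cs (nd (nat_lit 163) (nat_lit 0) (cs (lf (nat_lit 5) (nat_lit 161)) (rf (nat_lit 0)))) (cs (rf (nat_lit 1)) (cs (nd (nat_lit 120) (nat_lit 0) (cs (rf (nat_lit 2)) (cs (nd (nat_lit 139) (nat_lit 0) (cs (rf (nat_lit 3)) (cs (nd (nat_lit 117) (nat_lit 0) (cs (nd (nat_lit 163) (nat_lit 0) (cs (lf (nat_lit 5) (nat_lit 161)) (nd (nat_lit 140) (nat_lit 0) (cs (lf (nat_lit 18) (nat_lit 139)) (nd (nat_lit 184) (nat_lit 0) (cs (lf (nat_lit 42) (nat_lit 117)) (rf (nat_lit 4))))))))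 (cs (nd (nat_lit 99) (nat_lit 0) (cs (lf (nat_lit 34) (nat_lit 98)) (nd (nat_lit 95) (nat_lit 0) (cs (lf (nat_lit 29) (nat_lit 95)) (nd (nat_lit 160) (nat_lit 0) (cs (lf (nat_lit 41) (nat_lit 94)) (nd (nat_lit 74) (nat_lit 0) (cs (lf (nat_lit 34) (nat_lit 73)) (nd (nat_lit 52) (nat_lit 0) (cs (nd (nat_lit 163) (nat_lit 0) (cs (lf (nat_lit 5) (nat_lit 161)) (nd (nat_lit 119) (nat_lit 0) (cs (lf (nat_lit 47) (nat_lit 97)) (rf (nat_lit 5)))))) (lf (nat_lit 33) (nat_lit 51)))))))))))) (cs (rf (nat_lit 6)) (nd (nat_lit 163) (nat_lit 0) (cs (lf (nat_lit 5) (nat_lit 161)) (nd (nat_lit 140) (nat_lit 0) (cs (lf (nat_lit 18) (nat_lit 139)) (nd (nat_lit 73) (nat_lit 0) (cs (lf (nat_lit 25) (nat_lit 73)) (rf (nat_lit 4)))))))))))) (nd (nat_lit 117) (nat_lit 0) (cs (rf (nat_lit 6)) (cs (nd (nat_lit 121) (nat_lit 0) (cs (lf (nat_lit 35) (nat_lit 98)) (nd (nat_lit 207) (nat_lit 0) (cs (lf (nat_lit 41) (nat_lit 141)) (nd (nat_lit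 119) (nat_lit 0) (cs (lf (nat_lit 47) (nat_lit 97)) (nd (nat_lit 118) (nat_lit 0) (cs (lf (nat_lit 11) (nat_lit 116)) (lf (nat_lit 10) (nat_lit 117)))))))))) (nd (nat_lit 97) (nat_lit 0) (cs (lf (nat_lit 46) (nat_lit 97)) (rf (nat_lit 7)))))))))) (cs (nd (nat_lit 187) (nat_lit 0) (cs (lf (nat_lit 2) (nat_lit 161)) (rf (nat_lit 8)))) (nd (nat_lit 97) (nat_lit 0) (cs (lf (nat_lit 46) (nat_lit 97)) (nd (nat_lit 207) (nat_lit 0) (cs (lf (nat_lit 41) (nat_lit 141)) (nd (nat_lit 98) (nat_lit 0) (cs (lf (nat_lit 47) (nat_lit 75)) (nd (nat_lit 187) (nat_lit 0) (cs (lf (nat_lit 28) (nat_lit 98)) (lf (nat_lit 2) (nat_lit 161)))))))))))))) (cs (rf (nat_lit 9)) (cs (rf (nat_lit 10)) (rf (nat_lit 11)))))))) q36703 (by decide +kernel)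
def q36705 : Q := Q.p (nat_lit 0x10000040000140000400000000000000000000000000000000000) (nat_lit 0x700003e0000f80009f0002bc0009f0001fc0003f00007000014000000000000) (nat_lit 13)
theorem c36705 : QOK q36705 := cut [q36612, q36702, q36704] ⟨c36612, c36702, c36704, trivial⟩ (nd (nat_lit 161) (nat_lit 0) (cs (rf (nat_lit 0)) (cs (rf (nat_lit 1)) (rf (nat_lit 2))))) q36705 (by decide +kernel)
def q36872 : Q := Q.p (nat_lit 0x40000f00000000000000000000000000000000000) (nat_lit 0x400001000069c0000e0001f0000280000a000000000000000000) (nat_lit 10)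
theorem c36872 : QOK q36872 := cut [q9072, q35900, q35906, q35894] ⟨c9072, c35900, c35906, c35894, trivial⟩ (nd (nat_lit 119) (nat_lit 0) (cs (rf (nat_lit 0)) (cs (rf (nat_lit 1)) (cs (rf (nat_lit 2)) (nd (nat_lit 117) (nat_lit 0) (cs (lf (nat_lit 22) (nat_lit 117)) (nd (nat_lit 139) (nat_lit 0) (cs (lf (nat_lit 23) (nat_lit 116)) (nd (nat_lit 75) (nat_lit 0) (cs (lf (nat_lit 37) (nat_lit 74)) (nd (nat_lit 73) (nat_lit 0) (cs (lf (nat_lit 25) (nat_lit 73)) (nd (nat_lit 165) (nat_lit 0) (cs (lf (nat_lit 5) (nat_lit 140)) (rf (nat_lit 3)))))))))))))))) q36872 (by decide +kernel)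
def q36953 : Q := Q.p (nat_lit 0x70000000000000000000000000000000000000000) (nat_lit 0xc0000300003c0001f80000e0001f80001c0000700001c00005000000000000) (nat_lit 11)
theorem c36953 : QOK q36953 := cut [q34075, q34116, q36946] ⟨c34075, c34116, c36946, trivial⟩ (nd (nat_lit 159) (nat_lit 0) (cs (rf (nat_lit 0)) (cs (rf (nat_lit 1)) (cs (rf (nat_lit 2)) (nd (nat_lit 136) (nat_lit 0) (cs (lf (nat_lit 22) (nat_lit 136)) (nd (nat_lit 158) (nat_lit 0) (cs (lf (nat_lit 23) (nat_lit 135)) (nd (nat_lit 139) (nat_lit 0) (cs (lf (nat_lit 17) (nat_lit 136)) (nd (nat_lit 183) (nat_lit 0) (cs (lf (nat_lit 5) (nat_lit 158)) (nd (nat_lit 157) (nat_lit 0) (cs (lf (nat_lit 4) (nat_lit 157)) (lf (nat_lit 16) (nat_lit 135)))))))))))))))) q36953 (by decide +kernel)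
def q37087 : Q := Q.p (nat_lit 0x10000040000040000400000000000000000000000000000000000) (nat_lit 0x500001c0000700003e0000f80009f0001bc003bf0003fc000bc00007000014000000000000) (nat_lit 16)
theorem c37087 : QOK q37087 := cut [q18163, q36791, q37074, q36012, q36612, q36913, q36561, q36506] ⟨c18163, c36791, c37074, c36012, c36612, c36913, c36561, c36506, trivial⟩ (nd (nat_lit 164) (nat_lit 0) (cs (rf (nat_lit 0)) (cs (rf (nat_lit 1)) (cs (nd (nat_lit 207) (nat_lit 0) (cs (lf (nat_lit 41) (nat_lit 141)) (rf (nat_lit 2)))) (nd (nat_lit 141) (nat_lit 0) (cs (lf (nat_lit 47) (nat_lit 119)) (nd (nat_lit 161) (nat_lit 0) (cs (rf (nat_lit 3)) (cs (rf (nat_lit 4)) (cs (rf (nat_lit 5)) (nd (nat_lit 205) (nat_lit 0) (cs (rf (nat_lit 6)) (cs (nd (nat_lit 187) (nat_lit 0) (cs (lf (nat_lit 2) (nat_lit 161)) (nd (nat_lit 207) (nat_lit 0) (cs (lf (nat_lit 41) (nat_lit 141)) (lf (nat_lit 13) (nat_lit 183)))))) (cs (nd (nat_lit 183)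 (nat_lit 0) (cs (rf (nat_lit 7)) (nd (nat_lit 207) (nat_lit 0) (cs (lf (nat_lit 41) (nat_lit 141)) (nd (nat_lit 182) (nat_lit 0) (cs (lf (nat_lit 20) (nat_lit 182)) (lf (nat_lit 7) (nat_lit 160)))))))) (nd (nat_lit 163) (nat_lit 0) (cs (lf (nat_lit 5) (nat_lit 161)) (nd (nat_lit 183) (nat_lit 0) (cs (lf (nat_lit 11) (nat_lit 160)) (nd (nat_lit 138) (nat_lit 0) (cs (lf (nat_lit 22) (nat_lit 138)) (rf (nat_lit 7)))))))))))))))))))))) q37087 (by decide +kernel)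
def q37154 : Q := Q.p (nat_lit 0x10000040000140000400000000000000000000000000000000000) (nat_lit 0x300003c0000fc0001f8002bc0003f8003fc0001c00007000014000000000000) (nat_lit 14)
theorem c37154 : QOK q37154 := cut [q36913, q11414, q37094, q6489, q37102, q36614, q36626, q37103, q37110, q36550, q37115, q37119, q37147, q37149] ⟨c36913, c11414, c37094, c6489, c37102, c36614, c36626, c37103, c37110, c36550, c37115, c37119, c37147, c37149, trivial⟩ (nd (nat_lit 141) (nat_lit 0) (cs (lf (nat_lit 47) (nat_lit 119)) (nd (nat_lit 161) (nat_lit 0) (cs (rf (nat_lit 0)) (cs (nd (nat_lit 207) (nat_lit 0) (cs (lf (nat_lit 41) (nat_lit 141)) (nd (nat_lit 160) (nat_lit 0) (cs (lf (nat_lit 15) (nat_lit 138)) (nd (nat_lit 159) (nat_lit 0) (cs (rf (nat_lit 1)) (lf (nat_lit 16) (nat_lit 137)))))))) (cs (nd (nat_lit 139) (nat_lit 0) (cs (nd (nat_lit 207) (nat_lit 0) (cs (lf (nat_lit 41) (nat_lit 141)) (rf (nat_lit 2)))) (cs (nd (nat_lit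 138) (nat_lit 0) (cs (lf (nat_lit 19) (nat_lit 138)) (nd (nat_lit 137) (nat_lit 0) (cs (lf (nat_lit 0) (nat_lit 136)) (nd (nat_lit 207) (nat_lit 0) (cs (lf (nat_lit 41) (nat_lit 141)) (nd (nat_lit 140) (nat_lit 0) (cs (lf (nat_lit 5) (nat_lit 139)) (rf (nat_lit 3)))))))))) (cs (rf (nat_lit 4)) (nd (nat_lit 117) (nat_lit 0) (cs (rf (nat_lit 5)) (cs (rf (nat_lit 6)) (nd (nat_lit 138) (nat_lit 0) (cs (lf (nat_lit 19) (nat_lit 138)) (nd (nat_lit 136) (nat_lit 0) (cs (lf (nat_lit 1) (nat_lit 136)) (nd (nat_lit 116) (nat_lit 0) (cs (rf (nat_lit 7)) (lf (nat_lit 20) (nat_lit 116))))))))))))))) (cs (nd (nat_lit 207) (nat_lit 0) (cs (lf (nat_lit 41) (nat_lit 141)) (nd (nat_lit 163) (nat_lit 0) (cs (lf (nat_lit 12) (nat_lit 138)) (rf (nat_lit 8)))))) (nd (nat_lit 139) (nat_lit 0) (cs (rf (nat_lit 4)) (cs (nd (nat_lit 117) (nat_lit 0) (cs (rf (nat_lit 9)) (cs (rf (nat_lit 6)) (cs (nd (nat_lit 183) (nat_lit 0) (cs (rf (nat_lit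 10)) (cs (nd (nat_lit 182) (nat_lit 0) (cs (lf (nat_lit 41) (nat_lit 116)) (nd (nat_lit 181) (nat_lit 0) (cs (lf (nat_lit 12) (nat_lit 158)) (nd (nat_lit 116) (nat_lit 0) (cs (lf (nat_lit 47) (nat_lit 94)) (nd (nat_lit 207) (nat_lit 0) (cs (lf (nat_lit 41) (nat_lit 141)) (nd (nat_lit 184) (nat_lit 0) (cs (rf (nat_lit 11)) (lf (nat_lit 4) (nat_lit 181)))))))))))) (cs (nd (nat_lit 96) (nat_lit 0) (cs (lf (nat_lit 34) (nat_lit 95)) (nd (nat_lit 207) (nat_lit 0) (cs (lf (nat_lit 41) (nat_lit 141)) (nd (nat_lit 206) (nat_lit 0) (cs (lf (nat_lit 28) (nat_lit 117)) (nd (nat_lit 182) (nat_lit 0) (cs (lf (nat_lit 21) (nat_lit 182)) (lf (nat_lit 41) (nat_lit 116)))))))))) (cs (nd (nat_lit 96) (nat_lit 0) (cs (lf (nat_lit 34) (nat_lit 95)) (nd (nat_lit 207) (nat_lit 0) (cs (lf (nat_lit 41) (nat_lit 141)) (nd (nat_lit 94) (nat_lit 0) (cs (lf (nat_lit 46) (nat_lit 94)) (nd (nat_lit 206) (nat_lit 0) (cs (lf (nat_lit 28) (nat_lit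 117)) (nd (nat_lit 205) (nat_lit 0) (cs (lf (nat_lit 23) (nat_lit 182)) (lf (nat_lit 29) (nat_lit 139)))))))))))) (nd (nat_lit 182) (nat_lit 0) (cs (lf (nat_lit 41) (nat_lit 116)) (nd (nat_lit 181) (nat_lit 0) (cs (lf (nat_lit 12) (nat_lit 158)) (nd (nat_lit 207) (nat_lit 0) (cs (lf (nat_lit 41) (nat_lit 141)) (nd (nat_lit 96) (nat_lit 0) (cs (lf (nat_lit 34) (nat_lit 95)) (nd (nat_lit 116) (nat_lit 0) (cs (lf (nat_lit 47) (nat_lit 94)) (nd (nat_lit 138) (nat_lit 0) (cs (lf (nat_lit 42) (nat_lit 116)) (nd (nat_lit 203) (nat_lit 0) (cs (lf (nat_lit 38) (nat_lit 115)) (nd (nat_lit 137) (nat_lit 0) (cs (lf (nat_lit 0) (nat_lit 136)) (lf (nat_lit 32) (nat_lit 115))))))))))))))))))))))) (cs (nd (nat_lit 207) (nat_lit 0) (cs (lf (nat_lit 41) (nat_lit 141)) (rf (nat_lit 12)))) (rf (nat_lit 13))))))) (nd (nat_lit 140) (nat_lit 0) (cs (lf (nat_lit 5) (nat_lit 139)) (lf (nat_lit 11) (nat_lit 138)))))))))))))) q37154 (by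 decide +kernel)
def q37203 : Q := Q.p (nat_lit 0x10000040000140000400000000000000000000000000000000000) (nat_lit 0x870002b8000bf0000800000000000000000000000000000) (nat_lit 7)
theorem c37203 : QOK q37203 := cut [q36012, q36704, q37157] ⟨c36012, c36704, c37157, trivial⟩ (nd (nat_lit 161) (nat_lit 0) (cs (rf (nat_lit 0)) (cs (rf (nat_lit 1)) (rf (nat_lit 2))))) q37203 (by decide +kernel)
def q37340 : Q := Q.p (nat_lit 0x10000048000060000000000000000000000000000000000000000) (nat_lit 0x40000700003c0000f80003f0000fc000a780011e0004fc0007c0001f00005c00000000000000000) (nat_lit 13)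
theorem c37340 : QOK q37340 := cut [q37223, q34516, q35180, q37239, q37247, q27694, q1828, q37266, q37276, q37286, q37339] ⟨c37223, c34516, c35180, c37239, c37247, c27694, c1828, c37266, c37276, c37286, c37339, trivial⟩ (nd (nat_lit 205) (nat_lit 0) (cs (rf (nat_lit 0)) (cs (nd (nat_lit 139) (nat_lit 0) (cs (rf (nat_lit 1)) (cs (rf (nat_lit 2)) (nd (nat_lit 116) (nat_lit 0) (cs (lf (nat_lit 46) (nat_lit 116)) (nd (nat_lit 206) (nat_lit 0) (cs (lf (nat_lit 29) (nat_lit 139)) (nd (nat_lit 207) (nat_lit 0) (cs (lf (nat_lit 17) (nat_lit 183)) (nd (nat_lit 204) (nat_lit 0) (cs (lf (nat_lit 16) (nat_lit 182)) (lf (nat_lit 41) (nat_lit 138))))))))))))) (cs (rf (nat_lit 3)) (cs (rf (nat_lit 4)) (cs (nd (nat_lit 227) (nat_lit 0) (cs (nd (nat_lit 160) (nat_lit 0) (cs (lf (nat_lit 47) (nat_lit 138)) (nd (nat_lit 228) (nat_lit 0) (cs (lf (nat_lit 29) (nat_lit 161)) (nd (nat_lit 249) (nat_lit 0) (cs (lf (nat_lit 46) (nat_lit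 160)) (nd (nat_lit 270) (nat_lit 0) (cs (lf (nat_lit 40) (nat_lit 182)) (nd (nat_lit 271) (nat_lit 0) (cs (lf (nat_lit 41) (nat_lit 204)) (nd (nat_lit 206) (nat_lit 0) (cs (lf (nat_lit 30) (nat_lit 205)) (nd (nat_lit 272) (nat_lit 0) (cs (lf (nat_lit 29) (nat_lit 205)) (nd (nat_lit 207) (nat_lit 0) (cs (lf (nat_lit 17) (nat_lit 183)) (nd (nat_lit 204) (nat_lit 0) (cs (lf (nat_lit 16) (nat_lit 182)) (rf (nat_lit 5)))))))))))))))))))) (cs (nd (nat_lit 226) (nat_lit 0) (cs (lf (nat_lit 41) (nat_lit 160)) (nd (nat_lit 207) (nat_lit 0) (cs (lf (nat_lit 8) (nat_lit 204)) (nd (nat_lit 229) (nat_lit 0) (cs (rf (nat_lit 6)) (lf (nat_lit 14) (nat_lit 204)))))))) (cs (nd (nat_lit 228) (nat_lit 0) (cs (lf (nat_lit 29) (nat_lit 161)) (nd (nat_lit 160) (nat_lit 0) (cs (lf (nat_lit 47) (nat_lit 138)) (nd (nat_lit 182) (nat_lit 0) (cs (lf (nat_lit 42) (nat_lit 160)) (nd (nat_lit 180) (nat_lit 0) (cs (lf (nat_lit 13) (nat_lit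 158)) (nd (nat_lit 207) (nat_lit 0) (cs (lf (nat_lit 20) (nat_lit 182)) (nd (nat_lit 229) (nat_lit 0) (cs (lf (nat_lit 12) (nat_lit 204)) (rf (nat_lit 6)))))))))))))) (cs (nd (nat_lit 226) (nat_lit 0) (cs (lf (nat_lit 41) (nat_lit 160)) (nd (nat_lit 206) (nat_lit 0) (cs (lf (nat_lit 7) (nat_lit 204)) (nd (nat_lit 224) (nat_lit 0) (cs (lf (nat_lit 13) (nat_lit 202)) (nd (nat_lit 160) (nat_lit 0) (cs (lf (nat_lit 47) (nat_lit 138)) (nd (nat_lit 249) (nat_lit 0) (cs (lf (nat_lit 46) (nat_lit 160)) (nd (nat_lit 272) (nat_lit 0) (cs (lf (nat_lit 28) (nat_lit 183)) (nd (nat_lit 271) (nat_lit 0) (cs (lf (nat_lit 29) (nat_lit 205)) (nd (nat_lit 292) (nat_lit 0) (cs (lf (nat_lit 40) (nat_lit 204)) (rf (nat_lit 7)))))))))))))))))) (nd (nat_lit 228) (nat_lit 0) (cs (lf (nat_lit 29) (nat_lit 161)) (rf (nat_lit 8))))))))) (cs (rf (nat_lit 9)) (rf (nat_lit 10))))))))) q37340 (by decide +kernel)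
def q37449 : Q := Q.p (nat_lit 0x18000060000000000000000000000000000000000000000) (nat_lit 0x14000170000de0000700001c0000f00003e0000f00001c00004000000000000) (nat_lit 12)
theorem c37449 : QOK q37449 := cut [q36613, q37344, q37347, q34099, q37357, q35727, q37362, q37366, q37372, q37379, q37384, q37392, q37404, q17967, q37414, q37419, q37448] ⟨c36613, c37344, c37347, c34099, c37357, c35727, c37362, c37366, c37372, c37379, c37384, c37392, c37404, c17967, c37414, c37419, c37448, trivial⟩ (nd (nat_lit 139) (nat_lit 0) (cs (rf (nat_lit 0)) (cs (nd (nat_lit 181) (nat_lit 0) (cs (nd (nat_lit 206) (nat_lit 0) (cs (lf (nat_lit 42) (nat_lit 139)) (nd (nat_lit 182) (nat_lit 0) (cs (lf (nat_lit 12) (nat_lit 158)) (lf (nat_lit 5) (nat_lit 181)))))) (cs (nd (nat_lit 159) (nat_lit 0) (cs (rf (nat_lit 1)) (cs (nd (nat_lit 137) (nat_lit 0) (cs (rf (nat_lit 2)) (cs (nd (nat_lit 206) (nat_lit 0) (cs (lf (nat_lit 42) (nat_lit 139))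 (nd (nat_lit 180) (nat_lit 0) (cs (nd (nat_lit 115) (nat_lit 0) (cs (rf (nat_lit 3)) (lf (nat_lit 41) (nat_lit 114)))) (lf (nat_lit 8) (nat_lit 158)))))) (nd (nat_lit 206) (nat_lit 0) (cs (lf (nat_lit 42) (nat_lit 139)) (rf (nat_lit 4))))))) (cs (nd (nat_lit 137) (nat_lit 0) (cs (rf (nat_lit 4)) (cs (nd (nat_lit 115) (nat_lit 0) (cs (rf (nat_lit 3)) (cs (rf (nat_lit 5)) (cs (nd (nat_lit 206) (nat_lit 0) (cs (lf (nat_lit 42) (nat_lit 139)) (rf (nat_lit 6)))) (nd (nat_lit 92) (nat_lit 0) (cs (lf (nat_lit 46) (nat_lit 92)) (nd (nat_lit 206) (nat_lit 0) (cs (lf (nat_lit 42) (nat_lit 139)) (rf (nat_lit 7)))))))))) (cs (nd (nat_lit 115) (nat_lit 0) (cs (rf (nat_lit 5)) (cs (rf (nat_lit 6)) (nd (nat_lit 114) (nat_lit 0) (cs (lf (nat_lit 47) (nat_lit 92)) (nd (nat_lit 206) (nat_lit 0) (cs (lf (nat_lit 42) (nat_lit 139)) (rf (nat_lit 8))))))))) (cs (nd (nat_lit 206) (nat_lit 0) (cs (lf (nat_lit 42) (nat_lit 139)) (nd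 (nat_lit 138) (nat_lit 0) (cs (lf (nat_lit 0) (nat_lit 136)) (rf (nat_lit 9)))))) (cs (nd (nat_lit 206) (nat_lit 0) (cs (lf (nat_lit 42) (nat_lit 139)) (nd (nat_lit 136) (nat_lit 0) (cs (lf (nat_lit 2) (nat_lit 136)) (rf (nat_lit 10)))))) (rf (nat_lit 11)))))))) (rf (nat_lit 12)))))) (cs (nd (nat_lit 159) (nat_lit 0) (cs (rf (nat_lit 12)) (cs (nd (nat_lit 137) (nat_lit 0) (cs (rf (nat_lit 2)) (cs (rf (nat_lit 4)) (nd (nat_lit 206) (nat_lit 0) (cs (lf (nat_lit 42) (nat_lit 139)) (nd (nat_lit 182) (nat_lit 0) (cs (lf (nat_lit 5) (nat_lit 181)) (nd (nat_lit 202) (nat_lit 0) (cs (lf (nat_lit 10) (nat_lit 180)) (rf (nat_lit 13))))))))))) (cs (nd (nat_lit 206) (nat_lit 0) (cs (lf (nat_lit 42) (nat_lit 139)) (nd (nat_lit 182) (nat_lit 0) (cs (lf (nat_lit 23) (nat_lit 158)) (lf (nat_lit 5) (nat_lit 181)))))) (rf (nat_lit 14)))))) (rf (nat_lit 15)))))) (rf (nat_lit 16))))) q37449 (by decide +kernel)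
def q37476 : Q := Q.p (nat_lit 0x58000060000000000000000000000000000000000000000) (nat_lit 0x6000018000070000a00003000000c0000300000c00000000000000000000000) (nat_lit 9)
theorem c37476 : QOK q37476 := cut [q37474] ⟨c37474, trivial⟩ (nd (nat_lit 185) (nat_lit 0) (cs (lf (nat_lit 18) (nat_lit 161)) (nd (nat_lit 164) (nat_lit 0) (cs (lf (nat_lit 17) (nat_lit 161)) (rf (nat_lit 0)))))) q37476 (by decide +kernel)
def q37501 : Q := Q.p (nat_lit 0x1800014000010000040000000000000000000000000000000000000000) (nat_lit 0x9c0002600009c00000000000000000000000000000000000000000000000000) (nat_lit 6)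
theorem c37501 : QOK q37501 := cut [q19109] ⟨c19109, trivial⟩ (nd (nat_lit 229) (nat_lit 0) (cs (lf (nat_lit 29) (nat_lit 162)) (rf (nat_lit 0)))) q37501 (by decide +kernel)
def q37717 : Q := Q.p (nat_lit 0x18000060000000000000000000000000000000000000000) (nat_lit 0x780003f00003c0000700001c0000f8000fc0003f00001c00005000000000000) (nat_lit 13)
theorem c37717 : QOK q37717 := cut [q37601, q37654, q37655, q37663, q36669, q37302, q37559, q37600, q37680, q37702, q37550, q34097, q34100, q34113, q35272] ⟨c37601, c37654, c37655, c37663, c36669, c37302, c37559, c37600, c37680, c37702, c37550, c34097, c34100, c34113, c35272, trivial⟩ (nd (nat_lit 160) (nat_lit 0) (cs (rf (nat_lit 0)) (cs (rf (nat_lit 1)) (cs (nd (nat_lit 138) (nat_lit 0) (cs (rf (nat_lit 2)) (cs (nd (nat_lit 137) (nat_lit 0) (cs (nd (nat_lit 205) (nat_lit 0) (cs (lf (nat_lit 42) (nat_lit 138)) (nd (nat_lit 159) (nat_lit 0) (cs (lf (nat_lit 0) (nat_lit 158))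 (nd (nat_lit 181) (nat_lit 0) (cs (lf (nat_lit 11) (nat_lit 158)) (nd (nat_lit 203) (nat_lit 0) (cs (lf (nat_lit 30) (nat_lit 137)) (nd (nat_lit 202) (nat_lit 0) (cs (lf (nat_lit 41) (nat_lit 136)) (lf (nat_lit 14) (nat_lit 180)))))))))))) (rf (nat_lit 3)))) (nd (nat_lit 116) (nat_lit 0) (cs (lf (nat_lit 24) (nat_lit 94)) (nd (nat_lit 159) (nat_lit 0) (cs (lf (nat_lit 0) (nat_lit 158)) (nd (nat_lit 137) (nat_lit 0) (cs (lf (nat_lit 23) (nat_lit 136)) (nd (nat_lit 181) (nat_lit 0) (cs (lf (nat_lit 11) (nat_lit 158)) (lf (nat_lit 30) (nat_lit 115))))))))))))) (cs (nd (nat_lit 159) (nat_lit 0) (cs (lf (nat_lit 0) (nat_lit 158)) (nd (nat_lit 137) (nat_lit 0) (cs (lf (nat_lit 23) (nat_lit 136)) (nd (nat_lit 204) (nat_lit 0) (cs (nd (nat_lit 226) (nat_lit 0) (cs (lf (nat_lit 44) (nat_lit 137)) (nd (nat_lit 205) (nat_lit 0) (cs (lf (nat_lit 36) (nat_lit 138)) (rf (nat_lit 4)))))) (cs (nd (nat_lit 181) (nat_lit 0) (cs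 (lf (nat_lit 11) (nat_lit 158)) (rf (nat_lit 5)))) (nd (nat_lit 181) (nat_lit 0) (cs (lf (nat_lit 11) (nat_lit 158)) (nd (nat_lit 203) (nat_lit 0) (cs (lf (nat_lit 29) (nat_lit 137)) (nd (nat_lit 202) (nat_lit 0) (cs (lf (nat_lit 41) (nat_lit 136)) (lf (nat_lit 15) (nat_lit 180))))))))))))))) (cs (nd (nat_lit 182) (nat_lit 0) (cs (rf (nat_lit 6)) (cs (rf (nat_lit 7)) (cs (nd (nat_lit 181) (nat_lit 0) (cs (lf (nat_lit 12) (nat_lit 158)) (nd (nat_lit 203) (nat_lit 0) (cs (lf (nat_lit 11) (nat_lit 180)) (nd (nat_lit 225) (nat_lit 0) (cs (lf (nat_lit 30) (nat_lit 159)) (nd (nat_lit 204) (nat_lit 0) (cs (lf (nat_lit 36) (nat_lit 137)) (rf (nat_lit 8)))))))))) (nd (nat_lit 181) (nat_lit 0) (cs (lf (nat_lit 12) (nat_lit 158)) (nd (nat_lit 159) (nat_lit 0) (cs (lf (nat_lit 23) (nat_lit 158)) (nd (nat_lit 203) (nat_lit 0) (cs (lf (nat_lit 11) (nat_lit 180)) (nd (nat_lit 225) (nat_lit 0) (cs (lf (nat_lit 30) (nat_lit 159))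 (lf (nat_lit 35) (nat_lit 137)))))))))))))) (cs (rf (nat_lit 9)) (cs (nd (nat_lit 138) (nat_lit 0) (cs (rf (nat_lit 10)) (rf (nat_lit 2)))) (nd (nat_lit 159) (nat_lit 0) (cs (lf (nat_lit 0) (nat_lit 158)) (nd (nat_lit 137) (nat_lit 0) (cs (lf (nat_lit 23) (nat_lit 136)) (nd (nat_lit 115) (nat_lit 0) (cs (rf (nat_lit 11)) (cs (rf (nat_lit 12)) (cs (rf (nat_lit 13)) (nd (nat_lit 182) (nat_lit 0) (cs (rf (nat_lit 14)) (cs (nd (nat_lit 181) (nat_lit 0) (cs (lf (nat_lit 12) (nat_lit 158)) (nd (nat_lit 92) (nat_lit 0) (cs (lf (nat_lit 46) (nat_lit 92)) (nd (nat_lit 116) (nat_lit 0) (cs (lf (nat_lit 35) (nat_lit 93)) (nd (nat_lit 138) (nat_lit 0) (cs (lf (nat_lit 29) (nat_lit 116)) (nd (nat_lit 117) (nat_lit 0) (cs (lf (nat_lit 35) (nat_lit 94)) (nd (nat_lit 118) (nat_lit 0) (cs (lf (nat_lit 6) (nat_lit 115)) (nd (nat_lit 96) (nat_lit 0) (cs (lf (nat_lit 17) (nat_lit 93)) (lf (nat_lit 32) (nat_lit 95))))))))))))))))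 (nd (nat_lit 204) (nat_lit 0) (cs (lf (nat_lit 42) (nat_lit 137)) (lf (nat_lit 45) (nat_lit 115))))))))))))))))))))))) q37717 (by decide +kernel)
def q37807 : Q := Q.p (nat_lit 0x18000040000160000000000000000000000000000000000000000) (nat_lit 0xa00003e000070003be0002000000c0000300000c00000000000000000000000) (nat_lit 8)
theorem c37807 : QOK q37807 := cut [q527, q32527, q23943, q5115, q37802, q37806] ⟨c527, c32527, c23943, c5115, c37802, c37806, trivial⟩ (nd (nat_lit 206) (nat_lit 0) (cs (rf (nat_lit 0)) (cs (rf (nat_lit 1)) (cs (nd (nat_lit 184) (nat_lit 0) (cs (rf (nat_lit 2)) (cs (nd (nat_lit 185) (nat_lit 0) (cs (lf (nat_lit 18) (nat_lit 161)) (nd (nat_lit 229) (nat_lit 0) (cs (lf (nat_lit 30) (nat_lit 163)) (rf (nat_lit 3)))))) (rf (nat_lit 4))))) (rf (nat_lit 5)))))) q37807 (by decide +kernel)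
def q37812 : Q := Q.p (nat_lit 0x2000000000018000040000160000000000000000000000000000000000000000) (nat_lit 0x300001e00001e000070003be0002000004c0001300000c00000000000000000000000) (nat_lit 9)
theorem c37812 : QOK q37812 := cut [q527, q32527, q37806, q23943, q37802, q3568] ⟨c527, c32527, c37806, c23943, c37802, c3568, trivial⟩ (nd (nat_lit 206) (nat_lit 0) (cs (rf (nat_lit 0)) (cs (rf (nat_lit 1)) (cs (rf (nat_lit 2)) (nd (nat_lit 184) (nat_lit 0) (cs (rf (nat_lit 3)) (cs (rf (nat_lit 4)) (nd (nat_lit 185) (nat_lit 0) (cs (lf (nat_lit 18) (nat_lit 161)) (nd (nat_lit 120) (nat_lit 0) (cs (lf (nat_lit 37) (nat_lit 119)) (nd (nat_lit 228) (nat_lit 0) (cs (lf (nat_lit 47) (nat_lit 139)) (rf (nat_lit 5))))))))))))))) q37812 (by decide +kernel)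
def q37814 : Q := Q.p (nat_lit 0x480001c0000000000000000000000000000000000000000) (nat_lit 0x730000e00003800000000000000000000000000000000000) (nat_lit 6)
theorem c37814 : QOK q37814 := cut [q35558] ⟨c35558, trivial⟩ (nd (nat_lit 165) (nat_lit 0) (cs (lf (nat_lit 10) (nat_lit 161)) (rf (nat_lit 0)))) q37814 (by decide +kernel)
def q37888 : Q := Q.p (nat_lit 0x10000048000160000000000000000000000000000000000000000) (nat_lit 0x500001c0000700003c0000f000090000010000efc003fe000ff80005000000000000000000) (nat_lit 12)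
theorem c37888 : QOK q37888 := cut [q36732, q37832, q36735, q36677, q37299, q35113, q37492, q36725, q559, q37877, q37882] ⟨c36732, c37832, c36735, c36677, c37299, c35113, c37492, c36725, c559, c37877, c37882, trivial⟩ (nd (nat_lit 139) (nat_lit 0) (cs (nd (nat_lit 205) (nat_lit 0) (cs (rf (nat_lit 0)) (cs (rf (nat_lit 1)) (nd (nat_lit 206) (nat_lit 0) (cs (lf (nat_lit 29) (nat_lit 139)) (nd (nat_lit 187) (nat_lit 0) (cs (lf (nat_lit 14) (nat_lit 183)) (nd (nat_lit 138) (nat_lit 0) (cs (lf (nat_lit 47) (nat_lit 116)) (nd (nat_lit 136) (nat_lit 0) (cs (lf (nat_lit 1) (nat_lit 136)) (nd (nat_lit 227) (nat_lit 0) (cs (lf (nat_lit 46) (nat_lit 138)) (rf (nat_lit 2))))))))))))))) (cs (nd (nat_lit 117) (nat_lit 0) (cs (rf (nat_lit 3)) (cs (rf (nat_lit 4)) (nd (nat_lit 118) (nat_lit 0) (cs (lf (nat_lit 35) (nat_lit 95)) (nd (nat_lit 116) (nat_lit 0) (cs (lf (nat_lit 47) (nat_lit 94)) (nd (nat_lit 115) (nat_lit 0) (cs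 (rf (nat_lit 5)) (cs (nd (nat_lit 184) (nat_lit 0) (cs (lf (nat_lit 29) (nat_lit 117)) (nd (nat_lit 92) (nat_lit 0) (cs (lf (nat_lit 22) (nat_lit 92)) (nd (nat_lit 114) (nat_lit 0) (cs (lf (nat_lit 23) (nat_lit 91)) (nd (nat_lit 138) (nat_lit 0) (cs (lf (nat_lit 0) (nat_lit 113)) (rf (nat_lit 6)))))))))) (cs (nd (nat_lit 184) (nat_lit 0) (cs (lf (nat_lit 29) (nat_lit 117)) (nd (nat_lit 92) (nat_lit 0) (cs (lf (nat_lit 22) (nat_lit 92)) (nd (nat_lit 114) (nat_lit 0) (cs (lf (nat_lit 23) (nat_lit 91)) (nd (nat_lit 113) (nat_lit 0) (cs (nd (nat_lit 135) (nat_lit 0) (cs (lf (nat_lit 10) (nat_lit 113)) (lf (nat_lit 11) (nat_lit 112)))) (lf (nat_lit 4) (nat_lit 113)))))))))) (nd (nat_lit 137) (nat_lit 0) (cs (lf (nat_lit 11) (nat_lit 114)) (nd (nat_lit 119) (nat_lit 0) (cs (lf (nat_lit 10) (nat_lit 115)) (nd (nat_lit 97) (nat_lit 0) (cs (lf (nat_lit 17) (nat_lit 94)) (nd (nat_lit 142) (nat_lit 0) (cs (lf (nat_lit 46)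 (nat_lit 119)) (lf (nat_lit 45) (nat_lit 97))))))))))))))))))))) (cs (nd (nat_lit 205) (nat_lit 0) (cs (rf (nat_lit 7)) (cs (rf (nat_lit 1)) (cs (nd (nat_lit 226) (nat_lit 0) (cs (lf (nat_lit 40) (nat_lit 138)) (nd (nat_lit 227) (nat_lit 0) (cs (lf (nat_lit 41) (nat_lit 160)) (nd (nat_lit 138) (nat_lit 0) (cs (lf (nat_lit 46) (nat_lit 138)) (nd (nat_lit 136) (nat_lit 0) (cs (lf (nat_lit 1) (nat_lit 136)) (nd (nat_lit 206) (nat_lit 0) (cs (lf (nat_lit 7) (nat_lit 204)) (nd (nat_lit 184) (nat_lit 0) (cs (lf (nat_lit 24) (nat_lit 117)) (lf (nat_lit 30) (nat_lit 161)))))))))))))) (nd (nat_lit 206) (nat_lit 0) (cs (lf (nat_lit 29) (nat_lit 139)) (nd (nat_lit 207) (nat_lit 0) (cs (lf (nat_lit 17) (nat_lit 183)) (nd (nat_lit 117) (nat_lit 0) (cs (lf (nat_lit 28) (nat_lit 117)) (nd (nat_lit 96) (nat_lit 0) (cs (lf (nat_lit 34) (nat_lit 95)) (nd (nat_lit 74) (nat_lit 0) (cs (rf (nat_lit 8)) (lf (nat_lit 33) (nat_lit 73))))))))))))))))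 (cs (rf (nat_lit 9)) (cs (rf (nat_lit 10)) (nd (nat_lit 205) (nat_lit 0) (cs (rf (nat_lit 0)) (cs (rf (nat_lit 1)) (nd (nat_lit 206) (nat_lit 0) (cs (lf (nat_lit 29) (nat_lit 139)) (nd (nat_lit 207) (nat_lit 0) (cs (lf (nat_lit 17) (nat_lit 183)) (nd (nat_lit 116) (nat_lit 0) (cs (lf (nat_lit 46) (nat_lit 116)) (nd (nat_lit 94) (nat_lit 0) (cs (rf (nat_lit 8)) (lf (nat_lit 45) (nat_lit 94))))))))))))))))))) q37888 (by decide +kernel)
def q37994 : Q := Q.p (nat_lit 0x1000004c000060000000000000000000000000000000000000000) (nat_lit 0x5a0001f80007e0003f8000fe00083800186000ec8003f0000fc00005000000000000000000) (nat_lit 14)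
theorem c37994 : QOK q37994 := cut [q37247, q37285, q37919, q37924, q37928, q18163, q37941, q37955, q37958, q36609, q37301, q37980] ⟨c37247, c37285, c37919, c37924, c37928, c18163, c37941, c37955, c37958, c36609, c37301, c37980, trivial⟩ (nd (nat_lit 164) (nat_lit 0) (cs (lf (nat_lit 7) (nat_lit 160)) (nd (nat_lit 205) (nat_lit 0) (cs (rf (nat_lit 0)) (cs (nd (nat_lit 227) (nat_lit 0) (cs (rf (nat_lit 1)) (cs (nd (nat_lit 180) (nat_lit 0) (cs (lf (nat_lit 13) (nat_lit 158)) (rf (nat_lit 2)))) (cs (nd (nat_lit 180) (nat_lit 0) (cs (lf (nat_lit 13) (nat_lit 158)) (rf (nat_lit 3)))) (cs (rf (nat_lit 4)) (cs (nd (nat_lit 226) (nat_lit 0) (cs (lf (nat_lit 41) (nat_lit 160)) (nd (nat_lit 142) (nat_lit 0) (cs (rf (nat_lit 5)) (cs (nd (nat_lit 139) (nat_lit 0) (cs (lf (nat_lit 40) (nat_lit 138)) (nd (nat_lit 207) (nat_lit 0) (cs (lf (nat_lit 41) (nat_lit 141)) (nd (nat_lit 119) (nat_lit 0) (cs (lf (nat_lit 46) (nat_lit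 119)) (nd (nat_lit 97) (nat_lit 0) (cs (lf (nat_lit 45) (nat_lit 97)) (nd (nat_lit 180) (nat_lit 0) (cs (lf (nat_lit 13) (nat_lit 158)) (nd (nat_lit 116) (nat_lit 0) (cs (lf (nat_lit 46) (nat_lit 116)) (nd (nat_lit 117) (nat_lit 0) (cs (lf (nat_lit 47) (nat_lit 94)) (nd (nat_lit 118) (nat_lit 0) (cs (lf (nat_lit 35) (nat_lit 95)) (lf (nat_lit 17) (nat_lit 94)))))))))))))))))) (cs (nd (nat_lit 204) (nat_lit 0) (cs (lf (nat_lit 36) (nat_lit 138)) (nd (nat_lit 249) (nat_lit 0) (cs (lf (nat_lit 42) (nat_lit 182)) (nd (nat_lit 121) (nat_lit 0) (cs (lf (nat_lit 34) (nat_lit 120)) (nd (nat_lit 99) (nat_lit 0) (cs (lf (nat_lit 33) (nat_lit 98)) (rf (nat_lit 6)))))))))) (nd (nat_lit 119) (nat_lit 0) (cs (lf (nat_lit 46) (nat_lit 119)) (nd (nat_lit 204) (nat_lit 0) (cs (lf (nat_lit 36) (nat_lit 138)) (nd (nat_lit 249) (nat_lit 0) (cs (lf (nat_lit 42) (nat_lit 182)) (nd (nat_lit 121) (nat_lit 0) (cs (lf (nat_lit 34) (nat_lit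 120)) (rf (nat_lit 6)))))))))))))))) (nd (nat_lit 180) (nat_lit 0) (cs (lf (nat_lit 13) (nat_lit 158)) (rf (nat_lit 7)))))))))) (cs (nd (nat_lit 180) (nat_lit 0) (cs (lf (nat_lit 13) (nat_lit 158)) (rf (nat_lit 8)))) (nd (nat_lit 227) (nat_lit 0) (cs (rf (nat_lit 9)) (cs (rf (nat_lit 2)) (cs (rf (nat_lit 3)) (cs (rf (nat_lit 4)) (cs (rf (nat_lit 7)) (nd (nat_lit 180) (nat_lit 0) (cs (lf (nat_lit 13) (nat_lit 158)) (nd (nat_lit 226) (nat_lit 0) (cs (lf (nat_lit 41) (nat_lit 160)) (nd (nat_lit 204) (nat_lit 0) (cs (rf (nat_lit 10)) (nd (nat_lit 202) (nat_lit 0) (cs (nd (nat_lit 224) (nat_lit 0) (cs (nd (nat_lit 246) (nat_lit 0) (cs (nd (nat_lit 249) (nat_lit 0) (cs (lf (nat_lit 42) (nat_lit 182)) (nd (nat_lit 269) (nat_lit 0) (cs (nd (nat_lit 179) (nat_lit 0) (cs (nd (nat_lit 268) (nat_lit 0) (cs (lf (nat_lit 46) (nat_lit 179)) (lf (nat_lit 29) (nat_lit 202)))) (lf (nat_lit 47) (nat_lit 157)))) (lf (nat_lit 28)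 (nat_lit 180)))))) (cs (nd (nat_lit 249) (nat_lit 0) (cs (lf (nat_lit 42) (nat_lit 182)) (nd (nat_lit 269) (nat_lit 0) (cs (lf (nat_lit 28) (nat_lit 180)) (nd (nat_lit 267) (nat_lit 0) (cs (nd (nat_lit 268) (nat_lit 0) (cs (lf (nat_lit 29) (nat_lit 202)) (lf (nat_lit 41) (nat_lit 201)))) (lf (nat_lit 40) (nat_lit 179)))))))) (rf (nat_lit 11))))) (cs (nd (nat_lit 225) (nat_lit 0) (cs (lf (nat_lit 23) (nat_lit 201)) (lf (nat_lit 17) (nat_lit 202)))) (nd (nat_lit 225) (nat_lit 0) (cs (lf (nat_lit 12) (nat_lit 201)) (lf (nat_lit 17) (nat_lit 202))))))) (cs (nd (nat_lit 203) (nat_lit 0) (cs (lf (nat_lit 23) (nat_lit 179)) (lf (nat_lit 5) (nat_lit 202)))) (nd (nat_lit 203) (nat_lit 0) (cs (lf (nat_lit 5) (nat_lit 202)) (lf (nat_lit 12) (nat_lit 179))))))))))))))))))))))))) q37994 (by decide +kernel)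
def q38035 : Q := Q.p (nat_lit 0x10000008000060000000000000000000000000000000000000000) (nat_lit 0x500001c0000700003c0000fc000170000900000e0001f00001c00005000000000000000000) (nat_lit 9)
theorem c38035 : QOK q38035 := cut [q37914, q38025, q37286, q38032] ⟨c37914, c38025, c37286, c38032, trivial⟩ (nd (nat_lit 182) (nat_lit 0) (cs (rf (nat_lit 0)) (cs (rf (nat_lit 1)) (nd (nat_lit 205) (nat_lit 0) (cs (rf (nat_lit 2)) (cs (nd (nat_lit 181) (nat_lit 0) (cs (lf (nat_lit 12) (nat_lit 158)) (nd (nat_lit 206) (nat_lit 0) (cs (lf (nat_lit 19) (nat_lit 182)) (nd (nat_lit 160) (nat_lit 0) (cs (lf (nat_lit 6) (nat_lit 159)) (nd (nat_lit 138) (nat_lit 0) (cs (lf (nat_lit 24) (nat_lit 116)) (lf (nat_lit 42) (nat_lit 138)))))))))) (nd (nat_lit 180) (nat_lit 0) (cs (lf (nat_lit 13) (nat_lit 158)) (rf (nat_lit 3)))))))))) q38035 (by decide +kernel)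
def q38139 : Q := Q.p (nat_lit 0x10000048000060000000000000000000000000000000000000000) (nat_lit 0x70000fc0003f8000fe0009700019f000e70003fc000af00000000000000000000000) (nat_lit 13)
theorem c38139 : QOK q38139 := cut [q37901, q38038, q36031, q37958, q38048, q37283, q38071, q37287, q38136, q38138] ⟨c37901, c38038, c36031, c37958, c38048, c37283, c38071, c37287, c38136, c38138, trivial⟩ (nd (nat_lit 182) (nat_lit 0) (cs (rf (nat_lit 0)) (cs (nd (nat_lit 160) (nat_lit 0) (cs (nd (nat_lit 163) (nat_lit 0) (cs (lf (nat_lit 6) (nat_lit 160)) (nd (nat_lit 141) (nat_lit 0) (cs (lf (nat_lit 17) (nat_lit 138)) (rf (nat_lit 1)))))) (cs (nd (nat_lit 164) (nat_lit 0) (cs (rf (nat_lit 2)) (nd (nat_lit 205) (nat_lit 0) (cs (rf (nat_lit 3)) (cs (nd (nat_lit 206) (nat_lit 0) (cs (lf (nat_lit 19) (nat_lit 182)) (nd (nat_lit 227) (nat_lit 0) (cs (lf (nat_lit 42) (nat_lit 160)) (nd (nat_lit 226) (nat_lit 0) (cs (lf (nat_lit 41)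 (nat_lit 160)) (nd (nat_lit 225) (nat_lit 0) (cs (lf (nat_lit 12) (nat_lit 202)) (nd (nat_lit 228) (nat_lit 0) (cs (lf (nat_lit 29) (nat_lit 161)) (nd (nat_lit 247) (nat_lit 0) (cs (lf (nat_lit 11) (nat_lit 224)) (lf (nat_lit 38) (nat_lit 159)))))))))))))) (nd (nat_lit 226) (nat_lit 0) (cs (nd (nat_lit 204) (nat_lit 0) (cs (lf (nat_lit 30) (nat_lit 160)) (nd (nat_lit 225) (nat_lit 0) (cs (lf (nat_lit 41) (nat_lit 159)) (rf (nat_lit 4)))))) (cs (nd (nat_lit 227) (nat_lit 0) (cs (lf (nat_lit 41) (nat_lit 160)) (lf (nat_lit 42) (nat_lit 160)))) (nd (nat_lit 204) (nat_lit 0) (cs (rf (nat_lit 4)) (nd (nat_lit 225) (nat_lit 0) (cs (lf (nat_lit 41) (nat_lit 159)) (nd (nat_lit 223) (nat_lit 0) (cs (nd (nat_lit 227) (nat_lit 0) (cs (lf (nat_lit 29) (nat_lit 160)) (rf (nat_lit 5)))) (lf (nat_lit 13) (nat_lit 201)))))))))))))))) (cs (rf (nat_lit 6)) (nd (nat_lit 164) (nat_lit 0) (cs (rf (nat_lit 2)) (nd (nat_lit 205) (nat_lit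 0) (cs (rf (nat_lit 7)) (rf (nat_lit 3)))))))))) (cs (rf (nat_lit 8)) (rf (nat_lit 9)))))) q38139 (by decide +kernel)
def q38159 : Q := Q.p (nat_lit 0x10000048000060000000000000000000000000000000000000000) (nat_lit 0x100000700003c0000fc00097000190000e80003e0000b800004000000000000000000) (nat_lit 9)
theorem c38159 : QOK q38159 := cut [q37901, q38138, q37285, q36031, q37958, q38031, q5968, q36694, q38151, q38154] ⟨c37901, c38138, c37285, c36031, c37958, c38031, c5968, c36694, c38151, c38154, trivial⟩ (nd (nat_lit 182) (nat_lit 0) (cs (rf (nat_lit 0)) (cs (rf (nat_lit 1)) (cs (nd (nat_lit 205) (nat_lit 0) (cs (nd (nat_lit 206) (nat_lit 0) (cs (lf (nat_lit 19) (nat_lit 182)) (nd (nat_lit 228) (nat_lit 0) (cs (lf (nat_lit 24) (nat_lit 139)) (nd (nat_lit 250) (nat_lit 0) (cs (lf (nat_lit 42) (nat_lit 183)) (lf (nat_lit 27) (nat_lit 161)))))))) (cs (nd (nat_lit 227) (nat_lit 0) (cs (rf (nat_lit 2)) (nd (nat_lit 249)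 (nat_lit 0) (cs (lf (nat_lit 34) (nat_lit 161)) (lf (nat_lit 47) (nat_lit 160)))))) (nd (nat_lit 164) (nat_lit 0) (cs (rf (nat_lit 3)) (rf (nat_lit 4))))))) (nd (nat_lit 206) (nat_lit 0) (cs (nd (nat_lit 205) (nat_lit 0) (cs (lf (nat_lit 19) (nat_lit 182)) (rf (nat_lit 5)))) (cs (nd (nat_lit 181) (nat_lit 0) (cs (lf (nat_lit 12) (nat_lit 158)) (nd (nat_lit 184) (nat_lit 0) (cs (rf (nat_lit 6)) (lf (nat_lit 5) (nat_lit 181)))))) (cs (nd (nat_lit 207) (nat_lit 0) (cs (lf (nat_lit 21) (nat_lit 182)) (rf (nat_lit 7)))) (nd (nat_lit 228) (nat_lit 0) (cs (nd (nat_lit 184) (nat_lit 0) (cs (lf (nat_lit 42) (nat_lit 161)) (lf (nat_lit 47) (nat_lit 139)))) (cs (nd (nat_lit 180) (nat_lit 0) (cs (lf (nat_lit 13) (nat_lit 158)) (nd (nat_lit 139) (nat_lit 0) (cs (lf (nat_lit 27) (nat_lit 139)) (rf (nat_lit 8)))))) (nd (nat_lit 180) (nat_lit 0) (cs (lf (nat_lit 13) (nat_lit 158)) (nd (nat_lit 250) (nat_lit 0) (cs (lf (nat_lit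 45) (nat_lit 161)) (rf (nat_lit 9))))))))))))))))) q38159 (by decide +kernel)
def q38172 : Q := Q.p (nat_lit 0x10000048000060000000000000000000000000000000000000000) (nat_lit 0x70000fc0003f0000fe0009700019f0000f00007c0001f00005000000000000000000) (nat_lit 13)
theorem c38172 : QOK q38172 := cut [q37901, q38136, q38168] ⟨c37901, c38136, c38168, trivial⟩ (nd (nat_lit 182) (nat_lit 0) (cs (rf (nat_lit 0)) (cs (rf (nat_lit 1)) (rf (nat_lit 2))))) q38172 (by decide +kernel)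
def q38204 : Q := Q.p (nat_lit 0x10000000000070000000000000000000000000000000000000000) (nat_lit 0xc0001b0000fc0001fc0008f0000fc0003c0000f00001c00005000000000000) (nat_lit 14)
theorem c38204 : QOK q38204 := cut [q34075, q34116, q38181, q38185, q38195] ⟨c34075, c34116, c38181, c38185, c38195, trivial⟩ (nd (nat_lit 159) (nat_lit 0) (cs (rf (nat_lit 0)) (cs (rf (nat_lit 1)) (cs (rf (nat_lit 2)) (cs (rf (nat_lit 3)) (cs (nd (nat_lit 180) (nat_lit 0) (cs (lf (nat_lit 10) (nat_lit 158)) (nd (nat_lit 158) (nat_lit 0) (cs (lf (nat_lit 11) (nat_lit 157)) (nd (nat_lit 183) (nat_lit 0) (cs (lf (nat_lit 5) (nat_lit 158)) (nd (nat_lit 157) (nat_lit 0) (cs (lf (nat_lit 4) (nat_lit 157)) (nd (nat_lit 138) (nat_lit 0) (cs (lf (nat_lit 17) (nat_lit 135)) (nd (nat_lit 137) (nat_lit 0) (cs (lf (nat_lit 18) (nat_lit 137)) (lf (nat_lit 12) (nat_lit 134)))))))))))))) (nd (nat_lit 136) (nat_lit 0) (cs (lf (nat_lit 22) (nat_lit 136))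 (nd (nat_lit 158) (nat_lit 0) (cs (lf (nat_lit 23) (nat_lit 135)) (nd (nat_lit 183) (nat_lit 0) (cs (lf (nat_lit 5) (nat_lit 158)) (nd (nat_lit 182) (nat_lit 0) (cs (lf (nat_lit 0) (nat_lit 157)) (nd (nat_lit 181) (nat_lit 0) (cs (lf (nat_lit 6) (nat_lit 159)) (nd (nat_lit 92) (nat_lit 0) (cs (lf (nat_lit 25) (nat_lit 92)) (nd (nat_lit 203) (nat_lit 0) (cs (lf (nat_lit 42) (nat_lit 136)) (nd (nat_lit 138) (nat_lit 0) (cs (lf (nat_lit 36) (nat_lit 115)) (rf (nat_lit 4)))))))))))))))))))))))) q38204 (by decide +kernel)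
def q38209 : Q := Q.p (nat_lit 0x70000000000000000000000000000000000000000) (nat_lit 0xc0000300001c0003f80000c0000780001c0000700001c00005000000000000) (nat_lit 11)
theorem c38209 : QOK q38209 := cut [q34116, q18688] ⟨c34116, c18688, trivial⟩ (nd (nat_lit 159) (nat_lit 0) (cs (rf (nat_lit 0)) (cs (nd (nat_lit 180) (nat_lit 0) (cs (lf (nat_lit 10) (nat_lit 158)) (nd (nat_lit 158) (nat_lit 0) (cs (lf (nat_lit 11) (nat_lit 157)) (nd (nat_lit 184) (nat_lit 0) (cs (lf (nat_lit 5) (nat_lit 159)) (lf (nat_lit 4) (nat_lit 158)))))))) (nd (nat_lit 184) (nat_lit 0) (cs (lf (nat_lit 5) (nat_lit 159)) (rf (nat_lit 1))))))) q38209 (by decide +kernel)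
def q38216 : Q := Q.p (nat_lit 0x10000040000060000000000000000000000000000000000000000) (nat_lit 0x20000080001b0000190000ee0001800002000000000000000000000000) (nat_lit 7)
theorem c38216 : QOK q38216 := cut [q38021, q32464, q38212, q38215] ⟨c38021, c32464, c38212, c38215, trivial⟩ (nd (nat_lit 163) (nat_lit 0) (cs (rf (nat_lit 0)) (cs (nd (nat_lit 164) (nat_lit 0) (cs (lf (nat_lit 5) (nat_lit 161)) (rf (nat_lit 1)))) (cs (rf (nat_lit 2)) (rf (nat_lit 3)))))) q38216 (by decide +kernel)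
def q38301 : Q := Q.p (nat_lit 0x18000060000000000000000000000000000000000000000) (nat_lit 0x80000600001c0000700009c0003f8001f80007e00000000000000000000000) (nat_lit 11)
theorem c38301 : QOK q38301 := cut [q37601, q37436, q38025, q37597, q38272, q38292, q37438] ⟨c37601, c37436, c38025, c37597, c38272, c38292, c37438, trivial⟩ (nd (nat_lit 160) (nat_lit 0) (cs (rf (nat_lit 0)) (cs (nd (nat_lit 182) (nat_lit 0) (cs (rf (nat_lit 1)) (cs (rf (nat_lit 2)) (nd (nat_lit 138) (nat_lit 0) (cs (rf (nat_lit 3)) (cs (nd (nat_lit 116) (nat_lit 0) (cs (lf (nat_lit 24) (nat_lit 94)) (nd (nat_lit 93) (nat_lit 0) (cs (lf (nat_lit 46) (nat_lit 93)) (nd (nat_lit 117) (nat_lit 0) (cs (lf (nat_lit 35) (nat_lit 94)) (nd (nat_lit 139) (nat_lit 0) (cs (lf (nat_lit 41) (nat_lit 116)) (nd (nat_lit 118) (nat_lit 0) (cs (lf (nat_lit 35) (nat_lit 95)) (nd (nat_lit 119) (nat_lit 0) (cs (lf (nat_lit 6) (nat_lit 116)) (nd (nat_lit 97) (nat_lit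 0) (cs (lf (nat_lit 17) (nat_lit 94)) (lf (nat_lit 32) (nat_lit 96)))))))))))))))) (rf (nat_lit 4)))))))) (cs (nd (nat_lit 159) (nat_lit 0) (cs (lf (nat_lit 0) (nat_lit 158)) (nd (nat_lit 140) (nat_lit 0) (cs (lf (nat_lit 17) (nat_lit 137)) (nd (nat_lit 118) (nat_lit 0) (cs (lf (nat_lit 36) (nat_lit 95)) (nd (nat_lit 119) (nat_lit 0) (cs (lf (nat_lit 35) (nat_lit 96)) (nd (nat_lit 95) (nat_lit 0) (cs (lf (nat_lit 46) (nat_lit 95)) (nd (nat_lit 137) (nat_lit 0) (cs (lf (nat_lit 23) (nat_lit 136)) (nd (nat_lit 138) (nat_lit 0) (cs (lf (nat_lit 18) (nat_lit 137)) (lf (nat_lit 14) (nat_lit 115)))))))))))))))) (cs (nd (nat_lit 159) (nat_lit 0) (cs (lf (nat_lit 0) (nat_lit 158)) (nd (nat_lit 140) (nat_lit 0) (cs (lf (nat_lit 17) (nat_lit 137)) (nd (nat_lit 96) (nat_lit 0) (cs (lf (nat_lit 37) (nat_lit 95)) (rf (nat_lit 5)))))))) (nd (nat_lit 159) (nat_lit 0) (cs (lf (nat_lit 0) (nat_lit 158)) (nd (nat_lit 140) (nat_lit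 0) (cs (lf (nat_lit 17) (nat_lit 137)) (nd (nat_lit 96) (nat_lit 0) (cs (lf (nat_lit 37) (nat_lit 95)) (nd (nat_lit 181) (nat_lit 0) (cs (lf (nat_lit 11) (nat_lit 158)) (nd (nat_lit 182) (nat_lit 0) (cs (lf (nat_lit 17) (nat_lit 159)) (rf (nat_lit 6))))))))))))))))) q38301 (by decide +kernel)
def q38426 : Q := Q.p (nat_lit 0x10000070000040000000000000000000000000000000000000000) (nat_lit 0x20000080000f00018f000e9c000000000000000000000000000000000000000) (nat_lit 8)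
theorem c38426 : QOK q38426 := cut [q38417, q18914] ⟨c38417, c18914, trivial⟩ (nd (nat_lit 205) (nat_lit 0) (cs (rf (nat_lit 0)) (cs (nd (nat_lit 187) (nat_lit 0) (cs (lf (nat_lit 10) (nat_lit 183)) (rf (nat_lit 1)))) (nd (nat_lit 183) (nat_lit 0) (cs (lf (nat_lit 11) (nat_lit 182)) (nd (nat_lit 182) (nat_lit 0) (cs (lf (nat_lit 4) (nat_lit 182)) (nd (nat_lit 227) (nat_lit 0) (cs (lf (nat_lit 30) (nat_lit 161)) (nd (nat_lit 206) (nat_lit 0) (cs (lf (nat_lit 6) (nat_lit 183)) (nd (nat_lit 159) (nat_lit 0) (cs (lf (nat_lit 22) (nat_lit 159)) (nd (nat_lit 181) (nat_lit 0) (cs (lf (nat_lit 0) (nat_lit 180)) (lf (nat_lit 23) (nat_lit 158))))))))))))))))) q38426 (by decide +kernel)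
def q38427 : Q := Q.p (nat_lit 0x78000040000000000000000000000000000000000000000) (nat_lit 0x6000018000070000000000380000c0000300000c00000000000000000000000) (nat_lit 8)
theorem c38427 : QOK q38427 := cut [q19013, q37474] ⟨c19013, c37474, trivial⟩ (nd (nat_lit 161) (nat_lit 0) (cs (rf (nat_lit 0)) (rf (nat_lit 1)))) q38427 (by decide +kernel)
def q38552 : Q := Q.p (nat_lit 0x10000060000000000000000000000000000000000000000) (nat_lit 0x1400037c000df0000fc0009e000ff0003fe001ff00007c0001c000000000000) (nat_lit 15)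
theorem c38552 : QOK q38552 := cut [q36613, q34821, q37347, q38451, q38457, q38495, q36297, q36345, q34806, q38450, q38275, q38527, q38530, q38550, q38551] ⟨c36613, c34821, c37347, c38451, c38457, c38495, c36297, c36345, c34806, c38450, c38275, c38527, c38530, c38550, c38551, trivial⟩ (nd (nat_lit 139) (nat_lit 0) (cs (rf (nat_lit 0)) (cs (nd (nat_lit 140) (nat_lit 0) (cs (rf (nat_lit 1)) (cs (nd (nat_lit 159) (nat_lit 0) (cs (nd (nat_lit 137) (nat_lit 0) (cs (rf (nat_lit 2)) (cs (nd (nat_lit 206) (nat_lit 0) (cs (lf (nat_lit 42) (nat_lit 139)) (nd (nat_lit 207) (nat_lit 0) (cs (lf (nat_lit 29) (nat_lit 140)) (nd (nat_lit 160) (nat_lit 0) (cs (lf (nat_lit 23) (nat_lit 136)) (rf (nat_lit 3)))))))) (rf (nat_lit 4))))) (cs (nd (nat_lit 206) (nat_lit 0) (cs (lf (nat_lit 42) (nat_lit 139)) (nd (nat_lit 207) (nat_lit 0) (cs (lf (nat_lit 29) (nat_lit 140)) (nd (nat_lit 160) (nat_lit 0) (cs (lf (nat_lit 12) (nat_lit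 136)) (rf (nat_lit 3)))))))) (cs (nd (nat_lit 137) (nat_lit 0) (cs (nd (nat_lit 138) (nat_lit 0) (cs (lf (nat_lit 0) (nat_lit 136)) (lf (nat_lit 5) (nat_lit 137)))) (cs (rf (nat_lit 4)) (rf (nat_lit 5))))) (cs (nd (nat_lit 160) (nat_lit 0) (cs (lf (nat_lit 12) (nat_lit 136)) (nd (nat_lit 137) (nat_lit 0) (cs (lf (nat_lit 23) (nat_lit 136)) (nd (nat_lit 206) (nat_lit 0) (cs (lf (nat_lit 42) (nat_lit 139)) (rf (nat_lit 4)))))))) (cs (nd (nat_lit 137) (nat_lit 0) (cs (rf (nat_lit 2)) (cs (rf (nat_lit 5)) (nd (nat_lit 158) (nat_lit 0) (cs (lf (nat_lit 8) (nat_lit 136)) (lf (nat_lit 14) (nat_lit 136))))))) (nd (nat_lit 160) (nat_lit 0) (cs (lf (nat_lit 12) (nat_lit 136)) (nd (nat_lit 137) (nat_lit 0) (cs (lf (nat_lit 23) (nat_lit 136)) (nd (nat_lit 180) (nat_lit 0) (cs (lf (nat_lit 10) (nat_lit 158)) (nd (nat_lit 138) (nat_lit 0) (cs (lf (nat_lit 5) (nat_lit 137)) (nd (nat_lit 118) (nat_lit 0) (cs (lf (nat_lit 17)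 (nat_lit 115)) (nd (nat_lit 74) (nat_lit 0) (cs (lf (nat_lit 37) (nat_lit 73)) (rf (nat_lit 6)))))))))))))))))))) (cs (nd (nat_lit 138) (nat_lit 0) (cs (nd (nat_lit 137) (nat_lit 0) (cs (lf (nat_lit 5) (nat_lit 137)) (nd (nat_lit 158) (nat_lit 0) (cs (lf (nat_lit 10) (nat_lit 136)) (nd (nat_lit 136) (nat_lit 0) (cs (lf (nat_lit 4) (nat_lit 136)) (lf (nat_lit 11) (nat_lit 135)))))))) (cs (rf (nat_lit 7)) (cs (nd (nat_lit 160) (nat_lit 0) (cs (rf (nat_lit 8)) (cs (nd (nat_lit 206) (nat_lit 0) (cs (lf (nat_lit 42) (nat_lit 139)) (nd (nat_lit 141) (nat_lit 0) (cs (lf (nat_lit 6) (nat_lit 138)) (nd (nat_lit 116) (nat_lit 0) (cs (lf (nat_lit 23) (nat_lit 115)) (nd (nat_lit 94) (nat_lit 0) (cs (lf (nat_lit 24) (nat_lit 72)) (lf (nat_lit 29) (nat_lit 94)))))))))) (nd (nat_lit 159) (nat_lit 0) (cs (lf (nat_lit 12) (nat_lit 136)) (nd (nat_lit 206) (nat_lit 0) (cs (lf (nat_lit 42) (nat_lit 139)) (nd (nat_lit 181) (nat_lit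 0) (cs (lf (nat_lit 11) (nat_lit 158)) (nd (nat_lit 207) (nat_lit 0) (cs (lf (nat_lit 29) (nat_lit 140)) (rf (nat_lit 9))))))))))))) (nd (nat_lit 206) (nat_lit 0) (cs (lf (nat_lit 42) (nat_lit 139)) (nd (nat_lit 137) (nat_lit 0) (cs (lf (nat_lit 0) (nat_lit 136)) (nd (nat_lit 207) (nat_lit 0) (cs (lf (nat_lit 29) (nat_lit 140)) (nd (nat_lit 114) (nat_lit 0) (cs (lf (nat_lit 22) (nat_lit 114)) (nd (nat_lit 159) (nat_lit 0) (cs (lf (nat_lit 11) (nat_lit 136)) (nd (nat_lit 160) (nat_lit 0) (cs (lf (nat_lit 17) (nat_lit 137)) (nd (nat_lit 181) (nat_lit 0) (cs (lf (nat_lit 11) (nat_lit 158)) (rf (nat_lit 10)))))))))))))))))))) (rf (nat_lit 11)))))) (cs (rf (nat_lit 12)) (cs (rf (nat_lit 13)) (rf (nat_lit 14))))))) q38552 (by decide +kernel)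
def q38567 : Q := Q.p (nat_lit 0x50000040000000000000000000000000000000000000000) (nat_lit 0x80000600001c00007c000af0000b8000ff0003f0001fc0000700001c000000000000) (nat_lit 11)
theorem c38567 : QOK q38567 := cut [q33487, q38377, q23943, q2497, q32686, q34755, q17344, q38443, q5854, q36613, q38530, q38550, q38551, q38527, q18007, q38243] ⟨c33487, c38377, c23943, c2497, c32686, c34755, c17344, c38443, c5854, c36613, c38530, c38550, c38551, c38527, c18007, c38243, trivial⟩ (nd (nat_lit 161) (nat_lit 0) (cs (rf (nat_lit 0)) (cs (rf (nat_lit 1)) (cs (nd (nat_lit 206) (nat_lit 0) (cs (rf (nat_lit 2)) (cs (nd (nat_lit 140) (nat_lit 0) (cs (rf (nat_lit 3)) (rf (nat_lit 4)))) (cs (nd (nat_lit 228) (nat_lit 0) (cs (rf (nat_lit 5)) (cs (nd (nat_lit 185) (nat_lit 0) (cs (lf (nat_lit 18) (nat_lit 161)) (rf (nat_lit 6)))) (nd (nat_lit 185) (nat_lit 0) (cs (lf (nat_lit 18) (nat_lit 161)) (rf (nat_lit 7))))))) (nd (nat_lit 185)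 (nat_lit 0) (cs (lf (nat_lit 18) (nat_lit 161)) (rf (nat_lit 8)))))))) (nd (nat_lit 139) (nat_lit 0) (cs (rf (nat_lit 9)) (cs (rf (nat_lit 10)) (cs (rf (nat_lit 11)) (cs (rf (nat_lit 12)) (nd (nat_lit 140) (nat_lit 0) (cs (rf (nat_lit 13)) (cs (nd (nat_lit 206) (nat_lit 0) (cs (lf (nat_lit 42) (nat_lit 139)) (nd (nat_lit 205) (nat_lit 0) (cs (lf (nat_lit 41) (nat_lit 139)) (rf (nat_lit 14)))))) (nd (nat_lit 206) (nat_lit 0) (cs (lf (nat_lit 42) (nat_lit 139)) (nd (nat_lit 205) (nat_lit 0) (cs (lf (nat_lit 41) (nat_lit 139)) (nd (nat_lit 183) (nat_lit 0) (cs (lf (nat_lit 36) (nat_lit 117)) (rf (nat_lit 15)))))))))))))))))))) q38567 (by decide +kernel)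
def q38615 : Q := Q.p (nat_lit 0x100000400000e0000000000000000000000000000000000000000) (nat_lit 0x20000080000a0000100000c0000380000e000028000000000000000000) (nat_lit 8)
theorem c38615 : QOK q38615 := cut [q38614] ⟨c38614, trivial⟩ (nd (nat_lit 164) (nat_lit 0) (cs (lf (nat_lit 5) (nat_lit 161)) (rf (nat_lit 0)))) q38615 (by decide +kernel)
def q38770 : Q := Q.p (nat_lit 0x8000060000000000000000000000000000000000000000) (nat_lit 0x100001c000170000dc00017c0019f0001fc0007e0001f00001c00005000000000000) (nat_lit 13)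
theorem c38770 : QOK q38770 := cut [q38137, q11410, q35289, q38277, q38734, q38669, q37379, q38741, q38746, q37384, q38754, q38757, q38766] ⟨c38137, c11410, c35289, c38277, c38734, c38669, c37379, c38741, c38746, c37384, c38754, c38757, c38766, trivial⟩ (nd (nat_lit 181) (nat_lit 0) (cs (nd (nat_lit 182) (nat_lit 0) (cs (lf (nat_lit 12) (nat_lit 158)) (rf (nat_lit 0)))) (cs (nd (nat_lit 159) (nat_lit 0) (cs (nd (nat_lit 160) (nat_lit 0) (cs (lf (nat_lit 11) (nat_lit 158)) (nd (nat_lit 158) (nat_lit 0) (cs (rf (nat_lit 1)) (lf (nat_lit 5) (nat_lit 158)))))) (cs (nd (nat_lit 160) (nat_lit 0) (cs (lf (nat_lit 11) (nat_lit 158)) (nd (nat_lit 158) (nat_lit 0) (cs (lf (nat_lit 5) (nat_lit 158)) (nd (nat_lit 139) (nat_lit 0) (cs (lf (nat_lit 17) (nat_lit 136)) (nd (nat_lit 157) (nat_lit 0) (cs (rf (nat_lit 2)) (lf (nat_lit 16) (nat_lit 135)))))))))) (cs (nd (nat_lit 160) (nat_lit 0) (cs (lf (nat_lit 11) (nat_lit 158))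 (rf (nat_lit 3)))) (cs (rf (nat_lit 4)) (cs (nd (nat_lit 160) (nat_lit 0) (cs (lf (nat_lit 11) (nat_lit 158)) (nd (nat_lit 158) (nat_lit 0) (cs (lf (nat_lit 5) (nat_lit 158)) (nd (nat_lit 139) (nat_lit 0) (cs (lf (nat_lit 17) (nat_lit 136)) (nd (nat_lit 138) (nat_lit 0) (cs (lf (nat_lit 12) (nat_lit 135)) (nd (nat_lit 163) (nat_lit 0) (cs (lf (nat_lit 23) (nat_lit 137)) (lf (nat_lit 18) (nat_lit 138)))))))))))) (nd (nat_lit 137) (nat_lit 0) (cs (rf (nat_lit 5)) (cs (nd (nat_lit 138) (nat_lit 0) (cs (rf (nat_lit 6)) (cs (nd (nat_lit 160) (nat_lit 0) (cs (lf (nat_lit 18) (nat_lit 137)) (nd (nat_lit 203) (nat_lit 0) (cs (lf (nat_lit 30) (nat_lit 137)) (nd (nat_lit 204) (nat_lit 0) (cs (lf (nat_lit 29) (nat_lit 137)) (nd (nat_lit 202) (nat_lit 0) (cs (lf (nat_lit 41) (nat_lit 136)) (rf (nat_lit 7)))))))))) (nd (nat_lit 160) (nat_lit 0) (cs (lf (nat_lit 18) (nat_lit 137)) (rf (nat_lit 8))))))) (cs (nd (nat_lit 136)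 (nat_lit 0) (cs (lf (nat_lit 20) (nat_lit 136)) (rf (nat_lit 9)))) (cs (nd (nat_lit 160) (nat_lit 0) (cs (lf (nat_lit 23) (nat_lit 136)) (nd (nat_lit 138) (nat_lit 0) (cs (lf (nat_lit 18) (nat_lit 137)) (rf (nat_lit 8)))))) (rf (nat_lit 10))))))))))))) (cs (nd (nat_lit 182) (nat_lit 0) (cs (rf (nat_lit 0)) (cs (rf (nat_lit 11)) (rf (nat_lit 12))))) (cs (nd (nat_lit 182) (nat_lit 0) (cs (lf (nat_lit 12) (nat_lit 158)) (rf (nat_lit 11)))) (nd (nat_lit 182) (nat_lit 0) (cs (lf (nat_lit 12) (nat_lit 158)) (rf (nat_lit 12))))))))) q38770 (by decide +kernel)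
def q38830 : Q := Q.p (nat_lit 0x10000048000060000000000000000000000000000000000000000) (nat_lit 0x140000700003c0000f00008600001c0001f00007c0001400000000000000000000000) (nat_lit 10)
theorem c38830 : QOK q38830 := cut [q36607, q37223, q37239, q37247, q38169] ⟨c36607, c37223, c37239, c37247, c38169, trivial⟩ (nd (nat_lit 205) (nat_lit 0) (cs (rf (nat_lit 0)) (cs (rf (nat_lit 1)) (cs (rf (nat_lit 2)) (cs (rf (nat_lit 3)) (rf (nat_lit 4))))))) q38830 (by decide +kernel)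
def q38846 : Q := Q.p (nat_lit 0x10000008000060000000000000000000000000000000000000000) (nat_lit 0x140000700003c0000f8000170001900001c0000300000800000000000000000000000) (nat_lit 8)
theorem c38846 : QOK q38846 := cut [q36593, q38169, q38828, q38845] ⟨c36593, c38169, c38828, c38845, trivial⟩ (nd (nat_lit 205) (nat_lit 0) (cs (rf (nat_lit 0)) (cs (rf (nat_lit 1)) (cs (rf (nat_lit 2)) (rf (nat_lit 3)))))) q38846 (by decide +kernel)
def q38847 : Q := Q.p (nat_lit 0x10000008000060000000000000000000000000000000000000000) (nat_lit 0x40000380000f0000f80001780001e0001fc0007c0001f00005c00000000000000000) (nat_lit 12)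
theorem c38847 : QOK q38847 := cut [q36506, q36607, q37339, q38845] ⟨c36506, c36607, c37339, c38845, trivial⟩ (nd (nat_lit 205) (nat_lit 0) (cs (rf (nat_lit 0)) (cs (rf (nat_lit 1)) (cs (rf (nat_lit 2)) (rf (nat_lit 3)))))) q38847 (by decide +kernel)
def q38868 : Q := Q.p (nat_lit 0x10000050000060000000000000000000000000000000000000000) (nat_lit 0x280000a00003e0000f00008e000010000180000600000800000000000000000000000) (nat_lit 9)
theorem c38868 : QOK q38868 := cut [q5854, q23943, q18531, q18707, q38864, q38865, q38867] ⟨c5854, c23943, c18531, c18707, c38864, c38865, c38867, trivial⟩ (nd (nat_lit 206) (nat_lit 0) (cs (rf (nat_lit 0)) (cs (rf (nat_lit 1)) (cs (nd (nat_lit 205) (nat_lit 0) (cs (rf (nat_lit 2)) (cs (rf (nat_lit 3)) (cs (rf (nat_lit 4)) (rf (nat_lit 5)))))) (rf (nat_lit 6)))))) q38868 (by decide +kernel)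
def q38934 : Q := Q.p (nat_lit 0x100000400000e0000000000000000000000000000000000000000) (nat_lit 0x300000c00003e0000f8001be0000000003c0000f00003c0000e000028000000000000) (nat_lit 10)
theorem c38934 : QOK q38934 := cut [q3484, q32488, q38915, q10277, q3742, q38920, q34070, q34071, q34258, q862, q17806, q23943, q2497, q32769, q32771, q18919, q3743, q32474, q37806] ⟨c3484, c32488, c38915, c10277, c3742, c38920, c34070, c34071, c34258, c862, c17806, c23943, c2497, c32769, c32771, c18919, c3743, c32474, c37806, trivial⟩ (nd (nat_lit 185) (nat_lit 0) (cs (rf (nat_lit 0)) (cs (rf (nat_lit 1)) (nd (nat_lit 206) (nat_lit 0) (cs (rf (nat_lit 2)) (cs (nd (nat_lit 141) (nat_lit 0) (cs (lf (nat_lit 24) (nat_lit 119)) (nd (nat_lit 207) (nat_lit 0) (cs (lf (nat_lit 41) (nat_lit 140)) (rf (nat_lit 3)))))) (cs (nd (nat_lit 140) (nat_lit 0) (cs (nd (nat_lit 207) (nat_lit 0) (cs (lf (nat_lit 42) (nat_lit 140)) (rf (nat_lit 4))))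 (cs (nd (nat_lit 119) (nat_lit 0) (cs (lf (nat_lit 25) (nat_lit 119)) (nd (nat_lit 207) (nat_lit 0) (cs (lf (nat_lit 42) (nat_lit 140)) (rf (nat_lit 5)))))) (nd (nat_lit 118) (nat_lit 0) (cs (rf (nat_lit 6)) (cs (rf (nat_lit 7)) (cs (rf (nat_lit 8)) (nd (nat_lit 119) (nat_lit 0) (cs (lf (nat_lit 25) (nat_lit 119)) (nd (nat_lit 184) (nat_lit 0) (cs (lf (nat_lit 35) (nat_lit 96)) (rf (nat_lit 9))))))))))))) (cs (nd (nat_lit 184) (nat_lit 0) (cs (rf (nat_lit 10)) (cs (rf (nat_lit 11)) (nd (nat_lit 140) (nat_lit 0) (cs (rf (nat_lit 12)) (cs (rf (nat_lit 13)) (cs (rf (nat_lit 14)) (nd (nat_lit 119) (nat_lit 0) (cs (lf (nat_lit 25) (nat_lit 119)) (nd (nat_lit 117) (nat_lit 0) (cs (lf (nat_lit 46) (nat_lit 117)) (nd (nat_lit 205) (nat_lit 0) (cs (lf (nat_lit 41) (nat_lit 139)) (rf (nat_lit 15))))))))))))))) (nd (nat_lit 207) (nat_lit 0) (cs (rf (nat_lit 16)) (cs (rf (nat_lit 17)) (rf (nat_lit 18))))))))))))) q38934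 (by decide +kernel)
def q38976 : Q := Q.p (nat_lit 0x70000000000000000000000000000000000000000) (nat_lit 0xc0000300001c0003780000c0003f80001c0000700001c00005000000000000) (nat_lit 11)
theorem c38976 : QOK q38976 := cut [q34116, q38971, q38973] ⟨c34116, c38971, c38973, trivial⟩ (nd (nat_lit 159) (nat_lit 0) (cs (rf (nat_lit 0)) (cs (nd (nat_lit 184) (nat_lit 0) (cs (lf (nat_lit 5) (nat_lit 159)) (rf (nat_lit 1)))) (nd (nat_lit 136) (nat_lit 0) (cs (lf (nat_lit 22) (nat_lit 136)) (nd (nat_lit 184) (nat_lit 0) (cs (lf (nat_lit 5) (nat_lit 159)) (rf (nat_lit 2))))))))) q38976 (by decide +kernel)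
def q38992 : Q := Q.p (nat_lit 0x70000000000000000000000000000000000000000) (nat_lit 0xc0000300001c0001780008c0003f0000fc0003f0000fc00005000000000000) (nat_lit 12)
theorem c38992 : QOK q38992 := cut [q34116, q38971] ⟨c34116, c38971, trivial⟩ (nd (nat_lit 159) (nat_lit 0) (cs (rf (nat_lit 0)) (cs (rf (nat_lit 1)) (nd (nat_lit 140) (nat_lit 0) (cs (lf (nat_lit 17) (nat_lit 137)) (nd (nat_lit 139) (nat_lit 0) (cs (lf (nat_lit 12) (nat_lit 136)) (nd (nat_lit 137) (nat_lit 0) (cs (lf (nat_lit 23) (nat_lit 136)) (nd (nat_lit 138) (nat_lit 0) (cs (lf (nat_lit 18) (nat_lit 137)) (nd (nat_lit 114) (nat_lit 0) (cs (lf (nat_lit 22) (nat_lit 114)) (nd (nat_lit 118) (nat_lit 0) (cs (lf (nat_lit 17) (nat_lit 115)) (nd (nat_lit 96) (nat_lit 0) (cs (lf (nat_lit 36) (nat_lit 73)) (nd (nat_lit 75) (nat_lit 0) (cs (lf (nat_lit 34) (nat_lit 74)) (nd (nat_lit 95) (nat_lit 0) (cs (lf (nat_lit 47) (nat_lit 73)) (nd (nat_lit 117) (nat_lit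 0) (cs (lf (nat_lit 41) (nat_lit 94)) (lf (nat_lit 29) (nat_lit 95))))))))))))))))))))))))) q38992 (by decide +kernel)
def q39066 : Q := Q.p (nat_lit 0x40000060000000000000000000000000000000000000000) (nat_lit 0x80000e0000380008f000398001ff0000380000e0000380000a000000000000) (nat_lit 13)
theorem c39066 : QOK q39066 := cut [q32463, q32556, q38618, q39065] ⟨c32463, c32556, c38618, c39065, trivial⟩ (nd (nat_lit 163) (nat_lit 0) (cs (rf (nat_lit 0)) (cs (rf (nat_lit 1)) (cs (rf (nat_lit 2)) (rf (nat_lit 3)))))) q39066 (by decide +kernel)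
def q39102 : Q := Q.p (nat_lit 0x100000f0000040000000000000000000000000000000000000000) (nat_lit 0xf00000e00009c000000000000000000000000000000000000000) (nat_lit 6)
theorem c39102 : QOK q39102 := cut [q38417] ⟨c38417, trivial⟩ (nd (nat_lit 205) (nat_lit 0) (cs (lf (nat_lit 10) (nat_lit 183)) (rf (nat_lit 0)))) q39102 (by decide +kernel)
def q39254 : Q := Q.p (nat_lit 0x100000400001c0000000000000000000000000000000000000000) (nat_lit 0x8000fb8001e00007780000c0000300001c000070000140000000) (nat_lit 10)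
theorem c39254 : QOK q39254 := cut [q32492, q33011, q32822] ⟨c32492, c33011, c32822, trivial⟩ (nd (nat_lit 165) (nat_lit 0) (cs (rf (nat_lit 0)) (cs (rf (nat_lit 1)) (nd (nat_lit 140) (nat_lit 0) (cs (lf (nat_lit 23) (nat_lit 139)) (nd (nat_lit 119) (nat_lit 0) (cs (rf (nat_lit 2)) (cs (nd (nat_lit 141) (nat_lit 0) (cs (lf (nat_lit 45) (nat_lit 119)) (lf (nat_lit 27) (nat_lit 119)))) (nd (nat_lit 187) (nat_lit 0) (cs (lf (nat_lit 5) (nat_lit 162)) (nd (nat_lit 184) (nat_lit 0) (cs (lf (nat_lit 11) (nat_lit 161)) (nd (nat_lit 118) (nat_lit 0) (cs (lf (nat_lit 35) (nat_lit 96)) (nd (nat_lit 185) (nat_lit 0) (cs (lf (nat_lit 24) (nat_lit 96)) (lf (nat_lit 29) (nat_lit 118)))))))))))))))))) q39254 (by decide +kernel)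
def q39391 : Q := Q.p (nat_lit 0x2000000000010000050000140000000000000000000000000000000000000000) (nat_lit 0x200001e000038000060000a8000e00000f8000fe0000f80003a0000a0000000000000) (nat_lit 15)
theorem c39391 : QOK q39391 := cut [q456, q7284, q16276, q39355, q36006, q39348, q39361, q39368, q35139, q5878, q39390] ⟨c456, c7284, c16276, c39355, c36006, c39348, c39361, c39368, c35139, c5878, c39390, trivial⟩ (nd (nat_lit 165) (nat_lit 0) (cs (rf (nat_lit 0)) (cs (nd (nat_lit 140) (nat_lit 0) (cs (nd (nat_lit 183) (nat_lit 0) (cs (lf (nat_lit 14) (nat_lit 161)) (nd (nat_lit 205) (nat_lit 0) (cs (lf (nat_lit 36) (nat_lit 117)) (rf (nat_lit 1)))))) (cs (nd (nat_lit 141) (nat_lit 0) (cs (nd (nat_lit 119) (nat_lit 0) (cs (lf (nat_lit 45) (nat_lit 119)) (lf (nat_lit 30) (nat_lit 118)))) (cs (nd (nat_lit 183) (nat_lit 0) (cs (lf (nat_lit 14) (nat_lit 161)) (nd (nat_lit 206) (nat_lit 0) (cs (lf (nat_lit 35) (nat_lit 118))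 (nd (nat_lit 117) (nat_lit 0) (cs (lf (nat_lit 46) (nat_lit 117)) (rf (nat_lit 2)))))))) (cs (nd (nat_lit 139) (nat_lit 0) (cs (lf (nat_lit 3) (nat_lit 139)) (nd (nat_lit 183) (nat_lit 0) (cs (lf (nat_lit 14) (nat_lit 161)) (rf (nat_lit 3)))))) (nd (nat_lit 142) (nat_lit 0) (cs (lf (nat_lit 47) (nat_lit 119)) (lf (nat_lit 0) (nat_lit 139)))))))) (cs (nd (nat_lit 142) (nat_lit 0) (cs (rf (nat_lit 4)) (cs (rf (nat_lit 5)) (cs (nd (nat_lit 121) (nat_lit 0) (cs (lf (nat_lit 34) (nat_lit 120)) (nd (nat_lit 120) (nat_lit 0) (cs (lf (nat_lit 35) (nat_lit 98)) (nd (nat_lit 97) (nat_lit 0) (cs (lf (nat_lit 46) (nat_lit 97)) (nd (nat_lit 75) (nat_lit 0) (cs (nd (nat_lit 118) (nat_lit 0) (cs (lf (nat_lit 33) (nat_lit 74)) (rf (nat_lit 6)))) (lf (nat_lit 45) (nat_lit 75)))))))))) (nd (nat_lit 121) (nat_lit 0) (cs (lf (nat_lit 34) (nat_lit 120)) (nd (nat_lit 99) (nat_lit 0) (cs (lf (nat_lit 33) (nat_lit 98)) (rf (nat_lit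 7)))))))))) (cs (nd (nat_lit 142) (nat_lit 0) (cs (rf (nat_lit 4)) (cs (rf (nat_lit 5)) (cs (rf (nat_lit 7)) (nd (nat_lit 183) (nat_lit 0) (cs (lf (nat_lit 14) (nat_lit 161)) (nd (nat_lit 121) (nat_lit 0) (cs (lf (nat_lit 34) (nat_lit 120)) (nd (nat_lit 120) (nat_lit 0) (cs (lf (nat_lit 35) (nat_lit 98)) (nd (nat_lit 97) (nat_lit 0) (cs (lf (nat_lit 46) (nat_lit 97)) (nd (nat_lit 98) (nat_lit 0) (cs (lf (nat_lit 47) (nat_lit 75)) (nd (nat_lit 122) (nat_lit 0) (cs (lf (nat_lit 18) (nat_lit 97)) (nd (nat_lit 95) (nat_lit 0) (cs (nd (nat_lit 117) (nat_lit 0) (cs (lf (nat_lit 45) (nat_lit 95)) (rf (nat_lit 8)))) (lf (nat_lit 1) (nat_lit 95)))))))))))))))))))) (nd (nat_lit 183) (nat_lit 0) (cs (lf (nat_lit 14) (nat_lit 161)) (nd (nat_lit 118) (nat_lit 0) (cs (rf (nat_lit 9)) (lf (nat_lit 41) (nat_lit 117))))))))))) (rf (nat_lit 10))))) q39391 (by decide +kernel)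
def q39493 : Q := Q.p (nat_lit 0x100000400000e0000080000000000000000000000000000000000) (nat_lit 0x20000100000e4000380000e000020000000000000000000) (nat_lit 7)
theorem c39493 : QOK q39493 := cut [q39492] ⟨c39492, trivial⟩ (nd (nat_lit 164) (nat_lit 0) (cs (lf (nat_lit 23) (nat_lit 138)) (rf (nat_lit 0)))) q39493 (by decide +kernel)
def q39553 : Q := Q.p (nat_lit 0x10000050000040000100000000000000000000000000000000000) (nat_lit 0x200001c00007c0008f000fbc001ef0007dc0003400008000000000000000000) (nat_lit 14)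
theorem c39553 : QOK q39553 := cut [q35212, q33511, q35869, q34633, q36013, q36031, q37288, q33385, q33372, q35905, q9071, q34536] ⟨c35212, c33511, c35869, c34633, c36013, c36031, c37288, c33385, c33372, c35905, c9071, c34536, trivial⟩ (nd (nat_lit 141) (nat_lit 0) (cs (nd (nat_lit 161) (nat_lit 0) (cs (rf (nat_lit 0)) (cs (nd (nat_lit 142) (nat_lit 0) (cs (rf (nat_lit 1)) (cs (rf (nat_lit 2)) (nd (nat_lit 205) (nat_lit 0) (cs (rf (nat_lit 3)) (cs (nd (nat_lit 206) (nat_lit 0) (cs (lf (nat_lit 41) (nat_lit 139)) (nd (nat_lit 228) (nat_lit 0) (cs (lf (nat_lit 34) (nat_lit 140)) (lf (nat_lit 47) (nat_lit 139)))))) (nd (nat_lit 183) (nat_lit 0) (cs (rf (nat_lit 4)) (nd (nat_lit 164) (nat_lit 0) (cs (rf (nat_lit 5)) (cs (nd (nat_lit 139) (nat_lit 0) (cs (lf (nat_lit 5) (nat_lit 139)) (nd (nat_lit 204) (nat_lit 0) (cs (lf (nat_lit 41) (nat_lit 138)) (nd (nat_lit 181) (nat_lit 0) (cs (nd (nat_lit 120) (nat_lit 0) (cs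 (lf (nat_lit 17) (nat_lit 117)) (nd (nat_lit 203) (nat_lit 0) (cs (lf (nat_lit 12) (nat_lit 180)) (nd (nat_lit 180) (nat_lit 0) (cs (lf (nat_lit 14) (nat_lit 158)) (lf (nat_lit 18) (nat_lit 180)))))))) (cs (nd (nat_lit 138) (nat_lit 0) (cs (lf (nat_lit 47) (nat_lit 116)) (nd (nat_lit 137) (nat_lit 0) (cs (lf (nat_lit 0) (nat_lit 136)) (nd (nat_lit 115) (nat_lit 0) (cs (lf (nat_lit 23) (nat_lit 114)) (nd (nat_lit 159) (nat_lit 0) (cs (lf (nat_lit 11) (nat_lit 136)) (lf (nat_lit 28) (nat_lit 115)))))))))) (nd (nat_lit 116) (nat_lit 0) (cs (lf (nat_lit 46) (nat_lit 116)) (nd (nat_lit 120) (nat_lit 0) (cs (lf (nat_lit 17) (nat_lit 117)) (nd (nat_lit 206) (nat_lit 0) (cs (lf (nat_lit 29) (nat_lit 139)) (nd (nat_lit 203) (nat_lit 0) (cs (lf (nat_lit 23) (nat_lit 180)) (lf (nat_lit 12) (nat_lit 180))))))))))))))))) (nd (nat_lit 165) (nat_lit 0) (cs (lf (nat_lit 8) (nat_lit 161)) (lf (nat_lit 0) (nat_lit 139)))))))))))))))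 (cs (nd (nat_lit 163) (nat_lit 0) (cs (nd (nat_lit 160) (nat_lit 0) (cs (lf (nat_lit 12) (nat_lit 137)) (nd (nat_lit 206) (nat_lit 0) (cs (lf (nat_lit 30) (nat_lit 140)) (nd (nat_lit 205) (nat_lit 0) (cs (lf (nat_lit 41) (nat_lit 139)) (nd (nat_lit 183) (nat_lit 0) (cs (lf (nat_lit 36) (nat_lit 117)) (nd (nat_lit 181) (nat_lit 0) (cs (lf (nat_lit 13) (nat_lit 159)) (nd (nat_lit 138) (nat_lit 0) (cs (lf (nat_lit 23) (nat_lit 137)) (rf (nat_lit 6)))))))))))))) (cs (nd (nat_lit 164) (nat_lit 0) (cs (lf (nat_lit 5) (nat_lit 161)) (rf (nat_lit 7)))) (nd (nat_lit 164) (nat_lit 0) (cs (lf (nat_lit 5) (nat_lit 161)) (rf (nat_lit 8))))))) (cs (nd (nat_lit 142) (nat_lit 0) (cs (lf (nat_lit 6) (nat_lit 139)) (nd (nat_lit 160) (nat_lit 0) (cs (lf (nat_lit 12) (nat_lit 137)) (lf (nat_lit 15) (nat_lit 138)))))) (nd (nat_lit 142) (nat_lit 0) (cs (lf (nat_lit 6) (nat_lit 139)) (nd (nat_lit 160) (nat_lit 0) (cs (lf (nat_lit 15)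 (nat_lit 138)) (lf (nat_lit 9) (nat_lit 138))))))))))) (cs (nd (nat_lit 119) (nat_lit 0) (cs (lf (nat_lit 30) (nat_lit 118)) (rf (nat_lit 9)))) (nd (nat_lit 119) (nat_lit 0) (cs (rf (nat_lit 10)) (rf (nat_lit 11))))))) q39553 (by decide +kernel)
def q39555 : Q := Q.p (nat_lit 0x2000001000004000010000040000000000000000000000000000000000000000) (nat_lit 0x20000380001e00002000000000000000080000200000000000000000000000000000000000) (nat_lit 6)
theorem c39555 : QOK q39555 := cut [q5883] ⟨c5883, trivial⟩ (nd (nat_lit 141) (nat_lit 0) (cs (lf (nat_lit 34) (nat_lit 140)) (rf (nat_lit 0)))) q39555 (by decide +kernel)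
def q39651 : Q := Q.p (nat_lit 0x100000400000e0000000000000000000000000000000000000000) (nat_lit 0x400003c000300000ec0003a0000e800020000000000000000000) (nat_lit 7)
theorem c39651 : QOK q39651 := cut [q37110, q39492] ⟨c37110, c39492, trivial⟩ (nd (nat_lit 164) (nat_lit 0) (cs (rf (nat_lit 0)) (rf (nat_lit 1)))) q39651 (by decide +kernel)
def q39962 : Q := Q.p (nat_lit 0x10000000000070000000000000000000000000000000000000000) (nat_lit 0xc0000b0000fc0001fc0018e00037c0005c0001700001c00005000000000000) (nat_lit 12)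
theorem c39962 : QOK q39962 := cut [q34075, q34116, q38181, q38185, q39951] ⟨c34075, c34116, c38181, c38185, c39951, trivial⟩ (nd (nat_lit 159) (nat_lit 0) (cs (rf (nat_lit 0)) (cs (rf (nat_lit 1)) (cs (rf (nat_lit 2)) (cs (rf (nat_lit 3)) (cs (rf (nat_lit 4)) (nd (nat_lit 140) (nat_lit 0) (cs (lf (nat_lit 17) (nat_lit 137)) (nd (nat_lit 180) (nat_lit 0) (cs (lf (nat_lit 10) (nat_lit 158)) (nd (nat_lit 158) (nat_lit 0) (cs (lf (nat_lit 11) (nat_lit 157)) (nd (nat_lit 183) (nat_lit 0) (cs (lf (nat_lit 5) (nat_lit 158)) (nd (nat_lit 205) (nat_lit 0) (cs (lf (nat_lit 30) (nat_lit 139)) (nd (nat_lit 182) (nat_lit 0) (cs (lf (nat_lit 0) (nat_lit 157)) (nd (nat_lit 96) (nat_lit 0) (cs (lf (nat_lit 37) (nat_lit 95)) (nd (nat_lit 206) (nat_lit 0) (cs (lf (nat_lit 19) (nat_lit 182)) (nd (nat_lit 163) (nat_lit 0) (cs (lf (nat_lit 6) (nat_lit 160)) (nd (nat_lit 138) (nat_lit 0) (cs (lf (nat_lit 23) (nat_lit 137)) (lf (nat_lit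 24) (nat_lit 116)))))))))))))))))))))))))))) q39962 (by decide +kernel)
def q40192 : Q := Q.p (nat_lit 0x70000000000000000000000000000000000000000) (nat_lit 0xc0000300001c0000780000c0003f80001c0000700001c00005000000000000) (nat_lit 11)
theorem c40192 : QOK q40192 := cut [q34116, q38971, q40032] ⟨c34116, c38971, c40032, trivial⟩ (nd (nat_lit 159) (nat_lit 0) (cs (rf (nat_lit 0)) (cs (rf (nat_lit 1)) (rf (nat_lit 2))))) q40192 (by decide +kernel)
def q40204 : Q := Q.p (nat_lit 0x10000040000060000000000000000000000000000000000000000) (nat_lit 0x3e0000fc0003f80039c000fc0003fe000ff0000f800028000000000000) (nat_lit 15)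
theorem c40204 : QOK q40204 := cut [q38221, q38875, q39943, q40166, q34806, q40188, q34070, q34071, q34258, q34842, q32702, q34696, q34721, q35165, q35178, q35439, q34086] ⟨c38221, c38875, c39943, c40166, c34806, c40188, c34070, c34071, c34258, c34842, c32702, c34696, c34721, c35165, c35178, c35439, c34086, trivial⟩ (nd (nat_lit 160) (nat_lit 0) (cs (rf (nat_lit 0)) (cs (rf (nat_lit 1)) (cs (rf (nat_lit 2)) (cs (rf (nat_lit 3)) (nd (nat_lit 140) (nat_lit 0) (cs (rf (nat_lit 4)) (cs (rf (nat_lit 5)) (cs (nd (nat_lit 118) (nat_lit 0) (cs (rf (nat_lit 6)) (cs (rf (nat_lit 7)) (cs (rf (nat_lit 8)) (cs (rf (nat_lit 9)) (nd (nat_lit 184) (nat_lit 0) (cs (rf (nat_lit 10)) (cs (rf (nat_lit 11)) (rf (nat_lit 12)))))))))) (nd (nat_lit 183) (nat_lit 0) (cs (rf (nat_lit 13)) (cs (rf (nat_lit 14)) (cs (rf (nat_lit 15)) (nd (nat_lit 118) (nat_lit 0) (cs (lf (nat_lit 36) (nat_lit 95)) (nd (nat_lit 184) (nat_lit 0) (cs (lf (nat_lit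 19) (nat_lit 160)) (nd (nat_lit 158) (nat_lit 0) (cs (lf (nat_lit 1) (nat_lit 158)) (nd (nat_lit 97) (nat_lit 0) (cs (lf (nat_lit 34) (nat_lit 96)) (nd (nat_lit 117) (nat_lit 0) (cs (lf (nat_lit 47) (nat_lit 95)) (nd (nat_lit 139) (nat_lit 0) (cs (lf (nat_lit 29) (nat_lit 117)) (rf (nat_lit 16))))))))))))))))))))))))))) q40204 (by decide +kernel)
def q40209 : Q := Q.p (nat_lit 0x100000400000e0000000000000000000000000000000000000000) (nat_lit 0x400001c000310000ec0000a00000800000000000000000000000) (nat_lit 6)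
theorem c40209 : QOK q40209 := cut [q37110, q37828] ⟨c37110, c37828, trivial⟩ (nd (nat_lit 164) (nat_lit 0) (cs (rf (nat_lit 0)) (rf (nat_lit 1)))) q40209 (by decide +kernel)
def q40375 : Q := Q.p (nat_lit 0x100000400000c0000200000000000000000000000000000000000) (nat_lit 0x180000600001800011c001de001ff8007fc0007e0001c0000000000000) (nat_lit 14)
theorem c40375 : QOK q40375 := cut [q32511, q32572, q35891, q40307, q39340, q32837, q32842, q33423, q5702] ⟨c32511, c32572, c35891, c40307, c39340, c32837, c32842, c33423, c5702, trivial⟩ (nd (nat_lit 142) (nat_lit 0) (cs (rf (nat_lit 0)) (cs (rf (nat_lit 1)) (cs (nd (nat_lit 140) (nat_lit 0) (cs (rf (nat_lit 2)) (cs (rf (nat_lit 3)) (cs (nd (nat_lit 119) (nat_lit 0) (cs (nd (nat_lit 143) (nat_lit 0) (cs (lf (nat_lit 6) (nat_lit 140)) (nd (nat_lit 184) (nat_lit 0) (cs (rf (nat_lit 4)) (nd (nat_lit 121) (nat_lit 0) (cs (lf (nat_lit 17) (nat_lit 118)) (nd (nat_lit 120) (nat_lit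 0) (cs (lf (nat_lit 12) (nat_lit 117)) (nd (nat_lit 99) (nat_lit 0) (cs (rf (nat_lit 5)) (cs (nd (nat_lit 76) (nat_lit 0) (cs (lf (nat_lit 37) (nat_lit 75)) (nd (nat_lit 77) (nat_lit 0) (cs (lf (nat_lit 47) (nat_lit 54)) (lf (nat_lit 36) (nat_lit 54)))))) (nd (nat_lit 100) (nat_lit 0) (cs (lf (nat_lit 12) (nat_lit 96)) (nd (nat_lit 101) (nat_lit 0) (cs (lf (nat_lit 6) (nat_lit 98)) (nd (nat_lit 77) (nat_lit 0) (cs (lf (nat_lit 36) (nat_lit 54)) (nd (nat_lit 78) (nat_lit 0) (cs (lf (nat_lit 35) (nat_lit 55)) (nd (nat_lit 76) (nat_lit 0) (cs (lf (nat_lit 47) (nat_lit 54)) (lf (nat_lit 0) (nat_lit 75))))))))))))))))))))))) (cs (nd (nat_lit 143) (nat_lit 0) (cs (lf (nat_lit 6) (nat_lit 140)) (nd (nat_lit 121) (nat_lit 0) (cs (lf (nat_lit 17) (nat_lit 118)) (nd (nat_lit 120) (nat_lit 0) (cs (lf (nat_lit 12) (nat_lit 117)) (nd (nat_lit 76) (nat_lit 0) (cs (lf (nat_lit 37) (nat_lit 75)) (nd (nat_lit 97) (nat_lit 0)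 (cs (lf (nat_lit 36) (nat_lit 74)) (nd (nat_lit 96) (nat_lit 0) (cs (rf (nat_lit 6)) (lf (nat_lit 47) (nat_lit 74)))))))))))))) (nd (nat_lit 184) (nat_lit 0) (cs (lf (nat_lit 36) (nat_lit 96)) (lf (nat_lit 30) (nat_lit 118))))))) (cs (nd (nat_lit 143) (nat_lit 0) (cs (lf (nat_lit 6) (nat_lit 140)) (nd (nat_lit 121) (nat_lit 0) (cs (lf (nat_lit 17) (nat_lit 118)) (nd (nat_lit 118) (nat_lit 0) (cs (lf (nat_lit 23) (nat_lit 117)) (nd (nat_lit 96) (nat_lit 0) (cs (lf (nat_lit 24) (nat_lit 74)) (nd (nat_lit 73) (nat_lit 0) (cs (lf (nat_lit 46) (nat_lit 73)) (nd (nat_lit 97) (nat_lit 0) (cs (lf (nat_lit 35) (nat_lit 74)) (nd (nat_lit 184) (nat_lit 0) (cs (lf (nat_lit 37) (nat_lit 96)) (rf (nat_lit 7)))))))))))))))) (nd (nat_lit 143) (nat_lit 0) (cs (lf (nat_lit 6) (nat_lit 140)) (nd (nat_lit 117) (nat_lit 0) (cs (lf (nat_lit 22) (nat_lit 117)) (nd (nat_lit 139) (nat_lit 0) (cs (lf (nat_lit 23) (nat_lit 116)) (nd (nat_lit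 73) (nat_lit 0) (cs (lf (nat_lit 25) (nat_lit 73)) (nd (nat_lit 138) (nat_lit 0) (cs (lf (nat_lit 0) (nat_lit 137)) (nd (nat_lit 184) (nat_lit 0) (cs (lf (nat_lit 42) (nat_lit 117)) (nd (nat_lit 119) (nat_lit 0) (cs (lf (nat_lit 36) (nat_lit 96)) (lf (nat_lit 17) (nat_lit 116))))))))))))))))))))) (nd (nat_lit 143) (nat_lit 0) (cs (lf (nat_lit 6) (nat_lit 140)) (rf (nat_lit 8)))))))) q40375 (by decide +kernel)
def q40387 : Q := Q.p (nat_lit 0x100000400001e0000000000000000000000000000000000000000) (nat_lit 0x300003c0000f00001f000000000ff0007fc003fe0003f000054000100000000) (nat_lit 14)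
theorem c40387 : QOK q40387 := cut [q38950, q39864, q36614] ⟨c38950, c39864, c36614, trivial⟩ (nd (nat_lit 139) (nat_lit 0) (cs (rf (nat_lit 0)) (cs (rf (nat_lit 1)) (nd (nat_lit 182) (nat_lit 0) (cs (lf (nat_lit 10) (nat_lit 160)) (nd (nat_lit 142) (nat_lit 0) (cs (lf (nat_lit 17) (nat_lit 139)) (nd (nat_lit 207) (nat_lit 0) (cs (lf (nat_lit 41) (nat_lit 141)) (nd (nat_lit 119) (nat_lit 0) (cs (lf (nat_lit 46) (nat_lit 119)) (nd (nat_lit 120) (nat_lit 0) (cs (lf (nat_lit 47) (nat_lit 97)) (nd (nat_lit 99) (nat_lit 0) (cs (lf (nat_lit 34) (nat_lit 98)) (nd (nat_lit 98) (nat_lit 0) (cs (lf (nat_lit 35) (nat_lit 76)) (nd (nat_lit 100) (nat_lit 0) (cs (lf (nat_lit 6) (nat_lit 97)) (nd (nat_lit 117) (nat_lit 0) (cs (rf (nat_lit 2)) (lf (nat_lit 13) (nat_lit 95))))))))))))))))))))))) q40387 (by decide +kernel)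
def q40435 : Q := Q.p (nat_lit 0x100000400000c0000000000000000000000000000000000000000) (nat_lit 0xaf000138000fc000380000e000020000000000000000000) (nat_lit 10)
theorem c40435 : QOK q40435 := cut [q32462, q32463, q32467, q32470, q38229] ⟨c32462, c32463, c32467, c32470, c38229, trivial⟩ (nd (nat_lit 161) (nat_lit 0) (cs (rf (nat_lit 0)) (cs (rf (nat_lit 1)) (cs (rf (nat_lit 2)) (cs (rf (nat_lit 3)) (rf (nat_lit 4))))))) q40435 (by decide +kernel)
def q40539 : Q := Q.p (nat_lit 0x80000100000c00001000000000000000000000000000000000000000000000000000000000) (nat_lit 0x2000000000020000060000380000e0000200000000000000000000000000000000000) (nat_lit 6)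
theorem c40539 : QOK q40539 := cut [q40538] ⟨c40538, trivial⟩ (nd (nat_lit 206) (nat_lit 0) (cs (lf (nat_lit 28) (nat_lit 206)) (rf (nat_lit 0)))) q40539 (by decide +kernel)
def q40666 : Q := Q.p (nat_lit 0x3800000000018000040000000000000000000000000000000000000000000000) (nat_lit 0x7e0001fe0007f80007f000078001be00006000098000000000000000000000000000000000000000000000) (nat_lit 13)
theorem c40666 : QOK q40666 := cut [q2065, q40593, q18195, q18199, q18210, q40634, q12900, q18214, q40643, q18238, q18241] ⟨c2065, c40593, c18195, c18199, c18210, c40634, c12900, c18214, c40643, c18238, c18241, trivial⟩ (nd (nat_lit 273) (nat_lit 0) (cs (lf (nat_lit 32) (nat_lit 185)) (nd (nat_lit 250) (nat_lit 0) (cs (rf (nat_lit 0)) (cs (rf (nat_lit 1)) (cs (nd (nat_lit 231) (nat_lit 0) (cs (lf (nat_lit 17) (nat_lit 228)) (rf (nat_lit 2)))) (cs (nd (nat_lit 227) (nat_lit 0) (cs (lf (nat_lit 22) (nat_lit 227)) (nd (nat_lit 231) (nat_lit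 0) (cs (lf (nat_lit 17) (nat_lit 228)) (rf (nat_lit 3)))))) (nd (nat_lit 272) (nat_lit 0) (cs (lf (nat_lit 11) (nat_lit 249)) (nd (nat_lit 294) (nat_lit 0) (cs (rf (nat_lit 4)) (cs (nd (nat_lit 316) (nat_lit 0) (cs (lf (nat_lit 30) (nat_lit 250)) (nd (nat_lit 317) (nat_lit 0) (cs (lf (nat_lit 29) (nat_lit 250)) (nd (nat_lit 231) (nat_lit 0) (cs (lf (nat_lit 17) (nat_lit 228)) (nd (nat_lit 315) (nat_lit 0) (cs (lf (nat_lit 41) (nat_lit 249)) (nd (nat_lit 228) (nat_lit 0) (cs (lf (nat_lit 40) (nat_lit 227)) (rf (nat_lit 5)))))))))))) (cs (nd (nat_lit 295) (nat_lit 0) (cs (rf (nat_lit 6)) (cs (nd (nat_lit 231) (nat_lit 0) (cs (lf (nat_lit 17) (nat_lit 228)) (rf (nat_lit 7)))) (nd (nat_lit 231) (nat_lit 0) (cs (lf (nat_lit 17) (nat_lit 228)) (rf (nat_lit 8))))))) (cs (nd (nat_lit 231) (nat_lit 0) (cs (lf (nat_lit 17) (nat_lit 228)) (nd (nat_lit 316) (nat_lit 0) (cs (lf (nat_lit 30) (nat_lit 250)) (nd (nat_lit 317)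 (nat_lit 0) (cs (lf (nat_lit 29) (nat_lit 250)) (nd (nat_lit 228) (nat_lit 0) (cs (lf (nat_lit 43) (nat_lit 228)) (rf (nat_lit 5)))))))))) (nd (nat_lit 295) (nat_lit 0) (cs (rf (nat_lit 8)) (cs (nd (nat_lit 231) (nat_lit 0) (cs (lf (nat_lit 17) (nat_lit 228)) (rf (nat_lit 9)))) (cs (nd (nat_lit 316) (nat_lit 0) (cs (lf (nat_lit 30) (nat_lit 250)) (nd (nat_lit 317) (nat_lit 0) (cs (lf (nat_lit 29) (nat_lit 250)) (nd (nat_lit 318) (nat_lit 0) (cs (lf (nat_lit 29) (nat_lit 251)) (nd (nat_lit 319) (nat_lit 0) (cs (lf (nat_lit 18) (nat_lit 294)) (nd (nat_lit 341) (nat_lit 0) (cs (lf (nat_lit 5) (nat_lit 316)) (nd (nat_lit 296) (nat_lit 0) (cs (lf (nat_lit 25) (nat_lit 252)) (nd (nat_lit 297) (nat_lit 0) (cs (lf (nat_lit 11) (nat_lit 293)) (lf (nat_lit 17) (nat_lit 294)))))))))))))))) (nd (nat_lit 316) (nat_lit 0) (cs (lf (nat_lit 30) (nat_lit 250)) (nd (nat_lit 315) (nat_lit 0) (cs (lf (nat_lit 41) (nat_lit 249))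 (nd (nat_lit 313) (nat_lit 0) (cs (lf (nat_lit 13) (nat_lit 291)) (nd (nat_lit 231) (nat_lit 0) (cs (lf (nat_lit 17) (nat_lit 228)) (rf (nat_lit 10)))))))))))))))))))))))))))) q40666 (by decide +kernel)
def q41024 : Q := Q.p (nat_lit 0x3400000800010000040000000000000000000000000000000000000000000000) (nat_lit 0x600007e00007c001bf8000be001878000fe000bf00007c000140000000000000000000000000000000000) (nat_lit 15)
theorem c41024 : QOK q41024 := cut [q3762, q40944, q40946, q40951, q40955, q40959, q40962, q40965, q40981, q40987, q40988, q40989, q40995, q23805, q5269, q26947, q40986, q11402, q12078, q40983, q40862] ⟨c3762, c40944, c40946, c40951, c40955, c40959, c40962, c40965, c40981, c40987, c40988, c40989, c40995, c23805, c5269, c26947, c40986, c11402, c12078, c40983, c40862, trivial⟩ (nd (nat_lit 249) (nat_lit 0) (cs (nd (nat_lit 251) (nat_lit 0) (cs (lf (nat_lit 23) (nat_lit 226)) (rf (nat_lit 0)))) (cs (rf (nat_lit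 1)) (cs (nd (nat_lit 271) (nat_lit 0) (cs (nd (nat_lit 251) (nat_lit 0) (cs (lf (nat_lit 11) (nat_lit 248)) (lf (nat_lit 10) (nat_lit 249)))) (cs (nd (nat_lit 272) (nat_lit 0) (cs (lf (nat_lit 8) (nat_lit 249)) (rf (nat_lit 2)))) (cs (nd (nat_lit 270) (nat_lit 0) (cs (lf (nat_lit 7) (nat_lit 248)) (nd (nat_lit 268) (nat_lit 0) (cs (rf (nat_lit 3)) (lf (nat_lit 13) (nat_lit 246)))))) (nd (nat_lit 205) (nat_lit 0) (cs (rf (nat_lit 4)) (cs (nd (nat_lit 182) (nat_lit 0) (cs (lf (nat_lit 46) (nat_lit 182)) (rf (nat_lit 5)))) (rf (nat_lit 6))))))))) (cs (nd (nat_lit 205) (nat_lit 0) (cs (rf (nat_lit 7)) (cs (rf (nat_lit 8)) (cs (rf (nat_lit 9)) (cs (rf (nat_lit 10)) (rf (nat_lit 11))))))) (cs (nd (nat_lit 205) (nat_lit 0) (cs (rf (nat_lit 11)) (cs (rf (nat_lit 12)) (cs (nd (nat_lit 226) (nat_lit 0) (cs (lf (nat_lit 19) (nat_lit 226)) (nd (nat_lit 224) (nat_lit 0) (cs (lf (nat_lit 1) (nat_lit 224)) (nd (nat_lit 206)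 (nat_lit 0) (cs (lf (nat_lit 7) (nat_lit 204)) (rf (nat_lit 13)))))))) (nd (nat_lit 226) (nat_lit 0) (cs (lf (nat_lit 19) (nat_lit 226)) (nd (nat_lit 224) (nat_lit 0) (cs (lf (nat_lit 1) (nat_lit 224)) (nd (nat_lit 206) (nat_lit 0) (cs (lf (nat_lit 7) (nat_lit 204)) (nd (nat_lit 183) (nat_lit 0) (cs (lf (nat_lit 29) (nat_lit 183)) (nd (nat_lit 161) (nat_lit 0) (cs (lf (nat_lit 41) (nat_lit 160)) (rf (nat_lit 14)))))))))))))))) (nd (nat_lit 205) (nat_lit 0) (cs (rf (nat_lit 9)) (cs (rf (nat_lit 12)) (cs (nd (nat_lit 183) (nat_lit 0) (cs (rf (nat_lit 15)) (cs (rf (nat_lit 16)) (nd (nat_lit 160) (nat_lit 0) (cs (lf (nat_lit 46) (nat_lit 160)) (nd (nat_lit 138) (nat_lit 0) (cs (rf (nat_lit 17)) (lf (nat_lit 45) (nat_lit 138))))))))) (cs (nd (nat_lit 183) (nat_lit 0) (cs (rf (nat_lit 18)) (cs (rf (nat_lit 15)) (cs (rf (nat_lit 19)) (nd (nat_lit 248) (nat_lit 0) (cs (lf (nat_lit 41) (nat_lit 182)) (nd (nat_lit 226)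 (nat_lit 0) (cs (lf (nat_lit 19) (nat_lit 226)) (nd (nat_lit 224) (nat_lit 0) (cs (lf (nat_lit 1) (nat_lit 224)) (nd (nat_lit 162) (nat_lit 0) (cs (lf (nat_lit 34) (nat_lit 161)) (nd (nat_lit 206) (nat_lit 0) (cs (lf (nat_lit 7) (nat_lit 204)) (nd (nat_lit 182) (nat_lit 0) (cs (lf (nat_lit 47) (nat_lit 160)) (nd (nat_lit 181) (nat_lit 0) (cs (lf (nat_lit 0) (nat_lit 180)) (nd (nat_lit 204) (nat_lit 0) (cs (lf (nat_lit 47) (nat_lit 159)) (nd (nat_lit 247) (nat_lit 0) (cs (lf (nat_lit 41) (nat_lit 181)) (rf (nat_lit 20)))))))))))))))))))))))) (nd (nat_lit 251) (nat_lit 0) (cs (lf (nat_lit 23) (nat_lit 226)) (nd (nat_lit 231) (nat_lit 0) (cs (lf (nat_lit 17) (nat_lit 228)) (nd (nat_lit 275) (nat_lit 0) (cs (lf (nat_lit 5) (nat_lit 250)) (nd (nat_lit 270) (nat_lit 0) (cs (lf (nat_lit 10) (nat_lit 248)) (nd (nat_lit 248) (nat_lit 0) (cs (lf (nat_lit 11) (nat_lit 247)) (lf (nat_lit 36) (nat_lit 182)))))))))))))))))))))))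 q41024 (by decide +kernel)
def q41173 : Q := Q.p (nat_lit 0x400000800012000040000000000000000000000000000000000000000000000) (nat_lit 0x100001500001c000370000dc000bf0000fc0003f0000540000000000000000000000000000) (nat_lit 14)
theorem c41173 : QOK q41173 := cut [q3436, q41025, q35179, q41105, q41035, q41118, q41134, q41047, q41137, q35341, q17289, q41158, q41171, q41172] ⟨c3436, c41025, c35179, c41105, c41035, c41118, c41134, c41047, c41137, c35341, c17289, c41158, c41171, c41172, trivial⟩ (nd (nat_lit 183) (nat_lit 0) (cs (rf (nat_lit 0)) (cs (rf (nat_lit 1)) (cs (nd (nat_lit 206) (nat_lit 0) (cs (rf (nat_lit 2)) (cs (rf (nat_lit 3)) (nd (nat_lit 228) (nat_lit 0) (cs (lf (nat_lit 42) (nat_lit 183)) (nd (nat_lit 184) (nat_lit 0) (cs (rf (nat_lit 4)) (cs (nd (nat_lit 181) (nat_lit 0) (cs (nd (nat_lit 182) (nat_lit 0) (cs (lf (nat_lit 0) (nat_lit 180)) (nd (nat_lit 158) (nat_lit 0) (cs (lf (nat_lit 22) (nat_lit 158))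 (nd (nat_lit 203) (nat_lit 0) (cs (lf (nat_lit 11) (nat_lit 180)) (nd (nat_lit 204) (nat_lit 0) (cs (lf (nat_lit 5) (nat_lit 203)) (nd (nat_lit 225) (nat_lit 0) (cs (lf (nat_lit 11) (nat_lit 202)) (nd (nat_lit 160) (nat_lit 0) (cs (lf (nat_lit 30) (nat_lit 159)) (lf (nat_lit 24) (nat_lit 138)))))))))))))) (cs (nd (nat_lit 225) (nat_lit 0) (cs (nd (nat_lit 140) (nat_lit 0) (cs (lf (nat_lit 37) (nat_lit 139)) (nd (nat_lit 224) (nat_lit 0) (cs (lf (nat_lit 14) (nat_lit 202)) (nd (nat_lit 203) (nat_lit 0) (cs (lf (nat_lit 8) (nat_lit 202)) (nd (nat_lit 159) (nat_lit 0) (cs (lf (nat_lit 41) (nat_lit 158)) (nd (nat_lit 138) (nat_lit 0) (cs (lf (nat_lit 34) (nat_lit 137)) (rf (nat_lit 5)))))))))))) (cs (nd (nat_lit 140) (nat_lit 0) (cs (lf (nat_lit 37) (nat_lit 139)) (nd (nat_lit 226) (nat_lit 0) (cs (lf (nat_lit 12) (nat_lit 202)) (nd (nat_lit 247) (nat_lit 0) (cs (lf (nat_lit 11) (nat_lit 224)) (nd (nat_lit 248) (nat_lit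 0) (cs (nd (nat_lit 270) (nat_lit 0) (cs (lf (nat_lit 33) (nat_lit 182)) (lf (nat_lit 30) (nat_lit 204)))) (lf (nat_lit 6) (nat_lit 225)))))))))) (cs (nd (nat_lit 203) (nat_lit 0) (cs (nd (nat_lit 140) (nat_lit 0) (cs (lf (nat_lit 37) (nat_lit 139)) (nd (nat_lit 226) (nat_lit 0) (cs (lf (nat_lit 23) (nat_lit 202)) (nd (nat_lit 247) (nat_lit 0) (cs (lf (nat_lit 11) (nat_lit 224)) (nd (nat_lit 248) (nat_lit 0) (cs (lf (nat_lit 29) (nat_lit 181)) (lf (nat_lit 24) (nat_lit 159)))))))))) (rf (nat_lit 6)))) (cs (nd (nat_lit 162) (nat_lit 0) (cs (lf (nat_lit 36) (nat_lit 139)) (nd (nat_lit 203) (nat_lit 0) (cs (rf (nat_lit 7)) (cs (rf (nat_lit 6)) (nd (nat_lit 159) (nat_lit 0) (cs (rf (nat_lit 8)) (cs (nd (nat_lit 141) (nat_lit 0) (cs (lf (nat_lit 34) (nat_lit 140)) (nd (nat_lit 138) (nat_lit 0) (cs (lf (nat_lit 34) (nat_lit 137)) (nd (nat_lit 137) (nat_lit 0) (cs (lf (nat_lit 35) (nat_lit 115)) (rf (nat_lit 9))))))))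 (nd (nat_lit 246) (nat_lit 0) (cs (lf (nat_lit 40) (nat_lit 158)) (nd (nat_lit 141) (nat_lit 0) (cs (lf (nat_lit 34) (nat_lit 140)) (nd (nat_lit 247) (nat_lit 0) (cs (lf (nat_lit 41) (nat_lit 180)) (rf (nat_lit 10)))))))))))))))) (cs (nd (nat_lit 140) (nat_lit 0) (cs (lf (nat_lit 37) (nat_lit 139)) (nd (nat_lit 226) (nat_lit 0) (cs (lf (nat_lit 12) (nat_lit 202)) (nd (nat_lit 247) (nat_lit 0) (cs (lf (nat_lit 11) (nat_lit 224)) (nd (nat_lit 203) (nat_lit 0) (cs (lf (nat_lit 23) (nat_lit 202)) (nd (nat_lit 248) (nat_lit 0) (cs (lf (nat_lit 29) (nat_lit 181)) (lf (nat_lit 6) (nat_lit 225)))))))))))) (nd (nat_lit 226) (nat_lit 0) (cs (lf (nat_lit 12) (nat_lit 202)) (nd (nat_lit 203) (nat_lit 0) (cs (lf (nat_lit 23) (nat_lit 202)) (rf (nat_lit 6)))))))))))) (nd (nat_lit 162) (nat_lit 0) (cs (lf (nat_lit 36) (nat_lit 139)) (nd (nat_lit 163) (nat_lit 0) (cs (lf (nat_lit 35) (nat_lit 140)) (lf (nat_lit 13) (nat_lit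 159))))))))) (rf (nat_lit 11)))))))))) (cs (rf (nat_lit 12)) (rf (nat_lit 13))))))) q41173 (by decide +kernel)
def q41351 : Q := Q.p (nat_lit 0x3400000800010000040000000000000000000000000000000000000000000000) (nat_lit 0x300000e0000bf000378000fe000bf0000f8000280000000000000000000000000000000000) (nat_lit 13)
theorem c41351 : QOK q41351 := cut [q41295, q41298, q41306, q41315, q41327, q41331, q41336, q27512, q41337, q6590, q41035, q27847] ⟨c41295, c41298, c41306, c41315, c41327, c41331, c41336, c27512, c41337, c6590, c41035, c27847, trivial⟩ (nd (nat_lit 228) (nat_lit 0) (cs (lf (nat_lit 20) (nat_lit 227)) (nd (nat_lit 226) (nat_lit 0) (cs (nd (nat_lit 207) (nat_lit 0) (cs (lf (nat_lit 15) (nat_lit 204)) (nd (nat_lit 206) (nat_lit 0) (cs (lf (nat_lit 12) (nat_lit 203)) (lf (nat_lit 9) (nat_lit 204)))))) (cs (rf (nat_lit 0)) (cs (nd (nat_lit 204) (nat_lit 0) (cs (rf (nat_lit 1)) (cs (nd (nat_lit 207) (nat_lit 0)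 (cs (lf (nat_lit 15) (nat_lit 204)) (nd (nat_lit 205) (nat_lit 0) (cs (lf (nat_lit 8) (nat_lit 204)) (nd (nat_lit 183) (nat_lit 0) (cs (lf (nat_lit 24) (nat_lit 161)) (nd (nat_lit 184) (nat_lit 0) (cs (lf (nat_lit 7) (nat_lit 182)) (nd (nat_lit 249) (nat_lit 0) (cs (lf (nat_lit 35) (nat_lit 161)) (nd (nat_lit 182) (nat_lit 0) (cs (lf (nat_lit 42) (nat_lit 182)) (lf (nat_lit 24) (nat_lit 160)))))))))))))) (cs (rf (nat_lit 2)) (nd (nat_lit 249) (nat_lit 0) (cs (nd (nat_lit 271) (nat_lit 0) (cs (lf (nat_lit 42) (nat_lit 204)) (nd (nat_lit 206) (nat_lit 0) (cs (lf (nat_lit 36) (nat_lit 183)) (nd (nat_lit 205) (nat_lit 0) (cs (lf (nat_lit 7) (nat_lit 204)) (nd (nat_lit 202) (nat_lit 0) (cs (lf (nat_lit 1) (nat_lit 202)) (nd (nat_lit 270) (nat_lit 0) (cs (lf (nat_lit 41) (nat_lit 204)) (nd (nat_lit 183) (nat_lit 0) (cs (lf (nat_lit 24) (nat_lit 161)) (lf (nat_lit 31) (nat_lit 182)))))))))))))) (cs (nd (nat_lit 271)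 (nat_lit 0) (cs (lf (nat_lit 42) (nat_lit 204)) (rf (nat_lit 3)))) (cs (nd (nat_lit 205) (nat_lit 0) (cs (nd (nat_lit 206) (nat_lit 0) (cs (lf (nat_lit 7) (nat_lit 204)) (nd (nat_lit 184) (nat_lit 0) (cs (lf (nat_lit 36) (nat_lit 161)) (nd (nat_lit 203) (nat_lit 0) (cs (lf (nat_lit 17) (nat_lit 181)) (lf (nat_lit 0) (nat_lit 202)))))))) (cs (nd (nat_lit 202) (nat_lit 0) (cs (lf (nat_lit 1) (nat_lit 202)) (nd (nat_lit 183) (nat_lit 0) (cs (lf (nat_lit 24) (nat_lit 161)) (nd (nat_lit 182) (nat_lit 0) (cs (lf (nat_lit 47) (nat_lit 160)) (nd (nat_lit 206) (nat_lit 0) (cs (lf (nat_lit 7) (nat_lit 204)) (nd (nat_lit 180) (nat_lit 0) (cs (lf (nat_lit 1) (nat_lit 180)) (nd (nat_lit 248) (nat_lit 0) (cs (lf (nat_lit 30) (nat_lit 182)) (nd (nat_lit 247) (nat_lit 0) (cs (lf (nat_lit 12) (nat_lit 224)) (lf (nat_lit 41) (nat_lit 181)))))))))))))))) (rf (nat_lit 4))))) (rf (nat_lit 5)))))))))) (cs (rf (nat_lit 6)) (nd (nat_lit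 206) (nat_lit 0) (cs (rf (nat_lit 7)) (cs (nd (nat_lit 225) (nat_lit 0) (cs (rf (nat_lit 8)) (lf (nat_lit 17) (nat_lit 203)))) (cs (nd (nat_lit 184) (nat_lit 0) (cs (rf (nat_lit 9)) (nd (nat_lit 205) (nat_lit 0) (cs (lf (nat_lit 7) (nat_lit 204)) (rf (nat_lit 10)))))) (nd (nat_lit 184) (nat_lit 0) (cs (rf (nat_lit 9)) (cs (rf (nat_lit 11)) (nd (nat_lit 161) (nat_lit 0) (cs (lf (nat_lit 46) (nat_lit 161)) (nd (nat_lit 185) (nat_lit 0) (cs (lf (nat_lit 35) (nat_lit 162)) (nd (nat_lit 249) (nat_lit 0) (cs (lf (nat_lit 41) (nat_lit 183)) (nd (nat_lit 225) (nat_lit 0) (cs (lf (nat_lit 0) (nat_lit 224)) (nd (nat_lit 205) (nat_lit 0) (cs (lf (nat_lit 6) (nat_lit 183)) (nd (nat_lit 203) (nat_lit 0) (cs (lf (nat_lit 13) (nat_lit 181)) (lf (nat_lit 23) (nat_lit 202)))))))))))))))))))))))))))) q41351 (by decide +kernel)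
def q41514 : Q := Q.p (nat_lit 0x3400000000010000040000000000000000000000000000000000000000000000) (nat_lit 0x200007e0001f8001fe0001fc0000b0001b60000f0003be0000c0000100000000000000000000000000000000000) (nat_lit 13)
theorem c41514 : QOK q41514 := cut [q40546, q41463, q41380, q3778, q527, q40599, q41472, q41228, q41480, q18258, q41488, q11066, q41499, q41503, q40600, q41511] ⟨c40546, c41463, c41380, c3778, c527, c40599, c41472, c41228, c41480, c18258, c41488, c11066, c41499, c41503, c40600, c41511, trivial⟩ (nd (nat_lit 251) (nat_lit 0) (cs (rf (nat_lit 0)) (cs (rf (nat_lit 1)) (cs (nd (nat_lit 272) (nat_lit 0) (cs (lf (nat_lit 11) (nat_lit 249)) (nd (nat_lit 294) (nat_lit 0) (cs (rf (nat_lit 2)) (cs (nd (nat_lit 207) (nat_lit 0) (cs (rf (nat_lit 3)) (cs (nd (nat_lit 206) (nat_lit 0) (cs (rf (nat_lit 4)) (cs (rf (nat_lit 5)) (nd (nat_lit 275) (nat_lit 0) (cs (lf (nat_lit 5) (nat_lit 250)) (nd (nat_lit 205) (nat_lit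 0) (cs (lf (nat_lit 17) (nat_lit 183)) (nd (nat_lit 183) (nat_lit 0) (cs (lf (nat_lit 23) (nat_lit 182)) (lf (nat_lit 44) (nat_lit 183))))))))))) (cs (nd (nat_lit 229) (nat_lit 0) (cs (lf (nat_lit 33) (nat_lit 206)) (lf (nat_lit 39) (nat_lit 206)))) (nd (nat_lit 229) (nat_lit 0) (cs (lf (nat_lit 36) (nat_lit 184)) (lf (nat_lit 33) (nat_lit 206)))))))) (cs (nd (nat_lit 316) (nat_lit 0) (cs (nd (nat_lit 275) (nat_lit 0) (cs (lf (nat_lit 5) (nat_lit 250)) (rf (nat_lit 6)))) (cs (nd (nat_lit 317) (nat_lit 0) (cs (lf (nat_lit 29) (nat_lit 250)) (nd (nat_lit 275) (nat_lit 0) (cs (lf (nat_lit 5) (nat_lit 250)) (nd (nat_lit 231) (nat_lit 0) (cs (lf (nat_lit 17) (nat_lit 228)) (nd (nat_lit 228) (nat_lit 0) (cs (lf (nat_lit 28) (nat_lit 228)) (nd (nat_lit 273) (nat_lit 0) (cs (lf (nat_lit 30) (nat_lit 250)) (nd (nat_lit 206) (nat_lit 0) (cs (lf (nat_lit 24) (nat_lit 184)) (rf (nat_lit 7)))))))))))))) (cs (nd (nat_lit 275)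 (nat_lit 0) (cs (lf (nat_lit 5) (nat_lit 250)) (nd (nat_lit 231) (nat_lit 0) (cs (lf (nat_lit 17) (nat_lit 228)) (nd (nat_lit 315) (nat_lit 0) (cs (lf (nat_lit 41) (nat_lit 249)) (nd (nat_lit 228) (nat_lit 0) (cs (lf (nat_lit 40) (nat_lit 227)) (rf (nat_lit 8)))))))))) (nd (nat_lit 315) (nat_lit 0) (cs (lf (nat_lit 41) (nat_lit 249)) (rf (nat_lit 9)))))))) (nd (nat_lit 231) (nat_lit 0) (cs (lf (nat_lit 17) (nat_lit 228)) (nd (nat_lit 275) (nat_lit 0) (cs (lf (nat_lit 5) (nat_lit 250)) (nd (nat_lit 316) (nat_lit 0) (cs (lf (nat_lit 35) (nat_lit 228)) (rf (nat_lit 10)))))))))))))) (nd (nat_lit 207) (nat_lit 0) (cs (nd (nat_lit 229) (nat_lit 0) (cs (lf (nat_lit 30) (nat_lit 185)) (nd (nat_lit 185) (nat_lit 0) (cs (lf (nat_lit 29) (nat_lit 185)) (lf (nat_lit 41) (nat_lit 184)))))) (cs (nd (nat_lit 231) (nat_lit 0) (cs (lf (nat_lit 17) (nat_lit 228)) (nd (nat_lit 229) (nat_lit 0) (cs (lf (nat_lit 30) (nat_lit 185))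 (nd (nat_lit 185) (nat_lit 0) (cs (lf (nat_lit 29) (nat_lit 185)) (rf (nat_lit 11)))))))) (cs (rf (nat_lit 12)) (cs (rf (nat_lit 13)) (nd (nat_lit 206) (nat_lit 0) (cs (rf (nat_lit 4)) (cs (rf (nat_lit 14)) (rf (nat_lit 15)))))))))))))) q41514 (by decide +kernel)
def q41563 : Q := Q.p (nat_lit 0x3c00000000010000040000000000000000000000000000000000000000000000) (nat_lit 0x60000000001b80000f8003be000ee0000280000000000000000000000000000000000) (nat_lit 10)
theorem c41563 : QOK q41563 := cut [q41523] ⟨c41523, trivial⟩ (nd (nat_lit 228) (nat_lit 0) (cs (lf (nat_lit 23) (nat_lit 227)) (rf (nat_lit 0)))) q41563 (by decide +kernel)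
def q41653 : Q := Q.p (nat_lit 0x3c00000000006000040000000000000000000000000000000000000000000000) (nat_lit 0x18f0000380018f80001c000bf80007c0001700001c0000500000000000000000000000) (nat_lit 13)
theorem c41653 : QOK q41653 := cut [q11143, q41597, q32685, q41602, q26974, q23811, q41607, q41137, q41611, q41626, q3968, q41640, q11374] ⟨c11143, c41597, c32685, c41602, c26974, c23811, c41607, c41137, c41611, c41626, c3968, c41640, c11374, trivial⟩ (nd (nat_lit 249) (nat_lit 0) (cs (nd (nat_lit 275) (nat_lit 0) (cs (lf (nat_lit 5) (nat_lit 250)) (rf (nat_lit 0)))) (cs (rf (nat_lit 1)) (cs (nd (nat_lit 231) (nat_lit 0) (cs (lf (nat_lit 17) (nat_lit 228)) (nd (nat_lit 275) (nat_lit 0) (cs (lf (nat_lit 5) (nat_lit 250)) (nd (nat_lit 271) (nat_lit 0) (cs (lf (nat_lit 11) (nat_lit 248)) (nd (nat_lit 184) (nat_lit 0) (cs (lf (nat_lit 32) (nat_lit 183)) (rf (nat_lit 2)))))))))) (cs (rf (nat_lit 3)) (nd (nat_lit 204) (nat_lit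 0) (cs (nd (nat_lit 226) (nat_lit 0) (cs (lf (nat_lit 22) (nat_lit 226)) (nd (nat_lit 225) (nat_lit 0) (cs (rf (nat_lit 4)) (lf (nat_lit 21) (nat_lit 225)))))) (cs (nd (nat_lit 203) (nat_lit 0) (cs (rf (nat_lit 5)) (cs (nd (nat_lit 231) (nat_lit 0) (cs (lf (nat_lit 17) (nat_lit 228)) (rf (nat_lit 6)))) (cs (nd (nat_lit 225) (nat_lit 0) (cs (lf (nat_lit 11) (nat_lit 202)) (nd (nat_lit 181) (nat_lit 0) (cs (lf (nat_lit 23) (nat_lit 180)) (nd (nat_lit 159) (nat_lit 0) (cs (rf (nat_lit 7)) (cs (nd (nat_lit 231) (nat_lit 0) (cs (lf (nat_lit 17) (nat_lit 228)) (nd (nat_lit 184) (nat_lit 0) (cs (lf (nat_lit 17) (nat_lit 181)) (rf (nat_lit 8)))))) (cs (nd (nat_lit 275) (nat_lit 0) (cs (lf (nat_lit 5) (nat_lit 250)) (nd (nat_lit 184) (nat_lit 0) (cs (lf (nat_lit 17) (nat_lit 181)) (nd (nat_lit 231) (nat_lit 0) (cs (lf (nat_lit 17) (nat_lit 228)) (nd (nat_lit 158) (nat_lit 0) (cs (lf (nat_lit 47) (nat_lit 136)) (nd (nat_lit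 182) (nat_lit 0) (cs (lf (nat_lit 19) (nat_lit 158)) (nd (nat_lit 247) (nat_lit 0) (cs (lf (nat_lit 35) (nat_lit 159)) (lf (nat_lit 30) (nat_lit 181)))))))))))))) (cs (nd (nat_lit 275) (nat_lit 0) (cs (lf (nat_lit 5) (nat_lit 250)) (nd (nat_lit 184) (nat_lit 0) (cs (lf (nat_lit 17) (nat_lit 181)) (nd (nat_lit 231) (nat_lit 0) (cs (lf (nat_lit 17) (nat_lit 228)) (nd (nat_lit 160) (nat_lit 0) (cs (lf (nat_lit 35) (nat_lit 137)) (nd (nat_lit 182) (nat_lit 0) (cs (lf (nat_lit 30) (nat_lit 159)) (nd (nat_lit 183) (nat_lit 0) (cs (lf (nat_lit 23) (nat_lit 158)) (lf (nat_lit 43) (nat_lit 160)))))))))))))) (nd (nat_lit 275) (nat_lit 0) (cs (lf (nat_lit 5) (nat_lit 250)) (nd (nat_lit 184) (nat_lit 0) (cs (lf (nat_lit 17) (nat_lit 181)) (nd (nat_lit 138) (nat_lit 0) (cs (lf (nat_lit 34) (nat_lit 137)) (nd (nat_lit 137) (nat_lit 0) (cs (lf (nat_lit 35) (nat_lit 115)) (rf (nat_lit 9))))))))))))))))))) (nd (nat_lit 231) (nat_lit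 0) (cs (lf (nat_lit 17) (nat_lit 228)) (rf (nat_lit 10)))))))) (cs (nd (nat_lit 231) (nat_lit 0) (cs (lf (nat_lit 17) (nat_lit 228)) (nd (nat_lit 226) (nat_lit 0) (cs (lf (nat_lit 22) (nat_lit 226)) (nd (nat_lit 248) (nat_lit 0) (cs (lf (nat_lit 23) (nat_lit 225)) (nd (nat_lit 270) (nat_lit 0) (cs (lf (nat_lit 11) (nat_lit 247)) (lf (nat_lit 35) (nat_lit 182)))))))))) (cs (nd (nat_lit 184) (nat_lit 0) (cs (rf (nat_lit 11)) (nd (nat_lit 227) (nat_lit 0) (cs (lf (nat_lit 23) (nat_lit 226)) (rf (nat_lit 12)))))) (nd (nat_lit 203) (nat_lit 0) (cs (rf (nat_lit 10)) (cs (rf (nat_lit 5)) (cs (rf (nat_lit 6)) (nd (nat_lit 231) (nat_lit 0) (cs (lf (nat_lit 17) (nat_lit 228)) (nd (nat_lit 184) (nat_lit 0) (cs (lf (nat_lit 17) (nat_lit 181)) (nd (nat_lit 180) (nat_lit 0) (cs (lf (nat_lit 22) (nat_lit 180)) (nd (nat_lit 275) (nat_lit 0) (cs (lf (nat_lit 5) (nat_lit 250)) (nd (nat_lit 225) (nat_lit 0) (cs (lf (nat_lit 11)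 (nat_lit 202)) (nd (nat_lit 248) (nat_lit 0) (cs (lf (nat_lit 22) (nat_lit 225)) (nd (nat_lit 269) (nat_lit 0) (cs (lf (nat_lit 10) (nat_lit 247)) (nd (nat_lit 247) (nat_lit 0) (cs (lf (nat_lit 11) (nat_lit 246)) (lf (nat_lit 35) (nat_lit 181)))))))))))))))))))))))))))))))) q41653 (by decide +kernel)
def q41707 : Q := Q.p (nat_lit 0x3c00000000014000040000000000000000000000000000000000000000000000) (nat_lit 0x1a8000020001b70000b8003be0006f0001ff0003f00000000000000000000000000000) (nat_lit 14)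
theorem c41707 : QOK q41707 := cut [q527, q41675, q41680, q2020, q41682, q6216, q17564, q2411, q6789, q38241] ⟨c527, c41675, c41680, c2020, c41682, c6216, c17564, c2411, c6789, c38241, trivial⟩ (nd (nat_lit 207) (nat_lit 0) (cs (rf (nat_lit 0)) (cs (nd (nat_lit 231) (nat_lit 0) (cs (lf (nat_lit 17) (nat_lit 228)) (nd (nat_lit 229) (nat_lit 0) (cs (lf (nat_lit 30) (nat_lit 185)) (nd (nat_lit 275) (nat_lit 0) (cs (lf (nat_lit 5) (nat_lit 250)) (nd (nat_lit 205) (nat_lit 0) (cs (lf (nat_lit 17) (nat_lit 183)) (rf (nat_lit 1)))))))))) (cs (nd (nat_lit 184) (nat_lit 0) (cs (rf (nat_lit 2)) (cs (nd (nat_lit 231) (nat_lit 0) (cs (lf (nat_lit 17) (nat_lit 228)) (rf (nat_lit 3)))) (cs (rf (nat_lit 4)) (nd (nat_lit 185) (nat_lit 0) (cs (nd (nat_lit 187) (nat_lit 0) (cs (lf (nat_lit 6) (nat_lit 184)) (rf (nat_lit 5)))) (cs (nd (nat_lit 231) (nat_lit 0) (cs (lf (nat_lit 17) (nat_lit 228)) (nd (nat_lit 182) (nat_lit 0) (cs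 (lf (nat_lit 1) (nat_lit 182)) (nd (nat_lit 163) (nat_lit 0) (cs (lf (nat_lit 31) (nat_lit 162)) (nd (nat_lit 141) (nat_lit 0) (cs (lf (nat_lit 24) (nat_lit 119)) (nd (nat_lit 187) (nat_lit 0) (cs (lf (nat_lit 6) (nat_lit 184)) (nd (nat_lit 165) (nat_lit 0) (cs (lf (nat_lit 17) (nat_lit 162)) (nd (nat_lit 142) (nat_lit 0) (cs (lf (nat_lit 35) (nat_lit 119)) (nd (nat_lit 143) (nat_lit 0) (cs (lf (nat_lit 36) (nat_lit 120)) (nd (nat_lit 162) (nat_lit 0) (cs (lf (nat_lit 6) (nat_lit 140)) (lf (nat_lit 43) (nat_lit 162)))))))))))))))))))) (nd (nat_lit 231) (nat_lit 0) (cs (lf (nat_lit 17) (nat_lit 228)) (nd (nat_lit 183) (nat_lit 0) (cs (lf (nat_lit 0) (nat_lit 182)) (rf (nat_lit 6))))))))))))) (nd (nat_lit 184) (nat_lit 0) (cs (rf (nat_lit 3)) (cs (rf (nat_lit 2)) (cs (rf (nat_lit 4)) (nd (nat_lit 183) (nat_lit 0) (cs (rf (nat_lit 7)) (cs (rf (nat_lit 8)) (nd (nat_lit 231) (nat_lit 0) (cs (lf (nat_lit 17) (nat_lit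 228)) (nd (nat_lit 275) (nat_lit 0) (cs (lf (nat_lit 5) (nat_lit 250)) (nd (nat_lit 161) (nat_lit 0) (cs (lf (nat_lit 43) (nat_lit 161)) (nd (nat_lit 139) (nat_lit 0) (cs (lf (nat_lit 24) (nat_lit 117)) (nd (nat_lit 185) (nat_lit 0) (cs (lf (nat_lit 23) (nat_lit 160)) (nd (nat_lit 205) (nat_lit 0) (cs (lf (nat_lit 11) (nat_lit 182)) (nd (nat_lit 140) (nat_lit 0) (cs (lf (nat_lit 35) (nat_lit 117)) (nd (nat_lit 162) (nat_lit 0) (cs (lf (nat_lit 43) (nat_lit 162)) (rf (nat_lit 9))))))))))))))))))))))))))))) q41707 (by decide +kernel)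
def q41774 : Q := Q.p (nat_lit 0xd0000000000000003c00000000010000040000000000000000000000000000000000000000000000) (nat_lit 0x1ff80032c001cb800020000000001a000008000000000000000000000000000000000000000000000000000) (nat_lit 10)
theorem c41774 : QOK q41774 := cut [q41749, q41751, q41761, q41767, q41772] ⟨c41749, c41751, c41761, c41767, c41772, trivial⟩ (nd (nat_lit 317) (nat_lit 0) (cs (rf (nat_lit 0)) (cs (nd (nat_lit 231) (nat_lit 0) (cs (lf (nat_lit 17) (nat_lit 228)) (nd (nat_lit 341) (nat_lit 0) (cs (lf (nat_lit 5) (nat_lit 316)) (rf (nat_lit 1)))))) (cs (rf (nat_lit 2)) (cs (rf (nat_lit 3)) (nd (nat_lit 231) (nat_lit 0) (cs (lf (nat_lit 17) (nat_lit 228)) (rf (nat_lit 4))))))))) q41774 (by decide +kernel)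
def q42090 : Q := Q.p (nat_lit 0x40000100000000002400000000000000000000000000000000000000000000000000000000000000) (nat_lit 0x200000fc0003f0000fc001fbe007ef001fbe0018200068800180000000000000000000000000000000000000000000000000000) (nat_lit 14)
theorem c42090 : QOK q42090 := cut [q41951, q42004, q41952, q41959, q42008, q42010, q23346, q42013, q42024, q42029, q42038, q28278, q42041, q42049, q42057, q42063, q42068, q42082, q42088] ⟨c41951, c42004, c41952, c41959, c42008, c42010, c23346, c42013, c42024, c42029, c42038, c28278, c42041, c42049, c42057, c42063, c42068, c42082, c42088, trivial⟩ (nd (nat_lit 297) (nat_lit 0) (cs (rf (nat_lit 0)) (cs (rf (nat_lit 1)) (cs (nd (nat_lit 298) (nat_lit 0) (cs (nd (nat_lit 295) (nat_lit 0) (cs (rf (nat_lit 2)) (cs (rf (nat_lit 3)) (rf (nat_lit 4))))) (cs (nd (nat_lit 320) (nat_lit 0) (cs (nd (nat_lit 295) (nat_lit 0) (cs (lf (nat_lit 5) (nat_lit 295)) (rf (nat_lit 5)))) (cs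 (nd (nat_lit 275) (nat_lit 0) (cs (lf (nat_lit 24) (nat_lit 231)) (rf (nat_lit 6)))) (nd (nat_lit 231) (nat_lit 0) (cs (rf (nat_lit 7)) (lf (nat_lit 26) (nat_lit 231))))))) (cs (nd (nat_lit 231) (nat_lit 0) (cs (lf (nat_lit 38) (nat_lit 230)) (rf (nat_lit 8)))) (cs (rf (nat_lit 9)) (nd (nat_lit 299) (nat_lit 0) (cs (lf (nat_lit 11) (nat_lit 295)) (nd (nat_lit 277) (nat_lit 0) (cs (lf (nat_lit 17) (nat_lit 274)) (nd (nat_lit 276) (nat_lit 0) (cs (lf (nat_lit 12) (nat_lit 273)) (nd (nat_lit 300) (nat_lit 0) (cs (lf (nat_lit 10) (nat_lit 296)) (nd (nat_lit 275) (nat_lit 0) (cs (lf (nat_lit 18) (nat_lit 275)) (lf (nat_lit 36) (nat_lit 230))))))))))))))))) (nd (nat_lit 298) (nat_lit 0) (cs (rf (nat_lit 8)) (cs (rf (nat_lit 9)) (cs (rf (nat_lit 10)) (cs (nd (nat_lit 295) (nat_lit 0) (cs (rf (nat_lit 11)) (cs (rf (nat_lit 4)) (cs (rf (nat_lit 12)) (nd (nat_lit 320) (nat_lit 0) (cs (lf (nat_lit 5) (nat_lit 295)) (nd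 (nat_lit 342) (nat_lit 0) (cs (rf (nat_lit 13)) (cs (rf (nat_lit 14)) (cs (rf (nat_lit 15)) (nd (nat_lit 272) (nat_lit 0) (cs (lf (nat_lit 22) (nat_lit 272)) (nd (nat_lit 317) (nat_lit 0) (cs (lf (nat_lit 11) (nat_lit 294)) (nd (nat_lit 319) (nat_lit 0) (cs (lf (nat_lit 5) (nat_lit 317)) (nd (nat_lit 339) (nat_lit 0) (cs (lf (nat_lit 11) (nat_lit 316)) (nd (nat_lit 361) (nat_lit 0) (cs (lf (nat_lit 30) (nat_lit 295)) (rf (nat_lit 16)))))))))))))))))))))) (cs (rf (nat_lit 17)) (rf (nat_lit 18)))))))))))) q42090 (by decide +kernel)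
def q42288 : Q := Q.p (nat_lit 0x100000c0000000000000002000000000000000000000000000000000000000000000000000000000000000) (nat_lit 0xfe0003f00002e0001000003e0000a00000000000000000000000000000000000000000000000000000000000000000000) (nat_lit 9)
theorem c42288 : QOK q42288 := cut [q42286] ⟨c42286, trivial⟩ (nd (nat_lit 297) (nat_lit 0) (cs (lf (nat_lit 37) (nat_lit 252)) (nd (nat_lit 362) (nat_lit 0) (cs (lf (nat_lit 30) (nat_lit 296)) (rf (nat_lit 0)))))) q42288 (by decide +kernel)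
def q42458 : Q := Q.p (nat_lit 0x10000040000000000000003c00000000010000040000000000000000000000000000000000000000000000) (nat_lit 0x6f8007bc001ff8001bc0000300002e00009000024000000000000000000000000000000000000000000000) (nat_lit 11)
theorem c42458 : QOK q42458 := cut [q42430, q42449, q42416, q42421, q42445, q42452] ⟨c42430, c42449, c42416, c42421, c42445, c42452, trivial⟩ (nd (nat_lit 316) (nat_lit 0) (cs (rf (nat_lit 0)) (cs (rf (nat_lit 1)) (nd (nat_lit 317) (nat_lit 0) (cs (rf (nat_lit 2)) (cs (rf (nat_lit 3)) (cs (rf (nat_lit 4)) (nd (nat_lit 275) (nat_lit 0) (cs (lf (nat_lit 5) (nat_lit 250)) (nd (nat_lit 319) (nat_lit 0) (cs (lf (nat_lit 38) (nat_lit 252)) (nd (nat_lit 293) (nat_lit 0) (cs (lf (nat_lit 22) (nat_lit 293)) (nd (nat_lit 341) (nat_lit 0) (cs (lf (nat_lit 5) (nat_lit 316)) (rf (nat_lit 5))))))))))))))))) q42458 (by decide +kernel)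
def q42553 : Q := Q.p (nat_lit 0x4000010000040000000000000000000000000000000000000000000000000000000000000000000000000000000) (nat_lit 0x280002a0001ef0007b8001ef000120000500000000000000000000000000000000000000000000000000000000000000000000000000) (nat_lit 11)
theorem c42553 : QOK q42553 := cut [q42473, q42493, q42513, q42515, q42521, q42525, q42533, q42539, q42551] ⟨c42473, c42493, c42513, c42515, c42521, c42525, c42533, c42539, c42551, trivial⟩ (nd (nat_lit 363) (nat_lit 0) (cs (rf (nat_lit 0)) (cs (rf (nat_lit 1)) (cs (rf (nat_lit 2)) (nd (nat_lit 364) (nat_lit 0) (cs (rf (nat_lit 3)) (cs (rf (nat_lit 4)) (cs (nd (nat_lit 365) (nat_lit 0) (cs (rf (nat_lit 5)) (cs (nd (nat_lit 387) (nat_lit 0) (cs (lf (nat_lit 5) (nat_lit 362)) (nd (nat_lit 361) (nat_lit 0) (cs (lf (nat_lit 4) (nat_lit 361)) (nd (nat_lit 382) (nat_lit 0) (cs (lf (nat_lit 10) (nat_lit 360)) (nd (nat_lit 360) (nat_lit 0) (cs (lf (nat_lit 11) (nat_lit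 359)) (nd (nat_lit 341) (nat_lit 0) (cs (lf (nat_lit 18) (nat_lit 340)) (lf (nat_lit 17) (nat_lit 338)))))))))))) (cs (rf (nat_lit 6)) (cs (nd (nat_lit 343) (nat_lit 0) (cs (lf (nat_lit 17) (nat_lit 340)) (rf (nat_lit 7)))) (nd (nat_lit 387) (nat_lit 0) (cs (lf (nat_lit 5) (nat_lit 362)) (nd (nat_lit 343) (nat_lit 0) (cs (lf (nat_lit 17) (nat_lit 340)) (nd (nat_lit 341) (nat_lit 0) (cs (lf (nat_lit 18) (nat_lit 340)) (nd (nat_lit 385) (nat_lit 0) (cs (lf (nat_lit 42) (nat_lit 318)) (nd (nat_lit 342) (nat_lit 0) (cs (lf (nat_lit 23) (nat_lit 317)) (nd (nat_lit 320) (nat_lit 0) (cs (lf (nat_lit 42) (nat_lit 320)) (lf (nat_lit 24) (nat_lit 298))))))))))))))))))) (rf (nat_lit 8)))))))))) q42553 (by decide +kernel)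
def q42638 : Q := Q.p (nat_lit 0xc000010000040000000000000003400000000000000000000000000000000000000000000000000000000000000) (nat_lit 0x100001d700073c001ef80023c0009e0000380000800000000000000000000000000000000000000000000000000000000000000) (nat_lit 11)
theorem c42638 : QOK q42638 := cut [q42515, q42551, q42586, q42592, q42612, q42480, q42583, q42525, q42533] ⟨c42515, c42551, c42586, c42592, c42612, c42480, c42583, c42525, c42533, trivial⟩ (nd (nat_lit 364) (nat_lit 0) (cs (rf (nat_lit 0)) (cs (rf (nat_lit 1)) (cs (nd (nat_lit 361) (nat_lit 0) (cs (nd (nat_lit 342) (nat_lit 0) (cs (lf (nat_lit 17) (nat_lit 339)) (nd (nat_lit 360) (nat_lit 0) (cs (lf (nat_lit 16) (nat_lit 338)) (nd (nat_lit 386) (nat_lit 0) (cs (lf (nat_lit 5) (nat_lit 361)) (nd (nat_lit 337) (nat_lit 0) (cs (lf (nat_lit 22) (nat_lit 337)) (nd (nat_lit 381) (nat_lit 0) (cs (lf (nat_lit 10) (nat_lit 359)) (nd (nat_lit 359) (nat_lit 0) (cs (lf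 (nat_lit 23) (nat_lit 336)) (lf (nat_lit 11) (nat_lit 358)))))))))))))) (cs (rf (nat_lit 2)) (cs (nd (nat_lit 317) (nat_lit 0) (cs (nd (nat_lit 342) (nat_lit 0) (cs (lf (nat_lit 17) (nat_lit 339)) (nd (nat_lit 295) (nat_lit 0) (cs (lf (nat_lit 42) (nat_lit 295)) (nd (nat_lit 339) (nat_lit 0) (cs (lf (nat_lit 24) (nat_lit 273)) (lf (nat_lit 23) (nat_lit 338)))))))) (cs (rf (nat_lit 3)) (nd (nat_lit 339) (nat_lit 0) (cs (lf (nat_lit 23) (nat_lit 338)) (nd (nat_lit 342) (nat_lit 0) (cs (lf (nat_lit 17) (nat_lit 339)) (nd (nat_lit 316) (nat_lit 0) (cs (lf (nat_lit 19) (nat_lit 316)) (nd (nat_lit 315) (nat_lit 0) (cs (lf (nat_lit 0) (nat_lit 314)) (nd (nat_lit 272) (nat_lit 0) (cs (nd (nat_lit 337) (nat_lit 0) (cs (lf (nat_lit 11) (nat_lit 314)) (nd (nat_lit 271) (nat_lit 0) (cs (lf (nat_lit 8) (nat_lit 249)) (lf (nat_lit 32) (nat_lit 249)))))) (lf (nat_lit 26) (nat_lit 250))))))))))))))) (cs (nd (nat_lit 386) (nat_lit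 0) (cs (lf (nat_lit 5) (nat_lit 361)) (nd (nat_lit 338) (nat_lit 0) (cs (lf (nat_lit 22) (nat_lit 338)) (nd (nat_lit 360) (nat_lit 0) (cs (lf (nat_lit 23) (nat_lit 337)) (nd (nat_lit 381) (nat_lit 0) (cs (lf (nat_lit 10) (nat_lit 359)) (nd (nat_lit 359) (nat_lit 0) (cs (lf (nat_lit 11) (nat_lit 358)) (lf (nat_lit 17) (nat_lit 337)))))))))))) (cs (rf (nat_lit 4)) (nd (nat_lit 360) (nat_lit 0) (cs (rf (nat_lit 5)) (cs (rf (nat_lit 6)) (cs (nd (nat_lit 342) (nat_lit 0) (cs (lf (nat_lit 17) (nat_lit 339)) (nd (nat_lit 381) (nat_lit 0) (cs (lf (nat_lit 10) (nat_lit 359)) (nd (nat_lit 359) (nat_lit 0) (cs (lf (nat_lit 11) (nat_lit 358)) (nd (nat_lit 339) (nat_lit 0) (cs (lf (nat_lit 23) (nat_lit 338)) (lf (nat_lit 12) (nat_lit 336)))))))))) (nd (nat_lit 338) (nat_lit 0) (cs (lf (nat_lit 23) (nat_lit 337)) (lf (nat_lit 22) (nat_lit 338)))))))))))))) (nd (nat_lit 365) (nat_lit 0) (cs (rf (nat_lit 7)) (cs (rf (nat_lit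 8)) (cs (nd (nat_lit 387) (nat_lit 0) (cs (lf (nat_lit 5) (nat_lit 362)) (nd (nat_lit 361) (nat_lit 0) (cs (lf (nat_lit 4) (nat_lit 361)) (nd (nat_lit 341) (nat_lit 0) (cs (lf (nat_lit 18) (nat_lit 340)) (nd (nat_lit 360) (nat_lit 0) (cs (lf (nat_lit 12) (nat_lit 337)) (lf (nat_lit 17) (nat_lit 338)))))))))) (cs (nd (nat_lit 343) (nat_lit 0) (cs (lf (nat_lit 17) (nat_lit 340)) (nd (nat_lit 341) (nat_lit 0) (cs (lf (nat_lit 18) (nat_lit 340)) (nd (nat_lit 387) (nat_lit 0) (cs (lf (nat_lit 5) (nat_lit 362)) (nd (nat_lit 386) (nat_lit 0) (cs (lf (nat_lit 0) (nat_lit 361)) (nd (nat_lit 321) (nat_lit 0) (cs (lf (nat_lit 41) (nat_lit 320)) (lf (nat_lit 36) (nat_lit 298)))))))))))) (nd (nat_lit 387) (nat_lit 0) (cs (lf (nat_lit 5) (nat_lit 362)) (nd (nat_lit 343) (nat_lit 0) (cs (lf (nat_lit 17) (nat_lit 340)) (nd (nat_lit 341) (nat_lit 0) (cs (lf (nat_lit 18) (nat_lit 340)) (nd (nat_lit 317) (nat_lit 0) (cs (nd (nat_lit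 315) (nat_lit 0) (cs (rf (nat_lit 3)) (lf (nat_lit 1) (nat_lit 315)))) (lf (nat_lit 19) (nat_lit 317))))))))))))))))))) q42638 (by decide +kernel)
def q42765 : Q := Q.p (nat_lit 0x4000010000040000000000000003400000000010000040000000000000000000000000000000000000000000000) (nat_lit 0x80000700001f8001bc000ef80003c0003f8001bc0000a0001a800008000000000000000000000000000000000000000000000000000) (nat_lit 13)
theorem c42765 : QOK q42765 := cut [q42592, q42419, q42656, q42662, q25999, q42677, q42679, q25254, q42418, q42762, q42729, q42764] ⟨c42592, c42419, c42656, c42662, c25999, c42677, c42679, c25254, c42418, c42762, c42729, c42764, trivial⟩ (nd (nat_lit 317) (nat_lit 0) (cs (rf (nat_lit 0)) (cs (nd (nat_lit 316) (nat_lit 0) (cs (rf (nat_lit 1)) (cs (nd (nat_lit 383) (nat_lit 0) (cs (nd (nat_lit 296) (nat_lit 0) (cs (lf (nat_lit 40) (nat_lit 295)) (nd (nat_lit 275) (nat_lit 0) (cs (nd (nat_lit 251) (nat_lit 0) (cs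 (lf (nat_lit 5) (nat_lit 250)) (rf (nat_lit 2)))) (lf (nat_lit 34) (nat_lit 274)))))) (cs (nd (nat_lit 384) (nat_lit 0) (cs (lf (nat_lit 41) (nat_lit 317)) (nd (nat_lit 339) (nat_lit 0) (cs (lf (nat_lit 42) (nat_lit 317)) (nd (nat_lit 338) (nat_lit 0) (cs (rf (nat_lit 3)) (cs (nd (nat_lit 272) (nat_lit 0) (cs (lf (nat_lit 26) (nat_lit 250)) (nd (nat_lit 251) (nat_lit 0) (cs (lf (nat_lit 11) (nat_lit 249)) (nd (nat_lit 341) (nat_lit 0) (cs (lf (nat_lit 18) (nat_lit 316)) (nd (nat_lit 360) (nat_lit 0) (cs (lf (nat_lit 11) (nat_lit 337)) (nd (nat_lit 363) (nat_lit 0) (cs (lf (nat_lit 5) (nat_lit 338)) (nd (nat_lit 382) (nat_lit 0) (cs (lf (nat_lit 12) (nat_lit 359)) (lf (nat_lit 30) (nat_lit 316)))))))))))))) (nd (nat_lit 341) (nat_lit 0) (cs (lf (nat_lit 18) (nat_lit 316)) (nd (nat_lit 337) (nat_lit 0) (cs (rf (nat_lit 4)) (lf (nat_lit 12) (nat_lit 314))))))))))))) (rf (nat_lit 5))))) (cs (rf (nat_lit 6)) (nd (nat_lit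 315) (nat_lit 0) (cs (rf (nat_lit 7)) (cs (rf (nat_lit 8)) (nd (nat_lit 337) (nat_lit 0) (cs (lf (nat_lit 11) (nat_lit 314)) (nd (nat_lit 296) (nat_lit 0) (cs (lf (nat_lit 17) (nat_lit 293)) (nd (nat_lit 383) (nat_lit 0) (cs (lf (nat_lit 40) (nat_lit 295)) (nd (nat_lit 294) (nat_lit 0) (cs (nd (nat_lit 384) (nat_lit 0) (cs (lf (nat_lit 41) (nat_lit 317)) (nd (nat_lit 339) (nat_lit 0) (cs (lf (nat_lit 42) (nat_lit 317)) (nd (nat_lit 359) (nat_lit 0) (cs (lf (nat_lit 30) (nat_lit 293)) (nd (nat_lit 338) (nat_lit 0) (cs (lf (nat_lit 11) (nat_lit 336)) (lf (nat_lit 5) (nat_lit 337)))))))))) (lf (nat_lit 37) (nat_lit 249))))))))))))))))) (cs (rf (nat_lit 9)) (cs (nd (nat_lit 295) (nat_lit 0) (cs (lf (nat_lit 42) (nat_lit 295)) (rf (nat_lit 10)))) (rf (nat_lit 11))))))) q42765 (by decide +kernel)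
def q42825 : Q := Q.p (nat_lit 0x4000010000040000000000000000000000000000000000000000000000000000000000000000000000000000000) (nat_lit 0x280000a0001ef0007b8003ef000600000900002000000000000000000000000000000000000000000000000000000000000000000000) (nat_lit 10)
theorem c42825 : QOK q42825 := cut [q42473, q42493, q42513, q42515, q42521, q42551, q42525, q42539, q31232] ⟨c42473, c42493, c42513, c42515, c42521, c42551, c42525, c42539, c31232, trivial⟩ (nd (nat_lit 363) (nat_lit 0) (cs (rf (nat_lit 0)) (cs (rf (nat_lit 1)) (cs (rf (nat_lit 2)) (nd (nat_lit 364) (nat_lit 0) (cs (rf (nat_lit 3)) (cs (rf (nat_lit 4)) (cs (rf (nat_lit 5)) (nd (nat_lit 365) (nat_lit 0) (cs (rf (nat_lit 6)) (cs (rf (nat_lit 7)) (cs (nd (nat_lit 343) (nat_lit 0) (cs (lf (nat_lit 17) (nat_lit 340)) (nd (nat_lit 342) (nat_lit 0) (cs (lf (nat_lit 12) (nat_lit 339)) (nd (nat_lit 341) (nat_lit 0) (cs (lf (nat_lit 5) (nat_lit 340)) (rf (nat_lit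 8)))))))) (nd (nat_lit 387) (nat_lit 0) (cs (lf (nat_lit 5) (nat_lit 362)) (nd (nat_lit 344) (nat_lit 0) (cs (nd (nat_lit 366) (nat_lit 0) (cs (lf (nat_lit 22) (nat_lit 340)) (lf (nat_lit 17) (nat_lit 341)))) (lf (nat_lit 16) (nat_lit 340)))))))))))))))))) q42825 (by decide +kernel)
def q43074 : Q := Q.p (nat_lit 0x10000040000000000000003400000000010000040000000000000000000000000000000000000000000000) (nat_lit 0x280000e00003e0003f8001e78003be001ff8001bf0000b8001ae00009000024000000000000000000000000000000000000000000000) (nat_lit 14)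
theorem c43074 : QOK q43074 := cut [q42373, q42449, q42417, q42679, q42440, q42592, q42838, q25254, q42408, q42415, q42411, q43036, q43053, q43047, q41746, q3762, q11143, q42391, q43070] ⟨c42373, c42449, c42417, c42679, c42440, c42592, c42838, c25254, c42408, c42415, c42411, c43036, c43053, c43047, c41746, c3762, c11143, c42391, c43070, trivial⟩ (nd (nat_lit 251) (nat_lit 0) (cs (rf (nat_lit 0)) (cs (nd (nat_lit 316) (nat_lit 0) (cs (rf (nat_lit 1)) (cs (nd (nat_lit 317) (nat_lit 0) (cs (rf (nat_lit 2)) (cs (rf (nat_lit 3)) (cs (nd (nat_lit 319) (nat_lit 0) (cs (rf (nat_lit 4)) (cs (nd (nat_lit 231) (nat_lit 0) (cs (lf (nat_lit 17) (nat_lit 228)) (nd (nat_lit 298) (nat_lit 0) (cs (lf (nat_lit 16) (nat_lit 294)) (nd (nat_lit 342) (nat_lit 0) (cs (lf (nat_lit 4) (nat_lit 316)) (nd (nat_lit 320) (nat_lit 0) (cs (lf (nat_lit 5) (nat_lit 317)) (lf (nat_lit 17) (nat_lit 295)))))))))) (nd (nat_lit 362) (nat_lit 0) (cs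 (rf (nat_lit 5)) (cs (rf (nat_lit 6)) (nd (nat_lit 341) (nat_lit 0) (cs (lf (nat_lit 5) (nat_lit 316)) (nd (nat_lit 294) (nat_lit 0) (cs (lf (nat_lit 23) (nat_lit 293)) (nd (nat_lit 297) (nat_lit 0) (cs (lf (nat_lit 17) (nat_lit 294)) (nd (nat_lit 338) (nat_lit 0) (cs (lf (nat_lit 11) (nat_lit 315)) (nd (nat_lit 295) (nat_lit 0) (cs (lf (nat_lit 37) (nat_lit 250)) (nd (nat_lit 360) (nat_lit 0) (cs (lf (nat_lit 30) (nat_lit 294)) (nd (nat_lit 359) (nat_lit 0) (cs (lf (nat_lit 41) (nat_lit 293)) (lf (nat_lit 14) (nat_lit 337)))))))))))))))))))))) (cs (nd (nat_lit 315) (nat_lit 0) (cs (rf (nat_lit 7)) (cs (rf (nat_lit 8)) (cs (rf (nat_lit 9)) (nd (nat_lit 292) (nat_lit 0) (cs (lf (nat_lit 22) (nat_lit 292)) (nd (nat_lit 314) (nat_lit 0) (cs (lf (nat_lit 23) (nat_lit 291)) (rf (nat_lit 10)))))))))) (nd (nat_lit 273) (nat_lit 0) (cs (lf (nat_lit 26) (nat_lit 251)) (nd (nat_lit 207) (nat_lit 0) (cs (lf (nat_lit 32)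 (nat_lit 185)) (nd (nat_lit 231) (nat_lit 0) (cs (lf (nat_lit 17) (nat_lit 228)) (nd (nat_lit 315) (nat_lit 0) (cs (lf (nat_lit 5) (nat_lit 315)) (nd (nat_lit 297) (nat_lit 0) (cs (lf (nat_lit 16) (nat_lit 293)) (nd (nat_lit 293) (nat_lit 0) (cs (lf (nat_lit 23) (nat_lit 292)) (nd (nat_lit 319) (nat_lit 0) (cs (lf (nat_lit 17) (nat_lit 294)) (lf (nat_lit 22) (nat_lit 293))))))))))))))))))))) (nd (nat_lit 271) (nat_lit 0) (cs (lf (nat_lit 10) (nat_lit 249)) (nd (nat_lit 249) (nat_lit 0) (cs (lf (nat_lit 11) (nat_lit 248)) (nd (nat_lit 226) (nat_lit 0) (cs (lf (nat_lit 22) (nat_lit 226)) (nd (nat_lit 248) (nat_lit 0) (cs (lf (nat_lit 23) (nat_lit 225)) (nd (nat_lit 231) (nat_lit 0) (cs (lf (nat_lit 17) (nat_lit 228)) (nd (nat_lit 182) (nat_lit 0) (cs (lf (nat_lit 25) (nat_lit 182)) (nd (nat_lit 315) (nat_lit 0) (cs (lf (nat_lit 43) (nat_lit 226)) (nd (nat_lit 317) (nat_lit 0) (cs (lf (nat_lit 5) (nat_lit 315))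 (rf (nat_lit 11))))))))))))))))))))) (cs (nd (nat_lit 271) (nat_lit 0) (cs (lf (nat_lit 10) (nat_lit 249)) (nd (nat_lit 249) (nat_lit 0) (cs (lf (nat_lit 11) (nat_lit 248)) (nd (nat_lit 226) (nat_lit 0) (cs (lf (nat_lit 22) (nat_lit 226)) (nd (nat_lit 248) (nat_lit 0) (cs (lf (nat_lit 23) (nat_lit 225)) (nd (nat_lit 204) (nat_lit 0) (cs (lf (nat_lit 24) (nat_lit 182)) (nd (nat_lit 319) (nat_lit 0) (cs (rf (nat_lit 12)) (nd (nat_lit 317) (nat_lit 0) (cs (nd (nat_lit 295) (nat_lit 0) (cs (lf (nat_lit 25) (nat_lit 251)) (nd (nat_lit 320) (nat_lit 0) (cs (lf (nat_lit 23) (nat_lit 294)) (nd (nat_lit 299) (nat_lit 0) (cs (lf (nat_lit 16) (nat_lit 295)) (rf (nat_lit 13)))))))) (nd (nat_lit 315) (nat_lit 0) (cs (lf (nat_lit 43) (nat_lit 226)) (nd (nat_lit 316) (nat_lit 0) (cs (lf (nat_lit 5) (nat_lit 315)) (rf (nat_lit 14)))))))))))))))))))) (nd (nat_lit 249) (nat_lit 0) (cs (rf (nat_lit 15)) (cs (rf (nat_lit 16)) (cs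 (rf (nat_lit 17)) (nd (nat_lit 231) (nat_lit 0) (cs (lf (nat_lit 17) (nat_lit 228)) (nd (nat_lit 275) (nat_lit 0) (cs (lf (nat_lit 5) (nat_lit 250)) (rf (nat_lit 18)))))))))))))) q43074 (by decide +kernel)
def q43144 : Q := Q.p (nat_lit 0x10000040000000000000003400000000010000040000000000000000000000000000000000000000000000) (nat_lit 0x10000040003af8007be001ff8001bf0000b8001ae00009000024000000000000000000000000000000000000000000000) (nat_lit 14)
theorem c43144 : QOK q43144 := cut [q42373, q43110, q43116, q41745, q42421, q42679, q43091, q13060, q43139, q42396, q43080] ⟨c42373, c43110, c43116, c41745, c42421, c42679, c43091, c13060, c43139, c42396, c43080, trivial⟩ (nd (nat_lit 251) (nat_lit 0) (cs (rf (nat_lit 0)) (cs (rf (nat_lit 1)) (cs (rf (nat_lit 2)) (nd (nat_lit 272) (nat_lit 0) (cs (lf (nat_lit 11) (nat_lit 249)) (nd (nat_lit 316) (nat_lit 0) (cs (rf (nat_lit 3)) (cs (nd (nat_lit 317) (nat_lit 0) (cs (rf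 (nat_lit 4)) (cs (rf (nat_lit 5)) (cs (rf (nat_lit 6)) (nd (nat_lit 231) (nat_lit 0) (cs (lf (nat_lit 17) (nat_lit 228)) (nd (nat_lit 275) (nat_lit 0) (cs (lf (nat_lit 5) (nat_lit 250)) (nd (nat_lit 319) (nat_lit 0) (cs (lf (nat_lit 38) (nat_lit 252)) (nd (nat_lit 338) (nat_lit 0) (cs (lf (nat_lit 11) (nat_lit 315)) (nd (nat_lit 320) (nat_lit 0) (cs (lf (nat_lit 10) (nat_lit 316)) (nd (nat_lit 299) (nat_lit 0) (cs (lf (nat_lit 16) (nat_lit 295)) (nd (nat_lit 321) (nat_lit 0) (cs (lf (nat_lit 17) (nat_lit 296)) (rf (nat_lit 7)))))))))))))))))))) (cs (nd (nat_lit 231) (nat_lit 0) (cs (lf (nat_lit 17) (nat_lit 228)) (rf (nat_lit 8)))) (nd (nat_lit 317) (nat_lit 0) (cs (rf (nat_lit 9)) (rf (nat_lit 10)))))))))))))) q43144 (by decide +kernel)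
def q43529 : Q := Q.p (nat_lit 0x30000040000000000000003400000000010000040000000000000000000000000000000000000000000000) (nat_lit 0x1c0000700003d80000e0007b8001ee0001bc0000b0001ae00008000020000000000000000000000000000000000000000000000) (nat_lit 13)
theorem c43529 : QOK q43529 := cut [q43464, q43053, q43488, q42930, q43498, q41842, q42246, q43505, q43528] ⟨c43464, c43053, c43488, c42930, c43498, c41842, c42246, c43505, c43528, trivial⟩ (nd (nat_lit 319) (nat_lit 0) (cs (nd (nat_lit 275) (nat_lit 0) (cs (lf (nat_lit 38) (nat_lit 252)) (nd (nat_lit 251) (nat_lit 0) (cs (lf (nat_lit 5) (nat_lit 250)) (nd (nat_lit 271) (nat_lit 0) (cs (lf (nat_lit 10) (nat_lit 249)) (nd (nat_lit 249) (nat_lit 0) (cs (lf (nat_lit 11) (nat_lit 248)) (nd (nat_lit 226) (nat_lit 0) (cs (lf (nat_lit 22) (nat_lit 226)) (nd (nat_lit 248) (nat_lit 0) (cs (lf (nat_lit 23) (nat_lit 225)) (nd (nat_lit 315) (nat_lit 0) (cs (lf (nat_lit 43) (nat_lit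 226)) (nd (nat_lit 317) (nat_lit 0) (cs (lf (nat_lit 1) (nat_lit 315)) (nd (nat_lit 295) (nat_lit 0) (cs (lf (nat_lit 25) (nat_lit 251)) (rf (nat_lit 0)))))))))))))))))))) (cs (nd (nat_lit 251) (nat_lit 0) (cs (rf (nat_lit 1)) (nd (nat_lit 271) (nat_lit 0) (cs (lf (nat_lit 10) (nat_lit 249)) (nd (nat_lit 249) (nat_lit 0) (cs (lf (nat_lit 11) (nat_lit 248)) (nd (nat_lit 226) (nat_lit 0) (cs (lf (nat_lit 22) (nat_lit 226)) (nd (nat_lit 248) (nat_lit 0) (cs (lf (nat_lit 23) (nat_lit 225)) (nd (nat_lit 315) (nat_lit 0) (cs (lf (nat_lit 43) (nat_lit 226)) (nd (nat_lit 317) (nat_lit 0) (cs (lf (nat_lit 1) (nat_lit 315)) (nd (nat_lit 295) (nat_lit 0) (cs (lf (nat_lit 25) (nat_lit 251)) (nd (nat_lit 320) (nat_lit 0) (cs (lf (nat_lit 23) (nat_lit 294)) (nd (nat_lit 299) (nat_lit 0) (cs (lf (nat_lit 16) (nat_lit 295)) (nd (nat_lit 321) (nat_lit 0) (cs (lf (nat_lit 17) (nat_lit 296)) (lf (nat_lit 6) (nat_lit 318))))))))))))))))))))))))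 (cs (nd (nat_lit 363) (nat_lit 0) (cs (nd (nat_lit 385) (nat_lit 0) (cs (lf (nat_lit 42) (nat_lit 318)) (nd (nat_lit 298) (nat_lit 0) (cs (lf (nat_lit 34) (nat_lit 297)) (nd (nat_lit 297) (nat_lit 0) (cs (lf (nat_lit 35) (nat_lit 275)) (lf (nat_lit 37) (nat_lit 252)))))))) (cs (nd (nat_lit 297) (nat_lit 0) (cs (lf (nat_lit 37) (nat_lit 252)) (nd (nat_lit 362) (nat_lit 0) (cs (lf (nat_lit 41) (nat_lit 296)) (nd (nat_lit 276) (nat_lit 0) (cs (lf (nat_lit 34) (nat_lit 275)) (rf (nat_lit 2)))))))) (cs (nd (nat_lit 385) (nat_lit 0) (cs (lf (nat_lit 42) (nat_lit 318)) (nd (nat_lit 386) (nat_lit 0) (cs (lf (nat_lit 29) (nat_lit 319)) (nd (nat_lit 384) (nat_lit 0) (cs (lf (nat_lit 41) (nat_lit 318)) (nd (nat_lit 320) (nat_lit 0) (cs (rf (nat_lit 3)) (lf (nat_lit 35) (nat_lit 297)))))))))) (rf (nat_lit 4)))))) (cs (nd (nat_lit 316) (nat_lit 0) (cs (nd (nat_lit 275) (nat_lit 0) (cs (lf (nat_lit 38) (nat_lit 252)) (nd (nat_lit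 251) (nat_lit 0) (cs (lf (nat_lit 5) (nat_lit 250)) (rf (nat_lit 5)))))) (cs (nd (nat_lit 317) (nat_lit 0) (cs (lf (nat_lit 0) (nat_lit 315)) (nd (nat_lit 294) (nat_lit 0) (cs (lf (nat_lit 23) (nat_lit 293)) (nd (nat_lit 337) (nat_lit 0) (cs (lf (nat_lit 10) (nat_lit 315)) (rf (nat_lit 6)))))))) (nd (nat_lit 317) (nat_lit 0) (cs (lf (nat_lit 0) (nat_lit 315)) (rf (nat_lit 7))))))) (rf (nat_lit 8))))))) q43529 (by decide +kernel)
def q43698 : Q := Q.p (nat_lit 0x30000040000000000000003400000000000000000000000000000000000000000000000000000000000000) (nat_lit 0x7f8001fc000ff8001c50007bc001ef0007bc0018a00018c00000000000000000000000000000000000000000000000000000000) (nat_lit 13)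
theorem c43698 : QOK q43698 := cut [q13309, q41211, q43606, q43611, q43612, q43613, q43615, q43556, q43560, q43563, q43568, q43634, q43640, q43641, q43569, q43645, q42297, q43661, q43697] ⟨c13309, c41211, c43606, c43611, c43612, c43613, c43615, c43556, c43560, c43563, c43568, c43634, c43640, c43641, c43569, c43645, c42297, c43661, c43697, trivial⟩ (nd (nat_lit 342) (nat_lit 0) (cs (rf (nat_lit 0)) (cs (nd (nat_lit 319) (nat_lit 0) (cs (nd (nat_lit 316) (nat_lit 0) (cs (lf (nat_lit 1) (nat_lit 316)) (nd (nat_lit 275) (nat_lit 0) (cs (lf (nat_lit 38) (nat_lit 252)) (nd (nat_lit 251) (nat_lit 0) (cs (lf (nat_lit 5) (nat_lit 250)) (nd (nat_lit 231) (nat_lit 0) (cs (lf (nat_lit 17) (nat_lit 228)) (nd (nat_lit 271) (nat_lit 0) (cs (lf (nat_lit 10) (nat_lit 249)) (nd (nat_lit 249) (nat_lit 0) (cs (lf (nat_lit 11) (nat_lit 248)) (nd (nat_lit 227) (nat_lit 0) (cs (lf (nat_lit 23) (nat_lit 226)) (nd (nat_lit 293) (nat_lit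 0) (cs (lf (nat_lit 28) (nat_lit 227)) (rf (nat_lit 1)))))))))))))))))) (cs (rf (nat_lit 2)) (cs (rf (nat_lit 3)) (cs (nd (nat_lit 384) (nat_lit 0) (cs (rf (nat_lit 4)) (cs (nd (nat_lit 385) (nat_lit 0) (cs (rf (nat_lit 5)) (cs (nd (nat_lit 316) (nat_lit 0) (cs (lf (nat_lit 1) (nat_lit 316)) (nd (nat_lit 386) (nat_lit 0) (cs (rf (nat_lit 6)) (cs (nd (nat_lit 387) (nat_lit 0) (cs (nd (nat_lit 409) (nat_lit 0) (cs (lf (nat_lit 5) (nat_lit 384)) (nd (nat_lit 320) (nat_lit 0) (cs (nd (nat_lit 322) (nat_lit 0) (cs (nd (nat_lit 366) (nat_lit 0) (cs (lf (nat_lit 16) (nat_lit 362)) (nd (nat_lit 388) (nat_lit 0) (cs (lf (nat_lit 17) (nat_lit 363)) (lf (nat_lit 37) (nat_lit 321)))))) (lf (nat_lit 7) (nat_lit 318)))) (lf (nat_lit 26) (nat_lit 320)))))) (nd (nat_lit 405) (nat_lit 0) (cs (lf (nat_lit 10) (nat_lit 383)) (nd (nat_lit 383) (nat_lit 0) (cs (lf (nat_lit 11) (nat_lit 382)) (nd (nat_lit 360) (nat_lit 0) (cs (lf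 (nat_lit 22) (nat_lit 360)) (nd (nat_lit 382) (nat_lit 0) (cs (lf (nat_lit 23) (nat_lit 359)) (lf (nat_lit 25) (nat_lit 316)))))))))))) (nd (nat_lit 383) (nat_lit 0) (cs (rf (nat_lit 7)) (cs (rf (nat_lit 8)) (cs (rf (nat_lit 9)) (rf (nat_lit 10))))))))))) (cs (nd (nat_lit 316) (nat_lit 0) (cs (lf (nat_lit 1) (nat_lit 316)) (nd (nat_lit 363) (nat_lit 0) (cs (lf (nat_lit 41) (nat_lit 318)) (rf (nat_lit 11)))))) (nd (nat_lit 363) (nat_lit 0) (cs (lf (nat_lit 42) (nat_lit 318)) (rf (nat_lit 11)))))))) (cs (rf (nat_lit 12)) (nd (nat_lit 362) (nat_lit 0) (cs (lf (nat_lit 30) (nat_lit 318)) (rf (nat_lit 13)))))))) (nd (nat_lit 297) (nat_lit 0) (cs (lf (nat_lit 37) (nat_lit 252)) (nd (nat_lit 384) (nat_lit 0) (cs (rf (nat_lit 4)) (cs (rf (nat_lit 12)) (nd (nat_lit 385) (nat_lit 0) (cs (rf (nat_lit 5)) (cs (nd (nat_lit 386) (nat_lit 0) (cs (rf (nat_lit 14)) (cs (rf (nat_lit 6)) (nd (nat_lit 316) (nat_lit 0) (cs (lf (nat_lit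 1) (nat_lit 316)) (nd (nat_lit 364) (nat_lit 0) (cs (rf (nat_lit 15)) (lf (nat_lit 45) (nat_lit 297))))))))) (cs (nd (nat_lit 316) (nat_lit 0) (cs (lf (nat_lit 1) (nat_lit 316)) (nd (nat_lit 363) (nat_lit 0) (cs (lf (nat_lit 41) (nat_lit 318)) (rf (nat_lit 16)))))) (nd (nat_lit 363) (nat_lit 0) (cs (lf (nat_lit 42) (nat_lit 318)) (rf (nat_lit 16)))))))))))))))))) (cs (rf (nat_lit 17)) (rf (nat_lit 18)))))) q43698 (by decide +kernel)
def q43854 : Q := Q.p (nat_lit 0x30000040000000000000003400000000000000000000000000000000000000000000000000000000000000) (nat_lit 0x7f0001fc000ff0001c8000fb8001ec0007b80018800000000000000000000000000000000000000000000000000000000000000) (nat_lit 13)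
theorem c43854 : QOK q43854 := cut [q31207, q43697, q13308, q31206, q43179, q43826, q42450, q43601, q43850] ⟨c31207, c43697, c13308, c31206, c43179, c43826, c42450, c43601, c43850, trivial⟩ (nd (nat_lit 342) (nat_lit 0) (cs (rf (nat_lit 0)) (cs (rf (nat_lit 1)) (nd (nat_lit 317) (nat_lit 0) (cs (rf (nat_lit 2)) (cs (rf (nat_lit 3)) (nd (nat_lit 320) (nat_lit 0) (cs (rf (nat_lit 4)) (cs (nd (nat_lit 339) (nat_lit 0) (cs (lf (nat_lit 17) (nat_lit 317)) (rf (nat_lit 5)))) (cs (nd (nat_lit 319) (nat_lit 0) (cs (rf (nat_lit 6)) (cs (rf (nat_lit 7)) (nd (nat_lit 321) (nat_lit 0) (cs (lf (nat_lit 6) (nat_lit 318)) (nd (nat_lit 299) (nat_lit 0) (cs (lf (nat_lit 17) (nat_lit 296)) (nd (nat_lit 255) (nat_lit 0) (cs (lf (nat_lit 37) (nat_lit 254)) (nd (nat_lit 364) (nat_lit 0) (cs (lf (nat_lit 30) (nat_lit 298)) (nd (nat_lit 275) (nat_lit 0) (cs (nd (nat_lit 251) (nat_lit 0) (cs (lf (nat_lit 5) (nat_lit 250)) (nd (nat_lit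 295) (nat_lit 0) (cs (lf (nat_lit 23) (nat_lit 294)) (lf (nat_lit 25) (nat_lit 251)))))) (lf (nat_lit 25) (nat_lit 275))))))))))))))) (nd (nat_lit 319) (nat_lit 0) (cs (nd (nat_lit 294) (nat_lit 0) (cs (lf (nat_lit 22) (nat_lit 294)) (nd (nat_lit 297) (nat_lit 0) (cs (lf (nat_lit 25) (nat_lit 253)) (nd (nat_lit 362) (nat_lit 0) (cs (lf (nat_lit 30) (nat_lit 296)) (nd (nat_lit 364) (nat_lit 0) (cs (lf (nat_lit 42) (nat_lit 297)) (nd (nat_lit 339) (nat_lit 0) (cs (lf (nat_lit 5) (nat_lit 339)) (nd (nat_lit 361) (nat_lit 0) (cs (lf (nat_lit 11) (nat_lit 338)) (nd (nat_lit 383) (nat_lit 0) (cs (lf (nat_lit 30) (nat_lit 317)) (nd (nat_lit 382) (nat_lit 0) (cs (lf (nat_lit 41) (nat_lit 316)) (lf (nat_lit 7) (nat_lit 360)))))))))))))))))) (cs (nd (nat_lit 294) (nat_lit 0) (cs (lf (nat_lit 22) (nat_lit 294)) (nd (nat_lit 298) (nat_lit 0) (cs (lf (nat_lit 17) (nat_lit 295)) (nd (nat_lit 363) (nat_lit 0) (cs (lf (nat_lit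 30) (nat_lit 297)) (lf (nat_lit 36) (nat_lit 275)))))))) (rf (nat_lit 8))))))))))))))) q43854 (by decide +kernel)
def q44115 : Q := Q.p (nat_lit 0x40000180000000003400000000000000000000000000000000000000000000000000000000000000) (nat_lit 0x500003500073e000e7c0073e0000b0001ae00001000000000000000000000000000000000000000000000000000) (nat_lit 10)
theorem c44115 : QOK q44115 := cut [q44060, q44066, q44068, q44074, q43961, q44042, q44058, q44101, q41973, q44105, q41974, q44107, q44108, q44111, q44114] ⟨c44060, c44066, c44068, c44074, c43961, c44042, c44058, c44101, c41973, c44105, c41974, c44107, c44108, c44111, c44114, trivial⟩ (nd (nat_lit 271) (nat_lit 0) (cs (nd (nat_lit 293) (nat_lit 0) (cs (nd (nat_lit 270) (nat_lit 0) (cs (rf (nat_lit 0)) (lf (nat_lit 20) (nat_lit 270)))) (cs (nd (nat_lit 315) (nat_lit 0) (cs (nd (nat_lit 316) (nat_lit 0) (cs (nd (nat_lit 294) (nat_lit 0) (cs (lf (nat_lit 6) (nat_lit 293))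 (nd (nat_lit 338) (nat_lit 0) (cs (lf (nat_lit 42) (nat_lit 271)) (lf (nat_lit 24) (nat_lit 249)))))) (cs (rf (nat_lit 1)) (nd (nat_lit 292) (nat_lit 0) (cs (lf (nat_lit 19) (nat_lit 292)) (nd (nat_lit 290) (nat_lit 0) (cs (lf (nat_lit 1) (nat_lit 290)) (nd (nat_lit 249) (nat_lit 0) (cs (lf (nat_lit 29) (nat_lit 249)) (nd (nat_lit 227) (nat_lit 0) (cs (lf (nat_lit 28) (nat_lit 227)) (rf (nat_lit 2))))))))))))) (cs (nd (nat_lit 316) (nat_lit 0) (cs (rf (nat_lit 1)) (cs (nd (nat_lit 249) (nat_lit 0) (cs (lf (nat_lit 29) (nat_lit 249)) (nd (nat_lit 314) (nat_lit 0) (cs (lf (nat_lit 41) (nat_lit 248)) (rf (nat_lit 3)))))) (nd (nat_lit 317) (nat_lit 0) (cs (lf (nat_lit 12) (nat_lit 292)) (lf (nat_lit 17) (nat_lit 293))))))) (cs (nd (nat_lit 294) (nat_lit 0) (cs (lf (nat_lit 11) (nat_lit 292)) (nd (nat_lit 317) (nat_lit 0) (cs (lf (nat_lit 0) (nat_lit 292)) (nd (nat_lit 316) (nat_lit 0) (cs (lf (nat_lit 6) (nat_lit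 293)) (nd (nat_lit 340) (nat_lit 0) (cs (lf (nat_lit 5) (nat_lit 315)) (nd (nat_lit 273) (nat_lit 0) (cs (lf (nat_lit 24) (nat_lit 251)) (lf (nat_lit 42) (nat_lit 273)))))))))))) (cs (nd (nat_lit 314) (nat_lit 0) (cs (nd (nat_lit 249) (nat_lit 0) (cs (lf (nat_lit 41) (nat_lit 248)) (rf (nat_lit 3)))) (lf (nat_lit 8) (nat_lit 292)))) (nd (nat_lit 294) (nat_lit 0) (cs (lf (nat_lit 11) (nat_lit 292)) (rf (nat_lit 4))))))))) (cs (nd (nat_lit 249) (nat_lit 0) (cs (nd (nat_lit 251) (nat_lit 0) (cs (lf (nat_lit 11) (nat_lit 248)) (nd (nat_lit 231) (nat_lit 0) (cs (lf (nat_lit 17) (nat_lit 228)) (nd (nat_lit 229) (nat_lit 0) (cs (lf (nat_lit 26) (nat_lit 229)) (rf (nat_lit 5)))))))) (cs (nd (nat_lit 251) (nat_lit 0) (cs (lf (nat_lit 11) (nat_lit 248)) (rf (nat_lit 6)))) (nd (nat_lit 315) (nat_lit 0) (cs (nd (nat_lit 314) (nat_lit 0) (cs (lf (nat_lit 41) (nat_lit 248)) (nd (nat_lit 316) (nat_lit 0) (cs (lf (nat_lit 29)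 (nat_lit 249)) (lf (nat_lit 15) (nat_lit 292)))))) (cs (nd (nat_lit 226) (nat_lit 0) (cs (lf (nat_lit 46) (nat_lit 226)) (nd (nat_lit 204) (nat_lit 0) (cs (nd (nat_lit 316) (nat_lit 0) (cs (lf (nat_lit 29) (nat_lit 249)) (rf (nat_lit 1)))) (lf (nat_lit 45) (nat_lit 204)))))) (rf (nat_lit 7)))))))) (cs (nd (nat_lit 294) (nat_lit 0) (cs (lf (nat_lit 23) (nat_lit 270)) (rf (nat_lit 8)))) (rf (nat_lit 9))))))) (cs (nd (nat_lit 294) (nat_lit 0) (cs (rf (nat_lit 10)) (cs (rf (nat_lit 11)) (nd (nat_lit 297) (nat_lit 0) (cs (lf (nat_lit 22) (nat_lit 271)) (rf (nat_lit 12))))))) (cs (nd (nat_lit 272) (nat_lit 0) (cs (lf (nat_lit 8) (nat_lit 249)) (nd (nat_lit 294) (nat_lit 0) (cs (lf (nat_lit 18) (nat_lit 271)) (rf (nat_lit 13)))))) (rf (nat_lit 14)))))) q44115 (by decide +kernel)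
def q44143 : Q := Q.p (nat_lit 0x40000180000000003400000000000000000000000000000000000000000000000000000000000000) (nat_lit 0x3e0000f80007e0003b70002780003f0000a0001a800000000000000000000000000000000000000000000000000000000) (nat_lit 13)
theorem c44143 : QOK q44143 := cut [q43969, q44117, q44058, q43931, q44125, q14187, q43930, q44133, q44141] ⟨c43969, c44117, c44058, c43931, c44125, c14187, c43930, c44133, c44141, trivial⟩ (nd (nat_lit 294) (nat_lit 0) (cs (rf (nat_lit 0)) (cs (rf (nat_lit 1)) (cs (nd (nat_lit 251) (nat_lit 0) (cs (rf (nat_lit 2)) (cs (nd (nat_lit 272) (nat_lit 0) (cs (lf (nat_lit 11) (nat_lit 249)) (nd (nat_lit 316) (nat_lit 0) (cs (lf (nat_lit 35) (nat_lit 228)) (nd (nat_lit 227) (nat_lit 0) (cs (lf (nat_lit 46) (nat_lit 227)) (nd (nat_lit 231) (nat_lit 0) (cs (lf (nat_lit 17) (nat_lit 228)) (nd (nat_lit 339) (nat_lit 0) (cs (lf (nat_lit 28) (nat_lit 250)) (nd (nat_lit 338) (nat_lit 0) (cs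 (lf (nat_lit 29) (nat_lit 272)) (nd (nat_lit 337) (nat_lit 0) (cs (lf (nat_lit 41) (nat_lit 271)) (rf (nat_lit 3)))))))))))))))) (cs (rf (nat_lit 4)) (nd (nat_lit 272) (nat_lit 0) (cs (lf (nat_lit 11) (nat_lit 249)) (nd (nat_lit 317) (nat_lit 0) (cs (rf (nat_lit 5)) (cs (nd (nat_lit 319) (nat_lit 0) (cs (rf (nat_lit 6)) (rf (nat_lit 7)))) (nd (nat_lit 273) (nat_lit 0) (cs (lf (nat_lit 29) (nat_lit 251)) (lf (nat_lit 42) (nat_lit 250))))))))))))) (nd (nat_lit 293) (nat_lit 0) (cs (lf (nat_lit 5) (nat_lit 293)) (rf (nat_lit 8)))))))) q44143 (by decide +kernel)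
def q44242 : Q := Q.p (nat_lit 0x40000180000000000400000000000000000000000000000000000000000000000000000000000000) (nat_lit 0x240000900006e000fbe001e700073e0000200000800000000000000000000000000000000000000000000000000000000) (nat_lit 12)
theorem c44242 : QOK q44242 := cut [q43916, q43919, q43927, q44108, q44212, q28147, q44230, q41985, q23449, q18235] ⟨c43916, c43919, c43927, c44108, c44212, c28147, c44230, c41985, c23449, c18235, trivial⟩ (nd (nat_lit 294) (nat_lit 0) (cs (rf (nat_lit 0)) (cs (rf (nat_lit 1)) (cs (rf (nat_lit 2)) (cs (nd (nat_lit 297) (nat_lit 0) (cs (rf (nat_lit 3)) (cs (nd (nat_lit 272) (nat_lit 0) (cs (lf (nat_lit 23) (nat_lit 271)) (nd (nat_lit 315) (nat_lit 0) (cs (lf (nat_lit 10) (nat_lit 293)) (nd (nat_lit 319) (nat_lit 0) (cs (lf (nat_lit 5) (nat_lit 294)) (rf (nat_lit 4)))))))) (cs (nd (nat_lit 316) (nat_lit 0) (cs (lf (nat_lit 11) (nat_lit 293)) (nd (nat_lit 272) (nat_lit 0) (cs (lf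 (nat_lit 23) (nat_lit 271)) (nd (nat_lit 319) (nat_lit 0) (cs (lf (nat_lit 5) (nat_lit 294)) (nd (nat_lit 227) (nat_lit 0) (cs (lf (nat_lit 46) (nat_lit 227)) (nd (nat_lit 317) (nat_lit 0) (cs (lf (nat_lit 29) (nat_lit 250)) (nd (nat_lit 341) (nat_lit 0) (cs (lf (nat_lit 5) (nat_lit 316)) (nd (nat_lit 363) (nat_lit 0) (cs (lf (nat_lit 42) (nat_lit 296)) (nd (nat_lit 338) (nat_lit 0) (cs (lf (nat_lit 11) (nat_lit 315)) (nd (nat_lit 360) (nat_lit 0) (cs (lf (nat_lit 30) (nat_lit 294)) (lf (nat_lit 35) (nat_lit 272)))))))))))))))))))) (cs (nd (nat_lit 271) (nat_lit 0) (cs (lf (nat_lit 22) (nat_lit 271)) (nd (nat_lit 320) (nat_lit 0) (cs (lf (nat_lit 4) (nat_lit 294)) (nd (nat_lit 298) (nat_lit 0) (cs (lf (nat_lit 5) (nat_lit 295)) (nd (nat_lit 299) (nat_lit 0) (cs (lf (nat_lit 11) (nat_lit 295)) (rf (nat_lit 5)))))))))) (nd (nat_lit 271) (nat_lit 0) (cs (lf (nat_lit 22) (nat_lit 271)) (nd (nat_lit 316) (nat_lit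 0) (cs (lf (nat_lit 11) (nat_lit 293)) (nd (nat_lit 298) (nat_lit 0) (cs (lf (nat_lit 10) (nat_lit 294)) (rf (nat_lit 6))))))))))))) (nd (nat_lit 315) (nat_lit 0) (cs (rf (nat_lit 7)) (cs (nd (nat_lit 297) (nat_lit 0) (cs (lf (nat_lit 10) (nat_lit 293)) (nd (nat_lit 272) (nat_lit 0) (cs (lf (nat_lit 23) (nat_lit 271)) (nd (nat_lit 298) (nat_lit 0) (cs (lf (nat_lit 22) (nat_lit 272)) (nd (nat_lit 276) (nat_lit 0) (cs (lf (nat_lit 17) (nat_lit 273)) (nd (nat_lit 299) (nat_lit 0) (cs (lf (nat_lit 11) (nat_lit 295)) (rf (nat_lit 8)))))))))))) (nd (nat_lit 316) (nat_lit 0) (cs (lf (nat_lit 6) (nat_lit 293)) (rf (nat_lit 9)))))))))))) q44242 (by decide +kernel)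
def q44389 : Q := Q.p (nat_lit 0x40000000000000003400000000000000000000000000000000000000000000000000000000000000) (nat_lit 0x20000f80007e0001fe001fb8007fe001ff0001880007a000180000000000000000000000000000000000000000000000000000) (nat_lit 14)
theorem c44389 : QOK q44389 := cut [q42099, q42160, q41951, q42024, q42029, q42038, q42082, q42088, q42008, q42049, q44360, q44364, q44386] ⟨c42099, c42160, c41951, c42024, c42029, c42038, c42082, c42088, c42008, c42049, c44360, c44364, c44386, trivial⟩ (nd (nat_lit 296) (nat_lit 0) (cs (rf (nat_lit 0)) (cs (rf (nat_lit 1)) (cs (nd (nat_lit 297) (nat_lit 0) (cs (rf (nat_lit 2)) (cs (nd (nat_lit 298) (nat_lit 0) (cs (rf (nat_lit 3)) (cs (rf (nat_lit 4)) (cs (rf (nat_lit 5)) (cs (rf (nat_lit 6)) (cs (rf (nat_lit 7)) (nd (nat_lit 295) (nat_lit 0) (cs (rf (nat_lit 8)) (cs (nd (nat_lit 340) (nat_lit 0) (cs (nd (nat_lit 273) (nat_lit 0) (cs (lf (nat_lit 23) (nat_lit 272)) (lf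 (nat_lit 42) (nat_lit 273)))) (cs (nd (nat_lit 320) (nat_lit 0) (cs (lf (nat_lit 5) (nat_lit 295)) (nd (nat_lit 342) (nat_lit 0) (cs (rf (nat_lit 9)) (cs (nd (nat_lit 272) (nat_lit 0) (cs (lf (nat_lit 22) (nat_lit 272)) (nd (nat_lit 276) (nat_lit 0) (cs (lf (nat_lit 17) (nat_lit 273)) (nd (nat_lit 343) (nat_lit 0) (cs (lf (nat_lit 29) (nat_lit 276)) (nd (nat_lit 319) (nat_lit 0) (cs (lf (nat_lit 0) (nat_lit 294)) (nd (nat_lit 341) (nat_lit 0) (cs (lf (nat_lit 18) (nat_lit 318)) (lf (nat_lit 41) (nat_lit 275)))))))))))) (cs (nd (nat_lit 319) (nat_lit 0) (cs (lf (nat_lit 0) (nat_lit 294)) (nd (nat_lit 276) (nat_lit 0) (cs (lf (nat_lit 17) (nat_lit 273)) (nd (nat_lit 365) (nat_lit 0) (cs (lf (nat_lit 28) (nat_lit 276)) (nd (nat_lit 364) (nat_lit 0) (cs (lf (nat_lit 29) (nat_lit 298)) (lf (nat_lit 42) (nat_lit 297)))))))))) (cs (nd (nat_lit 272) (nat_lit 0) (cs (lf (nat_lit 22) (nat_lit 272)) (nd (nat_lit 319) (nat_lit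 0) (cs (lf (nat_lit 0) (nat_lit 294)) (nd (nat_lit 364) (nat_lit 0) (cs (lf (nat_lit 42) (nat_lit 297)) (rf (nat_lit 10)))))))) (nd (nat_lit 319) (nat_lit 0) (cs (lf (nat_lit 0) (nat_lit 294)) (nd (nat_lit 364) (nat_lit 0) (cs (lf (nat_lit 42) (nat_lit 297)) (nd (nat_lit 276) (nat_lit 0) (cs (lf (nat_lit 17) (nat_lit 273)) (rf (nat_lit 11))))))))))))))) (nd (nat_lit 276) (nat_lit 0) (cs (lf (nat_lit 17) (nat_lit 273)) (nd (nat_lit 320) (nat_lit 0) (cs (lf (nat_lit 5) (nat_lit 295)) (nd (nat_lit 319) (nat_lit 0) (cs (lf (nat_lit 0) (nat_lit 294)) (nd (nat_lit 362) (nat_lit 0) (cs (lf (nat_lit 30) (nat_lit 296)) (nd (nat_lit 363) (nat_lit 0) (cs (lf (nat_lit 29) (nat_lit 296)) (lf (nat_lit 31) (nat_lit 275))))))))))))))) (nd (nat_lit 317) (nat_lit 0) (cs (lf (nat_lit 11) (nat_lit 294)) (nd (nat_lit 273) (nat_lit 0) (cs (lf (nat_lit 23) (nat_lit 272)) (nd (nat_lit 251) (nat_lit 0) (cs (lf (nat_lit 29) (nat_lit 251))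 (lf (nat_lit 24) (nat_lit 229))))))))))))))))) (nd (nat_lit 275) (nat_lit 0) (cs (lf (nat_lit 36) (nat_lit 230)) (nd (nat_lit 276) (nat_lit 0) (cs (lf (nat_lit 1) (nat_lit 250)) (nd (nat_lit 295) (nat_lit 0) (cs (lf (nat_lit 12) (nat_lit 272)) (nd (nat_lit 277) (nat_lit 0) (cs (lf (nat_lit 18) (nat_lit 252)) (lf (nat_lit 15) (nat_lit 273))))))))))))) (nd (nat_lit 231) (nat_lit 0) (cs (lf (nat_lit 32) (nat_lit 230)) (nd (nat_lit 275) (nat_lit 0) (cs (lf (nat_lit 39) (nat_lit 230)) (rf (nat_lit 12)))))))))) q44389 (by decide +kernel)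
def q44422 : Q := Q.p (nat_lit 0x40000000000000003400000000010000040000000000000000000000000000000000000000000000) (nat_lit 0x100000700001b20003c8001ff0000b8001ae00008000020000000000000000000000000000000000000000000000) (nat_lit 15)
theorem c44422 : QOK q44422 := cut [q40546, q40593, q3762, q11143, q42383, q41745, q41392] ⟨c40546, c40593, c3762, c11143, c42383, c41745, c41392, trivial⟩ (nd (nat_lit 251) (nat_lit 0) (cs (rf (nat_lit 0)) (cs (rf (nat_lit 1)) (cs (nd (nat_lit 249) (nat_lit 0) (cs (rf (nat_lit 2)) (cs (rf (nat_lit 3)) (cs (rf (nat_lit 4)) (nd (nat_lit 272) (nat_lit 0) (cs (lf (nat_lit 11) (nat_lit 249)) (nd (nat_lit 231) (nat_lit 0) (cs (lf (nat_lit 17) (nat_lit 228)) (nd (nat_lit 226) (nat_lit 0) (cs (lf (nat_lit 22) (nat_lit 226)) (nd (nat_lit 275) (nat_lit 0) (cs (lf (nat_lit 5) (nat_lit 250)) (nd (nat_lit 225) (nat_lit 0) (cs (lf (nat_lit 21) (nat_lit 225)) (nd (nat_lit 297) (nat_lit 0) (cs (lf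 (nat_lit 40) (nat_lit 230)) (nd (nat_lit 319) (nat_lit 0) (cs (lf (nat_lit 41) (nat_lit 252)) (nd (nat_lit 342) (nat_lit 0) (cs (lf (nat_lit 28) (nat_lit 253)) (nd (nat_lit 341) (nat_lit 0) (cs (lf (nat_lit 29) (nat_lit 275)) (nd (nat_lit 316) (nat_lit 0) (cs (lf (nat_lit 1) (nat_lit 316)) (rf (nat_lit 5)))))))))))))))))))))))))) (cs (nd (nat_lit 275) (nat_lit 0) (cs (lf (nat_lit 5) (nat_lit 250)) (nd (nat_lit 271) (nat_lit 0) (cs (lf (nat_lit 10) (nat_lit 249)) (nd (nat_lit 231) (nat_lit 0) (cs (lf (nat_lit 17) (nat_lit 228)) (rf (nat_lit 6)))))))) (nd (nat_lit 231) (nat_lit 0) (cs (lf (nat_lit 17) (nat_lit 228)) (nd (nat_lit 275) (nat_lit 0) (cs (lf (nat_lit 5) (nat_lit 250)) (nd (nat_lit 274) (nat_lit 0) (cs (lf (nat_lit 0) (nat_lit 249)) (lf (nat_lit 31) (nat_lit 230))))))))))))) q44422 (by decide +kernel)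
def q44487 : Q := Q.p (nat_lit 0x40000000000000003400000000010000040000000000000000000000000000000000000000000000) (nat_lit 0x400003c0000b20007e8001ff0000b80002e00009000004000000000000000000000000000000000000000000000) (nat_lit 15)
theorem c44487 : QOK q44487 := cut [q41784, q3762, q11143, q44442, q44449, q44435, q44464, q44471] ⟨c41784, c3762, c11143, c44442, c44449, c44435, c44464, c44471, trivial⟩ (nd (nat_lit 251) (nat_lit 0) (cs (rf (nat_lit 0)) (cs (nd (nat_lit 249) (nat_lit 0) (cs (rf (nat_lit 1)) (cs (rf (nat_lit 2)) (cs (rf (nat_lit 3)) (nd (nat_lit 272) (nat_lit 0) (cs (lf (nat_lit 11) (nat_lit 249)) (rf (nat_lit 4)))))))) (cs (nd (nat_lit 275) (nat_lit 0) (cs (lf (nat_lit 5) (nat_lit 250)) (nd (nat_lit 249) (nat_lit 0) (cs (lf (nat_lit 4) (nat_lit 249)) (rf (nat_lit 3)))))) (nd (nat_lit 275) (nat_lit 0) (cs (lf (nat_lit 5) (nat_lit 250)) (nd (nat_lit 272) (nat_lit 0) (cs (lf (nat_lit 11) (nat_lit 249))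 (nd (nat_lit 273) (nat_lit 0) (cs (rf (nat_lit 5)) (cs (nd (nat_lit 229) (nat_lit 0) (cs (lf (nat_lit 33) (nat_lit 185)) (nd (nat_lit 294) (nat_lit 0) (cs (lf (nat_lit 30) (nat_lit 228)) (nd (nat_lit 274) (nat_lit 0) (cs (lf (nat_lit 11) (nat_lit 271)) (rf (nat_lit 6)))))))) (cs (nd (nat_lit 340) (nat_lit 0) (cs (nd (nat_lit 297) (nat_lit 0) (cs (lf (nat_lit 39) (nat_lit 252)) (nd (nat_lit 274) (nat_lit 0) (cs (lf (nat_lit 5) (nat_lit 272)) (lf (nat_lit 44) (nat_lit 251)))))) (cs (nd (nat_lit 317) (nat_lit 0) (cs (lf (nat_lit 26) (nat_lit 251)) (nd (nat_lit 297) (nat_lit 0) (cs (lf (nat_lit 39) (nat_lit 252)) (nd (nat_lit 274) (nat_lit 0) (cs (lf (nat_lit 5) (nat_lit 272)) (nd (nat_lit 294) (nat_lit 0) (cs (lf (nat_lit 11) (nat_lit 271)) (rf (nat_lit 7)))))))))) (cs (nd (nat_lit 295) (nat_lit 0) (cs (lf (nat_lit 27) (nat_lit 251)) (nd (nat_lit 296) (nat_lit 0) (cs (lf (nat_lit 42) (nat_lit 273)) (nd (nat_lit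 297) (nat_lit 0) (cs (lf (nat_lit 18) (nat_lit 272)) (lf (nat_lit 39) (nat_lit 252)))))))) (nd (nat_lit 295) (nat_lit 0) (cs (lf (nat_lit 27) (nat_lit 251)) (nd (nat_lit 296) (nat_lit 0) (cs (lf (nat_lit 33) (nat_lit 252)) (lf (nat_lit 42) (nat_lit 273)))))))))) (nd (nat_lit 229) (nat_lit 0) (cs (lf (nat_lit 33) (nat_lit 185)) (nd (nat_lit 296) (nat_lit 0) (cs (lf (nat_lit 27) (nat_lit 229)) (lf (nat_lit 44) (nat_lit 229)))))))))))))))))) q44487 (by decide +kernel)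
def q44537 : Q := Q.p (nat_lit 0x100003400000000010000040000000000000000000000000000000000000000000000) (nat_lit 0xa0000f80003e0000ec000020000b80000e0000b80000a0000000000000000000000000000000000000000) (nat_lit 10)
theorem c44537 : QOK q44537 := cut [q44492, q44501, q44504, q44508, q44515, q44517, q44490, q44523, q2085, q17126, q17152, q44534, q44494, q44536] ⟨c44492, c44501, c44504, c44508, c44515, c44517, c44490, c44523, c2085, c17126, c17152, c44534, c44494, c44536, trivial⟩ (nd (nat_lit 228) (nat_lit 0) (cs (nd (nat_lit 294) (nat_lit 0) (cs (rf (nat_lit 0)) (cs (nd (nat_lit 295) (nat_lit 0) (cs (lf (nat_lit 29) (nat_lit 228)) (nd (nat_lit 296) (nat_lit 0) (cs (rf (nat_lit 1)) (cs (nd (nat_lit 205) (nat_lit 0) (cs (lf (nat_lit 46) (nat_lit 205)) (rf (nat_lit 2)))) (nd (nat_lit 205) (nat_lit 0) (cs (lf (nat_lit 46) (nat_lit 205)) (nd (nat_lit 207) (nat_lit 0) (cs (lf (nat_lit 34) (nat_lit 206)) (rf (nat_lit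 3))))))))))) (cs (rf (nat_lit 4)) (rf (nat_lit 5)))))) (cs (nd (nat_lit 294) (nat_lit 0) (cs (rf (nat_lit 6)) (cs (rf (nat_lit 0)) (rf (nat_lit 5))))) (cs (rf (nat_lit 7)) (cs (nd (nat_lit 206) (nat_lit 0) (cs (rf (nat_lit 8)) (cs (nd (nat_lit 273) (nat_lit 0) (cs (lf (nat_lit 29) (nat_lit 206)) (nd (nat_lit 185) (nat_lit 0) (cs (lf (nat_lit 34) (nat_lit 184)) (nd (nat_lit 184) (nat_lit 0) (cs (lf (nat_lit 35) (nat_lit 162)) (nd (nat_lit 271) (nat_lit 0) (cs (lf (nat_lit 40) (nat_lit 183)) (lf (nat_lit 15) (nat_lit 249)))))))))) (cs (nd (nat_lit 273) (nat_lit 0) (cs (lf (nat_lit 29) (nat_lit 206)) (nd (nat_lit 271) (nat_lit 0) (cs (lf (nat_lit 15) (nat_lit 249)) (rf (nat_lit 9)))))) (nd (nat_lit 185) (nat_lit 0) (cs (lf (nat_lit 34) (nat_lit 184)) (rf (nat_lit 10)))))))) (cs (rf (nat_lit 11)) (cs (nd (nat_lit 294) (nat_lit 0) (cs (rf (nat_lit 12)) (cs (rf (nat_lit 4)) (rf (nat_lit 5))))) (rf (nat_lit 13)))))))))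 q44537 (by decide +kernel)
def q44573 : Q := Q.p (nat_lit 0x100000600000000003000000000000000000000000000000000000000000000000000) (nat_lit 0x2780001c0000f8000000000c000020000080000000000000000000000000000000000) (nat_lit 6)
theorem c44573 : QOK q44573 := cut [q44567, q44572] ⟨c44567, c44572, trivial⟩ (nd (nat_lit 248) (nat_lit 0) (cs (nd (nat_lit 183) (nat_lit 0) (cs (lf (nat_lit 26) (nat_lit 183)) (rf (nat_lit 0)))) (rf (nat_lit 1)))) q44573 (by decide +kernel)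
def q44711 : Q := Q.p (nat_lit 0x100003400000000007000000000000000000000000000000000000000000000000000) (nat_lit 0x400003c0006f00003c0000fe0000f00037e0001c0003f00003c0000500000000000000000000000) (nat_lit 12)
theorem c44711 : QOK q44711 := cut [q44554, q44647, q44672, q24432, q44646, q44678, q26739, q44651, q44691, q44701, q44702, q44707] ⟨c44554, c44647, c44672, c24432, c44646, c44678, c26739, c44651, c44691, c44701, c44702, c44707, trivial⟩ (nd (nat_lit 203) (nat_lit 0) (cs (rf (nat_lit 0)) (cs (rf (nat_lit 1)) (cs (rf (nat_lit 2)) (cs (nd (nat_lit 202) (nat_lit 0) (cs (rf (nat_lit 3)) (cs (rf (nat_lit 4)) (cs (nd (nat_lit 184) (nat_lit 0) (cs (lf (nat_lit 17) (nat_lit 181)) (rf (nat_lit 5)))) (nd (nat_lit 225) (nat_lit 0) (cs (lf (nat_lit 11) (nat_lit 202)) (nd (nat_lit 184) (nat_lit 0) (cs (lf (nat_lit 17) (nat_lit 181)) (nd (nat_lit 179) (nat_lit 0) (cs (lf (nat_lit 22) (nat_lit 179)) (nd (nat_lit 201) (nat_lit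 0) (cs (lf (nat_lit 23) (nat_lit 178)) (nd (nat_lit 226) (nat_lit 0) (cs (lf (nat_lit 5) (nat_lit 201)) (lf (nat_lit 0) (nat_lit 200)))))))))))))))) (nd (nat_lit 225) (nat_lit 0) (cs (lf (nat_lit 11) (nat_lit 202)) (nd (nat_lit 247) (nat_lit 0) (cs (rf (nat_lit 6)) (cs (nd (nat_lit 248) (nat_lit 0) (cs (rf (nat_lit 7)) (rf (nat_lit 8)))) (cs (nd (nat_lit 269) (nat_lit 0) (cs (nd (nat_lit 184) (nat_lit 0) (cs (lf (nat_lit 17) (nat_lit 181)) (nd (nat_lit 268) (nat_lit 0) (cs (lf (nat_lit 41) (nat_lit 202)) (nd (nat_lit 181) (nat_lit 0) (cs (lf (nat_lit 40) (nat_lit 180)) (nd (nat_lit 226) (nat_lit 0) (cs (lf (nat_lit 30) (nat_lit 203)) (nd (nat_lit 248) (nat_lit 0) (cs (lf (nat_lit 24) (nat_lit 159)) (lf (nat_lit 7) (nat_lit 246)))))))))))) (cs (rf (nat_lit 9)) (nd (nat_lit 291) (nat_lit 0) (cs (lf (nat_lit 34) (nat_lit 203)) (rf (nat_lit 10))))))) (nd (nat_lit 184) (nat_lit 0) (cs (lf (nat_lit 17) (nat_lit 181))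 (rf (nat_lit 11))))))))))))))) q44711 (by decide +kernel)
def q44787 : Q := Q.p (nat_lit 0x100003400000000007000000000000000000000000000000000000000000000000000) (nat_lit 0x80000380006f80003c0000fe0000f0000fe0003a0000e8000000000000000000000000000000000) (nat_lit 10)
theorem c44787 : QOK q44787 := cut [q44554, q44738, q44752, q44748, q27084, q44761, q44582, q44741, q44764, q26988, q44786] ⟨c44554, c44738, c44752, c44748, c27084, c44761, c44582, c44741, c44764, c26988, c44786, trivial⟩ (nd (nat_lit 203) (nat_lit 0) (cs (rf (nat_lit 0)) (cs (rf (nat_lit 1)) (cs (rf (nat_lit 2)) (cs (nd (nat_lit 224) (nat_lit 0) (cs (lf (nat_lit 10) (nat_lit 202)) (nd (nat_lit 202) (nat_lit 0) (cs (lf (nat_lit 11) (nat_lit 201)) (nd (nat_lit 179) (nat_lit 0) (cs (lf (nat_lit 22) (nat_lit 179)) (nd (nat_lit 201) (nat_lit 0) (cs (lf (nat_lit 23) (nat_lit 178)) (nd (nat_lit 135) (nat_lit 0) (cs (rf (nat_lit 3)) (lf (nat_lit 25) (nat_lit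 135)))))))))))) (cs (nd (nat_lit 182) (nat_lit 0) (cs (rf (nat_lit 4)) (cs (nd (nat_lit 249) (nat_lit 0) (cs (nd (nat_lit 227) (nat_lit 0) (cs (lf (nat_lit 24) (nat_lit 183)) (lf (nat_lit 42) (nat_lit 182)))) (cs (nd (nat_lit 227) (nat_lit 0) (cs (lf (nat_lit 24) (nat_lit 183)) (rf (nat_lit 5)))) (cs (nd (nat_lit 248) (nat_lit 0) (cs (rf (nat_lit 6)) (cs (rf (nat_lit 7)) (cs (nd (nat_lit 247) (nat_lit 0) (cs (lf (nat_lit 5) (nat_lit 247)) (rf (nat_lit 8)))) (nd (nat_lit 247) (nat_lit 0) (cs (lf (nat_lit 5) (nat_lit 247)) (nd (nat_lit 271) (nat_lit 0) (cs (lf (nat_lit 0) (nat_lit 246)) (lf (nat_lit 26) (nat_lit 182)))))))))) (nd (nat_lit 227) (nat_lit 0) (cs (lf (nat_lit 42) (nat_lit 182)) (rf (nat_lit 5)))))))) (nd (nat_lit 224) (nat_lit 0) (cs (lf (nat_lit 10) (nat_lit 202)) (nd (nat_lit 202) (nat_lit 0) (cs (lf (nat_lit 11) (nat_lit 201)) (nd (nat_lit 201) (nat_lit 0) (cs (rf (nat_lit 9)) (lf (nat_lit 17) (nat_lit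 179))))))))))) (rf (nat_lit 10)))))))) q44787 (by decide +kernel)
def q44897 : Q := Q.p (nat_lit 0x100000400001000004000000000000000000000000000000000000000000000000000) (nat_lit 0x800002000002000008000020000380000e0000380000200000000000000000000000000000) (nat_lit 8)
theorem c44897 : QOK q44897 := cut [q2082, q3767, q17316, q26780] ⟨c2082, c3767, c17316, c26780, trivial⟩ (nd (nat_lit 184) (nat_lit 0) (cs (rf (nat_lit 0)) (cs (rf (nat_lit 1)) (cs (nd (nat_lit 273) (nat_lit 0) (cs (lf (nat_lit 29) (nat_lit 206)) (rf (nat_lit 2)))) (nd (nat_lit 163) (nat_lit 0) (cs (lf (nat_lit 34) (nat_lit 162)) (nd (nat_lit 205) (nat_lit 0) (cs (lf (nat_lit 47) (nat_lit 183)) (nd (nat_lit 273) (nat_lit 0) (cs (lf (nat_lit 29) (nat_lit 206)) (nd (nat_lit 162) (nat_lit 0) (cs (lf (nat_lit 35) (nat_lit 140)) (rf (nat_lit 3)))))))))))))) q44897 (by decide +kernel)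
def q45084 : Q := Q.p (nat_lit 0x100003400001000000000040000000000000000000000000000000000000000000000) (nat_lit 0x2d0001fc0007f8000ff000ffc001fe0007e0000000000a00000c0000b80000e0000080000000000000000000000000000000000) (nat_lit 14)
theorem c45084 : QOK q45084 := cut [q44946, q44948, q45007, q42163, q15974, q45010, q45013, q45017, q41951, q45024, q45025, q45015, q45028, q45042, q42166, q45082] ⟨c44946, c44948, c45007, c42163, c15974, c45010, c45013, c45017, c41951, c45024, c45025, c45015, c45028, c45042, c42166, c45082, trivial⟩ (nd (nat_lit 295) (nat_lit 0) (cs (rf (nat_lit 0)) (cs (nd (nat_lit 296) (nat_lit 0) (cs (nd (nat_lit 294) (nat_lit 0) (cs (lf (nat_lit 29) (nat_lit 228)) (nd (nat_lit 207) (nat_lit 0) (cs (lf (nat_lit 34) (nat_lit 206)) (nd (nat_lit 185) (nat_lit 0) (cs (lf (nat_lit 33) (nat_lit 184)) (nd (nat_lit 293) (nat_lit 0) (cs (lf (nat_lit 41) (nat_lit 227)) (rf (nat_lit 1)))))))))) (cs (rf (nat_lit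 2)) (cs (nd (nat_lit 318) (nat_lit 0) (cs (rf (nat_lit 3)) (cs (nd (nat_lit 274) (nat_lit 0) (cs (lf (nat_lit 35) (nat_lit 230)) (nd (nat_lit 275) (nat_lit 0) (cs (lf (nat_lit 30) (nat_lit 252)) (rf (nat_lit 4)))))) (cs (nd (nat_lit 294) (nat_lit 0) (cs (rf (nat_lit 5)) (cs (rf (nat_lit 6)) (cs (rf (nat_lit 7)) (nd (nat_lit 297) (nat_lit 0) (cs (rf (nat_lit 8)) (cs (rf (nat_lit 9)) (rf (nat_lit 10))))))))) (cs (nd (nat_lit 294) (nat_lit 0) (cs (rf (nat_lit 5)) (cs (rf (nat_lit 6)) (cs (rf (nat_lit 11)) (nd (nat_lit 297) (nat_lit 0) (cs (rf (nat_lit 9)) (cs (nd (nat_lit 275) (nat_lit 0) (cs (lf (nat_lit 17) (nat_lit 272)) (rf (nat_lit 12)))) (nd (nat_lit 319) (nat_lit 0) (cs (lf (nat_lit 5) (nat_lit 294)) (nd (nat_lit 274) (nat_lit 0) (cs (lf (nat_lit 29) (nat_lit 252)) (nd (nat_lit 207) (nat_lit 0) (cs (lf (nat_lit 34) (nat_lit 206)) (nd (nat_lit 185) (nat_lit 0) (cs (lf (nat_lit 33) (nat_lit 184)) (nd (nat_lit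 315) (nat_lit 0) (cs (lf (nat_lit 10) (nat_lit 293)) (nd (nat_lit 340) (nat_lit 0) (cs (lf (nat_lit 37) (nat_lit 252)) (nd (nat_lit 361) (nat_lit 0) (cs (lf (nat_lit 40) (nat_lit 273)) (nd (nat_lit 362) (nat_lit 0) (cs (lf (nat_lit 30) (nat_lit 296)) (lf (nat_lit 41) (nat_lit 295))))))))))))))))))))))))) (rf (nat_lit 13))))))) (cs (nd (nat_lit 318) (nat_lit 0) (cs (rf (nat_lit 14)) (cs (rf (nat_lit 13)) (nd (nat_lit 294) (nat_lit 0) (cs (lf (nat_lit 29) (nat_lit 228)) (rf (nat_lit 6))))))) (nd (nat_lit 294) (nat_lit 0) (cs (lf (nat_lit 29) (nat_lit 228)) (rf (nat_lit 7))))))))) (nd (nat_lit 317) (nat_lit 0) (cs (lf (nat_lit 27) (nat_lit 228)) (rf (nat_lit 15))))))) q45084 (by decide +kernel)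
def q45139 : Q := Q.p (nat_lit 0x40000100003400000000000000000000000000000000000000000000000000000000000000) (nat_lit 0x300000c0000380003ee0007b8001ee000000000b00000c000020000000000000000000000000000000000000000000000) (nat_lit 14)
theorem c45139 : QOK q45139 := cut [q45113, q4155, q45123, q44498, q45025] ⟨c45113, c4155, c45123, c44498, c45025, trivial⟩ (nd (nat_lit 295) (nat_lit 0) (cs (rf (nat_lit 0)) (cs (nd (nat_lit 228) (nat_lit 0) (cs (lf (nat_lit 29) (nat_lit 228)) (nd (nat_lit 207) (nat_lit 0) (cs (lf (nat_lit 34) (nat_lit 206)) (nd (nat_lit 206) (nat_lit 0) (cs (lf (nat_lit 35) (nat_lit 184)) (rf (nat_lit 1)))))))) (cs (rf (nat_lit 2)) (nd (nat_lit 273) (nat_lit 0) (cs (nd (nat_lit 271) (nat_lit 0) (cs (lf (nat_lit 15) (nat_lit 249)) (rf (nat_lit 3)))) (cs (nd (nat_lit 228) (nat_lit 0) (cs (lf (nat_lit 24) (nat_lit 206)) (nd (nat_lit 207) (nat_lit 0) (cs (lf (nat_lit 34) (nat_lit 206)) (nd (nat_lit 293)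 (nat_lit 0) (cs (lf (nat_lit 41) (nat_lit 227)) (nd (nat_lit 274) (nat_lit 0) (cs (lf (nat_lit 12) (nat_lit 270)) (lf (nat_lit 6) (nat_lit 271)))))))))) (nd (nat_lit 228) (nat_lit 0) (cs (lf (nat_lit 24) (nat_lit 206)) (nd (nat_lit 207) (nat_lit 0) (cs (lf (nat_lit 34) (nat_lit 206)) (nd (nat_lit 293) (nat_lit 0) (cs (lf (nat_lit 41) (nat_lit 227)) (nd (nat_lit 292) (nat_lit 0) (cs (lf (nat_lit 12) (nat_lit 269)) (nd (nat_lit 313) (nat_lit 0) (cs (lf (nat_lit 10) (nat_lit 291)) (nd (nat_lit 270) (nat_lit 0) (cs (lf (nat_lit 23) (nat_lit 269)) (nd (nat_lit 296) (nat_lit 0) (cs (lf (nat_lit 22) (nat_lit 270)) (nd (nat_lit 318) (nat_lit 0) (cs (lf (nat_lit 5) (nat_lit 293)) (nd (nat_lit 340) (nat_lit 0) (cs (lf (nat_lit 42) (nat_lit 273)) (nd (nat_lit 297) (nat_lit 0) (cs (lf (nat_lit 18) (nat_lit 272)) (rf (nat_lit 4))))))))))))))))))))))))))))) q45139 (by decide +kernel)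
def q45297 : Q := Q.p (nat_lit 0x10000040000100003400000000000000000000000000000000000000000000000000000000000000) (nat_lit 0x3bc000ee0003bc000c00000200008800000000000000000000000000000000000000000000000000000000) (nat_lit 11)
theorem c45297 : QOK q45297 := cut [q45163] ⟨c45163, trivial⟩ (nd (nat_lit 315) (nat_lit 0) (cs (lf (nat_lit 41) (nat_lit 249)) (rf (nat_lit 0)))) q45297 (by decide +kernel)
def q45353 : Q := Q.p (nat_lit 0x100000600000000010000040000000000000000000000000000000000000000000000) (nat_lit 0x10000040000080000000001f0000fc000bf8000c0000100000000000000000000000000000000000) (nat_lit 10)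
theorem c45353 : QOK q45353 := cut [q45338, q45347, q45348, q23759, q34520, q45350, q45352] ⟨c45338, c45347, c45348, c23759, c34520, c45350, c45352, trivial⟩ (nd (nat_lit 205) (nat_lit 0) (cs (rf (nat_lit 0)) (cs (rf (nat_lit 1)) (cs (nd (nat_lit 227) (nat_lit 0) (cs (rf (nat_lit 2)) (cs (nd (nat_lit 206) (nat_lit 0) (cs (rf (nat_lit 3)) (rf (nat_lit 4)))) (rf (nat_lit 5))))) (rf (nat_lit 6)))))) q45353 (by decide +kernel)
def q45642 : Q := Q.p (nat_lit 0x100000600000800010000040000000000000000000000000000000000000000000000) (nat_lit 0x500001c0002780001c000378000ff000bf0000fc000150000000000000000000000000000000000) (nat_lit 12)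
theorem c45642 : QOK q45642 := cut [q40979, q44540, q45578, q3504, q45579, q41036, q45599, q45595, q45598, q24449, q26739, q45621, q45625, q45629, q45638, q45640] ⟨c40979, c44540, c45578, c3504, c45579, c41036, c45599, c45595, c45598, c24449, c26739, c45621, c45625, c45629, c45638, c45640, trivial⟩ (nd (nat_lit 205) (nat_lit 0) (cs (lf (nat_lit 24) (nat_lit 183)) (nd (nat_lit 206) (nat_lit 0) (cs (rf (nat_lit 0)) (cs (rf (nat_lit 1)) (cs (nd (nat_lit 247) (nat_lit 0) (cs (rf (nat_lit 2)) (cs (nd (nat_lit 225) (nat_lit 0) (cs (nd (nat_lit 184) (nat_lit 0) (cs (rf (nat_lit 3)) (cs (nd (nat_lit 185) (nat_lit 0) (cs (lf (nat_lit 6) (nat_lit 183)) (nd (nat_lit 203) (nat_lit 0) (cs (lf (nat_lit 13) (nat_lit 181)) (nd (nat_lit 228) (nat_lit 0) (cs (lf (nat_lit 35) (nat_lit 162)) (rf (nat_lit 4)))))))) (nd (nat_lit 185) (nat_lit 0) (cs (lf (nat_lit 6) (nat_lit 183)) (nd (nat_lit 160) (nat_lit 0) (cs (nd (nat_lit 204)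 (nat_lit 0) (cs (lf (nat_lit 12) (nat_lit 181)) (nd (nat_lit 182) (nat_lit 0) (cs (lf (nat_lit 24) (nat_lit 138)) (lf (nat_lit 27) (nat_lit 160)))))) (nd (nat_lit 162) (nat_lit 0) (cs (lf (nat_lit 36) (nat_lit 139)) (nd (nat_lit 161) (nat_lit 0) (cs (lf (nat_lit 0) (nat_lit 159)) (lf (nat_lit 3) (nat_lit 160))))))))))))) (cs (nd (nat_lit 226) (nat_lit 0) (cs (lf (nat_lit 0) (nat_lit 224)) (nd (nat_lit 228) (nat_lit 0) (cs (lf (nat_lit 11) (nat_lit 224)) (rf (nat_lit 5)))))) (cs (nd (nat_lit 203) (nat_lit 0) (cs (rf (nat_lit 6)) (cs (nd (nat_lit 204) (nat_lit 0) (cs (lf (nat_lit 11) (nat_lit 202)) (nd (nat_lit 184) (nat_lit 0) (cs (lf (nat_lit 17) (nat_lit 181)) (nd (nat_lit 228) (nat_lit 0) (cs (lf (nat_lit 36) (nat_lit 161)) (lf (nat_lit 5) (nat_lit 203)))))))) (nd (nat_lit 181) (nat_lit 0) (cs (rf (nat_lit 7)) (cs (rf (nat_lit 8)) (nd (nat_lit 182) (nat_lit 0) (cs (lf (nat_lit 35) (nat_lit 159)) (nd (nat_lit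 246) (nat_lit 0) (cs (lf (nat_lit 41) (nat_lit 180)) (nd (nat_lit 204) (nat_lit 0) (cs (lf (nat_lit 30) (nat_lit 181)) (rf (nat_lit 9)))))))))))))) (cs (nd (nat_lit 203) (nat_lit 0) (cs (nd (nat_lit 204) (nat_lit 0) (cs (lf (nat_lit 11) (nat_lit 202)) (rf (nat_lit 9)))) (cs (nd (nat_lit 226) (nat_lit 0) (cs (lf (nat_lit 12) (nat_lit 202)) (nd (nat_lit 202) (nat_lit 0) (cs (lf (nat_lit 18) (nat_lit 202)) (nd (nat_lit 200) (nat_lit 0) (cs (nd (nat_lit 180) (nat_lit 0) (cs (lf (nat_lit 42) (nat_lit 180)) (nd (nat_lit 158) (nat_lit 0) (cs (lf (nat_lit 24) (nat_lit 136)) (lf (nat_lit 45) (nat_lit 158)))))) (lf (nat_lit 1) (nat_lit 200)))))))) (cs (nd (nat_lit 204) (nat_lit 0) (cs (rf (nat_lit 9)) (rf (nat_lit 10)))) (nd (nat_lit 224) (nat_lit 0) (cs (lf (nat_lit 8) (nat_lit 202)) (lf (nat_lit 2) (nat_lit 224)))))))) (nd (nat_lit 224) (nat_lit 0) (cs (lf (nat_lit 14) (nat_lit 202)) (nd (nat_lit 180) (nat_lit 0) (cs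 (nd (nat_lit 203) (nat_lit 0) (cs (lf (nat_lit 8) (nat_lit 202)) (nd (nat_lit 181) (nat_lit 0) (cs (lf (nat_lit 47) (nat_lit 158)) (rf (nat_lit 11)))))) (cs (nd (nat_lit 202) (nat_lit 0) (cs (lf (nat_lit 24) (nat_lit 158)) (rf (nat_lit 12)))) (nd (nat_lit 203) (nat_lit 0) (cs (lf (nat_lit 8) (nat_lit 202)) (nd (nat_lit 269) (nat_lit 0) (cs (lf (nat_lit 46) (nat_lit 180)) (rf (nat_lit 13)))))))))))))))) (cs (nd (nat_lit 248) (nat_lit 0) (cs (lf (nat_lit 5) (nat_lit 247)) (nd (nat_lit 268) (nat_lit 0) (cs (lf (nat_lit 10) (nat_lit 246)) (nd (nat_lit 228) (nat_lit 0) (cs (lf (nat_lit 17) (nat_lit 225)) (rf (nat_lit 5)))))))) (rf (nat_lit 14)))))) (rf (nat_lit 15)))))))) q45642 (by decide +kernel)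
def q45645 : Q := Q.p (nat_lit 0x20000000000100003600000000000000000000000000000000000000000000000000000000000000) (nat_lit 0xe0000780001fc001ff8003de000f5c001ee0000180008200000000000000000000000000000000000000000000000000000000) (nat_lit 13)
theorem c45645 : QOK q45645 := cut [q14127, q45365, q45366, q45369, q45375, q45393, q41749, q45360, q45392, q45384, q45399, q45401, q45357, q45389, q45407, q45416, q45419, q45421, q45422, q45425, q45428, q45458, q45535, q45463, q45468, q45472, q45368, q45485, q45487, q45541] ⟨c14127, c45365, c45366, c45369, c45375, c45393, c41749, c45360, c45392, c45384, c45399, c45401, c45357, c45389, c45407, c45416, c45419, c45421, c45422, c45425, c45428, c45458, c45535, c45463, c45468, c45472, c45368, c45485, c45487, c45541, trivial⟩ (nd (nat_lit 316) (nat_lit 0) (cs (nd (nat_lit 294) (nat_lit 0) (cs (lf (nat_lit 29) (nat_lit 250)) (rf (nat_lit 0)))) (cs (nd (nat_lit 318) (nat_lit 0)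 (cs (rf (nat_lit 1)) (cs (nd (nat_lit 337) (nat_lit 0) (cs (rf (nat_lit 2)) (nd (nat_lit 319) (nat_lit 0) (cs (lf (nat_lit 10) (nat_lit 315)) (rf (nat_lit 3)))))) (cs (rf (nat_lit 4)) (cs (rf (nat_lit 5)) (cs (nd (nat_lit 319) (nat_lit 0) (cs (rf (nat_lit 6)) (cs (rf (nat_lit 7)) (cs (rf (nat_lit 8)) (nd (nat_lit 341) (nat_lit 0) (cs (lf (nat_lit 5) (nat_lit 316)) (nd (nat_lit 297) (nat_lit 0) (cs (lf (nat_lit 17) (nat_lit 294)) (nd (nat_lit 315) (nat_lit 0) (cs (lf (nat_lit 16) (nat_lit 293)) (nd (nat_lit 337) (nat_lit 0) (cs (lf (nat_lit 10) (nat_lit 315)) (lf (nat_lit 38) (nat_lit 249)))))))))))))) (cs (nd (nat_lit 319) (nat_lit 0) (cs (rf (nat_lit 9)) (rf (nat_lit 10)))) (cs (nd (nat_lit 337) (nat_lit 0) (cs (rf (nat_lit 2)) (rf (nat_lit 11)))) (nd (nat_lit 319) (nat_lit 0) (cs (rf (nat_lit 12)) (cs (rf (nat_lit 13)) (rf (nat_lit 10))))))))))))) (cs (nd (nat_lit 339) (nat_lit 0) (cs (lf (nat_lit 26) (nat_lit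 250)) (nd (nat_lit 318) (nat_lit 0) (cs (nd (nat_lit 319) (nat_lit 0) (cs (rf (nat_lit 9)) (cs (rf (nat_lit 14)) (cs (rf (nat_lit 15)) (rf (nat_lit 16)))))) (cs (rf (nat_lit 17)) (cs (rf (nat_lit 18)) (rf (nat_lit 19)))))))) (cs (nd (nat_lit 339) (nat_lit 0) (cs (lf (nat_lit 26) (nat_lit 250)) (nd (nat_lit 318) (nat_lit 0) (cs (rf (nat_lit 17)) (cs (rf (nat_lit 19)) (cs (nd (nat_lit 319) (nat_lit 0) (cs (rf (nat_lit 9)) (cs (rf (nat_lit 14)) (rf (nat_lit 20))))) (nd (nat_lit 319) (nat_lit 0) (cs (rf (nat_lit 7)) (rf (nat_lit 20)))))))))) (cs (nd (nat_lit 318) (nat_lit 0) (cs (rf (nat_lit 5)) (cs (nd (nat_lit 339) (nat_lit 0) (cs (lf (nat_lit 26) (nat_lit 250)) (rf (nat_lit 17)))) (cs (nd (nat_lit 294) (nat_lit 0) (cs (lf (nat_lit 29) (nat_lit 250)) (nd (nat_lit 338) (nat_lit 0) (cs (lf (nat_lit 46) (nat_lit 249)) (nd (nat_lit 337) (nat_lit 0) (cs (lf (nat_lit 41) (nat_lit 271)) (lf (nat_lit 6) (nat_lit 315))))))))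 (cs (nd (nat_lit 319) (nat_lit 0) (cs (rf (nat_lit 9)) (nd (nat_lit 338) (nat_lit 0) (cs (lf (nat_lit 11) (nat_lit 315)) (nd (nat_lit 339) (nat_lit 0) (cs (lf (nat_lit 6) (nat_lit 316)) (lf (nat_lit 26) (nat_lit 250)))))))) (rf (nat_lit 21))))))) (cs (rf (nat_lit 22)) (nd (nat_lit 318) (nat_lit 0) (cs (rf (nat_lit 4)) (cs (rf (nat_lit 18)) (cs (rf (nat_lit 21)) (cs (rf (nat_lit 23)) (cs (rf (nat_lit 24)) (cs (nd (nat_lit 341) (nat_lit 0) (cs (nd (nat_lit 319) (nat_lit 0) (cs (lf (nat_lit 5) (nat_lit 316)) (rf (nat_lit 25)))) (cs (nd (nat_lit 315) (nat_lit 0) (cs (lf (nat_lit 4) (nat_lit 315)) (nd (nat_lit 336) (nat_lit 0) (cs (lf (nat_lit 10) (nat_lit 314)) (nd (nat_lit 314) (nat_lit 0) (cs (lf (nat_lit 11) (nat_lit 313)) (nd (nat_lit 291) (nat_lit 0) (cs (lf (nat_lit 22) (nat_lit 291)) (nd (nat_lit 313) (nat_lit 0) (cs (lf (nat_lit 23) (nat_lit 290)) (nd (nat_lit 339) (nat_lit 0) (cs (rf (nat_lit 17)) (lf (nat_lit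 4) (nat_lit 313)))))))))))))) (nd (nat_lit 319) (nat_lit 0) (cs (lf (nat_lit 5) (nat_lit 316)) (rf (nat_lit 26))))))) (cs (nd (nat_lit 319) (nat_lit 0) (cs (rf (nat_lit 3)) (cs (rf (nat_lit 16)) (rf (nat_lit 27))))) (cs (rf (nat_lit 28)) (rf (nat_lit 29)))))))))))))))))) q45645 (by decide +kernel)
def q45712 : Q := Q.p (nat_lit 0x100003600000000016000040000000000000000000000000000000000000000000000) (nat_lit 0x700001c000ef80001c0001f80001c000b70000fc0003d0000e00003800000000000000000000000) (nat_lit 11)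
theorem c45712 : QOK q45712 := cut [q45646, q45638, q18528, q20743, q1271, q32652, q45320, q45664, q45667, q45666, q45599, q45629, q45679, q45682, q45689, q41640, q45697, q40868] ⟨c45646, c45638, c18528, c20743, c1271, c32652, c45320, c45664, c45667, c45666, c45599, c45629, c45679, c45682, c45689, c41640, c45697, c40868, trivial⟩ (nd (nat_lit 184) (nat_lit 0) (cs (rf (nat_lit 0)) (cs (nd (nat_lit 247) (nat_lit 0) (cs (rf (nat_lit 1)) (nd (nat_lit 162) (nat_lit 0) (cs (nd (nat_lit 227) (nat_lit 0) (cs (lf (nat_lit 39) (nat_lit 161)) (lf (nat_lit 36) (nat_lit 139)))) (cs (nd (nat_lit 185) (nat_lit 0) (cs (lf (nat_lit 6) (nat_lit 183)) (nd (nat_lit 228) (nat_lit 0) (cs (lf (nat_lit 35) (nat_lit 162)) (lf (nat_lit 40) (nat_lit 161)))))) (cs (nd (nat_lit 140) (nat_lit 0) (cs (rf (nat_lit 2)) (cs (nd (nat_lit 185) (nat_lit 0) (cs (lf (nat_lit 6) (nat_lit 183)) (nd (nat_lit 163) (nat_lit 0) (cs (lf (nat_lit 31) (nat_lit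 162)) (nd (nat_lit 160) (nat_lit 0) (cs (lf (nat_lit 1) (nat_lit 160)) (nd (nat_lit 119) (nat_lit 0) (cs (lf (nat_lit 25) (nat_lit 119)) (rf (nat_lit 3)))))))))) (nd (nat_lit 185) (nat_lit 0) (cs (lf (nat_lit 6) (nat_lit 183)) (nd (nat_lit 228) (nat_lit 0) (cs (rf (nat_lit 4)) (lf (nat_lit 35) (nat_lit 162))))))))) (nd (nat_lit 185) (nat_lit 0) (cs (lf (nat_lit 6) (nat_lit 183)) (rf (nat_lit 5)))))))))) (cs (nd (nat_lit 185) (nat_lit 0) (cs (lf (nat_lit 6) (nat_lit 183)) (nd (nat_lit 228) (nat_lit 0) (cs (lf (nat_lit 41) (nat_lit 183)) (lf (nat_lit 35) (nat_lit 162)))))) (nd (nat_lit 247) (nat_lit 0) (cs (rf (nat_lit 6)) (cs (rf (nat_lit 1)) (cs (nd (nat_lit 269) (nat_lit 0) (cs (nd (nat_lit 271) (nat_lit 0) (cs (lf (nat_lit 32) (nat_lit 183)) (rf (nat_lit 7)))) (cs (nd (nat_lit 185) (nat_lit 0) (cs (lf (nat_lit 6) (nat_lit 183)) (nd (nat_lit 203) (nat_lit 0) (cs (lf (nat_lit 13) (nat_lit 181)) (nd (nat_lit 271)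 (nat_lit 0) (cs (lf (nat_lit 32) (nat_lit 183)) (rf (nat_lit 8)))))))) (cs (nd (nat_lit 185) (nat_lit 0) (cs (lf (nat_lit 6) (nat_lit 183)) (nd (nat_lit 203) (nat_lit 0) (cs (lf (nat_lit 13) (nat_lit 181)) (nd (nat_lit 271) (nat_lit 0) (cs (lf (nat_lit 32) (nat_lit 183)) (nd (nat_lit 270) (nat_lit 0) (cs (lf (nat_lit 12) (nat_lit 246)) (rf (nat_lit 9)))))))))) (cs (nd (nat_lit 203) (nat_lit 0) (cs (nd (nat_lit 185) (nat_lit 0) (cs (lf (nat_lit 6) (nat_lit 183)) (lf (nat_lit 13) (nat_lit 181)))) (nd (nat_lit 225) (nat_lit 0) (cs (rf (nat_lit 10)) (cs (rf (nat_lit 11)) (rf (nat_lit 12))))))) (nd (nat_lit 225) (nat_lit 0) (cs (nd (nat_lit 227) (nat_lit 0) (cs (lf (nat_lit 30) (nat_lit 183)) (nd (nat_lit 140) (nat_lit 0) (cs (lf (nat_lit 37) (nat_lit 139)) (nd (nat_lit 224) (nat_lit 0) (cs (lf (nat_lit 14) (nat_lit 202)) (nd (nat_lit 203) (nat_lit 0) (cs (lf (nat_lit 8) (nat_lit 202)) (rf (nat_lit 13)))))))))) (cs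 (nd (nat_lit 185) (nat_lit 0) (cs (lf (nat_lit 6) (nat_lit 183)) (nd (nat_lit 203) (nat_lit 0) (cs (lf (nat_lit 13) (nat_lit 181)) (rf (nat_lit 14)))))) (cs (nd (nat_lit 227) (nat_lit 0) (cs (lf (nat_lit 30) (nat_lit 183)) (nd (nat_lit 140) (nat_lit 0) (cs (lf (nat_lit 37) (nat_lit 139)) (nd (nat_lit 226) (nat_lit 0) (cs (lf (nat_lit 12) (nat_lit 202)) (nd (nat_lit 204) (nat_lit 0) (cs (lf (nat_lit 30) (nat_lit 203)) (rf (nat_lit 15)))))))))) (nd (nat_lit 227) (nat_lit 0) (cs (lf (nat_lit 30) (nat_lit 183)) (nd (nat_lit 140) (nat_lit 0) (cs (lf (nat_lit 37) (nat_lit 139)) (nd (nat_lit 185) (nat_lit 0) (cs (lf (nat_lit 6) (nat_lit 183)) (nd (nat_lit 224) (nat_lit 0) (cs (lf (nat_lit 14) (nat_lit 202)) (rf (nat_lit 16))))))))))))))))))) (nd (nat_lit 271) (nat_lit 0) (cs (lf (nat_lit 32) (nat_lit 183)) (nd (nat_lit 248) (nat_lit 0) (cs (lf (nat_lit 0) (nat_lit 246)) (nd (nat_lit 224) (nat_lit 0) (cs (lf (nat_lit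 22) (nat_lit 224)) (nd (nat_lit 269) (nat_lit 0) (cs (lf (nat_lit 11) (nat_lit 246)) (nd (nat_lit 185) (nat_lit 0) (cs (lf (nat_lit 6) (nat_lit 183)) (nd (nat_lit 204) (nat_lit 0) (cs (lf (nat_lit 12) (nat_lit 181)) (nd (nat_lit 226) (nat_lit 0) (cs (lf (nat_lit 24) (nat_lit 182)) (rf (nat_lit 17)))))))))))))))))))))))) q45712 (by decide +kernel)
def q45809 : Q := Q.p (nat_lit 0x100003600000000002000000000000000000000000000000000000000000000000000) (nat_lit 0x40000500001c000ef00001f0003fc0001e0000fc00014000000000000000000000000000000000000000) (nat_lit 12)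
theorem c45809 : QOK q45809 := cut [q45731, q45367, q27079, q44646, q45748, q45544, q45751, q45320, q45578, q45753, q45773, q45758, q45782, q45800, q44583] ⟨c45731, c45367, c27079, c44646, c45748, c45544, c45751, c45320, c45578, c45753, c45773, c45758, c45782, c45800, c44583, trivial⟩ (nd (nat_lit 227) (nat_lit 0) (cs (lf (nat_lit 24) (nat_lit 183)) (nd (nat_lit 270) (nat_lit 0) (cs (nd (nat_lit 271) (nat_lit 0) (cs (lf (nat_lit 41) (nat_lit 204)) (nd (nat_lit 182) (nat_lit 0) (cs (lf (nat_lit 46) (nat_lit 182)) (nd (nat_lit 273) (nat_lit 0) (cs (lf (nat_lit 15) (nat_lit 249)) (rf (nat_lit 0)))))))) (cs (nd (nat_lit 271) (nat_lit 0) (cs (lf (nat_lit 41) (nat_lit 204)) (nd (nat_lit 204) (nat_lit 0) (cs (lf (nat_lit 47) (nat_lit 182)) (nd (nat_lit 269) (nat_lit 0) (cs (lf (nat_lit 12) (nat_lit 246)) (nd (nat_lit 274) (nat_lit 0) (cs (rf (nat_lit 1)) (nd (nat_lit 202) (nat_lit 0) (cs (nd (nat_lit 291) (nat_lit 0)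 (cs (lf (nat_lit 11) (nat_lit 268)) (nd (nat_lit 247) (nat_lit 0) (cs (lf (nat_lit 23) (nat_lit 246)) (nd (nat_lit 225) (nat_lit 0) (cs (lf (nat_lit 34) (nat_lit 203)) (lf (nat_lit 46) (nat_lit 202)))))))) (cs (nd (nat_lit 246) (nat_lit 0) (cs (nd (nat_lit 203) (nat_lit 0) (cs (lf (nat_lit 5) (nat_lit 202)) (rf (nat_lit 2)))) (lf (nat_lit 22) (nat_lit 246)))) (nd (nat_lit 203) (nat_lit 0) (cs (lf (nat_lit 5) (nat_lit 202)) (rf (nat_lit 3))))))))))))))) (cs (nd (nat_lit 292) (nat_lit 0) (cs (rf (nat_lit 4)) (lf (nat_lit 39) (nat_lit 204)))) (cs (nd (nat_lit 248) (nat_lit 0) (cs (rf (nat_lit 5)) (rf (nat_lit 6)))) (nd (nat_lit 247) (nat_lit 0) (cs (rf (nat_lit 7)) (cs (rf (nat_lit 8)) (cs (nd (nat_lit 269) (nat_lit 0) (cs (rf (nat_lit 9)) (cs (rf (nat_lit 10)) (cs (nd (nat_lit 225) (nat_lit 0) (cs (rf (nat_lit 11)) (cs (nd (nat_lit 271) (nat_lit 0) (cs (lf (nat_lit 23) (nat_lit 246)) (nd (nat_lit 204) (nat_lit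 0) (cs (lf (nat_lit 47) (nat_lit 182)) (nd (nat_lit 291) (nat_lit 0) (cs (lf (nat_lit 11) (nat_lit 268)) (nd (nat_lit 273) (nat_lit 0) (cs (lf (nat_lit 15) (nat_lit 249)) (nd (nat_lit 202) (nat_lit 0) (cs (lf (nat_lit 46) (nat_lit 202)) (nd (nat_lit 203) (nat_lit 0) (cs (lf (nat_lit 5) (nat_lit 202)) (lf (nat_lit 47) (nat_lit 180)))))))))))))) (cs (nd (nat_lit 246) (nat_lit 0) (cs (lf (nat_lit 19) (nat_lit 246)) (nd (nat_lit 244) (nat_lit 0) (cs (nd (nat_lit 226) (nat_lit 0) (cs (rf (nat_lit 12)) (lf (nat_lit 6) (nat_lit 224)))) (lf (nat_lit 1) (nat_lit 244)))))) (nd (nat_lit 246) (nat_lit 0) (cs (lf (nat_lit 19) (nat_lit 246)) (nd (nat_lit 226) (nat_lit 0) (cs (lf (nat_lit 0) (nat_lit 224)) (lf (nat_lit 6) (nat_lit 224)))))))))) (rf (nat_lit 13)))))) (nd (nat_lit 269) (nat_lit 0) (cs (rf (nat_lit 9)) (cs (rf (nat_lit 10)) (cs (rf (nat_lit 13)) (nd (nat_lit 246) (nat_lit 0) (cs (lf (nat_lit 19) (nat_lit 246))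 (nd (nat_lit 244) (nat_lit 0) (cs (lf (nat_lit 1) (nat_lit 244)) (nd (nat_lit 248) (nat_lit 0) (cs (rf (nat_lit 14)) (lf (nat_lit 17) (nat_lit 224))))))))))))))))))))))) q45809 (by decide +kernel)
def q45845 : Q := Q.p (nat_lit 0x100000600000000010000040000000000000000000000000000000000000000000000) (nat_lit 0x10000040000080000000001c0000f0000be0000c0000100000000000000000000000000000000000) (nat_lit 7)
theorem c45845 : QOK q45845 := cut [q45338, q45352, q45839, q44540, q23759, q45348, q45350, q25634] ⟨c45338, c45352, c45839, c44540, c23759, c45348, c45350, c25634, trivial⟩ (nd (nat_lit 205) (nat_lit 0) (cs (rf (nat_lit 0)) (cs (rf (nat_lit 1)) (cs (rf (nat_lit 2)) (nd (nat_lit 206) (nat_lit 0) (cs (rf (nat_lit 3)) (cs (nd (nat_lit 227) (nat_lit 0) (cs (rf (nat_lit 4)) (cs (rf (nat_lit 5)) (rf (nat_lit 6))))) (nd (nat_lit 207) (nat_lit 0) (cs (lf (nat_lit 17) (nat_lit 183)) (nd (nat_lit 185) (nat_lit 0) (cs (lf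 (nat_lit 12) (nat_lit 182)) (nd (nat_lit 227) (nat_lit 0) (cs (lf (nat_lit 11) (nat_lit 204)) (rf (nat_lit 7))))))))))))))) q45845 (by decide +kernel)
def q46156 : Q := Q.p (nat_lit 0x8000020000000000100003400000000000000000000000000000000000000000000000000000000000000) (nat_lit 0x100000f00007e0003fe000ffc007ff001f7c00196000f90001ec0000200000000000000000000000000000000000000000000000000000000000000) (nat_lit 13)
theorem c46156 : QOK q46156 := cut [q45878, q45880, q45888, q45908, q45927, q45928, q45976, q45983, q46082, q46083, q45060, q46084, q46093, q45934, q46107, q46155] ⟨c45878, c45880, c45888, c45908, c45927, c45928, c45976, c45983, c46082, c46083, c45060, c46084, c46093, c45934, c46107, c46155, trivial⟩ (nd (nat_lit 361) (nat_lit 0) (cs (rf (nat_lit 0)) (cs (nd (nat_lit 383) (nat_lit 0) (cs (rf (nat_lit 1)) (cs (nd (nat_lit 404) (nat_lit 0) (cs (lf (nat_lit 40) (nat_lit 316)) (nd (nat_lit 405) (nat_lit 0)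 (cs (lf (nat_lit 41) (nat_lit 338)) (nd (nat_lit 428) (nat_lit 0) (cs (lf (nat_lit 28) (nat_lit 339)) (nd (nat_lit 342) (nat_lit 0) (cs (nd (nat_lit 427) (nat_lit 0) (cs (nd (nat_lit 340) (nat_lit 0) (cs (nd (nat_lit 316) (nat_lit 0) (cs (lf (nat_lit 19) (nat_lit 316)) (lf (nat_lit 46) (nat_lit 316)))) (lf (nat_lit 34) (nat_lit 339)))) (lf (nat_lit 29) (nat_lit 361)))) (nd (nat_lit 273) (nat_lit 0) (cs (lf (nat_lit 44) (nat_lit 250)) (nd (nat_lit 274) (nat_lit 0) (cs (lf (nat_lit 12) (nat_lit 249)) (nd (nat_lit 275) (nat_lit 0) (cs (lf (nat_lit 23) (nat_lit 249)) (nd (nat_lit 298) (nat_lit 0) (cs (lf (nat_lit 4) (nat_lit 272)) (rf (nat_lit 2)))))))))))))))))) (cs (nd (nat_lit 404) (nat_lit 0) (cs (lf (nat_lit 40) (nat_lit 316)) (nd (nat_lit 405) (nat_lit 0) (cs (lf (nat_lit 41) (nat_lit 338)) (nd (nat_lit 338) (nat_lit 0) (cs (lf (nat_lit 47) (nat_lit 316)) (nd (nat_lit 295) (nat_lit 0) (cs (lf (nat_lit 45) (nat_lit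 250)) (nd (nat_lit 274) (nat_lit 0) (cs (lf (nat_lit 34) (nat_lit 273)) (nd (nat_lit 362) (nat_lit 0) (cs (lf (nat_lit 29) (nat_lit 295)) (nd (nat_lit 337) (nat_lit 0) (cs (lf (nat_lit 0) (nat_lit 336)) (nd (nat_lit 340) (nat_lit 0) (cs (lf (nat_lit 5) (nat_lit 337)) (lf (nat_lit 30) (nat_lit 339)))))))))))))))))) (rf (nat_lit 3)))))) (cs (rf (nat_lit 4)) (cs (nd (nat_lit 360) (nat_lit 0) (cs (rf (nat_lit 5)) (cs (rf (nat_lit 6)) (rf (nat_lit 7))))) (cs (rf (nat_lit 8)) (cs (nd (nat_lit 362) (nat_lit 0) (cs (rf (nat_lit 9)) (cs (nd (nat_lit 363) (nat_lit 0) (cs (rf (nat_lit 10)) (cs (nd (nat_lit 273) (nat_lit 0) (cs (lf (nat_lit 44) (nat_lit 250)) (nd (nat_lit 274) (nat_lit 0) (cs (lf (nat_lit 12) (nat_lit 249)) (nd (nat_lit 275) (nat_lit 0) (cs (lf (nat_lit 23) (nat_lit 249)) (nd (nat_lit 297) (nat_lit 0) (cs (lf (nat_lit 5) (nat_lit 272)) (nd (nat_lit 341) (nat_lit 0) (cs (lf (nat_lit 43) (nat_lit 252)) (nd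 (nat_lit 342) (nat_lit 0) (cs (lf (nat_lit 12) (nat_lit 338)) (rf (nat_lit 11)))))))))))))) (nd (nat_lit 273) (nat_lit 0) (cs (lf (nat_lit 44) (nat_lit 250)) (nd (nat_lit 271) (nat_lit 0) (cs (lf (nat_lit 15) (nat_lit 249)) (rf (nat_lit 12))))))))) (nd (nat_lit 384) (nat_lit 0) (cs (rf (nat_lit 13)) (cs (rf (nat_lit 14)) (nd (nat_lit 406) (nat_lit 0) (cs (lf (nat_lit 42) (nat_lit 339)) (lf (nat_lit 27) (nat_lit 317)))))))))) (rf (nat_lit 15))))))))) q46156 (by decide +kernel)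
def q46315 : Q := Q.p (nat_lit 0x8000020000000000000003000000000000000000000000000000000000000000000000000000000000000) (nat_lit 0x140000f00007e0003fe000ffc007ff000f7c001de000f90000c40000000008000000000000000000000000000000000000000000000000000000000) (nat_lit 13)
theorem c46315 : QOK q46315 := cut [q46082, q46217, q45908, q45985, q46224, q46234, q46235, q46238, q46243, q46253, q46259, q43996, q46281, q46284, q46218, q46294, q46107, q45934, q46070, q46220, q46313] ⟨c46082, c46217, c45908, c45985, c46224, c46234, c46235, c46238, c46243, c46253, c46259, c43996, c46281, c46284, c46218, c46294, c46107, c45934, c46070, c46220, c46313, trivial⟩ (nd (nat_lit 361) (nat_lit 0) (cs (rf (nat_lit 0)) (cs (rf (nat_lit 1)) (cs (nd (nat_lit 383) (nat_lit 0) (cs (rf (nat_lit 2)) (cs (rf (nat_lit 3)) (cs (nd (nat_lit 382) (nat_lit 0) (cs (lf (nat_lit 41) (nat_lit 316)) (nd (nat_lit 295) (nat_lit 0) (cs (lf (nat_lit 40) (nat_lit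 294)) (nd (nat_lit 296) (nat_lit 0) (cs (lf (nat_lit 34) (nat_lit 295)) (lf (nat_lit 35) (nat_lit 273)))))))) (nd (nat_lit 296) (nat_lit 0) (cs (lf (nat_lit 34) (nat_lit 295)) (nd (nat_lit 295) (nat_lit 0) (cs (lf (nat_lit 35) (nat_lit 273)) (nd (nat_lit 360) (nat_lit 0) (cs (lf (nat_lit 41) (nat_lit 294)) (nd (nat_lit 406) (nat_lit 0) (cs (lf (nat_lit 28) (nat_lit 317)) (nd (nat_lit 405) (nat_lit 0) (cs (lf (nat_lit 29) (nat_lit 339)) (rf (nat_lit 4)))))))))))))))) (cs (rf (nat_lit 5)) (cs (nd (nat_lit 318) (nat_lit 0) (cs (rf (nat_lit 6)) (cs (nd (nat_lit 338) (nat_lit 0) (cs (rf (nat_lit 7)) (cs (nd (nat_lit 340) (nat_lit 0) (cs (rf (nat_lit 8)) (cs (nd (nat_lit 383) (nat_lit 0) (cs (lf (nat_lit 30) (nat_lit 317)) (nd (nat_lit 382) (nat_lit 0) (cs (lf (nat_lit 41) (nat_lit 316)) (nd (nat_lit 360) (nat_lit 0) (cs (lf (nat_lit 36) (nat_lit 294)) (nd (nat_lit 319) (nat_lit 0) (cs (lf (nat_lit 6) (nat_lit 316))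 (nd (nat_lit 297) (nat_lit 0) (cs (lf (nat_lit 37) (nat_lit 252)) (nd (nat_lit 316) (nat_lit 0) (cs (lf (nat_lit 17) (nat_lit 294)) (nd (nat_lit 381) (nat_lit 0) (cs (lf (nat_lit 41) (nat_lit 315)) (nd (nat_lit 362) (nat_lit 0) (cs (lf (nat_lit 6) (nat_lit 359)) (lf (nat_lit 12) (nat_lit 358)))))))))))))))))) (nd (nat_lit 319) (nat_lit 0) (cs (lf (nat_lit 6) (nat_lit 316)) (rf (nat_lit 9))))))) (cs (nd (nat_lit 340) (nat_lit 0) (cs (rf (nat_lit 8)) (cs (nd (nat_lit 337) (nat_lit 0) (cs (lf (nat_lit 12) (nat_lit 314)) (nd (nat_lit 383) (nat_lit 0) (cs (lf (nat_lit 30) (nat_lit 317)) (nd (nat_lit 382) (nat_lit 0) (cs (lf (nat_lit 41) (nat_lit 316)) (rf (nat_lit 10)))))))) (cs (nd (nat_lit 337) (nat_lit 0) (cs (lf (nat_lit 12) (nat_lit 314)) (nd (nat_lit 383) (nat_lit 0) (cs (lf (nat_lit 30) (nat_lit 317)) (nd (nat_lit 382) (nat_lit 0) (cs (lf (nat_lit 41) (nat_lit 316)) (nd (nat_lit 360) (nat_lit 0) (cs (lf (nat_lit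 36) (nat_lit 294)) (nd (nat_lit 359) (nat_lit 0) (cs (lf (nat_lit 11) (nat_lit 336)) (nd (nat_lit 362) (nat_lit 0) (cs (lf (nat_lit 18) (nat_lit 337)) (nd (nat_lit 381) (nat_lit 0) (cs (lf (nat_lit 12) (nat_lit 358)) (nd (nat_lit 403) (nat_lit 0) (cs (lf (nat_lit 30) (nat_lit 337)) (lf (nat_lit 36) (nat_lit 315)))))))))))))))))) (nd (nat_lit 337) (nat_lit 0) (cs (lf (nat_lit 12) (nat_lit 314)) (nd (nat_lit 358) (nat_lit 0) (cs (lf (nat_lit 10) (nat_lit 336)) (nd (nat_lit 362) (nat_lit 0) (cs (lf (nat_lit 5) (nat_lit 337)) (nd (nat_lit 315) (nat_lit 0) (cs (lf (nat_lit 23) (nat_lit 314)) (nd (nat_lit 341) (nat_lit 0) (cs (lf (nat_lit 22) (nat_lit 315)) (rf (nat_lit 11)))))))))))))))) (rf (nat_lit 12)))))) (nd (nat_lit 296) (nat_lit 0) (cs (lf (nat_lit 37) (nat_lit 251)) (rf (nat_lit 13))))))) (cs (nd (nat_lit 384) (nat_lit 0) (cs (nd (nat_lit 383) (nat_lit 0) (cs (lf (nat_lit 29) (nat_lit 317)) (nd (nat_lit 296)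 (nat_lit 0) (cs (lf (nat_lit 34) (nat_lit 295)) (rf (nat_lit 14)))))) (cs (rf (nat_lit 15)) (cs (nd (nat_lit 362) (nat_lit 0) (cs (rf (nat_lit 16)) (lf (nat_lit 24) (nat_lit 295)))) (nd (nat_lit 362) (nat_lit 0) (cs (rf (nat_lit 17)) (lf (nat_lit 24) (nat_lit 295)))))))) (nd (nat_lit 383) (nat_lit 0) (cs (rf (nat_lit 18)) (cs (rf (nat_lit 19)) (rf (nat_lit 20)))))))))))) q46315 (by decide +kernel)
def q46450 : Q := Q.p (nat_lit 0x8000020000000000100003400000000000000000000000000000000000000000000000000000000000000) (nat_lit 0x1f80007e0003fc001f7000fdc003f00007e80018200028000080000000000000000000000000000000000000000000000000000) (nat_lit 13)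
theorem c46450 : QOK q46450 := cut [q45863, q45870, q46353, q46403, q46408, q46238, q46281, q41899, q46414, q46421, q46427, q46430, q46259, q46273, q46441] ⟨c45863, c45870, c46353, c46403, c46408, c46238, c46281, c41899, c46414, c46421, c46427, c46430, c46259, c46273, c46441, trivial⟩ (nd (nat_lit 318) (nat_lit 0) (cs (nd (nat_lit 274) (nat_lit 0) (cs (lf (nat_lit 38) (nat_lit 251)) (nd (nat_lit 273) (nat_lit 0) (cs (lf (nat_lit 12) (nat_lit 249)) (rf (nat_lit 0)))))) (cs (nd (nat_lit 274) (nat_lit 0) (cs (lf (nat_lit 38) (nat_lit 251)) (nd (nat_lit 273) (nat_lit 0) (cs (lf (nat_lit 12) (nat_lit 249)) (rf (nat_lit 1)))))) (cs (rf (nat_lit 2)) (cs (rf (nat_lit 3)) (cs (rf (nat_lit 4)) (nd (nat_lit 338) (nat_lit 0) (cs (rf (nat_lit 5)) (cs (rf (nat_lit 6)) (cs (nd (nat_lit 319) (nat_lit 0) (cs (lf (nat_lit 6) (nat_lit 316)) (nd (nat_lit 296) (nat_lit 0) (cs (rf (nat_lit 7)) (nd (nat_lit 363) (nat_lit 0) (cs (nd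 (nat_lit 361) (nat_lit 0) (cs (lf (nat_lit 30) (nat_lit 295)) (rf (nat_lit 8)))) (cs (nd (nat_lit 341) (nat_lit 0) (cs (nd (nat_lit 361) (nat_lit 0) (cs (lf (nat_lit 30) (nat_lit 295)) (nd (nat_lit 364) (nat_lit 0) (cs (lf (nat_lit 2) (nat_lit 338)) (lf (nat_lit 20) (nat_lit 338)))))) (cs (rf (nat_lit 9)) (cs (nd (nat_lit 361) (nat_lit 0) (cs (lf (nat_lit 30) (nat_lit 295)) (rf (nat_lit 10)))) (rf (nat_lit 11)))))) (cs (nd (nat_lit 341) (nat_lit 0) (cs (lf (nat_lit 42) (nat_lit 296)) (rf (nat_lit 9)))) (cs (nd (nat_lit 361) (nat_lit 0) (cs (lf (nat_lit 30) (nat_lit 295)) (nd (nat_lit 341) (nat_lit 0) (cs (lf (nat_lit 42) (nat_lit 296)) (rf (nat_lit 10)))))) (nd (nat_lit 341) (nat_lit 0) (cs (lf (nat_lit 42) (nat_lit 296)) (rf (nat_lit 11))))))))))))) (nd (nat_lit 337) (nat_lit 0) (cs (lf (nat_lit 12) (nat_lit 314)) (nd (nat_lit 340) (nat_lit 0) (cs (rf (nat_lit 12)) (cs (rf (nat_lit 13)) (nd (nat_lit 296) (nat_lit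 0) (cs (lf (nat_lit 37) (nat_lit 251)) (nd (nat_lit 361) (nat_lit 0) (cs (lf (nat_lit 30) (nat_lit 295)) (nd (nat_lit 359) (nat_lit 0) (cs (lf (nat_lit 11) (nat_lit 336)) (nd (nat_lit 314) (nat_lit 0) (cs (lf (nat_lit 22) (nat_lit 314)) (nd (nat_lit 362) (nat_lit 0) (cs (lf (nat_lit 5) (nat_lit 337)) (rf (nat_lit 14))))))))))))))))))))))))))) q46450 (by decide +kernel)

end Crest.Agent.H3.Snaky.CR
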