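import Crest.Agent.H3.Snaky.Cert
import Crest.Agent.H3.Snaky.CR.CR0
import Crest.Agent.H3.Snaky.CR.CR1
import Crest.Agent.H3.Snaky.CR.CR2
import Crest.Agent.H3.Snaky.CR.CR3
import Crest.Agent.H3.Snaky.CR.CR4
import Crest.Agent.H3.Snaky.CR.CR5
import Crest.Agent.H3.Snaky.CR.CR6
import Crest.Agent.H3.Snaky.CR.CR7
import Crest.Agent.H3.Snaky.CR.CR8
import Crest.Agent.H3.Snaky.CR.CR9
import Crest.Agent.H3.Snaky.CR.CR10
import Crest.Agent.H3.Snaky.CR.CR11
import Crest.Agent.H3.Snaky.CR.CR12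
import Crest.Agent.H3.Snaky.CR.CR13
import Crest.Agent.H3.Snaky.CR.CR14
import Crest.Agent.H3.Snaky.CR.CR20
import Crest.Agent.H3.Snaky.CR.CR21
import Crest.Agent.H3.Snaky.CR.CR22
import Crest.Agent.H3.Snaky.CR.CR23
import Crest.Agent.H3.Snaky.CR.CR24
import Crest.Agent.H3.Snaky.CR.CR25
import Crest.Agent.H3.Snaky.CR.CR26
import Crest.Agent.H3.Snaky.CR.CR27
import Crest.Agent.H3.Snaky.CR.CR28
import Crest.Agent.H3.Snaky.CR.CR29
import Crest.Agent.H3.Snaky.CR.CR30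
import Crest.Agent.H3.Snaky.CR.CR31
import Crest.Agent.H3.Snaky.CR.CR39
import Crest.Agent.H3.Snaky.CR.CR40
import Crest.Agent.H3.Snaky.CR.CR41
import Crest.Agent.H3.Snaky.CR.CR42
import Crest.Agent.H3.Snaky.CR.CR43
import Crest.Agent.H3.Snaky.CR.CR44
import Crest.Agent.H3.Snaky.CR.CR45
import Crest.Agent.H3.Snaky.CR.CR46
import Crest.Agent.H3.Snaky.CR.CR47
import Crest.Agent.H3.Snaky.CR.CR54
import Crest.Agent.H3.Snaky.CR.CR55
import Crest.Agent.H3.Snaky.CR.CR56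
import Crest.Agent.H3.Snaky.CR.CR57
import Crest.Agent.H3.Snaky.CR.CR58

set_option autoImplicit false
set_option maxRecDepth 100000

namespace Crest.Agent.H3.Snaky.CR

open T

def q46489 : Q := Q.p (nat_lit 0x8000020000000000100003400000000000000000000000000000000000000000000000000000000000000) (nat_lit 0x140000700001c0003fe0007f0001fe000578001dc000780000e80000380000000000000000000000000000000000000000000000000000000000000) (nat_lit 13)
theorem c46489 : QOK q46489 := cut [q45927, q46234, q46451, q46408, q46441, q46181, q46472, q46482, q46235, q45908, q46010, q46312, q46488] ⟨c45927, c46234, c46451, c46408, c46441, c46181, c46472, c46482, c46235, c45908, c46010, c46312, c46488, trivial⟩ (nd (nat_lit 361) (nat_lit 0) (cs (rf (nat_lit 0)) (cs (rf (nat_lit 1)) (cs (nd (nat_lit 338) (nat_lit 0) (cs (nd (nat_lit 273) (nat_lit 0) (cs (lf (nat_lit 44) (nat_lit 250)) (nd (nat_lit 274) (nat_lit 0) (cs (lf (nat_lit 12) (nat_lit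 249)) (nd (nat_lit 249) (nat_lit 0) (cs (lf (nat_lit 18) (nat_lit 249)) (nd (nat_lit 247) (nat_lit 0) (cs (lf (nat_lit 1) (nat_lit 247)) (nd (nat_lit 318) (nat_lit 0) (cs (lf (nat_lit 38) (nat_lit 251)) (nd (nat_lit 337) (nat_lit 0) (cs (lf (nat_lit 12) (nat_lit 314)) (rf (nat_lit 2)))))))))))))) (cs (nd (nat_lit 273) (nat_lit 0) (cs (lf (nat_lit 44) (nat_lit 250)) (nd (nat_lit 274) (nat_lit 0) (cs (lf (nat_lit 12) (nat_lit 249)) (nd (nat_lit 318) (nat_lit 0) (cs (lf (nat_lit 38) (nat_lit 251)) (nd (nat_lit 319) (nat_lit 0) (cs (lf (nat_lit 6) (nat_lit 316)) (nd (nat_lit 275) (nat_lit 0) (cs (lf (nat_lit 23) (nat_lit 249)) (nd (nat_lit 297) (nat_lit 0) (cs (lf (nat_lit 5) (nat_lit 272)) (lf (nat_lit 41) (nat_lit 252)))))))))))))) (cs (nd (nat_lit 337) (nat_lit 0) (cs (nd (nat_lit 336) (nat_lit 0) (cs (lf (nat_lit 5) (nat_lit 336)) (lf (nat_lit 17) (nat_lit 314)))) (cs (nd (nat_lit 318) (nat_lit 0) (cs (rf (nat_lit 3))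 (cs (rf (nat_lit 2)) (nd (nat_lit 362) (nat_lit 0) (cs (nd (nat_lit 340) (nat_lit 0) (cs (nd (nat_lit 359) (nat_lit 0) (cs (lf (nat_lit 11) (nat_lit 336)) (rf (nat_lit 4)))) (nd (nat_lit 315) (nat_lit 0) (cs (lf (nat_lit 23) (nat_lit 314)) (nd (nat_lit 296) (nat_lit 0) (cs (lf (nat_lit 37) (nat_lit 251)) (rf (nat_lit 5)))))))) (cs (nd (nat_lit 363) (nat_lit 0) (cs (lf (nat_lit 18) (nat_lit 338)) (lf (nat_lit 21) (nat_lit 337)))) (rf (nat_lit 6)))))))) (cs (nd (nat_lit 336) (nat_lit 0) (cs (lf (nat_lit 5) (nat_lit 336)) (nd (nat_lit 335) (nat_lit 0) (cs (lf (nat_lit 4) (nat_lit 335)) (lf (nat_lit 16) (nat_lit 313)))))) (nd (nat_lit 318) (nat_lit 0) (cs (lf (nat_lit 12) (nat_lit 314)) (rf (nat_lit 2)))))))) (rf (nat_lit 7)))))) (cs (nd (nat_lit 318) (nat_lit 0) (cs (rf (nat_lit 8)) (cs (rf (nat_lit 3)) (nd (nat_lit 383) (nat_lit 0) (cs (rf (nat_lit 9)) (cs (rf (nat_lit 10)) (rf (nat_lit 11)))))))) (rf (nat_lit 12)))))))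 q46489 (by decide +kernel)
def q46515 : Q := Q.p (nat_lit 0x2000008000020000000000100002400000000000000000000000000000000000000000000000000000000000000) (nat_lit 0x50000f70003dc001f70001d0000280000a00000000000000000000000000000000000000000000000000000000000000000000) (nat_lit 11)
theorem c46515 : QOK q46515 := cut [q46083, q46492, q45060, q46093, q46494, q46496, q46503, q46504, q46512] ⟨c46083, c46492, c45060, c46093, c46494, c46496, c46503, c46504, c46512, trivial⟩ (nd (nat_lit 362) (nat_lit 0) (cs (rf (nat_lit 0)) (cs (rf (nat_lit 1)) (nd (nat_lit 363) (nat_lit 0) (cs (rf (nat_lit 2)) (cs (rf (nat_lit 3)) (cs (rf (nat_lit 4)) (nd (nat_lit 342) (nat_lit 0) (cs (rf (nat_lit 5)) (cs (rf (nat_lit 6)) (cs (rf (nat_lit 7)) (cs (nd (nat_lit 341) (nat_lit 0) (cs (lf (nat_lit 12) (nat_lit 338)) (nd (nat_lit 316) (nat_lit 0) (cs (nd (nat_lit 319) (nat_lit 0) (cs (lf (nat_lit 2) (nat_lit 316)) (nd (nat_lit 297) (nat_lit 0) (cs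 (lf (nat_lit 41) (nat_lit 296)) (nd (nat_lit 275) (nat_lit 0) (cs (lf (nat_lit 29) (nat_lit 275)) (lf (nat_lit 28) (nat_lit 253)))))))) (lf (nat_lit 20) (nat_lit 316)))))) (rf (nat_lit 8)))))))))))))) q46515 (by decide +kernel)
def q46697 : Q := Q.p (nat_lit 0x180003400000000000000000000000000000000000000000000000000000000000000) (nat_lit 0xb80007fc001ff0007fc000e00000380008c00002000000000000000000000000000000000000000000000000000) (nat_lit 13)
theorem c46697 : QOK q46697 := cut [q46594, q46632, q46633, q46660, q14121, q14128, q14184, q14179, q45153, q46663, q46659, q46639, q18235, q46677, q46687] ⟨c46594, c46632, c46633, c46660, c14121, c14128, c14184, c14179, c45153, c46663, c46659, c46639, c18235, c46677, c46687, trivial⟩ (nd (nat_lit 294) (nat_lit 0) (cs (nd (nat_lit 274) (nat_lit 0) (cs (lf (nat_lit 14) (nat_lit 249)) (nd (nat_lit 296) (nat_lit 0) (cs (rf (nat_lit 0)) (cs (nd (nat_lit 295) (nat_lit 0) (cs (lf (nat_lit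 18) (nat_lit 271)) (nd (nat_lit 293) (nat_lit 0) (cs (lf (nat_lit 17) (nat_lit 271)) (nd (nat_lit 315) (nat_lit 0) (cs (lf (nat_lit 11) (nat_lit 292)) (lf (nat_lit 30) (nat_lit 249)))))))) (nd (nat_lit 295) (nat_lit 0) (cs (lf (nat_lit 18) (nat_lit 271)) (nd (nat_lit 318) (nat_lit 0) (cs (lf (nat_lit 35) (nat_lit 230)) (nd (nat_lit 319) (nat_lit 0) (cs (lf (nat_lit 29) (nat_lit 252)) (lf (nat_lit 0) (nat_lit 293))))))))))))) (cs (nd (nat_lit 274) (nat_lit 0) (cs (lf (nat_lit 14) (nat_lit 249)) (nd (nat_lit 296) (nat_lit 0) (cs (rf (nat_lit 0)) (cs (rf (nat_lit 1)) (nd (nat_lit 295) (nat_lit 0) (cs (lf (nat_lit 18) (nat_lit 271)) (rf (nat_lit 2))))))))) (cs (rf (nat_lit 3)) (cs (nd (nat_lit 316) (nat_lit 0) (cs (rf (nat_lit 4)) (cs (rf (nat_lit 5)) (cs (rf (nat_lit 6)) (nd (nat_lit 315) (nat_lit 0) (cs (lf (nat_lit 41) (nat_lit 249)) (nd (nat_lit 314) (nat_lit 0) (cs (rf (nat_lit 7)) (cs (rf (nat_lit 8)) (nd (nat_lit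 227) (nat_lit 0) (cs (lf (nat_lit 46) (nat_lit 227)) (nd (nat_lit 317) (nat_lit 0) (cs (lf (nat_lit 29) (nat_lit 250)) (nd (nat_lit 291) (nat_lit 0) (cs (lf (nat_lit 22) (nat_lit 291)) (nd (nat_lit 335) (nat_lit 0) (cs (lf (nat_lit 10) (nat_lit 313)) (nd (nat_lit 296) (nat_lit 0) (cs (lf (nat_lit 16) (nat_lit 292)) (rf (nat_lit 9))))))))))))))))))))) (cs (nd (nat_lit 316) (nat_lit 0) (cs (rf (nat_lit 10)) (cs (nd (nat_lit 273) (nat_lit 0) (cs (lf (nat_lit 15) (nat_lit 249)) (nd (nat_lit 337) (nat_lit 0) (cs (lf (nat_lit 40) (nat_lit 249)) (nd (nat_lit 338) (nat_lit 0) (cs (lf (nat_lit 41) (nat_lit 271)) (rf (nat_lit 11)))))))) (nd (nat_lit 296) (nat_lit 0) (cs (nd (nat_lit 315) (nat_lit 0) (cs (lf (nat_lit 41) (nat_lit 249)) (nd (nat_lit 295) (nat_lit 0) (cs (lf (nat_lit 6) (nat_lit 293)) (rf (nat_lit 12)))))) (nd (nat_lit 227) (nat_lit 0) (cs (lf (nat_lit 46) (nat_lit 227)) (rf (nat_lit 13))))))))) (nd (nat_lit 273)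 (nat_lit 0) (cs (lf (nat_lit 15) (nat_lit 249)) (nd (nat_lit 316) (nat_lit 0) (cs (rf (nat_lit 4)) (cs (rf (nat_lit 5)) (cs (rf (nat_lit 6)) (nd (nat_lit 315) (nat_lit 0) (cs (lf (nat_lit 41) (nat_lit 249)) (nd (nat_lit 317) (nat_lit 0) (cs (lf (nat_lit 29) (nat_lit 250)) (nd (nat_lit 249) (nat_lit 0) (cs (lf (nat_lit 47) (nat_lit 227)) (nd (nat_lit 248) (nat_lit 0) (cs (lf (nat_lit 0) (nat_lit 247)) (nd (nat_lit 293) (nat_lit 0) (cs (lf (nat_lit 47) (nat_lit 226)) (nd (nat_lit 291) (nat_lit 0) (cs (rf (nat_lit 14)) (lf (nat_lit 1) (nat_lit 291)))))))))))))))))))))))))) q46697 (by decide +kernel)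
def q46770 : Q := Q.p (nat_lit 0x1c0003400000000000000000000000000000000000000000000000000000000000000) (nat_lit 0x1c0006300002e0000000000000000000000000000000000000000000000000000000000000) (nat_lit 6)
theorem c46770 : QOK q46770 := cut [q46769] ⟨c46769, trivial⟩ (nd (nat_lit 273) (nat_lit 0) (cs (lf (nat_lit 15) (nat_lit 249)) (rf (nat_lit 0)))) q46770 (by decide +kernel)
def q46894 : Q := Q.p (nat_lit 0x1c0003400000000000000000000000000000000000000000000000000000000000000) (nat_lit 0x280008e0003ff000ff8003be000e30000300008c00003000000000000000000000000000000000000000000000000000) (nat_lit 13)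
theorem c46894 : QOK q46894 := cut [q46803, q46702, q46701, q46804, q46807, q46677, q46820, q46818, q46832, q46838, q46857, q46861, q46893] ⟨c46803, c46702, c46701, c46804, c46807, c46677, c46820, c46818, c46832, c46838, c46857, c46861, c46893, trivial⟩ (nd (nat_lit 292) (nat_lit 0) (cs (rf (nat_lit 0)) (cs (nd (nat_lit 314) (nat_lit 0) (cs (rf (nat_lit 1)) (cs (nd (nat_lit 249) (nat_lit 0) (cs (rf (nat_lit 2)) (cs (nd (nat_lit 315) (nat_lit 0) (cs (rf (nat_lit 3)) (cs (nd (nat_lit 273) (nat_lit 0) (cs (lf (nat_lit 15) (nat_lit 249)) (nd (nat_lit 295) (nat_lit 0) (cs (lf (nat_lit 5) (nat_lit 270)) (nd (nat_lit 339) (nat_lit 0) (cs (lf (nat_lit 43) (nat_lit 250)) (nd (nat_lit 268) (nat_lit 0) (cs (lf (nat_lit 13) (nat_lit 246)) (nd (nat_lit 337) (nat_lit 0) (cs (lf (nat_lit 24) (nat_lit 248)) (nd (nat_lit 359) (nat_lit 0) (cs (nd (nat_lit 338) (nat_lit 0) (cs (rf (nat_lit 4)) (lf (nat_lit 18) (nat_lit 314)))) (lf (nat_lit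 42) (nat_lit 292)))))))))))))) (cs (nd (nat_lit 268) (nat_lit 0) (cs (lf (nat_lit 13) (nat_lit 246)) (nd (nat_lit 296) (nat_lit 0) (cs (rf (nat_lit 5)) (cs (nd (nat_lit 295) (nat_lit 0) (cs (lf (nat_lit 3) (nat_lit 270)) (nd (nat_lit 316) (nat_lit 0) (cs (lf (nat_lit 15) (nat_lit 292)) (rf (nat_lit 6)))))) (nd (nat_lit 316) (nat_lit 0) (cs (rf (nat_lit 6)) (cs (nd (nat_lit 317) (nat_lit 0) (cs (lf (nat_lit 16) (nat_lit 292)) (nd (nat_lit 297) (nat_lit 0) (cs (lf (nat_lit 15) (nat_lit 293)) (nd (nat_lit 339) (nat_lit 0) (cs (lf (nat_lit 5) (nat_lit 314)) (nd (nat_lit 313) (nat_lit 0) (cs (lf (nat_lit 4) (nat_lit 313)) (rf (nat_lit 7)))))))))) (nd (nat_lit 317) (nat_lit 0) (cs (lf (nat_lit 16) (nat_lit 292)) (nd (nat_lit 318) (nat_lit 0) (cs (lf (nat_lit 17) (nat_lit 293)) (lf (nat_lit 22) (nat_lit 292)))))))))))))) (nd (nat_lit 273) (nat_lit 0) (cs (lf (nat_lit 15) (nat_lit 249)) (nd (nat_lit 295) (nat_lit 0) (cs (lf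 (nat_lit 5) (nat_lit 270)) (nd (nat_lit 317) (nat_lit 0) (cs (lf (nat_lit 42) (nat_lit 250)) (nd (nat_lit 293) (nat_lit 0) (cs (lf (nat_lit 30) (nat_lit 249)) (rf (nat_lit 8)))))))))))))) (rf (nat_lit 9))))) (cs (rf (nat_lit 10)) (rf (nat_lit 11)))))) (rf (nat_lit 12))))) q46894 (by decide +kernel)
def q47050 : Q := Q.p (nat_lit 0x1c0000600000000010000040000000000000000000000000000000000000000000000) (nat_lit 0x40000100000300001c0000f0000fc0009f000014000000000000000000000000000000000000000) (nat_lit 9)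
theorem c47050 : QOK q47050 := cut [q46578, q46958, q44591, q47045, q17210] ⟨c46578, c46958, c44591, c47045, c17210, trivial⟩ (nd (nat_lit 227) (nat_lit 0) (cs (rf (nat_lit 0)) (cs (rf (nat_lit 1)) (nd (nat_lit 247) (nat_lit 0) (cs (rf (nat_lit 2)) (cs (rf (nat_lit 3)) (nd (nat_lit 248) (nat_lit 0) (cs (lf (nat_lit 0) (nat_lit 246)) (nd (nat_lit 292) (nat_lit 0) (cs (lf (nat_lit 30) (nat_lit 226)) (nd (nat_lit 225) (nat_lit 0) (cs (lf (nat_lit 23) (nat_lit 224)) (rf (nat_lit 4)))))))))))))) q47050 (by decide +kernel)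
def q47074 : Q := Q.p (nat_lit 0x20000680000800000000000000000000000000000000000000000000000000000000) (nat_lit 0xc000010000100000700001c00007000014000000000000000000000000000000000000000) (nat_lit 7)
theorem c47074 : QOK q47074 := cut [q45758, q47042, q47073] ⟨c45758, c47042, c47073, trivial⟩ (nd (nat_lit 225) (nat_lit 0) (cs (rf (nat_lit 0)) (cs (rf (nat_lit 1)) (rf (nat_lit 2))))) q47074 (by decide +kernel)
def q47088 : Q := Q.p (nat_lit 0x20000680000800000000000000000000000000000000000000000000000000000000) (nat_lit 0x100000c000010000040000700001e00007000014000000000000000000000000000000000000000) (nat_lit 7)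
theorem c47088 : QOK q47088 := cut [q45794, q45795, q47079, q45689, q45793, q45760, q47086] ⟨c45794, c45795, c47079, c45689, c45793, c45760, c47086, trivial⟩ (nd (nat_lit 225) (nat_lit 0) (cs (rf (nat_lit 0)) (cs (rf (nat_lit 1)) (cs (rf (nat_lit 2)) (cs (nd (nat_lit 203) (nat_lit 0) (cs (rf (nat_lit 3)) (cs (rf (nat_lit 4)) (nd (nat_lit 202) (nat_lit 0) (cs (lf (nat_lit 47) (nat_lit 180)) (nd (nat_lit 226) (nat_lit 0) (cs (lf (nat_lit 0) (nat_lit 224)) (nd (nat_lit 204) (nat_lit 0) (cs (lf (nat_lit 0) (nat_lit 201)) (lf (nat_lit 35) (nat_lit 181))))))))))) (nd (nat_lit 203) (nat_lit 0) (cs (rf (nat_lit 3)) (cs (rf (nat_lit 5)) (cs (rf (nat_lit 4)) (rf (nat_lit 6))))))))))) q47088 (by decide +kernel)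
def q47104 : Q := Q.p (nat_lit 0x20000780000000000000000000000000000000000000000000000000000000000000) (nat_lit 0x140000700001c000000000000000700001c0000700001c000040000000000000000000000000000000000) (nat_lit 8)
theorem c47104 : QOK q47104 := cut [q45760, q47092, q41050, q47102] ⟨c45760, c47092, c41050, c47102, trivial⟩ (nd (nat_lit 225) (nat_lit 0) (cs (lf (nat_lit 23) (nat_lit 224)) (nd (nat_lit 203) (nat_lit 0) (cs (rf (nat_lit 0)) (cs (rf (nat_lit 1)) (cs (nd (nat_lit 180) (nat_lit 0) (cs (lf (nat_lit 46) (nat_lit 180)) (nd (nat_lit 181) (nat_lit 0) (cs (lf (nat_lit 47) (nat_lit 158)) (nd (nat_lit 159) (nat_lit 0) (cs (lf (nat_lit 28) (nat_lit 159)) (rf (nat_lit 2)))))))) (rf (nat_lit 3)))))))) q47104 (by decide +kernel)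
def q47184 : Q := Q.p (nat_lit 0x1c0001600000000000000000000000000000000000000000000000000000000000000) (nat_lit 0x1fe0007f0003fe0004000001c0000700000000000000000000000000000000000000000000000000000000) (nat_lit 11)
theorem c47184 : QOK q47184 := cut [q47118, q47133, q47132, q47127, q47145, q47155, q47157, q47162, q46986, q47178, q47182] ⟨c47118, c47133, c47132, c47127, c47145, c47155, c47157, c47162, c46986, c47178, c47182, trivial⟩ (nd (nat_lit 315) (nat_lit 0) (cs (nd (nat_lit 316) (nat_lit 0) (cs (rf (nat_lit 0)) (cs (rf (nat_lit 1)) (cs (nd (nat_lit 314) (nat_lit 0) (cs (rf (nat_lit 2)) (cs (nd (nat_lit 294) (nat_lit 0) (cs (lf (nat_lit 41) (nat_lit 249)) (rf (nat_lit 3)))) (nd (nat_lit 292) (nat_lit 0) (cs (lf (nat_lit 30) (nat_lit 248)) (nd (nat_lit 337) (nat_lit 0) (cs (lf (nat_lit 24) (nat_lit 248)) (lf (nat_lit 38) (nat_lit 249))))))))) (nd (nat_lit 314) (nat_lit 0) (cs (rf (nat_lit 2)) (cs (nd (nat_lit 313)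 (nat_lit 0) (cs (nd (nat_lit 338) (nat_lit 0) (cs (lf (nat_lit 5) (nat_lit 313)) (nd (nat_lit 312) (nat_lit 0) (cs (nd (nat_lit 334) (nat_lit 0) (cs (lf (nat_lit 10) (nat_lit 312)) (lf (nat_lit 11) (nat_lit 311)))) (lf (nat_lit 4) (nat_lit 312)))))) (cs (nd (nat_lit 338) (nat_lit 0) (cs (lf (nat_lit 5) (nat_lit 313)) (nd (nat_lit 312) (nat_lit 0) (cs (lf (nat_lit 4) (nat_lit 312)) (rf (nat_lit 4)))))) (cs (nd (nat_lit 334) (nat_lit 0) (cs (lf (nat_lit 10) (nat_lit 312)) (nd (nat_lit 290) (nat_lit 0) (cs (lf (nat_lit 22) (nat_lit 290)) (nd (nat_lit 339) (nat_lit 0) (cs (lf (nat_lit 4) (nat_lit 313)) (nd (nat_lit 317) (nat_lit 0) (cs (lf (nat_lit 5) (nat_lit 314)) (nd (nat_lit 296) (nat_lit 0) (cs (lf (nat_lit 16) (nat_lit 292)) (nd (nat_lit 318) (nat_lit 0) (cs (lf (nat_lit 17) (nat_lit 293)) (lf (nat_lit 37) (nat_lit 251)))))))))))))) (rf (nat_lit 5)))))) (nd (nat_lit 292) (nat_lit 0) (cs (lf (nat_lit 30) (nat_lit 248))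 (nd (nat_lit 248) (nat_lit 0) (cs (lf (nat_lit 29) (nat_lit 248)) (rf (nat_lit 6))))))))))))) (cs (nd (nat_lit 316) (nat_lit 0) (cs (rf (nat_lit 1)) (cs (nd (nat_lit 314) (nat_lit 0) (cs (rf (nat_lit 2)) (cs (nd (nat_lit 336) (nat_lit 0) (cs (lf (nat_lit 38) (nat_lit 248)) (nd (nat_lit 317) (nat_lit 0) (cs (lf (nat_lit 11) (nat_lit 313)) (rf (nat_lit 7)))))) (cs (nd (nat_lit 317) (nat_lit 0) (cs (rf (nat_lit 7)) (cs (nd (nat_lit 291) (nat_lit 0) (cs (lf (nat_lit 22) (nat_lit 291)) (nd (nat_lit 295) (nat_lit 0) (cs (lf (nat_lit 17) (nat_lit 292)) (nd (nat_lit 313) (nat_lit 0) (cs (lf (nat_lit 23) (nat_lit 290)) (lf (nat_lit 16) (nat_lit 291)))))))) (nd (nat_lit 339) (nat_lit 0) (cs (lf (nat_lit 5) (nat_lit 314)) (nd (nat_lit 295) (nat_lit 0) (cs (lf (nat_lit 17) (nat_lit 292)) (nd (nat_lit 292) (nat_lit 0) (cs (lf (nat_lit 23) (nat_lit 291)) (nd (nat_lit 293) (nat_lit 0) (cs (lf (nat_lit 18) (nat_lit 292)) (nd (nat_lit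 248) (nat_lit 0) (cs (lf (nat_lit 24) (nat_lit 226)) (rf (nat_lit 6))))))))))))))) (nd (nat_lit 336) (nat_lit 0) (cs (lf (nat_lit 38) (nat_lit 248)) (lf (nat_lit 32) (nat_lit 248)))))))) (cs (nd (nat_lit 293) (nat_lit 0) (cs (lf (nat_lit 29) (nat_lit 249)) (rf (nat_lit 8)))) (rf (nat_lit 9)))))) (cs (rf (nat_lit 10)) (nd (nat_lit 293) (nat_lit 0) (cs (lf (nat_lit 30) (nat_lit 249)) (rf (nat_lit 8)))))))) q47184 (by decide +kernel)
def q47211 : Q := Q.p (nat_lit 0x1c0000600000000000000000000000000000000000000000000000000000000000000) (nat_lit 0xf00007f0001fc0000300000e0000000000000000000000000000000000000000000000000000000000000) (nat_lit 9)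
theorem c47211 : QOK q47211 := cut [q47185, q47204, q46768, q47208] ⟨c47185, c47204, c46768, c47208, trivial⟩ (nd (nat_lit 294) (nat_lit 0) (cs (rf (nat_lit 0)) (cs (rf (nat_lit 1)) (nd (nat_lit 316) (nat_lit 0) (cs (lf (nat_lit 42) (nat_lit 249)) (nd (nat_lit 291) (nat_lit 0) (cs (rf (nat_lit 2)) (rf (nat_lit 3))))))))) q47211 (by decide +kernel)
def q47268 : Q := Q.p (nat_lit 0x1c0003600000000000000000000000000000000000000000000000000000000000000) (nat_lit 0x3e0000fc0003f0000c300001c0008700000800002000000000000000000000000000000000000000000000) (nat_lit 12)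
theorem c47268 : QOK q47268 := cut [q46600, q47239, q47267] ⟨c46600, c47239, c47267, trivial⟩ (nd (nat_lit 248) (nat_lit 0) (cs (rf (nat_lit 0)) (cs (nd (nat_lit 269) (nat_lit 0) (cs (lf (nat_lit 12) (nat_lit 246)) (nd (nat_lit 294) (nat_lit 0) (cs (lf (nat_lit 5) (nat_lit 269)) (nd (nat_lit 316) (nat_lit 0) (cs (lf (nat_lit 42) (nat_lit 249)) (nd (nat_lit 315) (nat_lit 0) (cs (lf (nat_lit 41) (nat_lit 249)) (rf (nat_lit 1)))))))))) (rf (nat_lit 2))))) q47268 (by decide +kernel)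
def q47286 : Q := Q.p (nat_lit 0x180000600000000010000040000000000000000000000000000000000000000000000) (nat_lit 0x600001f00007c0000300001c0000f0000f00009c000000000000000000000000000000000000000000000) (nat_lit 11)
theorem c47286 : QOK q47286 := cut [q40946, q46578, q46576, q46588, q45192, q47280] ⟨c40946, c46578, c46576, c46588, c45192, c47280, trivial⟩ (nd (nat_lit 227) (nat_lit 0) (cs (rf (nat_lit 0)) (cs (rf (nat_lit 1)) (nd (nat_lit 293) (nat_lit 0) (cs (rf (nat_lit 2)) (cs (rf (nat_lit 3)) (nd (nat_lit 226) (nat_lit 0) (cs (lf (nat_lit 47) (nat_lit 204)) (nd (nat_lit 294) (nat_lit 0) (cs (rf (nat_lit 4)) (nd (nat_lit 292) (nat_lit 0) (cs (lf (nat_lit 41) (nat_lit 226)) (nd (nat_lit 291) (nat_lit 0) (cs (lf (nat_lit 12) (nat_lit 268)) (rf (nat_lit 5)))))))))))))))) q47286 (by decide +kernel)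
def q47319 : Q := Q.p (nat_lit 0x180000600000000010000040000000000000000000000000000000000000000000000) (nat_lit 0x700003c0000f0000fe0000700001e0000f0000fc0009f000014000000000000000000000000000000000000000) (nat_lit 13)
theorem c47319 : QOK q47319 := cut [q40946, q46578, q46588, q47034, q46957, q46767, q46774, q47292, q47300, q44591, q47045, q47307, q47311] ⟨c40946, c46578, c46588, c47034, c46957, c46767, c46774, c47292, c47300, c44591, c47045, c47307, c47311, trivial⟩ (nd (nat_lit 227) (nat_lit 0) (cs (rf (nat_lit 0)) (cs (rf (nat_lit 1)) (nd (nat_lit 293) (nat_lit 0) (cs (rf (nat_lit 2)) (cs (rf (nat_lit 3)) (nd (nat_lit 270) (nat_lit 0) (cs (rf (nat_lit 4)) (cs (nd (nat_lit 226) (nat_lit 0) (cs (lf (nat_lit 47) (nat_lit 204)) (nd (nat_lit 224) (nat_lit 0) (cs (lf (nat_lit 1) (nat_lit 224)) (nd (nat_lit 269) (nat_lit 0) (cs (rf (nat_lit 5)) (cs (rf (nat_lit 6)) (nd (nat_lit 247) (nat_lit 0) (cs (lf (nat_lit 23) (nat_lit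 246)) (nd (nat_lit 291) (nat_lit 0) (cs (lf (nat_lit 11) (nat_lit 268)) (rf (nat_lit 7))))))))))))) (cs (nd (nat_lit 269) (nat_lit 0) (cs (lf (nat_lit 12) (nat_lit 246)) (nd (nat_lit 292) (nat_lit 0) (cs (lf (nat_lit 41) (nat_lit 226)) (nd (nat_lit 291) (nat_lit 0) (cs (lf (nat_lit 12) (nat_lit 268)) (nd (nat_lit 294) (nat_lit 0) (cs (lf (nat_lit 5) (nat_lit 269)) (nd (nat_lit 246) (nat_lit 0) (cs (lf (nat_lit 22) (nat_lit 246)) (rf (nat_lit 8)))))))))))) (cs (nd (nat_lit 247) (nat_lit 0) (cs (rf (nat_lit 9)) (cs (rf (nat_lit 10)) (nd (nat_lit 248) (nat_lit 0) (cs (lf (nat_lit 0) (nat_lit 246)) (nd (nat_lit 226) (nat_lit 0) (cs (lf (nat_lit 47) (nat_lit 204)) (rf (nat_lit 11))))))))) (nd (nat_lit 226) (nat_lit 0) (cs (lf (nat_lit 47) (nat_lit 204)) (nd (nat_lit 269) (nat_lit 0) (cs (lf (nat_lit 12) (nat_lit 246)) (nd (nat_lit 225) (nat_lit 0) (cs (lf (nat_lit 0) (nat_lit 224)) (nd (nat_lit 294) (nat_lit 0) (cs (lf (nat_lit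 5) (nat_lit 269)) (nd (nat_lit 292) (nat_lit 0) (cs (lf (nat_lit 41) (nat_lit 226)) (rf (nat_lit 12))))))))))))))))))))))) q47319 (by decide +kernel)
def q47374 : Q := Q.p (nat_lit 0x180000600000000010000040000000000000000000000000000000000000000000000) (nat_lit 0x70000ff0003fc000070000000000c0000f00009c000000000000000000000000000000000000000000000) (nat_lit 12)
theorem c47374 : QOK q47374 := cut [q40946, q46578, q46576, q47034, q45192] ⟨c40946, c46578, c46576, c47034, c45192, trivial⟩ (nd (nat_lit 227) (nat_lit 0) (cs (rf (nat_lit 0)) (cs (rf (nat_lit 1)) (nd (nat_lit 293) (nat_lit 0) (cs (rf (nat_lit 2)) (cs (rf (nat_lit 3)) (nd (nat_lit 294) (nat_lit 0) (cs (rf (nat_lit 4)) (nd (nat_lit 204) (nat_lit 0) (cs (lf (nat_lit 46) (nat_lit 204)) (nd (nat_lit 292) (nat_lit 0) (cs (lf (nat_lit 41) (nat_lit 226)) (nd (nat_lit 291) (nat_lit 0) (cs (lf (nat_lit 12) (nat_lit 268)) (nd (nat_lit 312) (nat_lit 0) (cs (lf (nat_lit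 10) (nat_lit 290)) (nd (nat_lit 269) (nat_lit 0) (cs (lf (nat_lit 23) (nat_lit 268)) (nd (nat_lit 295) (nat_lit 0) (cs (lf (nat_lit 22) (nat_lit 269)) (nd (nat_lit 318) (nat_lit 0) (cs (lf (nat_lit 4) (nat_lit 292)) (nd (nat_lit 296) (nat_lit 0) (cs (lf (nat_lit 18) (nat_lit 271)) (lf (nat_lit 5) (nat_lit 293)))))))))))))))))))))))))) q47374 (by decide +kernel)
def q47439 : Q := Q.p (nat_lit 0x180003600000000010000040000000000000000000000000000000000000000000000) (nat_lit 0xf4000df0003ec000c700001c0008f0000fc000bfc00014000000000000000000000000000000000000000) (nat_lit 13)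
theorem c47439 : QOK q47439 := cut [q47375, q40946, q46578, q46576, q46588, q45241, q47182, q47382, q47178, q46965, q47072, q47073, q45760, q47077, q47388, q47396, q47397, q47079, q45795, q45689, q45793, q47402, q45794, q47409, q47411, q47421, q47428, q45697, q46966, q47438] ⟨c47375, c40946, c46578, c46576, c46588, c45241, c47182, c47382, c47178, c46965, c47072, c47073, c45760, c47077, c47388, c47396, c47397, c47079, c45795, c45689, c45793, c47402, c45794, c47409, c47411, c47421, c47428, c45697, c46966, c47438, trivial⟩ (nd (nat_lit 269) (nat_lit 0) (cs (rf (nat_lit 0)) (cs (nd (nat_lit 227) (nat_lit 0) (cs (rf (nat_lit 1)) (cs (rf (nat_lit 2)) (nd (nat_lit 293) (nat_lit 0) (cs (rf (nat_lit 3)) (cs (rf (nat_lit 4)) (nd (nat_lit 204) (nat_lit 0) (cs (lf (nat_lit 46) (nat_lit 204)) (nd (nat_lit 294) (nat_lit 0) (cs (lf (nat_lit 29) (nat_lit 227)) (nd (nat_lit 295) (nat_lit 0) (cs (lf (nat_lit 1) (nat_lit 269)) (rf (nat_lit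 5)))))))))))))) (cs (nd (nat_lit 315) (nat_lit 0) (cs (rf (nat_lit 6)) (cs (nd (nat_lit 293) (nat_lit 0) (cs (lf (nat_lit 30) (nat_lit 249)) (nd (nat_lit 314) (nat_lit 0) (cs (lf (nat_lit 41) (nat_lit 248)) (rf (nat_lit 7)))))) (cs (nd (nat_lit 316) (nat_lit 0) (cs (rf (nat_lit 8)) (cs (nd (nat_lit 293) (nat_lit 0) (cs (lf (nat_lit 29) (nat_lit 249)) (rf (nat_lit 9)))) (nd (nat_lit 227) (nat_lit 0) (cs (lf (nat_lit 43) (nat_lit 227)) (rf (nat_lit 2))))))) (cs (nd (nat_lit 247) (nat_lit 0) (cs (rf (nat_lit 10)) (cs (nd (nat_lit 225) (nat_lit 0) (cs (rf (nat_lit 11)) (cs (nd (nat_lit 203) (nat_lit 0) (cs (rf (nat_lit 12)) (cs (rf (nat_lit 13)) (nd (nat_lit 202) (nat_lit 0) (cs (lf (nat_lit 47) (nat_lit 180)) (nd (nat_lit 224) (nat_lit 0) (cs (lf (nat_lit 42) (nat_lit 202)) (nd (nat_lit 268) (nat_lit 0) (cs (lf (nat_lit 41) (nat_lit 202)) (rf (nat_lit 14))))))))))) (cs (rf (nat_lit 15)) (rf (nat_lit 16)))))) (cs (nd (nat_lit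 294) (nat_lit 0) (cs (nd (nat_lit 225) (nat_lit 0) (cs (rf (nat_lit 17)) (cs (nd (nat_lit 227) (nat_lit 0) (cs (lf (nat_lit 24) (nat_lit 205)) (rf (nat_lit 18)))) (cs (nd (nat_lit 203) (nat_lit 0) (cs (rf (nat_lit 19)) (cs (rf (nat_lit 12)) (cs (rf (nat_lit 20)) (nd (nat_lit 205) (nat_lit 0) (cs (lf (nat_lit 25) (nat_lit 205)) (nd (nat_lit 180) (nat_lit 0) (cs (lf (nat_lit 46) (nat_lit 180)) (nd (nat_lit 268) (nat_lit 0) (cs (lf (nat_lit 41) (nat_lit 202)) (rf (nat_lit 21)))))))))))) (nd (nat_lit 227) (nat_lit 0) (cs (lf (nat_lit 24) (nat_lit 205)) (rf (nat_lit 22)))))))) (rf (nat_lit 23)))) (nd (nat_lit 225) (nat_lit 0) (cs (rf (nat_lit 15)) (cs (nd (nat_lit 204) (nat_lit 0) (cs (rf (nat_lit 24)) (cs (nd (nat_lit 246) (nat_lit 0) (cs (lf (nat_lit 2) (nat_lit 246)) (nd (nat_lit 291) (nat_lit 0) (cs (lf (nat_lit 34) (nat_lit 203)) (nd (nat_lit 312) (nat_lit 0) (cs (lf (nat_lit 40) (nat_lit 224)) (nd (nat_lit 313) (nat_lit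 0) (cs (lf (nat_lit 41) (nat_lit 246)) (nd (nat_lit 314) (nat_lit 0) (cs (lf (nat_lit 29) (nat_lit 247)) (nd (nat_lit 338) (nat_lit 0) (cs (lf (nat_lit 4) (nat_lit 312)) (nd (nat_lit 316) (nat_lit 0) (cs (lf (nat_lit 44) (nat_lit 249)) (lf (nat_lit 5) (nat_lit 313)))))))))))))))) (nd (nat_lit 246) (nat_lit 0) (cs (lf (nat_lit 2) (nat_lit 246)) (nd (nat_lit 203) (nat_lit 0) (cs (lf (nat_lit 35) (nat_lit 181)) (nd (nat_lit 180) (nat_lit 0) (cs (lf (nat_lit 46) (nat_lit 180)) (nd (nat_lit 181) (nat_lit 0) (cs (lf (nat_lit 47) (nat_lit 158)) (nd (nat_lit 178) (nat_lit 0) (cs (lf (nat_lit 1) (nat_lit 178)) (rf (nat_lit 25))))))))))))))) (cs (rf (nat_lit 26)) (nd (nat_lit 224) (nat_lit 0) (cs (rf (nat_lit 27)) (rf (nat_lit 14)))))))))))) (nd (nat_lit 293) (nat_lit 0) (cs (lf (nat_lit 30) (nat_lit 249)) (rf (nat_lit 28))))))))) (rf (nat_lit 29)))))) q47439 (by decide +kernel)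
def q47488 : Q := Q.p (nat_lit 0x180000600000000010000040000000000000000000000000000000000000000000000) (nat_lit 0xf0000ff0003fc0000700001c0000b0000fc000bc000000000000000000000000000000000000000000000) (nat_lit 12)
theorem c47488 : QOK q47488 := cut [q46571, q46981, q45192, q46587, q47470, q47474, q47203, q47486] ⟨c46571, c46981, c45192, c46587, c47470, c47474, c47203, c47486, trivial⟩ (nd (nat_lit 293) (nat_lit 0) (cs (rf (nat_lit 0)) (cs (rf (nat_lit 1)) (cs (nd (nat_lit 294) (nat_lit 0) (cs (rf (nat_lit 2)) (cs (nd (nat_lit 227) (nat_lit 0) (cs (lf (nat_lit 24) (nat_lit 205)) (rf (nat_lit 3)))) (rf (nat_lit 4))))) (cs (nd (nat_lit 315) (nat_lit 0) (cs (lf (nat_lit 30) (nat_lit 249)) (rf (nat_lit 5)))) (nd (nat_lit 294) (nat_lit 0) (cs (rf (nat_lit 6)) (cs (rf (nat_lit 4)) (cs (nd (nat_lit 316) (nat_lit 0) (cs (lf (nat_lit 42) (nat_lit 249)) (nd (nat_lit 317) (nat_lit 0) (cs (lf (nat_lit 29) (nat_lit 250)) (nd (nat_lit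 318) (nat_lit 0) (cs (lf (nat_lit 18) (nat_lit 293)) (nd (nat_lit 315) (nat_lit 0) (cs (lf (nat_lit 30) (nat_lit 249)) (nd (nat_lit 314) (nat_lit 0) (cs (lf (nat_lit 41) (nat_lit 248)) (nd (nat_lit 296) (nat_lit 0) (cs (lf (nat_lit 17) (nat_lit 293)) (lf (nat_lit 7) (nat_lit 292)))))))))))))) (rf (nat_lit 7))))))))))) q47488 (by decide +kernel)
def q47502 : Q := Q.p (nat_lit 0x180000600000000010000040000000000000000000000000000000000000000000000) (nat_lit 0x700001f0000fc0000700001c0000f0000ec00098000000000000000000000000000000000000000000000) (nat_lit 12)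
theorem c47502 : QOK q47502 := cut [q40946, q47499, q46576, q47034, q45192, q46587] ⟨c40946, c47499, c46576, c47034, c45192, c46587, trivial⟩ (nd (nat_lit 227) (nat_lit 0) (cs (rf (nat_lit 0)) (cs (rf (nat_lit 1)) (nd (nat_lit 293) (nat_lit 0) (cs (rf (nat_lit 2)) (cs (rf (nat_lit 3)) (nd (nat_lit 294) (nat_lit 0) (cs (rf (nat_lit 4)) (rf (nat_lit 5)))))))))) q47502 (by decide +kernel)
def q47579 : Q := Q.p (nat_lit 0x100000180000400000000000000000000000000000000000000000000000000000000000000) (nat_lit 0x280007e0000fc0002e0000060000200000800000000000000000000000000000000000000000000000000000000) (nat_lit 9)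
theorem c47579 : QOK q47579 := cut [q46596, q46632, q14121, q14128, q14184, q46663, q44111] ⟨c46596, c46632, c14121, c14128, c14184, c46663, c44111, trivial⟩ (nd (nat_lit 294) (nat_lit 0) (cs (rf (nat_lit 0)) (cs (rf (nat_lit 1)) (cs (nd (nat_lit 316) (nat_lit 0) (cs (rf (nat_lit 2)) (cs (rf (nat_lit 3)) (cs (rf (nat_lit 4)) (nd (nat_lit 315) (nat_lit 0) (cs (lf (nat_lit 41) (nat_lit 249)) (nd (nat_lit 227) (nat_lit 0) (cs (lf (nat_lit 46) (nat_lit 227)) (nd (nat_lit 317) (nat_lit 0) (cs (lf (nat_lit 29) (nat_lit 250)) (rf (nat_lit 5)))))))))))) (nd (nat_lit 316) (nat_lit 0) (cs (rf (nat_lit 2)) (cs (rf (nat_lit 3)) (cs (rf (nat_lit 4)) (nd (nat_lit 315) (nat_lit 0) (cs (lf (nat_lit 41) (nat_lit 249)) (nd (nat_lit 227) (nat_lit 0) (cs (lf (nat_lit 46) (nat_lit 227)) (nd (nat_lit 317) (nat_lit 0) (cs (lf (nat_lit 29) (nat_lit 250)) (nd (nat_lit 295) (nat_lit 0) (cs (lf (nat_lit 12) (nat_lit 292)) (rf (nat_lit 6))))))))))))))))))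 q47579 (by decide +kernel)
def q47686 : Q := Q.p (nat_lit 0x1c0003400000000000000000000000000000000000000000000000000000000000000) (nat_lit 0x280008e00037f800ffc0017f800e30000300008e0000380000e000020000000000000000000000000000000000000000) (nat_lit 13)
theorem c47686 : QOK q47686 := cut [q46803, q46893, q46702, q47614, q46840, q46853, q46856, q47608, q47649, q46715, q46747, q47655, q46701, q47661, q46682, q47675] ⟨c46803, c46893, c46702, c47614, c46840, c46853, c46856, c47608, c47649, c46715, c46747, c47655, c46701, c47661, c46682, c47675, trivial⟩ (nd (nat_lit 292) (nat_lit 0) (cs (rf (nat_lit 0)) (cs (rf (nat_lit 1)) (nd (nat_lit 314) (nat_lit 0) (cs (rf (nat_lit 2)) (cs (rf (nat_lit 3)) (cs (nd (nat_lit 337) (nat_lit 0) (cs (rf (nat_lit 4)) (cs (rf (nat_lit 5)) (cs (rf (nat_lit 6)) (nd (nat_lit 273) (nat_lit 0) (cs (lf (nat_lit 15) (nat_lit 249)) (nd (nat_lit 336) (nat_lit 0) (cs (lf (nat_lit 29) (nat_lit 270)) (nd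 (nat_lit 293) (nat_lit 0) (cs (lf (nat_lit 30) (nat_lit 270)) (nd (nat_lit 335) (nat_lit 0) (cs (lf (nat_lit 41) (nat_lit 269)) (nd (nat_lit 313) (nat_lit 0) (cs (lf (nat_lit 36) (nat_lit 247)) (nd (nat_lit 312) (nat_lit 0) (cs (lf (nat_lit 18) (nat_lit 312)) (lf (nat_lit 12) (nat_lit 289)))))))))))))))))) (nd (nat_lit 274) (nat_lit 0) (cs (lf (nat_lit 14) (nat_lit 249)) (nd (nat_lit 248) (nat_lit 0) (cs (rf (nat_lit 7)) (cs (nd (nat_lit 227) (nat_lit 0) (cs (lf (nat_lit 34) (nat_lit 226)) (nd (nat_lit 226) (nat_lit 0) (cs (lf (nat_lit 35) (nat_lit 204)) (nd (nat_lit 313) (nat_lit 0) (cs (lf (nat_lit 41) (nat_lit 247)) (nd (nat_lit 203) (nat_lit 0) (cs (lf (nat_lit 46) (nat_lit 203)) (nd (nat_lit 204) (nat_lit 0) (cs (lf (nat_lit 47) (nat_lit 181)) (lf (nat_lit 29) (nat_lit 204)))))))))))) (cs (nd (nat_lit 313) (nat_lit 0) (cs (lf (nat_lit 41) (nat_lit 247)) (nd (nat_lit 315) (nat_lit 0) (cs (lf (nat_lit 29) (nat_lit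 248)) (nd (nat_lit 226) (nat_lit 0) (cs (lf (nat_lit 28) (nat_lit 226)) (rf (nat_lit 8)))))))) (cs (nd (nat_lit 226) (nat_lit 0) (cs (rf (nat_lit 9)) (cs (rf (nat_lit 10)) (cs (rf (nat_lit 8)) (nd (nat_lit 315) (nat_lit 0) (cs (lf (nat_lit 29) (nat_lit 248)) (rf (nat_lit 11)))))))) (cs (nd (nat_lit 249) (nat_lit 0) (cs (rf (nat_lit 12)) (nd (nat_lit 268) (nat_lit 0) (cs (lf (nat_lit 13) (nat_lit 246)) (nd (nat_lit 313) (nat_lit 0) (cs (lf (nat_lit 41) (nat_lit 247)) (nd (nat_lit 312) (nat_lit 0) (cs (nd (nat_lit 311) (nat_lit 0) (cs (lf (nat_lit 17) (nat_lit 289)) (nd (nat_lit 288) (nat_lit 0) (cs (nd (nat_lit 332) (nat_lit 0) (cs (rf (nat_lit 13)) (lf (nat_lit 10) (nat_lit 310)))) (lf (nat_lit 22) (nat_lit 288)))))) (cs (nd (nat_lit 318) (nat_lit 0) (cs (rf (nat_lit 14)) (nd (nat_lit 315) (nat_lit 0) (cs (lf (nat_lit 29) (nat_lit 248)) (nd (nat_lit 293) (nat_lit 0) (cs (lf (nat_lit 17) (nat_lit 290)) (nd (nat_lit 316)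 (nat_lit 0) (cs (lf (nat_lit 29) (nat_lit 249)) (lf (nat_lit 19) (nat_lit 292)))))))))) (nd (nat_lit 315) (nat_lit 0) (cs (lf (nat_lit 29) (nat_lit 248)) (rf (nat_lit 15))))))))))))) (nd (nat_lit 315) (nat_lit 0) (cs (lf (nat_lit 29) (nat_lit 248)) (nd (nat_lit 226) (nat_lit 0) (cs (lf (nat_lit 28) (nat_lit 226)) (rf (nat_lit 11))))))))))))))))))))) q47686 (by decide +kernel)
def q47739 : Q := Q.p (nat_lit 0x180003400000000000000000000000000000000000000000000000000000000000000) (nat_lit 0xe0000fe0007e0001fc0006700003e0000000000000000000000000000000000000000000000000000000000000) (nat_lit 14)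
theorem c47739 : QOK q47739 := cut [q46738, q46769, q47623, q46712, q47614, q47717, q46891] ⟨c46738, c46769, c47623, c46712, c47614, c47717, c46891, trivial⟩ (nd (nat_lit 273) (nat_lit 0) (cs (lf (nat_lit 15) (nat_lit 249)) (nd (nat_lit 270) (nat_lit 0) (cs (rf (nat_lit 0)) (cs (rf (nat_lit 1)) (cs (rf (nat_lit 2)) (nd (nat_lit 292) (nat_lit 0) (cs (lf (nat_lit 11) (nat_lit 269)) (nd (nat_lit 314) (nat_lit 0) (cs (rf (nat_lit 3)) (cs (rf (nat_lit 4)) (cs (nd (nat_lit 248) (nat_lit 0) (cs (lf (nat_lit 23) (nat_lit 247)) (nd (nat_lit 295) (nat_lit 0) (cs (lf (nat_lit 5) (nat_lit 270)) (nd (nat_lit 317) (nat_lit 0) (cs (lf (nat_lit 42) (nat_lit 250)) (nd (nat_lit 313) (nat_lit 0) (cs (lf (nat_lit 41) (nat_lit 247)) (nd (nat_lit 315) (nat_lit 0) (cs (lf (nat_lit 29) (nat_lit 248)) (nd (nat_lit 294) (nat_lit 0) (cs (lf (nat_lit 8) (nat_lit 291)) (lf (nat_lit 15) (nat_lit 291)))))))))))))) (cs (nd (nat_lit 295) (nat_lit 0)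 (cs (lf (nat_lit 5) (nat_lit 270)) (nd (nat_lit 317) (nat_lit 0) (cs (lf (nat_lit 42) (nat_lit 250)) (nd (nat_lit 247) (nat_lit 0) (cs (lf (nat_lit 22) (nat_lit 247)) (nd (nat_lit 336) (nat_lit 0) (cs (lf (nat_lit 35) (nat_lit 248)) (nd (nat_lit 335) (nat_lit 0) (cs (lf (nat_lit 41) (nat_lit 269)) (nd (nat_lit 337) (nat_lit 0) (cs (lf (nat_lit 29) (nat_lit 270)) (rf (nat_lit 5)))))))))))))) (cs (nd (nat_lit 295) (nat_lit 0) (cs (lf (nat_lit 5) (nat_lit 270)) (nd (nat_lit 317) (nat_lit 0) (cs (lf (nat_lit 42) (nat_lit 250)) (nd (nat_lit 247) (nat_lit 0) (cs (lf (nat_lit 22) (nat_lit 247)) (nd (nat_lit 336) (nat_lit 0) (cs (lf (nat_lit 35) (nat_lit 248)) (nd (nat_lit 335) (nat_lit 0) (cs (lf (nat_lit 41) (nat_lit 269)) (nd (nat_lit 315) (nat_lit 0) (cs (lf (nat_lit 7) (nat_lit 313)) (nd (nat_lit 333) (nat_lit 0) (cs (rf (nat_lit 5)) (lf (nat_lit 13) (nat_lit 311)))))))))))))))) (nd (nat_lit 295) (nat_lit 0) (cs (lf (nat_lit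 5) (nat_lit 270)) (nd (nat_lit 317) (nat_lit 0) (cs (lf (nat_lit 42) (nat_lit 250)) (nd (nat_lit 247) (nat_lit 0) (cs (lf (nat_lit 22) (nat_lit 247)) (nd (nat_lit 336) (nat_lit 0) (cs (lf (nat_lit 35) (nat_lit 248)) (rf (nat_lit 6)))))))))))))))))))))))) q47739 (by decide +kernel)
def q47854 : Q := Q.p (nat_lit 0x180003400000000010000000000000000000000000000000000000000000000000000) (nat_lit 0x60000b80003e0001f70006780003f0000f8000ff0001e000028000000000000000000000000000000000000000) (nat_lit 14)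
theorem c47854 : QOK q47854 := cut [q46700, q46950, q47695, q47772, q46971, q47829, q47835, q46744, q46923, q46941, q46946, q46925, q46937, q47845] ⟨c46700, c46950, c47695, c47772, c46971, c47829, c47835, c46744, c46923, c46941, c46946, c46925, c46937, c47845, trivial⟩ (nd (nat_lit 273) (nat_lit 0) (cs (lf (nat_lit 15) (nat_lit 249)) (nd (nat_lit 270) (nat_lit 0) (cs (rf (nat_lit 0)) (cs (rf (nat_lit 1)) (cs (rf (nat_lit 2)) (cs (rf (nat_lit 3)) (cs (nd (nat_lit 293) (nat_lit 0) (cs (nd (nat_lit 315) (nat_lit 0) (cs (lf (nat_lit 30) (nat_lit 249)) (nd (nat_lit 295) (nat_lit 0) (cs (lf (nat_lit 5) (nat_lit 270)) (nd (nat_lit 317) (nat_lit 0) (cs (lf (nat_lit 42) (nat_lit 250)) (nd (nat_lit 269) (nat_lit 0) (cs (lf (nat_lit 4) (nat_lit 269)) (nd (nat_lit 249) (nat_lit 0) (cs (lf (nat_lit 12) (nat_lit 246)) (rf (nat_lit 4)))))))))))) (cs (nd (nat_lit 295) (nat_lit 0) (cs (lf (nat_lit 5) (nat_lit 270)) (nd (nat_lit 269)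 (nat_lit 0) (cs (lf (nat_lit 4) (nat_lit 269)) (nd (nat_lit 317) (nat_lit 0) (cs (lf (nat_lit 42) (nat_lit 250)) (nd (nat_lit 247) (nat_lit 0) (cs (lf (nat_lit 22) (nat_lit 247)) (rf (nat_lit 5)))))))))) (cs (nd (nat_lit 315) (nat_lit 0) (cs (lf (nat_lit 30) (nat_lit 249)) (nd (nat_lit 248) (nat_lit 0) (cs (lf (nat_lit 23) (nat_lit 247)) (rf (nat_lit 6)))))) (nd (nat_lit 248) (nat_lit 0) (cs (lf (nat_lit 23) (nat_lit 247)) (nd (nat_lit 295) (nat_lit 0) (cs (lf (nat_lit 5) (nat_lit 270)) (nd (nat_lit 269) (nat_lit 0) (cs (lf (nat_lit 4) (nat_lit 269)) (nd (nat_lit 249) (nat_lit 0) (cs (lf (nat_lit 12) (nat_lit 246)) (nd (nat_lit 315) (nat_lit 0) (cs (lf (nat_lit 47) (nat_lit 226)) (lf (nat_lit 42) (nat_lit 248)))))))))))))))) (nd (nat_lit 248) (nat_lit 0) (cs (lf (nat_lit 23) (nat_lit 247)) (nd (nat_lit 226) (nat_lit 0) (cs (rf (nat_lit 7)) (cs (rf (nat_lit 8)) (cs (rf (nat_lit 9)) (cs (rf (nat_lit 10)) (nd (nat_lit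 205) (nat_lit 0) (cs (rf (nat_lit 11)) (cs (rf (nat_lit 12)) (nd (nat_lit 295) (nat_lit 0) (cs (lf (nat_lit 5) (nat_lit 270)) (nd (nat_lit 317) (nat_lit 0) (cs (lf (nat_lit 42) (nat_lit 250)) (nd (nat_lit 227) (nat_lit 0) (cs (lf (nat_lit 30) (nat_lit 204)) (nd (nat_lit 206) (nat_lit 0) (cs (lf (nat_lit 7) (nat_lit 204)) (rf (nat_lit 13)))))))))))))))))))))))))))) q47854 (by decide +kernel)
def q48071 : Q := Q.p (nat_lit 0x60000000000100003400000000000000000000000000000000000000000000000000000000000000) (nat_lit 0x140000f0000ff8003fc003ff800f9c007eb0001e80000000008000000000000000000000000000000000000000000000000000000000) (nat_lit 12)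
theorem c48071 : QOK q48071 := cut [q46390, q45374, q47944, q46394, q46253, q45880, q47950, q43322, q47955, q47960, q47962, q47969, q43221, q47976, q47988, q13112, q48008, q48015, q48019, q48069, q48070] ⟨c46390, c45374, c47944, c46394, c46253, c45880, c47950, c43322, c47955, c47960, c47962, c47969, c43221, c47976, c47988, c13112, c48008, c48015, c48019, c48069, c48070, trivial⟩ (nd (nat_lit 319) (nat_lit 0) (cs (rf (nat_lit 0)) (cs (nd (nat_lit 316) (nat_lit 0) (cs (rf (nat_lit 1)) (rf (nat_lit 2)))) (cs (nd (nat_lit 339) (nat_lit 0) (cs (rf (nat_lit 3)) (cs (nd (nat_lit 340) (nat_lit 0) (cs (rf (nat_lit 4)) (cs (nd (nat_lit 361) (nat_lit 0) (cs (nd (nat_lit 383) (nat_lit 0) (cs (lf (nat_lit 30) (nat_lit 317)) (rf (nat_lit 5)))) (cs (nd (nat_lit 320) (nat_lit 0) (cs (lf (nat_lit 6) (nat_lit 317)) (nd (nat_lit 298) (nat_lit 0) (cs (lf (nat_lit 17) (nat_lit 295)) (rf (nat_lit 6)))))) (cs (nd (nat_lit 362) (nat_lit 0)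 (cs (nd (nat_lit 383) (nat_lit 0) (cs (lf (nat_lit 30) (nat_lit 317)) (rf (nat_lit 7)))) (cs (nd (nat_lit 320) (nat_lit 0) (cs (lf (nat_lit 6) (nat_lit 317)) (rf (nat_lit 8)))) (cs (nd (nat_lit 320) (nat_lit 0) (cs (lf (nat_lit 6) (nat_lit 317)) (rf (nat_lit 9)))) (nd (nat_lit 383) (nat_lit 0) (cs (lf (nat_lit 30) (nat_lit 317)) (nd (nat_lit 382) (nat_lit 0) (cs (lf (nat_lit 41) (nat_lit 316)) (nd (nat_lit 380) (nat_lit 0) (cs (rf (nat_lit 10)) (lf (nat_lit 13) (nat_lit 358)))))))))))) (nd (nat_lit 320) (nat_lit 0) (cs (lf (nat_lit 6) (nat_lit 317)) (nd (nat_lit 298) (nat_lit 0) (cs (lf (nat_lit 17) (nat_lit 295)) (rf (nat_lit 11)))))))))) (cs (nd (nat_lit 320) (nat_lit 0) (cs (lf (nat_lit 6) (nat_lit 317)) (rf (nat_lit 12)))) (nd (nat_lit 361) (nat_lit 0) (cs (rf (nat_lit 6)) (cs (rf (nat_lit 11)) (nd (nat_lit 320) (nat_lit 0) (cs (lf (nat_lit 6) (nat_lit 317)) (rf (nat_lit 13))))))))))) (cs (rf (nat_lit 14)) (cs (nd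 (nat_lit 273) (nat_lit 0) (cs (lf (nat_lit 44) (nat_lit 250)) (nd (nat_lit 271) (nat_lit 0) (cs (lf (nat_lit 15) (nat_lit 249)) (nd (nat_lit 320) (nat_lit 0) (cs (lf (nat_lit 11) (nat_lit 316)) (nd (nat_lit 298) (nat_lit 0) (cs (lf (nat_lit 17) (nat_lit 295)) (nd (nat_lit 321) (nat_lit 0) (cs (lf (nat_lit 10) (nat_lit 317)) (nd (nat_lit 344) (nat_lit 0) (cs (lf (nat_lit 4) (nat_lit 318)) (nd (nat_lit 322) (nat_lit 0) (cs (lf (nat_lit 5) (nat_lit 319)) (nd (nat_lit 323) (nat_lit 0) (cs (rf (nat_lit 15)) (lf (nat_lit 23) (nat_lit 297)))))))))))))))))) (nd (nat_lit 320) (nat_lit 0) (cs (lf (nat_lit 11) (nat_lit 316)) (nd (nat_lit 298) (nat_lit 0) (cs (lf (nat_lit 17) (nat_lit 295)) (nd (nat_lit 297) (nat_lit 0) (cs (lf (nat_lit 12) (nat_lit 294)) (nd (nat_lit 275) (nat_lit 0) (cs (lf (nat_lit 24) (nat_lit 231)) (nd (nat_lit 273) (nat_lit 0) (cs (lf (nat_lit 2) (nat_lit 272)) (lf (nat_lit 44) (nat_lit 250)))))))))))))))))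 (cs (rf (nat_lit 16)) (cs (rf (nat_lit 17)) (cs (rf (nat_lit 18)) (cs (rf (nat_lit 19)) (rf (nat_lit 20)))))))))) q48071 (by decide +kernel)
def q48169 : Q := Q.p (nat_lit 0x60000000000100003400000000000000000000000000000000000000000000000000000000000000) (nat_lit 0x140000700001c0003fe000ff8003fe000ff80001c000fbc000ec0000100000400000000000000000000000000000000000000000000000000000000) (nat_lit 12)
theorem c48169 : QOK q48169 := cut [q48073, q48123, q48124, q46235, q48122, q48126, q48131, q48139, q47981, q46163, q46178, q48035, q46143, q48075, q42881, q46093, q14317, q48164, q45060, q46494] ⟨c48073, c48123, c48124, c46235, c48122, c48126, c48131, c48139, c47981, c46163, c46178, c48035, c46143, c48075, c42881, c46093, c14317, c48164, c45060, c46494, trivial⟩ (nd (nat_lit 339) (nat_lit 0) (cs (rf (nat_lit 0)) (cs (rf (nat_lit 1)) (cs (rf (nat_lit 2)) (cs (nd (nat_lit 361) (nat_lit 0) (cs (rf (nat_lit 3)) (cs (rf (nat_lit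 4)) (nd (nat_lit 315) (nat_lit 0) (cs (nd (nat_lit 274) (nat_lit 0) (cs (lf (nat_lit 38) (nat_lit 251)) (nd (nat_lit 271) (nat_lit 0) (cs (lf (nat_lit 14) (nat_lit 249)) (nd (nat_lit 337) (nat_lit 0) (cs (lf (nat_lit 32) (nat_lit 249)) (rf (nat_lit 5)))))))) (cs (nd (nat_lit 274) (nat_lit 0) (cs (lf (nat_lit 38) (nat_lit 251)) (nd (nat_lit 271) (nat_lit 0) (cs (lf (nat_lit 14) (nat_lit 249)) (nd (nat_lit 337) (nat_lit 0) (cs (lf (nat_lit 32) (nat_lit 249)) (rf (nat_lit 6)))))))) (cs (nd (nat_lit 337) (nat_lit 0) (cs (rf (nat_lit 5)) (cs (rf (nat_lit 6)) (rf (nat_lit 7))))) (nd (nat_lit 296) (nat_lit 0) (cs (lf (nat_lit 37) (nat_lit 251)) (nd (nat_lit 316) (nat_lit 0) (cs (lf (nat_lit 17) (nat_lit 293)) (rf (nat_lit 8))))))))))))) (nd (nat_lit 361) (nat_lit 0) (cs (rf (nat_lit 3)) (cs (rf (nat_lit 4)) (nd (nat_lit 362) (nat_lit 0) (cs (rf (nat_lit 9)) (cs (nd (nat_lit 360) (nat_lit 0) (cs (rf (nat_lit 10)) (cs (nd (nat_lit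 274) (nat_lit 0) (cs (lf (nat_lit 38) (nat_lit 251)) (nd (nat_lit 384) (nat_lit 0) (cs (lf (nat_lit 24) (nat_lit 295)) (nd (nat_lit 406) (nat_lit 0) (cs (lf (nat_lit 42) (nat_lit 339)) (nd (nat_lit 359) (nat_lit 0) (cs (lf (nat_lit 5) (nat_lit 359)) (rf (nat_lit 11)))))))))) (nd (nat_lit 337) (nat_lit 0) (cs (rf (nat_lit 12)) (cs (rf (nat_lit 13)) (nd (nat_lit 274) (nat_lit 0) (cs (lf (nat_lit 38) (nat_lit 251)) (nd (nat_lit 359) (nat_lit 0) (cs (lf (nat_lit 23) (nat_lit 336)) (nd (nat_lit 384) (nat_lit 0) (cs (rf (nat_lit 14)) (lf (nat_lit 5) (nat_lit 359)))))))))))))) (cs (nd (nat_lit 363) (nat_lit 0) (cs (rf (nat_lit 15)) (cs (nd (nat_lit 296) (nat_lit 0) (cs (lf (nat_lit 37) (nat_lit 251)) (nd (nat_lit 340) (nat_lit 0) (cs (lf (nat_lit 29) (nat_lit 296)) (nd (nat_lit 297) (nat_lit 0) (cs (lf (nat_lit 35) (nat_lit 274)) (nd (nat_lit 337) (nat_lit 0) (cs (rf (nat_lit 16)) (lf (nat_lit 1) (nat_lit 337)))))))))) (rf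 (nat_lit 17))))) (nd (nat_lit 363) (nat_lit 0) (cs (rf (nat_lit 18)) (cs (rf (nat_lit 15)) (cs (rf (nat_lit 19)) (rf (nat_lit 17)))))))))))))))))) q48169 (by decide +kernel)
def q48217 : Q := Q.p (nat_lit 0x60000000000100003400000000000000000000000000000000000000000000000000000000000000) (nat_lit 0x140000700001c0003fe0007f0001fe000ff00019e0001bc0006c0000000008000000000000000000000000000000000000000000000000000000000) (nat_lit 12)
theorem c48217 : QOK q48217 := cut [q48073, q48123, q48124, q46451, q47983, q46273, q48105, q45510, q41899, q46238, q46482, q46414, q46163] ⟨c48073, c48123, c48124, c46451, c47983, c46273, c48105, c45510, c41899, c46238, c46482, c46414, c46163, trivial⟩ (nd (nat_lit 339) (nat_lit 0) (cs (rf (nat_lit 0)) (cs (rf (nat_lit 1)) (cs (rf (nat_lit 2)) (cs (nd (nat_lit 337) (nat_lit 0) (cs (nd (nat_lit 338) (nat_lit 0) (cs (lf (nat_lit 12) (nat_lit 314)) (rf (nat_lit 3)))) (cs (nd (nat_lit 274) (nat_lit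 0) (cs (lf (nat_lit 38) (nat_lit 251)) (nd (nat_lit 271) (nat_lit 0) (cs (lf (nat_lit 14) (nat_lit 249)) (rf (nat_lit 4)))))) (cs (nd (nat_lit 340) (nat_lit 0) (cs (nd (nat_lit 338) (nat_lit 0) (cs (lf (nat_lit 17) (nat_lit 315)) (nd (nat_lit 362) (nat_lit 0) (cs (lf (nat_lit 5) (nat_lit 337)) (rf (nat_lit 5)))))) (cs (nd (nat_lit 274) (nat_lit 0) (cs (lf (nat_lit 38) (nat_lit 251)) (nd (nat_lit 271) (nat_lit 0) (cs (lf (nat_lit 14) (nat_lit 249)) (nd (nat_lit 315) (nat_lit 0) (cs (lf (nat_lit 32) (nat_lit 249)) (rf (nat_lit 6)))))))) (nd (nat_lit 338) (nat_lit 0) (cs (lf (nat_lit 17) (nat_lit 315)) (nd (nat_lit 362) (nat_lit 0) (cs (lf (nat_lit 5) (nat_lit 337)) (nd (nat_lit 358) (nat_lit 0) (cs (lf (nat_lit 10) (nat_lit 336)) (nd (nat_lit 314) (nat_lit 0) (cs (lf (nat_lit 22) (nat_lit 314)) (nd (nat_lit 296) (nat_lit 0) (cs (lf (nat_lit 37) (nat_lit 251)) (nd (nat_lit 383) (nat_lit 0) (cs (lf (nat_lit 40) (nat_lit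 295)) (rf (nat_lit 7))))))))))))))))) (nd (nat_lit 274) (nat_lit 0) (cs (lf (nat_lit 38) (nat_lit 251)) (nd (nat_lit 271) (nat_lit 0) (cs (lf (nat_lit 14) (nat_lit 249)) (nd (nat_lit 293) (nat_lit 0) (cs (lf (nat_lit 31) (nat_lit 249)) (nd (nat_lit 338) (nat_lit 0) (cs (lf (nat_lit 12) (nat_lit 314)) (nd (nat_lit 319) (nat_lit 0) (cs (lf (nat_lit 6) (nat_lit 316)) (lf (nat_lit 15) (nat_lit 315)))))))))))))))) (nd (nat_lit 296) (nat_lit 0) (cs (rf (nat_lit 8)) (nd (nat_lit 361) (nat_lit 0) (cs (lf (nat_lit 30) (nat_lit 295)) (nd (nat_lit 338) (nat_lit 0) (cs (rf (nat_lit 9)) (cs (rf (nat_lit 10)) (nd (nat_lit 363) (nat_lit 0) (cs (rf (nat_lit 11)) (cs (nd (nat_lit 362) (nat_lit 0) (cs (lf (nat_lit 18) (nat_lit 338)) (nd (nat_lit 319) (nat_lit 0) (cs (lf (nat_lit 6) (nat_lit 316)) (nd (nat_lit 295) (nat_lit 0) (cs (lf (nat_lit 29) (nat_lit 295)) (nd (nat_lit 360) (nat_lit 0) (cs (lf (nat_lit 41) (nat_lit 294)) (nd (nat_lit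 385) (nat_lit 0) (cs (lf (nat_lit 5) (nat_lit 360)) (lf (nat_lit 44) (nat_lit 296)))))))))))) (cs (nd (nat_lit 319) (nat_lit 0) (cs (lf (nat_lit 6) (nat_lit 316)) (nd (nat_lit 341) (nat_lit 0) (cs (lf (nat_lit 42) (nat_lit 296)) (nd (nat_lit 316) (nat_lit 0) (cs (lf (nat_lit 5) (nat_lit 316)) (nd (nat_lit 315) (nat_lit 0) (cs (lf (nat_lit 19) (nat_lit 315)) (nd (nat_lit 314) (nat_lit 0) (cs (lf (nat_lit 16) (nat_lit 292)) (lf (nat_lit 0) (nat_lit 313)))))))))))) (nd (nat_lit 319) (nat_lit 0) (cs (lf (nat_lit 6) (nat_lit 316)) (nd (nat_lit 362) (nat_lit 0) (cs (lf (nat_lit 18) (nat_lit 338)) (rf (nat_lit 12)))))))))))))))))))))) q48217 (by decide +kernel)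
def q48320 : Q := Q.p (nat_lit 0x60000000000100002400000000000000000000000000000000000000000000000000000000000000) (nat_lit 0x80001e0000f80003f0001ff000798001fb0001a80000000018000040000000000000000000000000000000000000000000000000000) (nat_lit 12)
theorem c48320 : QOK q48320 := cut [q48008, q48015, q48019, q48070, q45472, q45485, q48280, q2583, q48242, q43488, q45358, q12780, q45483, q45360, q46237, q14673, q47944, q13132, q48318] ⟨c48008, c48015, c48019, c48070, c45472, c45485, c48280, c2583, c48242, c43488, c45358, c12780, c45483, c45360, c46237, c14673, c47944, c13132, c48318, trivial⟩ (nd (nat_lit 319) (nat_lit 0) (cs (rf (nat_lit 0)) (cs (rf (nat_lit 1)) (cs (rf (nat_lit 2)) (cs (rf (nat_lit 3)) (cs (nd (nat_lit 341) (nat_lit 0) (cs (nd (nat_lit 316) (nat_lit 0) (cs (lf (nat_lit 5) (nat_lit 316)) (rf (nat_lit 4)))) (cs (nd (nat_lit 316) (nat_lit 0) (cs (lf (nat_lit 5) (nat_lit 316)) (rf (nat_lit 5)))) (cs (rf (nat_lit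 6)) (cs (nd (nat_lit 297) (nat_lit 0) (cs (rf (nat_lit 7)) (cs (nd (nat_lit 275) (nat_lit 0) (cs (lf (nat_lit 41) (nat_lit 252)) (nd (nat_lit 296) (nat_lit 0) (cs (lf (nat_lit 36) (nat_lit 230)) (nd (nat_lit 298) (nat_lit 0) (cs (lf (nat_lit 6) (nat_lit 295)) (nd (nat_lit 363) (nat_lit 0) (cs (lf (nat_lit 35) (nat_lit 275)) (lf (nat_lit 42) (nat_lit 296)))))))))) (cs (nd (nat_lit 363) (nat_lit 0) (cs (rf (nat_lit 8)) (cs (nd (nat_lit 362) (nat_lit 0) (cs (lf (nat_lit 41) (nat_lit 296)) (nd (nat_lit 340) (nat_lit 0) (cs (lf (nat_lit 36) (nat_lit 274)) (nd (nat_lit 315) (nat_lit 0) (cs (lf (nat_lit 1) (nat_lit 315)) (rf (nat_lit 9)))))))) (nd (nat_lit 296) (nat_lit 0) (cs (lf (nat_lit 42) (nat_lit 296)) (rf (nat_lit 10))))))) (nd (nat_lit 298) (nat_lit 0) (cs (lf (nat_lit 12) (nat_lit 294)) (nd (nat_lit 299) (nat_lit 0) (cs (lf (nat_lit 6) (nat_lit 296)) (nd (nat_lit 275) (nat_lit 0) (cs (lf (nat_lit 41) (nat_lit 252))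 (nd (nat_lit 363) (nat_lit 0) (cs (lf (nat_lit 35) (nat_lit 275)) (rf (nat_lit 11)))))))))))))) (nd (nat_lit 316) (nat_lit 0) (cs (lf (nat_lit 5) (nat_lit 316)) (nd (nat_lit 315) (nat_lit 0) (cs (lf (nat_lit 4) (nat_lit 315)) (rf (nat_lit 12))))))))))) (cs (nd (nat_lit 338) (nat_lit 0) (cs (nd (nat_lit 316) (nat_lit 0) (cs (lf (nat_lit 11) (nat_lit 315)) (rf (nat_lit 13)))) (cs (nd (nat_lit 320) (nat_lit 0) (cs (lf (nat_lit 10) (nat_lit 316)) (nd (nat_lit 299) (nat_lit 0) (cs (lf (nat_lit 16) (nat_lit 295)) (nd (nat_lit 321) (nat_lit 0) (cs (lf (nat_lit 17) (nat_lit 296)) (nd (nat_lit 296) (nat_lit 0) (cs (lf (nat_lit 23) (nat_lit 295)) (nd (nat_lit 343) (nat_lit 0) (cs (lf (nat_lit 5) (nat_lit 318)) (nd (nat_lit 297) (nat_lit 0) (cs (lf (nat_lit 18) (nat_lit 296)) (rf (nat_lit 10)))))))))))))) (nd (nat_lit 339) (nat_lit 0) (cs (lf (nat_lit 6) (nat_lit 316)) (rf (nat_lit 14))))))) (cs (nd (nat_lit 342) (nat_lit 0) (cs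 (rf (nat_lit 15)) (cs (nd (nat_lit 316) (nat_lit 0) (cs (lf (nat_lit 4) (nat_lit 316)) (rf (nat_lit 16)))) (nd (nat_lit 320) (nat_lit 0) (cs (lf (nat_lit 5) (nat_lit 317)) (nd (nat_lit 339) (nat_lit 0) (cs (lf (nat_lit 11) (nat_lit 316)) (nd (nat_lit 275) (nat_lit 0) (cs (lf (nat_lit 26) (nat_lit 253)) (nd (nat_lit 321) (nat_lit 0) (cs (lf (nat_lit 10) (nat_lit 317)) (nd (nat_lit 295) (nat_lit 0) (cs (lf (nat_lit 22) (nat_lit 295)) (lf (nat_lit 45) (nat_lit 250))))))))))))))) (nd (nat_lit 297) (nat_lit 0) (cs (rf (nat_lit 7)) (cs (rf (nat_lit 17)) (cs (nd (nat_lit 275) (nat_lit 0) (cs (lf (nat_lit 41) (nat_lit 252)) (nd (nat_lit 231) (nat_lit 0) (cs (lf (nat_lit 40) (nat_lit 230)) (nd (nat_lit 210) (nat_lit 0) (cs (lf (nat_lit 34) (nat_lit 209)) (nd (nat_lit 342) (nat_lit 0) (cs (lf (nat_lit 28) (nat_lit 253)) (nd (nat_lit 341) (nat_lit 0) (cs (lf (nat_lit 29) (nat_lit 275)) (lf (nat_lit 0) (nat_lit 316))))))))))))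 (rf (nat_lit 18)))))))))))))) q48320 (by decide +kernel)
def q48397 : Q := Q.p (nat_lit 0x60000000000100003400001000000000000000000000000000000000000000000000000000000000) (nat_lit 0x880007700009c00077c000ec0000100008400000000000000000000000000000000000000000000000000000000) (nat_lit 8)
theorem c48397 : QOK q48397 := cut [q48370, q48365, q45364, q45362, q48387, q48393] ⟨c48370, c48365, c45364, c45362, c48387, c48393, trivial⟩ (nd (nat_lit 315) (nat_lit 0) (cs (rf (nat_lit 0)) (cs (nd (nat_lit 293) (nat_lit 0) (cs (lf (nat_lit 39) (nat_lit 227)) (nd (nat_lit 271) (nat_lit 0) (cs (lf (nat_lit 30) (nat_lit 249)) (rf (nat_lit 1)))))) (cs (nd (nat_lit 293) (nat_lit 0) (cs (lf (nat_lit 39) (nat_lit 227)) (nd (nat_lit 316) (nat_lit 0) (cs (lf (nat_lit 23) (nat_lit 292)) (rf (nat_lit 2)))))) (cs (nd (nat_lit 316) (nat_lit 0) (cs (rf (nat_lit 3)) (rf (nat_lit 2)))) (cs (nd (nat_lit 293) (nat_lit 0) (cs (lf (nat_lit 39) (nat_lit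 227)) (nd (nat_lit 271) (nat_lit 0) (cs (lf (nat_lit 30) (nat_lit 249)) (nd (nat_lit 292) (nat_lit 0) (cs (lf (nat_lit 20) (nat_lit 292)) (rf (nat_lit 4)))))))) (nd (nat_lit 293) (nat_lit 0) (cs (lf (nat_lit 39) (nat_lit 227)) (nd (nat_lit 271) (nat_lit 0) (cs (lf (nat_lit 30) (nat_lit 249)) (nd (nat_lit 316) (nat_lit 0) (cs (lf (nat_lit 23) (nat_lit 292)) (rf (nat_lit 5)))))))))))))) q48397 (by decide +kernel)
def q48598 : Q := Q.p (nat_lit 0x40000100003400000000000000000000000000000000000000000000000000000000000000) (nat_lit 0x280000e000038001df8007bc003ef80003c000bf8000380000c000000000000000000000000000000000000000000000) (nat_lit 14)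
theorem c48598 : QOK q48598 := cut [q23133, q25763, q44572, q44585, q45501, q45203, q44922, q44932, q44934, q45225, q45234, q48567, q44930, q44507, q14158, q23102, q48553, q48590, q48593] ⟨c23133, c25763, c44572, c44585, c45501, c45203, c44922, c44932, c44934, c45225, c45234, c48567, c44930, c44507, c14158, c23102, c48553, c48590, c48593, trivial⟩ (nd (nat_lit 249) (nat_lit 0) (cs (rf (nat_lit 0)) (cs (rf (nat_lit 1)) (cs (nd (nat_lit 248) (nat_lit 0) (cs (rf (nat_lit 2)) (cs (rf (nat_lit 3)) (cs (rf (nat_lit 4)) (nd (nat_lit 293) (nat_lit 0) (cs (rf (nat_lit 5)) (cs (nd (nat_lit 292) (nat_lit 0) (cs (rf (nat_lit 6)) (cs (rf (nat_lit 7)) (cs (nd (nat_lit 295) (nat_lit 0) (cs (rf (nat_lit 8)) (cs (rf (nat_lit 9)) (cs (rf (nat_lit 10)) (nd (nat_lit 270) (nat_lit 0) (cs (lf (nat_lit 23) (nat_lit 269)) (nd (nat_lit 273) (nat_lit 0) (cs (lf (nat_lit 17) (nat_lit 270)) (rf (nat_lit 11)))))))))) (nd (nat_lit 291) (nat_lit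 0) (cs (rf (nat_lit 12)) (cs (nd (nat_lit 268) (nat_lit 0) (cs (lf (nat_lit 22) (nat_lit 268)) (nd (nat_lit 290) (nat_lit 0) (cs (lf (nat_lit 23) (nat_lit 267)) (lf (nat_lit 16) (nat_lit 268)))))) (cs (nd (nat_lit 312) (nat_lit 0) (cs (lf (nat_lit 10) (nat_lit 290)) (nd (nat_lit 290) (nat_lit 0) (cs (lf (nat_lit 11) (nat_lit 289)) (lf (nat_lit 16) (nat_lit 268)))))) (nd (nat_lit 313) (nat_lit 0) (cs (lf (nat_lit 11) (nat_lit 290)) (nd (nat_lit 268) (nat_lit 0) (cs (lf (nat_lit 22) (nat_lit 268)) (nd (nat_lit 295) (nat_lit 0) (cs (lf (nat_lit 10) (nat_lit 291)) (nd (nat_lit 270) (nat_lit 0) (cs (lf (nat_lit 36) (nat_lit 225)) (nd (nat_lit 335) (nat_lit 0) (cs (lf (nat_lit 30) (nat_lit 269)) (nd (nat_lit 296) (nat_lit 0) (cs (lf (nat_lit 22) (nat_lit 270)) (rf (nat_lit 13)))))))))))))))))))))) (nd (nat_lit 315) (nat_lit 0) (cs (lf (nat_lit 36) (nat_lit 227)) (nd (nat_lit 226) (nat_lit 0) (cs (nd (nat_lit 292) (nat_lit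 0) (cs (rf (nat_lit 6)) (lf (nat_lit 26) (nat_lit 226)))) (lf (nat_lit 44) (nat_lit 226))))))))))))) (nd (nat_lit 227) (nat_lit 0) (cs (rf (nat_lit 14)) (cs (rf (nat_lit 15)) (nd (nat_lit 248) (nat_lit 0) (cs (rf (nat_lit 2)) (cs (rf (nat_lit 4)) (nd (nat_lit 293) (nat_lit 0) (cs (rf (nat_lit 16)) (cs (nd (nat_lit 292) (nat_lit 0) (cs (rf (nat_lit 6)) (nd (nat_lit 270) (nat_lit 0) (cs (lf (nat_lit 30) (nat_lit 226)) (rf (nat_lit 17)))))) (nd (nat_lit 292) (nat_lit 0) (cs (rf (nat_lit 6)) (rf (nat_lit 18))))))))))))))))) q48598 (by decide +kernel)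
def q48623 : Q := Q.p (nat_lit 0x100003400000000010000040000000000000000000000000000000000000000000000) (nat_lit 0x20000780007f00007f8003ef00003c000bf0000fc000bf0000f0000080000000000000000000000000000000000) (nat_lit 12)
theorem c48623 : QOK q48623 := cut [q44534, q45097, q48540, q44515, q45327, q48566, q44504, q45190, q48549, q45175, q45178, q45229, q48606, q12842, q44549, q48622] ⟨c44534, c45097, c48540, c44515, c45327, c48566, c44504, c45190, c48549, c45175, c45178, c45229, c48606, c12842, c44549, c48622, trivial⟩ (nd (nat_lit 228) (nat_lit 0) (cs (rf (nat_lit 0)) (cs (rf (nat_lit 1)) (cs (rf (nat_lit 2)) (cs (nd (nat_lit 294) (nat_lit 0) (cs (rf (nat_lit 3)) (cs (rf (nat_lit 4)) (cs (rf (nat_lit 5)) (nd (nat_lit 295) (nat_lit 0) (cs (lf (nat_lit 29) (nat_lit 228)) (nd (nat_lit 296) (nat_lit 0) (cs (rf (nat_lit 6)) (cs (rf (nat_lit 7)) (cs (rf (nat_lit 8)) (nd (nat_lit 297) (nat_lit 0) (cs (rf (nat_lit 9)) (cs (rf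 (nat_lit 10)) (rf (nat_lit 11))))))))))))))) (cs (nd (nat_lit 273) (nat_lit 0) (cs (nd (nat_lit 271) (nat_lit 0) (cs (lf (nat_lit 15) (nat_lit 249)) (rf (nat_lit 12)))) (cs (nd (nat_lit 274) (nat_lit 0) (cs (lf (nat_lit 12) (nat_lit 249)) (nd (nat_lit 275) (nat_lit 0) (cs (lf (nat_lit 23) (nat_lit 249)) (nd (nat_lit 293) (nat_lit 0) (cs (lf (nat_lit 10) (nat_lit 271)) (nd (nat_lit 297) (nat_lit 0) (cs (lf (nat_lit 5) (nat_lit 272)) (nd (nat_lit 319) (nat_lit 0) (cs (lf (nat_lit 42) (nat_lit 252)) (nd (nat_lit 320) (nat_lit 0) (cs (lf (nat_lit 29) (nat_lit 253)) (nd (nat_lit 318) (nat_lit 0) (cs (lf (nat_lit 41) (nat_lit 252)) (nd (nat_lit 296) (nat_lit 0) (cs (rf (nat_lit 13)) (lf (nat_lit 36) (nat_lit 230)))))))))))))))))) (nd (nat_lit 206) (nat_lit 0) (cs (lf (nat_lit 29) (nat_lit 206)) (rf (nat_lit 14))))))) (rf (nat_lit 15)))))))) q48623 (by decide +kernel)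
def q48631 : Q := Q.p (nat_lit 0x40000100000400001000000000040000000000000000000000000000000000000000000000) (nat_lit 0x200000800002000008000060000b8000080000000000000000000000000000000000000000) (nat_lit 6)
theorem c48631 : QOK q48631 := cut [q48630] ⟨c48630, trivial⟩ (nd (nat_lit 205) (nat_lit 0) (cs (lf (nat_lit 46) (nat_lit 205)) (rf (nat_lit 0)))) q48631 (by decide +kernel)
def q48639 : Q := Q.p (nat_lit 0x40000100000400000000010000040000000000000000000000000000000000000000000000) (nat_lit 0x80000a0000380000a000008000000000300000e0000a8000000000000000000000000000000000000000000000) (nat_lit 8)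
theorem c48639 : QOK q48639 := cut [q48634, q48636, q48638] ⟨c48634, c48636, c48638, trivial⟩ (nd (nat_lit 315) (nat_lit 0) (cs (nd (nat_lit 316) (nat_lit 0) (cs (lf (nat_lit 41) (nat_lit 249)) (rf (nat_lit 0)))) (cs (rf (nat_lit 1)) (rf (nat_lit 2))))) q48639 (by decide +kernel)
def q48711 : Q := Q.p (nat_lit 0x8000020000080000000000000000000000000000000000000000000000000000000000000) (nat_lit 0x400001c00007000004000010000040000700001c00007000014000000000000000000000000000000000000000) (nat_lit 7)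
theorem c48711 : QOK q48711 := cut [q46785, q47079, q48708] ⟨c46785, c47079, c48708, trivial⟩ (nd (nat_lit 225) (nat_lit 0) (cs (rf (nat_lit 0)) (cs (rf (nat_lit 1)) (nd (nat_lit 312) (nat_lit 0) (cs (lf (nat_lit 40) (nat_lit 224)) (nd (nat_lit 313) (nat_lit 0) (cs (lf (nat_lit 41) (nat_lit 246)) (rf (nat_lit 2))))))))) q48711 (by decide +kernel)
def q48722 : Q := Q.p (nat_lit 0x1a0003080000000000000000000000000000000000000000000000000000000000000) (nat_lit 0x140000700001c000650000000000700001c00005000000000000000000000000000000000000000000000) (nat_lit 8)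
theorem c48722 : QOK q48722 := cut [q48692, q48702, q48720, q48721] ⟨c48692, c48702, c48720, c48721, trivial⟩ (nd (nat_lit 291) (nat_lit 0) (cs (nd (nat_lit 273) (nat_lit 0) (cs (lf (nat_lit 15) (nat_lit 249)) (rf (nat_lit 0)))) (cs (rf (nat_lit 1)) (cs (rf (nat_lit 2)) (rf (nat_lit 3)))))) q48722 (by decide +kernel)
def q48832 : Q := Q.p (nat_lit 0x1a0003480000000000000000000000000000000000000000000000000000000000000) (nat_lit 0x100001c0000700001c00061c000260001ff0003f80007f0001c000050000000000000000000000000000000000) (nat_lit 12)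
theorem c48832 : QOK q48832 := cut [q47079, q47100, q48727, q48732, q48738, q45689, q45760, q45793, q48747, q48753, q48757, q48764, q48774, q48786, q48790, q47077, q48794, q48800, q48802, q48818, q48825, q48829] ⟨c47079, c47100, c48727, c48732, c48738, c45689, c45760, c45793, c48747, c48753, c48757, c48764, c48774, c48786, c48790, c47077, c48794, c48800, c48802, c48818, c48825, c48829, trivial⟩ (nd (nat_lit 225) (nat_lit 0) (cs (rf (nat_lit 0)) (cs (nd (nat_lit 291) (nat_lit 0) (cs (rf (nat_lit 1)) (cs (nd (nat_lit 273) (nat_lit 0) (cs (lf (nat_lit 15) (nat_lit 249)) (nd (nat_lit 204) (nat_lit 0) (cs (lf (nat_lit 34) (nat_lit 203)) (rf (nat_lit 2)))))) (cs (nd (nat_lit 224) (nat_lit 0) (cs (lf (nat_lit 47) (nat_lit 202)) (nd (nat_lit 290) (nat_lit 0) (cs (lf (nat_lit 41) (nat_lit 224)) (nd (nat_lit 273) (nat_lit 0) (cs (lf (nat_lit 15) (nat_lit 249)) (nd (nat_lit 292) (nat_lit 0) (cs (lf (nat_lit 29) (nat_lit 225))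 (rf (nat_lit 3)))))))))) (nd (nat_lit 204) (nat_lit 0) (cs (lf (nat_lit 34) (nat_lit 203)) (nd (nat_lit 273) (nat_lit 0) (cs (lf (nat_lit 15) (nat_lit 249)) (rf (nat_lit 4)))))))))) (cs (nd (nat_lit 203) (nat_lit 0) (cs (rf (nat_lit 5)) (cs (rf (nat_lit 6)) (cs (rf (nat_lit 7)) (nd (nat_lit 202) (nat_lit 0) (cs (lf (nat_lit 47) (nat_lit 180)) (nd (nat_lit 201) (nat_lit 0) (cs (rf (nat_lit 8)) (cs (nd (nat_lit 273) (nat_lit 0) (cs (lf (nat_lit 15) (nat_lit 249)) (rf (nat_lit 9)))) (cs (nd (nat_lit 204) (nat_lit 0) (cs (lf (nat_lit 35) (nat_lit 181)) (nd (nat_lit 273) (nat_lit 0) (cs (lf (nat_lit 15) (nat_lit 249)) (rf (nat_lit 10)))))) (nd (nat_lit 182) (nat_lit 0) (cs (lf (nat_lit 34) (nat_lit 181)) (nd (nat_lit 273) (nat_lit 0) (cs (lf (nat_lit 15) (nat_lit 249)) (rf (nat_lit 11)))))))))))))))) (cs (nd (nat_lit 291) (nat_lit 0) (cs (rf (nat_lit 1)) (cs (nd (nat_lit 273) (nat_lit 0) (cs (lf (nat_lit 15) (nat_lit 249))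 (nd (nat_lit 204) (nat_lit 0) (cs (lf (nat_lit 34) (nat_lit 203)) (nd (nat_lit 182) (nat_lit 0) (cs (lf (nat_lit 33) (nat_lit 181)) (rf (nat_lit 12)))))))) (cs (nd (nat_lit 273) (nat_lit 0) (cs (lf (nat_lit 15) (nat_lit 249)) (rf (nat_lit 13)))) (rf (nat_lit 14)))))) (cs (nd (nat_lit 203) (nat_lit 0) (cs (rf (nat_lit 6)) (cs (rf (nat_lit 15)) (nd (nat_lit 273) (nat_lit 0) (cs (lf (nat_lit 15) (nat_lit 249)) (rf (nat_lit 16))))))) (cs (nd (nat_lit 203) (nat_lit 0) (cs (rf (nat_lit 6)) (cs (nd (nat_lit 273) (nat_lit 0) (cs (lf (nat_lit 15) (nat_lit 249)) (rf (nat_lit 17)))) (cs (nd (nat_lit 273) (nat_lit 0) (cs (lf (nat_lit 15) (nat_lit 249)) (nd (nat_lit 180) (nat_lit 0) (cs (lf (nat_lit 46) (nat_lit 180)) (nd (nat_lit 181) (nat_lit 0) (cs (lf (nat_lit 47) (nat_lit 158)) (nd (nat_lit 160) (nat_lit 0) (cs (lf (nat_lit 34) (nat_lit 159)) (nd (nat_lit 246) (nat_lit 0) (cs (lf (nat_lit 41) (nat_lit 180)) (rf (nat_lit 18))))))))))))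 (cs (nd (nat_lit 273) (nat_lit 0) (cs (lf (nat_lit 15) (nat_lit 249)) (nd (nat_lit 180) (nat_lit 0) (cs (lf (nat_lit 46) (nat_lit 180)) (nd (nat_lit 181) (nat_lit 0) (cs (lf (nat_lit 47) (nat_lit 158)) (nd (nat_lit 246) (nat_lit 0) (cs (lf (nat_lit 41) (nat_lit 180)) (nd (nat_lit 224) (nat_lit 0) (cs (lf (nat_lit 36) (nat_lit 158)) (nd (nat_lit 291) (nat_lit 0) (cs (lf (nat_lit 42) (nat_lit 224)) (nd (nat_lit 292) (nat_lit 0) (cs (lf (nat_lit 29) (nat_lit 225)) (nd (nat_lit 226) (nat_lit 0) (cs (lf (nat_lit 35) (nat_lit 203)) (nd (nat_lit 227) (nat_lit 0) (cs (lf (nat_lit 11) (nat_lit 223)) (lf (nat_lit 4) (nat_lit 224)))))))))))))))))))) (cs (nd (nat_lit 204) (nat_lit 0) (cs (lf (nat_lit 35) (nat_lit 181)) (nd (nat_lit 273) (nat_lit 0) (cs (lf (nat_lit 15) (nat_lit 249)) (nd (nat_lit 226) (nat_lit 0) (cs (lf (nat_lit 30) (nat_lit 203)) (rf (nat_lit 19)))))))) (nd (nat_lit 273) (nat_lit 0) (cs (lf (nat_lit 15) (nat_lit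 249)) (rf (nat_lit 20)))))))))) (nd (nat_lit 291) (nat_lit 0) (cs (rf (nat_lit 1)) (cs (rf (nat_lit 2)) (nd (nat_lit 273) (nat_lit 0) (cs (lf (nat_lit 15) (nat_lit 249)) (rf (nat_lit 21)))))))))))))) q48832 (by decide +kernel)
def q48959 : Q := Q.p (nat_lit 0x8000180003080000000000000000000000000000000000000000000000000000000000000) (nat_lit 0x500001c00007000010000670000040000700001c00005000000000000000000000000000000000000000000000) (nat_lit 8)
theorem c48959 : QOK q48959 := cut [q48720, q48836, q48860] ⟨c48720, c48836, c48860, trivial⟩ (nd (nat_lit 269) (nat_lit 0) (cs (rf (nat_lit 0)) (cs (rf (nat_lit 1)) (cs (rf (nat_lit 2)) (nd (nat_lit 273) (nat_lit 0) (cs (lf (nat_lit 15) (nat_lit 249)) (nd (nat_lit 270) (nat_lit 0) (cs (lf (nat_lit 10) (nat_lit 269)) (lf (nat_lit 23) (nat_lit 246)))))))))) q48959 (by decide +kernel)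
def q49075 : Q := Q.p (nat_lit 0x180003480000000014000040000000000000000000000000000000000000000000000) (nat_lit 0x50000fe000ff00037f000670000240008d0000b4000bf000000000000000000000000000000000000000000000) (nat_lit 12)
theorem c49075 : QOK q49075 := cut [q34521, q44551, q47845, q48979, q49024, q48704, q49017, q49041, q49044, q49053, q49066, q11943, q48836, q48839, q48708, q48772, q48877] ⟨c34521, c44551, c47845, c48979, c49024, c48704, c49017, c49041, c49044, c49053, c49066, c11943, c48836, c48839, c48708, c48772, c48877, trivial⟩ (nd (nat_lit 205) (nat_lit 0) (cs (rf (nat_lit 0)) (cs (rf (nat_lit 1)) (cs (nd (nat_lit 273) (nat_lit 0) (cs (lf (nat_lit 15) (nat_lit 249)) (nd (nat_lit 207) (nat_lit 0) (cs (lf (nat_lit 17) (nat_lit 183)) (nd (nat_lit 185) (nat_lit 0) (cs (lf (nat_lit 12) (nat_lit 182)) (nd (nat_lit 227) (nat_lit 0) (cs (lf (nat_lit 11) (nat_lit 204)) (rf (nat_lit 2)))))))))) (nd (nat_lit 291) (nat_lit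 0) (cs (rf (nat_lit 3)) (cs (nd (nat_lit 273) (nat_lit 0) (cs (lf (nat_lit 15) (nat_lit 249)) (nd (nat_lit 270) (nat_lit 0) (cs (lf (nat_lit 10) (nat_lit 269)) (nd (nat_lit 269) (nat_lit 0) (cs (lf (nat_lit 23) (nat_lit 246)) (rf (nat_lit 4)))))))) (cs (nd (nat_lit 293) (nat_lit 0) (cs (rf (nat_lit 5)) (cs (rf (nat_lit 6)) (cs (nd (nat_lit 315) (nat_lit 0) (cs (lf (nat_lit 30) (nat_lit 249)) (nd (nat_lit 249) (nat_lit 0) (cs (nd (nat_lit 316) (nat_lit 0) (cs (lf (nat_lit 29) (nat_lit 249)) (nd (nat_lit 273) (nat_lit 0) (cs (lf (nat_lit 15) (nat_lit 249)) (nd (nat_lit 314) (nat_lit 0) (cs (lf (nat_lit 41) (nat_lit 248)) (nd (nat_lit 313) (nat_lit 0) (cs (lf (nat_lit 23) (nat_lit 290)) (nd (nat_lit 312) (nat_lit 0) (cs (lf (nat_lit 17) (nat_lit 290)) (nd (nat_lit 334) (nat_lit 0) (cs (lf (nat_lit 10) (nat_lit 312)) (lf (nat_lit 37) (nat_lit 246)))))))))))))) (rf (nat_lit 7)))))) (cs (nd (nat_lit 294) (nat_lit 0) (cs (rf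 (nat_lit 8)) (cs (nd (nat_lit 274) (nat_lit 0) (cs (lf (nat_lit 14) (nat_lit 249)) (nd (nat_lit 315) (nat_lit 0) (cs (lf (nat_lit 30) (nat_lit 249)) (nd (nat_lit 249) (nat_lit 0) (cs (lf (nat_lit 25) (nat_lit 205)) (nd (nat_lit 316) (nat_lit 0) (cs (lf (nat_lit 29) (nat_lit 249)) (nd (nat_lit 317) (nat_lit 0) (cs (lf (nat_lit 29) (nat_lit 250)) (nd (nat_lit 318) (nat_lit 0) (cs (lf (nat_lit 18) (nat_lit 293)) (nd (nat_lit 296) (nat_lit 0) (cs (lf (nat_lit 35) (nat_lit 230)) (lf (nat_lit 17) (nat_lit 293)))))))))))))))) (nd (nat_lit 315) (nat_lit 0) (cs (lf (nat_lit 30) (nat_lit 249)) (nd (nat_lit 249) (nat_lit 0) (cs (lf (nat_lit 25) (nat_lit 205)) (nd (nat_lit 314) (nat_lit 0) (cs (lf (nat_lit 41) (nat_lit 248)) (nd (nat_lit 312) (nat_lit 0) (cs (lf (nat_lit 13) (nat_lit 290)) (nd (nat_lit 316) (nat_lit 0) (cs (lf (nat_lit 29) (nat_lit 249)) (rf (nat_lit 9))))))))))))))) (nd (nat_lit 316) (nat_lit 0) (cs (nd (nat_lit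 292) (nat_lit 0) (cs (lf (nat_lit 12) (nat_lit 268)) (nd (nat_lit 294) (nat_lit 0) (cs (lf (nat_lit 5) (nat_lit 291)) (nd (nat_lit 249) (nat_lit 0) (cs (lf (nat_lit 25) (nat_lit 205)) (lf (nat_lit 42) (nat_lit 249)))))))) (cs (nd (nat_lit 315) (nat_lit 0) (cs (lf (nat_lit 30) (nat_lit 249)) (nd (nat_lit 249) (nat_lit 0) (cs (lf (nat_lit 29) (nat_lit 249)) (rf (nat_lit 7)))))) (nd (nat_lit 292) (nat_lit 0) (cs (lf (nat_lit 12) (nat_lit 268)) (nd (nat_lit 315) (nat_lit 0) (cs (lf (nat_lit 30) (nat_lit 249)) (rf (nat_lit 10)))))))))))))) (cs (nd (nat_lit 273) (nat_lit 0) (cs (lf (nat_lit 15) (nat_lit 249)) (nd (nat_lit 270) (nat_lit 0) (cs (lf (nat_lit 10) (nat_lit 269)) (rf (nat_lit 11)))))) (nd (nat_lit 269) (nat_lit 0) (cs (rf (nat_lit 12)) (cs (rf (nat_lit 13)) (cs (nd (nat_lit 270) (nat_lit 0) (cs (lf (nat_lit 11) (nat_lit 268)) (rf (nat_lit 4)))) (nd (nat_lit 313) (nat_lit 0) (cs (rf (nat_lit 14)) (cs (rf (nat_lit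 15)) (nd (nat_lit 312) (nat_lit 0) (cs (lf (nat_lit 41) (nat_lit 246)) (nd (nat_lit 314) (nat_lit 0) (cs (lf (nat_lit 29) (nat_lit 247)) (nd (nat_lit 315) (nat_lit 0) (cs (rf (nat_lit 16)) (nd (nat_lit 337) (nat_lit 0) (cs (lf (nat_lit 32) (nat_lit 249)) (lf (nat_lit 5) (nat_lit 312)))))))))))))))))))))))))) q49075 (by decide +kernel)
def q49158 : Q := Q.p (nat_lit 0x180003480000000010000040000000000000000000000000000000000000000000000) (nat_lit 0x240003f0000fc0003f00007f000678000240003e0000f8000bf0000e0000080000000000000000000000000000000000) (nat_lit 13)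
theorem c49158 : QOK q49158 := cut [q45097, q48542, q48606, q49120, q49103, q49110, q49112, q49118, q45667, q48691, q48716, q48717, q48953, q47440, q49044, q47291, q49125, q49144, q49115] ⟨c45097, c48542, c48606, c49120, c49103, c49110, c49112, c49118, c45667, c48691, c48716, c48717, c48953, c47440, c49044, c47291, c49125, c49144, c49115, trivial⟩ (nd (nat_lit 228) (nat_lit 0) (cs (rf (nat_lit 0)) (cs (rf (nat_lit 1)) (cs (rf (nat_lit 2)) (cs (rf (nat_lit 3)) (nd (nat_lit 294) (nat_lit 0) (cs (rf (nat_lit 4)) (cs (rf (nat_lit 5)) (cs (rf (nat_lit 6)) (cs (rf (nat_lit 7)) (cs (nd (nat_lit 269) (nat_lit 0) (cs (rf (nat_lit 8)) (cs (rf (nat_lit 9)) (cs (rf (nat_lit 10)) (cs (rf (nat_lit 11)) (cs (nd (nat_lit 293) (nat_lit 0) (cs (rf (nat_lit 12)) (nd (nat_lit 291) (nat_lit 0) (cs (rf (nat_lit 13)) (cs (rf (nat_lit 14)) (nd (nat_lit 313) (nat_lit 0) (cs (rf (nat_lit 15)) (cs (nd (nat_lit 273) (nat_lit 0) (cs (lf (nat_lit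 15) (nat_lit 249)) (nd (nat_lit 336) (nat_lit 0) (cs (lf (nat_lit 28) (nat_lit 247)) (nd (nat_lit 335) (nat_lit 0) (cs (lf (nat_lit 29) (nat_lit 269)) (rf (nat_lit 16)))))))) (cs (nd (nat_lit 205) (nat_lit 0) (cs (lf (nat_lit 46) (nat_lit 205)) (nd (nat_lit 336) (nat_lit 0) (cs (lf (nat_lit 28) (nat_lit 247)) (nd (nat_lit 335) (nat_lit 0) (cs (lf (nat_lit 29) (nat_lit 269)) (nd (nat_lit 268) (nat_lit 0) (cs (lf (nat_lit 47) (nat_lit 246)) (nd (nat_lit 290) (nat_lit 0) (cs (nd (nat_lit 225) (nat_lit 0) (cs (lf (nat_lit 41) (nat_lit 224)) (lf (nat_lit 36) (nat_lit 202)))) (lf (nat_lit 42) (nat_lit 268)))))))))))) (nd (nat_lit 207) (nat_lit 0) (cs (lf (nat_lit 34) (nat_lit 206)) (nd (nat_lit 312) (nat_lit 0) (cs (lf (nat_lit 41) (nat_lit 246)) (nd (nat_lit 225) (nat_lit 0) (cs (lf (nat_lit 40) (nat_lit 224)) (nd (nat_lit 226) (nat_lit 0) (cs (lf (nat_lit 35) (nat_lit 203)) (nd (nat_lit 227) (nat_lit 0) (cs (lf (nat_lit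 47) (nat_lit 205)) (lf (nat_lit 11) (nat_lit 224))))))))))))))))))))) (nd (nat_lit 205) (nat_lit 0) (cs (lf (nat_lit 46) (nat_lit 205)) (nd (nat_lit 207) (nat_lit 0) (cs (lf (nat_lit 34) (nat_lit 206)) (nd (nat_lit 273) (nat_lit 0) (cs (lf (nat_lit 15) (nat_lit 249)) (nd (nat_lit 293) (nat_lit 0) (cs (lf (nat_lit 41) (nat_lit 227)) (nd (nat_lit 291) (nat_lit 0) (cs (lf (nat_lit 13) (nat_lit 269)) (rf (nat_lit 17)))))))))))))))))) (nd (nat_lit 207) (nat_lit 0) (cs (lf (nat_lit 34) (nat_lit 206)) (nd (nat_lit 273) (nat_lit 0) (cs (lf (nat_lit 15) (nat_lit 249)) (nd (nat_lit 293) (nat_lit 0) (cs (lf (nat_lit 41) (nat_lit 227)) (nd (nat_lit 291) (nat_lit 0) (cs (lf (nat_lit 13) (nat_lit 269)) (nd (nat_lit 227) (nat_lit 0) (cs (lf (nat_lit 47) (nat_lit 205)) (nd (nat_lit 316) (nat_lit 0) (cs (lf (nat_lit 25) (nat_lit 227)) (rf (nat_lit 18))))))))))))))))))))))))) q49158 (by decide +kernel)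
def q49303 : Q := Q.p (nat_lit 0x1000000c0000600000000000000000000000000000000000000000000000000000000) (nat_lit 0x140000700003c0000e0000100000100001c00006000010000000000000000000000000000000000000000) (nat_lit 6)
theorem c49303 : QOK q49303 := cut [q45782, q49238, q49302] ⟨c45782, c49238, c49302, trivial⟩ (nd (nat_lit 269) (nat_lit 0) (cs (rf (nat_lit 0)) (cs (rf (nat_lit 1)) (rf (nat_lit 2))))) q49303 (by decide +kernel)
def q49462 : Q := Q.p (nat_lit 0x1200034c0000000000000040000000000000000000000000000000000000000000000) (nat_lit 0x20000380000e0000380000760006de000100003ff000ff800bff000f4000080000000000000000000000000000000000) (nat_lit 12)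
theorem c49462 : QOK q49462 := cut [q49302, q49221, q8903, q14184, q49436, q49444, q49448, q45689, q45760, q45793, q49460] ⟨c49302, c49221, c8903, c14184, c49436, c49444, c49448, c45689, c45760, c45793, c49460, trivial⟩ (nd (nat_lit 225) (nat_lit 0) (cs (rf (nat_lit 0)) (cs (nd (nat_lit 228) (nat_lit 0) (cs (rf (nat_lit 1)) (cs (nd (nat_lit 294) (nat_lit 0) (cs (nd (nat_lit 227) (nat_lit 0) (cs (lf (nat_lit 47) (nat_lit 205)) (lf (nat_lit 8) (nat_lit 224)))) (nd (nat_lit 316) (nat_lit 0) (cs (rf (nat_lit 2)) (cs (rf (nat_lit 3)) (cs (nd (nat_lit 271) (nat_lit 0) (cs (lf (nat_lit 20) (nat_lit 246)) (rf (nat_lit 4)))) (nd (nat_lit 293) (nat_lit 0) (cs (lf (nat_lit 41) (nat_lit 227)) (nd (nat_lit 339) (nat_lit 0) (cs (lf (nat_lit 28) (nat_lit 250)) (nd (nat_lit 338) (nat_lit 0) (cs (lf (nat_lit 29) (nat_lit 272)) (nd (nat_lit 271) (nat_lit 0) (cs (lf (nat_lit 42) (nat_lit 271)) (lf (nat_lit 20) (nat_lit 246))))))))))))))))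 (cs (nd (nat_lit 271) (nat_lit 0) (cs (lf (nat_lit 20) (nat_lit 246)) (nd (nat_lit 226) (nat_lit 0) (cs (lf (nat_lit 7) (nat_lit 224)) (nd (nat_lit 273) (nat_lit 0) (cs (lf (nat_lit 15) (nat_lit 249)) (rf (nat_lit 5)))))))) (rf (nat_lit 6)))))) (nd (nat_lit 203) (nat_lit 0) (cs (rf (nat_lit 7)) (cs (rf (nat_lit 8)) (cs (rf (nat_lit 9)) (rf (nat_lit 10))))))))) q49462 (by decide +kernel)
def q49541 : Q := Q.p (nat_lit 0x1200000c0000000000000000000000000000000000000000000000000000000000000) (nat_lit 0x400001e0000fc0007f0000dc000100001e00003c00007000014000000000000000000000000000000000000000) (nat_lit 12)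
theorem c49541 : QOK q49541 := cut [q46798, q47079, q47100, q49523, q49524, q49532] ⟨c46798, c47079, c47100, c49523, c49524, c49532, trivial⟩ (nd (nat_lit 270) (nat_lit 0) (cs (lf (nat_lit 19) (nat_lit 246)) (nd (nat_lit 225) (nat_lit 0) (cs (rf (nat_lit 0)) (cs (rf (nat_lit 1)) (nd (nat_lit 291) (nat_lit 0) (cs (rf (nat_lit 2)) (cs (rf (nat_lit 3)) (cs (nd (nat_lit 226) (nat_lit 0) (cs (lf (nat_lit 35) (nat_lit 203)) (nd (nat_lit 227) (nat_lit 0) (cs (lf (nat_lit 6) (nat_lit 224)) (nd (nat_lit 313) (nat_lit 0) (cs (lf (nat_lit 34) (nat_lit 225)) (nd (nat_lit 336) (nat_lit 0) (cs (lf (nat_lit 28) (nat_lit 247)) (rf (nat_lit 4)))))))))) (nd (nat_lit 290) (nat_lit 0) (cs (lf (nat_lit 41) (nat_lit 224)) (nd (nat_lit 288) (nat_lit 0) (cs (lf (nat_lit 13) (nat_lit 266)) (nd (nat_lit 226) (nat_lit 0) (cs (lf (nat_lit 35) (nat_lit 203)) (nd (nat_lit 227) (nat_lit 0) (cs (lf (nat_lit 6) (nat_lit 224)) (nd (nat_lit 248) (nat_lit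 0) (cs (lf (nat_lit 30) (nat_lit 225)) (nd (nat_lit 292) (nat_lit 0) (cs (lf (nat_lit 35) (nat_lit 204)) (rf (nat_lit 5))))))))))))))))))))))) q49541 (by decide +kernel)
def q49580 : Q := Q.p (nat_lit 0x1200034c0000000010000040000000000000000000000000000000000000000000000) (nat_lit 0x400001c0000700002c0006d0000100001f0000fc000ad000000000000000000000000000000000000000000000) (nat_lit 12)
theorem c49580 : QOK q49580 := cut [q48835, q49171, q49578, q48706, q49518] ⟨c48835, c49171, c49578, c48706, c49518, trivial⟩ (nd (nat_lit 291) (nat_lit 0) (cs (rf (nat_lit 0)) (cs (rf (nat_lit 1)) (cs (rf (nat_lit 2)) (nd (nat_lit 313) (nat_lit 0) (cs (rf (nat_lit 3)) (rf (nat_lit 4)))))))) q49580 (by decide +kernel)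
def q49590 : Q := Q.p (nat_lit 0x1200034c0000000000000000000000000000000000000000000000000000000000000) (nat_lit 0x280000b00007c0006d0000100001300005c00007000014000000000000000000000000000000000000000) (nat_lit 8)
theorem c49590 : QOK q49590 := cut [q49171, q45760, q49585, q49588] ⟨c49171, c45760, c49585, c49588, trivial⟩ (nd (nat_lit 291) (nat_lit 0) (cs (rf (nat_lit 0)) (cs (nd (nat_lit 290) (nat_lit 0) (cs (nd (nat_lit 225) (nat_lit 0) (cs (lf (nat_lit 41) (nat_lit 224)) (nd (nat_lit 203) (nat_lit 0) (cs (lf (nat_lit 40) (nat_lit 202)) (rf (nat_lit 1)))))) (rf (nat_lit 2)))) (nd (nat_lit 270) (nat_lit 0) (cs (lf (nat_lit 19) (nat_lit 246)) (rf (nat_lit 3))))))) q49590 (by decide +kernel)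
def q49596 : Q := Q.p (nat_lit 0x1200000c0000000000000000000000000000000000000000000000000000000000000) (nat_lit 0x1e00007c0003f0000dc000100000700001800006000010000000000000000000000000000000000000000) (nat_lit 10)
theorem c49596 : QOK q49596 := cut [q49595] ⟨c49595, trivial⟩ (nd (nat_lit 270) (nat_lit 0) (cs (lf (nat_lit 19) (nat_lit 246)) (rf (nat_lit 0)))) q49596 (by decide +kernel)
def q49597 : Q := Q.p (nat_lit 0x1200034c0000000010000040000000000000000000000000000000000000000000000) (nat_lit 0x500001c0000700003c0006d0000000001f0000fc000af000004000000000000000000000000000000000000000) (nat_lit 12)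
theorem c49597 : QOK q49597 := cut [q48835, q47291, q48771, q48896, q49578, q49594] ⟨c48835, c47291, c48771, c48896, c49578, c49594, trivial⟩ (nd (nat_lit 291) (nat_lit 0) (cs (rf (nat_lit 0)) (cs (nd (nat_lit 313) (nat_lit 0) (cs (rf (nat_lit 1)) (cs (rf (nat_lit 2)) (rf (nat_lit 3))))) (cs (rf (nat_lit 4)) (rf (nat_lit 5)))))) q49597 (by decide +kernel)
def q49909 : Q := Q.p (nat_lit 0x1000004e0000000000000000000000000000000000000000000000000000000000000) (nat_lit 0x160000d8000118003ff000ff8003fc0003f000050000000000000000000000000000000000) (nat_lit 12)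
theorem c49909 : QOK q49909 := cut [q49240, q49243, q49720, q49732, q49200, q49206, q49852, q49857, q49865, q49872, q49239, q49242, q49300, q49287, q41051, q45595, q49204, q49895, q49900] ⟨c49240, c49243, c49720, c49732, c49200, c49206, c49852, c49857, c49865, c49872, c49239, c49242, c49300, c49287, c41051, c45595, c49204, c49895, c49900, trivial⟩ (nd (nat_lit 225) (nat_lit 0) (cs (rf (nat_lit 0)) (cs (rf (nat_lit 1)) (cs (nd (nat_lit 222) (nat_lit 0) (cs (rf (nat_lit 2)) (cs (rf (nat_lit 3)) (cs (nd (nat_lit 244) (nat_lit 0) (cs (lf (nat_lit 23) (nat_lit 221)) (nd (nat_lit 203) (nat_lit 0) (cs (rf (nat_lit 4)) (cs (rf (nat_lit 5)) (cs (nd (nat_lit 224) (nat_lit 0) (cs (lf (nat_lit 12) (nat_lit 221)) (nd (nat_lit 202) (nat_lit 0) (cs (rf (nat_lit 6)) (cs (nd (nat_lit 268) (nat_lit 0) (cs (lf (nat_lit 30) (nat_lit 202)) (nd (nat_lit 267) (nat_lit 0) (cs (lf (nat_lit 41) (nat_lit 201)) (nd (nat_lit 200) (nat_lit 0) (cs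 (lf (nat_lit 24) (nat_lit 178)) (nd (nat_lit 201) (nat_lit 0) (cs (lf (nat_lit 47) (nat_lit 179)) (lf (nat_lit 0) (nat_lit 199)))))))))) (nd (nat_lit 268) (nat_lit 0) (cs (lf (nat_lit 30) (nat_lit 202)) (nd (nat_lit 179) (nat_lit 0) (cs (lf (nat_lit 46) (nat_lit 179)) (rf (nat_lit 7))))))))))) (nd (nat_lit 224) (nat_lit 0) (cs (lf (nat_lit 12) (nat_lit 221)) (nd (nat_lit 181) (nat_lit 0) (cs (lf (nat_lit 36) (nat_lit 158)) (nd (nat_lit 248) (nat_lit 0) (cs (lf (nat_lit 29) (nat_lit 181)) (rf (nat_lit 8)))))))))))))) (cs (rf (nat_lit 9)) (nd (nat_lit 203) (nat_lit 0) (cs (rf (nat_lit 4)) (cs (rf (nat_lit 5)) (cs (nd (nat_lit 223) (nat_lit 0) (cs (lf (nat_lit 18) (nat_lit 222)) (nd (nat_lit 204) (nat_lit 0) (cs (nd (nat_lit 201) (nat_lit 0) (cs (nd (nat_lit 179) (nat_lit 0) (cs (lf (nat_lit 29) (nat_lit 179)) (nd (nat_lit 158) (nat_lit 0) (cs (lf (nat_lit 34) (nat_lit 157)) (nd (nat_lit 157) (nat_lit 0) (cs (lf (nat_lit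 35) (nat_lit 135)) (lf (nat_lit 41) (nat_lit 156)))))))) (lf (nat_lit 8) (nat_lit 200)))) (lf (nat_lit 14) (nat_lit 200)))))) (nd (nat_lit 223) (nat_lit 0) (cs (lf (nat_lit 18) (nat_lit 222)) (nd (nat_lit 224) (nat_lit 0) (cs (lf (nat_lit 17) (nat_lit 200)) (nd (nat_lit 199) (nat_lit 0) (cs (nd (nat_lit 181) (nat_lit 0) (cs (lf (nat_lit 36) (nat_lit 158)) (rf (nat_lit 8)))) (lf (nat_lit 22) (nat_lit 199))))))))))))))))) (nd (nat_lit 226) (nat_lit 0) (cs (rf (nat_lit 10)) (cs (rf (nat_lit 11)) (cs (rf (nat_lit 12)) (nd (nat_lit 203) (nat_lit 0) (cs (rf (nat_lit 4)) (cs (rf (nat_lit 5)) (cs (rf (nat_lit 13)) (nd (nat_lit 181) (nat_lit 0) (cs (rf (nat_lit 14)) (cs (rf (nat_lit 15)) (cs (rf (nat_lit 16)) (nd (nat_lit 204) (nat_lit 0) (cs (nd (nat_lit 180) (nat_lit 0) (cs (lf (nat_lit 47) (nat_lit 158)) (nd (nat_lit 179) (nat_lit 0) (cs (lf (nat_lit 0) (nat_lit 178)) (nd (nat_lit 205) (nat_lit 0) (cs (lf (nat_lit 18) (nat_lit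 180)) (lf (nat_lit 21) (nat_lit 179)))))))) (cs (nd (nat_lit 160) (nat_lit 0) (cs (lf (nat_lit 37) (nat_lit 159)) (nd (nat_lit 248) (nat_lit 0) (cs (lf (nat_lit 29) (nat_lit 181)) (nd (nat_lit 223) (nat_lit 0) (cs (lf (nat_lit 23) (nat_lit 222)) (rf (nat_lit 17)))))))) (nd (nat_lit 182) (nat_lit 0) (cs (lf (nat_lit 36) (nat_lit 159)) (nd (nat_lit 158) (nat_lit 0) (cs (lf (nat_lit 46) (nat_lit 158)) (nd (nat_lit 248) (nat_lit 0) (cs (lf (nat_lit 42) (nat_lit 181)) (nd (nat_lit 222) (nat_lit 0) (cs (lf (nat_lit 22) (nat_lit 222)) (rf (nat_lit 18))))))))))))))))))))))))))))) q49909 (by decide +kernel)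
def q50081 : Q := Q.p (nat_lit 0x1800034e0001000000000000000000000000000000000000000000000000000000000) (nat_lit 0x20000380000e000038000060000600000100002e0000a000000000000000000000000000000000000000000000000000) (nat_lit 9)
theorem c50081 : QOK q50081 := cut [q49118, q8903, q14184, q49116, q49436, q50077] ⟨c49118, c8903, c14184, c49116, c49436, c50077, trivial⟩ (nd (nat_lit 294) (nat_lit 0) (cs (rf (nat_lit 0)) (cs (nd (nat_lit 316) (nat_lit 0) (cs (rf (nat_lit 1)) (cs (rf (nat_lit 2)) (cs (rf (nat_lit 3)) (rf (nat_lit 4)))))) (nd (nat_lit 273) (nat_lit 0) (cs (lf (nat_lit 15) (nat_lit 249)) (nd (nat_lit 207) (nat_lit 0) (cs (lf (nat_lit 34) (nat_lit 206)) (nd (nat_lit 227) (nat_lit 0) (cs (lf (nat_lit 47) (nat_lit 205)) (rf (nat_lit 5))))))))))) q50081 (by decide +kernel)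
def q50183 : Q := Q.p (nat_lit 0x1000034c0000200010000040000000000000000000000000000000000000000000000) (nat_lit 0x380006ef000138001cf000fe000bfc0003c000000000000000000000000000000000000000) (nat_lit 12)
theorem c50183 : QOK q50183 := cut [q49243, q49931, q49242, q50157, q50158, q45781, q49809, q47646, q50162, q49400, q49900, q50175, q50182] ⟨c49243, c49931, c49242, c50157, c50158, c45781, c49809, c47646, c50162, c49400, c49900, c50175, c50182, trivial⟩ (nd (nat_lit 245) (nat_lit 0) (cs (rf (nat_lit 0)) (cs (rf (nat_lit 1)) (cs (nd (nat_lit 226) (nat_lit 0) (cs (rf (nat_lit 2)) (cs (rf (nat_lit 3)) (nd (nat_lit 204) (nat_lit 0) (cs (nd (nat_lit 269) (nat_lit 0) (cs (lf (nat_lit 30) (nat_lit 203)) (rf (nat_lit 4)))) (cs (nd (nat_lit 269) (nat_lit 0) (cs (lf (nat_lit 30) (nat_lit 203)) (rf (nat_lit 5)))) (cs (nd (nat_lit 182) (nat_lit 0) (cs (lf (nat_lit 36) (nat_lit 159)) (nd (nat_lit 248) (nat_lit 0) (cs (rf (nat_lit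 6)) (cs (nd (nat_lit 270) (nat_lit 0) (cs (rf (nat_lit 7)) (lf (nat_lit 5) (nat_lit 245)))) (nd (nat_lit 203) (nat_lit 0) (cs (nd (nat_lit 183) (nat_lit 0) (cs (lf (nat_lit 35) (nat_lit 160)) (nd (nat_lit 184) (nat_lit 0) (cs (lf (nat_lit 6) (nat_lit 181)) (rf (nat_lit 8)))))) (cs (nd (nat_lit 222) (nat_lit 0) (cs (lf (nat_lit 22) (nat_lit 222)) (nd (nat_lit 266) (nat_lit 0) (cs (lf (nat_lit 10) (nat_lit 244)) (nd (nat_lit 181) (nat_lit 0) (cs (lf (nat_lit 47) (nat_lit 159)) (rf (nat_lit 9)))))))) (nd (nat_lit 181) (nat_lit 0) (cs (lf (nat_lit 47) (nat_lit 159)) (nd (nat_lit 222) (nat_lit 0) (cs (lf (nat_lit 22) (nat_lit 222)) (nd (nat_lit 158) (nat_lit 0) (cs (lf (nat_lit 46) (nat_lit 158)) (rf (nat_lit 10)))))))))))))))) (rf (nat_lit 11))))))))) (rf (nat_lit 12)))))) q50183 (by decide +kernel)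
def q50264 : Q := Q.p (nat_lit 0xc0000200000000000000000000000000000000000000000000000000000000) (nat_lit 0x130000cf000138001df0003f8000fc0001f000014000000000000000000000000000000000) (nat_lit 12)
theorem c50264 : QOK q50264 := cut [q49240, q49243, q49262, q49647, q50217, q49239, q49242, q50260, q50262] ⟨c49240, c49243, c49262, c49647, c50217, c49239, c49242, c50260, c50262, trivial⟩ (nd (nat_lit 245) (nat_lit 0) (cs (rf (nat_lit 0)) (cs (rf (nat_lit 1)) (cs (rf (nat_lit 2)) (nd (nat_lit 223) (nat_lit 0) (cs (rf (nat_lit 3)) (cs (rf (nat_lit 4)) (cs (nd (nat_lit 226) (nat_lit 0) (cs (rf (nat_lit 5)) (cs (rf (nat_lit 6)) (rf (nat_lit 7))))) (rf (nat_lit 8)))))))))) q50264 (by decide +kernel)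
def q50381 : Q := Q.p (nat_lit 0x1000004c0000200000000000000000000000000000000000000000000000000000000) (nat_lit 0x200000800002f000138003df000ff8003fe0003f8000f00001c0000500000000000000000000000) (nat_lit 12)
theorem c50381 : QOK q50381 := cut [q49403, q50293, q49358, q49216, q26739, q49366, q49379, q49381, q49384, q49346, q50295, q41051, q45595, q49204, q49243, q49262, q50349, q50351, q50310, q50353, q17985, q50380] ⟨c49403, c50293, c49358, c49216, c26739, c49366, c49379, c49381, c49384, c49346, c50295, c41051, c45595, c49204, c49243, c49262, c50349, c50351, c50310, c50353, c17985, c50380, trivial⟩ (nd (nat_lit 203) (nat_lit 0) (cs (rf (nat_lit 0)) (cs (rf (nat_lit 1)) (cs (nd (nat_lit 202) (nat_lit 0) (cs (rf (nat_lit 2)) (cs (nd (nat_lit 226) (nat_lit 0) (cs (rf (nat_lit 3)) (cs (nd (nat_lit 204) (nat_lit 0) (cs (rf (nat_lit 4)) (cs (nd (nat_lit 201) (nat_lit 0) (cs (lf (nat_lit 0) (nat_lit 200)) (nd (nat_lit 269)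 (nat_lit 0) (cs (lf (nat_lit 30) (nat_lit 203)) (nd (nat_lit 179) (nat_lit 0) (cs (lf (nat_lit 23) (nat_lit 178)) (nd (nat_lit 244) (nat_lit 0) (cs (rf (nat_lit 5)) (lf (nat_lit 13) (nat_lit 222)))))))))) (nd (nat_lit 160) (nat_lit 0) (cs (lf (nat_lit 37) (nat_lit 159)) (nd (nat_lit 201) (nat_lit 0) (cs (lf (nat_lit 0) (nat_lit 200)) (nd (nat_lit 244) (nat_lit 0) (cs (lf (nat_lit 13) (nat_lit 222)) (nd (nat_lit 179) (nat_lit 0) (cs (lf (nat_lit 23) (nat_lit 178)) (rf (nat_lit 5))))))))))))) (rf (nat_lit 6))))) (cs (nd (nat_lit 226) (nat_lit 0) (cs (rf (nat_lit 3)) (cs (rf (nat_lit 6)) (nd (nat_lit 224) (nat_lit 0) (cs (nd (nat_lit 180) (nat_lit 0) (cs (lf (nat_lit 24) (nat_lit 158)) (rf (nat_lit 7)))) (cs (nd (nat_lit 201) (nat_lit 0) (cs (lf (nat_lit 0) (nat_lit 200)) (nd (nat_lit 180) (nat_lit 0) (cs (lf (nat_lit 24) (nat_lit 158)) (nd (nat_lit 179) (nat_lit 0) (cs (lf (nat_lit 47) (nat_lit 157)) (rf (nat_lit 8))))))))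 (nd (nat_lit 223) (nat_lit 0) (cs (rf (nat_lit 9)) (nd (nat_lit 244) (nat_lit 0) (cs (lf (nat_lit 13) (nat_lit 222)) (nd (nat_lit 204) (nat_lit 0) (cs (lf (nat_lit 6) (nat_lit 201)) (nd (nat_lit 160) (nat_lit 0) (cs (lf (nat_lit 37) (nat_lit 159)) (nd (nat_lit 201) (nat_lit 0) (cs (lf (nat_lit 23) (nat_lit 200)) (nd (nat_lit 179) (nat_lit 0) (cs (lf (nat_lit 23) (nat_lit 178)) (lf (nat_lit 24) (nat_lit 157)))))))))))))))))))) (nd (nat_lit 269) (nat_lit 0) (cs (lf (nat_lit 47) (nat_lit 180)) (rf (nat_lit 10)))))))) (cs (nd (nat_lit 181) (nat_lit 0) (cs (rf (nat_lit 11)) (cs (rf (nat_lit 12)) (cs (rf (nat_lit 13)) (nd (nat_lit 245) (nat_lit 0) (cs (rf (nat_lit 14)) (cs (rf (nat_lit 15)) (nd (nat_lit 160) (nat_lit 0) (cs (lf (nat_lit 34) (nat_lit 159)) (nd (nat_lit 180) (nat_lit 0) (cs (lf (nat_lit 47) (nat_lit 158)) (nd (nat_lit 202) (nat_lit 0) (cs (lf (nat_lit 42) (nat_lit 180)) (nd (nat_lit 224) (nat_lit 0) (cs (lf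 (nat_lit 41) (nat_lit 179)) (nd (nat_lit 226) (nat_lit 0) (cs (lf (nat_lit 6) (nat_lit 223)) (nd (nat_lit 200) (nat_lit 0) (cs (lf (nat_lit 1) (nat_lit 200)) (nd (nat_lit 179) (nat_lit 0) (cs (lf (nat_lit 47) (nat_lit 157)) (nd (nat_lit 178) (nat_lit 0) (cs (lf (nat_lit 11) (nat_lit 177)) (lf (nat_lit 0) (nat_lit 177))))))))))))))))))))))))) (cs (rf (nat_lit 16)) (cs (nd (nat_lit 180) (nat_lit 0) (cs (rf (nat_lit 17)) (cs (nd (nat_lit 226) (nat_lit 0) (cs (rf (nat_lit 3)) (cs (rf (nat_lit 18)) (nd (nat_lit 269) (nat_lit 0) (cs (lf (nat_lit 46) (nat_lit 180)) (rf (nat_lit 19))))))) (nd (nat_lit 181) (nat_lit 0) (cs (lf (nat_lit 47) (nat_lit 158)) (nd (nat_lit 159) (nat_lit 0) (cs (lf (nat_lit 40) (nat_lit 158)) (nd (nat_lit 226) (nat_lit 0) (cs (lf (nat_lit 29) (nat_lit 159)) (nd (nat_lit 244) (nat_lit 0) (cs (lf (nat_lit 13) (nat_lit 222)) (nd (nat_lit 227) (nat_lit 0) (cs (lf (nat_lit 6) (nat_lit 224)) (nd (nat_lit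 137) (nat_lit 0) (cs (lf (nat_lit 28) (nat_lit 137)) (rf (nat_lit 20))))))))))))))))) (rf (nat_lit 21))))))))) q50381 (by decide +kernel)
def q50412 : Q := Q.p (nat_lit 0x1000000c0000200000000000000000000000000000000000000000000000000000000) (nat_lit 0x1b0000ef000138000df0003f8000fc0001f000014000000000000000000000000000000000) (nat_lit 12)
theorem c50412 : QOK q50412 := cut [q49262, q50182, q49647, q50217, q50262, q49300, q50260, q49809, q50401] ⟨c49262, c50182, c49647, c50217, c50262, c49300, c50260, c49809, c50401, trivial⟩ (nd (nat_lit 245) (nat_lit 0) (cs (rf (nat_lit 0)) (cs (rf (nat_lit 1)) (cs (nd (nat_lit 223) (nat_lit 0) (cs (rf (nat_lit 2)) (cs (rf (nat_lit 3)) (cs (rf (nat_lit 4)) (nd (nat_lit 226) (nat_lit 0) (cs (rf (nat_lit 5)) (cs (rf (nat_lit 6)) (cs (nd (nat_lit 248) (nat_lit 0) (cs (lf (nat_lit 17) (nat_lit 223)) (nd (nat_lit 266) (nat_lit 0) (cs (lf (nat_lit 10) (nat_lit 244)) (rf (nat_lit 7))))))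 (nd (nat_lit 224) (nat_lit 0) (cs (lf (nat_lit 6) (nat_lit 223)) (nd (nat_lit 204) (nat_lit 0) (cs (lf (nat_lit 17) (nat_lit 201)) (nd (nat_lit 160) (nat_lit 0) (cs (lf (nat_lit 37) (nat_lit 159)) (nd (nat_lit 269) (nat_lit 0) (cs (lf (nat_lit 30) (nat_lit 203)) (nd (nat_lit 270) (nat_lit 0) (cs (lf (nat_lit 19) (nat_lit 246)) (nd (nat_lit 203) (nat_lit 0) (cs (lf (nat_lit 29) (nat_lit 203)) (nd (nat_lit 180) (nat_lit 0) (cs (lf (nat_lit 46) (nat_lit 180)) (rf (nat_lit 8)))))))))))))))))))))))) (nd (nat_lit 226) (nat_lit 0) (cs (lf (nat_lit 12) (nat_lit 222)) (rf (nat_lit 5)))))))) q50412 (by decide +kernel)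
def q50414 : Q := Q.p (nat_lit 0xc0000200000000000000000000000000000000000000000000000000000000) (nat_lit 0x40000700001c0000700001f000130001df0000700001c00005000000000000000000000000000000000000000) (nat_lit 10)
theorem c50414 : QOK q50414 := cut [q49240, q49243, q49941] ⟨c49240, c49243, c49941, trivial⟩ (nd (nat_lit 245) (nat_lit 0) (cs (rf (nat_lit 0)) (cs (rf (nat_lit 1)) (rf (nat_lit 2))))) q50414 (by decide +kernel)
def q50525 : Q := Q.p (nat_lit 0x1000004c0000200000000040000000000000000000000000000000000000000000000) (nat_lit 0x100001c000070000380000f000010000110000fc000bf0000fc0000d0000000000000000000000000000000000) (nat_lit 12)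
theorem c50525 : QOK q50525 := cut [q49203, q49205, q49206, q50524] ⟨c49203, c49205, c49206, c50524, trivial⟩ (nd (nat_lit 203) (nat_lit 0) (cs (rf (nat_lit 0)) (cs (rf (nat_lit 1)) (cs (rf (nat_lit 2)) (rf (nat_lit 3)))))) q50525 (by decide +kernel)
def q50629 : Q := Q.p (nat_lit 0xc0000000000000000000000000000000000000000000000000000000000000) (nat_lit 0x1f80007e0003f80003f000138001ff0003f80007e0001f80005a000000000000000000000000000000000) (nat_lit 13)
theorem c50629 : QOK q50629 := cut [q49612, q49616, q49711, q49712, q49733, q49850, q49240, q49243, q50572, q49239, q49242, q49309, q49355, q49217, q49322, q50580, q50585, q50589, q50628] ⟨c49612, c49616, c49711, c49712, c49733, c49850, c49240, c49243, c50572, c49239, c49242, c49309, c49355, c49217, c49322, c50580, c50585, c50589, c50628, trivial⟩ (nd (nat_lit 245) (nat_lit 0) (cs (rf (nat_lit 0)) (cs (rf (nat_lit 1)) (cs (rf (nat_lit 2)) (cs (rf (nat_lit 3)) (cs (rf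 (nat_lit 4)) (cs (rf (nat_lit 5)) (cs (nd (nat_lit 225) (nat_lit 0) (cs (rf (nat_lit 6)) (cs (rf (nat_lit 7)) (cs (rf (nat_lit 8)) (nd (nat_lit 226) (nat_lit 0) (cs (rf (nat_lit 9)) (cs (rf (nat_lit 10)) (nd (nat_lit 268) (nat_lit 0) (cs (rf (nat_lit 11)) (cs (rf (nat_lit 12)) (cs (nd (nat_lit 269) (nat_lit 0) (cs (rf (nat_lit 13)) (cs (nd (nat_lit 203) (nat_lit 0) (cs (lf (nat_lit 36) (nat_lit 180)) (nd (nat_lit 202) (nat_lit 0) (cs (lf (nat_lit 47) (nat_lit 180)) (nd (nat_lit 224) (nat_lit 0) (cs (lf (nat_lit 29) (nat_lit 202)) (rf (nat_lit 14)))))))) (nd (nat_lit 203) (nat_lit 0) (cs (lf (nat_lit 36) (nat_lit 180)) (nd (nat_lit 182) (nat_lit 0) (cs (lf (nat_lit 34) (nat_lit 181)) (nd (nat_lit 202) (nat_lit 0) (cs (lf (nat_lit 47) (nat_lit 180)) (nd (nat_lit 201) (nat_lit 0) (cs (lf (nat_lit 0) (nat_lit 200)) (nd (nat_lit 179) (nat_lit 0) (cs (lf (nat_lit 44) (nat_lit 179)) (lf (nat_lit 26) (nat_lit 179)))))))))))))))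 (nd (nat_lit 291) (nat_lit 0) (cs (nd (nat_lit 290) (nat_lit 0) (cs (lf (nat_lit 30) (nat_lit 224)) (nd (nat_lit 224) (nat_lit 0) (cs (lf (nat_lit 29) (nat_lit 224)) (rf (nat_lit 15)))))) (cs (nd (nat_lit 290) (nat_lit 0) (cs (lf (nat_lit 30) (nat_lit 224)) (nd (nat_lit 269) (nat_lit 0) (cs (lf (nat_lit 35) (nat_lit 203)) (nd (nat_lit 202) (nat_lit 0) (cs (lf (nat_lit 25) (nat_lit 202)) (rf (nat_lit 16)))))))) (cs (nd (nat_lit 269) (nat_lit 0) (cs (lf (nat_lit 35) (nat_lit 203)) (rf (nat_lit 17)))) (nd (nat_lit 290) (nat_lit 0) (cs (lf (nat_lit 30) (nat_lit 224)) (nd (nat_lit 269) (nat_lit 0) (cs (lf (nat_lit 35) (nat_lit 203)) (nd (nat_lit 313) (nat_lit 0) (cs (lf (nat_lit 34) (nat_lit 225)) (lf (nat_lit 42) (nat_lit 246))))))))))))))))))))))) (rf (nat_lit 18)))))))))) q50629 (by decide +kernel)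
def q50849 : Q := Q.p (nat_lit 0xc0000200000000000000000000000000000000000000000000000000000000) (nat_lit 0x100001c0000700001c000030000000000580007f80007c0001c000050000000000000000000000000000000000) (nat_lit 9)
theorem c50849 : QOK q50849 := cut [q49200, q49205, q49206, q49403, q47102, q50517, q50847] ⟨c49200, c49205, c49206, c49403, c47102, c50517, c50847, trivial⟩ (nd (nat_lit 203) (nat_lit 0) (cs (rf (nat_lit 0)) (cs (rf (nat_lit 1)) (cs (rf (nat_lit 2)) (cs (rf (nat_lit 3)) (nd (nat_lit 269) (nat_lit 0) (cs (rf (nat_lit 4)) (cs (rf (nat_lit 5)) (rf (nat_lit 6)))))))))) q50849 (by decide +kernel)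
def q50942 : Q := Q.p (nat_lit 0x1100000c0000000000000000000000000000000000000000000000000000000000000) (nat_lit 0x1d00007c0007b8000ee000038001fe0007f00007c0001c000010000000000000000000000000000000000) (nat_lit 12)
theorem c50942 : QOK q50942 := cut [q50881, q50036, q50725, q50753, q49412, q48778, q50924, q50674, q50874, q50893, q50914, q50939, q49320, q50876] ⟨c50881, c50036, c50725, c50753, c49412, c48778, c50924, c50674, c50874, c50893, c50914, c50939, c49320, c50876, trivial⟩ (nd (nat_lit 269) (nat_lit 0) (cs (rf (nat_lit 0)) (cs (nd (nat_lit 224) (nat_lit 0) (cs (rf (nat_lit 1)) (cs (rf (nat_lit 2)) (cs (rf (nat_lit 3)) (nd (nat_lit 270) (nat_lit 0) (cs (lf (nat_lit 19) (nat_lit 246)) (nd (nat_lit 244) (nat_lit 0) (cs (lf (nat_lit 1) (nat_lit 244)) (nd (nat_lit 202) (nat_lit 0) (cs (lf (nat_lit 24) (nat_lit 180)) (nd (nat_lit 179) (nat_lit 0) (cs (lf (nat_lit 46) (nat_lit 179)) (nd (nat_lit 203) (nat_lit 0) (cs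 (lf (nat_lit 35) (nat_lit 180)) (nd (nat_lit 225) (nat_lit 0) (cs (lf (nat_lit 29) (nat_lit 203)) (rf (nat_lit 4)))))))))))))))))) (cs (nd (nat_lit 291) (nat_lit 0) (cs (rf (nat_lit 5)) (cs (nd (nat_lit 313) (nat_lit 0) (cs (lf (nat_lit 42) (nat_lit 246)) (nd (nat_lit 312) (nat_lit 0) (cs (lf (nat_lit 41) (nat_lit 246)) (nd (nat_lit 314) (nat_lit 0) (cs (lf (nat_lit 29) (nat_lit 247)) (nd (nat_lit 225) (nat_lit 0) (cs (lf (nat_lit 28) (nat_lit 225)) (rf (nat_lit 6)))))))))) (nd (nat_lit 225) (nat_lit 0) (cs (rf (nat_lit 6)) (cs (nd (nat_lit 224) (nat_lit 0) (cs (lf (nat_lit 24) (nat_lit 202)) (nd (nat_lit 292) (nat_lit 0) (cs (lf (nat_lit 29) (nat_lit 225)) (nd (nat_lit 293) (nat_lit 0) (cs (lf (nat_lit 18) (nat_lit 268)) (nd (nat_lit 266) (nat_lit 0) (cs (lf (nat_lit 1) (nat_lit 266)) (rf (nat_lit 7)))))))))) (nd (nat_lit 202) (nat_lit 0) (cs (lf (nat_lit 46) (nat_lit 202)) (nd (nat_lit 203) (nat_lit 0) (cs (lf (nat_lit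 47) (nat_lit 180)) (lf (nat_lit 36) (nat_lit 180)))))))))))) (cs (nd (nat_lit 267) (nat_lit 0) (cs (nd (nat_lit 270) (nat_lit 0) (cs (lf (nat_lit 19) (nat_lit 246)) (rf (nat_lit 8)))) (cs (nd (nat_lit 245) (nat_lit 0) (cs (nd (nat_lit 244) (nat_lit 0) (cs (lf (nat_lit 0) (nat_lit 243)) (nd (nat_lit 225) (nat_lit 0) (cs (lf (nat_lit 17) (nat_lit 222)) (nd (nat_lit 181) (nat_lit 0) (cs (lf (nat_lit 37) (nat_lit 180)) (nd (nat_lit 222) (nat_lit 0) (cs (lf (nat_lit 23) (nat_lit 221)) (nd (nat_lit 200) (nat_lit 0) (cs (lf (nat_lit 24) (nat_lit 178)) (nd (nat_lit 289) (nat_lit 0) (cs (lf (nat_lit 45) (nat_lit 200)) (lf (nat_lit 42) (nat_lit 222)))))))))))))) (cs (rf (nat_lit 9)) (cs (nd (nat_lit 265) (nat_lit 0) (cs (lf (nat_lit 13) (nat_lit 243)) (nd (nat_lit 244) (nat_lit 0) (cs (lf (nat_lit 0) (nat_lit 243)) (nd (nat_lit 225) (nat_lit 0) (cs (lf (nat_lit 17) (nat_lit 222)) (nd (nat_lit 203) (nat_lit 0) (cs (lf (nat_lit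 36) (nat_lit 180)) (nd (nat_lit 222) (nat_lit 0) (cs (lf (nat_lit 23) (nat_lit 221)) (nd (nat_lit 182) (nat_lit 0) (cs (lf (nat_lit 34) (nat_lit 181)) (nd (nat_lit 289) (nat_lit 0) (cs (lf (nat_lit 42) (nat_lit 222)) (nd (nat_lit 202) (nat_lit 0) (cs (lf (nat_lit 47) (nat_lit 180)) (lf (nat_lit 37) (nat_lit 201)))))))))))))))))) (nd (nat_lit 244) (nat_lit 0) (cs (lf (nat_lit 0) (nat_lit 243)) (nd (nat_lit 265) (nat_lit 0) (cs (lf (nat_lit 13) (nat_lit 243)) (nd (nat_lit 222) (nat_lit 0) (cs (lf (nat_lit 23) (nat_lit 221)) (nd (nat_lit 225) (nat_lit 0) (cs (lf (nat_lit 17) (nat_lit 222)) (nd (nat_lit 203) (nat_lit 0) (cs (lf (nat_lit 36) (nat_lit 180)) (nd (nat_lit 202) (nat_lit 0) (cs (lf (nat_lit 47) (nat_lit 180)) (nd (nat_lit 204) (nat_lit 0) (cs (lf (nat_lit 35) (nat_lit 181)) (nd (nat_lit 223) (nat_lit 0) (cs (lf (nat_lit 14) (nat_lit 200)) (lf (nat_lit 9) (nat_lit 200)))))))))))))))))))))) (cs (nd (nat_lit 266)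 (nat_lit 0) (cs (lf (nat_lit 12) (nat_lit 243)) (rf (nat_lit 10)))) (rf (nat_lit 11)))))) (nd (nat_lit 267) (nat_lit 0) (cs (nd (nat_lit 270) (nat_lit 0) (cs (lf (nat_lit 19) (nat_lit 246)) (rf (nat_lit 12)))) (cs (nd (nat_lit 266) (nat_lit 0) (cs (lf (nat_lit 12) (nat_lit 243)) (nd (nat_lit 243) (nat_lit 0) (cs (rf (nat_lit 13)) (lf (nat_lit 22) (nat_lit 243)))))) (rf (nat_lit 11)))))))))) q50942 (by decide +kernel)
def q51129 : Q := Q.p (nat_lit 0x40001100000c0000000000000000000000000000000000000000000000000000000000000) (nat_lit 0x80000680003b8000ec000030000f00001c0000700001c000010000000000000000000000000000000000) (nat_lit 10)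
theorem c51129 : QOK q51129 := cut [q50567, q50945, q51115, q50725, q47451, q51003] ⟨c50567, c50945, c51115, c50725, c47451, c51003, trivial⟩ (nd (nat_lit 224) (nat_lit 0) (cs (rf (nat_lit 0)) (cs (rf (nat_lit 1)) (cs (rf (nat_lit 2)) (nd (nat_lit 269) (nat_lit 0) (cs (rf (nat_lit 3)) (cs (nd (nat_lit 270) (nat_lit 0) (cs (lf (nat_lit 19) (nat_lit 246)) (nd (nat_lit 244) (nat_lit 0) (cs (lf (nat_lit 1) (nat_lit 244)) (nd (nat_lit 289) (nat_lit 0) (cs (lf (nat_lit 41) (nat_lit 223)) (nd (nat_lit 288) (nat_lit 0) (cs (lf (nat_lit 12) (nat_lit 265)) (lf (nat_lit 9) (nat_lit 266)))))))))) (nd (nat_lit 291) (nat_lit 0) (cs (rf (nat_lit 4)) (nd (nat_lit 289) (nat_lit 0) (cs (lf (nat_lit 41) (nat_lit 223)) (nd (nat_lit 287) (nat_lit 0) (cs (nd (nat_lit 225) (nat_lit 0) (cs (lf (nat_lit 35) (nat_lit 202)) (rf (nat_lit 5)))) (lf (nat_lit 13) (nat_lit 265))))))))))))))) q51129 (by decide +kernel)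
def q51202 : Q := Q.p (nat_lit 0x1100034c0000000000000000000000000000000000000000000000000000000000000) (nat_lit 0x80003e0001f80007f0006ee000038001fe0007b80002000000000000000000000000000000000000000000000) (nat_lit 12)
theorem c51202 : QOK q51202 := cut [q50853, q50958, q49354, q50855, q51178, q50585, q51188, q49585, q50539, q49469] ⟨c50853, c50958, c49354, c50855, c51178, c50585, c51188, c49585, c50539, c49469, trivial⟩ (nd (nat_lit 290) (nat_lit 0) (cs (rf (nat_lit 0)) (cs (rf (nat_lit 1)) (nd (nat_lit 225) (nat_lit 0) (cs (rf (nat_lit 2)) (cs (rf (nat_lit 3)) (nd (nat_lit 291) (nat_lit 0) (cs (nd (nat_lit 224) (nat_lit 0) (cs (lf (nat_lit 29) (nat_lit 224)) (nd (nat_lit 289) (nat_lit 0) (cs (lf (nat_lit 41) (nat_lit 223)) (nd (nat_lit 223) (nat_lit 0) (cs (lf (nat_lit 47) (nat_lit 201)) (nd (nat_lit 222) (nat_lit 0) (cs (lf (nat_lit 0) (nat_lit 221)) (nd (nat_lit 199) (nat_lit 0) (cs (lf (nat_lit 22) (nat_lit 199))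 (nd (nat_lit 244) (nat_lit 0) (cs (lf (nat_lit 11) (nat_lit 221)) (nd (nat_lit 226) (nat_lit 0) (cs (nd (nat_lit 204) (nat_lit 0) (cs (lf (nat_lit 17) (nat_lit 201)) (lf (nat_lit 31) (nat_lit 203)))) (lf (nat_lit 10) (nat_lit 222)))))))))))))))) (cs (nd (nat_lit 224) (nat_lit 0) (cs (lf (nat_lit 29) (nat_lit 224)) (nd (nat_lit 289) (nat_lit 0) (cs (lf (nat_lit 41) (nat_lit 223)) (nd (nat_lit 223) (nat_lit 0) (cs (lf (nat_lit 47) (nat_lit 201)) (nd (nat_lit 222) (nat_lit 0) (cs (lf (nat_lit 0) (nat_lit 221)) (nd (nat_lit 200) (nat_lit 0) (cs (lf (nat_lit 23) (nat_lit 199)) (nd (nat_lit 243) (nat_lit 0) (cs (nd (nat_lit 267) (nat_lit 0) (cs (rf (nat_lit 4)) (lf (nat_lit 44) (nat_lit 200)))) (lf (nat_lit 10) (nat_lit 221)))))))))))))) (cs (nd (nat_lit 269) (nat_lit 0) (cs (rf (nat_lit 5)) (nd (nat_lit 270) (nat_lit 0) (cs (lf (nat_lit 19) (nat_lit 246)) (nd (nat_lit 288) (nat_lit 0) (cs (lf (nat_lit 13) (nat_lit 266))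 (nd (nat_lit 245) (nat_lit 0) (cs (lf (nat_lit 0) (nat_lit 244)) (rf (nat_lit 6)))))))))) (nd (nat_lit 269) (nat_lit 0) (cs (rf (nat_lit 7)) (cs (rf (nat_lit 8)) (nd (nat_lit 271) (nat_lit 0) (cs (lf (nat_lit 20) (nat_lit 246)) (nd (nat_lit 273) (nat_lit 0) (cs (lf (nat_lit 15) (nat_lit 249)) (nd (nat_lit 313) (nat_lit 0) (cs (lf (nat_lit 42) (nat_lit 246)) (nd (nat_lit 314) (nat_lit 0) (cs (lf (nat_lit 29) (nat_lit 247)) (nd (nat_lit 315) (nat_lit 0) (cs (lf (nat_lit 18) (nat_lit 290)) (nd (nat_lit 293) (nat_lit 0) (cs (lf (nat_lit 30) (nat_lit 249)) (rf (nat_lit 9))))))))))))))))))))))))))) q51202 (by decide +kernel)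
def q51258 : Q := Q.p (nat_lit 0x1000000e0000200000000000000000000000000000000000000000000000000000000) (nat_lit 0x60000180000e80001180001e0000d80003400005000000000000000000000000000000000000000) (nat_lit 10)
theorem c51258 : QOK q51258 := cut [q49943, q50158, q45697, q50783, q50779] ⟨c49943, c50158, c45697, c50783, c50779, trivial⟩ (nd (nat_lit 269) (nat_lit 0) (cs (rf (nat_lit 0)) (cs (rf (nat_lit 1)) (nd (nat_lit 224) (nat_lit 0) (cs (rf (nat_lit 2)) (cs (rf (nat_lit 3)) (nd (nat_lit 180) (nat_lit 0) (cs (lf (nat_lit 25) (nat_lit 180)) (nd (nat_lit 244) (nat_lit 0) (cs (lf (nat_lit 12) (nat_lit 221)) (nd (nat_lit 222) (nat_lit 0) (cs (lf (nat_lit 23) (nat_lit 221)) (rf (nat_lit 4)))))))))))))) q51258 (by decide +kernel)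
def q51311 : Q := Q.p (nat_lit 0x100000400001e0000000000000000000000000000000000000000000000000000000000000) (nat_lit 0x2000008000020000000000c0000380000e000028000000000000000000000000000000000000000) (nat_lit 7)
theorem c51311 : QOK q51311 := cut [q51310] ⟨c51310, trivial⟩ (nd (nat_lit 226) (nat_lit 0) (cs (lf (nat_lit 17) (nat_lit 223)) (rf (nat_lit 0)))) q51311 (by decide +kernel)
def q51432 : Q := Q.p (nat_lit 0x1000034c0000000000000000000000000000000000000000000000000000000000000) (nat_lit 0x540003f0001fe0007f8006ff000138001ff0005700005c00005000000000000000000000000000000000000000) (nat_lit 13)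
theorem c51432 : QOK q51432 := cut [q50707, q49941, q49171, q49432, q49521, q51399, q48835, q49551, q49553, q50816, q51403, q49621, q50060, q49320, q50893, q50999, q51217, q49616, q49733, q51369, q49711, q49712, q50057, q50178, q49585] ⟨c50707, c49941, c49171, c49432, c49521, c51399, c48835, c49551, c49553, c50816, c51403, c49621, c50060, c49320, c50893, c50999, c51217, c49616, c49733, c51369, c49711, c49712, c50057, c50178, c49585, trivial⟩ (nd (nat_lit 269) (nat_lit 0) (cs (rf (nat_lit 0)) (cs (nd (nat_lit 270) (nat_lit 0) (cs (lf (nat_lit 19) (nat_lit 246)) (nd (nat_lit 245) (nat_lit 0) (cs (rf (nat_lit 1)) (lf (nat_lit 0) (nat_lit 244)))))) (cs (nd (nat_lit 270) (nat_lit 0) (cs (lf (nat_lit 19) (nat_lit 246)) (nd (nat_lit 245) (nat_lit 0) (cs (lf (nat_lit 0) (nat_lit 244)) (nd (nat_lit 291) (nat_lit 0) (cs (rf (nat_lit 2)) (cs (rf (nat_lit 3)) (cs (rf (nat_lit 4)) (rf (nat_lit 5)))))))))) (cs (nd (nat_lit 291) (nat_lit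 0) (cs (rf (nat_lit 6)) (cs (rf (nat_lit 7)) (nd (nat_lit 225) (nat_lit 0) (cs (rf (nat_lit 8)) (cs (rf (nat_lit 9)) (nd (nat_lit 224) (nat_lit 0) (cs (lf (nat_lit 47) (nat_lit 202)) (nd (nat_lit 292) (nat_lit 0) (cs (lf (nat_lit 29) (nat_lit 225)) (nd (nat_lit 290) (nat_lit 0) (cs (lf (nat_lit 41) (nat_lit 224)) (nd (nat_lit 271) (nat_lit 0) (cs (lf (nat_lit 15) (nat_lit 268)) (nd (nat_lit 273) (nat_lit 0) (cs (lf (nat_lit 15) (nat_lit 249)) (nd (nat_lit 226) (nat_lit 0) (cs (lf (nat_lit 35) (nat_lit 203)) (rf (nat_lit 10)))))))))))))))))))) (cs (nd (nat_lit 270) (nat_lit 0) (cs (lf (nat_lit 19) (nat_lit 246)) (nd (nat_lit 245) (nat_lit 0) (cs (lf (nat_lit 0) (nat_lit 244)) (nd (nat_lit 267) (nat_lit 0) (cs (rf (nat_lit 11)) (cs (rf (nat_lit 12)) (cs (nd (nat_lit 268) (nat_lit 0) (cs (rf (nat_lit 13)) (cs (rf (nat_lit 14)) (rf (nat_lit 15))))) (nd (nat_lit 268) (nat_lit 0) (cs (rf (nat_lit 15)) (cs (nd (nat_lit 292)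 (nat_lit 0) (cs (lf (nat_lit 5) (nat_lit 267)) (nd (nat_lit 314) (nat_lit 0) (cs (lf (nat_lit 42) (nat_lit 247)) (nd (nat_lit 225) (nat_lit 0) (cs (lf (nat_lit 45) (nat_lit 225)) (lf (nat_lit 27) (nat_lit 225)))))))) (nd (nat_lit 289) (nat_lit 0) (cs (lf (nat_lit 11) (nat_lit 266)) (rf (nat_lit 16))))))))))))))) (cs (nd (nat_lit 270) (nat_lit 0) (cs (lf (nat_lit 19) (nat_lit 246)) (nd (nat_lit 245) (nat_lit 0) (cs (rf (nat_lit 17)) (cs (rf (nat_lit 18)) (cs (rf (nat_lit 19)) (nd (nat_lit 291) (nat_lit 0) (cs (rf (nat_lit 6)) (cs (rf (nat_lit 7)) (rf (nat_lit 5))))))))))) (cs (nd (nat_lit 245) (nat_lit 0) (cs (rf (nat_lit 20)) (cs (rf (nat_lit 21)) (cs (rf (nat_lit 22)) (nd (nat_lit 244) (nat_lit 0) (cs (lf (nat_lit 5) (nat_lit 244)) (nd (nat_lit 243) (nat_lit 0) (cs (lf (nat_lit 4) (nat_lit 243)) (rf (nat_lit 23)))))))))) (nd (nat_lit 291) (nat_lit 0) (cs (rf (nat_lit 6)) (cs (rf (nat_lit 2)) (nd (nat_lit 290) (nat_lit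 0) (cs (rf (nat_lit 24)) (nd (nat_lit 312) (nat_lit 0) (cs (lf (nat_lit 36) (nat_lit 224)) (nd (nat_lit 334) (nat_lit 0) (cs (lf (nat_lit 30) (nat_lit 268)) (lf (nat_lit 33) (nat_lit 246))))))))))))))))))) q51432 (by decide +kernel)
def q51510 : Q := Q.p (nat_lit 0x100000580000200000000000000000000000000000000000000000000000000000000) (nat_lit 0xc0000300001c000278000240000400001c00007000018000040000000000000000000000000000000000) (nat_lit 10)
theorem c51510 : QOK q51510 := cut [q44691, q51506] ⟨c44691, c51506, trivial⟩ (nd (nat_lit 203) (nat_lit 0) (cs (rf (nat_lit 0)) (cs (rf (nat_lit 1)) (nd (nat_lit 249) (nat_lit 0) (cs (lf (nat_lit 5) (nat_lit 247)) (nd (nat_lit 268) (nat_lit 0) (cs (lf (nat_lit 10) (nat_lit 246)) (nd (nat_lit 246) (nat_lit 0) (cs (lf (nat_lit 11) (nat_lit 245)) (lf (nat_lit 36) (nat_lit 180))))))))))) q51510 (by decide +kernel)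
def q51542 : Q := Q.p (nat_lit 0x100000580000200000000000000000000000000000000000000000000000000000000) (nat_lit 0xc0000300001c000270000200003400001c0000700001c000050000000000000000000000000000000000) (nat_lit 10)
theorem c51542 : QOK q51542 := cut [q44691, q51506, q51534, q51540] ⟨c44691, c51506, c51534, c51540, trivial⟩ (nd (nat_lit 203) (nat_lit 0) (cs (rf (nat_lit 0)) (cs (rf (nat_lit 1)) (cs (nd (nat_lit 249) (nat_lit 0) (cs (lf (nat_lit 5) (nat_lit 247)) (rf (nat_lit 2)))) (nd (nat_lit 249) (nat_lit 0) (cs (lf (nat_lit 5) (nat_lit 247)) (rf (nat_lit 3)))))))) q51542 (by decide +kernel)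
def q51644 : Q := Q.p (nat_lit 0x100000580000600000000000000000000000000000000000000000000000000000000) (nat_lit 0x1500007c0003f00007c00007c0011c000f70000dc00015000000000000000000000000000000000000000) (nat_lit 11)
theorem c51644 : QOK q51644 := cut [q40907, q26658, q51612, q51608, q49700, q51561, q47100, q48727, q48738] ⟨c40907, c26658, c51612, c51608, c49700, c51561, c47100, c48727, c48738, trivial⟩ (nd (nat_lit 269) (nat_lit 0) (cs (rf (nat_lit 0)) (cs (nd (nat_lit 204) (nat_lit 0) (cs (rf (nat_lit 1)) (nd (nat_lit 223) (nat_lit 0) (cs (nd (nat_lit 224) (nat_lit 0) (cs (lf (nat_lit 17) (nat_lit 201)) (lf (nat_lit 0) (nat_lit 222)))) (cs (nd (nat_lit 245) (nat_lit 0) (cs (nd (nat_lit 246) (nat_lit 0) (cs (lf (nat_lit 12) (nat_lit 222)) (lf (nat_lit 23) (nat_lit 222)))) (cs (rf (nat_lit 2)) (cs (nd (nat_lit 267) (nat_lit 0) (cs (rf (nat_lit 3)) (cs (nd (nat_lit 222) (nat_lit 0) (cs (rf (nat_lit 4)) (lf (nat_lit 20)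 (nat_lit 222)))) (nd (nat_lit 246) (nat_lit 0) (cs (lf (nat_lit 23) (nat_lit 222)) (lf (nat_lit 11) (nat_lit 244))))))) (nd (nat_lit 267) (nat_lit 0) (cs (rf (nat_lit 3)) (cs (nd (nat_lit 244) (nat_lit 0) (cs (nd (nat_lit 268) (nat_lit 0) (cs (nd (nat_lit 242) (nat_lit 0) (cs (nd (nat_lit 290) (nat_lit 0) (cs (nd (nat_lit 312) (nat_lit 0) (cs (lf (nat_lit 42) (nat_lit 245)) (lf (nat_lit 27) (nat_lit 223)))) (lf (nat_lit 24) (nat_lit 201)))) (lf (nat_lit 1) (nat_lit 242)))) (lf (nat_lit 18) (nat_lit 244)))) (lf (nat_lit 14) (nat_lit 222)))) (nd (nat_lit 246) (nat_lit 0) (cs (lf (nat_lit 12) (nat_lit 222)) (lf (nat_lit 11) (nat_lit 244))))))))))) (nd (nat_lit 205) (nat_lit 0) (cs (lf (nat_lit 13) (nat_lit 201)) (rf (nat_lit 5))))))))) (nd (nat_lit 291) (nat_lit 0) (cs (rf (nat_lit 6)) (cs (rf (nat_lit 7)) (cs (rf (nat_lit 8)) (nd (nat_lit 290) (nat_lit 0) (cs (lf (nat_lit 41) (nat_lit 224)) (nd (nat_lit 292) (nat_lit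 0) (cs (lf (nat_lit 29) (nat_lit 225)) (nd (nat_lit 224) (nat_lit 0) (cs (lf (nat_lit 47) (nat_lit 202)) (nd (nat_lit 223) (nat_lit 0) (cs (lf (nat_lit 0) (nat_lit 222)) (nd (nat_lit 244) (nat_lit 0) (cs (lf (nat_lit 10) (nat_lit 222)) (nd (nat_lit 201) (nat_lit 0) (cs (lf (nat_lit 23) (nat_lit 200)) (nd (nat_lit 268) (nat_lit 0) (cs (nd (nat_lit 267) (nat_lit 0) (cs (lf (nat_lit 18) (nat_lit 267)) (lf (nat_lit 12) (nat_lit 244)))) (lf (nat_lit 44) (nat_lit 201))))))))))))))))))))))) q51644 (by decide +kernel)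
def q51705 : Q := Q.p (nat_lit 0x480000200000000000000000000000000000000000000000000000000000000) (nat_lit 0x100001c0000700001c00007c000260001df0003f80007f0001c000010000000000000000000000000000000000) (nat_lit 11)
theorem c51705 : QOK q51705 := cut [q47079, q47100, q48732, q45689, q45760, q45793, q48747, q48753, q48763, q51697, q48774, q48786, q48790, q45679, q48800, q48825, q48727, q48829, q45629] ⟨c47079, c47100, c48732, c45689, c45760, c45793, c48747, c48753, c48763, c51697, c48774, c48786, c48790, c45679, c48800, c48825, c48727, c48829, c45629, trivial⟩ (nd (nat_lit 269) (nat_lit 0) (cs (rf (nat_lit 0)) (cs (nd (nat_lit 291) (nat_lit 0) (cs (rf (nat_lit 1)) (nd (nat_lit 224) (nat_lit 0) (cs (lf (nat_lit 47) (nat_lit 202)) (rf (nat_lit 2)))))) (cs (nd (nat_lit 203) (nat_lit 0) (cs (rf (nat_lit 3)) (cs (rf (nat_lit 4)) (cs (rf (nat_lit 5)) (nd (nat_lit 202) (nat_lit 0) (cs (lf (nat_lit 47) (nat_lit 180)) (nd (nat_lit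 201) (nat_lit 0) (cs (rf (nat_lit 6)) (cs (rf (nat_lit 7)) (cs (rf (nat_lit 8)) (rf (nat_lit 9)))))))))))) (cs (nd (nat_lit 291) (nat_lit 0) (cs (rf (nat_lit 1)) (cs (rf (nat_lit 10)) (cs (rf (nat_lit 11)) (rf (nat_lit 12)))))) (cs (nd (nat_lit 203) (nat_lit 0) (cs (rf (nat_lit 13)) (cs (rf (nat_lit 4)) (cs (rf (nat_lit 14)) (rf (nat_lit 15)))))) (cs (nd (nat_lit 291) (nat_lit 0) (cs (rf (nat_lit 1)) (cs (rf (nat_lit 16)) (rf (nat_lit 17))))) (nd (nat_lit 203) (nat_lit 0) (cs (rf (nat_lit 18)) (rf (nat_lit 4))))))))))) q51705 (by decide +kernel)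
def q51839 : Q := Q.p (nat_lit 0x100000480000200010000040000000000000000000000000000000000000000000000) (nat_lit 0x1180005600025c00037c003de000ffc00bfc0003f80005c000050000000000000000000000000000) (nat_lit 13)
theorem c51839 : QOK q51839 := cut [q51707, q45621, q51713, q51719, q51761, q51475, q51762, q51768, q51769, q51774, q51781, q51784, q44691, q51494, q50734, q51798, q51801, q51813, q51838] ⟨c51707, c45621, c51713, c51719, c51761, c51475, c51762, c51768, c51769, c51774, c51781, c51784, c44691, c51494, c50734, c51798, c51801, c51813, c51838, trivial⟩ (nd (nat_lit 224) (nat_lit 0) (cs (rf (nat_lit 0)) (cs (nd (nat_lit 203) (nat_lit 0) (cs (nd (nat_lit 248) (nat_lit 0) (cs (nd (nat_lit 222) (nat_lit 0) (cs (nd (nat_lit 181) (nat_lit 0) (cs (lf (nat_lit 29) (nat_lit 181)) (rf (nat_lit 1)))) (lf (nat_lit 1) (nat_lit 222)))) (lf (nat_lit 19) (nat_lit 224)))) (cs (nd (nat_lit 205) (nat_lit 0) (cs (nd (nat_lit 249) (nat_lit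 0) (cs (lf (nat_lit 20) (nat_lit 224)) (rf (nat_lit 2)))) (nd (nat_lit 204) (nat_lit 0) (cs (lf (nat_lit 6) (nat_lit 202)) (nd (nat_lit 223) (nat_lit 0) (cs (lf (nat_lit 12) (nat_lit 200)) (lf (nat_lit 9) (nat_lit 201)))))))) (rf (nat_lit 3))))) (cs (rf (nat_lit 4)) (cs (nd (nat_lit 248) (nat_lit 0) (cs (rf (nat_lit 5)) (nd (nat_lit 223) (nat_lit 0) (cs (lf (nat_lit 0) (nat_lit 222)) (nd (nat_lit 226) (nat_lit 0) (cs (nd (nat_lit 245) (nat_lit 0) (cs (lf (nat_lit 11) (nat_lit 222)) (nd (nat_lit 227) (nat_lit 0) (cs (lf (nat_lit 13) (nat_lit 223)) (nd (nat_lit 228) (nat_lit 0) (cs (lf (nat_lit 6) (nat_lit 225)) (nd (nat_lit 206) (nat_lit 0) (cs (lf (nat_lit 17) (nat_lit 203)) (rf (nat_lit 6)))))))))) (cs (rf (nat_lit 7)) (cs (rf (nat_lit 8)) (cs (nd (nat_lit 200) (nat_lit 0) (cs (lf (nat_lit 22) (nat_lit 200)) (nd (nat_lit 245) (nat_lit 0) (cs (lf (nat_lit 11) (nat_lit 222)) (nd (nat_lit 246) (nat_lit 0) (cs (lf (nat_lit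 17) (nat_lit 223)) (rf (nat_lit 9)))))))) (nd (nat_lit 246) (nat_lit 0) (cs (rf (nat_lit 10)) (cs (rf (nat_lit 11)) (nd (nat_lit 245) (nat_lit 0) (cs (lf (nat_lit 12) (nat_lit 222)) (nd (nat_lit 200) (nat_lit 0) (cs (lf (nat_lit 22) (nat_lit 200)) (rf (nat_lit 9)))))))))))))))))) (cs (nd (nat_lit 248) (nat_lit 0) (cs (rf (nat_lit 5)) (nd (nat_lit 223) (nat_lit 0) (cs (lf (nat_lit 0) (nat_lit 222)) (nd (nat_lit 203) (nat_lit 0) (cs (rf (nat_lit 12)) (cs (rf (nat_lit 13)) (cs (rf (nat_lit 3)) (nd (nat_lit 204) (nat_lit 0) (cs (rf (nat_lit 14)) (cs (nd (nat_lit 245) (nat_lit 0) (cs (nd (nat_lit 226) (nat_lit 0) (cs (lf (nat_lit 11) (nat_lit 222)) (nd (nat_lit 270) (nat_lit 0) (cs (lf (nat_lit 42) (nat_lit 203)) (nd (nat_lit 201) (nat_lit 0) (cs (lf (nat_lit 23) (nat_lit 200)) (nd (nat_lit 182) (nat_lit 0) (cs (lf (nat_lit 36) (nat_lit 159)) (nd (nat_lit 183) (nat_lit 0) (cs (lf (nat_lit 35) (nat_lit 160)) (lf (nat_lit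 13) (nat_lit 179)))))))))))) (cs (nd (nat_lit 244) (nat_lit 0) (cs (rf (nat_lit 15)) (lf (nat_lit 6) (nat_lit 222)))) (nd (nat_lit 267) (nat_lit 0) (cs (nd (nat_lit 202) (nat_lit 0) (cs (lf (nat_lit 30) (nat_lit 201)) (rf (nat_lit 16)))) (cs (nd (nat_lit 246) (nat_lit 0) (cs (lf (nat_lit 11) (nat_lit 244)) (nd (nat_lit 289) (nat_lit 0) (cs (lf (nat_lit 30) (nat_lit 223)) (nd (nat_lit 290) (nat_lit 0) (cs (lf (nat_lit 31) (nat_lit 202)) (lf (nat_lit 29) (nat_lit 223)))))))) (nd (nat_lit 246) (nat_lit 0) (cs (lf (nat_lit 11) (nat_lit 244)) (nd (nat_lit 202) (nat_lit 0) (cs (lf (nat_lit 36) (nat_lit 179)) (nd (nat_lit 268) (nat_lit 0) (cs (lf (nat_lit 30) (nat_lit 202)) (nd (nat_lit 201) (nat_lit 0) (cs (lf (nat_lit 24) (nat_lit 179)) (nd (nat_lit 200) (nat_lit 0) (cs (lf (nat_lit 47) (nat_lit 178)) (lf (nat_lit 0) (nat_lit 199)))))))))))))))))) (rf (nat_lit 17))))))))))))) (rf (nat_lit 18)))))))) q51839 (by decide +kernel)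
def q51859 : Q := Q.p (nat_lit 0x100000480000200000000040000000000000000000000000000000000000000000000) (nat_lit 0x1500005c00027000034000190000fc0003f00001c000050000000000000000000000000000000000) (nat_lit 8)
theorem c51859 : QOK q51859 := cut [q45599, q45629, q45679, q47402, q51713, q44778, q45595, q51850, q44701, q45689] ⟨c45599, c45629, c45679, c47402, c51713, c44778, c45595, c51850, c44701, c45689, trivial⟩ (nd (nat_lit 203) (nat_lit 0) (cs (rf (nat_lit 0)) (cs (nd (nat_lit 269) (nat_lit 0) (cs (rf (nat_lit 1)) (cs (rf (nat_lit 2)) (nd (nat_lit 205) (nat_lit 0) (cs (rf (nat_lit 3)) (nd (nat_lit 268) (nat_lit 0) (cs (lf (nat_lit 41) (nat_lit 202)) (nd (nat_lit 249) (nat_lit 0) (cs (lf (nat_lit 8) (nat_lit 246)) (rf (nat_lit 4))))))))))) (cs (nd (nat_lit 181) (nat_lit 0) (cs (rf (nat_lit 5)) (rf (nat_lit 6)))) (cs (nd (nat_lit 268) (nat_lit 0) (cs (nd (nat_lit 269) (nat_lit 0) (cs (lf (nat_lit 41) (nat_lit 202)) (nd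 (nat_lit 182) (nat_lit 0) (cs (lf (nat_lit 34) (nat_lit 181)) (nd (nat_lit 181) (nat_lit 0) (cs (lf (nat_lit 35) (nat_lit 159)) (nd (nat_lit 248) (nat_lit 0) (cs (lf (nat_lit 29) (nat_lit 181)) (lf (nat_lit 7) (nat_lit 246)))))))))) (cs (nd (nat_lit 181) (nat_lit 0) (cs (lf (nat_lit 40) (nat_lit 180)) (nd (nat_lit 160) (nat_lit 0) (cs (lf (nat_lit 34) (nat_lit 159)) (nd (nat_lit 138) (nat_lit 0) (cs (lf (nat_lit 33) (nat_lit 137)) (rf (nat_lit 7)))))))) (nd (nat_lit 290) (nat_lit 0) (cs (lf (nat_lit 39) (nat_lit 202)) (nd (nat_lit 246) (nat_lit 0) (cs (lf (nat_lit 33) (nat_lit 202)) (lf (nat_lit 30) (nat_lit 224))))))))) (cs (nd (nat_lit 181) (nat_lit 0) (cs (rf (nat_lit 6)) (rf (nat_lit 7)))) (nd (nat_lit 269) (nat_lit 0) (cs (rf (nat_lit 8)) (cs (rf (nat_lit 2)) (rf (nat_lit 9))))))))))) q51859 (by decide +kernel)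
def q51900 : Q := Q.p (nat_lit 0x100000480000200010000040000000000000000000000000000000000000000000000) (nat_lit 0x1100004e00023e00037c003de000ffc00adc0001700001c000050000000000000000000000000000) (nat_lit 13)
theorem c51900 : QOK q51900 := cut [q51707, q51761, q51838, q51475, q51833, q51837, q45625, q51866, q51873, q51768, q51769, q50503, q51783, q51781, q51784, q50504] ⟨c51707, c51761, c51838, c51475, c51833, c51837, c45625, c51866, c51873, c51768, c51769, c50503, c51783, c51781, c51784, c50504, trivial⟩ (nd (nat_lit 224) (nat_lit 0) (cs (rf (nat_lit 0)) (cs (rf (nat_lit 1)) (cs (rf (nat_lit 2)) (cs (nd (nat_lit 248) (nat_lit 0) (cs (rf (nat_lit 3)) (nd (nat_lit 223) (nat_lit 0) (cs (rf (nat_lit 4)) (cs (rf (nat_lit 5)) (nd (nat_lit 202) (nat_lit 0) (cs (nd (nat_lit 180) (nat_lit 0) (cs (lf (nat_lit 24) (nat_lit 158)) (rf (nat_lit 6)))) (cs (nd (nat_lit 269) (nat_lit 0) (cs (lf (nat_lit 42) (nat_lit 202)) (nd (nat_lit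 268) (nat_lit 0) (cs (rf (nat_lit 7)) (nd (nat_lit 267) (nat_lit 0) (cs (lf (nat_lit 12) (nat_lit 244)) (nd (nat_lit 289) (nat_lit 0) (cs (lf (nat_lit 32) (nat_lit 201)) (lf (nat_lit 38) (nat_lit 201)))))))))) (cs (nd (nat_lit 180) (nat_lit 0) (cs (lf (nat_lit 24) (nat_lit 158)) (nd (nat_lit 246) (nat_lit 0) (cs (nd (nat_lit 267) (nat_lit 0) (cs (lf (nat_lit 40) (nat_lit 179)) (nd (nat_lit 268) (nat_lit 0) (cs (lf (nat_lit 41) (nat_lit 201)) (rf (nat_lit 8)))))) (cs (nd (nat_lit 245) (nat_lit 0) (cs (lf (nat_lit 41) (nat_lit 179)) (nd (nat_lit 244) (nat_lit 0) (cs (lf (nat_lit 12) (nat_lit 221)) (nd (nat_lit 179) (nat_lit 0) (cs (lf (nat_lit 47) (nat_lit 157)) (nd (nat_lit 266) (nat_lit 0) (cs (lf (nat_lit 11) (nat_lit 243)) (lf (nat_lit 37) (nat_lit 178)))))))))) (nd (nat_lit 179) (nat_lit 0) (cs (lf (nat_lit 47) (nat_lit 157)) (nd (nat_lit 268) (nat_lit 0) (cs (lf (nat_lit 46) (nat_lit 179)) (rf (nat_lit 8)))))))))))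 (nd (nat_lit 180) (nat_lit 0) (cs (lf (nat_lit 24) (nat_lit 158)) (nd (nat_lit 269) (nat_lit 0) (cs (lf (nat_lit 42) (nat_lit 202)) (lf (nat_lit 45) (nat_lit 180))))))))))))))) (nd (nat_lit 248) (nat_lit 0) (cs (rf (nat_lit 3)) (nd (nat_lit 223) (nat_lit 0) (cs (rf (nat_lit 4)) (cs (rf (nat_lit 5)) (nd (nat_lit 226) (nat_lit 0) (cs (rf (nat_lit 9)) (cs (rf (nat_lit 10)) (cs (nd (nat_lit 201) (nat_lit 0) (cs (lf (nat_lit 23) (nat_lit 200)) (nd (nat_lit 245) (nat_lit 0) (cs (lf (nat_lit 11) (nat_lit 222)) (nd (nat_lit 246) (nat_lit 0) (cs (lf (nat_lit 6) (nat_lit 223)) (rf (nat_lit 11)))))))) (cs (nd (nat_lit 245) (nat_lit 0) (cs (lf (nat_lit 11) (nat_lit 222)) (nd (nat_lit 246) (nat_lit 0) (cs (lf (nat_lit 17) (nat_lit 223)) (rf (nat_lit 12)))))) (nd (nat_lit 246) (nat_lit 0) (cs (rf (nat_lit 13)) (cs (rf (nat_lit 14)) (nd (nat_lit 245) (nat_lit 0) (cs (lf (nat_lit 11) (nat_lit 222)) (rf (nat_lit 15))))))))))))))))))))))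 q51900 (by decide +kernel)
def q51992 : Q := Q.p (nat_lit 0x100000480000200000000000000000000000000000000000000000000000000000000) (nat_lit 0x120000780007f00027c000370003d0000fc0000e000018000040000000000000000000000000000000000) (nat_lit 13)
theorem c51992 : QOK q51992 := cut [q51475, q51479, q44691, q51494, q51918, q41052, q38317, q48725] ⟨c51475, c51479, c44691, c51494, c51918, c41052, c38317, c48725, trivial⟩ (nd (nat_lit 248) (nat_lit 0) (cs (rf (nat_lit 0)) (cs (rf (nat_lit 1)) (nd (nat_lit 203) (nat_lit 0) (cs (rf (nat_lit 2)) (cs (rf (nat_lit 3)) (cs (rf (nat_lit 4)) (cs (nd (nat_lit 181) (nat_lit 0) (cs (lf (nat_lit 29) (nat_lit 181)) (rf (nat_lit 5)))) (nd (nat_lit 182) (nat_lit 0) (cs (nd (nat_lit 160) (nat_lit 0) (cs (lf (nat_lit 33) (nat_lit 159)) (nd (nat_lit 204) (nat_lit 0) (cs (lf (nat_lit 30) (nat_lit 181)) (lf (nat_lit 36) (nat_lit 137)))))) (cs (nd (nat_lit 181) (nat_lit 0) (cs (lf (nat_lit 35) (nat_lit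 159)) (nd (nat_lit 159) (nat_lit 0) (cs (lf (nat_lit 28) (nat_lit 159)) (rf (nat_lit 6)))))) (nd (nat_lit 269) (nat_lit 0) (cs (lf (nat_lit 34) (nat_lit 181)) (nd (nat_lit 290) (nat_lit 0) (cs (lf (nat_lit 40) (nat_lit 202)) (nd (nat_lit 291) (nat_lit 0) (cs (lf (nat_lit 41) (nat_lit 224)) (nd (nat_lit 313) (nat_lit 0) (cs (lf (nat_lit 35) (nat_lit 225)) (rf (nat_lit 7))))))))))))))))))))) q51992 (by decide +kernel)
def q52205 : Q := Q.p (nat_lit 0x100000580000000000000000000000000000000000000000000000000000000000000) (nat_lit 0x700001e0001f0000ff000270000ff0003700005c00015000000000000000000000000000000000000000) (nat_lit 13)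
theorem c52205 : QOK q52205 := cut [q52193, q52194, q49711, q49733, q51292, q51294, q41254] ⟨c52193, c52194, c49711, c49733, c51292, c51294, c41254, trivial⟩ (nd (nat_lit 246) (nat_lit 0) (cs (rf (nat_lit 0)) (cs (rf (nat_lit 1)) (cs (nd (nat_lit 245) (nat_lit 0) (cs (rf (nat_lit 2)) (cs (rf (nat_lit 3)) (nd (nat_lit 270) (nat_lit 0) (cs (lf (nat_lit 5) (nat_lit 245)) (nd (nat_lit 244) (nat_lit 0) (cs (lf (nat_lit 4) (nat_lit 244)) (rf (nat_lit 4))))))))) (nd (nat_lit 245) (nat_lit 0) (cs (rf (nat_lit 2)) (cs (rf (nat_lit 3)) (cs (rf (nat_lit 5)) (nd (nat_lit 226) (nat_lit 0) (cs (lf (nat_lit 17) (nat_lit 223)) (nd (nat_lit 225) (nat_lit 0) (cs (lf (nat_lit 12) (nat_lit 222)) (nd (nat_lit 224) (nat_lit 0) (cs (lf (nat_lit 19) (nat_lit 224)) (nd (nat_lit 223) (nat_lit 0) (cs (lf (nat_lit 0) (nat_lit 222)) (nd (nat_lit 200) (nat_lit 0) (cs (lf (nat_lit 22) (nat_lit 200)) (nd (nat_lit 204) (nat_lit 0) (cs (rf (nat_lit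 6)) (lf (nat_lit 17) (nat_lit 201)))))))))))))))))))))) q52205 (by decide +kernel)
def q52243 : Q := Q.p (nat_lit 0x1400000c0000000000000000000000000000000000000000000000000000000000000) (nat_lit 0x1e00007c0003f0000bc000100000700001800006000010000000000000000000000000000000000000000) (nat_lit 10)
theorem c52243 : QOK q52243 := cut [q49595] ⟨c49595, trivial⟩ (nd (nat_lit 269) (nat_lit 0) (cs (lf (nat_lit 19) (nat_lit 246)) (rf (nat_lit 0)))) q52243 (by decide +kernel)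
def q52244 : Q := Q.p (nat_lit 0x400001c0000000000000000000000000000000000000000000000000000000000000) (nat_lit 0x40000700001c0000700003f0000380007f0001f80003c0000d000000000000000000000000000000000000000) (nat_lit 10)
theorem c52244 : QOK q52244 := cut [q49941, q50417, q51369, q51372] ⟨c49941, c50417, c51369, c51372, trivial⟩ (nd (nat_lit 245) (nat_lit 0) (cs (rf (nat_lit 0)) (cs (rf (nat_lit 1)) (cs (rf (nat_lit 2)) (rf (nat_lit 3)))))) q52244 (by decide +kernel)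
def q52277 : Q := Q.p (nat_lit 0x180000480000000010000040000000000000000000000000000000000000000000000) (nat_lit 0x300001c00007000007000034000180000f0000be000080000000000000000000000000000000000000000) (nat_lit 8)
theorem c52277 : QOK q52277 := cut [q46571, q48696, q45352, q45839, q52276] ⟨c46571, c48696, c45352, c45839, c52276, trivial⟩ (nd (nat_lit 249) (nat_lit 0) (cs (nd (nat_lit 293) (nat_lit 0) (cs (rf (nat_lit 0)) (cs (rf (nat_lit 1)) (nd (nat_lit 205) (nat_lit 0) (cs (rf (nat_lit 2)) (cs (rf (nat_lit 3)) (nd (nat_lit 206) (nat_lit 0) (cs (lf (nat_lit 37) (nat_lit 205)) (nd (nat_lit 227) (nat_lit 0) (cs (lf (nat_lit 29) (nat_lit 205)) (lf (nat_lit 35) (nat_lit 183)))))))))))) (rf (nat_lit 4)))) q52277 (by decide +kernel)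
def q52333 : Q := Q.p (nat_lit 0x100003480000000010000040000000000000000000000000000000000000000000000) (nat_lit 0x540007f0001fc0007f0006ff000370003ff000ef000bbc000ed000080000000000000000000000000000000000) (nat_lit 14)
theorem c52333 : QOK q52333 := cut [q49168, q52004, q52038, q44797, q52054, q46568, q48696, q40946, q52268, q52309, q45097, q49120, q49444, q52058, q52056, q48835, q48829, q48862, q49941, q51294] ⟨c49168, c52004, c52038, c44797, c52054, c46568, c48696, c40946, c52268, c52309, c45097, c49120, c49444, c52058, c52056, c48835, c48829, c48862, c49941, c51294, trivial⟩ (nd (nat_lit 271) (nat_lit 0) (cs (rf (nat_lit 0)) (cs (rf (nat_lit 1)) (cs (rf (nat_lit 2)) (cs (nd (nat_lit 249) (nat_lit 0) (cs (rf (nat_lit 3)) (cs (rf (nat_lit 4)) (nd (nat_lit 293) (nat_lit 0) (cs (rf (nat_lit 5)) (cs (rf (nat_lit 6)) (nd (nat_lit 227) (nat_lit 0) (cs (rf (nat_lit 7)) (cs (rf (nat_lit 8)) (rf (nat_lit 9))))))))))) (nd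 (nat_lit 228) (nat_lit 0) (cs (rf (nat_lit 10)) (cs (rf (nat_lit 11)) (cs (rf (nat_lit 12)) (nd (nat_lit 248) (nat_lit 0) (cs (rf (nat_lit 13)) (cs (nd (nat_lit 246) (nat_lit 0) (cs (rf (nat_lit 14)) (cs (nd (nat_lit 269) (nat_lit 0) (cs (lf (nat_lit 20) (nat_lit 246)) (nd (nat_lit 291) (nat_lit 0) (cs (rf (nat_lit 15)) (cs (nd (nat_lit 225) (nat_lit 0) (cs (rf (nat_lit 16)) (cs (rf (nat_lit 17)) (nd (nat_lit 292) (nat_lit 0) (cs (lf (nat_lit 29) (nat_lit 225)) (nd (nat_lit 226) (nat_lit 0) (cs (lf (nat_lit 7) (nat_lit 224)) (nd (nat_lit 202) (nat_lit 0) (cs (lf (nat_lit 46) (nat_lit 202)) (nd (nat_lit 203) (nat_lit 0) (cs (lf (nat_lit 47) (nat_lit 180)) (nd (nat_lit 181) (nat_lit 0) (cs (lf (nat_lit 41) (nat_lit 180)) (lf (nat_lit 24) (nat_lit 159))))))))))))))) (nd (nat_lit 226) (nat_lit 0) (cs (lf (nat_lit 30) (nat_lit 225)) (nd (nat_lit 227) (nat_lit 0) (cs (lf (nat_lit 6) (nat_lit 225)) (lf (nat_lit 9) (nat_lit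 224))))))))))) (nd (nat_lit 245) (nat_lit 0) (cs (rf (nat_lit 18)) (cs (rf (nat_lit 19)) (nd (nat_lit 222) (nat_lit 0) (cs (lf (nat_lit 22) (nat_lit 222)) (nd (nat_lit 226) (nat_lit 0) (cs (lf (nat_lit 17) (nat_lit 223)) (nd (nat_lit 244) (nat_lit 0) (cs (lf (nat_lit 23) (nat_lit 221)) (lf (nat_lit 16) (nat_lit 222)))))))))))))) (nd (nat_lit 229) (nat_lit 0) (cs (lf (nat_lit 14) (nat_lit 225)) (nd (nat_lit 227) (nat_lit 0) (cs (lf (nat_lit 9) (nat_lit 225)) (nd (nat_lit 294) (nat_lit 0) (cs (lf (nat_lit 35) (nat_lit 206)) (lf (nat_lit 47) (nat_lit 205)))))))))))))))))))) q52333 (by decide +kernel)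
def q52506 : Q := Q.p (nat_lit 0x3400000000010000040000000000000000000000000000000000000000000000) (nat_lit 0x300000c00007f0000b8001bf0000f0003be000ef0000380000000000000000000000000000000000) (nat_lit 15)
theorem c52506 : QOK q52506 := cut [q2623, q40593, q2063, q11143, q2513, q41515, q15262, q2094, q1495, q3745, q41499, q41503, q527, q40601, q41511, q40626] ⟨c2623, c40593, c2063, c11143, c2513, c41515, c15262, c2094, c1495, c3745, c41499, c41503, c527, c40601, c41511, c40626, trivial⟩ (nd (nat_lit 251) (nat_lit 0) (cs (rf (nat_lit 0)) (cs (rf (nat_lit 1)) (cs (nd (nat_lit 249) (nat_lit 0) (cs (rf (nat_lit 2)) (cs (rf (nat_lit 3)) (cs (nd (nat_lit 270) (nat_lit 0) (cs (lf (nat_lit 10) (nat_lit 248)) (nd (nat_lit 248) (nat_lit 0) (cs (lf (nat_lit 11) (nat_lit 247)) (nd (nat_lit 225) (nat_lit 0) (cs (lf (nat_lit 22) (nat_lit 225)) (nd (nat_lit 247) (nat_lit 0) (cs (lf (nat_lit 23) (nat_lit 224)) (nd (nat_lit 273) (nat_lit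 0) (cs (lf (nat_lit 5) (nat_lit 248)) (nd (nat_lit 229) (nat_lit 0) (cs (lf (nat_lit 33) (nat_lit 185)) (lf (nat_lit 16) (nat_lit 225)))))))))))))) (nd (nat_lit 228) (nat_lit 0) (cs (lf (nat_lit 23) (nat_lit 227)) (nd (nat_lit 270) (nat_lit 0) (cs (lf (nat_lit 10) (nat_lit 248)) (nd (nat_lit 248) (nat_lit 0) (cs (lf (nat_lit 11) (nat_lit 247)) (nd (nat_lit 229) (nat_lit 0) (cs (lf (nat_lit 12) (nat_lit 225)) (nd (nat_lit 273) (nat_lit 0) (cs (lf (nat_lit 33) (nat_lit 185)) (lf (nat_lit 5) (nat_lit 248)))))))))))))))) (cs (nd (nat_lit 228) (nat_lit 0) (cs (lf (nat_lit 23) (nat_lit 227)) (nd (nat_lit 206) (nat_lit 0) (cs (nd (nat_lit 231) (nat_lit 0) (cs (lf (nat_lit 17) (nat_lit 228)) (rf (nat_lit 4)))) (cs (nd (nat_lit 207) (nat_lit 0) (cs (rf (nat_lit 5)) (cs (nd (nat_lit 187) (nat_lit 0) (cs (lf (nat_lit 12) (nat_lit 183)) (nd (nat_lit 188) (nat_lit 0) (cs (lf (nat_lit 6) (nat_lit 185)) (nd (nat_lit 231) (nat_lit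 0) (cs (lf (nat_lit 17) (nat_lit 228)) (nd (nat_lit 273) (nat_lit 0) (cs (lf (nat_lit 32) (nat_lit 185)) (rf (nat_lit 6)))))))))) (nd (nat_lit 185) (nat_lit 0) (cs (lf (nat_lit 30) (nat_lit 184)) (rf (nat_lit 7))))))) (cs (nd (nat_lit 185) (nat_lit 0) (cs (nd (nat_lit 207) (nat_lit 0) (cs (lf (nat_lit 30) (nat_lit 184)) (rf (nat_lit 8)))) (cs (nd (nat_lit 207) (nat_lit 0) (cs (lf (nat_lit 30) (nat_lit 184)) (rf (nat_lit 9)))) (nd (nat_lit 184) (nat_lit 0) (cs (lf (nat_lit 35) (nat_lit 162)) (nd (nat_lit 162) (nat_lit 0) (cs (lf (nat_lit 28) (nat_lit 162)) (nd (nat_lit 161) (nat_lit 0) (cs (lf (nat_lit 18) (nat_lit 161)) (lf (nat_lit 46) (nat_lit 161))))))))))) (nd (nat_lit 231) (nat_lit 0) (cs (lf (nat_lit 17) (nat_lit 228)) (nd (nat_lit 184) (nat_lit 0) (cs (lf (nat_lit 29) (nat_lit 184)) (nd (nat_lit 161) (nat_lit 0) (cs (lf (nat_lit 46) (nat_lit 161)) (nd (nat_lit 139) (nat_lit 0) (cs (lf (nat_lit 45) (nat_lit 139))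 (nd (nat_lit 185) (nat_lit 0) (cs (lf (nat_lit 35) (nat_lit 162)) (nd (nat_lit 187) (nat_lit 0) (cs (lf (nat_lit 11) (nat_lit 183)) (nd (nat_lit 207) (nat_lit 0) (cs (lf (nat_lit 30) (nat_lit 184)) (lf (nat_lit 6) (nat_lit 184)))))))))))))))))))))) (nd (nat_lit 207) (nat_lit 0) (cs (rf (nat_lit 10)) (cs (rf (nat_lit 11)) (cs (nd (nat_lit 229) (nat_lit 0) (cs (lf (nat_lit 30) (nat_lit 185)) (nd (nat_lit 185) (nat_lit 0) (cs (lf (nat_lit 29) (nat_lit 185)) (nd (nat_lit 162) (nat_lit 0) (cs (lf (nat_lit 46) (nat_lit 162)) (nd (nat_lit 163) (nat_lit 0) (cs (lf (nat_lit 47) (nat_lit 140)) (lf (nat_lit 40) (nat_lit 162)))))))))) (cs (nd (nat_lit 206) (nat_lit 0) (cs (rf (nat_lit 12)) (cs (rf (nat_lit 13)) (rf (nat_lit 14))))) (nd (nat_lit 271) (nat_lit 0) (cs (lf (nat_lit 10) (nat_lit 249)) (nd (nat_lit 249) (nat_lit 0) (cs (lf (nat_lit 11) (nat_lit 248)) (nd (nat_lit 231) (nat_lit 0) (cs (lf (nat_lit 17) (nat_lit 228)) (nd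 (nat_lit 229) (nat_lit 0) (cs (lf (nat_lit 30) (nat_lit 185)) (nd (nat_lit 185) (nat_lit 0) (cs (lf (nat_lit 29) (nat_lit 185)) (rf (nat_lit 15)))))))))))))))))))))) q52506 (by decide +kernel)
def q52635 : Q := Q.p (nat_lit 0x200000800002000000000010000000000000000000000000000000000000000000000000000) (nat_lit 0x140001f00007c0003fe000ff0003de000f7000380000700001e0000700001000000000000000000000000000000000000000000) (nat_lit 14)
theorem c52635 : QOK q52635 := cut [q2579, q23372, q23384, q32453, q52557, q16993, q11637, q23386, q52556, q11632, q29952, q13828, q14747, q52574, q52595, q52534, q52599, q52605, q52608, q52611, q13089, q52587, q52624, q52551, q11597, q23438, q23470, q11531, q23464, q11659, q23448, q23454] ⟨c2579, c23372, c23384, c32453, c52557, c16993, c11637, c23386, c52556, c11632, c29952, c13828, c14747, c52574, c52595, c52534, c52599, c52605, c52608, c52611, c13089, c52587, c52624, c52551, c11597, c23438,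 c23470, c11531, c23464, c11659, c23448, c23454, trivial⟩ (nd (nat_lit 319) (nat_lit 0) (cs (rf (nat_lit 0)) (cs (rf (nat_lit 1)) (cs (rf (nat_lit 2)) (cs (rf (nat_lit 3)) (cs (nd (nat_lit 298) (nat_lit 0) (cs (rf (nat_lit 4)) (cs (nd (nat_lit 342) (nat_lit 0) (cs (lf (nat_lit 28) (nat_lit 253)) (nd (nat_lit 341) (nat_lit 0) (cs (lf (nat_lit 29) (nat_lit 275)) (nd (nat_lit 363) (nat_lit 0) (cs (lf (nat_lit 35) (nat_lit 275)) (nd (nat_lit 296) (nat_lit 0) (cs (rf (nat_lit 5)) (lf (nat_lit 47) (nat_lit 274)))))))))) (cs (nd (nat_lit 299) (nat_lit 0) (cs (rf (nat_lit 6)) (cs (rf (nat_lit 7)) (cs (rf (nat_lit 8)) (nd (nat_lit 296) (nat_lit 0) (cs (rf (nat_lit 9)) (cs (nd (nat_lit 277) (nat_lit 0) (cs (lf (nat_lit 17) (nat_lit 274)) (nd (nat_lit 321) (nat_lit 0) (cs (lf (nat_lit 5) (nat_lit 296)) (nd (nat_lit 318) (nat_lit 0) (cs (lf (nat_lit 11) (nat_lit 295)) (nd (nat_lit 343) (nat_lit 0) (cs (rf (nat_lit 10)) (cs (nd (nat_lit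 273) (nat_lit 0) (cs (lf (nat_lit 22) (nat_lit 273)) (nd (nat_lit 365) (nat_lit 0) (cs (lf (nat_lit 47) (nat_lit 276)) (nd (nat_lit 366) (nat_lit 0) (cs (lf (nat_lit 29) (nat_lit 299)) (nd (nat_lit 387) (nat_lit 0) (cs (rf (nat_lit 11)) (lf (nat_lit 46) (nat_lit 298)))))))))) (cs (nd (nat_lit 344) (nat_lit 0) (cs (lf (nat_lit 29) (nat_lit 277)) (lf (nat_lit 2) (nat_lit 318)))) (nd (nat_lit 320) (nat_lit 0) (cs (lf (nat_lit 5) (nat_lit 318)) (rf (nat_lit 12)))))))))))))) (rf (nat_lit 13))))))))) (cs (rf (nat_lit 14)) (cs (nd (nat_lit 299) (nat_lit 0) (cs (rf (nat_lit 6)) (cs (nd (nat_lit 296) (nat_lit 0) (cs (rf (nat_lit 15)) (cs (nd (nat_lit 321) (nat_lit 0) (cs (lf (nat_lit 5) (nat_lit 296)) (nd (nat_lit 317) (nat_lit 0) (cs (lf (nat_lit 10) (nat_lit 295)) (nd (nat_lit 277) (nat_lit 0) (cs (lf (nat_lit 17) (nat_lit 274)) (nd (nat_lit 273) (nat_lit 0) (cs (lf (nat_lit 22) (nat_lit 273)) (rf (nat_lit 16)))))))))) (cs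 (rf (nat_lit 17)) (rf (nat_lit 18)))))) (rf (nat_lit 19))))) (cs (nd (nat_lit 299) (nat_lit 0) (cs (rf (nat_lit 6)) (cs (nd (nat_lit 296) (nat_lit 0) (cs (rf (nat_lit 9)) (cs (rf (nat_lit 17)) (nd (nat_lit 321) (nat_lit 0) (cs (lf (nat_lit 5) (nat_lit 296)) (nd (nat_lit 320) (nat_lit 0) (cs (lf (nat_lit 29) (nat_lit 253)) (nd (nat_lit 274) (nat_lit 0) (cs (lf (nat_lit 23) (nat_lit 273)) (nd (nat_lit 341) (nat_lit 0) (cs (lf (nat_lit 42) (nat_lit 274)) (nd (nat_lit 277) (nat_lit 0) (cs (lf (nat_lit 17) (nat_lit 274)) (nd (nat_lit 255) (nat_lit 0) (cs (rf (nat_lit 20)) (lf (nat_lit 36) (nat_lit 232))))))))))))))))) (cs (nd (nat_lit 320) (nat_lit 0) (cs (lf (nat_lit 29) (nat_lit 253)) (rf (nat_lit 21)))) (rf (nat_lit 22)))))) (nd (nat_lit 299) (nat_lit 0) (cs (rf (nat_lit 8)) (cs (rf (nat_lit 19)) (cs (rf (nat_lit 22)) (nd (nat_lit 296) (nat_lit 0) (cs (rf (nat_lit 23)) (cs (rf (nat_lit 13)) (cs (rf (nat_lit 17)) (cs (rf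 (nat_lit 18)) (nd (nat_lit 321) (nat_lit 0) (cs (lf (nat_lit 5) (nat_lit 296)) (nd (nat_lit 317) (nat_lit 0) (cs (lf (nat_lit 10) (nat_lit 295)) (nd (nat_lit 277) (nat_lit 0) (cs (lf (nat_lit 17) (nat_lit 274)) (rf (nat_lit 16)))))))))))))))))))))))) (nd (nat_lit 298) (nat_lit 0) (cs (rf (nat_lit 24)) (cs (rf (nat_lit 25)) (cs (rf (nat_lit 26)) (nd (nat_lit 299) (nat_lit 0) (cs (rf (nat_lit 27)) (cs (rf (nat_lit 6)) (cs (rf (nat_lit 28)) (nd (nat_lit 296) (nat_lit 0) (cs (rf (nat_lit 9)) (cs (rf (nat_lit 29)) (cs (rf (nat_lit 30)) (rf (nat_lit 31)))))))))))))))))))) q52635 (by decide +kernel)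
def q52781 : Q := Q.p (nat_lit 0x18000000000080000200000000000000010000000000000000000000000000000000000000000000000000) (nat_lit 0x5000004000030000000000000000c00007000004000000000000000000000000000000000000000000000000000) (nat_lit 6)
theorem c52781 : QOK q52781 := cut [q25205] ⟨c25205, trivial⟩ (nd (nat_lit 317) (nat_lit 0) (cs (lf (nat_lit 29) (nat_lit 273)) (rf (nat_lit 0)))) q52781 (by decide +kernel)
def q52795 : Q := Q.p (nat_lit 0x80001e00000000000000000000000000000000000000000000000000000000000000000000) (nat_lit 0x3900006000038c00000000000000000000000000000000000000000000000000000000000000) (nat_lit 6)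
theorem c52795 : QOK q52795 := cut [q52785] ⟨c52785, trivial⟩ (nd (nat_lit 250) (nat_lit 0) (cs (lf (nat_lit 22) (nat_lit 250)) (rf (nat_lit 0)))) q52795 (by decide +kernel)
def q52988 : Q := Q.p (nat_lit 0x70000000000000000000000000000000000000000000000000000000000000000000000000000000000000) (nat_lit 0x7fc0018e000e3c000000000000000000000000000000000000000000000000000000000000000000000000000000) (nat_lit 7)
theorem c52988 : QOK q52988 := cut [q22752, q25476, q52963] ⟨c22752, c25476, c52963, trivial⟩ (nd (nat_lit 339) (nat_lit 0) (cs (rf (nat_lit 0)) (cs (rf (nat_lit 1)) (rf (nat_lit 2))))) q52988 (by decide +kernel)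
def q53359 : Q := Q.p (nat_lit 0x50000000000000000c00002000000000000000000000000000000000000000000000000000000000000000) (nat_lit 0x280007e000ffe001f8800ffe001fef00ff380078f001e0000700000400000000000000000000000000000000000000000000000) (nat_lit 15)
theorem c53359 : QOK q53359 := cut [q53332, q53333, q53334, q53337, q53340, q53349, q53354, q15626] ⟨c53332, c53333, c53334, c53337, c53340, c53349, c53354, c15626, trivial⟩ (nd (nat_lit 298) (nat_lit 0) (cs (rf (nat_lit 0)) (cs (nd (nat_lit 320) (nat_lit 0) (cs (rf (nat_lit 1)) (cs (nd (nat_lit 319) (nat_lit 0) (cs (lf (nat_lit 26) (nat_lit 253)) (nd (nat_lit 318) (nat_lit 0) (cs (rf (nat_lit 2)) (cs (rf (nat_lit 3)) (cs (nd (nat_lit 321) (nat_lit 0) (cs (lf (nat_lit 11) (nat_lit 317)) (nd (nat_lit 299) (nat_lit 0) (cs (lf (nat_lit 12) (nat_lit 295)) (lf (nat_lit 17) (nat_lit 296)))))) (nd (nat_lit 321) (nat_lit 0) (cs (lf (nat_lit 11) (nat_lit 317)) (rf (nat_lit 4))))))))))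 (nd (nat_lit 364) (nat_lit 0) (cs (nd (nat_lit 363) (nat_lit 0) (cs (lf (nat_lit 41) (nat_lit 297)) (nd (nat_lit 365) (nat_lit 0) (cs (lf (nat_lit 29) (nat_lit 298)) (nd (nat_lit 362) (nat_lit 0) (cs (lf (nat_lit 23) (nat_lit 339)) (nd (nat_lit 343) (nat_lit 0) (cs (lf (nat_lit 12) (nat_lit 339)) (lf (nat_lit 17) (nat_lit 340)))))))))) (cs (nd (nat_lit 387) (nat_lit 0) (cs (lf (nat_lit 28) (nat_lit 298)) (nd (nat_lit 386) (nat_lit 0) (cs (lf (nat_lit 29) (nat_lit 320)) (rf (nat_lit 5)))))) (rf (nat_lit 6)))))))) (cs (nd (nat_lit 276) (nat_lit 0) (cs (lf (nat_lit 43) (nat_lit 253)) (rf (nat_lit 7)))) (nd (nat_lit 320) (nat_lit 0) (cs (lf (nat_lit 45) (nat_lit 253)) (rf (nat_lit 1)))))))) q53359 (by decide +kernel)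
def q53403 : Q := Q.p (nat_lit 0x50000000000000000c00002000000000000000000000000000000000000000000000000000000000000000) (nat_lit 0x40000f00007c001ffc003ae000ef80006c0000300000400000000000000000000000000000000000000000000000000000000000000) (nat_lit 12)
theorem c53403 : QOK q53403 := cut [q22741, q25476, q25479, q53361, q53366, q31242, q28903, q31266, q53381, q43788, q28995, q53393, q31287, q31292] ⟨c22741, c25476, c25479, c53361, c53366, c31242, c28903, c31266, c53381, c43788, c28995, c53393, c31287, c31292, trivial⟩ (nd (nat_lit 341) (nat_lit 0) (cs (nd (nat_lit 339) (nat_lit 0) (cs (rf (nat_lit 0)) (cs (rf (nat_lit 1)) (cs (rf (nat_lit 2)) (nd (nat_lit 317) (nat_lit 0) (cs (lf (nat_lit 23) (nat_lit 316)) (nd (nat_lit 384) (nat_lit 0) (cs (rf (nat_lit 3)) (cs (nd (nat_lit 364) (nat_lit 0) (cs (lf (nat_lit 5) (nat_lit 339)) (nd (nat_lit 297) (nat_lit 0) (cs (lf (nat_lit 26) (nat_lit 275)) (rf (nat_lit 4)))))) (cs (nd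 (nat_lit 361) (nat_lit 0) (cs (lf (nat_lit 11) (nat_lit 338)) (nd (nat_lit 295) (nat_lit 0) (cs (lf (nat_lit 28) (nat_lit 295)) (nd (nat_lit 272) (nat_lit 0) (cs (lf (nat_lit 46) (nat_lit 272)) (nd (nat_lit 273) (nat_lit 0) (cs (lf (nat_lit 47) (nat_lit 250)) (nd (nat_lit 364) (nat_lit 0) (cs (lf (nat_lit 5) (nat_lit 339)) (nd (nat_lit 297) (nat_lit 0) (cs (lf (nat_lit 5) (nat_lit 272)) (lf (nat_lit 26) (nat_lit 275)))))))))))))) (nd (nat_lit 364) (nat_lit 0) (cs (lf (nat_lit 5) (nat_lit 339)) (nd (nat_lit 297) (nat_lit 0) (cs (lf (nat_lit 26) (nat_lit 275)) (rf (nat_lit 5)))))))))))))))) (cs (nd (nat_lit 343) (nat_lit 0) (cs (rf (nat_lit 6)) (cs (rf (nat_lit 7)) (rf (nat_lit 8))))) (cs (nd (nat_lit 343) (nat_lit 0) (cs (rf (nat_lit 7)) (cs (rf (nat_lit 8)) (nd (nat_lit 365) (nat_lit 0) (cs (lf (nat_lit 5) (nat_lit 340)) (nd (nat_lit 321) (nat_lit 0) (cs (lf (nat_lit 17) (nat_lit 318)) (nd (nat_lit 362) (nat_lit 0)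 (cs (lf (nat_lit 11) (nat_lit 339)) (nd (nat_lit 318) (nat_lit 0) (cs (lf (nat_lit 23) (nat_lit 317)) (nd (nat_lit 319) (nat_lit 0) (cs (lf (nat_lit 37) (nat_lit 274)) (rf (nat_lit 9))))))))))))))) (cs (nd (nat_lit 343) (nat_lit 0) (cs (rf (nat_lit 7)) (cs (rf (nat_lit 8)) (nd (nat_lit 365) (nat_lit 0) (cs (lf (nat_lit 5) (nat_lit 340)) (nd (nat_lit 321) (nat_lit 0) (cs (lf (nat_lit 17) (nat_lit 318)) (rf (nat_lit 10))))))))) (cs (rf (nat_lit 11)) (nd (nat_lit 339) (nat_lit 0) (cs (rf (nat_lit 1)) (cs (rf (nat_lit 12)) (cs (rf (nat_lit 13)) (nd (nat_lit 361) (nat_lit 0) (cs (lf (nat_lit 11) (nat_lit 338)) (nd (nat_lit 343) (nat_lit 0) (cs (lf (nat_lit 10) (nat_lit 339)) (nd (nat_lit 322) (nat_lit 0) (cs (lf (nat_lit 16) (nat_lit 318)) (nd (nat_lit 344) (nat_lit 0) (cs (lf (nat_lit 17) (nat_lit 319)) (nd (nat_lit 319) (nat_lit 0) (cs (lf (nat_lit 23) (nat_lit 318)) (nd (nat_lit 367) (nat_lit 0) (cs (lf (nat_lit 4) (nat_lit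 341)) (nd (nat_lit 364) (nat_lit 0) (cs (lf (nat_lit 25) (nat_lit 275)) (nd (nat_lit 345) (nat_lit 0) (cs (lf (nat_lit 5) (nat_lit 342)) (lf (nat_lit 11) (nat_lit 341)))))))))))))))))))))))))))) q53403 (by decide +kernel)
def q53411 : Q := Q.p (nat_lit 0x50000080000000000800002000000000000000000000000000000000000000000000000000000000000000) (nat_lit 0x4000010000ef0001a8000e70000200000000000000000000000000000000000000000000000000000000000000000000000000) (nat_lit 8)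
theorem c53411 : QOK q53411 := cut [q53408, q53409] ⟨c53408, c53409, trivial⟩ (nd (nat_lit 341) (nat_lit 0) (cs (nd (nat_lit 318) (nat_lit 0) (cs (lf (nat_lit 38) (nat_lit 252)) (nd (nat_lit 317) (nat_lit 0) (cs (lf (nat_lit 0) (nat_lit 316)) (lf (nat_lit 18) (nat_lit 317)))))) (cs (rf (nat_lit 0)) (cs (rf (nat_lit 1)) (nd (nat_lit 297) (nat_lit 0) (cs (lf (nat_lit 41) (nat_lit 274)) (lf (nat_lit 40) (nat_lit 252)))))))) q53411 (by decide +kernel)
def q53417 : Q := Q.p (nat_lit 0x50000080000000000800002000000000000000000000000000000000000000000000000000000000000000) (nat_lit 0x4000010000ef8001ac000738000200000000000000000000000000000000000000000000000000000000000000000000000000) (nat_lit 8)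
theorem c53417 : QOK q53417 := cut [q53408, q53415] ⟨c53408, c53415, trivial⟩ (nd (nat_lit 341) (nat_lit 0) (cs (rf (nat_lit 0)) (cs (nd (nat_lit 320) (nat_lit 0) (cs (lf (nat_lit 26) (nat_lit 253)) (nd (nat_lit 321) (nat_lit 0) (cs (lf (nat_lit 6) (nat_lit 318)) (lf (nat_lit 12) (nat_lit 317)))))) (cs (rf (nat_lit 1)) (nd (nat_lit 297) (nat_lit 0) (cs (lf (nat_lit 28) (nat_lit 253)) (lf (nat_lit 41) (nat_lit 274)))))))) q53417 (by decide +kernel)
def q53606 : Q := Q.p (nat_lit 0x50000000000000000c00002000000000000000000000000000000000000000000000000000000000000000) (nat_lit 0x1e00007e0007f0001fe0007a0001fe000fe00007000008000000000000000000000000000000000000000000000000000000000000000) (nat_lit 12)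
theorem c53606 : QOK q53606 := cut [q53152, q53526, q53334, q53547, q52731, q52961, q53550, q53560, q53599, q53605] ⟨c53152, c53526, c53334, c53547, c52731, c52961, c53550, c53560, c53599, c53605, trivial⟩ (nd (nat_lit 320) (nat_lit 0) (cs (rf (nat_lit 0)) (cs (rf (nat_lit 1)) (cs (nd (nat_lit 319) (nat_lit 0) (cs (lf (nat_lit 26) (nat_lit 253)) (nd (nat_lit 343) (nat_lit 0) (cs (nd (nat_lit 276) (nat_lit 0) (cs (lf (nat_lit 44) (nat_lit 253)) (nd (nat_lit 344) (nat_lit 0) (cs (lf (nat_lit 18) (nat_lit 319)) (nd (nat_lit 318) (nat_lit 0) (cs (lf (nat_lit 0) (nat_lit 317)) (lf (nat_lit 21) (nat_lit 318)))))))) (cs (nd (nat_lit 298) (nat_lit 0) (cs (lf (nat_lit 45) (nat_lit 253)) (nd (nat_lit 341) (nat_lit 0) (cs (nd (nat_lit 321) (nat_lit 0) (cs (lf (nat_lit 17) (nat_lit 318)) (nd (nat_lit 365) (nat_lit 0) (cs (lf (nat_lit 5) (nat_lit 340)) (lf (nat_lit 42) (nat_lit 298)))))) (cs (nd (nat_lit 318) (nat_lit 0) (cs (rf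 (nat_lit 2)) (nd (nat_lit 362) (nat_lit 0) (cs (lf (nat_lit 11) (nat_lit 339)) (nd (nat_lit 365) (nat_lit 0) (cs (lf (nat_lit 5) (nat_lit 340)) (nd (nat_lit 387) (nat_lit 0) (cs (lf (nat_lit 42) (nat_lit 320)) (nd (nat_lit 384) (nat_lit 0) (cs (lf (nat_lit 30) (nat_lit 318)) (nd (nat_lit 385) (nat_lit 0) (cs (lf (nat_lit 29) (nat_lit 318)) (lf (nat_lit 31) (nat_lit 297)))))))))))))) (nd (nat_lit 318) (nat_lit 0) (cs (rf (nat_lit 2)) (nd (nat_lit 385) (nat_lit 0) (cs (lf (nat_lit 31) (nat_lit 297)) (nd (nat_lit 321) (nat_lit 0) (cs (lf (nat_lit 17) (nat_lit 318)) (nd (nat_lit 362) (nat_lit 0) (cs (lf (nat_lit 11) (nat_lit 339)) (nd (nat_lit 384) (nat_lit 0) (cs (lf (nat_lit 29) (nat_lit 318)) (lf (nat_lit 30) (nat_lit 318))))))))))))))))) (cs (nd (nat_lit 318) (nat_lit 0) (cs (lf (nat_lit 0) (nat_lit 317)) (rf (nat_lit 3)))) (nd (nat_lit 341) (nat_lit 0) (cs (rf (nat_lit 4)) (cs (rf (nat_lit 5)) (rf (nat_lit 6)))))))))))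 (cs (nd (nat_lit 298) (nat_lit 0) (cs (lf (nat_lit 45) (nat_lit 253)) (nd (nat_lit 364) (nat_lit 0) (cs (lf (nat_lit 46) (nat_lit 275)) (rf (nat_lit 7)))))) (cs (rf (nat_lit 8)) (rf (nat_lit 9)))))))) q53606 (by decide +kernel)
def q53628 : Q := Q.p (nat_lit 0x50000000000000000800002000000000000000000000000000000000000000000000000000000000000000) (nat_lit 0x200000a0000fb8003ae001ff8001e00003000008000000000000000000000000000000000000000000000000000000000000000) (nat_lit 10)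
theorem c53628 : QOK q53628 := cut [q53152, q53173, q53177, q44360, q43179, q53621, q22741, q25479, q53167, q53624] ⟨c53152, c53173, c53177, c44360, c43179, c53621, c22741, c25479, c53167, c53624, trivial⟩ (nd (nat_lit 320) (nat_lit 0) (cs (rf (nat_lit 0)) (cs (rf (nat_lit 1)) (cs (rf (nat_lit 2)) (cs (nd (nat_lit 298) (nat_lit 0) (cs (lf (nat_lit 45) (nat_lit 253)) (nd (nat_lit 364) (nat_lit 0) (cs (lf (nat_lit 46) (nat_lit 275)) (nd (nat_lit 277) (nat_lit 0) (cs (lf (nat_lit 34) (nat_lit 276)) (rf (nat_lit 3)))))))) (nd (nat_lit 341) (nat_lit 0) (cs (rf (nat_lit 4)) (cs (rf (nat_lit 5)) (nd (nat_lit 339) (nat_lit 0) (cs (rf (nat_lit 6)) (cs (rf (nat_lit 7)) (cs (rf (nat_lit 8)) (nd (nat_lit 276) (nat_lit 0) (cs (lf (nat_lit 44) (nat_lit 253)) (rf (nat_lit 9)))))))))))))))) q53628 (by decide +kernel)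
def q53660 : Q := Q.p (nat_lit 0x50000000000000000c00002000000000000000000000000000000000000000000000000000000000000000) (nat_lit 0x140000700001c0000ffc001ae000f78001e00007200010000000000000000000000000000000000000000000000000000000000000000) (nat_lit 15)
theorem c53660 : QOK q53660 := cut [q52960, q53409, q22741, q25476, q25479, q31266, q52961, q53007, q53431, q30494, q53654, q53658, q53659] ⟨c52960, c53409, c22741, c25476, c25479, c31266, c52961, c53007, c53431, c30494, c53654, c53658, c53659, trivial⟩ (nd (nat_lit 341) (nat_lit 0) (cs (rf (nat_lit 0)) (cs (rf (nat_lit 1)) (cs (nd (nat_lit 339) (nat_lit 0) (cs (rf (nat_lit 2)) (cs (rf (nat_lit 3)) (cs (rf (nat_lit 4)) (nd (nat_lit 316) (nat_lit 0) (cs (lf (nat_lit 22) (nat_lit 316)) (nd (nat_lit 364) (nat_lit 0) (cs (lf (nat_lit 5) (nat_lit 339)) (nd (nat_lit 360) (nat_lit 0) (cs (lf (nat_lit 10) (nat_lit 338)) (nd (nat_lit 320) (nat_lit 0) (cs (lf (nat_lit 17) (nat_lit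 317)) (nd (nat_lit 298) (nat_lit 0) (cs (lf (nat_lit 45) (nat_lit 253)) (lf (nat_lit 46) (nat_lit 275)))))))))))))))) (cs (nd (nat_lit 343) (nat_lit 0) (cs (rf (nat_lit 5)) (cs (rf (nat_lit 6)) (cs (rf (nat_lit 7)) (nd (nat_lit 321) (nat_lit 0) (cs (lf (nat_lit 17) (nat_lit 318)) (nd (nat_lit 299) (nat_lit 0) (cs (nd (nat_lit 317) (nat_lit 0) (cs (lf (nat_lit 22) (nat_lit 317)) (nd (nat_lit 277) (nat_lit 0) (cs (lf (nat_lit 41) (nat_lit 276)) (nd (nat_lit 276) (nat_lit 0) (cs (lf (nat_lit 5) (nat_lit 274)) (nd (nat_lit 298) (nat_lit 0) (cs (lf (nat_lit 43) (nat_lit 253)) (lf (nat_lit 0) (nat_lit 273)))))))))) (cs (nd (nat_lit 317) (nat_lit 0) (cs (lf (nat_lit 22) (nat_lit 317)) (nd (nat_lit 361) (nat_lit 0) (cs (lf (nat_lit 10) (nat_lit 339)) (nd (nat_lit 365) (nat_lit 0) (cs (lf (nat_lit 5) (nat_lit 340)) (nd (nat_lit 278) (nat_lit 0) (cs (lf (nat_lit 34) (nat_lit 277)) (nd (nat_lit 256) (nat_lit 0) (cs (lf (nat_lit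 33) (nat_lit 255)) (rf (nat_lit 8)))))))))))) (cs (nd (nat_lit 365) (nat_lit 0) (cs (lf (nat_lit 5) (nat_lit 340)) (nd (nat_lit 364) (nat_lit 0) (cs (lf (nat_lit 41) (nat_lit 298)) (nd (nat_lit 278) (nat_lit 0) (cs (lf (nat_lit 34) (nat_lit 277)) (nd (nat_lit 298) (nat_lit 0) (cs (lf (nat_lit 47) (nat_lit 276)) (nd (nat_lit 320) (nat_lit 0) (cs (lf (nat_lit 29) (nat_lit 298)) (lf (nat_lit 46) (nat_lit 275)))))))))))) (nd (nat_lit 317) (nat_lit 0) (cs (lf (nat_lit 22) (nat_lit 317)) (nd (nat_lit 365) (nat_lit 0) (cs (lf (nat_lit 5) (nat_lit 340)) (rf (nat_lit 9)))))))))))))))) (cs (rf (nat_lit 10)) (cs (rf (nat_lit 11)) (rf (nat_lit 12))))))))) q53660 (by decide +kernel)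
def q53705 : Q := Q.p (nat_lit 0x50000000000000000800002000000000000000000000000000000000000000000000000000000000000000) (nat_lit 0xe000078001dfc007ae003ffc001e00003000008000000000000000000000000000000000000000000000000000000000000000) (nat_lit 14)
theorem c53705 : QOK q53705 := cut [q53152, q53662, q53174, q53486, q52961, q53612, q53680, q53687, q53701, q53162, q53165, q53171, q25476] ⟨c53152, c53662, c53174, c53486, c52961, c53612, c53680, c53687, c53701, c53162, c53165, c53171, c25476, trivial⟩ (nd (nat_lit 320) (nat_lit 0) (cs (rf (nat_lit 0)) (cs (nd (nat_lit 298) (nat_lit 0) (cs (lf (nat_lit 45) (nat_lit 253)) (nd (nat_lit 364) (nat_lit 0) (cs (lf (nat_lit 46) (nat_lit 275)) (nd (nat_lit 363) (nat_lit 0) (cs (lf (nat_lit 41) (nat_lit 297)) (nd (nat_lit 299) (nat_lit 0) (cs (lf (nat_lit 35) (nat_lit 276)) (nd (nat_lit 321) (nat_lit 0) (cs (lf (nat_lit 30) (nat_lit 298)) (rf (nat_lit 1)))))))))))) (cs (nd (nat_lit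 341) (nat_lit 0) (cs (rf (nat_lit 2)) (cs (rf (nat_lit 3)) (cs (nd (nat_lit 343) (nat_lit 0) (cs (rf (nat_lit 4)) (cs (nd (nat_lit 276) (nat_lit 0) (cs (lf (nat_lit 44) (nat_lit 253)) (rf (nat_lit 5)))) (cs (rf (nat_lit 6)) (cs (nd (nat_lit 362) (nat_lit 0) (cs (lf (nat_lit 11) (nat_lit 339)) (nd (nat_lit 344) (nat_lit 0) (cs (lf (nat_lit 10) (nat_lit 340)) (nd (nat_lit 322) (nat_lit 0) (cs (lf (nat_lit 17) (nat_lit 319)) (nd (nat_lit 367) (nat_lit 0) (cs (lf (nat_lit 4) (nat_lit 341)) (nd (nat_lit 345) (nat_lit 0) (cs (lf (nat_lit 5) (nat_lit 342)) (lf (nat_lit 23) (nat_lit 319)))))))))))) (nd (nat_lit 276) (nat_lit 0) (cs (lf (nat_lit 44) (nat_lit 253)) (nd (nat_lit 317) (nat_lit 0) (cs (lf (nat_lit 22) (nat_lit 317)) (nd (nat_lit 362) (nat_lit 0) (cs (lf (nat_lit 11) (nat_lit 339)) (nd (nat_lit 344) (nat_lit 0) (cs (lf (nat_lit 10) (nat_lit 340)) (nd (nat_lit 366) (nat_lit 0) (cs (lf (nat_lit 5) (nat_lit 341)) (nd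 (nat_lit 345) (nat_lit 0) (cs (lf (nat_lit 23) (nat_lit 319)) (rf (nat_lit 7))))))))))))))))))) (rf (nat_lit 8)))))) (nd (nat_lit 339) (nat_lit 0) (cs (rf (nat_lit 9)) (cs (rf (nat_lit 10)) (cs (rf (nat_lit 11)) (nd (nat_lit 341) (nat_lit 0) (cs (lf (nat_lit 17) (nat_lit 317)) (rf (nat_lit 12)))))))))))) q53705 (by decide +kernel)
def q53745 : Q := Q.p (nat_lit 0x50000000000000000c00002000000000000000000000000000000000000000000000000000000000000000) (nat_lit 0x300007e0000fc0007ac001ff800fe00003300008000000000000000000000000000000000000000000000000000000000000000) (nat_lit 12)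
theorem c53745 : QOK q53745 := cut [q53152, q53159, q53526, q53174, q53621, q53658, q52991, q53483, q31275, q13070, q53462, q53662, q53340, q29951, q53571] ⟨c53152, c53159, c53526, c53174, c53621, c53658, c52991, c53483, c31275, c13070, c53462, c53662, c53340, c29951, c53571, trivial⟩ (nd (nat_lit 320) (nat_lit 0) (cs (rf (nat_lit 0)) (cs (rf (nat_lit 1)) (cs (rf (nat_lit 2)) (cs (nd (nat_lit 341) (nat_lit 0) (cs (rf (nat_lit 3)) (cs (rf (nat_lit 4)) (cs (rf (nat_lit 5)) (nd (nat_lit 364) (nat_lit 0) (cs (rf (nat_lit 6)) (cs (rf (nat_lit 7)) (cs (nd (nat_lit 298) (nat_lit 0) (cs (lf (nat_lit 45) (nat_lit 253)) (nd (nat_lit 363) (nat_lit 0) (cs (lf (nat_lit 41) (nat_lit 297)) (nd (nat_lit 277) (nat_lit 0) (cs (lf (nat_lit 34) (nat_lit 276)) (nd (nat_lit 339) (nat_lit 0) (cs (lf (nat_lit 0) (nat_lit 338)) (nd (nat_lit 317) (nat_lit 0) (cs (lf (nat_lit 23) (nat_lit 316)) (nd (nat_lit 343) (nat_lit 0) (cs (lf (nat_lit 22)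 (nat_lit 317)) (rf (nat_lit 8)))))))))))))) (nd (nat_lit 339) (nat_lit 0) (cs (lf (nat_lit 5) (nat_lit 339)) (nd (nat_lit 319) (nat_lit 0) (cs (lf (nat_lit 12) (nat_lit 316)) (nd (nat_lit 317) (nat_lit 0) (cs (lf (nat_lit 23) (nat_lit 316)) (nd (nat_lit 386) (nat_lit 0) (cs (lf (nat_lit 42) (nat_lit 319)) (nd (nat_lit 318) (nat_lit 0) (cs (lf (nat_lit 5) (nat_lit 317)) (rf (nat_lit 9)))))))))))))))))))) (cs (nd (nat_lit 321) (nat_lit 0) (cs (rf (nat_lit 10)) (cs (rf (nat_lit 11)) (cs (nd (nat_lit 319) (nat_lit 0) (cs (lf (nat_lit 26) (nat_lit 253)) (nd (nat_lit 276) (nat_lit 0) (cs (lf (nat_lit 44) (nat_lit 253)) (nd (nat_lit 318) (nat_lit 0) (cs (lf (nat_lit 11) (nat_lit 317)) (rf (nat_lit 12)))))))) (nd (nat_lit 297) (nat_lit 0) (cs (lf (nat_lit 27) (nat_lit 253)) (nd (nat_lit 298) (nat_lit 0) (cs (lf (nat_lit 45) (nat_lit 253)) (nd (nat_lit 272) (nat_lit 0) (cs (lf (nat_lit 1) (nat_lit 272)) (nd (nat_lit 299) (nat_lit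 0) (cs (lf (nat_lit 18) (nat_lit 274)) (nd (nat_lit 277) (nat_lit 0) (cs (lf (nat_lit 36) (nat_lit 254)) (nd (nat_lit 322) (nat_lit 0) (cs (lf (nat_lit 18) (nat_lit 297)) (nd (nat_lit 343) (nat_lit 0) (cs (lf (nat_lit 13) (nat_lit 318)) (nd (nat_lit 365) (nat_lit 0) (cs (lf (nat_lit 42) (nat_lit 298)) (rf (nat_lit 13)))))))))))))))))))))) (nd (nat_lit 321) (nat_lit 0) (cs (rf (nat_lit 10)) (cs (rf (nat_lit 11)) (nd (nat_lit 297) (nat_lit 0) (cs (lf (nat_lit 27) (nat_lit 253)) (nd (nat_lit 364) (nat_lit 0) (cs (lf (nat_lit 45) (nat_lit 275)) (rf (nat_lit 14))))))))))))))) q53745 (by decide +kernel)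
def q53918 : Q := Q.p (nat_lit 0x50000000000000000800002000000000000000000000000000000000000000000000000000000000000000) (nat_lit 0xe0000b8001bfc007ae003ffc001e00003000008000000000000000000000000000000000000000000000000000000000000000) (nat_lit 14)
theorem c53918 : QOK q53918 := cut [q53152, q53159, q53173, q53177, q53174, q53486, q53701, q52961, q53612, q53680, q53909, q53687] ⟨c53152, c53159, c53173, c53177, c53174, c53486, c53701, c52961, c53612, c53680, c53909, c53687, trivial⟩ (nd (nat_lit 320) (nat_lit 0) (cs (rf (nat_lit 0)) (cs (rf (nat_lit 1)) (cs (rf (nat_lit 2)) (cs (rf (nat_lit 3)) (nd (nat_lit 341) (nat_lit 0) (cs (rf (nat_lit 4)) (cs (rf (nat_lit 5)) (cs (rf (nat_lit 6)) (nd (nat_lit 343) (nat_lit 0) (cs (rf (nat_lit 7)) (cs (rf (nat_lit 8)) (cs (rf (nat_lit 9)) (cs (rf (nat_lit 10)) (nd (nat_lit 276) (nat_lit 0) (cs (lf (nat_lit 44) (nat_lit 253)) (nd (nat_lit 317) (nat_lit 0) (cs (lf (nat_lit 22) (nat_lit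 317)) (nd (nat_lit 362) (nat_lit 0) (cs (lf (nat_lit 11) (nat_lit 339)) (nd (nat_lit 344) (nat_lit 0) (cs (lf (nat_lit 10) (nat_lit 340)) (nd (nat_lit 345) (nat_lit 0) (cs (lf (nat_lit 23) (nat_lit 319)) (nd (nat_lit 367) (nat_lit 0) (cs (lf (nat_lit 5) (nat_lit 342)) (rf (nat_lit 11)))))))))))))))))))))))))))) q53918 (by decide +kernel)
def q54228 : Q := Q.p (nat_lit 0x18000000000000000c00002000000000000000000000000000000000000000000000000000000000000000) (nat_lit 0x100000400007f8000fc0007fc000e30003fc000df8003300000e00000000000000000000000000000000000000000000000000000000000000) (nat_lit 15)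
theorem c54228 : QOK q54228 := cut [q43323, q46652, q54088, q54093, q54105, q13268, q54175, q54179, q54204, q31298, q46320, q13070, q54208] ⟨c43323, c46652, c54088, c54093, c54105, c13268, c54175, c54179, c54204, c31298, c46320, c13070, c54208, trivial⟩ (nd (nat_lit 318) (nat_lit 0) (cs (lf (nat_lit 32) (nat_lit 252)) (nd (nat_lit 317) (nat_lit 0) (cs (nd (nat_lit 316) (nat_lit 0) (cs (rf (nat_lit 0)) (cs (nd (nat_lit 294) (nat_lit 0) (cs (nd (nat_lit 361) (nat_lit 0) (cs (lf (nat_lit 42) (nat_lit 294)) (nd (nat_lit 272) (nat_lit 0) (cs (lf (nat_lit 24) (nat_lit 250)) (lf (nat_lit 45) (nat_lit 272)))))) (cs (nd (nat_lit 361) (nat_lit 0) (cs (lf (nat_lit 42) (nat_lit 294)) (nd (nat_lit 341) (nat_lit 0) (cs (lf (nat_lit 18) (nat_lit 316)) (rf (nat_lit 1)))))) (rf (nat_lit 2))))) (rf (nat_lit 3))))) (cs (rf (nat_lit 4)) (cs (nd (nat_lit 316) (nat_lit 0) (cs (rf (nat_lit 0)) (cs (rf (nat_lit 3)) (nd (nat_lit 273) (nat_lit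 0) (cs (nd (nat_lit 295) (nat_lit 0) (cs (lf (nat_lit 29) (nat_lit 273)) (lf (nat_lit 24) (nat_lit 251)))) (cs (nd (nat_lit 250) (nat_lit 0) (cs (nd (nat_lit 342) (nat_lit 0) (cs (lf (nat_lit 19) (nat_lit 316)) (nd (nat_lit 276) (nat_lit 0) (cs (lf (nat_lit 22) (nat_lit 250)) (rf (nat_lit 5)))))) (nd (nat_lit 272) (nat_lit 0) (cs (lf (nat_lit 23) (nat_lit 249)) (lf (nat_lit 26) (nat_lit 250)))))) (nd (nat_lit 341) (nat_lit 0) (cs (lf (nat_lit 18) (nat_lit 316)) (nd (nat_lit 295) (nat_lit 0) (cs (lf (nat_lit 29) (nat_lit 273)) (nd (nat_lit 294) (nat_lit 0) (cs (lf (nat_lit 6) (nat_lit 272)) (nd (nat_lit 272) (nat_lit 0) (cs (lf (nat_lit 11) (nat_lit 271)) (lf (nat_lit 47) (nat_lit 250)))))))))))))))) (cs (rf (nat_lit 6)) (cs (rf (nat_lit 7)) (cs (rf (nat_lit 8)) (nd (nat_lit 362) (nat_lit 0) (cs (rf (nat_lit 9)) (nd (nat_lit 342) (nat_lit 0) (cs (rf (nat_lit 10)) (cs (nd (nat_lit 320) (nat_lit 0) (cs (nd (nat_lit 319)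 (nat_lit 0) (cs (lf (nat_lit 5) (nat_lit 317)) (lf (nat_lit 6) (nat_lit 317)))) (cs (nd (nat_lit 319) (nat_lit 0) (cs (rf (nat_lit 11)) (lf (nat_lit 6) (nat_lit 317)))) (cs (nd (nat_lit 319) (nat_lit 0) (cs (lf (nat_lit 5) (nat_lit 317)) (rf (nat_lit 11)))) (nd (nat_lit 364) (nat_lit 0) (cs (nd (nat_lit 298) (nat_lit 0) (cs (lf (nat_lit 45) (nat_lit 253)) (nd (nat_lit 363) (nat_lit 0) (cs (lf (nat_lit 41) (nat_lit 297)) (nd (nat_lit 277) (nat_lit 0) (cs (lf (nat_lit 34) (nat_lit 276)) (rf (nat_lit 12)))))))) (cs (nd (nat_lit 298) (nat_lit 0) (cs (lf (nat_lit 45) (nat_lit 253)) (nd (nat_lit 299) (nat_lit 0) (cs (lf (nat_lit 35) (nat_lit 276)) (nd (nat_lit 387) (nat_lit 0) (cs (lf (nat_lit 28) (nat_lit 298)) (nd (nat_lit 386) (nat_lit 0) (cs (lf (nat_lit 29) (nat_lit 320)) (lf (nat_lit 34) (nat_lit 298)))))))))) (nd (nat_lit 363) (nat_lit 0) (cs (lf (nat_lit 18) (nat_lit 339)) (rf (nat_lit 12))))))))))) (nd (nat_lit 341)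 (nat_lit 0) (cs (lf (nat_lit 23) (nat_lit 316)) (nd (nat_lit 320) (nat_lit 0) (cs (lf (nat_lit 17) (nat_lit 317)) (nd (nat_lit 360) (nat_lit 0) (cs (lf (nat_lit 10) (nat_lit 338)) (nd (nat_lit 364) (nat_lit 0) (cs (lf (nat_lit 5) (nat_lit 339)) (nd (nat_lit 298) (nat_lit 0) (cs (lf (nat_lit 45) (nat_lit 253)) (nd (nat_lit 299) (nat_lit 0) (cs (lf (nat_lit 14) (nat_lit 295)) (lf (nat_lit 35) (nat_lit 276)))))))))))))))))))))))))))) q54228 (by decide +kernel)
def q54493 : Q := Q.p (nat_lit 0x18000000000000000c00002000000000010000000000000000000000000000000000000000000000000000) (nat_lit 0x840003f8000fe0007fc000e40007fc000df0003300000c00007000004000000000000000000000000000000000000000000000000000) (nat_lit 15)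
theorem c54493 : QOK q54493 := cut [q25352, q43323, q22724, q54414, q54419, q54421, q54427, q15957, q54461, q53365, q46180, q54468, q25205, q25398, q54475, q54479] ⟨c25352, c43323, c22724, c54414, c54419, c54421, c54427, c15957, c54461, c53365, c46180, c54468, c25205, c25398, c54475, c54479, trivial⟩ (nd (nat_lit 317) (nat_lit 0) (cs (nd (nat_lit 341) (nat_lit 0) (cs (rf (nat_lit 0)) (cs (nd (nat_lit 295) (nat_lit 0) (cs (nd (nat_lit 318) (nat_lit 0) (cs (lf (nat_lit 32) (nat_lit 252)) (nd (nat_lit 316) (nat_lit 0) (cs (rf (nat_lit 1)) (nd (nat_lit 338) (nat_lit 0) (cs (nd (nat_lit 360) (nat_lit 0) (cs (lf (nat_lit 11) (nat_lit 337)) (lf (nat_lit 30) (nat_lit 294)))) (nd (nat_lit 384) (nat_lit 0) (cs (lf (nat_lit 43) (nat_lit 295)) (nd (nat_lit 319) (nat_lit 0) (cs (lf (nat_lit 6) (nat_lit 316)) (nd (nat_lit 293) (nat_lit 0) (cs (lf (nat_lit 22) (nat_lit 293)) (nd (nat_lit 363) (nat_lit 0) (cs (lf (nat_lit 5) (nat_lit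 338)) (nd (nat_lit 385) (nat_lit 0) (cs (lf (nat_lit 41) (nat_lit 318)) (lf (nat_lit 42) (nat_lit 318)))))))))))))))))) (cs (nd (nat_lit 273) (nat_lit 0) (cs (lf (nat_lit 29) (nat_lit 273)) (nd (nat_lit 338) (nat_lit 0) (cs (lf (nat_lit 41) (nat_lit 272)) (rf (nat_lit 2)))))) (rf (nat_lit 3))))) (cs (rf (nat_lit 4)) (rf (nat_lit 5)))))) (cs (nd (nat_lit 295) (nat_lit 0) (cs (nd (nat_lit 273) (nat_lit 0) (cs (lf (nat_lit 29) (nat_lit 273)) (nd (nat_lit 338) (nat_lit 0) (cs (lf (nat_lit 41) (nat_lit 272)) (nd (nat_lit 251) (nat_lit 0) (cs (lf (nat_lit 40) (nat_lit 250)) (nd (nat_lit 250) (nat_lit 0) (cs (lf (nat_lit 18) (nat_lit 250)) (lf (nat_lit 46) (nat_lit 250)))))))))) (cs (nd (nat_lit 361) (nat_lit 0) (cs (lf (nat_lit 34) (nat_lit 273)) (nd (nat_lit 272) (nat_lit 0) (cs (lf (nat_lit 46) (nat_lit 272)) (rf (nat_lit 6)))))) (nd (nat_lit 296) (nat_lit 0) (cs (lf (nat_lit 30) (nat_lit 273)) (rf (nat_lit 7))))))) (cs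 (rf (nat_lit 8)) (cs (nd (nat_lit 296) (nat_lit 0) (cs (lf (nat_lit 31) (nat_lit 252)) (nd (nat_lit 295) (nat_lit 0) (cs (lf (nat_lit 30) (nat_lit 273)) (rf (nat_lit 7)))))) (cs (nd (nat_lit 295) (nat_lit 0) (cs (nd (nat_lit 361) (nat_lit 0) (cs (rf (nat_lit 6)) (cs (nd (nat_lit 272) (nat_lit 0) (cs (lf (nat_lit 46) (nat_lit 272)) (nd (nat_lit 384) (nat_lit 0) (cs (lf (nat_lit 28) (nat_lit 295)) (rf (nat_lit 9)))))) (cs (nd (nat_lit 272) (nat_lit 0) (cs (lf (nat_lit 46) (nat_lit 272)) (nd (nat_lit 360) (nat_lit 0) (cs (lf (nat_lit 41) (nat_lit 294)) (rf (nat_lit 10)))))) (nd (nat_lit 362) (nat_lit 0) (cs (lf (nat_lit 29) (nat_lit 295)) (nd (nat_lit 294) (nat_lit 0) (cs (lf (nat_lit 47) (nat_lit 272)) (nd (nat_lit 316) (nat_lit 0) (cs (lf (nat_lit 42) (nat_lit 294)) (nd (nat_lit 315) (nat_lit 0) (cs (lf (nat_lit 0) (nat_lit 314)) (rf (nat_lit 11)))))))))))))) (cs (nd (nat_lit 273) (nat_lit 0) (cs (rf (nat_lit 12)) (rf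 (nat_lit 13)))) (cs (nd (nat_lit 273) (nat_lit 0) (cs (lf (nat_lit 29) (nat_lit 273)) (nd (nat_lit 276) (nat_lit 0) (cs (lf (nat_lit 11) (nat_lit 272)) (rf (nat_lit 14)))))) (nd (nat_lit 273) (nat_lit 0) (cs (lf (nat_lit 29) (nat_lit 273)) (rf (nat_lit 15)))))))) (cs (nd (nat_lit 296) (nat_lit 0) (cs (lf (nat_lit 31) (nat_lit 252)) (nd (nat_lit 295) (nat_lit 0) (cs (lf (nat_lit 30) (nat_lit 273)) (nd (nat_lit 276) (nat_lit 0) (cs (lf (nat_lit 6) (nat_lit 273)) (nd (nat_lit 273) (nat_lit 0) (cs (lf (nat_lit 29) (nat_lit 273)) (rf (nat_lit 14)))))))))) (nd (nat_lit 296) (nat_lit 0) (cs (lf (nat_lit 31) (nat_lit 252)) (nd (nat_lit 295) (nat_lit 0) (cs (lf (nat_lit 30) (nat_lit 273)) (nd (nat_lit 293) (nat_lit 0) (cs (lf (nat_lit 13) (nat_lit 271)) (nd (nat_lit 273) (nat_lit 0) (cs (lf (nat_lit 29) (nat_lit 273)) (nd (nat_lit 338) (nat_lit 0) (cs (lf (nat_lit 41) (nat_lit 272)) (nd (nat_lit 250) (nat_lit 0) (cs (lf (nat_lit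 46) (nat_lit 250)) (nd (nat_lit 251) (nat_lit 0) (cs (lf (nat_lit 40) (nat_lit 250)) (lf (nat_lit 47) (nat_lit 228))))))))))))))))))))))) q54493 (by decide +kernel)
def q54605 : Q := Q.p (nat_lit 0x18000000000000000c00002000000000000000000000000000000000000000000000000000000000000000) (nat_lit 0x500001c0000780003fe000678003f7003d88007220038000000000000000000000000000000000000000000000000000000000000000) (nat_lit 15)
theorem c54605 : QOK q54605 := cut [q54229, q54547, q54575, q26000, q52783, q54604] ⟨c54229, c54547, c54575, c26000, c52783, c54604, trivial⟩ (nd (nat_lit 338) (nat_lit 0) (cs (rf (nat_lit 0)) (cs (rf (nat_lit 1)) (cs (rf (nat_lit 2)) (cs (nd (nat_lit 363) (nat_lit 0) (cs (nd (nat_lit 341) (nat_lit 0) (cs (lf (nat_lit 5) (nat_lit 338)) (rf (nat_lit 3)))) (cs (nd (nat_lit 296) (nat_lit 0) (cs (lf (nat_lit 31) (nat_lit 252)) (nd (nat_lit 341) (nat_lit 0) (cs (lf (nat_lit 5) (nat_lit 338)) (nd (nat_lit 360)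 (nat_lit 0) (cs (lf (nat_lit 11) (nat_lit 337)) (nd (nat_lit 342) (nat_lit 0) (cs (lf (nat_lit 10) (nat_lit 338)) (nd (nat_lit 320) (nat_lit 0) (cs (lf (nat_lit 17) (nat_lit 317)) (nd (nat_lit 276) (nat_lit 0) (cs (lf (nat_lit 37) (nat_lit 275)) (nd (nat_lit 277) (nat_lit 0) (cs (lf (nat_lit 11) (nat_lit 273)) (nd (nat_lit 256) (nat_lit 0) (cs (lf (nat_lit 16) (nat_lit 252)) (nd (nat_lit 385) (nat_lit 0) (cs (lf (nat_lit 30) (nat_lit 319)) (nd (nat_lit 316) (nat_lit 0) (cs (lf (nat_lit 22) (nat_lit 316)) (rf (nat_lit 4)))))))))))))))))))))) (cs (nd (nat_lit 337) (nat_lit 0) (cs (lf (nat_lit 4) (nat_lit 337)) (nd (nat_lit 296) (nat_lit 0) (cs (lf (nat_lit 31) (nat_lit 252)) (nd (nat_lit 358) (nat_lit 0) (cs (lf (nat_lit 10) (nat_lit 336)) (nd (nat_lit 336) (nat_lit 0) (cs (lf (nat_lit 11) (nat_lit 335)) (nd (nat_lit 313) (nat_lit 0) (cs (lf (nat_lit 22) (nat_lit 313)) (nd (nat_lit 335) (nat_lit 0) (cs (lf (nat_lit 23)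 (nat_lit 312)) (nd (nat_lit 269) (nat_lit 0) (cs (nd (nat_lit 361) (nat_lit 0) (cs (lf (nat_lit 4) (nat_lit 335)) (nd (nat_lit 317) (nat_lit 0) (cs (lf (nat_lit 16) (nat_lit 313)) (lf (nat_lit 33) (nat_lit 273)))))) (lf (nat_lit 25) (nat_lit 269)))))))))))))))) (nd (nat_lit 296) (nat_lit 0) (cs (lf (nat_lit 31) (nat_lit 252)) (nd (nat_lit 364) (nat_lit 0) (cs (lf (nat_lit 3) (nat_lit 338)) (nd (nat_lit 362) (nat_lit 0) (cs (lf (nat_lit 0) (nat_lit 337)) (lf (nat_lit 21) (nat_lit 338)))))))))))) (rf (nat_lit 5))))))) q54605 (by decide +kernel)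
def q54710 : Q := Q.p (nat_lit 0x18000000000000000c00002000000000000000000000000000000000000000000000000000000000000000) (nat_lit 0x1f000078000ffc001e7000ff80001e0003380000000000000000000000000000000000000000000000000000000000000000000) (nat_lit 13)
theorem c54710 : QOK q54710 := cut [q54229, q25371, q53987, q54065, q54055, q43399, q54575, q54604, q31285, q54025, q54048, q54413] ⟨c54229, c25371, c53987, c54065, c54055, c43399, c54575, c54604, c31285, c54025, c54048, c54413, trivial⟩ (nd (nat_lit 338) (nat_lit 0) (cs (rf (nat_lit 0)) (cs (nd (nat_lit 318) (nat_lit 0) (cs (lf (nat_lit 32) (nat_lit 252)) (nd (nat_lit 341) (nat_lit 0) (cs (nd (nat_lit 363) (nat_lit 0) (cs (lf (nat_lit 5) (nat_lit 338)) (nd (nat_lit 315) (nat_lit 0) (cs (lf (nat_lit 22) (nat_lit 315)) (nd (nat_lit 360) (nat_lit 0) (cs (lf (nat_lit 11) (nat_lit 337)) (rf (nat_lit 1)))))))) (cs (rf (nat_lit 2)) (cs (rf (nat_lit 3)) (nd (nat_lit 316) (nat_lit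 0) (cs (lf (nat_lit 23) (nat_lit 315)) (nd (nat_lit 383) (nat_lit 0) (cs (nd (nat_lit 363) (nat_lit 0) (cs (lf (nat_lit 5) (nat_lit 338)) (nd (nat_lit 385) (nat_lit 0) (cs (lf (nat_lit 42) (nat_lit 318)) (nd (nat_lit 359) (nat_lit 0) (cs (lf (nat_lit 10) (nat_lit 337)) (nd (nat_lit 319) (nat_lit 0) (cs (lf (nat_lit 17) (nat_lit 316)) (nd (nat_lit 384) (nat_lit 0) (cs (lf (nat_lit 41) (nat_lit 318)) (nd (nat_lit 405) (nat_lit 0) (cs (lf (nat_lit 38) (nat_lit 317)) (nd (nat_lit 386) (nat_lit 0) (cs (lf (nat_lit 29) (nat_lit 319)) (lf (nat_lit 11) (nat_lit 382)))))))))))))))) (cs (nd (nat_lit 319) (nat_lit 0) (cs (lf (nat_lit 17) (nat_lit 316)) (nd (nat_lit 360) (nat_lit 0) (cs (lf (nat_lit 11) (nat_lit 337)) (nd (nat_lit 363) (nat_lit 0) (cs (lf (nat_lit 5) (nat_lit 338)) (nd (nat_lit 294) (nat_lit 0) (cs (lf (nat_lit 28) (nat_lit 294)) (rf (nat_lit 4)))))))))) (nd (nat_lit 361) (nat_lit 0) (cs (rf (nat_lit 5)) (lf (nat_lit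 42) (nat_lit 316))))))))))))))) (cs (rf (nat_lit 6)) (cs (rf (nat_lit 7)) (nd (nat_lit 341) (nat_lit 0) (cs (rf (nat_lit 8)) (cs (rf (nat_lit 9)) (cs (rf (nat_lit 10)) (nd (nat_lit 296) (nat_lit 0) (cs (lf (nat_lit 31) (nat_lit 252)) (nd (nat_lit 315) (nat_lit 0) (cs (lf (nat_lit 22) (nat_lit 315)) (nd (nat_lit 359) (nat_lit 0) (cs (lf (nat_lit 10) (nat_lit 337)) (nd (nat_lit 337) (nat_lit 0) (cs (lf (nat_lit 11) (nat_lit 336)) (nd (nat_lit 362) (nat_lit 0) (cs (lf (nat_lit 5) (nat_lit 337)) (nd (nat_lit 361) (nat_lit 0) (cs (lf (nat_lit 0) (nat_lit 336)) (nd (nat_lit 295) (nat_lit 0) (cs (lf (nat_lit 32) (nat_lit 273)) (rf (nat_lit 11))))))))))))))))))))))))) q54710 (by decide +kernel)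
def q54763 : Q := Q.p (nat_lit 0x18000000000000000c00002000000000000000000000000000000000000000000000000000000000000000) (nat_lit 0xf40001f0003fe000670000fe0001f00033c0000700001400000000000000000000000000000000000000000000000000000000) (nat_lit 15)
theorem c54763 : QOK q54763 := cut [q54363, q54368, q54604, q13291, q54614, q54231, q54414, q54374] ⟨c54363, c54368, c54604, c13291, c54614, c54231, c54414, c54374, trivial⟩ (nd (nat_lit 338) (nat_lit 0) (cs (rf (nat_lit 0)) (cs (rf (nat_lit 1)) (cs (rf (nat_lit 2)) (cs (nd (nat_lit 360) (nat_lit 0) (cs (nd (nat_lit 341) (nat_lit 0) (cs (lf (nat_lit 11) (nat_lit 337)) (nd (nat_lit 315) (nat_lit 0) (cs (lf (nat_lit 22) (nat_lit 315)) (nd (nat_lit 342) (nat_lit 0) (cs (lf (nat_lit 10) (nat_lit 338)) (rf (nat_lit 3)))))))) (cs (nd (nat_lit 341) (nat_lit 0) (cs (lf (nat_lit 11) (nat_lit 337)) (nd (nat_lit 363) (nat_lit 0) (cs (lf (nat_lit 5) (nat_lit 338)) (nd (nat_lit 296) (nat_lit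 0) (cs (lf (nat_lit 26) (nat_lit 274)) (nd (nat_lit 316) (nat_lit 0) (cs (lf (nat_lit 23) (nat_lit 315)) (nd (nat_lit 317) (nat_lit 0) (cs (lf (nat_lit 18) (nat_lit 316)) (rf (nat_lit 4)))))))))))) (cs (nd (nat_lit 296) (nat_lit 0) (cs (lf (nat_lit 31) (nat_lit 252)) (nd (nat_lit 341) (nat_lit 0) (cs (lf (nat_lit 11) (nat_lit 337)) (nd (nat_lit 363) (nat_lit 0) (cs (lf (nat_lit 5) (nat_lit 338)) (nd (nat_lit 361) (nat_lit 0) (cs (lf (nat_lit 6) (nat_lit 338)) (rf (nat_lit 5)))))))))) (nd (nat_lit 295) (nat_lit 0) (cs (rf (nat_lit 6)) (cs (nd (nat_lit 296) (nat_lit 0) (cs (lf (nat_lit 31) (nat_lit 252)) (nd (nat_lit 276) (nat_lit 0) (cs (lf (nat_lit 6) (nat_lit 273)) (nd (nat_lit 293) (nat_lit 0) (cs (lf (nat_lit 13) (nat_lit 271)) (nd (nat_lit 317) (nat_lit 0) (cs (lf (nat_lit 30) (nat_lit 273)) (nd (nat_lit 382) (nat_lit 0) (cs (lf (nat_lit 30) (nat_lit 316)) (lf (nat_lit 33) (nat_lit 294)))))))))))) (cs (nd (nat_lit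 296) (nat_lit 0) (cs (lf (nat_lit 31) (nat_lit 252)) (nd (nat_lit 317) (nat_lit 0) (cs (lf (nat_lit 30) (nat_lit 273)) (lf (nat_lit 36) (nat_lit 272)))))) (nd (nat_lit 273) (nat_lit 0) (cs (lf (nat_lit 38) (nat_lit 272)) (nd (nat_lit 294) (nat_lit 0) (cs (lf (nat_lit 6) (nat_lit 272)) (lf (nat_lit 32) (nat_lit 272)))))))))))))) (nd (nat_lit 318) (nat_lit 0) (cs (lf (nat_lit 32) (nat_lit 252)) (nd (nat_lit 337) (nat_lit 0) (cs (lf (nat_lit 17) (nat_lit 315)) (nd (nat_lit 317) (nat_lit 0) (cs (lf (nat_lit 12) (nat_lit 314)) (nd (nat_lit 358) (nat_lit 0) (cs (lf (nat_lit 10) (nat_lit 336)) (nd (nat_lit 315) (nat_lit 0) (cs (lf (nat_lit 23) (nat_lit 314)) (nd (nat_lit 316) (nat_lit 0) (cs (lf (nat_lit 5) (nat_lit 315)) (rf (nat_lit 7))))))))))))))))))) q54763 (by decide +kernel)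
def q54890 : Q := Q.p (nat_lit 0x10000000000000000c00002000000000000000000000000000000000000000000000000000000000000000) (nat_lit 0xff0001ec000fd8001fe0007380000f00002000000000000000000000000000000000000000000000000000000000) (nat_lit 10)
theorem c54890 : QOK q54890 := cut [q25324, q53932, q2556, q52519, q2609, q12919, q15042, q53393, q53440, q11641, q53028, q12834, q12908, q53961, q22147] ⟨c25324, c53932, c2556, c52519, c2609, c12919, c15042, c53393, c53440, c11641, c53028, c12834, c12908, c53961, c22147, trivial⟩ (nd (nat_lit 297) (nat_lit 0) (cs (rf (nat_lit 0)) (cs (rf (nat_lit 1)) (cs (nd (nat_lit 298) (nat_lit 0) (cs (rf (nat_lit 2)) (cs (rf (nat_lit 3)) (nd (nat_lit 341) (nat_lit 0) (cs (nd (nat_lit 319) (nat_lit 0) (cs (lf (nat_lit 41) (nat_lit 274)) (rf (nat_lit 4)))) (cs (nd (nat_lit 319) (nat_lit 0) (cs (lf (nat_lit 41) (nat_lit 274)) (rf (nat_lit 5)))) (cs (nd (nat_lit 342) (nat_lit 0) (cs (rf (nat_lit 6))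 (cs (rf (nat_lit 7)) (rf (nat_lit 8))))) (nd (nat_lit 342) (nat_lit 0) (cs (rf (nat_lit 9)) (cs (rf (nat_lit 6)) (cs (rf (nat_lit 10)) (nd (nat_lit 319) (nat_lit 0) (cs (lf (nat_lit 29) (nat_lit 275)) (rf (nat_lit 5))))))))))))))) (nd (nat_lit 273) (nat_lit 0) (cs (rf (nat_lit 11)) (cs (rf (nat_lit 12)) (cs (rf (nat_lit 13)) (nd (nat_lit 296) (nat_lit 0) (cs (lf (nat_lit 31) (nat_lit 252)) (rf (nat_lit 14)))))))))))) q54890 (by decide +kernel)
def q54907 : Q := Q.p (nat_lit 0xf00002000000000000000000000000000000000000000000000000000000000000000) (nat_lit 0x1ce0007000039600000000000000000000000000000000000000000000000000000000000000) (nat_lit 8)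
theorem c54907 : QOK q54907 := cut [q54904] ⟨c54904, trivial⟩ (nd (nat_lit 249) (nat_lit 0) (cs (lf (nat_lit 22) (nat_lit 249)) (nd (nat_lit 294) (nat_lit 0) (cs (lf (nat_lit 11) (nat_lit 271)) (nd (nat_lit 276) (nat_lit 0) (cs (lf (nat_lit 10) (nat_lit 272)) (rf (nat_lit 0)))))))) q54907 (by decide +kernel)
def q54973 : Q := Q.p (nat_lit 0x8000020000e80002000000000010000000000000000000000000000000000000000000000000000) (nat_lit 0x3d00007400019c000040001300007c0002700005c000010000000000000000000000000000000000000000) (nat_lit 9)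
theorem c54973 : QOK q54973 := cut [q54927, q54931, q54947, q13373, q44099, q54925, q54956, q54963, q54967] ⟨c54927, c54931, c54947, c13373, c44099, c54925, c54956, c54963, c54967, trivial⟩ (nd (nat_lit 249) (nat_lit 0) (cs (rf (nat_lit 0)) (cs (rf (nat_lit 1)) (cs (nd (nat_lit 316) (nat_lit 0) (cs (lf (nat_lit 29) (nat_lit 249)) (nd (nat_lit 317) (nat_lit 0) (cs (nd (nat_lit 226) (nat_lit 0) (cs (lf (nat_lit 46) (nat_lit 226)) (nd (nat_lit 292) (nat_lit 0) (cs (lf (nat_lit 18) (nat_lit 292)) (nd (nat_lit 314) (nat_lit 0) (cs (lf (nat_lit 23) (nat_lit 291)) (lf (nat_lit 41) (nat_lit 248)))))))) (cs (rf (nat_lit 2)) (nd (nat_lit 226) (nat_lit 0) (cs (lf (nat_lit 46) (nat_lit 226)) (nd (nat_lit 314) (nat_lit 0) (cs (lf (nat_lit 41) (nat_lit 248)) (nd (nat_lit 295) (nat_lit 0) (cs (lf (nat_lit 17) (nat_lit 292)) (nd (nat_lit 339) (nat_lit 0) (cs (lf (nat_lit 35) (nat_lit 251)) (lf (nat_lit 5) (nat_lit 314)))))))))))))))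 (cs (nd (nat_lit 230) (nat_lit 0) (cs (rf (nat_lit 3)) (nd (nat_lit 227) (nat_lit 0) (cs (rf (nat_lit 4)) (cs (rf (nat_lit 5)) (nd (nat_lit 314) (nat_lit 0) (cs (lf (nat_lit 41) (nat_lit 248)) (nd (nat_lit 316) (nat_lit 0) (cs (lf (nat_lit 29) (nat_lit 249)) (nd (nat_lit 228) (nat_lit 0) (cs (lf (nat_lit 35) (nat_lit 205)) (rf (nat_lit 6))))))))))))) (nd (nat_lit 227) (nat_lit 0) (cs (rf (nat_lit 4)) (cs (rf (nat_lit 5)) (cs (nd (nat_lit 316) (nat_lit 0) (cs (lf (nat_lit 29) (nat_lit 249)) (nd (nat_lit 206) (nat_lit 0) (cs (lf (nat_lit 34) (nat_lit 205)) (nd (nat_lit 205) (nat_lit 0) (cs (lf (nat_lit 35) (nat_lit 183)) (rf (nat_lit 7)))))))) (nd (nat_lit 248) (nat_lit 0) (cs (lf (nat_lit 47) (nat_lit 226)) (nd (nat_lit 316) (nat_lit 0) (cs (lf (nat_lit 29) (nat_lit 249)) (nd (nat_lit 206) (nat_lit 0) (cs (lf (nat_lit 34) (nat_lit 205)) (nd (nat_lit 205) (nat_lit 0) (cs (lf (nat_lit 35) (nat_lit 183)) (rf (nat_lit 8)))))))))))))))))))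 q54973 (by decide +kernel)
def q55128 : Q := Q.p (nat_lit 0xc0000000000c00002000000000010000000000000000000000000000000000000000000000000000) (nat_lit 0x3ef000f38007ef0000000001000004000000000000000000000000000000000000000000000000000000000) (nat_lit 11)
theorem c55128 : QOK q55128 := cut [q13048, q55127] ⟨c13048, c55127, trivial⟩ (nd (nat_lit 297) (nat_lit 0) (cs (rf (nat_lit 0)) (rf (nat_lit 1)))) q55128 (by decide +kernel)
def q55129 : Q := Q.p (nat_lit 0xc0000000000800002000000000000000000000000000000000000000000000000000000000000000) (nat_lit 0x3df000f38007ef0000000000000000000000000000000000000000000000000000000000000000000000000) (nat_lit 11)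
theorem c55129 : QOK q55129 := cut [q55127] ⟨c55127, trivial⟩ (nd (nat_lit 297) (nat_lit 0) (cs (lf (nat_lit 41) (nat_lit 252)) (rf (nat_lit 0)))) q55129 (by decide +kernel)
def q55131 : Q := Q.p (nat_lit 0xc0000000000c00003000000000000000000000000000000000000000000000000000000000000000) (nat_lit 0x3ef000f38007ef0000000000000000000000000000000000000000000000000000000000000000000000000) (nat_lit 11)
theorem c55131 : QOK q55131 := cut [q55127] ⟨c55127, trivial⟩ (nd (nat_lit 297) (nat_lit 0) (cs (lf (nat_lit 42) (nat_lit 252)) (rf (nat_lit 0)))) q55131 (by decide +kernel)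
def q55281 : Q := Q.p (nat_lit 0x800000c00002000000000010000000000000000000000000000000000000000000000000000) (nat_lit 0x80000f00003f0007fc000f70007f0000f90003f40001e0000040000000000000000000000000000000000000000000000) (nat_lit 16)
theorem c55281 : QOK q55281 := cut [q13941, q13948, q12652, q13952, q13996, q14020, q55254, q14029, q14034, q53198, q53212, q14079, q14092, q14094, q14081, q31098, q13973] ⟨c13941, c13948, c12652, c13952, c13996, c14020, c55254, c14029, c14034, c53198, c53212, c14079, c14092, c14094, c14081, c31098, c13973, trivial⟩ (nd (nat_lit 300) (nat_lit 0) (cs (rf (nat_lit 0)) (cs (rf (nat_lit 1)) (cs (nd (nat_lit 252) (nat_lit 0) (cs (rf (nat_lit 2)) (cs (nd (nat_lit 277) (nat_lit 0) (cs (lf (nat_lit 2) (nat_lit 274)) (nd (nat_lit 322) (nat_lit 0) (cs (rf (nat_lit 3)) (cs (rf (nat_lit 4)) (cs (rf (nat_lit 5)) (rf (nat_lit 6)))))))) (nd (nat_lit 277) (nat_lit 0) (cs (lf (nat_lit 2) (nat_lit 274)) (nd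 (nat_lit 322) (nat_lit 0) (cs (rf (nat_lit 3)) (cs (rf (nat_lit 5)) (cs (rf (nat_lit 7)) (rf (nat_lit 6))))))))))) (nd (nat_lit 301) (nat_lit 0) (cs (rf (nat_lit 8)) (cs (nd (nat_lit 302) (nat_lit 0) (cs (rf (nat_lit 9)) (cs (nd (nat_lit 280) (nat_lit 0) (cs (lf (nat_lit 17) (nat_lit 277)) (nd (nat_lit 320) (nat_lit 0) (cs (lf (nat_lit 10) (nat_lit 298)) (nd (nat_lit 298) (nat_lit 0) (cs (lf (nat_lit 11) (nat_lit 297)) (lf (nat_lit 16) (nat_lit 276)))))))) (nd (nat_lit 320) (nat_lit 0) (cs (lf (nat_lit 10) (nat_lit 298)) (nd (nat_lit 298) (nat_lit 0) (cs (lf (nat_lit 11) (nat_lit 297)) (rf (nat_lit 10))))))))) (nd (nat_lit 302) (nat_lit 0) (cs (rf (nat_lit 9)) (cs (nd (nat_lit 277) (nat_lit 0) (cs (lf (nat_lit 2) (nat_lit 274)) (nd (nat_lit 344) (nat_lit 0) (cs (rf (nat_lit 11)) (cs (rf (nat_lit 12)) (cs (nd (nat_lit 324) (nat_lit 0) (cs (lf (nat_lit 5) (nat_lit 299)) (rf (nat_lit 13)))) (nd (nat_lit 324) (nat_lit 0)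 (cs (lf (nat_lit 5) (nat_lit 299)) (nd (nat_lit 280) (nat_lit 0) (cs (lf (nat_lit 17) (nat_lit 277)) (nd (nat_lit 321) (nat_lit 0) (cs (lf (nat_lit 11) (nat_lit 298)) (rf (nat_lit 14)))))))))))))) (cs (nd (nat_lit 320) (nat_lit 0) (cs (lf (nat_lit 10) (nat_lit 298)) (nd (nat_lit 277) (nat_lit 0) (cs (lf (nat_lit 23) (nat_lit 276)) (nd (nat_lit 303) (nat_lit 0) (cs (lf (nat_lit 22) (nat_lit 277)) (rf (nat_lit 15)))))))) (nd (nat_lit 280) (nat_lit 0) (cs (lf (nat_lit 17) (nat_lit 277)) (nd (nat_lit 277) (nat_lit 0) (cs (lf (nat_lit 23) (nat_lit 276)) (nd (nat_lit 278) (nat_lit 0) (cs (lf (nat_lit 18) (nat_lit 277)) (nd (nat_lit 321) (nat_lit 0) (cs (lf (nat_lit 11) (nat_lit 298)) (rf (nat_lit 16))))))))))))))))))))) q55281 (by decide +kernel)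
def q55428 : Q := Q.p (nat_lit 0xe0000000000d00001000000000000000000000000000000000000000000000000000000000000000) (nat_lit 0x1cf000318001cf0000000000e00001800000000000000000000000000000000000000000000000000000000) (nat_lit 7)
theorem c55428 : QOK q55428 := cut [q13152, q55406, q55427] ⟨c13152, c55406, c55427, trivial⟩ (nd (nat_lit 316) (nat_lit 0) (cs (rf (nat_lit 0)) (cs (rf (nat_lit 1)) (rf (nat_lit 2))))) q55428 (by decide +kernel)
def q55482 : Q := Q.p (nat_lit 0xc00003000000000010000000000000000000000000000000000000000000000000000) (nat_lit 0x1a0000780001e0000380000e000078000260000c0000000000000000000000000000000000000000000000) (nat_lit 9)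
theorem c55482 : QOK q55482 := cut [q13432, q55454, q14308, q50099, q15961, q17571, q55166, q55475, q14305, q14306, q14309] ⟨c13432, c55454, c14308, c50099, c15961, c17571, c55166, c55475, c14305, c14306, c14309, trivial⟩ (nd (nat_lit 250) (nat_lit 0) (cs (rf (nat_lit 0)) (cs (nd (nat_lit 230) (nat_lit 0) (cs (lf (nat_lit 24) (nat_lit 186)) (nd (nat_lit 228) (nat_lit 0) (cs (rf (nat_lit 1)) (cs (nd (nat_lit 272) (nat_lit 0) (cs (rf (nat_lit 2)) (cs (nd (nat_lit 187) (nat_lit 0) (cs (lf (nat_lit 34) (nat_lit 186)) (nd (nat_lit 271) (nat_lit 0) (cs (lf (nat_lit 8) (nat_lit 249)) (rf (nat_lit 3)))))) (nd (nat_lit 295) (nat_lit 0) (cs (lf (nat_lit 40) (nat_lit 207)) (nd (nat_lit 317) (nat_lit 0) (cs (lf (nat_lit 27) (nat_lit 228)) (lf (nat_lit 39) (nat_lit 229))))))))) (nd (nat_lit 227) (nat_lit 0) (cs (lf (nat_lit 2) (nat_lit 227)) (nd (nat_lit 187) (nat_lit 0) (cs (lf (nat_lit 34) (nat_lit 186)) (nd (nat_lit 273) (nat_lit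 0) (cs (lf (nat_lit 41) (nat_lit 207)) (nd (nat_lit 272) (nat_lit 0) (cs (lf (nat_lit 12) (nat_lit 249)) (nd (nat_lit 294) (nat_lit 0) (cs (lf (nat_lit 11) (nat_lit 271)) (lf (nat_lit 47) (nat_lit 205))))))))))))))))) (cs (nd (nat_lit 251) (nat_lit 0) (cs (lf (nat_lit 0) (nat_lit 249)) (nd (nat_lit 230) (nat_lit 0) (cs (lf (nat_lit 24) (nat_lit 186)) (nd (nat_lit 227) (nat_lit 0) (cs (lf (nat_lit 22) (nat_lit 227)) (nd (nat_lit 187) (nat_lit 0) (cs (lf (nat_lit 34) (nat_lit 186)) (nd (nat_lit 295) (nat_lit 0) (cs (lf (nat_lit 40) (nat_lit 207)) (nd (nat_lit 296) (nat_lit 0) (cs (lf (nat_lit 41) (nat_lit 229)) (rf (nat_lit 4)))))))))))))) (cs (nd (nat_lit 251) (nat_lit 0) (cs (lf (nat_lit 0) (nat_lit 249)) (nd (nat_lit 228) (nat_lit 0) (cs (lf (nat_lit 23) (nat_lit 227)) (nd (nat_lit 272) (nat_lit 0) (cs (lf (nat_lit 11) (nat_lit 249)) (nd (nat_lit 294) (nat_lit 0) (cs (rf (nat_lit 5)) (cs (rf (nat_lit 6)) (nd (nat_lit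 186) (nat_lit 0) (cs (lf (nat_lit 26) (nat_lit 186)) (rf (nat_lit 7))))))))))))) (nd (nat_lit 272) (nat_lit 0) (cs (rf (nat_lit 8)) (cs (rf (nat_lit 9)) (cs (rf (nat_lit 2)) (rf (nat_lit 10))))))))))) q55482 (by decide +kernel)
def q55515 : Q := Q.p (nat_lit 0xc00002000000000000000000000000000000000000000000000000000000000000000) (nat_lit 0x700007f0003f0003ff0007380039f00022000000000000000000000000000000000000000000000000000000000) (nat_lit 14)
theorem c55515 : QOK q55515 := cut [q55286, q12991, q13240, q14624, q22662, q22705, q22498, q55487, q55103, q14633, q14640, q54794, q14626, q13254, q54814, q17490, q52784, q13258, q14659, q15516, q52668, q14655] ⟨c55286, c12991, c13240, c14624, c22662, c22705, c22498, c55487, c55103, c14633, c14640, c54794, c14626, c13254, c54814, c17490, c52784, c13258, c14659, c15516, c52668, c14655, trivial⟩ (nd (nat_lit 276) (nat_lit 0) (cs (rf (nat_lit 0)) (cs (nd (nat_lit 273) (nat_lit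 0) (cs (rf (nat_lit 1)) (cs (rf (nat_lit 2)) (cs (rf (nat_lit 3)) (nd (nat_lit 295) (nat_lit 0) (cs (lf (nat_lit 11) (nat_lit 272)) (nd (nat_lit 317) (nat_lit 0) (cs (rf (nat_lit 4)) (cs (rf (nat_lit 5)) (cs (nd (nat_lit 251) (nat_lit 0) (cs (lf (nat_lit 23) (nat_lit 250)) (nd (nat_lit 298) (nat_lit 0) (cs (lf (nat_lit 5) (nat_lit 273)) (nd (nat_lit 320) (nat_lit 0) (cs (lf (nat_lit 42) (nat_lit 253)) (rf (nat_lit 6)))))))) (cs (nd (nat_lit 298) (nat_lit 0) (cs (lf (nat_lit 5) (nat_lit 273)) (nd (nat_lit 320) (nat_lit 0) (cs (lf (nat_lit 42) (nat_lit 253)) (nd (nat_lit 250) (nat_lit 0) (cs (lf (nat_lit 22) (nat_lit 250)) (nd (nat_lit 339) (nat_lit 0) (cs (lf (nat_lit 35) (nat_lit 251)) (nd (nat_lit 338) (nat_lit 0) (cs (lf (nat_lit 41) (nat_lit 272)) (nd (nat_lit 340) (nat_lit 0) (cs (lf (nat_lit 29) (nat_lit 273)) (rf (nat_lit 7)))))))))))))) (cs (nd (nat_lit 298) (nat_lit 0) (cs (lf (nat_lit 5) (nat_lit 273)) (nd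 (nat_lit 320) (nat_lit 0) (cs (lf (nat_lit 42) (nat_lit 253)) (nd (nat_lit 250) (nat_lit 0) (cs (lf (nat_lit 22) (nat_lit 250)) (nd (nat_lit 339) (nat_lit 0) (cs (lf (nat_lit 35) (nat_lit 251)) (nd (nat_lit 338) (nat_lit 0) (cs (lf (nat_lit 41) (nat_lit 272)) (nd (nat_lit 318) (nat_lit 0) (cs (lf (nat_lit 7) (nat_lit 316)) (nd (nat_lit 336) (nat_lit 0) (cs (lf (nat_lit 13) (nat_lit 314)) (rf (nat_lit 7)))))))))))))))) (nd (nat_lit 250) (nat_lit 0) (cs (lf (nat_lit 22) (nat_lit 250)) (nd (nat_lit 298) (nat_lit 0) (cs (lf (nat_lit 5) (nat_lit 273)) (nd (nat_lit 320) (nat_lit 0) (cs (lf (nat_lit 42) (nat_lit 253)) (nd (nat_lit 339) (nat_lit 0) (cs (lf (nat_lit 35) (nat_lit 251)) (nd (nat_lit 340) (nat_lit 0) (cs (lf (nat_lit 29) (nat_lit 273)) (rf (nat_lit 8)))))))))))))))))))))))) (cs (nd (nat_lit 296) (nat_lit 0) (cs (rf (nat_lit 9)) (cs (rf (nat_lit 10)) (cs (nd (nat_lit 277) (nat_lit 0) (cs (lf (nat_lit 11) (nat_lit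 273)) (nd (nat_lit 255) (nat_lit 0) (cs (lf (nat_lit 17) (nat_lit 252)) (rf (nat_lit 11)))))) (nd (nat_lit 318) (nat_lit 0) (cs (lf (nat_lit 30) (nat_lit 252)) (rf (nat_lit 12)))))))) (cs (nd (nat_lit 277) (nat_lit 0) (cs (rf (nat_lit 13)) (rf (nat_lit 14)))) (cs (nd (nat_lit 277) (nat_lit 0) (cs (rf (nat_lit 15)) (rf (nat_lit 16)))) (nd (nat_lit 273) (nat_lit 0) (cs (rf (nat_lit 17)) (cs (rf (nat_lit 18)) (cs (rf (nat_lit 19)) (cs (rf (nat_lit 20)) (nd (nat_lit 250) (nat_lit 0) (cs (lf (nat_lit 22) (nat_lit 250)) (rf (nat_lit 21))))))))))))))) q55515 (by decide +kernel)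
def q55630 : Q := Q.p (nat_lit 0x200000c00003800000000000000000000000000000000000000000000000000000000000000) (nat_lit 0xa0000f80000ff0007f8001fb0001d80007380018000040000000000000000000000000000000000000000000000000000000000) (nat_lit 14)
theorem c55630 : QOK q55630 := cut [q14923, q13915, q55589, q55588, q15010, q28712, q55583, q55546, q14990, q28107, q55621, q14992, q11587] ⟨c14923, c13915, c55589, c55588, c15010, c28712, c55583, c55546, c14990, c28107, c55621, c14992, c11587, trivial⟩ (nd (nat_lit 342) (nat_lit 0) (cs (rf (nat_lit 0)) (cs (nd (nat_lit 341) (nat_lit 0) (cs (lf (nat_lit 43) (nat_lit 252)) (nd (nat_lit 299) (nat_lit 0) (cs (rf (nat_lit 1)) (cs (rf (nat_lit 2)) (cs (nd (nat_lit 343) (nat_lit 0) (cs (rf (nat_lit 3)) (cs (nd (nat_lit 344) (nat_lit 0) (cs (rf (nat_lit 4)) (cs (rf (nat_lit 5)) (cs (rf (nat_lit 6)) (nd (nat_lit 366) (nat_lit 0) (cs (lf (nat_lit 5) (nat_lit 341)) (nd (nat_lit 362) (nat_lit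 0) (cs (lf (nat_lit 10) (nat_lit 340)) (nd (nat_lit 322) (nat_lit 0) (cs (lf (nat_lit 17) (nat_lit 319)) (nd (nat_lit 388) (nat_lit 0) (cs (lf (nat_lit 46) (nat_lit 299)) (nd (nat_lit 389) (nat_lit 0) (cs (lf (nat_lit 29) (nat_lit 322)) (nd (nat_lit 387) (nat_lit 0) (cs (lf (nat_lit 41) (nat_lit 321)) (nd (nat_lit 365) (nat_lit 0) (cs (nd (nat_lit 390) (nat_lit 0) (cs (lf (nat_lit 18) (nat_lit 365)) (lf (nat_lit 23) (nat_lit 364)))) (lf (nat_lit 36) (nat_lit 299)))))))))))))))))))) (cs (nd (nat_lit 277) (nat_lit 0) (cs (lf (nat_lit 19) (nat_lit 251)) (nd (nat_lit 321) (nat_lit 0) (cs (lf (nat_lit 41) (nat_lit 276)) (nd (nat_lit 256) (nat_lit 0) (cs (lf (nat_lit 34) (nat_lit 255)) (nd (nat_lit 234) (nat_lit 0) (cs (lf (nat_lit 33) (nat_lit 233)) (nd (nat_lit 340) (nat_lit 0) (cs (lf (nat_lit 17) (nat_lit 318)) (nd (nat_lit 361) (nat_lit 0) (cs (lf (nat_lit 10) (nat_lit 339)) (nd (nat_lit 339) (nat_lit 0) (cs (lf (nat_lit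 11) (nat_lit 338)) (nd (nat_lit 317) (nat_lit 0) (cs (lf (nat_lit 23) (nat_lit 316)) (nd (nat_lit 295) (nat_lit 0) (cs (lf (nat_lit 34) (nat_lit 273)) (lf (nat_lit 33) (nat_lit 251)))))))))))))))))))) (cs (nd (nat_lit 344) (nat_lit 0) (cs (rf (nat_lit 5)) (cs (rf (nat_lit 7)) (nd (nat_lit 366) (nat_lit 0) (cs (lf (nat_lit 5) (nat_lit 341)) (nd (nat_lit 340) (nat_lit 0) (cs (lf (nat_lit 4) (nat_lit 340)) (nd (nat_lit 322) (nat_lit 0) (cs (lf (nat_lit 17) (nat_lit 319)) (nd (nat_lit 277) (nat_lit 0) (cs (lf (nat_lit 19) (nat_lit 251)) (lf (nat_lit 45) (nat_lit 277))))))))))))) (cs (nd (nat_lit 277) (nat_lit 0) (cs (lf (nat_lit 19) (nat_lit 251)) (nd (nat_lit 321) (nat_lit 0) (cs (lf (nat_lit 41) (nat_lit 276)) (nd (nat_lit 256) (nat_lit 0) (cs (lf (nat_lit 34) (nat_lit 255)) (nd (nat_lit 234) (nat_lit 0) (cs (lf (nat_lit 33) (nat_lit 233)) (rf (nat_lit 8)))))))))) (nd (nat_lit 277) (nat_lit 0) (cs (lf (nat_lit 19) (nat_lit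 251)) (rf (nat_lit 9)))))))))) (cs (nd (nat_lit 276) (nat_lit 0) (cs (lf (nat_lit 18) (nat_lit 251)) (rf (nat_lit 10)))) (nd (nat_lit 277) (nat_lit 0) (cs (lf (nat_lit 19) (nat_lit 251)) (nd (nat_lit 298) (nat_lit 0) (cs (lf (nat_lit 18) (nat_lit 274)) (nd (nat_lit 296) (nat_lit 0) (cs (lf (nat_lit 17) (nat_lit 274)) (rf (nat_lit 11))))))))))))))) (nd (nat_lit 276) (nat_lit 0) (cs (lf (nat_lit 18) (nat_lit 251)) (nd (nat_lit 298) (nat_lit 0) (cs (rf (nat_lit 12)) (lf (nat_lit 43) (nat_lit 253))))))))) q55630 (by decide +kernel)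
def q55688 : Q := Q.p (nat_lit 0x200000c00002000000000010000000000000000000000000000000000000000000000000000) (nat_lit 0x100000780001f0001cc0001300001000004000000000000000000000000000000000000000000000000000000000) (nat_lit 9)
theorem c55688 : QOK q55688 := cut [q2556, q25895, q25896] ⟨c2556, c25895, c25896, trivial⟩ (nd (nat_lit 298) (nat_lit 0) (cs (rf (nat_lit 0)) (cs (rf (nat_lit 1)) (rf (nat_lit 2))))) q55688 (by decide +kernel)
def q55741 : Q := Q.p (nat_lit 0x200000c00002000000000010000000000000000000000000000000000000000000000000000) (nat_lit 0x7c0001f0001d00000300001000004000000000000000000000000000000000000000000000000000000000) (nat_lit 9)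
theorem c55741 : QOK q55741 := cut [q25896, q52519, q25661] ⟨c25896, c52519, c25661, trivial⟩ (nd (nat_lit 298) (nat_lit 0) (cs (rf (nat_lit 0)) (cs (rf (nat_lit 1)) (nd (nat_lit 272) (nat_lit 0) (cs (lf (nat_lit 1) (nat_lit 272)) (nd (nat_lit 252) (nat_lit 0) (cs (lf (nat_lit 25) (nat_lit 208)) (nd (nat_lit 319) (nat_lit 0) (cs (lf (nat_lit 42) (nat_lit 252)) (nd (nat_lit 318) (nat_lit 0) (cs (lf (nat_lit 41) (nat_lit 252)) (nd (nat_lit 317) (nat_lit 0) (cs (lf (nat_lit 12) (nat_lit 294)) (nd (nat_lit 320) (nat_lit 0) (cs (lf (nat_lit 29) (nat_lit 253)) (rf (nat_lit 2))))))))))))))))) q55741 (by decide +kernel)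
def q55825 : Q := Q.p (nat_lit 0x1c00002000000000000000000000000000000000000000000000000000000000000000) (nat_lit 0x40000700001c0000700003c000060000398000700001c0000500000000000000000000000000000000000000000000000) (nat_lit 10)
theorem c55825 : QOK q55825 := cut [q13254, q52784, q15527, q15529, q15531] ⟨c13254, c52784, c15527, c15529, c15531, trivial⟩ (nd (nat_lit 277) (nat_lit 0) (cs (rf (nat_lit 0)) (cs (rf (nat_lit 1)) (nd (nat_lit 255) (nat_lit 0) (cs (lf (nat_lit 17) (nat_lit 252)) (nd (nat_lit 299) (nat_lit 0) (cs (lf (nat_lit 5) (nat_lit 274)) (nd (nat_lit 321) (nat_lit 0) (cs (rf (nat_lit 2)) (cs (rf (nat_lit 3)) (cs (rf (nat_lit 4)) (nd (nat_lit 251) (nat_lit 0) (cs (lf (nat_lit 22) (nat_lit 251)) (nd (nat_lit 344) (nat_lit 0) (cs (lf (nat_lit 28) (nat_lit 255)) (nd (nat_lit 343) (nat_lit 0) (cs (lf (nat_lit 29) (nat_lit 277)) (nd (nat_lit 365) (nat_lit 0) (cs (lf (nat_lit 46) (nat_lit 276)) (nd (nat_lit 364)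 (nat_lit 0) (cs (lf (nat_lit 41) (nat_lit 298)) (lf (nat_lit 40) (nat_lit 276))))))))))))))))))))))) q55825 (by decide +kernel)
def q55906 : Q := Q.p (nat_lit 0x10000000000000001e00002000000000000000000000000000000000000000000000000000000000000000) (nat_lit 0x7fe001ef000fbe000db80001c0001f00009000024000000000000000000000000000000000000000000000000000) (nat_lit 12)
theorem c55906 : QOK q55906 := cut [q13268, q22752, q25476, q52963, q54555, q53050, q13291, q22739, q15586, q52720, q11958] ⟨c13268, c22752, c25476, c52963, c54555, c53050, c13291, c22739, c15586, c52720, c11958, trivial⟩ (nd (nat_lit 339) (nat_lit 0) (cs (nd (nat_lit 342) (nat_lit 0) (cs (rf (nat_lit 0)) (nd (nat_lit 341) (nat_lit 0) (cs (rf (nat_lit 1)) (cs (rf (nat_lit 2)) (rf (nat_lit 3))))))) (cs (nd (nat_lit 338) (nat_lit 0) (cs (rf (nat_lit 4)) (cs (nd (nat_lit 250) (nat_lit 0) (cs (rf (nat_lit 5)) (nd (nat_lit 342) (nat_lit 0) (cs (rf (nat_lit 0))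 (nd (nat_lit 341) (nat_lit 0) (cs (rf (nat_lit 6)) (rf (nat_lit 7)))))))) (cs (nd (nat_lit 250) (nat_lit 0) (cs (lf (nat_lit 22) (nat_lit 250)) (nd (nat_lit 272) (nat_lit 0) (cs (lf (nat_lit 23) (nat_lit 249)) (nd (nat_lit 271) (nat_lit 0) (cs (lf (nat_lit 16) (nat_lit 249)) (nd (nat_lit 293) (nat_lit 0) (cs (lf (nat_lit 11) (nat_lit 270)) (nd (nat_lit 337) (nat_lit 0) (cs (lf (nat_lit 31) (nat_lit 249)) (nd (nat_lit 362) (nat_lit 0) (cs (lf (nat_lit 5) (nat_lit 337)) (nd (nat_lit 358) (nat_lit 0) (cs (lf (nat_lit 10) (nat_lit 336)) (nd (nat_lit 336) (nat_lit 0) (cs (lf (nat_lit 11) (nat_lit 335)) (lf (nat_lit 4) (nat_lit 336)))))))))))))))))) (cs (nd (nat_lit 250) (nat_lit 0) (cs (lf (nat_lit 22) (nat_lit 250)) (nd (nat_lit 249) (nat_lit 0) (cs (lf (nat_lit 21) (nat_lit 249)) (nd (nat_lit 298) (nat_lit 0) (cs (lf (nat_lit 5) (nat_lit 273)) (nd (nat_lit 209) (nat_lit 0) (cs (lf (nat_lit 25) (nat_lit 209)) (nd (nat_lit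 320) (nat_lit 0) (cs (lf (nat_lit 42) (nat_lit 253)) (nd (nat_lit 341) (nat_lit 0) (cs (rf (nat_lit 8)) (lf (nat_lit 16) (nat_lit 316)))))))))))))) (nd (nat_lit 250) (nat_lit 0) (cs (lf (nat_lit 22) (nat_lit 250)) (nd (nat_lit 249) (nat_lit 0) (cs (lf (nat_lit 21) (nat_lit 249)) (nd (nat_lit 298) (nat_lit 0) (cs (lf (nat_lit 5) (nat_lit 273)) (nd (nat_lit 209) (nat_lit 0) (cs (lf (nat_lit 25) (nat_lit 209)) (nd (nat_lit 320) (nat_lit 0) (cs (lf (nat_lit 42) (nat_lit 253)) (nd (nat_lit 341) (nat_lit 0) (cs (lf (nat_lit 16) (nat_lit 316)) (rf (nat_lit 9))))))))))))))))))) (nd (nat_lit 250) (nat_lit 0) (cs (lf (nat_lit 22) (nat_lit 250)) (nd (nat_lit 272) (nat_lit 0) (cs (lf (nat_lit 23) (nat_lit 249)) (nd (nat_lit 295) (nat_lit 0) (cs (lf (nat_lit 43) (nat_lit 250)) (nd (nat_lit 206) (nat_lit 0) (cs (lf (nat_lit 25) (nat_lit 206)) (nd (nat_lit 271) (nat_lit 0) (cs (lf (nat_lit 16) (nat_lit 249)) (nd (nat_lit 270) (nat_lit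 0) (cs (lf (nat_lit 5) (nat_lit 270)) (rf (nat_lit 10))))))))))))))))) q55906 (by decide +kernel)
def q56028 : Q := Q.p (nat_lit 0x1c00002000000000010000000000000000000000000000000000000000000000000000) (nat_lit 0x7dc001e3000f8e001f80007e0003fe0001e0000700001c000040000000000000000000000000) (nat_lit 16)
theorem c56028 : QOK q56028 := cut [q15523, q15653, q22898, q56027] ⟨c15523, c15653, c22898, c56027, trivial⟩ (nd (nat_lit 209) (nat_lit 0) (cs (rf (nat_lit 0)) (cs (rf (nat_lit 1)) (cs (rf (nat_lit 2)) (rf (nat_lit 3)))))) q56028 (by decide +kernel)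
def q56029 : Q := Q.p (nat_lit 0x1c00002000000000010000000000000000000000000000000000000000000000000000) (nat_lit 0x5e0006380039f00008000020000040000000000000000000000000000000000000000000000) (nat_lit 6)
theorem c56029 : QOK q56029 := cut [q14655, q15625, q55832] ⟨c14655, c15625, c55832, trivial⟩ (nd (nat_lit 273) (nat_lit 0) (cs (rf (nat_lit 0)) (cs (rf (nat_lit 1)) (rf (nat_lit 2))))) q56029 (by decide +kernel)
def q56188 : Q := Q.p (nat_lit 0x40000d00002000008000000000000000000000000000000000000000000000000000000000) (nat_lit 0xa000138000ff0001fc000320001080001e00073800042000000000000000000000000000000000000000000000000000) (nat_lit 12)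
theorem c56188 : QOK q56188 := cut [q55836, q56095, q56096, q56071, q56124, q56130, q56152, q12719, q56076, q56129, q23049, q14247] ⟨c55836, c56095, c56096, c56071, c56124, c56130, c56152, c12719, c56076, c56129, c23049, c14247, trivial⟩ (nd (nat_lit 318) (nat_lit 0) (cs (rf (nat_lit 0)) (cs (rf (nat_lit 1)) (cs (rf (nat_lit 2)) (nd (nat_lit 319) (nat_lit 0) (cs (rf (nat_lit 3)) (cs (nd (nat_lit 316) (nat_lit 0) (cs (nd (nat_lit 317) (nat_lit 0) (cs (lf (nat_lit 23) (nat_lit 293)) (nd (nat_lit 337) (nat_lit 0) (cs (lf (nat_lit 10) (nat_lit 315)) (nd (nat_lit 315) (nat_lit 0) (cs (lf (nat_lit 11) (nat_lit 314)) (nd (nat_lit 359) (nat_lit 0) (cs (lf (nat_lit 30) (nat_lit 293)) (nd (nat_lit 342) (nat_lit 0) (cs (lf (nat_lit 4) (nat_lit 316)) (nd (nat_lit 320) (nat_lit 0) (cs (lf (nat_lit 5) (nat_lit 317)) (lf (nat_lit 26) (nat_lit 253)))))))))))))) (cs (rf (nat_lit 4)) (cs (rf (nat_lit 5)) (nd (nat_lit 317) (nat_lit 0)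 (cs (lf (nat_lit 23) (nat_lit 293)) (nd (nat_lit 341) (nat_lit 0) (cs (lf (nat_lit 5) (nat_lit 316)) (nd (nat_lit 252) (nat_lit 0) (cs (lf (nat_lit 44) (nat_lit 252)) (nd (nat_lit 250) (nat_lit 0) (cs (lf (nat_lit 29) (nat_lit 250)) (nd (nat_lit 251) (nat_lit 0) (cs (lf (nat_lit 5) (nat_lit 250)) (lf (nat_lit 35) (nat_lit 228)))))))))))))))) (cs (rf (nat_lit 6)) (cs (nd (nat_lit 316) (nat_lit 0) (cs (rf (nat_lit 5)) (cs (nd (nat_lit 297) (nat_lit 0) (cs (lf (nat_lit 41) (nat_lit 252)) (nd (nat_lit 210) (nat_lit 0) (cs (lf (nat_lit 34) (nat_lit 209)) (nd (nat_lit 317) (nat_lit 0) (cs (lf (nat_lit 23) (nat_lit 293)) (rf (nat_lit 7)))))))) (nd (nat_lit 338) (nat_lit 0) (cs (rf (nat_lit 8)) (cs (rf (nat_lit 9)) (nd (nat_lit 297) (nat_lit 0) (cs (lf (nat_lit 41) (nat_lit 252)) (nd (nat_lit 210) (nat_lit 0) (cs (lf (nat_lit 34) (nat_lit 209)) (nd (nat_lit 271) (nat_lit 0) (cs (lf (nat_lit 47) (nat_lit 249)) (nd (nat_lit 361)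 (nat_lit 0) (cs (lf (nat_lit 28) (nat_lit 272)) (nd (nat_lit 360) (nat_lit 0) (cs (lf (nat_lit 29) (nat_lit 294)) (lf (nat_lit 46) (nat_lit 271)))))))))))))))))) (cs (nd (nat_lit 316) (nat_lit 0) (cs (rf (nat_lit 4)) (cs (rf (nat_lit 5)) (cs (nd (nat_lit 297) (nat_lit 0) (cs (lf (nat_lit 41) (nat_lit 252)) (nd (nat_lit 210) (nat_lit 0) (cs (lf (nat_lit 34) (nat_lit 209)) (nd (nat_lit 320) (nat_lit 0) (cs (lf (nat_lit 29) (nat_lit 253)) (nd (nat_lit 317) (nat_lit 0) (cs (lf (nat_lit 23) (nat_lit 293)) (rf (nat_lit 10)))))))))) (nd (nat_lit 317) (nat_lit 0) (cs (lf (nat_lit 23) (nat_lit 293)) (nd (nat_lit 297) (nat_lit 0) (cs (lf (nat_lit 41) (nat_lit 252)) (nd (nat_lit 210) (nat_lit 0) (cs (lf (nat_lit 34) (nat_lit 209)) (nd (nat_lit 320) (nat_lit 0) (cs (lf (nat_lit 29) (nat_lit 253)) (nd (nat_lit 339) (nat_lit 0) (cs (lf (nat_lit 11) (nat_lit 316)) (lf (nat_lit 24) (nat_lit 250)))))))))))))))) (nd (nat_lit 316) (nat_lit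 0) (cs (rf (nat_lit 4)) (cs (rf (nat_lit 5)) (cs (nd (nat_lit 297) (nat_lit 0) (cs (lf (nat_lit 41) (nat_lit 252)) (nd (nat_lit 252) (nat_lit 0) (cs (lf (nat_lit 42) (nat_lit 252)) (nd (nat_lit 317) (nat_lit 0) (cs (lf (nat_lit 23) (nat_lit 293)) (nd (nat_lit 210) (nat_lit 0) (cs (lf (nat_lit 34) (nat_lit 209)) (nd (nat_lit 338) (nat_lit 0) (cs (lf (nat_lit 11) (nat_lit 315)) (nd (nat_lit 339) (nat_lit 0) (cs (lf (nat_lit 29) (nat_lit 272)) (lf (nat_lit 6) (nat_lit 316)))))))))))))) (nd (nat_lit 297) (nat_lit 0) (cs (lf (nat_lit 41) (nat_lit 252)) (nd (nat_lit 252) (nat_lit 0) (cs (lf (nat_lit 42) (nat_lit 252)) (nd (nat_lit 293) (nat_lit 0) (cs (lf (nat_lit 20) (nat_lit 293)) (nd (nat_lit 232) (nat_lit 0) (cs (lf (nat_lit 35) (nat_lit 209)) (nd (nat_lit 233) (nat_lit 0) (cs (lf (nat_lit 6) (nat_lit 230)) (nd (nat_lit 250) (nat_lit 0) (cs (lf (nat_lit 13) (nat_lit 228)) (nd (nat_lit 228) (nat_lit 0) (cs (lf (nat_lit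 41) (nat_lit 227)) (rf (nat_lit 11)))))))))))))))))))))))))))))) q56188 (by decide +kernel)
def q56265 : Q := Q.p (nat_lit 0xc00002000000000010000000000000000000000000000000000000000000000000000) (nat_lit 0x500001e0000780001f00007e000f300039c00018000060000140000000000000000000000000000000000000000000000) (nat_lit 12)
theorem c56265 : QOK q56265 := cut [q15683, q52528, q2394, q15711, q15716, q56040, q56241, q56243, q11700] ⟨c15683, c52528, c2394, c15711, c15716, c56040, c56241, c56243, c11700, trivial⟩ (nd (nat_lit 231) (nat_lit 0) (cs (rf (nat_lit 0)) (cs (rf (nat_lit 1)) (nd (nat_lit 297) (nat_lit 0) (cs (rf (nat_lit 2)) (cs (rf (nat_lit 3)) (cs (rf (nat_lit 4)) (cs (rf (nat_lit 5)) (nd (nat_lit 295) (nat_lit 0) (cs (nd (nat_lit 296) (nat_lit 0) (cs (lf (nat_lit 41) (nat_lit 230)) (rf (nat_lit 6)))) (cs (nd (nat_lit 210) (nat_lit 0) (cs (lf (nat_lit 34) (nat_lit 209)) (nd (nat_lit 298) (nat_lit 0) (cs (lf (nat_lit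 29) (nat_lit 231)) (nd (nat_lit 273) (nat_lit 0) (cs (lf (nat_lit 0) (nat_lit 272)) (nd (nat_lit 276) (nat_lit 0) (cs (lf (nat_lit 11) (nat_lit 272)) (nd (nat_lit 251) (nat_lit 0) (cs (lf (nat_lit 23) (nat_lit 250)) (nd (nat_lit 277) (nat_lit 0) (cs (lf (nat_lit 22) (nat_lit 251)) (rf (nat_lit 7)))))))))))))) (cs (nd (nat_lit 296) (nat_lit 0) (cs (lf (nat_lit 41) (nat_lit 230)) (nd (nat_lit 276) (nat_lit 0) (cs (lf (nat_lit 6) (nat_lit 273)) (nd (nat_lit 210) (nat_lit 0) (cs (lf (nat_lit 34) (nat_lit 209)) (nd (nat_lit 298) (nat_lit 0) (cs (lf (nat_lit 29) (nat_lit 231)) (nd (nat_lit 317) (nat_lit 0) (cs (lf (nat_lit 11) (nat_lit 294)) (nd (nat_lit 273) (nat_lit 0) (cs (lf (nat_lit 23) (nat_lit 272)) (rf (nat_lit 8)))))))))))))) (nd (nat_lit 296) (nat_lit 0) (cs (lf (nat_lit 41) (nat_lit 230)) (nd (nat_lit 293) (nat_lit 0) (cs (lf (nat_lit 13) (nat_lit 271)) (nd (nat_lit 210) (nat_lit 0) (cs (lf (nat_lit 34) (nat_lit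 209)) (nd (nat_lit 298) (nat_lit 0) (cs (lf (nat_lit 29) (nat_lit 231)) (nd (nat_lit 317) (nat_lit 0) (cs (lf (nat_lit 11) (nat_lit 294)) (nd (nat_lit 339) (nat_lit 0) (cs (lf (nat_lit 30) (nat_lit 273)) (nd (nat_lit 273) (nat_lit 0) (cs (lf (nat_lit 23) (nat_lit 272)) (lf (nat_lit 35) (nat_lit 251)))))))))))))))))))))))))))) q56265 (by decide +kernel)
def q56302 : Q := Q.p (nat_lit 0x800003400000000010000000000000000000000000000000000000000000000000000) (nat_lit 0x380001e00001e000078000020000c0000200000c0000000000000000000000000000000000000000000000) (nat_lit 9)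
theorem c56302 : QOK q56302 := cut [q15499, q15501, q13430, q15503, q25707] ⟨c15499, c15501, c13430, c15503, c25707, trivial⟩ (nd (nat_lit 209) (nat_lit 0) (cs (rf (nat_lit 0)) (cs (rf (nat_lit 1)) (cs (nd (nat_lit 230) (nat_lit 0) (cs (lf (nat_lit 24) (nat_lit 186)) (nd (nat_lit 274) (nat_lit 0) (cs (lf (nat_lit 35) (nat_lit 186)) (rf (nat_lit 2)))))) (nd (nat_lit 274) (nat_lit 0) (cs (rf (nat_lit 3)) (cs (nd (nat_lit 230) (nat_lit 0) (cs (lf (nat_lit 35) (nat_lit 186)) (rf (nat_lit 2)))) (nd (nat_lit 296) (nat_lit 0) (cs (lf (nat_lit 37) (nat_lit 208)) (rf (nat_lit 4))))))))))) q56302 (by decide +kernel)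
def q57664 : Q := Q.p (nat_lit 0x340000c000000000000000000000000000000000000000000000000000000000) (nat_lit 0x20000188000720001c0000100000400000000000000000000000000000000000000000) (nat_lit 7)
theorem c57664 : QOK q57664 := cut [q57663] ⟨c57663, trivial⟩ (nd (nat_lit 232) (nat_lit 0) (cs (lf (nat_lit 13) (nat_lit 228)) (rf (nat_lit 0)))) q57664 (by decide +kernel)
def q57732 : Q := Q.p (nat_lit 0x20000000000100001e0000000000000000000000000000000000000000000000) (nat_lit 0x80000380000c0000000000fc0003e0000b800000000000000000000000000000) (nat_lit 11)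
theorem c57732 : QOK q57732 := cut [q57731] ⟨c57731, trivial⟩ (nd (nat_lit 166) (nat_lit 0) (cs (lf (nat_lit 17) (nat_lit 163)) (rf (nat_lit 0)))) q57732 (by decide +kernel)
def q57792 : Q := Q.p (nat_lit 0x8000024000000000100001c0000000000000000000000000000000000000000000000) (nat_lit 0x1700001b00003c001c60006380007f8000fc0003f8000e000018000020000000000000) (nat_lit 14)
theorem c57792 : QOK q57792 := cut [q18440, q20002, q18163, q57754, q33509, q57751, q15332, q57761, q23210, q23211, q23212, q23214, q57765, q57767, q57773, q57778, q57791] ⟨c18440, c20002, c18163, c57754, c33509, c57751, c15332, c57761, c23210, c23211, c23212, c23214, c57765, c57767, c57773, c57778, c57791, trivial⟩ (nd (nat_lit 164) (nat_lit 0) (cs (rf (nat_lit 0)) (cs (rf (nat_lit 1)) (cs (nd (nat_lit 142) (nat_lit 0) (cs (rf (nat_lit 2)) (cs (rf (nat_lit 3)) (cs (nd (nat_lit 141) (nat_lit 0) (cs (lf (nat_lit 47) (nat_lit 119)) (nd (nat_lit 140) (nat_lit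 0) (cs (rf (nat_lit 4)) (cs (nd (nat_lit 165) (nat_lit 0) (cs (rf (nat_lit 5)) (cs (nd (nat_lit 251) (nat_lit 0) (cs (rf (nat_lit 6)) (cs (rf (nat_lit 7)) (nd (nat_lit 274) (nat_lit 0) (cs (rf (nat_lit 8)) (cs (rf (nat_lit 9)) (cs (rf (nat_lit 10)) (nd (nat_lit 121) (nat_lit 0) (cs (lf (nat_lit 34) (nat_lit 120)) (rf (nat_lit 11))))))))))) (rf (nat_lit 12))))) (cs (rf (nat_lit 13)) (nd (nat_lit 121) (nat_lit 0) (cs (lf (nat_lit 34) (nat_lit 120)) (nd (nat_lit 165) (nat_lit 0) (cs (lf (nat_lit 0) (nat_lit 139)) (rf (nat_lit 5)))))))))))) (rf (nat_lit 14)))))) (cs (rf (nat_lit 15)) (rf (nat_lit 16))))))) q57792 (by decide +kernel)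
def q57906 : Q := Q.p (nat_lit 0x8000024000000000100001c0000000000000000000000000000000000000000000000) (nat_lit 0x1400001a00011c00146000630003fe0007f8001fc0007f800040000000000000000000) (nat_lit 13)
theorem c57906 : QOK q57906 := cut [q2647, q19504, q57838, q2645, q19497, q33273, q57839, q57842, q15332, q57874, q57878, q57881, q57884, q57903] ⟨c2647, c19504, c57838, c2645, c19497, c33273, c57839, c57842, c15332, c57874, c57878, c57881, c57884, c57903, trivial⟩ (nd (nat_lit 166) (nat_lit 0) (cs (rf (nat_lit 0)) (cs (rf (nat_lit 1)) (cs (rf (nat_lit 2)) (nd (nat_lit 167) (nat_lit 0) (cs (rf (nat_lit 3)) (cs (rf (nat_lit 4)) (nd (nat_lit 145) (nat_lit 0) (cs (rf (nat_lit 5)) (cs (rf (nat_lit 6)) (cs (nd (nat_lit 121) (nat_lit 0) (cs (rf (nat_lit 7)) (cs (nd (nat_lit 251) (nat_lit 0) (cs (rf (nat_lit 8)) (rf (nat_lit 9)))) (cs (rf (nat_lit 10)) (rf (nat_lit 11)))))) (cs (rf (nat_lit 12)) (rf (nat_lit 13)))))))))))))) q57906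 (by decide +kernel)
def q57975 : Q := Q.p (nat_lit 0x300000e0000000000800000000000000000000000000000000000) (nat_lit 0xc0000200001df800f7c001ff00001000000000000000000000000) (nat_lit 11)
theorem c57975 : QOK q57975 := cut [q57934, q57939, q57937, q5713, q34444, q5770, q57952, q20689, q57959, q57974] ⟨c57934, c57939, c57937, c5713, c34444, c5770, c57952, c20689, c57959, c57974, trivial⟩ (nd (nat_lit 142) (nat_lit 0) (cs (rf (nat_lit 0)) (cs (rf (nat_lit 1)) (cs (nd (nat_lit 141) (nat_lit 0) (cs (rf (nat_lit 2)) (cs (nd (nat_lit 140) (nat_lit 0) (cs (rf (nat_lit 3)) (cs (nd (nat_lit 210) (nat_lit 0) (cs (lf (nat_lit 18) (nat_lit 185)) (rf (nat_lit 4)))) (cs (nd (nat_lit 161) (nat_lit 0) (cs (lf (nat_lit 10) (nat_lit 139)) (nd (nat_lit 211) (nat_lit 0) (cs (lf (nat_lit 19) (nat_lit 185)) (nd (nat_lit 117) (nat_lit 0) (cs (lf (nat_lit 22) (nat_lit 117)) (nd (nat_lit 122) (nat_lit 0) (cs (lf (nat_lit 16) (nat_lit 118)) (nd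 (nat_lit 144) (nat_lit 0) (cs (lf (nat_lit 17) (nat_lit 119)) (nd (nat_lit 167) (nat_lit 0) (cs (lf (nat_lit 4) (nat_lit 141)) (nd (nat_lit 145) (nat_lit 0) (cs (lf (nat_lit 5) (nat_lit 142)) (lf (nat_lit 43) (nat_lit 122)))))))))))))))) (nd (nat_lit 210) (nat_lit 0) (cs (lf (nat_lit 18) (nat_lit 185)) (rf (nat_lit 5)))))))) (cs (rf (nat_lit 6)) (cs (nd (nat_lit 210) (nat_lit 0) (cs (lf (nat_lit 18) (nat_lit 185)) (nd (nat_lit 163) (nat_lit 0) (cs (lf (nat_lit 24) (nat_lit 119)) (nd (nat_lit 144) (nat_lit 0) (cs (lf (nat_lit 11) (nat_lit 140)) (nd (nat_lit 167) (nat_lit 0) (cs (lf (nat_lit 4) (nat_lit 141)) (nd (nat_lit 122) (nat_lit 0) (cs (lf (nat_lit 17) (nat_lit 119)) (nd (nat_lit 121) (nat_lit 0) (cs (lf (nat_lit 12) (nat_lit 118)) (rf (nat_lit 7)))))))))))))) (nd (nat_lit 210) (nat_lit 0) (cs (lf (nat_lit 18) (nat_lit 185)) (rf (nat_lit 8))))))))) (rf (nat_lit 9)))))) q57975 (by decide +kernel)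
def q57978 : Q := Q.p (nat_lit 0x8000024000000000300000e0000000000000000000000000000000000000000000000) (nat_lit 0x12000018000018000060000180000e0000000000000000000000000000000000000000) (nat_lit 7)
theorem c57978 : QOK q57978 := cut [q57976] ⟨c57976, trivial⟩ (nd (nat_lit 184) (nat_lit 0) (cs (lf (nat_lit 0) (nat_lit 183)) (nd (nat_lit 161) (nat_lit 0) (cs (lf (nat_lit 22) (nat_lit 161)) (rf (nat_lit 0)))))) q57978 (by decide +kernel)
def q58015 : Q := Q.p (nat_lit 0x8000020000000000100000c0000000000000000000000000000000000000000000000) (nat_lit 0x20000180000780001e0000738001ee0003f0000f800000000000000000000000000000) (nat_lit 13)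
theorem c58015 : QOK q58015 := cut [q8140, q8144, q10512, q2771, q8062, q8446, q8544, q58000, q58001, q58002, q58005, q8043, q58011] ⟨c8140, c8144, c10512, c2771, c8062, c8446, c8544, c58000, c58001, c58002, c58005, c8043, c58011, trivial⟩ (nd (nat_lit 209) (nat_lit 0) (cs (lf (nat_lit 44) (nat_lit 186)) (nd (nat_lit 188) (nat_lit 0) (cs (rf (nat_lit 0)) (cs (rf (nat_lit 1)) (cs (rf (nat_lit 2)) (cs (nd (nat_lit 210) (nat_lit 0) (cs (rf (nat_lit 3)) (cs (rf (nat_lit 4)) (rf (nat_lit 5))))) (nd (nat_lit 211) (nat_lit 0) (cs (rf (nat_lit 6)) (cs (rf (nat_lit 7)) (nd (nat_lit 144) (nat_lit 0) (cs (rf (nat_lit 8)) (cs (rf (nat_lit 9)) (cs (rf (nat_lit 10)) (cs (nd (nat_lit 166) (nat_lit 0) (cs (lf (nat_lit 36) (nat_lit 121)) (nd (nat_lit 210) (nat_lit 0) (cs (lf (nat_lit 29) (nat_lit 144)) (nd (nat_lit 123) (nat_lit 0) (cs (lf (nat_lit 34) (nat_lit 122)) (nd (nat_lit 143) (nat_lit 0) (cs (lf (nat_lit 47) (nat_lit 121))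 (nd (nat_lit 165) (nat_lit 0) (cs (lf (nat_lit 42) (nat_lit 143)) (rf (nat_lit 11)))))))))))) (rf (nat_lit 12))))))))))))))))) q58015 (by decide +kernel)
def q58027 : Q := Q.p (nat_lit 0x300001c0000000000000000000000000000000000000000000000) (nat_lit 0x20000180000700001c0000600001c00003e0000e000000000000000000000000000000) (nat_lit 9)
theorem c58027 : QOK q58027 := cut [q8544, q58000, q58001, q58002, q58005, q58011, q8052] ⟨c8544, c58000, c58001, c58002, c58005, c58011, c8052, trivial⟩ (nd (nat_lit 211) (nat_lit 0) (cs (rf (nat_lit 0)) (cs (rf (nat_lit 1)) (nd (nat_lit 144) (nat_lit 0) (cs (rf (nat_lit 2)) (cs (rf (nat_lit 3)) (cs (rf (nat_lit 4)) (cs (rf (nat_lit 5)) (nd (nat_lit 166) (nat_lit 0) (cs (lf (nat_lit 36) (nat_lit 121)) (nd (nat_lit 210) (nat_lit 0) (cs (lf (nat_lit 29) (nat_lit 144)) (rf (nat_lit 6)))))))))))))) q58027 (by decide +kernel)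
def q58033 : Q := Q.p (nat_lit 0x100000e0000000000000000000000000000000000000000000000) (nat_lit 0x80000300007e0001f00007fc0007e0001f8000780000c0000000000000000000) (nat_lit 12)
theorem c58033 : QOK q58033 := cut [q19777, q57722, q57932, q58032] ⟨c19777, c57722, c57932, c58032, trivial⟩ (nd (nat_lit 188) (nat_lit 0) (cs (rf (nat_lit 0)) (cs (rf (nat_lit 1)) (cs (rf (nat_lit 2)) (rf (nat_lit 3)))))) q58033 (by decide +kernel)
def q58034 : Q := Q.p (nat_lit 0x8000024000000000100000e0000000000000000000000000000000000000000000000) (nat_lit 0x1200001800001800066000018000080000000000000000000000000000000000000000) (nat_lit 6)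
theorem c58034 : QOK q58034 := cut [q9201, q57976] ⟨c9201, c57976, trivial⟩ (nd (nat_lit 184) (nat_lit 0) (cs (rf (nat_lit 0)) (rf (nat_lit 1)))) q58034 (by decide +kernel)
def q58037 : Q := Q.p (nat_lit 0x8000024000000000000000e0000000000000000000000000000000000000000000000) (nat_lit 0x12000018000018000060000180007f0000000000000000000000000000000000000000) (nat_lit 6)
theorem c58037 : QOK q58037 := cut [q57976, q58036] ⟨c57976, c58036, trivial⟩ (nd (nat_lit 184) (nat_lit 0) (cs (rf (nat_lit 0)) (rf (nat_lit 1)))) q58037 (by decide +kernel)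
def q58169 : Q := Q.p (nat_lit 0x8000020000000000100000c0000000000000000000000000000000000000000000000) (nat_lit 0x788001e6000738001bf8007fc001ff0000380000a000000000000000000) (nat_lit 15)
theorem c58169 : QOK q58169 := cut [q2771, q58090, q11, q5707, q57934, q57935, q5713, q57962, q18361, q58100, q58102, q8622, q5770, q34444, q58105, q58109, q58117, q58167] ⟨c2771, c58090, c11, c5707, c57934, c57935, c5713, c57962, c18361, c58100, c58102, c8622, c5770, c34444, c58105, c58109, c58117, c58167, trivial⟩ (nd (nat_lit 209) (nat_lit 0) (cs (lf (nat_lit 44) (nat_lit 186)) (nd (nat_lit 210) (nat_lit 0) (cs (rf (nat_lit 0)) (cs (nd (nat_lit 143) (nat_lit 0) (cs (rf (nat_lit 1)) (cs (nd (nat_lit 185) (nat_lit 0) (cs (rf (nat_lit 2)) (nd (nat_lit 141) (nat_lit 0) (cs (nd (nat_lit 119) (nat_lit 0) (cs (lf (nat_lit 26) (nat_lit 119)) (nd (nat_lit 142) (nat_lit 0) (cs (rf (nat_lit 3)) (lf (nat_lit 44) (nat_lit 119)))))) (cs (nd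 (nat_lit 142) (nat_lit 0) (cs (rf (nat_lit 4)) (cs (rf (nat_lit 5)) (cs (nd (nat_lit 140) (nat_lit 0) (cs (rf (nat_lit 6)) (cs (nd (nat_lit 117) (nat_lit 0) (cs (lf (nat_lit 22) (nat_lit 117)) (nd (nat_lit 139) (nat_lit 0) (cs (lf (nat_lit 23) (nat_lit 116)) (nd (nat_lit 164) (nat_lit 0) (cs (lf (nat_lit 24) (nat_lit 120)) (rf (nat_lit 7)))))))) (cs (nd (nat_lit 164) (nat_lit 0) (cs (lf (nat_lit 24) (nat_lit 120)) (nd (nat_lit 117) (nat_lit 0) (cs (lf (nat_lit 22) (nat_lit 117)) (nd (nat_lit 139) (nat_lit 0) (cs (lf (nat_lit 23) (nat_lit 116)) (rf (nat_lit 8)))))))) (rf (nat_lit 9)))))) (rf (nat_lit 10)))))) (cs (nd (nat_lit 163) (nat_lit 0) (cs (lf (nat_lit 24) (nat_lit 119)) (rf (nat_lit 11)))) (cs (nd (nat_lit 142) (nat_lit 0) (cs (rf (nat_lit 5)) (cs (nd (nat_lit 140) (nat_lit 0) (cs (rf (nat_lit 6)) (cs (rf (nat_lit 12)) (cs (rf (nat_lit 13)) (nd (nat_lit 161) (nat_lit 0) (cs (lf (nat_lit 10) (nat_lit 139)) (nd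 (nat_lit 122) (nat_lit 0) (cs (lf (nat_lit 16) (nat_lit 118)) (rf (nat_lit 14)))))))))) (rf (nat_lit 15))))) (nd (nat_lit 163) (nat_lit 0) (cs (lf (nat_lit 24) (nat_lit 119)) (nd (nat_lit 162) (nat_lit 0) (cs (lf (nat_lit 18) (nat_lit 162)) (nd (nat_lit 161) (nat_lit 0) (cs (lf (nat_lit 0) (nat_lit 160)) (nd (nat_lit 142) (nat_lit 0) (cs (lf (nat_lit 6) (nat_lit 140)) (lf (nat_lit 9) (nat_lit 139))))))))))))))))) (rf (nat_lit 16))))) (rf (nat_lit 17))))))) q58169 (by decide +kernel)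
def q58221 : Q := Q.p (nat_lit 0x300001c0000000000000000000000000000000000000000000000) (nat_lit 0x700001c0000400003fe000ff0007fe000280000a0000000000000000000) (nat_lit 12)
theorem c58221 : QOK q58221 := cut [q57995, q57982, q58184, q58176, q58185, q8399, q18396, q58187, q58192, q57934, q8182, q9039, q9038, q21777, q33149, q9017, q16672, q58220] ⟨c57995, c57982, c58184, c58176, c58185, c8399, c18396, c58187, c58192, c57934, c8182, c9039, c9038, c21777, c33149, c9017, c16672, c58220, trivial⟩ (nd (nat_lit 143) (nat_lit 0) (cs (rf (nat_lit 0)) (cs (nd (nat_lit 142) (nat_lit 0) (cs (rf (nat_lit 1)) (cs (rf (nat_lit 2)) (cs (nd (nat_lit 144) (nat_lit 0) (cs (rf (nat_lit 3)) (cs (rf (nat_lit 4)) (cs (nd (nat_lit 141) (nat_lit 0) (cs (rf (nat_lit 5)) (rf (nat_lit 6)))) (rf (nat_lit 7)))))) (nd (nat_lit 165) (nat_lit 0) (cs (lf (nat_lit 47) (nat_lit 120)) (rf (nat_lit 8)))))))) (cs (nd (nat_lit 142) (nat_lit 0) (cs (rf (nat_lit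 9)) (cs (rf (nat_lit 2)) (cs (nd (nat_lit 144) (nat_lit 0) (cs (rf (nat_lit 3)) (cs (nd (nat_lit 121) (nat_lit 0) (cs (lf (nat_lit 32) (nat_lit 120)) (nd (nat_lit 166) (nat_lit 0) (cs (lf (nat_lit 42) (nat_lit 121)) (nd (nat_lit 77) (nat_lit 0) (cs (lf (nat_lit 25) (nat_lit 77)) (nd (nat_lit 141) (nat_lit 0) (cs (lf (nat_lit 5) (nat_lit 141)) (rf (nat_lit 10)))))))))) (nd (nat_lit 164) (nat_lit 0) (cs (lf (nat_lit 35) (nat_lit 120)) (rf (nat_lit 11))))))) (nd (nat_lit 144) (nat_lit 0) (cs (rf (nat_lit 3)) (cs (nd (nat_lit 145) (nat_lit 0) (cs (rf (nat_lit 12)) (cs (rf (nat_lit 13)) (cs (nd (nat_lit 123) (nat_lit 0) (cs (lf (nat_lit 17) (nat_lit 120)) (nd (nat_lit 119) (nat_lit 0) (cs (lf (nat_lit 22) (nat_lit 119)) (nd (nat_lit 118) (nat_lit 0) (cs (lf (nat_lit 21) (nat_lit 118)) (nd (nat_lit 166) (nat_lit 0) (cs (lf (nat_lit 30) (nat_lit 122)) (rf (nat_lit 14)))))))))) (nd (nat_lit 120) (nat_lit 0) (cs (lf (nat_lit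 23) (nat_lit 119)) (nd (nat_lit 123) (nat_lit 0) (cs (lf (nat_lit 17) (nat_lit 120)) (nd (nat_lit 210) (nat_lit 0) (cs (lf (nat_lit 32) (nat_lit 122)) (nd (nat_lit 212) (nat_lit 0) (cs (nd (nat_lit 146) (nat_lit 0) (cs (lf (nat_lit 22) (nat_lit 120)) (nd (nat_lit 168) (nat_lit 0) (cs (lf (nat_lit 5) (nat_lit 143)) (lf (nat_lit 43) (nat_lit 123)))))) (lf (nat_lit 19) (nat_lit 186)))))))))))))) (cs (nd (nat_lit 141) (nat_lit 0) (cs (rf (nat_lit 10)) (cs (rf (nat_lit 15)) (rf (nat_lit 16))))) (nd (nat_lit 166) (nat_lit 0) (cs (lf (nat_lit 36) (nat_lit 121)) (nd (nat_lit 210) (nat_lit 0) (cs (lf (nat_lit 47) (nat_lit 121)) (nd (nat_lit 211) (nat_lit 0) (cs (lf (nat_lit 18) (nat_lit 186)) (lf (nat_lit 29) (nat_lit 144)))))))))))))))) (rf (nat_lit 17)))))) q58221 (by decide +kernel)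
def q58265 : Q := Q.p (nat_lit 0x300001c0000000000000000000000000000000000000000000000) (nat_lit 0x600001fe0003e0000f800000000000000000000000000000) (nat_lit 8)
theorem c58265 : QOK q58265 := cut [q10489, q58224, q8424, q58262] ⟨c10489, c58224, c8424, c58262, trivial⟩ (nd (nat_lit 164) (nat_lit 0) (cs (rf (nat_lit 0)) (cs (rf (nat_lit 1)) (nd (nat_lit 142) (nat_lit 0) (cs (lf (nat_lit 24) (nat_lit 120)) (nd (nat_lit 167) (nat_lit 0) (cs (rf (nat_lit 2)) (rf (nat_lit 3))))))))) q58265 (by decide +kernel)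
def q58273 : Q := Q.p (nat_lit 0x10000040000100001c00000000000000000000000000000000000) (nat_lit 0xe70000380000f00000000000000000000000000000) (nat_lit 7)
theorem c58273 : QOK q58273 := cut [q8596] ⟨c8596, trivial⟩ (nd (nat_lit 141) (nat_lit 0) (cs (lf (nat_lit 47) (nat_lit 119)) (rf (nat_lit 0)))) q58273 (by decide +kernel)
def q58307 : Q := Q.p (nat_lit 0x8000020000000000100000e0000000000000000000000000000000000000000000000) (nat_lit 0x80000380000e0000100003fc000ff0003f800038000080000000000000000000) (nat_lit 14)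
theorem c58307 : QOK q58307 := cut [q9273, q7622, q19776, q57731, q8438, q6533, q58302] ⟨c9273, c7622, c19776, c57731, c8438, c6533, c58302, trivial⟩ (nd (nat_lit 166) (nat_lit 0) (cs (nd (nat_lit 167) (nat_lit 0) (cs (lf (nat_lit 15) (nat_lit 163)) (nd (nat_lit 165) (nat_lit 0) (cs (lf (nat_lit 6) (nat_lit 164)) (lf (nat_lit 9) (nat_lit 163)))))) (cs (nd (nat_lit 165) (nat_lit 0) (cs (rf (nat_lit 0)) (nd (nat_lit 209) (nat_lit 0) (cs (lf (nat_lit 44) (nat_lit 186)) (nd (nat_lit 210) (nat_lit 0) (cs (lf (nat_lit 18) (nat_lit 185)) (rf (nat_lit 1)))))))) (cs (nd (nat_lit 188) (nat_lit 0) (cs (rf (nat_lit 2)) (cs (rf (nat_lit 3)) (cs (nd (nat_lit 163) (nat_lit 0) (cs (lf (nat_lit 23) (nat_lit 162)) (nd (nat_lit 141) (nat_lit 0) (cs (lf (nat_lit 24) (nat_lit 119)) (nd (nat_lit 165) (nat_lit 0) (cs (nd (nat_lit 140) (nat_lit 0) (cs (lf (nat_lit 20) (nat_lit 140)) (nd (nat_lit 143) (nat_lit 0) (cs (lf (nat_lit 36) (nat_lit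 120)) (lf (nat_lit 2) (nat_lit 140)))))) (cs (nd (nat_lit 209) (nat_lit 0) (cs (lf (nat_lit 31) (nat_lit 165)) (nd (nat_lit 122) (nat_lit 0) (cs (lf (nat_lit 37) (nat_lit 121)) (nd (nat_lit 143) (nat_lit 0) (cs (lf (nat_lit 36) (nat_lit 120)) (rf (nat_lit 4)))))))) (cs (nd (nat_lit 209) (nat_lit 0) (cs (lf (nat_lit 44) (nat_lit 186)) (rf (nat_lit 5)))) (nd (nat_lit 209) (nat_lit 0) (cs (lf (nat_lit 44) (nat_lit 186)) (nd (nat_lit 144) (nat_lit 0) (cs (lf (nat_lit 36) (nat_lit 121)) (nd (nat_lit 164) (nat_lit 0) (cs (lf (nat_lit 17) (nat_lit 141)) (lf (nat_lit 23) (nat_lit 140)))))))))))))))) (nd (nat_lit 231) (nat_lit 0) (cs (lf (nat_lit 32) (nat_lit 165)) (rf (nat_lit 6)))))))) (nd (nat_lit 231) (nat_lit 0) (cs (lf (nat_lit 45) (nat_lit 186)) (nd (nat_lit 188) (nat_lit 0) (cs (lf (nat_lit 17) (nat_lit 163)) (rf (nat_lit 6)))))))))) q58307 (by decide +kernel)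
def q58358 : Q := Q.p (nat_lit 0x8000024000000000100000c0000000000000000000000000000000000000000000000) (nat_lit 0x1200001800019800066000738001fe000ff0000f800000000000000000000000000000) (nat_lit 12)
theorem c58358 : QOK q58358 := cut [q11, q57721, q58356] ⟨c11, c57721, c58356, trivial⟩ (nd (nat_lit 209) (nat_lit 0) (cs (lf (nat_lit 44) (nat_lit 186)) (nd (nat_lit 185) (nat_lit 0) (cs (rf (nat_lit 0)) (cs (rf (nat_lit 1)) (rf (nat_lit 2))))))) q58358 (by decide +kernel)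
def q58371 : Q := Q.p (nat_lit 0x8000020000000000100001c0000000000000000000000000000000000000000000000) (nat_lit 0x20000080000780001e0000030000f00003f0000fc00000000000000000000000000000) (nat_lit 12)
theorem c58371 : QOK q58371 := cut [q58363, q39168, q19290, q8474, q8062] ⟨c58363, c39168, c19290, c8474, c8062, trivial⟩ (nd (nat_lit 210) (nat_lit 0) (cs (nd (nat_lit 209) (nat_lit 0) (cs (lf (nat_lit 44) (nat_lit 186)) (rf (nat_lit 0)))) (cs (nd (nat_lit 185) (nat_lit 0) (cs (lf (nat_lit 5) (nat_lit 185)) (rf (nat_lit 1)))) (cs (nd (nat_lit 185) (nat_lit 0) (cs (lf (nat_lit 5) (nat_lit 185)) (rf (nat_lit 2)))) (cs (nd (nat_lit 209) (nat_lit 0) (cs (lf (nat_lit 44) (nat_lit 186)) (nd (nat_lit 185) (nat_lit 0) (cs (lf (nat_lit 0) (nat_lit 184)) (nd (nat_lit 166) (nat_lit 0) (cs (lf (nat_lit 17) (nat_lit 163)) (rf (nat_lit 3)))))))) (nd (nat_lit 209) (nat_lit 0) (cs (lf (nat_lit 44) (nat_lit 186)) (rf (nat_lit 4)))))))))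 q58371 (by decide +kernel)
def q58399 : Q := Q.p (nat_lit 0x300000c0000100000000000000000000000000000000000000000) (nat_lit 0xec0007f80007800000000000000000000000000000) (nat_lit 7)
theorem c58399 : QOK q58399 := cut [q8293, q58392, q58394, q58398] ⟨c8293, c58392, c58394, c58398, trivial⟩ (nd (nat_lit 165) (nat_lit 0) (cs (nd (nat_lit 143) (nat_lit 0) (cs (lf (nat_lit 36) (nat_lit 120)) (rf (nat_lit 0)))) (cs (rf (nat_lit 1)) (cs (rf (nat_lit 2)) (rf (nat_lit 3)))))) q58399 (by decide +kernel)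
def q58412 : Q := Q.p (nat_lit 0x300000c0000100000000000000000000000000000000000000000) (nat_lit 0x3200004e0003e0000f800002000000000000000000000000) (nat_lit 8)
theorem c58412 : QOK q58412 := cut [q20054, q2879, q58268, q58411] ⟨c20054, c2879, c58268, c58411, trivial⟩ (nd (nat_lit 163) (nat_lit 0) (cs (rf (nat_lit 0)) (cs (nd (nat_lit 141) (nat_lit 0) (cs (rf (nat_lit 1)) (nd (nat_lit 188) (nat_lit 0) (cs (lf (nat_lit 18) (nat_lit 163)) (nd (nat_lit 142) (nat_lit 0) (cs (lf (nat_lit 24) (nat_lit 120)) (rf (nat_lit 2)))))))) (rf (nat_lit 3))))) q58412 (by decide +kernel)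
def q58426 : Q := Q.p (nat_lit 0x300000c0000100000000000000000000000000000000000000000) (nat_lit 0x20001e80007f80007800000000000000000000000000000) (nat_lit 7)
theorem c58426 : QOK q58426 := cut [q58392, q58394, q58398, q19946] ⟨c58392, c58394, c58398, c19946, trivial⟩ (nd (nat_lit 165) (nat_lit 0) (cs (rf (nat_lit 0)) (cs (rf (nat_lit 1)) (cs (rf (nat_lit 2)) (nd (nat_lit 143) (nat_lit 0) (cs (lf (nat_lit 36) (nat_lit 120)) (nd (nat_lit 144) (nat_lit 0) (cs (lf (nat_lit 35) (nat_lit 121)) (nd (nat_lit 145) (nat_lit 0) (cs (lf (nat_lit 6) (nat_lit 142)) (nd (nat_lit 166) (nat_lit 0) (cs (lf (nat_lit 12) (nat_lit 141)) (rf (nat_lit 3)))))))))))))) q58426 (by decide +kernel)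
def q58429 : Q := Q.p (nat_lit 0x300000c0000100000000000000000000000000000000000000000) (nat_lit 0x3200002e0003e0000f800000000000000000000000000000) (nat_lit 8)
theorem c58429 : QOK q58429 := cut [q20054, q58411, q4600] ⟨c20054, c58411, c4600, trivial⟩ (nd (nat_lit 163) (nat_lit 0) (cs (rf (nat_lit 0)) (cs (rf (nat_lit 1)) (nd (nat_lit 142) (nat_lit 0) (cs (lf (nat_lit 24) (nat_lit 120)) (nd (nat_lit 188) (nat_lit 0) (cs (lf (nat_lit 18) (nat_lit 163)) (rf (nat_lit 2))))))))) q58429 (by decide +kernel)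
def q58452 : Q := Q.p (nat_lit 0x8000024000000000100000c0000000000000000000000000000000000000000000000) (nat_lit 0x12000018000198001e6000738001fe000f80000e000000000000000000000000000000) (nat_lit 12)
theorem c58452 : QOK q58452 := cut [q11, q57721, q58450] ⟨c11, c57721, c58450, trivial⟩ (nd (nat_lit 209) (nat_lit 0) (cs (lf (nat_lit 44) (nat_lit 186)) (nd (nat_lit 185) (nat_lit 0) (cs (rf (nat_lit 0)) (cs (rf (nat_lit 1)) (rf (nat_lit 2))))))) q58452 (by decide +kernel)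
def q58794 : Q := Q.p (nat_lit 0x20000800002400000000010000000000000000000000000000000000000000000000000000) (nat_lit 0xf80007f8001fe000ffc001de001778001be001bf80027e000fa0000e0000280000000000000000000000000000000000) (nat_lit 16)
theorem c58794 : QOK q58794 := cut [q15332, q15320, q58568, q40537, q44140, q58631, q58633, q58636, q58582, q58632, q58693, q44930, q58549, q58700, q58551, q58556, q58539, q44490, q58571, q58712, q10808, q25590, q15267, q58479, q58769, q15339, q58771, q58783, q14478, q58768, q58784, q4123, q58791, q58793] ⟨c15332, c15320, c58568, c40537, c44140, c58631, c58633, c58636, c58582, c58632, c58693, c44930, c58549, c58700, c58551, c58556, c58539, c44490, c58571, c58712, c10808, c25590, c15267, c58479, c58769, c15339, c58771, c58783, c14478, c58768, c58784, c4123, c58791, c58793, trivial⟩ (nd (nat_lit 251) (nat_lit 0) (cs (rf (nat_lit 0)) (cs (nd (nat_lit 228) (nat_lit 0) (cs (rf (nat_lit 1)) (cs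 (rf (nat_lit 2)) (nd (nat_lit 294) (nat_lit 0) (cs (nd (nat_lit 295) (nat_lit 0) (cs (rf (nat_lit 3)) (cs (nd (nat_lit 292) (nat_lit 0) (cs (rf (nat_lit 4)) (cs (rf (nat_lit 5)) (cs (nd (nat_lit 270) (nat_lit 0) (cs (lf (nat_lit 23) (nat_lit 269)) (nd (nat_lit 248) (nat_lit 0) (cs (rf (nat_lit 6)) (cs (nd (nat_lit 314) (nat_lit 0) (cs (nd (nat_lit 315) (nat_lit 0) (cs (lf (nat_lit 29) (nat_lit 248)) (lf (nat_lit 6) (nat_lit 292)))) (rf (nat_lit 7)))) (cs (nd (nat_lit 226) (nat_lit 0) (cs (lf (nat_lit 29) (nat_lit 226)) (rf (nat_lit 8)))) (nd (nat_lit 226) (nat_lit 0) (cs (rf (nat_lit 8)) (cs (rf (nat_lit 9)) (nd (nat_lit 225) (nat_lit 0) (cs (lf (nat_lit 20) (nat_lit 225)) (lf (nat_lit 2) (nat_lit 225))))))))))))) (cs (rf (nat_lit 10)) (nd (nat_lit 291) (nat_lit 0) (cs (rf (nat_lit 11)) (cs (rf (nat_lit 12)) (cs (rf (nat_lit 13)) (nd (nat_lit 268) (nat_lit 0) (cs (lf (nat_lit 22) (nat_lit 268)) (nd (nat_lit 314) (nat_lit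 0) (cs (lf (nat_lit 11) (nat_lit 291)) (nd (nat_lit 290) (nat_lit 0) (cs (lf (nat_lit 23) (nat_lit 267)) (nd (nat_lit 315) (nat_lit 0) (cs (lf (nat_lit 6) (nat_lit 292)) (lf (nat_lit 0) (nat_lit 289))))))))))))))))))) (cs (nd (nat_lit 292) (nat_lit 0) (cs (rf (nat_lit 4)) (cs (rf (nat_lit 14)) (cs (rf (nat_lit 15)) (rf (nat_lit 10)))))) (nd (nat_lit 317) (nat_lit 0) (cs (lf (nat_lit 44) (nat_lit 228)) (rf (nat_lit 16)))))))) (cs (nd (nat_lit 272) (nat_lit 0) (cs (lf (nat_lit 41) (nat_lit 227)) (rf (nat_lit 17)))) (cs (nd (nat_lit 272) (nat_lit 0) (cs (rf (nat_lit 17)) (cs (rf (nat_lit 18)) (rf (nat_lit 19))))) (cs (nd (nat_lit 272) (nat_lit 0) (cs (lf (nat_lit 41) (nat_lit 227)) (nd (nat_lit 229) (nat_lit 0) (cs (lf (nat_lit 30) (nat_lit 228)) (nd (nat_lit 205) (nat_lit 0) (cs (lf (nat_lit 46) (nat_lit 205)) (nd (nat_lit 206) (nat_lit 0) (cs (lf (nat_lit 47) (nat_lit 183)) (rf (nat_lit 20)))))))))) (cs (nd (nat_lit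 272) (nat_lit 0) (cs (lf (nat_lit 41) (nat_lit 227)) (nd (nat_lit 205) (nat_lit 0) (cs (lf (nat_lit 46) (nat_lit 205)) (nd (nat_lit 295) (nat_lit 0) (cs (lf (nat_lit 29) (nat_lit 228)) (rf (nat_lit 18)))))))) (cs (nd (nat_lit 272) (nat_lit 0) (cs (lf (nat_lit 41) (nat_lit 227)) (nd (nat_lit 295) (nat_lit 0) (cs (lf (nat_lit 29) (nat_lit 228)) (nd (nat_lit 273) (nat_lit 0) (cs (lf (nat_lit 24) (nat_lit 206)) (rf (nat_lit 21)))))))) (nd (nat_lit 272) (nat_lit 0) (cs (lf (nat_lit 41) (nat_lit 227)) (rf (nat_lit 19)))))))))))))) (cs (nd (nat_lit 273) (nat_lit 0) (cs (rf (nat_lit 22)) (cs (rf (nat_lit 23)) (rf (nat_lit 24))))) (cs (nd (nat_lit 249) (nat_lit 0) (cs (rf (nat_lit 25)) (cs (rf (nat_lit 26)) (cs (rf (nat_lit 27)) (nd (nat_lit 273) (nat_lit 0) (cs (rf (nat_lit 24)) (cs (nd (nat_lit 295) (nat_lit 0) (cs (rf (nat_lit 28)) (cs (rf (nat_lit 29)) (nd (nat_lit 272) (nat_lit 0) (cs (lf (nat_lit 19) (nat_lit 249)) (nd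 (nat_lit 228) (nat_lit 0) (cs (lf (nat_lit 24) (nat_lit 206)) (rf (nat_lit 30))))))))) (nd (nat_lit 248) (nat_lit 0) (cs (rf (nat_lit 31)) (lf (nat_lit 5) (nat_lit 248))))))))))) (cs (rf (nat_lit 32)) (rf (nat_lit 33)))))))) q58794 (by decide +kernel)
def q58807 : Q := Q.p (nat_lit 0x20000080000600000000000000000000000000000000000000000000000000000000000000) (nat_lit 0x140000700003c00001c000100000000000800000000000000000000000000000000000000000000000000000000) (nat_lit 6)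
theorem c58807 : QOK q58807 := cut [q54931, q56929, q56973] ⟨c54931, c56929, c56973, trivial⟩ (nd (nat_lit 315) (nat_lit 0) (cs (rf (nat_lit 0)) (cs (rf (nat_lit 1)) (rf (nat_lit 2))))) q58807 (by decide +kernel)
def q58818 : Q := Q.p (nat_lit 0x20000000000e00000000000000000000000000000000000000000000000000000000000000) (nat_lit 0x7f000018000070000380000e000028000000000000000000000000000000000000000) (nat_lit 9)
theorem c58818 : QOK q58818 := cut [q15305, q56417, q56448, q58817] ⟨c15305, c56417, c56448, c58817, trivial⟩ (nd (nat_lit 248) (nat_lit 0) (cs (rf (nat_lit 0)) (cs (rf (nat_lit 1)) (cs (rf (nat_lit 2)) (rf (nat_lit 3)))))) q58818 (by decide +kernel)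
def q58858 : Q := Q.p (nat_lit 0x60000800002400000000000000000000000000000000000000000000000000000000000000) (nat_lit 0x10000048000180000780001000009800026000008000000000000000000000000000000000000000000000) (nat_lit 6)
theorem c58858 : QOK q58858 := cut [q58853, q58857] ⟨c58853, c58857, trivial⟩ (nd (nat_lit 272) (nat_lit 0) (cs (rf (nat_lit 0)) (rf (nat_lit 1)))) q58858 (by decide +kernel)
def q58871 : Q := Q.p (nat_lit 0xe0000800002400000000000000000000000000000000000000000000000000000000000000) (nat_lit 0x40000700001c0000700003d000076000398000700001c0000500000000000000000000000000000000000000000000000) (nat_lit 12)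
theorem c58871 : QOK q58871 := cut [q58869] ⟨c58869, trivial⟩ (nd (nat_lit 274) (nat_lit 0) (cs (lf (nat_lit 15) (nat_lit 271)) (nd (nat_lit 276) (nat_lit 0) (cs (lf (nat_lit 9) (nat_lit 272)) (rf (nat_lit 0)))))) q58871 (by decide +kernel)
def q58881 : Q := Q.p (nat_lit 0xe0000000000000000000000000000000000000000000000000000000000000000000000000) (nat_lit 0xff000118000070000000000000000000000000000000000000000000000000000000000000000000) (nat_lit 6)
theorem c58881 : QOK q58881 := cut [q44140, q58551, q58556, q58880] ⟨c44140, c58551, c58556, c58880, trivial⟩ (nd (nat_lit 292) (nat_lit 0) (cs (rf (nat_lit 0)) (cs (rf (nat_lit 1)) (cs (rf (nat_lit 2)) (rf (nat_lit 3)))))) q58881 (by decide +kernel)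
def q58883 : Q := Q.p (nat_lit 0x40000900002400000000010000000000000000000000000000000000000000000000000000) (nat_lit 0xa0000380000e00001000010000168000180001b8000200000c0000000000000000000000000000000000000000000000) (nat_lit 8)
theorem c58883 : QOK q58883 := cut [q58475, q58571] ⟨c58475, c58571, trivial⟩ (nd (nat_lit 251) (nat_lit 0) (cs (nd (nat_lit 252) (nat_lit 0) (cs (lf (nat_lit 5) (nat_lit 250)) (nd (nat_lit 271) (nat_lit 0) (cs (lf (nat_lit 10) (nat_lit 249)) (rf (nat_lit 0)))))) (rf (nat_lit 1)))) q58883 (by decide +kernel)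
def q58910 : Q := Q.p (nat_lit 0x60000900002400000000000000000000000000000000000000000000000000000000000000) (nat_lit 0x40000300000e000078000018001080001800002000000000000000000000000000000000000000000000000000000000) (nat_lit 6)
theorem c58910 : QOK q58910 := cut [q23069, q58889, q58909] ⟨c23069, c58889, c58909, trivial⟩ (nd (nat_lit 316) (nat_lit 0) (cs (rf (nat_lit 0)) (cs (rf (nat_lit 1)) (rf (nat_lit 2))))) q58910 (by decide +kernel)
def q58938 : Q := Q.p (nat_lit 0x20000080000600000000000000000000000000000000000000000000000000000000000000) (nat_lit 0x700001c000000000070000900001400000000000000000000000000000000000000000000000000000000) (nat_lit 7)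
theorem c58938 : QOK q58938 := cut [q58937] ⟨c58937, trivial⟩ (nd (nat_lit 315) (nat_lit 0) (cs (lf (nat_lit 35) (nat_lit 227)) (rf (nat_lit 0)))) q58938 (by decide +kernel)
def q58939 : Q := Q.p (nat_lit 0x20000080000600000000000000000000000000000000000000000000000000000000000000) (nat_lit 0x700003c00001c000070000900000c00000000000000000000000000000000000000000000000000000000) (nat_lit 6)
theorem c58939 : QOK q58939 := cut [q54931, q58935] ⟨c54931, c58935, trivial⟩ (nd (nat_lit 315) (nat_lit 0) (cs (rf (nat_lit 0)) (rf (nat_lit 1)))) q58939 (by decide +kernel)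
def q59041 : Q := Q.p (nat_lit 0x20000080000600000000000000000000000000000000000000000000000000000000000000) (nat_lit 0x100000600001c00007c0007e0001dc000660001800002c00003000004000000000000000000000000000000000000000000000) (nat_lit 11)
theorem c59041 : QOK q59041 := cut [q59012, q59015, q59018, q59020, q59029, q59038] ⟨c59012, c59015, c59018, c59020, c59029, c59038, trivial⟩ (nd (nat_lit 316) (nat_lit 0) (cs (rf (nat_lit 0)) (cs (rf (nat_lit 1)) (cs (rf (nat_lit 2)) (nd (nat_lit 315) (nat_lit 0) (cs (lf (nat_lit 29) (nat_lit 249)) (nd (nat_lit 292) (nat_lit 0) (cs (rf (nat_lit 3)) (cs (nd (nat_lit 314) (nat_lit 0) (cs (lf (nat_lit 41) (nat_lit 248)) (nd (nat_lit 317) (nat_lit 0) (cs (lf (nat_lit 18) (nat_lit 292)) (nd (nat_lit 295) (nat_lit 0) (cs (lf (nat_lit 17) (nat_lit 292)) (nd (nat_lit 294) (nat_lit 0) (cs (lf (nat_lit 12) (nat_lit 291)) (nd (nat_lit 270) (nat_lit 0) (cs (lf (nat_lit 23) (nat_lit 269)) (nd (nat_lit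 251) (nat_lit 0) (cs (lf (nat_lit 6) (nat_lit 248)) (nd (nat_lit 273) (nat_lit 0) (cs (lf (nat_lit 36) (nat_lit 228)) (lf (nat_lit 17) (nat_lit 270)))))))))))))))) (cs (rf (nat_lit 4)) (rf (nat_lit 5)))))))))))) q59041 (by decide +kernel)
def q59047 : Q := Q.p (nat_lit 0x20000800002600000000010000000000000000000000000000000000000000000000000000) (nat_lit 0x1000016f00019c001bf0002780005e000028000000000000000000000000000000000000000) (nat_lit 10)
theorem c59047 : QOK q59047 := cut [q57623, q58793, q15305, q58817, q58841, q59045] ⟨c57623, c58793, c15305, c58817, c58841, c59045, trivial⟩ (nd (nat_lit 251) (nat_lit 0) (cs (rf (nat_lit 0)) (cs (rf (nat_lit 1)) (nd (nat_lit 248) (nat_lit 0) (cs (rf (nat_lit 2)) (cs (rf (nat_lit 3)) (cs (rf (nat_lit 4)) (rf (nat_lit 5))))))))) q59047 (by decide +kernel)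
def q59107 : Q := Q.p (nat_lit 0x20000800002700000000000000000000000000000000000000000000000000000000000000) (nat_lit 0x1140007f0001dc0016b000188000b700021000000000000000000000000000000000000000000000000000) (nat_lit 13)
theorem c59107 : QOK q59107 := cut [q59070, q59081, q59084, q49066, q48874, q59099, q59106] ⟨c59070, c59081, c59084, c49066, c48874, c59099, c59106, trivial⟩ (nd (nat_lit 225) (nat_lit 0) (cs (nd (nat_lit 247) (nat_lit 0) (cs (lf (nat_lit 23) (nat_lit 224)) (nd (nat_lit 269) (nat_lit 0) (cs (lf (nat_lit 11) (nat_lit 246)) (nd (nat_lit 315) (nat_lit 0) (cs (nd (nat_lit 228) (nat_lit 0) (cs (lf (nat_lit 17) (nat_lit 225)) (lf (nat_lit 32) (nat_lit 227)))) (cs (nd (nat_lit 291) (nat_lit 0) (cs (rf (nat_lit 0)) (cs (rf (nat_lit 1)) (cs (rf (nat_lit 2)) (nd (nat_lit 314) (nat_lit 0) (cs (lf (nat_lit 28) (nat_lit 225)) (nd (nat_lit 336) (nat_lit 0) (cs (lf (nat_lit 37) (nat_lit 248)) (lf (nat_lit 27) (nat_lit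 247)))))))))) (nd (nat_lit 291) (nat_lit 0) (cs (rf (nat_lit 0)) (cs (rf (nat_lit 1)) (cs (rf (nat_lit 2)) (cs (nd (nat_lit 292) (nat_lit 0) (cs (lf (nat_lit 29) (nat_lit 225)) (nd (nat_lit 316) (nat_lit 0) (cs (lf (nat_lit 0) (nat_lit 290)) (rf (nat_lit 3)))))) (nd (nat_lit 228) (nat_lit 0) (cs (lf (nat_lit 17) (nat_lit 225)) (nd (nat_lit 314) (nat_lit 0) (cs (lf (nat_lit 28) (nat_lit 225)) (nd (nat_lit 313) (nat_lit 0) (cs (lf (nat_lit 29) (nat_lit 247)) (rf (nat_lit 4)))))))))))))))))))) (cs (nd (nat_lit 315) (nat_lit 0) (cs (nd (nat_lit 271) (nat_lit 0) (cs (lf (nat_lit 47) (nat_lit 226)) (lf (nat_lit 35) (nat_lit 227)))) (cs (nd (nat_lit 247) (nat_lit 0) (cs (lf (nat_lit 23) (nat_lit 224)) (nd (nat_lit 269) (nat_lit 0) (cs (lf (nat_lit 11) (nat_lit 246)) (nd (nat_lit 291) (nat_lit 0) (cs (rf (nat_lit 0)) (rf (nat_lit 5)))))))) (nd (nat_lit 228) (nat_lit 0) (cs (lf (nat_lit 32) (nat_lit 227)) (nd (nat_lit 247) (nat_lit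 0) (cs (lf (nat_lit 23) (nat_lit 224)) (lf (nat_lit 17) (nat_lit 225))))))))) (rf (nat_lit 6))))) q59107 (by decide +kernel)
def q59220 : Q := Q.p (nat_lit 0x20000000000700000000000000000000000000000000000000000000000000000000000000) (nat_lit 0xc0001700007c0001fe000df0000fe0000e00037c0007e0003f000014000040000000000000000000000000000000000) (nat_lit 14)
theorem c59220 : QOK q59220 := cut [q54918, q59009, q45262, q59051, q59057, q57077, q50162, q59140, q59145, q59172, q59174, q49593, q59189, q59218] ⟨c54918, c59009, c45262, c59051, c59057, c57077, c50162, c59140, c59145, c59172, c59174, c49593, c59189, c59218, trivial⟩ (nd (nat_lit 271) (nat_lit 0) (cs (rf (nat_lit 0)) (cs (rf (nat_lit 1)) (nd (nat_lit 247) (nat_lit 0) (cs (rf (nat_lit 2)) (cs (rf (nat_lit 3)) (cs (rf (nat_lit 4)) (cs (nd (nat_lit 225) (nat_lit 0) (cs (lf (nat_lit 23) (nat_lit 224)) (nd (nat_lit 270) (nat_lit 0) (cs (rf (nat_lit 5)) (cs (nd (nat_lit 204)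 (nat_lit 0) (cs (lf (nat_lit 25) (nat_lit 204)) (nd (nat_lit 228) (nat_lit 0) (cs (lf (nat_lit 17) (nat_lit 225)) (nd (nat_lit 184) (nat_lit 0) (cs (lf (nat_lit 37) (nat_lit 183)) (nd (nat_lit 245) (nat_lit 0) (cs (lf (nat_lit 1) (nat_lit 245)) (nd (nat_lit 203) (nat_lit 0) (cs (lf (nat_lit 24) (nat_lit 181)) (nd (nat_lit 182) (nat_lit 0) (cs (lf (nat_lit 30) (nat_lit 181)) (nd (nat_lit 138) (nat_lit 0) (cs (lf (nat_lit 37) (nat_lit 137)) (nd (nat_lit 183) (nat_lit 0) (cs (lf (nat_lit 6) (nat_lit 181)) (rf (nat_lit 6)))))))))))))))))) (cs (nd (nat_lit 292) (nat_lit 0) (cs (lf (nat_lit 42) (nat_lit 225)) (nd (nat_lit 226) (nat_lit 0) (cs (lf (nat_lit 24) (nat_lit 204)) (nd (nat_lit 228) (nat_lit 0) (cs (lf (nat_lit 17) (nat_lit 225)) (nd (nat_lit 184) (nat_lit 0) (cs (lf (nat_lit 37) (nat_lit 183)) (nd (nat_lit 291) (nat_lit 0) (cs (lf (nat_lit 41) (nat_lit 225)) (nd (nat_lit 290) (nat_lit 0) (cs (lf (nat_lit 12) (nat_lit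 267)) (nd (nat_lit 312) (nat_lit 0) (cs (lf (nat_lit 11) (nat_lit 289)) (lf (nat_lit 38) (nat_lit 224)))))))))))))))) (nd (nat_lit 245) (nat_lit 0) (cs (lf (nat_lit 1) (nat_lit 245)) (rf (nat_lit 7)))))))))) (cs (nd (nat_lit 269) (nat_lit 0) (cs (lf (nat_lit 11) (nat_lit 246)) (nd (nat_lit 291) (nat_lit 0) (cs (rf (nat_lit 8)) (cs (rf (nat_lit 9)) (cs (nd (nat_lit 228) (nat_lit 0) (cs (lf (nat_lit 17) (nat_lit 225)) (nd (nat_lit 184) (nat_lit 0) (cs (lf (nat_lit 37) (nat_lit 183)) (rf (nat_lit 10)))))) (nd (nat_lit 313) (nat_lit 0) (cs (rf (nat_lit 11)) (cs (nd (nat_lit 314) (nat_lit 0) (cs (lf (nat_lit 29) (nat_lit 247)) (nd (nat_lit 292) (nat_lit 0) (cs (lf (nat_lit 24) (nat_lit 225)) (nd (nat_lit 228) (nat_lit 0) (cs (lf (nat_lit 17) (nat_lit 225)) (nd (nat_lit 184) (nat_lit 0) (cs (lf (nat_lit 37) (nat_lit 183)) (nd (nat_lit 294) (nat_lit 0) (cs (lf (nat_lit 6) (nat_lit 291)) (nd (nat_lit 335) (nat_lit 0) (cs (nd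 (nat_lit 356) (nat_lit 0) (cs (lf (nat_lit 40) (nat_lit 268)) (nd (nat_lit 357) (nat_lit 0) (cs (lf (nat_lit 41) (nat_lit 290)) (lf (nat_lit 30) (nat_lit 291)))))) (lf (nat_lit 37) (nat_lit 247)))))))))))))) (cs (rf (nat_lit 12)) (nd (nat_lit 270) (nat_lit 0) (cs (lf (nat_lit 30) (nat_lit 247)) (nd (nat_lit 245) (nat_lit 0) (cs (lf (nat_lit 1) (nat_lit 245)) (nd (nat_lit 314) (nat_lit 0) (cs (lf (nat_lit 29) (nat_lit 247)) (nd (nat_lit 292) (nat_lit 0) (cs (lf (nat_lit 47) (nat_lit 225)) (nd (nat_lit 294) (nat_lit 0) (cs (lf (nat_lit 11) (nat_lit 290)) (lf (nat_lit 18) (nat_lit 269)))))))))))))))))))))) (rf (nat_lit 13))))))))))) q59220 (by decide +kernel)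
def q59363 : Q := Q.p (nat_lit 0xc000020000080000200000000000000000000000000000000000000000000000000000000000000) (nat_lit 0x3ce000730001de000000000100000400000000000000000000000000000000000000000000000000000000) (nat_lit 9)
theorem c59363 : QOK q59363 := cut [q59352, q59360, q59362] ⟨c59352, c59360, c59362, trivial⟩ (nd (nat_lit 313) (nat_lit 0) (cs (nd (nat_lit 226) (nat_lit 0) (cs (lf (nat_lit 46) (nat_lit 226)) (rf (nat_lit 0)))) (cs (rf (nat_lit 1)) (rf (nat_lit 2))))) q59363 (by decide +kernel)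
def q59470 : Q := Q.p (nat_lit 0x20000800002400000000010000000000000000000000000000000000000000000000000000) (nat_lit 0x100001c0000f70001d80017f0001b8001be000278000d2000008000000000000000000000000000000000000000) (nat_lit 15)
theorem c59470 : QOK q59470 := cut [q15333, q58791, q58793, q58844, q15267, q58479, q14478, q56401, q58768, q58761, q59438, q56379, q58489, q59459] ⟨c15333, c58791, c58793, c58844, c15267, c58479, c14478, c56401, c58768, c58761, c59438, c56379, c58489, c59459, trivial⟩ (nd (nat_lit 251) (nat_lit 0) (cs (rf (nat_lit 0)) (cs (rf (nat_lit 1)) (cs (rf (nat_lit 2)) (cs (rf (nat_lit 3)) (nd (nat_lit 273) (nat_lit 0) (cs (rf (nat_lit 4)) (cs (rf (nat_lit 5)) (nd (nat_lit 295) (nat_lit 0) (cs (rf (nat_lit 6)) (cs (rf (nat_lit 7)) (cs (rf (nat_lit 8)) (nd (nat_lit 294) (nat_lit 0) (cs (rf (nat_lit 9)) (cs (rf (nat_lit 10)) (cs (nd (nat_lit 270) (nat_lit 0) (cs (rf (nat_lit 11)) (nd (nat_lit 296) (nat_lit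 0) (cs (lf (nat_lit 22) (nat_lit 270)) (rf (nat_lit 12)))))) (nd (nat_lit 272) (nat_lit 0) (cs (nd (nat_lit 316) (nat_lit 0) (cs (lf (nat_lit 30) (nat_lit 250)) (nd (nat_lit 249) (nat_lit 0) (cs (lf (nat_lit 47) (nat_lit 227)) (nd (nat_lit 248) (nat_lit 0) (cs (lf (nat_lit 0) (nat_lit 247)) (nd (nat_lit 226) (nat_lit 0) (cs (lf (nat_lit 23) (nat_lit 225)) (nd (nat_lit 270) (nat_lit 0) (cs (lf (nat_lit 11) (nat_lit 247)) (nd (nat_lit 271) (nat_lit 0) (cs (lf (nat_lit 24) (nat_lit 204)) (lf (nat_lit 18) (nat_lit 270)))))))))))))) (cs (nd (nat_lit 316) (nat_lit 0) (cs (lf (nat_lit 30) (nat_lit 250)) (nd (nat_lit 227) (nat_lit 0) (cs (lf (nat_lit 46) (nat_lit 227)) (nd (nat_lit 228) (nat_lit 0) (cs (lf (nat_lit 24) (nat_lit 206)) (lf (nat_lit 47) (nat_lit 205)))))))) (cs (nd (nat_lit 228) (nat_lit 0) (cs (lf (nat_lit 24) (nat_lit 206)) (nd (nat_lit 292) (nat_lit 0) (cs (lf (nat_lit 12) (nat_lit 269)) (nd (nat_lit 227) (nat_lit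 0) (cs (lf (nat_lit 47) (nat_lit 205)) (nd (nat_lit 313) (nat_lit 0) (cs (lf (nat_lit 10) (nat_lit 291)) (nd (nat_lit 226) (nat_lit 0) (cs (lf (nat_lit 0) (nat_lit 225)) (nd (nat_lit 270) (nat_lit 0) (cs (lf (nat_lit 23) (nat_lit 269)) (nd (nat_lit 271) (nat_lit 0) (cs (lf (nat_lit 5) (nat_lit 270)) (nd (nat_lit 248) (nat_lit 0) (cs (lf (nat_lit 23) (nat_lit 247)) (lf (nat_lit 24) (nat_lit 204)))))))))))))))))) (nd (nat_lit 292) (nat_lit 0) (cs (lf (nat_lit 12) (nat_lit 269)) (nd (nat_lit 316) (nat_lit 0) (cs (lf (nat_lit 30) (nat_lit 250)) (nd (nat_lit 313) (nat_lit 0) (cs (lf (nat_lit 10) (nat_lit 291)) (nd (nat_lit 270) (nat_lit 0) (cs (lf (nat_lit 23) (nat_lit 269)) (nd (nat_lit 206) (nat_lit 0) (cs (lf (nat_lit 25) (nat_lit 206)) (nd (nat_lit 271) (nat_lit 0) (cs (lf (nat_lit 5) (nat_lit 270)) (rf (nat_lit 13)))))))))))))))))))))))))))))))))) q59470 (by decide +kernel)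
def q59491 : Q := Q.p (nat_lit 0x20000800002400000000010000000000000000000000000000000000000000000000000000) (nat_lit 0x100000d00007c0007f0000fc0001c00017c0001b0001bc000250000d0000000000000000000000000000000000000000000000) (nat_lit 15)
theorem c59491 : QOK q59491 := cut [q58508, q1996, q58510, q58513, q58521, q58791, q58793, q15267, q14478, q56369, q25568, q58483, q58494, q58497, q58761, q58499] ⟨c58508, c1996, c58510, c58513, c58521, c58791, c58793, c15267, c14478, c56369, c25568, c58483, c58494, c58497, c58761, c58499, trivial⟩ (nd (nat_lit 251) (nat_lit 0) (cs (rf (nat_lit 0)) (cs (nd (nat_lit 271) (nat_lit 0) (cs (nd (nat_lit 252) (nat_lit 0) (cs (rf (nat_lit 1)) (lf (nat_lit 10) (nat_lit 249)))) (cs (rf (nat_lit 2)) (cs (nd (nat_lit 249) (nat_lit 0) (cs (nd (nat_lit 252) (nat_lit 0) (cs (lf (nat_lit 4) (nat_lit 249)) (lf (nat_lit 11) (nat_lit 248)))) (rf (nat_lit 3)))) (rf (nat_lit 4)))))) (cs (rf (nat_lit 5))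 (cs (rf (nat_lit 6)) (nd (nat_lit 273) (nat_lit 0) (cs (rf (nat_lit 7)) (cs (nd (nat_lit 295) (nat_lit 0) (cs (rf (nat_lit 8)) (cs (rf (nat_lit 9)) (nd (nat_lit 274) (nat_lit 0) (cs (lf (nat_lit 18) (nat_lit 250)) (nd (nat_lit 248) (nat_lit 0) (cs (lf (nat_lit 1) (nat_lit 248)) (nd (nat_lit 296) (nat_lit 0) (cs (lf (nat_lit 13) (nat_lit 271)) (nd (nat_lit 318) (nat_lit 0) (cs (lf (nat_lit 30) (nat_lit 252)) (lf (nat_lit 24) (nat_lit 229))))))))))))) (cs (nd (nat_lit 274) (nat_lit 0) (cs (lf (nat_lit 18) (nat_lit 250)) (nd (nat_lit 294) (nat_lit 0) (cs (lf (nat_lit 9) (nat_lit 271)) (nd (nat_lit 295) (nat_lit 0) (cs (lf (nat_lit 15) (nat_lit 271)) (nd (nat_lit 228) (nat_lit 0) (cs (lf (nat_lit 42) (nat_lit 228)) (nd (nat_lit 229) (nat_lit 0) (cs (lf (nat_lit 47) (nat_lit 206)) (lf (nat_lit 41) (nat_lit 228)))))))))))) (nd (nat_lit 228) (nat_lit 0) (cs (rf (nat_lit 10)) (cs (rf (nat_lit 11)) (nd (nat_lit 294) (nat_lit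 0) (cs (rf (nat_lit 12)) (cs (rf (nat_lit 13)) (cs (nd (nat_lit 295) (nat_lit 0) (cs (lf (nat_lit 42) (nat_lit 228)) (nd (nat_lit 229) (nat_lit 0) (cs (lf (nat_lit 41) (nat_lit 228)) (nd (nat_lit 296) (nat_lit 0) (cs (lf (nat_lit 29) (nat_lit 229)) (nd (nat_lit 271) (nat_lit 0) (cs (lf (nat_lit 23) (nat_lit 270)) (nd (nat_lit 315) (nat_lit 0) (cs (lf (nat_lit 11) (nat_lit 292)) (lf (nat_lit 33) (nat_lit 227)))))))))))) (cs (nd (nat_lit 295) (nat_lit 0) (cs (lf (nat_lit 42) (nat_lit 228)) (rf (nat_lit 14)))) (nd (nat_lit 272) (nat_lit 0) (cs (lf (nat_lit 41) (nat_lit 227)) (rf (nat_lit 15))))))))))))))))))))) q59491 (by decide +kernel)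
def q59500 : Q := Q.p (nat_lit 0x60000980000400000000000000000000000000000000000000000000000000000000000000) (nat_lit 0x100000180006000003c0001f00007000000000000000000000000000000000000000000000000000) (nat_lit 9)
theorem c59500 : QOK q59500 := cut [q59498] ⟨c59498, trivial⟩ (nd (nat_lit 273) (nat_lit 0) (cs (lf (nat_lit 7) (nat_lit 271)) (nd (nat_lit 291) (nat_lit 0) (cs (lf (nat_lit 13) (nat_lit 269)) (rf (nat_lit 0)))))) q59500 (by decide +kernel)
def q59559 : Q := Q.p (nat_lit 0x60000180000400000000000000000000000000000000000000000000000000000000000000) (nat_lit 0xc0000f700009c0000700003c0000f00003c00008000000000000000000000000000000000000000000000) (nat_lit 12)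
theorem c59559 : QOK q59559 := cut [q23133, q47470, q46587] ⟨c23133, c47470, c46587, trivial⟩ (nd (nat_lit 249) (nat_lit 0) (cs (rf (nat_lit 0)) (cs (rf (nat_lit 1)) (nd (nat_lit 227) (nat_lit 0) (cs (lf (nat_lit 24) (nat_lit 205)) (nd (nat_lit 204) (nat_lit 0) (cs (lf (nat_lit 46) (nat_lit 204)) (rf (nat_lit 2))))))))) q59559 (by decide +kernel)
def q59689 : Q := Q.p (nat_lit 0x20000980002400000000000000000000000000000000000000000000000000000000000000) (nat_lit 0x1780005f0006780013f0003f00007c0001c000060000000000000000000000000000000000000000) (nat_lit 12)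
theorem c59689 : QOK q59689 := cut [q59580, q59656, q59657, q52037, q52380, q52044, q47441, q57492, q58797, q58804, q59684, q56561, q56963, q56969] ⟨c59580, c59656, c59657, c52037, c52380, c52044, c47441, c57492, c58797, c58804, c59684, c56561, c56963, c56969, trivial⟩ (nd (nat_lit 227) (nat_lit 0) (cs (rf (nat_lit 0)) (cs (rf (nat_lit 1)) (cs (nd (nat_lit 292) (nat_lit 0) (cs (rf (nat_lit 2)) (cs (nd (nat_lit 247) (nat_lit 0) (cs (nd (nat_lit 273) (nat_lit 0) (cs (lf (nat_lit 6) (nat_lit 270)) (rf (nat_lit 3)))) (cs (nd (nat_lit 273) (nat_lit 0) (cs (lf (nat_lit 6) (nat_lit 270)) (nd (nat_lit 248) (nat_lit 0) (cs (lf (nat_lit 21) (nat_lit 247)) (nd (nat_lit 228) (nat_lit 0) (cs (lf (nat_lit 36) (nat_lit 205)) (rf (nat_lit 4)))))))) (cs (nd (nat_lit 228) (nat_lit 0) (cs (lf (nat_lit 36) (nat_lit 205)) (nd (nat_lit 273) (nat_lit 0) (cs (lf (nat_lit 6) (nat_lit 270)) (nd (nat_lit 249) (nat_lit 0) (cs (lf (nat_lit 41)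 (nat_lit 226)) (nd (nat_lit 294) (nat_lit 0) (cs (lf (nat_lit 42) (nat_lit 227)) (rf (nat_lit 5)))))))))) (nd (nat_lit 249) (nat_lit 0) (cs (lf (nat_lit 41) (nat_lit 226)) (nd (nat_lit 294) (nat_lit 0) (cs (lf (nat_lit 42) (nat_lit 227)) (nd (nat_lit 246) (nat_lit 0) (cs (lf (nat_lit 2) (nat_lit 246)) (nd (nat_lit 269) (nat_lit 0) (cs (lf (nat_lit 20) (nat_lit 246)) (nd (nat_lit 228) (nat_lit 0) (cs (lf (nat_lit 35) (nat_lit 205)) (nd (nat_lit 226) (nat_lit 0) (cs (lf (nat_lit 47) (nat_lit 204)) (lf (nat_lit 9) (nat_lit 224)))))))))))))))))) (nd (nat_lit 291) (nat_lit 0) (cs (lf (nat_lit 12) (nat_lit 268)) (nd (nat_lit 206) (nat_lit 0) (cs (lf (nat_lit 37) (nat_lit 205)) (nd (nat_lit 249) (nat_lit 0) (cs (lf (nat_lit 41) (nat_lit 226)) (nd (nat_lit 226) (nat_lit 0) (cs (lf (nat_lit 47) (nat_lit 204)) (nd (nat_lit 224) (nat_lit 0) (cs (lf (nat_lit 1) (nat_lit 224)) (nd (nat_lit 294) (nat_lit 0) (cs (lf (nat_lit 29) (nat_lit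 227)) (nd (nat_lit 269) (nat_lit 0) (cs (lf (nat_lit 23) (nat_lit 268)) (rf (nat_lit 6))))))))))))))))))) (cs (nd (nat_lit 249) (nat_lit 0) (cs (rf (nat_lit 7)) (cs (rf (nat_lit 8)) (cs (rf (nat_lit 9)) (nd (nat_lit 206) (nat_lit 0) (cs (lf (nat_lit 37) (nat_lit 205)) (nd (nat_lit 204) (nat_lit 0) (cs (lf (nat_lit 46) (nat_lit 204)) (rf (nat_lit 10)))))))))) (nd (nat_lit 249) (nat_lit 0) (cs (rf (nat_lit 11)) (cs (nd (nat_lit 292) (nat_lit 0) (cs (lf (nat_lit 41) (nat_lit 226)) (nd (nat_lit 291) (nat_lit 0) (cs (rf (nat_lit 12)) (cs (nd (nat_lit 226) (nat_lit 0) (cs (lf (nat_lit 47) (nat_lit 204)) (nd (nat_lit 294) (nat_lit 0) (cs (lf (nat_lit 29) (nat_lit 227)) (nd (nat_lit 272) (nat_lit 0) (cs (lf (nat_lit 17) (nat_lit 269)) (nd (nat_lit 269) (nat_lit 0) (cs (lf (nat_lit 23) (nat_lit 268)) (nd (nat_lit 224) (nat_lit 0) (cs (lf (nat_lit 1) (nat_lit 224)) (rf (nat_lit 6)))))))))))) (rf (nat_lit 13))))))) (rf (nat_lit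 8)))))))))) q59689 (by decide +kernel)
def q59778 : Q := Q.p (nat_lit 0x20000080000400000000000000000000000000000000000000000000000000000000000000) (nat_lit 0x200000d00007c0001fc0007f000050000040000300001c00001000000000000000000000000000000000000000000000000000) (nat_lit 12)
theorem c59778 : QOK q59778 := cut [q58518, q59771, q59776, q59777] ⟨c58518, c59771, c59776, c59777, trivial⟩ (nd (nat_lit 315) (nat_lit 0) (cs (rf (nat_lit 0)) (cs (rf (nat_lit 1)) (cs (rf (nat_lit 2)) (rf (nat_lit 3)))))) q59778 (by decide +kernel)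
def q59825 : Q := Q.p (nat_lit 0x20000080000400000000000000000000000000000000000000000000000000000000000000) (nat_lit 0x500001c0000700000c000010000100000300001c00005000000000000000000000000000000000000000000000000000) (nat_lit 6)
theorem c59825 : QOK q59825 := cut [q56985, q58520, q59777] ⟨c56985, c58520, c59777, trivial⟩ (nd (nat_lit 315) (nat_lit 0) (cs (rf (nat_lit 0)) (cs (rf (nat_lit 1)) (rf (nat_lit 2))))) q59825 (by decide +kernel)
def q59829 : Q := Q.p (nat_lit 0x20000080000400000000000000000000000000000000000000000000000000000000000000) (nat_lit 0x200000d00007c0001fc0007f000050000140000300001000004000000000000000000000000000000000000000000000000000) (nat_lit 12)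
theorem c59829 : QOK q59829 := cut [q56985, q59771, q59828] ⟨c56985, c59771, c59828, trivial⟩ (nd (nat_lit 315) (nat_lit 0) (cs (rf (nat_lit 0)) (cs (rf (nat_lit 1)) (rf (nat_lit 2))))) q59829 (by decide +kernel)
def q59830 : Q := Q.p (nat_lit 0x20000080000400000000000000000000000000000000000000000000000000000000000000) (nat_lit 0x40000300000c000050000140000300001c00005000000000000000000000000000000000000000000000000000) (nat_lit 6)
theorem c59830 : QOK q59830 := cut [q59772, q59777, q59823] ⟨c59772, c59777, c59823, trivial⟩ (nd (nat_lit 315) (nat_lit 0) (cs (rf (nat_lit 0)) (cs (rf (nat_lit 1)) (rf (nat_lit 2))))) q59830 (by decide +kernel)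
def q59931 : Q := Q.p (nat_lit 0x20000080002400000000000000000000000000000000000000000000000000000000000000) (nat_lit 0xd8000360001dc00037c001be0003f80007c00017000010000000000000000000000000000000000000000) (nat_lit 14)
theorem c59931 : QOK q59931 := cut [q57492, q58932, q59005, q59321, q59879, q40967, q52073, q59855, q59051, q58827, q59910, q59914, q59917, q59913, q59916, q59922, q57008, q59927] ⟨c57492, c58932, c59005, c59321, c59879, c40967, c52073, c59855, c59051, c58827, c59910, c59914, c59917, c59913, c59916, c59922, c57008, c59927, trivial⟩ (nd (nat_lit 249) (nat_lit 0) (cs (nd (nat_lit 227) (nat_lit 0) (cs (rf (nat_lit 0)) (rf (nat_lit 1)))) (cs (rf (nat_lit 2)) (cs (rf (nat_lit 3)) (cs (nd (nat_lit 270) (nat_lit 0) (cs (rf (nat_lit 4)) (cs (nd (nat_lit 248) (nat_lit 0) (cs (nd (nat_lit 226) (nat_lit 0) (cs (lf (nat_lit 24) (nat_lit 204)) (nd (nat_lit 251) (nat_lit 0) (cs (lf (nat_lit 23) (nat_lit 225)) (lf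 (nat_lit 6) (nat_lit 248)))))) (cs (nd (nat_lit 272) (nat_lit 0) (cs (rf (nat_lit 5)) (cs (nd (nat_lit 247) (nat_lit 0) (cs (lf (nat_lit 0) (nat_lit 246)) (rf (nat_lit 6)))) (nd (nat_lit 292) (nat_lit 0) (cs (rf (nat_lit 7)) (nd (nat_lit 206) (nat_lit 0) (cs (lf (nat_lit 37) (nat_lit 205)) (nd (nat_lit 251) (nat_lit 0) (cs (lf (nat_lit 7) (nat_lit 249)) (nd (nat_lit 204) (nat_lit 0) (cs (lf (nat_lit 25) (nat_lit 204)) (nd (nat_lit 314) (nat_lit 0) (cs (lf (nat_lit 30) (nat_lit 248)) (nd (nat_lit 313) (nat_lit 0) (cs (lf (nat_lit 41) (nat_lit 247)) (nd (nat_lit 294) (nat_lit 0) (cs (lf (nat_lit 6) (nat_lit 291)) (nd (nat_lit 316) (nat_lit 0) (cs (lf (nat_lit 35) (nat_lit 228)) (lf (nat_lit 42) (nat_lit 249))))))))))))))))))))) (nd (nat_lit 247) (nat_lit 0) (cs (rf (nat_lit 8)) (nd (nat_lit 272) (nat_lit 0) (cs (lf (nat_lit 18) (nat_lit 247)) (rf (nat_lit 6))))))))) (cs (nd (nat_lit 251) (nat_lit 0) (cs (lf (nat_lit 6)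 (nat_lit 248)) (nd (nat_lit 269) (nat_lit 0) (cs (lf (nat_lit 15) (nat_lit 247)) (lf (nat_lit 9) (nat_lit 247)))))) (cs (nd (nat_lit 251) (nat_lit 0) (cs (lf (nat_lit 6) (nat_lit 248)) (rf (nat_lit 9)))) (rf (nat_lit 10))))))) (cs (rf (nat_lit 11)) (cs (rf (nat_lit 12)) (cs (nd (nat_lit 227) (nat_lit 0) (cs (rf (nat_lit 0)) (cs (rf (nat_lit 13)) (cs (rf (nat_lit 14)) (nd (nat_lit 270) (nat_lit 0) (cs (rf (nat_lit 4)) (cs (rf (nat_lit 10)) (rf (nat_lit 15))))))))) (nd (nat_lit 227) (nat_lit 0) (cs (rf (nat_lit 16)) (cs (rf (nat_lit 0)) (nd (nat_lit 270) (nat_lit 0) (cs (rf (nat_lit 4)) (cs (rf (nat_lit 15)) (nd (nat_lit 204) (nat_lit 0) (cs (lf (nat_lit 46) (nat_lit 204)) (rf (nat_lit 17)))))))))))))))))) q59931 (by decide +kernel)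
def q59933 : Q := Q.p (nat_lit 0xc00002400000000010000000000000000000000000000000000000000000000000000) (nat_lit 0x100001300001b000198000200000c0000000000000000000000000000000000000000000000) (nat_lit 7)
theorem c59933 : QOK q59933 := cut [q23212, q23214, q58791] ⟨c23212, c23214, c58791, trivial⟩ (nd (nat_lit 251) (nat_lit 0) (cs (rf (nat_lit 0)) (cs (rf (nat_lit 1)) (rf (nat_lit 2))))) q59933 (by decide +kernel)
def q59938 : Q := Q.p (nat_lit 0xc00002400000000000000000000000000000000000000000000000000000000000000) (nat_lit 0x40000700001c0000700003dc00072000398000700001c0000500000000000000000000000000000000000000000000000) (nat_lit 11)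
theorem c59938 : QOK q59938 := cut [q14661, q58869, q59935] ⟨c14661, c58869, c59935, trivial⟩ (nd (nat_lit 276) (nat_lit 0) (cs (rf (nat_lit 0)) (cs (rf (nat_lit 1)) (cs (nd (nat_lit 273) (nat_lit 0) (cs (lf (nat_lit 22) (nat_lit 250)) (rf (nat_lit 2)))) (nd (nat_lit 251) (nat_lit 0) (cs (lf (nat_lit 2) (nat_lit 250)) (lf (nat_lit 21) (nat_lit 250)))))))) q59938 (by decide +kernel)
def q59990 : Q := Q.p (nat_lit 0x60000800002400000000000000000000000000000000000000000000000000000000000000) (nat_lit 0x10000040001d80007700039b00008000020000000000000000000000000000000000000000000000000000) (nat_lit 8)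
theorem c59990 : QOK q59990 := cut [q58856, q58896, q59985] ⟨c58856, c58896, c59985, trivial⟩ (nd (nat_lit 274) (nat_lit 0) (cs (rf (nat_lit 0)) (cs (rf (nat_lit 1)) (rf (nat_lit 2))))) q59990 (by decide +kernel)
def q60022 : Q := Q.p (nat_lit 0x80000600000c0000400000000000000000000000000000000000000000000000000000000000000) (nat_lit 0x1000007000190000100001b00000c0000700001c000050000000000000000000000000000000000000000) (nat_lit 8)
theorem c60022 : QOK q60022 := cut [q58806, q44099, q57009, q47483] ⟨c58806, c44099, c57009, c47483, trivial⟩ (nd (nat_lit 249) (nat_lit 0) (cs (rf (nat_lit 0)) (cs (nd (nat_lit 227) (nat_lit 0) (cs (rf (nat_lit 1)) (cs (rf (nat_lit 2)) (nd (nat_lit 295) (nat_lit 0) (cs (lf (nat_lit 18) (nat_lit 270)) (nd (nat_lit 248) (nat_lit 0) (cs (lf (nat_lit 47) (nat_lit 226)) (nd (nat_lit 205) (nat_lit 0) (cs (lf (nat_lit 28) (nat_lit 205)) (lf (nat_lit 36) (nat_lit 182))))))))))) (nd (nat_lit 295)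 (nat_lit 0) (cs (lf (nat_lit 18) (nat_lit 270)) (nd (nat_lit 251) (nat_lit 0) (cs (lf (nat_lit 6) (nat_lit 248)) (nd (nat_lit 314) (nat_lit 0) (cs (lf (nat_lit 41) (nat_lit 248)) (rf (nat_lit 3))))))))))) q60022 (by decide +kernel)
def q60204 : Q := Q.p (nat_lit 0x60000980002400000000010000000000000000000000000000000000000000000000000000) (nat_lit 0x200001c0000700003c0000f00011c000670001ac0008300020400040000000000000000000000000000000000000000000000) (nat_lit 13)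
theorem c60204 : QOK q60204 := cut [q60164, q15653, q49144, q60165, q60168, q60172, q60189] ⟨c60164, c15653, c49144, c60165, c60168, c60172, c60189, trivial⟩ (nd (nat_lit 291) (nat_lit 0) (cs (rf (nat_lit 0)) (cs (nd (nat_lit 274) (nat_lit 0) (cs (lf (nat_lit 8) (nat_lit 271)) (nd (nat_lit 315) (nat_lit 0) (cs (lf (nat_lit 30) (nat_lit 249)) (nd (nat_lit 209) (nat_lit 0) (cs (rf (nat_lit 1)) (nd (nat_lit 269) (nat_lit 0) (cs (rf (nat_lit 2)) (cs (rf (nat_lit 3)) (nd (nat_lit 313) (nat_lit 0) (cs (rf (nat_lit 4)) (cs (nd (nat_lit 335) (nat_lit 0) (cs (nd (nat_lit 336) (nat_lit 0) (cs (lf (nat_lit 29) (nat_lit 269)) (nd (nat_lit 314) (nat_lit 0) (cs (lf (nat_lit 36) (nat_lit 248)) (lf (nat_lit 24) (nat_lit 247)))))) (rf (nat_lit 5)))) (cs (rf (nat_lit 6)) (nd (nat_lit 251) (nat_lit 0) (cs (lf (nat_lit 7) (nat_lit 249)) (nd (nat_lit 314) (nat_lit 0) (cs (lf (nat_lit 12) (nat_lit 290)) (nd (nat_lit 336) (nat_lit 0) (cs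 (lf (nat_lit 36) (nat_lit 248)) (nd (nat_lit 358) (nat_lit 0) (cs (lf (nat_lit 42) (nat_lit 291)) (lf (nat_lit 27) (nat_lit 269))))))))))))))))))))))) (nd (nat_lit 251) (nat_lit 0) (cs (lf (nat_lit 7) (nat_lit 249)) (nd (nat_lit 292) (nat_lit 0) (cs (lf (nat_lit 12) (nat_lit 268)) (nd (nat_lit 269) (nat_lit 0) (cs (lf (nat_lit 23) (nat_lit 268)) (lf (nat_lit 13) (nat_lit 247))))))))))) q60204 (by decide +kernel)
def q60363 : Q := Q.p (nat_lit 0x20000880002400000000000000000000000000000000000000000000000000000000000000) (nat_lit 0xa0000280001dc0007600019c0001400004000000000000000000000000000000000000000000000000000) (nat_lit 8)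
theorem c60363 : QOK q60363 := cut [q48954, q59534, q60362] ⟨c48954, c59534, c60362, trivial⟩ (nd (nat_lit 272) (nat_lit 0) (cs (rf (nat_lit 0)) (cs (rf (nat_lit 1)) (rf (nat_lit 2))))) q60363 (by decide +kernel)
def q60408 : Q := Q.p (nat_lit 0x20000880002400000000010000000000000000000000000000000000000000000000000000) (nat_lit 0x500001e0000780000f0001df001778001be0018f800238000c0000000000000000000000000000000000000000000000) (nat_lit 14)
theorem c60408 : QOK q60408 := cut [q47829, q60270, q56985, q60023, q47835, q60122, q47802, q44583, q48934, q60378, q59838, q60209, q60269, q59853, q59651, q59581, q14235, q60391, q59720, q60030] ⟨c47829, c60270, c56985, c60023, c47835, c60122, c47802, c44583, c48934, c60378, c59838, c60209, c60269, c59853, c59651, c59581, c14235, c60391, c59720, c60030, trivial⟩ (nd (nat_lit 270) (nat_lit 0) (cs (nd (nat_lit 269) (nat_lit 0) (cs (rf (nat_lit 0)) (rf (nat_lit 1)))) (cs (nd (nat_lit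 315) (nat_lit 0) (cs (rf (nat_lit 2)) (cs (rf (nat_lit 3)) (nd (nat_lit 248) (nat_lit 0) (cs (rf (nat_lit 4)) (cs (rf (nat_lit 5)) (nd (nat_lit 249) (nat_lit 0) (cs (nd (nat_lit 314) (nat_lit 0) (cs (lf (nat_lit 41) (nat_lit 248)) (nd (nat_lit 292) (nat_lit 0) (cs (lf (nat_lit 35) (nat_lit 226)) (rf (nat_lit 6)))))) (nd (nat_lit 251) (nat_lit 0) (cs (lf (nat_lit 6) (nat_lit 248)) (nd (nat_lit 273) (nat_lit 0) (cs (lf (nat_lit 5) (nat_lit 248)) (nd (nat_lit 247) (nat_lit 0) (cs (lf (nat_lit 19) (nat_lit 247)) (nd (nat_lit 246) (nat_lit 0) (cs (rf (nat_lit 7)) (lf (nat_lit 0) (nat_lit 245)))))))))))))))))) (cs (nd (nat_lit 269) (nat_lit 0) (cs (rf (nat_lit 8)) (rf (nat_lit 1)))) (cs (nd (nat_lit 269) (nat_lit 0) (cs (rf (nat_lit 1)) (rf (nat_lit 9)))) (cs (nd (nat_lit 269) (nat_lit 0) (cs (rf (nat_lit 0)) (cs (rf (nat_lit 8)) (cs (rf (nat_lit 9)) (nd (nat_lit 248) (nat_lit 0) (cs (rf (nat_lit 10)) (cs (nd (nat_lit 315)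 (nat_lit 0) (cs (lf (nat_lit 42) (nat_lit 248)) (nd (nat_lit 249) (nat_lit 0) (cs (lf (nat_lit 6) (nat_lit 247)) (nd (nat_lit 314) (nat_lit 0) (cs (lf (nat_lit 41) (nat_lit 248)) (nd (nat_lit 292) (nat_lit 0) (cs (lf (nat_lit 36) (nat_lit 226)) (nd (nat_lit 294) (nat_lit 0) (cs (lf (nat_lit 18) (nat_lit 269)) (rf (nat_lit 11)))))))))))) (nd (nat_lit 204) (nat_lit 0) (cs (lf (nat_lit 25) (nat_lit 204)) (nd (nat_lit 251) (nat_lit 0) (cs (lf (nat_lit 8) (nat_lit 247)) (rf (nat_lit 12))))))))))))) (cs (nd (nat_lit 269) (nat_lit 0) (cs (rf (nat_lit 0)) (cs (rf (nat_lit 8)) (cs (rf (nat_lit 9)) (nd (nat_lit 272) (nat_lit 0) (cs (rf (nat_lit 13)) (cs (nd (nat_lit 294) (nat_lit 0) (cs (lf (nat_lit 5) (nat_lit 269)) (rf (nat_lit 14)))) (cs (nd (nat_lit 294) (nat_lit 0) (cs (lf (nat_lit 5) (nat_lit 269)) (rf (nat_lit 15)))) (nd (nat_lit 291) (nat_lit 0) (cs (lf (nat_lit 11) (nat_lit 268)) (nd (nat_lit 292) (nat_lit 0) (cs (rf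 (nat_lit 16)) (cs (nd (nat_lit 315) (nat_lit 0) (cs (lf (nat_lit 30) (nat_lit 249)) (nd (nat_lit 226) (nat_lit 0) (cs (lf (nat_lit 25) (nat_lit 226)) (nd (nat_lit 294) (nat_lit 0) (cs (lf (nat_lit 18) (nat_lit 269)) (nd (nat_lit 313) (nat_lit 0) (cs (lf (nat_lit 11) (nat_lit 290)) (nd (nat_lit 335) (nat_lit 0) (cs (lf (nat_lit 30) (nat_lit 269)) (nd (nat_lit 336) (nat_lit 0) (cs (lf (nat_lit 29) (nat_lit 269)) (nd (nat_lit 249) (nat_lit 0) (cs (lf (nat_lit 40) (nat_lit 248)) (rf (nat_lit 17)))))))))))))))) (nd (nat_lit 294) (nat_lit 0) (cs (lf (nat_lit 18) (nat_lit 269)) (nd (nat_lit 315) (nat_lit 0) (cs (lf (nat_lit 30) (nat_lit 249)) (nd (nat_lit 226) (nat_lit 0) (cs (lf (nat_lit 25) (nat_lit 226)) (nd (nat_lit 312) (nat_lit 0) (cs (lf (nat_lit 10) (nat_lit 290)) (rf (nat_lit 18))))))))))))))))))))))) (nd (nat_lit 269) (nat_lit 0) (cs (rf (nat_lit 19)) (rf (nat_lit 9))))))))))) q60408 (by decide +kernel)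
def q60444 : Q := Q.p (nat_lit 0x20000880002400000000010000000000000000000000000000000000000000000000000000) (nat_lit 0x4000018000260001df001778001b8001be00027e000f80000e0000280000000000000000000000000000000000) (nat_lit 11)
theorem c60444 : QOK q60444 := cut [q15333, q58510, q58793, q60410, q60412, q15267, q60414, q60422, q2074, q41306, q3768, q60431, q47829, q48934, q60378, q60433] ⟨c15333, c58510, c58793, c60410, c60412, c15267, c60414, c60422, c2074, c41306, c3768, c60431, c47829, c48934, c60378, c60433, trivial⟩ (nd (nat_lit 251) (nat_lit 0) (cs (rf (nat_lit 0)) (cs (rf (nat_lit 1)) (cs (rf (nat_lit 2)) (nd (nat_lit 270) (nat_lit 0) (cs (rf (nat_lit 3)) (cs (nd (nat_lit 228) (nat_lit 0) (cs (rf (nat_lit 4)) (cs (nd (nat_lit 273) (nat_lit 0) (cs (rf (nat_lit 5)) (cs (nd (nat_lit 295) (nat_lit 0) (cs (lf (nat_lit 42) (nat_lit 228)) (rf (nat_lit 6)))) (nd (nat_lit 274) (nat_lit 0) (cs (lf (nat_lit 18) (nat_lit 250))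 (nd (nat_lit 248) (nat_lit 0) (cs (lf (nat_lit 1) (nat_lit 248)) (nd (nat_lit 204) (nat_lit 0) (cs (lf (nat_lit 25) (nat_lit 204)) (nd (nat_lit 295) (nat_lit 0) (cs (lf (nat_lit 42) (nat_lit 228)) (nd (nat_lit 294) (nat_lit 0) (cs (lf (nat_lit 12) (nat_lit 270)) (lf (nat_lit 18) (nat_lit 270))))))))))))))) (cs (rf (nat_lit 7)) (nd (nat_lit 227) (nat_lit 0) (cs (nd (nat_lit 206) (nat_lit 0) (cs (rf (nat_lit 8)) (lf (nat_lit 32) (nat_lit 205)))) (cs (nd (nat_lit 226) (nat_lit 0) (cs (lf (nat_lit 0) (nat_lit 225)) (nd (nat_lit 204) (nat_lit 0) (cs (rf (nat_lit 9)) (lf (nat_lit 26) (nat_lit 204)))))) (nd (nat_lit 225) (nat_lit 0) (cs (lf (nat_lit 1) (nat_lit 225)) (nd (nat_lit 206) (nat_lit 0) (cs (rf (nat_lit 10)) (lf (nat_lit 32) (nat_lit 205))))))))))))) (cs (rf (nat_lit 11)) (nd (nat_lit 269) (nat_lit 0) (cs (rf (nat_lit 12)) (cs (rf (nat_lit 13)) (cs (rf (nat_lit 14)) (nd (nat_lit 248) (nat_lit 0) (cs (lf (nat_lit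 8) (nat_lit 247)) (nd (nat_lit 226) (nat_lit 0) (cs (lf (nat_lit 24) (nat_lit 204)) (nd (nat_lit 292) (nat_lit 0) (cs (rf (nat_lit 15)) (nd (nat_lit 294) (nat_lit 0) (cs (lf (nat_lit 18) (nat_lit 269)) (nd (nat_lit 313) (nat_lit 0) (cs (lf (nat_lit 40) (nat_lit 225)) (nd (nat_lit 314) (nat_lit 0) (cs (lf (nat_lit 41) (nat_lit 247)) (nd (nat_lit 336) (nat_lit 0) (cs (lf (nat_lit 30) (nat_lit 270)) (lf (nat_lit 47) (nat_lit 247)))))))))))))))))))))))))))) q60444 (by decide +kernel)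
def q60474 : Q := Q.p (nat_lit 0x20000100000c00001000000000000000000000000000000000000000000000000000000000) (nat_lit 0x800000000020000060000380000e0000200000000000000000000000000000000000) (nat_lit 6)
theorem c60474 : QOK q60474 := cut [q40538] ⟨c40538, trivial⟩ (nd (nat_lit 206) (nat_lit 0) (cs (lf (nat_lit 40) (nat_lit 205)) (rf (nat_lit 0)))) q60474 (by decide +kernel)
def q60649 : Q := Q.p (nat_lit 0x20000880002400000000000000000000000000000000000000000000000000000000000000) (nat_lit 0x600001800005c0017700019e0003e00007000000000000000000000000000000000000000000000000000) (nat_lit 12)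
theorem c60649 : QOK q60649 := cut [q48954, q60362, q59599, q59602, q59837, q11979, q60355, q23068, q60636] ⟨c48954, c60362, c59599, c59602, c59837, c11979, c60355, c23068, c60636, trivial⟩ (nd (nat_lit 272) (nat_lit 0) (cs (rf (nat_lit 0)) (cs (rf (nat_lit 1)) (nd (nat_lit 270) (nat_lit 0) (cs (nd (nat_lit 291) (nat_lit 0) (cs (nd (nat_lit 206) (nat_lit 0) (cs (lf (nat_lit 37) (nat_lit 205)) (rf (nat_lit 2)))) (cs (nd (nat_lit 292) (nat_lit 0) (cs (lf (nat_lit 12) (nat_lit 268)) (lf (nat_lit 6) (nat_lit 269)))) (rf (nat_lit 3))))) (cs (rf (nat_lit 4)) (cs (nd (nat_lit 273) (nat_lit 0) (cs (rf (nat_lit 5)) (cs (rf (nat_lit 6)) (nd (nat_lit 248) (nat_lit 0) (cs (lf (nat_lit 23) (nat_lit 247)) (nd (nat_lit 226) (nat_lit 0) (cs (lf (nat_lit 24) (nat_lit 204)) (nd (nat_lit 251) (nat_lit 0) (cs (rf (nat_lit 7)) (nd (nat_lit 228) (nat_lit 0) (cs (lf (nat_lit 36) (nat_lit 205)) (nd (nat_lit 291) (nat_lit 0) (cs (lf (nat_lit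 10) (nat_lit 269)) (nd (nat_lit 227) (nat_lit 0) (cs (lf (nat_lit 0) (nat_lit 225)) (rf (nat_lit 8))))))))))))))))) (nd (nat_lit 206) (nat_lit 0) (cs (lf (nat_lit 37) (nat_lit 205)) (nd (nat_lit 269) (nat_lit 0) (cs (lf (nat_lit 17) (nat_lit 247)) (nd (nat_lit 246) (nat_lit 0) (cs (lf (nat_lit 22) (nat_lit 246)) (nd (nat_lit 268) (nat_lit 0) (cs (lf (nat_lit 5) (nat_lit 268)) (lf (nat_lit 23) (nat_lit 245))))))))))))))))) q60649 (by decide +kernel)
def q60668 : Q := Q.p (nat_lit 0x20000880002400000000010000000000000000000000000000000000000000000000000000) (nat_lit 0x60000580001600015f001778001b8001be000278000fe0000e8000200000000000000000000000000000000000) (nat_lit 11)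
theorem c60668 : QOK q60668 := cut [q15333, q58510, q58793, q60410, q60431, q60433, q60650, q27760, q60653, q59580, q60636, q46918, q60422, q59409, q58800, q58820] ⟨c15333, c58510, c58793, c60410, c60431, c60433, c60650, c27760, c60653, c59580, c60636, c46918, c60422, c59409, c58800, c58820, trivial⟩ (nd (nat_lit 251) (nat_lit 0) (cs (rf (nat_lit 0)) (cs (rf (nat_lit 1)) (cs (rf (nat_lit 2)) (nd (nat_lit 270) (nat_lit 0) (cs (rf (nat_lit 3)) (cs (rf (nat_lit 4)) (cs (nd (nat_lit 248) (nat_lit 0) (cs (nd (nat_lit 226) (nat_lit 0) (cs (lf (nat_lit 24) (nat_lit 204)) (nd (nat_lit 292) (nat_lit 0) (cs (rf (nat_lit 5)) (rf (nat_lit 6)))))) (cs (nd (nat_lit 273) (nat_lit 0) (cs (rf (nat_lit 7)) (cs (nd (nat_lit 272) (nat_lit 0) (cs (lf (nat_lit 23) (nat_lit 247)) (rf (nat_lit 8)))) (nd (nat_lit 272) (nat_lit 0) (cs (lf (nat_lit 23) (nat_lit 247)) (nd (nat_lit 227) (nat_lit 0) (cs (rf (nat_lit 9)) (cs (nd (nat_lit 291) (nat_lit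 0) (cs (lf (nat_lit 10) (nat_lit 269)) (nd (nat_lit 228) (nat_lit 0) (cs (lf (nat_lit 36) (nat_lit 205)) (rf (nat_lit 10)))))) (nd (nat_lit 292) (nat_lit 0) (cs (lf (nat_lit 11) (nat_lit 269)) (rf (nat_lit 11)))))))))))) (cs (nd (nat_lit 226) (nat_lit 0) (cs (lf (nat_lit 24) (nat_lit 204)) (nd (nat_lit 225) (nat_lit 0) (cs (lf (nat_lit 20) (nat_lit 225)) (nd (nat_lit 228) (nat_lit 0) (cs (lf (nat_lit 2) (nat_lit 225)) (rf (nat_lit 12)))))))) (nd (nat_lit 226) (nat_lit 0) (cs (lf (nat_lit 24) (nat_lit 204)) (rf (nat_lit 13)))))))) (nd (nat_lit 249) (nat_lit 0) (cs (rf (nat_lit 14)) (rf (nat_lit 15)))))))))))) q60668 (by decide +kernel)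
def q60787 : Q := Q.p (nat_lit 0x20000900000400000000000000000000000000000000000000000000000000000000000000) (nat_lit 0x40000700001c0000f00007fc001de0016f0000bc0002f80001800002000000000000000000000000000000000000000000000) (nat_lit 13)
theorem c60787 : QOK q60787 := cut [q60492, q60518, q60741, q60746, q60229, q12962, q45291, q51303, q60763, q60765, q48093, q56985, q59822, q59823, q54931, q60707, q60774, q45149, q58544, q60324, q60779, q45169, q58887, q60786] ⟨c60492, c60518, c60741, c60746, c60229, c12962, c45291, c51303, c60763, c60765, c48093, c56985, c59822, c59823, c54931, c60707, c60774, c45149, c58544, c60324, c60779, c45169, c58887, c60786, trivial⟩ (nd (nat_lit 315) (nat_lit 0) (cs (rf (nat_lit 0)) (cs (nd (nat_lit 273) (nat_lit 0) (cs (rf (nat_lit 1)) (cs (nd (nat_lit 249) (nat_lit 0) (cs (lf (nat_lit 19) (nat_lit 249)) (rf (nat_lit 2)))) (cs (nd (nat_lit 292) (nat_lit 0) (cs (nd (nat_lit 291) (nat_lit 0)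 (cs (lf (nat_lit 15) (nat_lit 269)) (nd (nat_lit 271) (nat_lit 0) (cs (lf (nat_lit 12) (nat_lit 268)) (lf (nat_lit 9) (nat_lit 269)))))) (cs (nd (nat_lit 316) (nat_lit 0) (cs (rf (nat_lit 3)) (cs (nd (nat_lit 317) (nat_lit 0) (cs (lf (nat_lit 18) (nat_lit 292)) (nd (nat_lit 295) (nat_lit 0) (cs (lf (nat_lit 42) (nat_lit 250)) (nd (nat_lit 251) (nat_lit 0) (cs (lf (nat_lit 41) (nat_lit 250)) (nd (nat_lit 296) (nat_lit 0) (cs (lf (nat_lit 12) (nat_lit 292)) (nd (nat_lit 270) (nat_lit 0) (cs (nd (nat_lit 248) (nat_lit 0) (cs (lf (nat_lit 24) (nat_lit 226)) (nd (nat_lit 249) (nat_lit 0) (cs (lf (nat_lit 11) (nat_lit 247)) (lf (nat_lit 0) (nat_lit 247)))))) (lf (nat_lit 1) (nat_lit 270)))))))))))) (nd (nat_lit 249) (nat_lit 0) (cs (rf (nat_lit 4)) (cs (rf (nat_lit 2)) (nd (nat_lit 294) (nat_lit 0) (cs (lf (nat_lit 47) (nat_lit 227)) (rf (nat_lit 5)))))))))) (cs (nd (nat_lit 291) (nat_lit 0) (cs (rf (nat_lit 6)) (cs (nd (nat_lit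 270) (nat_lit 0) (cs (lf (nat_lit 8) (nat_lit 269)) (nd (nat_lit 248) (nat_lit 0) (cs (lf (nat_lit 24) (nat_lit 226)) (nd (nat_lit 247) (nat_lit 0) (cs (lf (nat_lit 2) (nat_lit 247)) (rf (nat_lit 7)))))))) (rf (nat_lit 8))))) (rf (nat_lit 9)))))) (nd (nat_lit 292) (nat_lit 0) (cs (rf (nat_lit 9)) (cs (nd (nat_lit 271) (nat_lit 0) (cs (lf (nat_lit 6) (nat_lit 270)) (rf (nat_lit 10)))) (nd (nat_lit 274) (nat_lit 0) (cs (lf (nat_lit 10) (nat_lit 271)) (lf (nat_lit 9) (nat_lit 270))))))))))) (cs (nd (nat_lit 271) (nat_lit 0) (cs (rf (nat_lit 11)) (cs (rf (nat_lit 12)) (cs (rf (nat_lit 13)) (nd (nat_lit 249) (nat_lit 0) (cs (rf (nat_lit 14)) (cs (rf (nat_lit 15)) (rf (nat_lit 16))))))))) (cs (nd (nat_lit 294) (nat_lit 0) (cs (rf (nat_lit 17)) (cs (nd (nat_lit 295) (nat_lit 0) (cs (rf (nat_lit 18)) (cs (rf (nat_lit 19)) (nd (nat_lit 337) (nat_lit 0) (cs (lf (nat_lit 30) (nat_lit 271)) (rf (nat_lit 20))))))) (nd (nat_lit 316)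 (nat_lit 0) (cs (rf (nat_lit 21)) (rf (nat_lit 22))))))) (rf (nat_lit 23))))))) q60787 (by decide +kernel)
def q60898 : Q := Q.p (nat_lit 0x10000040000d00000400000000000000000000000000000000000000000000000000000000000000) (nat_lit 0xa0000380000e000000000000000080001a00000800000000000000000000000000000000000000000000000000000000) (nat_lit 7)
theorem c60898 : QOK q60898 := cut [q60896] ⟨c60896, trivial⟩ (nd (nat_lit 249) (nat_lit 0) (cs (lf (nat_lit 47) (nat_lit 227)) (nd (nat_lit 251) (nat_lit 0) (cs (lf (nat_lit 3) (nat_lit 249)) (rf (nat_lit 0)))))) q60898 (by decide +kernel)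
def q61026 : Q := Q.p (nat_lit 0x8000024000000000100001c0000000000000000000000000000000000000000000000) (nat_lit 0x16e0001b00003e001c60006380007e0000f8000380000e000018000020000000000000) (nat_lit 12)
theorem c61026 : QOK q61026 := cut [q18440, q20002, q57778, q57791, q18163, q57754, q57773, q57751, q57761, q41783, q61023] ⟨c18440, c20002, c57778, c57791, c18163, c57754, c57773, c57751, c57761, c41783, c61023, trivial⟩ (nd (nat_lit 164) (nat_lit 0) (cs (rf (nat_lit 0)) (cs (rf (nat_lit 1)) (cs (rf (nat_lit 2)) (cs (rf (nat_lit 3)) (nd (nat_lit 142) (nat_lit 0) (cs (rf (nat_lit 4)) (cs (rf (nat_lit 5)) (cs (rf (nat_lit 6)) (nd (nat_lit 165) (nat_lit 0) (cs (rf (nat_lit 7)) (cs (nd (nat_lit 251) (nat_lit 0) (cs (rf (nat_lit 8)) (nd (nat_lit 119) (nat_lit 0) (cs (lf (nat_lit 46) (nat_lit 119)) (nd (nat_lit 252) (nat_lit 0) (cs (lf (nat_lit 5) (nat_lit 250)) (rf (nat_lit 9)))))))) (rf (nat_lit 10)))))))))))))) q61026 (by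 decide +kernel)
def q61435 : Q := Q.p (nat_lit 0x800002400000000010000000000000000000000000000000000000000000000000000) (nat_lit 0x100000c00007a0007f80007f0001f80017f0001b80007f0000780001e000028000000000000000000000000000000000000000) (nat_lit 15)
theorem c61435 : QOK q61435 := cut [q15215, q15332, q15333, q15267, q56357, q56369, q14763, q56402, q56407, q23736, q15339, q15305, q56446, q57626, q57628, q57635, q20365, q58771] ⟨c15215, c15332, c15333, c15267, c56357, c56369, c14763, c56402, c56407, c23736, c15339, c15305, c56446, c57626, c57628, c57635, c20365, c58771, trivial⟩ (nd (nat_lit 251) (nat_lit 0) (cs (rf (nat_lit 0)) (cs (rf (nat_lit 1)) (cs (rf (nat_lit 2)) (cs (nd (nat_lit 273) (nat_lit 0) (cs (rf (nat_lit 3)) (cs (nd (nat_lit 295) (nat_lit 0) (cs (rf (nat_lit 4)) (cs (rf (nat_lit 5)) (nd (nat_lit 274) (nat_lit 0) (cs (lf (nat_lit 18) (nat_lit 250)) (nd (nat_lit 248) (nat_lit 0) (cs (lf (nat_lit 1) (nat_lit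 248)) (nd (nat_lit 229) (nat_lit 0) (cs (lf (nat_lit 34) (nat_lit 207)) (nd (nat_lit 294) (nat_lit 0) (cs (lf (nat_lit 41) (nat_lit 228)) (rf (nat_lit 6))))))))))))) (cs (rf (nat_lit 7)) (nd (nat_lit 274) (nat_lit 0) (cs (lf (nat_lit 18) (nat_lit 250)) (nd (nat_lit 272) (nat_lit 0) (cs (lf (nat_lit 23) (nat_lit 249)) (nd (nat_lit 293) (nat_lit 0) (cs (lf (nat_lit 10) (nat_lit 271)) (rf (nat_lit 8)))))))))))) (cs (nd (nat_lit 273) (nat_lit 0) (cs (rf (nat_lit 9)) (rf (nat_lit 7)))) (nd (nat_lit 249) (nat_lit 0) (cs (rf (nat_lit 10)) (cs (nd (nat_lit 248) (nat_lit 0) (cs (rf (nat_lit 11)) (cs (rf (nat_lit 12)) (cs (nd (nat_lit 270) (nat_lit 0) (cs (lf (nat_lit 11) (nat_lit 247)) (nd (nat_lit 292) (nat_lit 0) (cs (rf (nat_lit 13)) (cs (nd (nat_lit 226) (nat_lit 0) (cs (lf (nat_lit 23) (nat_lit 225)) (nd (nat_lit 229) (nat_lit 0) (cs (lf (nat_lit 17) (nat_lit 226)) (nd (nat_lit 291) (nat_lit 0) (cs (lf (nat_lit 41) (nat_lit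 225)) (rf (nat_lit 14)))))))) (nd (nat_lit 225) (nat_lit 0) (cs (lf (nat_lit 22) (nat_lit 225)) (nd (nat_lit 229) (nat_lit 0) (cs (lf (nat_lit 17) (nat_lit 226)) (rf (nat_lit 15))))))))))) (nd (nat_lit 229) (nat_lit 0) (cs (lf (nat_lit 17) (nat_lit 226)) (rf (nat_lit 16)))))))) (rf (nat_lit 17))))))))))) q61435 (by decide +kernel)
def q61476 : Q := Q.p (nat_lit 0x4000000000100001c0000000000000000000000000000000000000000000000) (nat_lit 0x18001c700063c0007f0000fc0003f0000fc0001d000020000000000000) (nat_lit 14)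
theorem c61476 : QOK q61476 := cut [q18440, q20002, q57778, q57791, q18163, q57754, q57773, q57751, q61023, q9197, q61446, q61450, q61455, q61456, q61464] ⟨c18440, c20002, c57778, c57791, c18163, c57754, c57773, c57751, c61023, c9197, c61446, c61450, c61455, c61456, c61464, trivial⟩ (nd (nat_lit 164) (nat_lit 0) (cs (rf (nat_lit 0)) (cs (rf (nat_lit 1)) (cs (rf (nat_lit 2)) (cs (rf (nat_lit 3)) (nd (nat_lit 142) (nat_lit 0) (cs (rf (nat_lit 4)) (cs (rf (nat_lit 5)) (cs (rf (nat_lit 6)) (nd (nat_lit 165) (nat_lit 0) (cs (rf (nat_lit 7)) (cs (rf (nat_lit 8)) (nd (nat_lit 141) (nat_lit 0) (cs (lf (nat_lit 47) (nat_lit 119)) (nd (nat_lit 143) (nat_lit 0) (cs (rf (nat_lit 9)) (nd (nat_lit 161) (nat_lit 0) (cs (rf (nat_lit 10)) (cs (rf (nat_lit 11)) (nd (nat_lit 183) (nat_lit 0) (cs (nd (nat_lit 184) (nat_lit 0) (cs (lf (nat_lit 14) (nat_lit 161)) (nd (nat_lit 206) (nat_lit 0) (cs (lf (nat_lit 43) (nat_lit 161)) (nd (nat_lit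 139) (nat_lit 0) (cs (lf (nat_lit 24) (nat_lit 117)) (lf (nat_lit 1) (nat_lit 139)))))))) (cs (rf (nat_lit 12)) (nd (nat_lit 139) (nat_lit 0) (cs (lf (nat_lit 1) (nat_lit 139)) (nd (nat_lit 117) (nat_lit 0) (cs (nd (nat_lit 189) (nat_lit 0) (cs (lf (nat_lit 18) (nat_lit 164)) (nd (nat_lit 182) (nat_lit 0) (cs (lf (nat_lit 41) (nat_lit 116)) (nd (nat_lit 95) (nat_lit 0) (cs (lf (nat_lit 40) (nat_lit 94)) (rf (nat_lit 13)))))))) (cs (nd (nat_lit 94) (nat_lit 0) (cs (lf (nat_lit 46) (nat_lit 94)) (nd (nat_lit 189) (nat_lit 0) (cs (lf (nat_lit 18) (nat_lit 164)) (nd (nat_lit 96) (nat_lit 0) (cs (lf (nat_lit 34) (nat_lit 95)) (nd (nat_lit 95) (nat_lit 0) (cs (lf (nat_lit 35) (nat_lit 73)) (lf (nat_lit 47) (nat_lit 72)))))))))) (nd (nat_lit 182) (nat_lit 0) (cs (lf (nat_lit 41) (nat_lit 116)) (nd (nat_lit 116) (nat_lit 0) (cs (lf (nat_lit 47) (nat_lit 94)) (nd (nat_lit 205) (nat_lit 0) (cs (lf (nat_lit 46) (nat_lit 116))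 (rf (nat_lit 14))))))))))))))))))))))))))))))))))) q61476 (by decide +kernel)
def q61544 : Q := Q.p (nat_lit 0x80000600000000000000000000000000000000000000000000000000000000000000) (nat_lit 0x40000700001c000070000140000800001f0000700001c000000000000000000000000000000000000000000000) (nat_lit 8)
theorem c61544 : QOK q61544 := cut [q58513, q61516, q57008, q61527, q61535, q61543] ⟨c58513, c61516, c57008, c61527, c61535, c61543, trivial⟩ (nd (nat_lit 293) (nat_lit 0) (cs (rf (nat_lit 0)) (cs (rf (nat_lit 1)) (cs (nd (nat_lit 227) (nat_lit 0) (cs (rf (nat_lit 2)) (cs (rf (nat_lit 3)) (nd (nat_lit 294) (nat_lit 0) (cs (lf (nat_lit 29) (nat_lit 227)) (nd (nat_lit 292) (nat_lit 0) (cs (lf (nat_lit 41) (nat_lit 226)) (rf (nat_lit 4))))))))) (rf (nat_lit 5)))))) q61544 (by decide +kernel)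
def q61634 : Q := Q.p (nat_lit 0x880000600000000000000000000000000000000000000000000000000000000000000) (nat_lit 0x40000700001c000070000700000900001f0000700001c000000000000000000000000000000000000000000000) (nat_lit 8)
theorem c61634 : QOK q61634 := cut [q58513, q61516, q61534, q61633] ⟨c58513, c61516, c61534, c61633, trivial⟩ (nd (nat_lit 293) (nat_lit 0) (cs (rf (nat_lit 0)) (cs (rf (nat_lit 1)) (cs (rf (nat_lit 2)) (rf (nat_lit 3)))))) q61634 (by decide +kernel)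
def q61657 : Q := Q.p (nat_lit 0x8c0000600000000000000000000000000000000000000000000000000000000000000) (nat_lit 0x80000340001dc0007300001c0000800002000000000000000000000000000000000000000000000000000) (nat_lit 7)
theorem c61657 : QOK q61657 := cut [q46564, q61593, q61619] ⟨c46564, c61593, c61619, trivial⟩ (nd (nat_lit 272) (nat_lit 0) (cs (rf (nat_lit 0)) (cs (rf (nat_lit 1)) (rf (nat_lit 2))))) q61657 (by decide +kernel)
def q61686 : Q := Q.p (nat_lit 0x20000880000600000000000000000000000000000000000000000000000000000000000000) (nat_lit 0x340001dc000770000980001800006000018000000000000000000000000000000000000000000000) (nat_lit 9)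
theorem c61686 : QOK q61686 := cut [q59913, q61527, q61672, q59684, q61677, q61681, q61685] ⟨c59913, c61527, c61672, c59684, c61677, c61681, c61685, trivial⟩ (nd (nat_lit 227) (nat_lit 0) (cs (rf (nat_lit 0)) (cs (rf (nat_lit 1)) (cs (nd (nat_lit 272) (nat_lit 0) (cs (rf (nat_lit 2)) (cs (nd (nat_lit 206) (nat_lit 0) (cs (lf (nat_lit 37) (nat_lit 205)) (rf (nat_lit 3)))) (cs (rf (nat_lit 4)) (nd (nat_lit 294) (nat_lit 0) (cs (lf (nat_lit 42) (nat_lit 227)) (nd (nat_lit 206) (nat_lit 0) (cs (lf (nat_lit 34) (nat_lit 205)) (rf (nat_lit 5)))))))))) (rf (nat_lit 6)))))) q61686 (by decide +kernel)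
def q61908 : Q := Q.p (nat_lit 0x60000100000600000000000000000000000000000000000000000000000000000000000000) (nat_lit 0xa000078000018000000000800002800000000000000000000000000000000000000000000000000000000) (nat_lit 6)
theorem c61908 : QOK q61908 := cut [q58909] ⟨c58909, trivial⟩ (nd (nat_lit 316) (nat_lit 0) (cs (lf (nat_lit 47) (nat_lit 227)) (rf (nat_lit 0)))) q61908 (by decide +kernel)
def q61978 : Q := Q.p (nat_lit 0x20000080000200000000000000000000000000000000000000000000000000000000000000) (nat_lit 0x100000600001c00007e0007f8001dc000040000000000c00003000004000000000000000000000000000000000000000000000) (nat_lit 11)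
theorem c61978 : QOK q61978 := cut [q59012, q59015, q59018, q59020, q59029, q59038] ⟨c59012, c59015, c59018, c59020, c59029, c59038, trivial⟩ (nd (nat_lit 316) (nat_lit 0) (cs (rf (nat_lit 0)) (cs (rf (nat_lit 1)) (cs (rf (nat_lit 2)) (nd (nat_lit 315) (nat_lit 0) (cs (lf (nat_lit 29) (nat_lit 249)) (nd (nat_lit 292) (nat_lit 0) (cs (rf (nat_lit 3)) (cs (rf (nat_lit 4)) (cs (rf (nat_lit 5)) (nd (nat_lit 314) (nat_lit 0) (cs (lf (nat_lit 41) (nat_lit 248)) (nd (nat_lit 317) (nat_lit 0) (cs (lf (nat_lit 18) (nat_lit 292)) (nd (nat_lit 295) (nat_lit 0) (cs (lf (nat_lit 17) (nat_lit 292)) (nd (nat_lit 313) (nat_lit 0) (cs (lf (nat_lit 16) (nat_lit 291)) (nd (nat_lit 334) (nat_lit 0) (cs (lf (nat_lit 10) (nat_lit 312)) (nd (nat_lit 312) (nat_lit 0) (cs (lf (nat_lit 11) (nat_lit 311)) (lf (nat_lit 12) (nat_lit 289)))))))))))))))))))))))) q61978 (by decide +kernel)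
def q61986 : Q := Q.p (nat_lit 0x8000020000800000600000000010000000000000000000000000000000000000000000000000000) (nat_lit 0x180000780001e0000f70001d8001770000800007000000000000000000000000000000000000000000000000000000000) (nat_lit 13)
theorem c61986 : QOK q61986 := cut [q58755, q61789, q61910, q61925, q61936, q61983, q61787, q61962] ⟨c58755, c61789, c61910, c61925, c61936, c61983, c61787, c61962, trivial⟩ (nd (nat_lit 294) (nat_lit 0) (cs (rf (nat_lit 0)) (cs (rf (nat_lit 1)) (cs (nd (nat_lit 295) (nat_lit 0) (cs (rf (nat_lit 2)) (cs (rf (nat_lit 3)) (cs (rf (nat_lit 4)) (rf (nat_lit 5)))))) (nd (nat_lit 295) (nat_lit 0) (cs (rf (nat_lit 6)) (cs (rf (nat_lit 2)) (rf (nat_lit 7))))))))) q61986 (by decide +kernel)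
def q62023 : Q := Q.p (nat_lit 0x20000880000600000000000000000000000000000000000000000000000000000000000000) (nat_lit 0x180000700001d0000770001dc001770000800000c00003000004000000000000000000000000000000000000000000000) (nat_lit 13)
theorem c62023 : QOK q62023 := cut [q61950, q61952, q61963, q61967] ⟨c61950, c61952, c61963, c61967, trivial⟩ (nd (nat_lit 294) (nat_lit 0) (cs (rf (nat_lit 0)) (cs (rf (nat_lit 1)) (cs (rf (nat_lit 2)) (rf (nat_lit 3)))))) q62023 (by decide +kernel)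
def q62183 : Q := Q.p (nat_lit 0xa00000600000000000000000000000000000000000000000000000000000000000000) (nat_lit 0x1dc0003500000800000000000000000000000000000000000000000000000000000000000000) (nat_lit 6)
theorem c62183 : QOK q62183 := cut [q22119] ⟨c22119, trivial⟩ (nd (nat_lit 274) (nat_lit 0) (cs (lf (nat_lit 21) (nat_lit 249)) (rf (nat_lit 0)))) q62183 (by decide +kernel)
def q62219 : Q := Q.p (nat_lit 0x800002600001000010000040000100000000000000000000000000000000000000000) (nat_lit 0x8000070000080000e8000078000be0000f0003ee000380000e000018000020000000000000) (nat_lit 12)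
theorem c62219 : QOK q62219 := cut [q3800, q32056, q23798, q2270, q62203, q32289, q39414, q61422, q1927] ⟨c3800, c32056, c23798, c2270, c62203, c32289, c39414, c61422, c1927, trivial⟩ (nd (nat_lit 163) (nat_lit 0) (cs (rf (nat_lit 0)) (cs (nd (nat_lit 162) (nat_lit 0) (cs (rf (nat_lit 1)) (cs (nd (nat_lit 206) (nat_lit 0) (cs (nd (nat_lit 184) (nat_lit 0) (cs (lf (nat_lit 34) (nat_lit 162)) (lf (nat_lit 40) (nat_lit 161)))) (cs (nd (nat_lit 272) (nat_lit 0) (cs (rf (nat_lit 2)) (nd (nat_lit 230) (nat_lit 0) (cs (lf (nat_lit 28) (nat_lit 164)) (nd (nat_lit 229) (nat_lit 0) (cs (lf (nat_lit 41) (nat_lit 163)) (nd (nat_lit 205) (nat_lit 0) (cs (lf (nat_lit 47) (nat_lit 183)) (nd (nat_lit 204) (nat_lit 0) (cs (lf (nat_lit 0) (nat_lit 203)) (lf (nat_lit 21) (nat_lit 204)))))))))))) (nd (nat_lit 230) (nat_lit 0) (cs (lf (nat_lit 28) (nat_lit 164)) (nd (nat_lit 251) (nat_lit 0) (cs (lf (nat_lit 40) (nat_lit 163)) (nd (nat_lit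 184) (nat_lit 0) (cs (lf (nat_lit 34) (nat_lit 162)) (lf (nat_lit 29) (nat_lit 184))))))))))) (cs (nd (nat_lit 230) (nat_lit 0) (cs (lf (nat_lit 28) (nat_lit 164)) (nd (nat_lit 229) (nat_lit 0) (cs (lf (nat_lit 41) (nat_lit 163)) (rf (nat_lit 3)))))) (nd (nat_lit 161) (nat_lit 0) (cs (lf (nat_lit 5) (nat_lit 161)) (nd (nat_lit 142) (nat_lit 0) (cs (lf (nat_lit 17) (nat_lit 139)) (nd (nat_lit 138) (nat_lit 0) (cs (lf (nat_lit 22) (nat_lit 138)) (nd (nat_lit 137) (nat_lit 0) (cs (lf (nat_lit 21) (nat_lit 137)) (nd (nat_lit 230) (nat_lit 0) (cs (lf (nat_lit 28) (nat_lit 164)) (nd (nat_lit 229) (nat_lit 0) (cs (lf (nat_lit 41) (nat_lit 163)) (rf (nat_lit 4)))))))))))))))))) (nd (nat_lit 142) (nat_lit 0) (cs (rf (nat_lit 5)) (cs (rf (nat_lit 6)) (cs (nd (nat_lit 119) (nat_lit 0) (cs (lf (nat_lit 46) (nat_lit 119)) (nd (nat_lit 120) (nat_lit 0) (cs (lf (nat_lit 47) (nat_lit 97)) (nd (nat_lit 185) (nat_lit 0) (cs (lf (nat_lit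 36) (nat_lit 97)) (nd (nat_lit 184) (nat_lit 0) (cs (lf (nat_lit 32) (nat_lit 162)) (nd (nat_lit 183) (nat_lit 0) (cs (lf (nat_lit 12) (nat_lit 160)) (nd (nat_lit 160) (nat_lit 0) (cs (lf (nat_lit 22) (nat_lit 160)) (rf (nat_lit 7)))))))))))))) (nd (nat_lit 141) (nat_lit 0) (cs (lf (nat_lit 47) (nat_lit 119)) (rf (nat_lit 8))))))))))) q62219 (by decide +kernel)
def q62373 : Q := Q.p (nat_lit 0x800000600001000010000040000100000000000000000000000000000000000000000) (nat_lit 0x7000008000068000e70000bc0000e0003e0000f80000f8000380000a0000000000000) (nat_lit 13)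
theorem c62373 : QOK q62373 := cut [q558, q61422, q62241, q62308, q62300, q62364, q62371] ⟨c558, c61422, c62241, c62308, c62300, c62364, c62371, trivial⟩ (nd (nat_lit 142) (nat_lit 0) (cs (rf (nat_lit 0)) (cs (nd (nat_lit 121) (nat_lit 0) (cs (lf (nat_lit 34) (nat_lit 120)) (nd (nat_lit 120) (nat_lit 0) (cs (lf (nat_lit 35) (nat_lit 98)) (nd (nat_lit 97) (nat_lit 0) (cs (lf (nat_lit 46) (nat_lit 97)) (nd (nat_lit 98) (nat_lit 0) (cs (lf (nat_lit 47) (nat_lit 75)) (nd (nat_lit 185) (nat_lit 0) (cs (lf (nat_lit 40) (nat_lit 97)) (nd (nat_lit 95) (nat_lit 0) (cs (lf (nat_lit 1) (nat_lit 95)) (nd (nat_lit 184) (nat_lit 0) (cs (nd (nat_lit 209) (nat_lit 0) (cs (lf (nat_lit 0) (nat_lit 183)) (lf (nat_lit 28) (nat_lit 120)))) (cs (nd (nat_lit 122) (nat_lit 0) (cs (lf (nat_lit 18) (nat_lit 97)) (nd (nat_lit 187) (nat_lit 0) (cs (lf (nat_lit 29) (nat_lit 120)) (nd (nat_lit 162) (nat_lit 0) (cs (lf (nat_lit 23) (nat_lit 161))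 (nd (nat_lit 206) (nat_lit 0) (cs (lf (nat_lit 11) (nat_lit 183)) (lf (nat_lit 40) (nat_lit 161)))))))))) (nd (nat_lit 183) (nat_lit 0) (cs (rf (nat_lit 1)) (cs (rf (nat_lit 2)) (rf (nat_lit 3)))))))))))))))))))) (cs (nd (nat_lit 163) (nat_lit 0) (cs (nd (nat_lit 121) (nat_lit 0) (cs (lf (nat_lit 34) (nat_lit 120)) (nd (nat_lit 120) (nat_lit 0) (cs (lf (nat_lit 35) (nat_lit 98)) (nd (nat_lit 185) (nat_lit 0) (cs (lf (nat_lit 36) (nat_lit 97)) (nd (nat_lit 184) (nat_lit 0) (cs (lf (nat_lit 32) (nat_lit 162)) (nd (nat_lit 183) (nat_lit 0) (cs (lf (nat_lit 5) (nat_lit 183)) (lf (nat_lit 12) (nat_lit 160)))))))))))) (cs (rf (nat_lit 4)) (nd (nat_lit 230) (nat_lit 0) (cs (lf (nat_lit 47) (nat_lit 141)) (nd (nat_lit 229) (nat_lit 0) (cs (lf (nat_lit 41) (nat_lit 163)) (nd (nat_lit 209) (nat_lit 0) (cs (lf (nat_lit 12) (nat_lit 205)) (nd (nat_lit 210) (nat_lit 0) (cs (lf (nat_lit 6) (nat_lit 207)) (nd (nat_lit 120) (nat_lit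 0) (cs (lf (nat_lit 28) (nat_lit 120)) (rf (nat_lit 5))))))))))))))) (nd (nat_lit 141) (nat_lit 0) (cs (lf (nat_lit 47) (nat_lit 119)) (rf (nat_lit 6)))))))) q62373 (by decide +kernel)
def q62498 : Q := Q.p (nat_lit 0x700001800000000000000000000000000000000000000000000000000000000) (nat_lit 0x20000180000700000c0000700001c00006000008000000000000000000000000000000000000000) (nat_lit 7)
theorem c62498 : QOK q62498 := cut [q56859, q62450, q62495, q62497] ⟨c56859, c62450, c62495, c62497, trivial⟩ (nd (nat_lit 226) (nat_lit 0) (cs (rf (nat_lit 0)) (cs (rf (nat_lit 1)) (cs (rf (nat_lit 2)) (rf (nat_lit 3)))))) q62498 (by decide +kernel)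
def q62576 : Q := Q.p (nat_lit 0x800002700001c00010000000000000000000000000000000000000000000000000000) (nat_lit 0xe00007800007800000000e0000670000fc0007e0000e00002800000000000000000000000000000) (nat_lit 10)
theorem c62576 : QOK q62576 := cut [q62563, q62567, q62575] ⟨c62563, c62567, c62575, trivial⟩ (nd (nat_lit 270) (nat_lit 0) (cs (rf (nat_lit 0)) (cs (nd (nat_lit 229) (nat_lit 0) (cs (lf (nat_lit 6) (nat_lit 226)) (nd (nat_lit 292) (nat_lit 0) (cs (lf (nat_lit 30) (nat_lit 226)) (rf (nat_lit 1)))))) (rf (nat_lit 2))))) q62576 (by decide +kernel)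
def q62697 : Q := Q.p (nat_lit 0x800000600001000000000000000000000000000000000000000000000000000000000) (nat_lit 0x80000200000c00017380009c000ef80004000000000000000000000000000000000000000000000000000) (nat_lit 7)
theorem c62697 : QOK q62697 := cut [q26200, q26237, q62167, q26199, q62410, q62690, q62415, q62417, q62419] ⟨c26200, c26237, c62167, c26199, c62410, c62690, c62415, c62417, c62419, trivial⟩ (nd (nat_lit 248) (nat_lit 0) (cs (rf (nat_lit 0)) (cs (rf (nat_lit 1)) (cs (rf (nat_lit 2)) (nd (nat_lit 229) (nat_lit 0) (cs (rf (nat_lit 3)) (nd (nat_lit 273) (nat_lit 0) (cs (rf (nat_lit 4)) (cs (rf (nat_lit 5)) (cs (nd (nat_lit 295) (nat_lit 0) (cs (rf (nat_lit 6)) (cs (rf (nat_lit 7)) (cs (rf (nat_lit 8)) (nd (nat_lit 251) (nat_lit 0) (cs (lf (nat_lit 47) (nat_lit 206)) (lf (nat_lit 42) (nat_lit 228)))))))) (nd (nat_lit 251) (nat_lit 0) (cs (lf (nat_lit 5) (nat_lit 248)) (nd (nat_lit 295) (nat_lit 0) (cs (lf (nat_lit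 47) (nat_lit 206)) (lf (nat_lit 42) (nat_lit 228)))))))))))))))) q62697 (by decide +kernel)
def q62714 : Q := Q.p (nat_lit 0x600001c00000000000000000000000000000000000000000000000000000000) (nat_lit 0x3e0000f80003700001c0000300001c00006000008000000000000000000000000000000000000000) (nat_lit 11)
theorem c62714 : QOK q62714 := cut [q56859, q62450, q62472, q62476] ⟨c56859, c62450, c62472, c62476, trivial⟩ (nd (nat_lit 248) (nat_lit 0) (cs (rf (nat_lit 0)) (cs (rf (nat_lit 1)) (cs (rf (nat_lit 2)) (rf (nat_lit 3)))))) q62714 (by decide +kernel)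
def q62775 : Q := Q.p (nat_lit 0x40000000000700009400000000000000000000000000000000000000000000000000000000) (nat_lit 0x3000009800067800080000680000380000e000038000020000000000000000000000000000000000) (nat_lit 8)
theorem c62775 : QOK q62775 := cut [q62524, q62764, q46743, q56437] ⟨c62524, c62764, c46743, c56437, trivial⟩ (nd (nat_lit 270) (nat_lit 0) (cs (rf (nat_lit 0)) (cs (nd (nat_lit 229) (nat_lit 0) (cs (lf (nat_lit 7) (nat_lit 227)) (rf (nat_lit 1)))) (nd (nat_lit 204) (nat_lit 0) (cs (rf (nat_lit 2)) (cs (nd (nat_lit 229) (nat_lit 0) (cs (lf (nat_lit 7) (nat_lit 227)) (nd (nat_lit 203) (nat_lit 0) (cs (lf (nat_lit 47) (nat_lit 181)) (lf (nat_lit 20) (nat_lit 203)))))) (cs (nd (nat_lit 229) (nat_lit 0) (cs (lf (nat_lit 7) (nat_lit 227)) (nd (nat_lit 227) (nat_lit 0) (cs (lf (nat_lit 23) (nat_lit 203)) (nd (nat_lit 205) (nat_lit 0) (cs (lf (nat_lit 35) (nat_lit 182)) (lf (nat_lit 30) (nat_lit 204)))))))) (nd (nat_lit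 183) (nat_lit 0) (cs (lf (nat_lit 34) (nat_lit 182)) (nd (nat_lit 182) (nat_lit 0) (cs (lf (nat_lit 35) (nat_lit 160)) (nd (nat_lit 229) (nat_lit 0) (cs (lf (nat_lit 7) (nat_lit 227)) (rf (nat_lit 3))))))))))))))) q62775 (by decide +kernel)
def q62881 : Q := Q.p (nat_lit 0x40000800002600009000000000000000000000000000000000000000000000000000000000) (nat_lit 0x20003fe0007f00013e0007780009c0006f80003e0001e0000380000a0000000000000000000000000000000000) (nat_lit 13)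
theorem c62881 : QOK q62881 := cut [q26200, q26237, q62167, q60700, q55000, q47155, q47221, q62842, q62848, q62860, q17589, q62815, q62797, q46743, q62879] ⟨c26200, c26237, c62167, c60700, c55000, c47155, c47221, c62842, c62848, c62860, c17589, c62815, c62797, c46743, c62879, trivial⟩ (nd (nat_lit 248) (nat_lit 0) (cs (rf (nat_lit 0)) (cs (rf (nat_lit 1)) (cs (rf (nat_lit 2)) (nd (nat_lit 226) (nat_lit 0) (cs (rf (nat_lit 3)) (cs (nd (nat_lit 251) (nat_lit 0) (cs (lf (nat_lit 23) (nat_lit 225)) (nd (nat_lit 270) (nat_lit 0) (cs (lf (nat_lit 11) (nat_lit 247)) (nd (nat_lit 315) (nat_lit 0) (cs (nd (nat_lit 293) (nat_lit 0) (cs (lf (nat_lit 27) (nat_lit 226)) (lf (nat_lit 38) (nat_lit 227)))) (cs (nd (nat_lit 229) (nat_lit 0) (cs (lf (nat_lit 7) (nat_lit 227)) (nd (nat_lit 272) (nat_lit 0) (cs (lf (nat_lit 30) (nat_lit 228)) (lf (nat_lit 40) (nat_lit 227)))))) (cs (nd (nat_lit 316) (nat_lit 0) (cs (nd (nat_lit 229) (nat_lit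 0) (cs (lf (nat_lit 7) (nat_lit 227)) (lf (nat_lit 32) (nat_lit 228)))) (cs (nd (nat_lit 314) (nat_lit 0) (cs (nd (nat_lit 274) (nat_lit 0) (cs (lf (nat_lit 4) (nat_lit 248)) (nd (nat_lit 292) (nat_lit 0) (cs (lf (nat_lit 29) (nat_lit 248)) (nd (nat_lit 317) (nat_lit 0) (cs (lf (nat_lit 23) (nat_lit 291)) (nd (nat_lit 340) (nat_lit 0) (cs (lf (nat_lit 4) (nat_lit 314)) (rf (nat_lit 4)))))))))) (cs (nd (nat_lit 313) (nat_lit 0) (cs (rf (nat_lit 5)) (cs (rf (nat_lit 6)) (nd (nat_lit 291) (nat_lit 0) (cs (lf (nat_lit 23) (nat_lit 290)) (lf (nat_lit 39) (nat_lit 225))))))) (cs (nd (nat_lit 313) (nat_lit 0) (cs (rf (nat_lit 5)) (cs (nd (nat_lit 229) (nat_lit 0) (cs (lf (nat_lit 7) (nat_lit 227)) (nd (nat_lit 290) (nat_lit 0) (cs (lf (nat_lit 22) (nat_lit 290)) (nd (nat_lit 338) (nat_lit 0) (cs (lf (nat_lit 5) (nat_lit 313)) (rf (nat_lit 7)))))))) (rf (nat_lit 8))))) (nd (nat_lit 229) (nat_lit 0) (cs (lf (nat_lit 7) (nat_lit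 227)) (nd (nat_lit 273) (nat_lit 0) (cs (lf (nat_lit 5) (nat_lit 248)) (nd (nat_lit 292) (nat_lit 0) (cs (lf (nat_lit 29) (nat_lit 248)) (nd (nat_lit 335) (nat_lit 0) (cs (lf (nat_lit 40) (nat_lit 247)) (nd (nat_lit 336) (nat_lit 0) (cs (lf (nat_lit 41) (nat_lit 269)) (lf (nat_lit 6) (nat_lit 313)))))))))))))))) (nd (nat_lit 272) (nat_lit 0) (cs (lf (nat_lit 41) (nat_lit 249)) (nd (nat_lit 273) (nat_lit 0) (cs (lf (nat_lit 30) (nat_lit 250)) (lf (nat_lit 19) (nat_lit 249))))))))) (nd (nat_lit 229) (nat_lit 0) (cs (lf (nat_lit 7) (nat_lit 227)) (rf (nat_lit 9)))))))))))) (cs (nd (nat_lit 272) (nat_lit 0) (cs (rf (nat_lit 10)) (cs (rf (nat_lit 11)) (nd (nat_lit 204) (nat_lit 0) (cs (rf (nat_lit 12)) (cs (nd (nat_lit 273) (nat_lit 0) (cs (lf (nat_lit 19) (nat_lit 249)) (nd (nat_lit 293) (nat_lit 0) (cs (lf (nat_lit 41) (nat_lit 227)) (nd (nat_lit 291) (nat_lit 0) (cs (lf (nat_lit 13) (nat_lit 269)) (nd (nat_lit 270) (nat_lit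 0) (cs (lf (nat_lit 40) (nat_lit 203)) (rf (nat_lit 13)))))))))) (cs (nd (nat_lit 293) (nat_lit 0) (cs (lf (nat_lit 41) (nat_lit 227)) (nd (nat_lit 273) (nat_lit 0) (cs (lf (nat_lit 7) (nat_lit 271)) (nd (nat_lit 229) (nat_lit 0) (cs (lf (nat_lit 7) (nat_lit 227)) (nd (nat_lit 291) (nat_lit 0) (cs (lf (nat_lit 13) (nat_lit 269)) (nd (nat_lit 270) (nat_lit 0) (cs (lf (nat_lit 40) (nat_lit 203)) (nd (nat_lit 205) (nat_lit 0) (cs (lf (nat_lit 46) (nat_lit 205)) (lf (nat_lit 35) (nat_lit 182)))))))))))))) (nd (nat_lit 227) (nat_lit 0) (cs (lf (nat_lit 47) (nat_lit 205)) (nd (nat_lit 229) (nat_lit 0) (cs (lf (nat_lit 23) (nat_lit 203)) (lf (nat_lit 7) (nat_lit 227))))))))))))) (rf (nat_lit 14)))))))))) q62881 (by decide +kernel)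
def q63044 : Q := Q.p (nat_lit 0x2000000000040000700000000010000000000000000000000000000000000000000000000000000) (nat_lit 0x1fc001ff0007df001f7800738000860007600004000010000000000000000000000000000000000000000000000) (nat_lit 13)
theorem c63044 : QOK q63044 := cut [q51282, q47675, q62939, q56401, q58767, q62983, q47801, q63043] ⟨c51282, c47675, c62939, c56401, c58767, c62983, c47801, c63043, trivial⟩ (nd (nat_lit 314) (nat_lit 0) (cs (nd (nat_lit 251) (nat_lit 0) (cs (lf (nat_lit 11) (nat_lit 247)) (nd (nat_lit 229) (nat_lit 0) (cs (lf (nat_lit 17) (nat_lit 226)) (nd (nat_lit 226) (nat_lit 0) (cs (lf (nat_lit 23) (nat_lit 225)) (nd (nat_lit 273) (nat_lit 0) (cs (lf (nat_lit 5) (nat_lit 248)) (nd (nat_lit 292) (nat_lit 0) (cs (lf (nat_lit 41) (nat_lit 247)) (rf (nat_lit 0)))))))))))) (cs (nd (nat_lit 315) (nat_lit 0) (cs (nd (nat_lit 337) (nat_lit 0) (cs (nd (nat_lit 312) (nat_lit 0) (cs (lf (nat_lit 5) (nat_lit 312))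 (nd (nat_lit 333) (nat_lit 0) (cs (lf (nat_lit 10) (nat_lit 311)) (nd (nat_lit 311) (nat_lit 0) (cs (lf (nat_lit 11) (nat_lit 310)) (lf (nat_lit 4) (nat_lit 311)))))))) (lf (nat_lit 26) (nat_lit 248)))) (cs (nd (nat_lit 251) (nat_lit 0) (cs (lf (nat_lit 11) (nat_lit 247)) (nd (nat_lit 229) (nat_lit 0) (cs (lf (nat_lit 17) (nat_lit 226)) (nd (nat_lit 273) (nat_lit 0) (cs (lf (nat_lit 5) (nat_lit 248)) (nd (nat_lit 292) (nat_lit 0) (cs (lf (nat_lit 29) (nat_lit 248)) (nd (nat_lit 226) (nat_lit 0) (cs (lf (nat_lit 23) (nat_lit 225)) (lf (nat_lit 28) (nat_lit 226)))))))))))) (nd (nat_lit 312) (nat_lit 0) (cs (rf (nat_lit 1)) (nd (nat_lit 251) (nat_lit 0) (cs (lf (nat_lit 11) (nat_lit 247)) (nd (nat_lit 229) (nat_lit 0) (cs (lf (nat_lit 17) (nat_lit 226)) (nd (nat_lit 294) (nat_lit 0) (cs (lf (nat_lit 16) (nat_lit 290)) (nd (nat_lit 316) (nat_lit 0) (cs (lf (nat_lit 17) (nat_lit 291)) (lf (nat_lit 32) (nat_lit 228)))))))))))))))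 (cs (nd (nat_lit 251) (nat_lit 0) (cs (lf (nat_lit 11) (nat_lit 247)) (nd (nat_lit 273) (nat_lit 0) (cs (lf (nat_lit 5) (nat_lit 248)) (nd (nat_lit 295) (nat_lit 0) (cs (rf (nat_lit 2)) (cs (nd (nat_lit 229) (nat_lit 0) (cs (lf (nat_lit 34) (nat_lit 207)) (nd (nat_lit 206) (nat_lit 0) (cs (lf (nat_lit 46) (nat_lit 206)) (nd (nat_lit 296) (nat_lit 0) (cs (lf (nat_lit 29) (nat_lit 229)) (nd (nat_lit 294) (nat_lit 0) (cs (lf (nat_lit 41) (nat_lit 228)) (nd (nat_lit 292) (nat_lit 0) (cs (lf (nat_lit 41) (nat_lit 247)) (lf (nat_lit 8) (nat_lit 291)))))))))))) (cs (nd (nat_lit 225) (nat_lit 0) (cs (lf (nat_lit 22) (nat_lit 225)) (nd (nat_lit 292) (nat_lit 0) (cs (lf (nat_lit 41) (nat_lit 247)) (nd (nat_lit 293) (nat_lit 0) (cs (lf (nat_lit 7) (nat_lit 291)) (nd (nat_lit 311) (nat_lit 0) (cs (rf (nat_lit 3)) (lf (nat_lit 13) (nat_lit 289)))))))))) (nd (nat_lit 225) (nat_lit 0) (cs (lf (nat_lit 22) (nat_lit 225)) (nd (nat_lit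 292) (nat_lit 0) (cs (lf (nat_lit 41) (nat_lit 247)) (nd (nat_lit 293) (nat_lit 0) (cs (lf (nat_lit 7) (nat_lit 291)) (nd (nat_lit 229) (nat_lit 0) (cs (lf (nat_lit 17) (nat_lit 226)) (nd (nat_lit 318) (nat_lit 0) (cs (lf (nat_lit 28) (nat_lit 229)) (nd (nat_lit 317) (nat_lit 0) (cs (lf (nat_lit 29) (nat_lit 251)) (rf (nat_lit 4)))))))))))))))))))))) (cs (rf (nat_lit 5)) (cs (nd (nat_lit 292) (nat_lit 0) (cs (lf (nat_lit 41) (nat_lit 247)) (nd (nat_lit 315) (nat_lit 0) (cs (lf (nat_lit 29) (nat_lit 248)) (nd (nat_lit 293) (nat_lit 0) (cs (lf (nat_lit 24) (nat_lit 226)) (rf (nat_lit 6)))))))) (rf (nat_lit 7)))))))) q63044 (by decide +kernel)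
def q63230 : Q := Q.p (nat_lit 0x2000000000040000700000000000000000000000000000000000000000000000000000000000000) (nat_lit 0x3c0000f0001fe000ffc003de000efc0013c0008700001c0000500000000000000000000000000000000000000000000000000) (nat_lit 13)
theorem c63230 : QOK q63230 := cut [q63048, q63052, q63073, q51079, q62892, q47661, q60183, q63125, q63162, q63220, q63194] ⟨c63048, c63052, c63073, c51079, c62892, c47661, c60183, c63125, c63162, c63220, c63194, trivial⟩ (nd (nat_lit 269) (nat_lit 0) (cs (lf (nat_lit 6) (nat_lit 247)) (nd (nat_lit 335) (nat_lit 0) (cs (lf (nat_lit 32) (nat_lit 247)) (nd (nat_lit 312) (nat_lit 0) (cs (nd (nat_lit 268) (nat_lit 0) (cs (lf (nat_lit 12) (nat_lit 245)) (nd (nat_lit 290) (nat_lit 0) (cs (lf (nat_lit 24) (nat_lit 246)) (rf (nat_lit 0)))))) (cs (nd (nat_lit 268) (nat_lit 0) (cs (lf (nat_lit 12) (nat_lit 245)) (nd (nat_lit 290) (nat_lit 0) (cs (lf (nat_lit 24) (nat_lit 246)) (nd (nat_lit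 357) (nat_lit 0) (cs (lf (nat_lit 42) (nat_lit 290)) (nd (nat_lit 311) (nat_lit 0) (cs (rf (nat_lit 1)) (cs (nd (nat_lit 333) (nat_lit 0) (cs (nd (nat_lit 355) (nat_lit 0) (cs (lf (nat_lit 30) (nat_lit 289)) (lf (nat_lit 33) (nat_lit 267)))) (nd (nat_lit 332) (nat_lit 0) (cs (nd (nat_lit 331) (nat_lit 0) (cs (lf (nat_lit 12) (nat_lit 308)) (lf (nat_lit 9) (nat_lit 309)))) (lf (nat_lit 6) (nat_lit 310)))))) (cs (nd (nat_lit 314) (nat_lit 0) (cs (nd (nat_lit 337) (nat_lit 0) (cs (lf (nat_lit 4) (nat_lit 311)) (nd (nat_lit 315) (nat_lit 0) (cs (lf (nat_lit 5) (nat_lit 312)) (nd (nat_lit 294) (nat_lit 0) (cs (lf (nat_lit 16) (nat_lit 290)) (nd (nat_lit 316) (nat_lit 0) (cs (lf (nat_lit 37) (nat_lit 249)) (lf (nat_lit 17) (nat_lit 291)))))))))) (nd (nat_lit 333) (nat_lit 0) (cs (lf (nat_lit 11) (nat_lit 310)) (nd (nat_lit 289) (nat_lit 0) (cs (lf (nat_lit 23) (nat_lit 288)) (lf (nat_lit 30) (nat_lit 267)))))))) (rf (nat_lit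 2)))))))))))) (cs (nd (nat_lit 311) (nat_lit 0) (cs (rf (nat_lit 1)) (cs (rf (nat_lit 2)) (cs (nd (nat_lit 332) (nat_lit 0) (cs (nd (nat_lit 310) (nat_lit 0) (cs (lf (nat_lit 11) (nat_lit 309)) (nd (nat_lit 309) (nat_lit 0) (cs (rf (nat_lit 3)) (lf (nat_lit 4) (nat_lit 309)))))) (cs (nd (nat_lit 314) (nat_lit 0) (cs (lf (nat_lit 10) (nat_lit 310)) (nd (nat_lit 289) (nat_lit 0) (cs (lf (nat_lit 23) (nat_lit 288)) (nd (nat_lit 315) (nat_lit 0) (cs (lf (nat_lit 22) (nat_lit 289)) (nd (nat_lit 293) (nat_lit 0) (cs (lf (nat_lit 17) (nat_lit 290)) (nd (nat_lit 316) (nat_lit 0) (cs (lf (nat_lit 11) (nat_lit 312)) (rf (nat_lit 4)))))))))))) (cs (nd (nat_lit 314) (nat_lit 0) (cs (lf (nat_lit 10) (nat_lit 310)) (nd (nat_lit 288) (nat_lit 0) (cs (rf (nat_lit 5)) (lf (nat_lit 22) (nat_lit 288)))))) (nd (nat_lit 310) (nat_lit 0) (cs (lf (nat_lit 11) (nat_lit 309)) (nd (nat_lit 333) (nat_lit 0) (cs (lf (nat_lit 6) (nat_lit 310))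 (nd (nat_lit 334) (nat_lit 0) (cs (lf (nat_lit 0) (nat_lit 309)) (nd (nat_lit 357) (nat_lit 0) (cs (rf (nat_lit 6)) (lf (nat_lit 5) (nat_lit 332)))))))))))))) (rf (nat_lit 7)))))) (cs (rf (nat_lit 8)) (cs (rf (nat_lit 9)) (nd (nat_lit 267) (nat_lit 0) (cs (lf (nat_lit 13) (nat_lit 245)) (nd (nat_lit 311) (nat_lit 0) (cs (rf (nat_lit 1)) (cs (rf (nat_lit 2)) (cs (rf (nat_lit 7)) (nd (nat_lit 289) (nat_lit 0) (cs (rf (nat_lit 10)) (nd (nat_lit 288) (nat_lit 0) (cs (lf (nat_lit 18) (nat_lit 288)) (nd (nat_lit 287) (nat_lit 0) (cs (lf (nat_lit 0) (nat_lit 286)) (lf (nat_lit 21) (nat_lit 287)))))))))))))))))))))))) q63230 (by decide +kernel)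
def q63311 : Q := Q.p (nat_lit 0x40000300000400000000000000000000000000000000000000000000000000000000) (nat_lit 0x80000380000e00003800008000000000000000380000e000028000000000000000000000000000000000000000) (nat_lit 7)
theorem c63311 : QOK q63311 := cut [q57628, q62512, q63307, q11170] ⟨c57628, c62512, c63307, c11170, trivial⟩ (nd (nat_lit 292) (nat_lit 0) (cs (rf (nat_lit 0)) (cs (rf (nat_lit 1)) (cs (rf (nat_lit 2)) (nd (nat_lit 313) (nat_lit 0) (cs (lf (nat_lit 40) (nat_lit 225)) (nd (nat_lit 314) (nat_lit 0) (cs (lf (nat_lit 41) (nat_lit 247)) (nd (nat_lit 271) (nat_lit 0) (cs (rf (nat_lit 3)) (lf (nat_lit 30) (nat_lit 248)))))))))))) q63311 (by decide +kernel)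
def q63483 : Q := Q.p (nat_lit 0x840000700000000000000000000000000000000000000000000000000000000000000) (nat_lit 0x80000b00003e0000fe000ffe001ff0007be000060001780003a0000e000028000000000000000000000000000000000000000) (nat_lit 14)
theorem c63483 : QOK q63483 := cut [q63343, q63333, q63339, q63348, q63418, q57628, q62567, q63332, q63395, q63435, q46589, q63347, q63468, q63482] ⟨c63343, c63333, c63339, c63348, c63418, c57628, c62567, c63332, c63395, c63435, c46589, c63347, c63468, c63482, trivial⟩ (nd (nat_lit 292) (nat_lit 0) (cs (rf (nat_lit 0)) (cs (nd (nat_lit 315) (nat_lit 0) (cs (rf (nat_lit 1)) (cs (nd (nat_lit 314) (nat_lit 0) (cs (lf (nat_lit 29) (nat_lit 248)) (nd (nat_lit 313) (nat_lit 0) (cs (lf (nat_lit 41) (nat_lit 247)) (nd (nat_lit 291) (nat_lit 0) (cs (lf (nat_lit 36) (nat_lit 225)) (rf (nat_lit 2)))))))) (cs (rf (nat_lit 3)) (nd (nat_lit 314) (nat_lit 0) (cs (lf (nat_lit 29) (nat_lit 248)) (nd (nat_lit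 291) (nat_lit 0) (cs (nd (nat_lit 313) (nat_lit 0) (cs (lf (nat_lit 41) (nat_lit 247)) (nd (nat_lit 316) (nat_lit 0) (cs (lf (nat_lit 23) (nat_lit 290)) (lf (nat_lit 18) (nat_lit 291)))))) (cs (nd (nat_lit 313) (nat_lit 0) (cs (lf (nat_lit 41) (nat_lit 247)) (nd (nat_lit 316) (nat_lit 0) (cs (lf (nat_lit 18) (nat_lit 291)) (nd (nat_lit 294) (nat_lit 0) (cs (lf (nat_lit 17) (nat_lit 291)) (nd (nat_lit 293) (nat_lit 0) (cs (lf (nat_lit 12) (nat_lit 290)) (nd (nat_lit 272) (nat_lit 0) (cs (lf (nat_lit 36) (nat_lit 227)) (lf (nat_lit 17) (nat_lit 269)))))))))))) (cs (nd (nat_lit 316) (nat_lit 0) (cs (lf (nat_lit 18) (nat_lit 291)) (nd (nat_lit 290) (nat_lit 0) (cs (lf (nat_lit 0) (nat_lit 289)) (lf (nat_lit 3) (nat_lit 290)))))) (nd (nat_lit 335) (nat_lit 0) (cs (lf (nat_lit 40) (nat_lit 247)) (nd (nat_lit 289) (nat_lit 0) (cs (nd (nat_lit 336) (nat_lit 0) (cs (lf (nat_lit 41) (nat_lit 269)) (nd (nat_lit 333) (nat_lit 0)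 (cs (lf (nat_lit 13) (nat_lit 311)) (nd (nat_lit 358) (nat_lit 0) (cs (nd (nat_lit 381) (nat_lit 0) (cs (lf (nat_lit 28) (nat_lit 292)) (nd (nat_lit 380) (nat_lit 0) (cs (lf (nat_lit 35) (nat_lit 292)) (lf (nat_lit 29) (nat_lit 314)))))) (lf (nat_lit 47) (nat_lit 269)))))))) (lf (nat_lit 1) (nat_lit 289)))))))))))))))) (cs (rf (nat_lit 4)) (cs (nd (nat_lit 226) (nat_lit 0) (cs (rf (nat_lit 5)) (cs (rf (nat_lit 6)) (cs (rf (nat_lit 7)) (nd (nat_lit 293) (nat_lit 0) (cs (lf (nat_lit 29) (nat_lit 226)) (nd (nat_lit 268) (nat_lit 0) (cs (rf (nat_lit 8)) (cs (nd (nat_lit 203) (nat_lit 0) (cs (lf (nat_lit 46) (nat_lit 203)) (nd (nat_lit 291) (nat_lit 0) (cs (lf (nat_lit 41) (nat_lit 225)) (nd (nat_lit 290) (nat_lit 0) (cs (lf (nat_lit 23) (nat_lit 267)) (nd (nat_lit 271) (nat_lit 0) (cs (lf (nat_lit 12) (nat_lit 267)) (lf (nat_lit 17) (nat_lit 268)))))))))) (cs (nd (nat_lit 291) (nat_lit 0) (cs (lf (nat_lit 41) (nat_lit 225))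 (nd (nat_lit 269) (nat_lit 0) (cs (lf (nat_lit 15) (nat_lit 246)) (lf (nat_lit 18) (nat_lit 268)))))) (nd (nat_lit 267) (nat_lit 0) (cs (lf (nat_lit 14) (nat_lit 245)) (nd (nat_lit 291) (nat_lit 0) (cs (lf (nat_lit 41) (nat_lit 225)) (lf (nat_lit 21) (nat_lit 267)))))))))))))))) (cs (rf (nat_lit 9)) (cs (nd (nat_lit 293) (nat_lit 0) (cs (nd (nat_lit 226) (nat_lit 0) (cs (lf (nat_lit 29) (nat_lit 226)) (nd (nat_lit 204) (nat_lit 0) (cs (lf (nat_lit 28) (nat_lit 204)) (rf (nat_lit 10)))))) (cs (nd (nat_lit 315) (nat_lit 0) (cs (lf (nat_lit 24) (nat_lit 226)) (rf (nat_lit 11)))) (rf (nat_lit 12))))) (rf (nat_lit 13))))))))) q63483 (by decide +kernel)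
def q63535 : Q := Q.p (nat_lit 0x700000000000000000000000000000000000000000000000000000000000000) (nat_lit 0x1f00007c0003f80000c0003780005c0001700001c000050000000000000000000000000000000000) (nat_lit 15)
theorem c63535 : QOK q63535 := cut [q44571, q63513, q44691, q51534, q63532] ⟨c44571, c63513, c44691, c51534, c63532, trivial⟩ (nd (nat_lit 247) (nat_lit 0) (cs (rf (nat_lit 0)) (cs (rf (nat_lit 1)) (nd (nat_lit 225) (nat_lit 0) (cs (lf (nat_lit 23) (nat_lit 224)) (nd (nat_lit 203) (nat_lit 0) (cs (rf (nat_lit 2)) (cs (rf (nat_lit 3)) (cs (nd (nat_lit 269) (nat_lit 0) (cs (lf (nat_lit 11) (nat_lit 246)) (nd (nat_lit 272) (nat_lit 0) (cs (lf (nat_lit 5) (nat_lit 247)) (nd (nat_lit 180) (nat_lit 0) (cs (lf (nat_lit 46) (nat_lit 180)) (nd (nat_lit 182) (nat_lit 0) (cs (lf (nat_lit 34) (nat_lit 181)) (nd (nat_lit 292) (nat_lit 0) (cs (lf (nat_lit 28) (nat_lit 203)) (nd (nat_lit 228) (nat_lit 0) (cs (lf (nat_lit 17) (nat_lit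 225)) (nd (nat_lit 291) (nat_lit 0) (cs (lf (nat_lit 29) (nat_lit 225)) (nd (nat_lit 290) (nat_lit 0) (cs (lf (nat_lit 41) (nat_lit 224)) (nd (nat_lit 226) (nat_lit 0) (cs (lf (nat_lit 30) (nat_lit 225)) (nd (nat_lit 293) (nat_lit 0) (cs (lf (nat_lit 16) (nat_lit 268)) (nd (nat_lit 315) (nat_lit 0) (cs (lf (nat_lit 39) (nat_lit 227)) (lf (nat_lit 5) (nat_lit 290)))))))))))))))))))))))) (rf (nat_lit 4))))))))))) q63535 (by decide +kernel)
def q63594 : Q := Q.p (nat_lit 0x700000000000000000000000000000000000000000000000000000000000000) (nat_lit 0xa0000380007e0001fe0006f80008c000fc0000780000e000038000080000000000000000000000000000000000) (nat_lit 15)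
theorem c63594 : QOK q63594 := cut [q57373, q57626, q58952, q63343, q26200, q26237, q57628, q63554, q63561, q63564, q63573, q62516, q63575, q40883, q62522, q63593] ⟨c57373, c57626, c58952, c63343, c26200, c26237, c57628, c63554, c63561, c63564, c63573, c62516, c63575, c40883, c62522, c63593, trivial⟩ (nd (nat_lit 270) (nat_lit 0) (cs (rf (nat_lit 0)) (cs (nd (nat_lit 292) (nat_lit 0) (cs (rf (nat_lit 1)) (cs (rf (nat_lit 2)) (cs (rf (nat_lit 3)) (nd (nat_lit 228) (nat_lit 0) (cs (rf (nat_lit 4)) (cs (rf (nat_lit 5)) (cs (nd (nat_lit 226) (nat_lit 0) (cs (rf (nat_lit 6)) (cs (rf (nat_lit 7)) (cs (rf (nat_lit 8)) (cs (nd (nat_lit 227) (nat_lit 0) (cs (lf (nat_lit 35) (nat_lit 204)) (nd (nat_lit 246) (nat_lit 0) (cs (lf (nat_lit 13) (nat_lit 224)) (nd (nat_lit 293) (nat_lit 0) (cs (lf (nat_lit 29) (nat_lit 226)) (nd (nat_lit 271) (nat_lit 0) (cs (lf (nat_lit 35) (nat_lit 205)) (nd (nat_lit 291) (nat_lit 0) (cs (lf (nat_lit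 41) (nat_lit 225)) (nd (nat_lit 294) (nat_lit 0) (cs (lf (nat_lit 29) (nat_lit 227)) (nd (nat_lit 289) (nat_lit 0) (cs (lf (nat_lit 13) (nat_lit 267)) (rf (nat_lit 9)))))))))))))))) (rf (nat_lit 10))))))) (nd (nat_lit 226) (nat_lit 0) (cs (rf (nat_lit 6)) (cs (rf (nat_lit 11)) (cs (rf (nat_lit 10)) (nd (nat_lit 293) (nat_lit 0) (cs (lf (nat_lit 29) (nat_lit 226)) (nd (nat_lit 291) (nat_lit 0) (cs (lf (nat_lit 41) (nat_lit 225)) (nd (nat_lit 227) (nat_lit 0) (cs (lf (nat_lit 35) (nat_lit 204)) (nd (nat_lit 229) (nat_lit 0) (cs (lf (nat_lit 6) (nat_lit 226)) (nd (nat_lit 271) (nat_lit 0) (cs (lf (nat_lit 35) (nat_lit 205)) (nd (nat_lit 289) (nat_lit 0) (cs (lf (nat_lit 13) (nat_lit 267)) (rf (nat_lit 12)))))))))))))))))))))))))) (cs (nd (nat_lit 292) (nat_lit 0) (cs (rf (nat_lit 1)) (cs (rf (nat_lit 2)) (cs (rf (nat_lit 3)) (nd (nat_lit 269) (nat_lit 0) (cs (rf (nat_lit 13)) (nd (nat_lit 226) (nat_lit 0) (cs (rf (nat_lit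 6)) (cs (rf (nat_lit 14)) (cs (rf (nat_lit 10)) (nd (nat_lit 291) (nat_lit 0) (cs (lf (nat_lit 41) (nat_lit 225)) (nd (nat_lit 227) (nat_lit 0) (cs (lf (nat_lit 35) (nat_lit 204)) (nd (nat_lit 293) (nat_lit 0) (cs (lf (nat_lit 29) (nat_lit 226)) (nd (nat_lit 294) (nat_lit 0) (cs (lf (nat_lit 18) (nat_lit 269)) (nd (nat_lit 316) (nat_lit 0) (cs (lf (nat_lit 5) (nat_lit 291)) (lf (nat_lit 26) (nat_lit 227)))))))))))))))))))))) (rf (nat_lit 15)))))) q63594 (by decide +kernel)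
def q63686 : Q := Q.p (nat_lit 0x700000000000000000000000000000000000000000000000000000000000000) (nat_lit 0x180000e0000b80006e00008e000ffc0007f0001fc0003c0000b0000000000000000000000000000000000) (nat_lit 15)
theorem c63686 : QOK q63686 := cut [q60700, q56421, q62615, q63629, q63634, q58944, q62617, q60699, q61604, q59416, q26200, q979, q56437, q63685] ⟨c60700, c56421, c62615, c63629, c63634, c58944, c62617, c60699, c61604, c59416, c26200, c979, c56437, c63685, trivial⟩ (nd (nat_lit 226) (nat_lit 0) (cs (rf (nat_lit 0)) (cs (nd (nat_lit 204) (nat_lit 0) (cs (rf (nat_lit 1)) (cs (nd (nat_lit 270) (nat_lit 0) (cs (rf (nat_lit 2)) (cs (nd (nat_lit 181) (nat_lit 0) (cs (lf (nat_lit 46) (nat_lit 181)) (nd (nat_lit 271) (nat_lit 0) (cs (lf (nat_lit 29) (nat_lit 204)) (nd (nat_lit 251) (nat_lit 0) (cs (lf (nat_lit 11) (nat_lit 247)) (nd (nat_lit 229) (nat_lit 0) (cs (lf (nat_lit 17) (nat_lit 226)) (rf (nat_lit 3))))))))))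 (rf (nat_lit 4))))) (cs (nd (nat_lit 182) (nat_lit 0) (cs (rf (nat_lit 5)) (rf (nat_lit 6)))) (cs (nd (nat_lit 182) (nat_lit 0) (cs (lf (nat_lit 29) (nat_lit 182)) (nd (nat_lit 161) (nat_lit 0) (cs (lf (nat_lit 34) (nat_lit 160)) (nd (nat_lit 139) (nat_lit 0) (cs (lf (nat_lit 33) (nat_lit 138)) (nd (nat_lit 159) (nat_lit 0) (cs (lf (nat_lit 46) (nat_lit 159)) (nd (nat_lit 269) (nat_lit 0) (cs (lf (nat_lit 40) (nat_lit 181)) (nd (nat_lit 270) (nat_lit 0) (cs (lf (nat_lit 41) (nat_lit 203)) (lf (nat_lit 6) (nat_lit 247)))))))))))))) (nd (nat_lit 182) (nat_lit 0) (cs (lf (nat_lit 29) (nat_lit 182)) (nd (nat_lit 247) (nat_lit 0) (cs (lf (nat_lit 41) (nat_lit 181)) (nd (nat_lit 228) (nat_lit 0) (cs (lf (nat_lit 17) (nat_lit 225)) (nd (nat_lit 227) (nat_lit 0) (cs (lf (nat_lit 12) (nat_lit 224)) (lf (nat_lit 24) (nat_lit 160))))))))))))))) (cs (nd (nat_lit 225) (nat_lit 0) (cs (rf (nat_lit 7)) (cs (rf (nat_lit 8)) (cs (nd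 (nat_lit 204) (nat_lit 0) (cs (rf (nat_lit 1)) (cs (nd (nat_lit 270) (nat_lit 0) (cs (rf (nat_lit 9)) (cs (nd (nat_lit 228) (nat_lit 0) (cs (rf (nat_lit 10)) (cs (nd (nat_lit 203) (nat_lit 0) (cs (lf (nat_lit 47) (nat_lit 181)) (nd (nat_lit 269) (nat_lit 0) (cs (lf (nat_lit 41) (nat_lit 203)) (nd (nat_lit 229) (nat_lit 0) (cs (lf (nat_lit 12) (nat_lit 225)) (nd (nat_lit 205) (nat_lit 0) (cs (lf (nat_lit 35) (nat_lit 182)) (lf (nat_lit 3) (nat_lit 203)))))))))) (cs (nd (nat_lit 203) (nat_lit 0) (cs (lf (nat_lit 47) (nat_lit 181)) (nd (nat_lit 227) (nat_lit 0) (cs (lf (nat_lit 23) (nat_lit 202)) (lf (nat_lit 18) (nat_lit 203)))))) (nd (nat_lit 269) (nat_lit 0) (cs (lf (nat_lit 41) (nat_lit 203)) (nd (nat_lit 183) (nat_lit 0) (cs (lf (nat_lit 34) (nat_lit 182)) (nd (nat_lit 203) (nat_lit 0) (cs (lf (nat_lit 47) (nat_lit 181)) (nd (nat_lit 202) (nat_lit 0) (cs (nd (nat_lit 201) (nat_lit 0) (cs (lf (nat_lit 0) (nat_lit 200))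 (nd (nat_lit 180) (nat_lit 0) (cs (nd (nat_lit 158) (nat_lit 0) (cs (lf (nat_lit 24) (nat_lit 136)) (nd (nat_lit 223) (nat_lit 0) (cs (lf (nat_lit 11) (nat_lit 200)) (nd (nat_lit 179) (nat_lit 0) (cs (lf (nat_lit 23) (nat_lit 178)) (lf (nat_lit 30) (nat_lit 157)))))))) (lf (nat_lit 43) (nat_lit 180)))))) (lf (nat_lit 19) (nat_lit 202)))))))))))))) (nd (nat_lit 269) (nat_lit 0) (cs (lf (nat_lit 41) (nat_lit 203)) (nd (nat_lit 183) (nat_lit 0) (cs (lf (nat_lit 34) (nat_lit 182)) (nd (nat_lit 293) (nat_lit 0) (cs (lf (nat_lit 28) (nat_lit 204)) (nd (nat_lit 292) (nat_lit 0) (cs (lf (nat_lit 29) (nat_lit 226)) (nd (nat_lit 314) (nat_lit 0) (cs (lf (nat_lit 35) (nat_lit 226)) (lf (nat_lit 46) (nat_lit 225))))))))))))))) (cs (nd (nat_lit 182) (nat_lit 0) (cs (rf (nat_lit 11)) (cs (rf (nat_lit 12)) (cs (rf (nat_lit 5)) (nd (nat_lit 161) (nat_lit 0) (cs (lf (nat_lit 34) (nat_lit 160)) (nd (nat_lit 247) (nat_lit 0) (cs (lf (nat_lit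 41) (nat_lit 181)) (nd (nat_lit 228) (nat_lit 0) (cs (lf (nat_lit 17) (nat_lit 225)) (nd (nat_lit 227) (nat_lit 0) (cs (lf (nat_lit 12) (nat_lit 224)) (nd (nat_lit 181) (nat_lit 0) (cs (lf (nat_lit 47) (nat_lit 159)) (nd (nat_lit 203) (nat_lit 0) (cs (lf (nat_lit 29) (nat_lit 181)) (lf (nat_lit 23) (nat_lit 202)))))))))))))))))) (nd (nat_lit 182) (nat_lit 0) (cs (lf (nat_lit 29) (nat_lit 182)) (nd (nat_lit 247) (nat_lit 0) (cs (lf (nat_lit 41) (nat_lit 181)) (lf (nat_lit 36) (nat_lit 159)))))))))) (nd (nat_lit 224) (nat_lit 0) (cs (lf (nat_lit 21) (nat_lit 224)) (lf (nat_lit 3) (nat_lit 224)))))))) (rf (nat_lit 13)))))) q63686 (by decide +kernel)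
def q63716 : Q := Q.p (nat_lit 0x40000100000600000000000000000000000000000000000000000000000000000000000000) (nat_lit 0x280000e000038000000000000000800002800000000000000000000000000000000000000000000000000000000) (nat_lit 6)
theorem c63716 : QOK q63716 := cut [q55328] ⟨c55328, trivial⟩ (nd (nat_lit 316) (nat_lit 0) (cs (lf (nat_lit 47) (nat_lit 227)) (rf (nat_lit 0)))) q63716 (by decide +kernel)
def q63776 : Q := Q.p (nat_lit 0x700000400000000000000000000000000000000000000000000000000000000) (nat_lit 0x80000380000e0000380001c0000080000b80007e0007fc000780000a0000000000000000000000000000000000) (nat_lit 12)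
theorem c63776 : QOK q63776 := cut [q44575, q56421, q56438, q63757, q57615, q63710, q63739, q27078, q63765, q63766, q15282] ⟨c44575, c56421, c56438, c63757, c57615, c63710, c63739, c27078, c63765, c63766, c15282, trivial⟩ (nd (nat_lit 204) (nat_lit 0) (cs (rf (nat_lit 0)) (cs (rf (nat_lit 1)) (cs (rf (nat_lit 2)) (cs (rf (nat_lit 3)) (nd (nat_lit 270) (nat_lit 0) (cs (rf (nat_lit 4)) (cs (rf (nat_lit 5)) (cs (rf (nat_lit 6)) (cs (nd (nat_lit 224) (nat_lit 0) (cs (nd (nat_lit 205) (nat_lit 0) (cs (lf (nat_lit 35) (nat_lit 182)) (nd (nat_lit 271) (nat_lit 0) (cs (lf (nat_lit 29) (nat_lit 204)) (nd (nat_lit 203) (nat_lit 0) (cs (lf (nat_lit 47) (nat_lit 181)) (nd (nat_lit 202) (nat_lit 0) (cs (lf (nat_lit 11) (nat_lit 201)) (nd (nat_lit 201) (nat_lit 0) (cs (rf (nat_lit 7)) (lf (nat_lit 5) (nat_lit 201)))))))))))) (cs (rf (nat_lit 8)) (rf (nat_lit 9))))) (nd (nat_lit 181) (nat_lit 0) (cs (lf (nat_lit 46) (nat_lit 181))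 (nd (nat_lit 205) (nat_lit 0) (cs (lf (nat_lit 35) (nat_lit 182)) (nd (nat_lit 292) (nat_lit 0) (cs (lf (nat_lit 34) (nat_lit 204)) (nd (nat_lit 313) (nat_lit 0) (cs (lf (nat_lit 40) (nat_lit 225)) (nd (nat_lit 314) (nat_lit 0) (cs (lf (nat_lit 41) (nat_lit 247)) (nd (nat_lit 225) (nat_lit 0) (cs (lf (nat_lit 46) (nat_lit 225)) (nd (nat_lit 223) (nat_lit 0) (cs (rf (nat_lit 10)) (lf (nat_lit 1) (nat_lit 223)))))))))))))))))))))))))) q63776 (by decide +kernel)
def q63798 : Q := Q.p (nat_lit 0x800000700000000000000000000000000000000000000000000000000000000000000) (nat_lit 0xa0000380001fc0007e0007fc000880006c0000380000e000038000080000000000000000000000000000000000) (nat_lit 12)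
theorem c63798 : QOK q63798 := cut [q57373, q63593, q57626, q58952, q63343, q63708, q57628, q63554, q63561, q63573, q63452, q63791] ⟨c57373, c63593, c57626, c58952, c63343, c63708, c57628, c63554, c63561, c63573, c63452, c63791, trivial⟩ (nd (nat_lit 270) (nat_lit 0) (cs (rf (nat_lit 0)) (cs (rf (nat_lit 1)) (cs (nd (nat_lit 292) (nat_lit 0) (cs (rf (nat_lit 2)) (cs (rf (nat_lit 3)) (cs (rf (nat_lit 4)) (nd (nat_lit 272) (nat_lit 0) (cs (rf (nat_lit 5)) (nd (nat_lit 226) (nat_lit 0) (cs (rf (nat_lit 6)) (cs (rf (nat_lit 7)) (cs (rf (nat_lit 8)) (cs (rf (nat_lit 9)) (nd (nat_lit 293) (nat_lit 0) (cs (lf (nat_lit 29) (nat_lit 226)) (nd (nat_lit 205) (nat_lit 0) (cs (lf (nat_lit 34) (nat_lit 204)) (nd (nat_lit 291) (nat_lit 0) (cs (lf (nat_lit 41) (nat_lit 225)) (nd (nat_lit 290) (nat_lit 0) (cs (lf (nat_lit 16) (nat_lit 268)) (rf (nat_lit 10))))))))))))))))))))) (nd (nat_lit 292) (nat_lit 0) (cs (rf (nat_lit 3)) (nd (nat_lit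 251) (nat_lit 0) (cs (lf (nat_lit 11) (nat_lit 247)) (nd (nat_lit 229) (nat_lit 0) (cs (lf (nat_lit 17) (nat_lit 226)) (nd (nat_lit 273) (nat_lit 0) (cs (lf (nat_lit 5) (nat_lit 248)) (nd (nat_lit 272) (nat_lit 0) (cs (lf (nat_lit 0) (nat_lit 247)) (nd (nat_lit 294) (nat_lit 0) (cs (lf (nat_lit 30) (nat_lit 228)) (rf (nat_lit 11)))))))))))))))))) q63798 (by decide +kernel)
def q63902 : Q := Q.p (nat_lit 0x800002600001000010000010000000000000000000000000000000000000000000000) (nat_lit 0x90000e8001e38007ec003ff8003f80003c0000e0000380000a0000000000000) (nat_lit 12)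
theorem c63902 : QOK q63902 := cut [q56766, q62169, q58456, q62250, q63852, q456, q62247, q39386, q39388, q62180, q62319, q63866, q39389, q38890, q461, q62300, q4772, q39506, q63899, q8750, q62243] ⟨c56766, c62169, c58456, c62250, c63852, c456, c62247, c39386, c39388, c62180, c62319, c63866, c39389, c38890, c461, c62300, c4772, c39506, c63899, c8750, c62243, trivial⟩ (nd (nat_lit 186) (nat_lit 0) (cs (rf (nat_lit 0)) (cs (rf (nat_lit 1)) (cs (nd (nat_lit 164) (nat_lit 0) (cs (rf (nat_lit 2)) (cs (rf (nat_lit 3)) (cs (nd (nat_lit 230) (nat_lit 0) (cs (lf (nat_lit 28) (nat_lit 164)) (nd (nat_lit 229) (nat_lit 0) (cs (lf (nat_lit 41) (nat_lit 163)) (nd (nat_lit 141) (nat_lit 0) (cs (lf (nat_lit 46) (nat_lit 141)) (nd (nat_lit 119) (nat_lit 0) (cs (lf (nat_lit 45) (nat_lit 119)) (rf (nat_lit 4)))))))))) (cs (nd (nat_lit 230) (nat_lit 0) (cs (lf (nat_lit 28) (nat_lit 164)) (nd (nat_lit 229) (nat_lit 0) (cs (lf (nat_lit 41)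 (nat_lit 163)) (nd (nat_lit 143) (nat_lit 0) (cs (lf (nat_lit 34) (nat_lit 142)) (nd (nat_lit 121) (nat_lit 0) (cs (lf (nat_lit 33) (nat_lit 120)) (rf (nat_lit 4)))))))))) (nd (nat_lit 165) (nat_lit 0) (cs (rf (nat_lit 5)) (cs (rf (nat_lit 6)) (cs (nd (nat_lit 142) (nat_lit 0) (cs (rf (nat_lit 7)) (cs (rf (nat_lit 8)) (cs (rf (nat_lit 9)) (cs (nd (nat_lit 183) (nat_lit 0) (cs (lf (nat_lit 14) (nat_lit 161)) (nd (nat_lit 141) (nat_lit 0) (cs (lf (nat_lit 47) (nat_lit 119)) (nd (nat_lit 121) (nat_lit 0) (cs (lf (nat_lit 34) (nat_lit 120)) (nd (nat_lit 140) (nat_lit 0) (cs (lf (nat_lit 0) (nat_lit 139)) (rf (nat_lit 10)))))))))) (nd (nat_lit 121) (nat_lit 0) (cs (lf (nat_lit 34) (nat_lit 120)) (nd (nat_lit 183) (nat_lit 0) (cs (lf (nat_lit 14) (nat_lit 161)) (nd (nat_lit 163) (nat_lit 0) (cs (lf (nat_lit 9) (nat_lit 161)) (rf (nat_lit 11))))))))))))) (cs (nd (nat_lit 142) (nat_lit 0) (cs (rf (nat_lit 7)) (cs (rf (nat_lit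 8)) (cs (rf (nat_lit 12)) (cs (rf (nat_lit 9)) (nd (nat_lit 121) (nat_lit 0) (cs (lf (nat_lit 34) (nat_lit 120)) (nd (nat_lit 120) (nat_lit 0) (cs (lf (nat_lit 35) (nat_lit 98)) (nd (nat_lit 98) (nat_lit 0) (cs (lf (nat_lit 29) (nat_lit 98)) (nd (nat_lit 163) (nat_lit 0) (cs (lf (nat_lit 41) (nat_lit 97)) (rf (nat_lit 13))))))))))))))) (nd (nat_lit 142) (nat_lit 0) (cs (rf (nat_lit 7)) (cs (rf (nat_lit 8)) (cs (rf (nat_lit 12)) (cs (rf (nat_lit 9)) (nd (nat_lit 163) (nat_lit 0) (cs (rf (nat_lit 14)) (cs (rf (nat_lit 15)) (nd (nat_lit 121) (nat_lit 0) (cs (lf (nat_lit 34) (nat_lit 120)) (rf (nat_lit 11)))))))))))))))))))))) (nd (nat_lit 185) (nat_lit 0) (cs (rf (nat_lit 16)) (cs (nd (nat_lit 183) (nat_lit 0) (cs (lf (nat_lit 5) (nat_lit 183)) (rf (nat_lit 17)))) (cs (rf (nat_lit 18)) (nd (nat_lit 183) (nat_lit 0) (cs (rf (nat_lit 19)) (rf (nat_lit 20)))))))))))) q63902 (by decide +kernel)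
def q63939 : Q := Q.p (nat_lit 0x60000800000600001800000000000000000000000000000000000000000000000000000000) (nat_lit 0xf7000198001670000900000000000000000000000000000000000000000000000000000000000000) (nat_lit 8)
theorem c63939 : QOK q63939 := cut [q61925, q63931, q14508, q58551, q61775, q63933, q63937] ⟨c61925, c63931, c14508, c58551, c61775, c63933, c63937, trivial⟩ (nd (nat_lit 295) (nat_lit 0) (cs (rf (nat_lit 0)) (cs (rf (nat_lit 1)) (cs (nd (nat_lit 292) (nat_lit 0) (cs (rf (nat_lit 2)) (cs (rf (nat_lit 3)) (cs (rf (nat_lit 4)) (nd (nat_lit 317) (nat_lit 0) (cs (lf (nat_lit 5) (nat_lit 292)) (nd (nat_lit 251) (nat_lit 0) (cs (lf (nat_lit 44) (nat_lit 228)) (rf (nat_lit 5)))))))))) (nd (nat_lit 296) (nat_lit 0) (cs (lf (nat_lit 16) (nat_lit 271)) (rf (nat_lit 6)))))))) q63939 (by decide +kernel)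
def q63991 : Q := Q.p (nat_lit 0x800000600001000000000000000000000000000000000000000000000000000000000) (nat_lit 0xc0000380001e00007800000000008000060000380000e0000200000000000000000000000000000000000) (nat_lit 9)
theorem c63991 : QOK q63991 := cut [q63973, q63977, q63978, q63985, q63990] ⟨c63973, c63977, c63978, c63985, c63990, trivial⟩ (nd (nat_lit 272) (nat_lit 0) (cs (rf (nat_lit 0)) (cs (rf (nat_lit 1)) (cs (rf (nat_lit 2)) (cs (rf (nat_lit 3)) (rf (nat_lit 4))))))) q63991 (by decide +kernel)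
def q64006 : Q := Q.p (nat_lit 0x40000700000000000000000000000000000000000000000000000000000000000000) (nat_lit 0xa0000380001e00001e0000a0000000000f0000380000a000000000000000000000000000000000000000000000) (nat_lit 7)
theorem c64006 : QOK q64006 := cut [q57626, q63343, q64005] ⟨c57626, c63343, c64005, trivial⟩ (nd (nat_lit 292) (nat_lit 0) (cs (rf (nat_lit 0)) (cs (rf (nat_lit 1)) (rf (nat_lit 2))))) q64006 (by decide +kernel)
def q64036 : Q := Q.p (nat_lit 0x40000700000000000000000000000000000000000000000000000000000000000000) (nat_lit 0x4000018000038000800000f8000380000e0000380000a0000000000000000000000000000000000) (nat_lit 10)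
theorem c64036 : QOK q64036 := cut [q60700, q62524, q46743, q58946, q64020, q64024, q64029] ⟨c60700, c62524, c46743, c58946, c64020, c64024, c64029, trivial⟩ (nd (nat_lit 226) (nat_lit 0) (cs (rf (nat_lit 0)) (cs (rf (nat_lit 1)) (nd (nat_lit 204) (nat_lit 0) (cs (rf (nat_lit 2)) (cs (rf (nat_lit 3)) (cs (nd (nat_lit 183) (nat_lit 0) (cs (lf (nat_lit 34) (nat_lit 182)) (nd (nat_lit 182) (nat_lit 0) (cs (lf (nat_lit 35) (nat_lit 160)) (nd (nat_lit 269) (nat_lit 0) (cs (lf (nat_lit 41) (nat_lit 203)) (nd (nat_lit 267) (nat_lit 0) (cs (lf (nat_lit 13) (nat_lit 245)) (nd (nat_lit 159) (nat_lit 0) (cs (lf (nat_lit 46) (nat_lit 159)) (nd (nat_lit 160) (nat_lit 0) (cs (lf (nat_lit 47) (nat_lit 137)) (lf (nat_lit 28) (nat_lit 160)))))))))))))) (cs (nd (nat_lit 269) (nat_lit 0) (cs (lf (nat_lit 41) (nat_lit 203)) (nd (nat_lit 267) (nat_lit 0) (cs (lf (nat_lit 13) (nat_lit 245)) (rf (nat_lit 4)))))) (cs (nd (nat_lit 183) (nat_lit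 0) (cs (lf (nat_lit 34) (nat_lit 182)) (nd (nat_lit 269) (nat_lit 0) (cs (lf (nat_lit 41) (nat_lit 203)) (nd (nat_lit 267) (nat_lit 0) (cs (lf (nat_lit 13) (nat_lit 245)) (rf (nat_lit 5)))))))) (nd (nat_lit 269) (nat_lit 0) (cs (lf (nat_lit 41) (nat_lit 203)) (nd (nat_lit 267) (nat_lit 0) (cs (lf (nat_lit 13) (nat_lit 245)) (nd (nat_lit 183) (nat_lit 0) (cs (lf (nat_lit 34) (nat_lit 182)) (nd (nat_lit 182) (nat_lit 0) (cs (lf (nat_lit 35) (nat_lit 160)) (nd (nat_lit 227) (nat_lit 0) (cs (lf (nat_lit 24) (nat_lit 160)) (rf (nat_lit 6))))))))))))))))))))) q64036 (by decide +kernel)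
def q64077 : Q := Q.p (nat_lit 0x700000400001000000000000000000000000000000000000000000000000000) (nat_lit 0x80000380000e0000380000c00008400033c0006f0003bc0003e0000b8000000000000000000000000000000000) (nat_lit 12)
theorem c64077 : QOK q64077 := cut [q26229, q63739] ⟨c26229, c63739, trivial⟩ (nd (nat_lit 203) (nat_lit 0) (cs (rf (nat_lit 0)) (cs (nd (nat_lit 270) (nat_lit 0) (cs (lf (nat_lit 47) (nat_lit 181)) (rf (nat_lit 1)))) (cs (nd (nat_lit 225) (nat_lit 0) (cs (lf (nat_lit 18) (nat_lit 225)) (nd (nat_lit 224) (nat_lit 0) (cs (lf (nat_lit 0) (nat_lit 223)) (nd (nat_lit 270) (nat_lit 0) (cs (lf (nat_lit 42) (nat_lit 203)) (nd (nat_lit 205) (nat_lit 0) (cs (lf (nat_lit 35) (nat_lit 182)) (lf (nat_lit 6) (nat_lit 202)))))))))) (nd (nat_lit 225) (nat_lit 0) (cs (lf (nat_lit 18) (nat_lit 225)) (nd (nat_lit 202) (nat_lit 0) (cs (nd (nat_lit 223) (nat_lit 0) (cs (lf (nat_lit 1) (nat_lit 223)) (nd (nat_lit 201) (nat_lit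 0) (cs (lf (nat_lit 11) (nat_lit 200)) (lf (nat_lit 0) (nat_lit 200)))))) (cs (nd (nat_lit 201) (nat_lit 0) (cs (lf (nat_lit 0) (nat_lit 200)) (nd (nat_lit 159) (nat_lit 0) (cs (lf (nat_lit 25) (nat_lit 159)) (nd (nat_lit 222) (nat_lit 0) (cs (lf (nat_lit 10) (nat_lit 200)) (nd (nat_lit 179) (nat_lit 0) (cs (lf (nat_lit 23) (nat_lit 178)) (nd (nat_lit 205) (nat_lit 0) (cs (lf (nat_lit 22) (nat_lit 179)) (nd (nat_lit 184) (nat_lit 0) (cs (lf (nat_lit 16) (nat_lit 180)) (nd (nat_lit 206) (nat_lit 0) (cs (lf (nat_lit 17) (nat_lit 181)) (nd (nat_lit 228) (nat_lit 0) (cs (lf (nat_lit 41) (nat_lit 183)) (lf (nat_lit 5) (nat_lit 203)))))))))))))))))) (cs (nd (nat_lit 159) (nat_lit 0) (cs (lf (nat_lit 25) (nat_lit 159)) (nd (nat_lit 201) (nat_lit 0) (cs (lf (nat_lit 0) (nat_lit 200)) (nd (nat_lit 179) (nat_lit 0) (cs (lf (nat_lit 23) (nat_lit 178)) (nd (nat_lit 180) (nat_lit 0) (cs (lf (nat_lit 18) (nat_lit 179)) (nd (nat_lit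 158) (nat_lit 0) (cs (lf (nat_lit 24) (nat_lit 136)) (nd (nat_lit 160) (nat_lit 0) (cs (nd (nat_lit 224) (nat_lit 0) (cs (lf (nat_lit 35) (nat_lit 136)) (nd (nat_lit 157) (nat_lit 0) (cs (lf (nat_lit 42) (nat_lit 157)) (lf (nat_lit 24) (nat_lit 135)))))) (lf (nat_lit 6) (nat_lit 157)))))))))))))) (nd (nat_lit 224) (nat_lit 0) (cs (lf (nat_lit 0) (nat_lit 223)) (nd (nat_lit 159) (nat_lit 0) (cs (lf (nat_lit 25) (nat_lit 159)) (nd (nat_lit 205) (nat_lit 0) (cs (lf (nat_lit 6) (nat_lit 202)) (nd (nat_lit 183) (nat_lit 0) (cs (lf (nat_lit 17) (nat_lit 180)) (nd (nat_lit 139) (nat_lit 0) (cs (lf (nat_lit 37) (nat_lit 138)) (nd (nat_lit 180) (nat_lit 0) (cs (lf (nat_lit 23) (nat_lit 179)) (nd (nat_lit 158) (nat_lit 0) (cs (lf (nat_lit 24) (nat_lit 136)) (lf (nat_lit 35) (nat_lit 136)))))))))))))))))))))))))) q64077 (by decide +kernel)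
def q64239 : Q := Q.p (nat_lit 0x800000700000000000000000000000000000000000000000000000000000000000000) (nat_lit 0xf00003e0001fc0007c00008c0001f80007e0001e000038000000000000000000000000000000000000000) (nat_lit 13)
theorem c64239 : QOK q64239 := cut [q44585, q63708, q64218, q25763, q52446, q58853, q61943, q64188, q57236, q57364, q64225, q64236, q23133] ⟨c44585, c63708, c64218, c25763, c52446, c58853, c61943, c64188, c57236, c57364, c64225, c64236, c23133, trivial⟩ (nd (nat_lit 272) (nat_lit 0) (cs (rf (nat_lit 0)) (cs (rf (nat_lit 1)) (cs (rf (nat_lit 2)) (nd (nat_lit 294) (nat_lit 0) (cs (rf (nat_lit 3)) (cs (nd (nat_lit 293) (nat_lit 0) (cs (rf (nat_lit 4)) (cs (rf (nat_lit 5)) (cs (rf (nat_lit 6)) (cs (rf (nat_lit 7)) (nd (nat_lit 271) (nat_lit 0) (cs (rf (nat_lit 8)) (cs (nd (nat_lit 273) (nat_lit 0) (cs (lf (nat_lit 19) (nat_lit 249)) (nd (nat_lit 291) (nat_lit 0) (cs (lf (nat_lit 13) (nat_lit 269)) (nd (nat_lit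 227) (nat_lit 0) (cs (lf (nat_lit 24) (nat_lit 205)) (nd (nat_lit 226) (nat_lit 0) (cs (lf (nat_lit 47) (nat_lit 204)) (rf (nat_lit 9)))))))))) (nd (nat_lit 205) (nat_lit 0) (cs (lf (nat_lit 25) (nat_lit 205)) (nd (nat_lit 273) (nat_lit 0) (cs (lf (nat_lit 18) (nat_lit 248)) (rf (nat_lit 10)))))))))))))) (cs (rf (nat_lit 11)) (nd (nat_lit 273) (nat_lit 0) (cs (lf (nat_lit 19) (nat_lit 249)) (rf (nat_lit 12)))))))))))) q64239 (by decide +kernel)
def q64368 : Q := Q.p (nat_lit 0x800002600001800010000000000000000000000000000000000000000000000000000) (nat_lit 0x1ffc005fe0017b80009c000e700062c001c8000500000000000000000000000000000000000000000) (nat_lit 13)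
theorem c64368 : QOK q64368 := cut [q61940, q62821, q64260, q64268, q56677, q62425, q63931, q64270, q64271, q59351, q57552, q62671, q61925, q64263, q64282, q62715, q64284, q64301, q64302, q64285, q64296, q49504] ⟨c61940, c62821, c64260, c64268, c56677, c62425, c63931, c64270, c64271, c59351, c57552, c62671, c61925, c64263, c64282, c62715, c64284, c64301, c64302, c64285, c64296, c49504, trivial⟩ (nd (nat_lit 294) (nat_lit 0) (cs (rf (nat_lit 0)) (cs (rf (nat_lit 1)) (nd (nat_lit 293) (nat_lit 0) (cs (rf (nat_lit 2)) (cs (rf (nat_lit 3)) (cs (nd (nat_lit 248) (nat_lit 0) (cs (rf (nat_lit 4)) (cs (nd (nat_lit 231) (nat_lit 0) (cs (rf (nat_lit 5)) (cs (nd (nat_lit 295) (nat_lit 0) (cs (rf (nat_lit 6)) (cs (rf (nat_lit 7)) (nd (nat_lit 229) (nat_lit 0) (cs (lf (nat_lit 6) (nat_lit 226)) (nd (nat_lit 271) (nat_lit 0) (cs (lf (nat_lit 30) (nat_lit 227)) (rf (nat_lit 8))))))))) (nd (nat_lit 271) (nat_lit 0) (cs (lf (nat_lit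 30) (nat_lit 227)) (nd (nat_lit 292) (nat_lit 0) (cs (lf (nat_lit 41) (nat_lit 226)) (nd (nat_lit 209) (nat_lit 0) (cs (lf (nat_lit 47) (nat_lit 186)) (nd (nat_lit 188) (nat_lit 0) (cs (lf (nat_lit 34) (nat_lit 187)) (nd (nat_lit 166) (nat_lit 0) (cs (lf (nat_lit 33) (nat_lit 165)) (nd (nat_lit 276) (nat_lit 0) (cs (lf (nat_lit 29) (nat_lit 209)) (nd (nat_lit 274) (nat_lit 0) (cs (lf (nat_lit 41) (nat_lit 208)) (nd (nat_lit 273) (nat_lit 0) (cs (lf (nat_lit 10) (nat_lit 272)) (lf (nat_lit 3) (nat_lit 248))))))))))))))))))))) (nd (nat_lit 315) (nat_lit 0) (cs (lf (nat_lit 32) (nat_lit 227)) (nd (nat_lit 247) (nat_lit 0) (cs (lf (nat_lit 12) (nat_lit 224)) (nd (nat_lit 225) (nat_lit 0) (cs (lf (nat_lit 23) (nat_lit 224)) (nd (nat_lit 226) (nat_lit 0) (cs (lf (nat_lit 5) (nat_lit 225)) (nd (nat_lit 202) (nat_lit 0) (cs (lf (nat_lit 22) (nat_lit 202)) (nd (nat_lit 269) (nat_lit 0) (cs (lf (nat_lit 11) (nat_lit 246)) (nd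 (nat_lit 313) (nat_lit 0) (cs (lf (nat_lit 31) (nat_lit 225)) (nd (nat_lit 314) (nat_lit 0) (cs (lf (nat_lit 12) (nat_lit 290)) (rf (nat_lit 9))))))))))))))))))))) (nd (nat_lit 225) (nat_lit 0) (cs (rf (nat_lit 10)) (cs (nd (nat_lit 226) (nat_lit 0) (cs (lf (nat_lit 0) (nat_lit 224)) (rf (nat_lit 11)))) (nd (nat_lit 295) (nat_lit 0) (cs (rf (nat_lit 12)) (cs (rf (nat_lit 13)) (cs (rf (nat_lit 14)) (nd (nat_lit 247) (nat_lit 0) (cs (rf (nat_lit 15)) (nd (nat_lit 314) (nat_lit 0) (cs (rf (nat_lit 16)) (cs (rf (nat_lit 17)) (cs (rf (nat_lit 18)) (nd (nat_lit 318) (nat_lit 0) (cs (rf (nat_lit 19)) (cs (rf (nat_lit 20)) (nd (nat_lit 315) (nat_lit 0) (cs (lf (nat_lit 6) (nat_lit 292)) (nd (nat_lit 292) (nat_lit 0) (cs (lf (nat_lit 4) (nat_lit 292)) (nd (nat_lit 291) (nat_lit 0) (cs (rf (nat_lit 21)) (lf (nat_lit 26) (nat_lit 225))))))))))))))))))))))))))))))) q64368 (by decide +kernel)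
def q64398 : Q := Q.p (nat_lit 0x800002600001800010000000000000000000000000000000000000000000000000000) (nat_lit 0x10000040000380001ffc001fe0017b800098000e60002300007c000160000000000000000000000000000000000000000) (nat_lit 13)
theorem c64398 : QOK q64398 := cut [q61940, q62821, q64260, q64268, q57522, q61785, q61925, q63931, q64282, q64284, q64301, q64302, q64285, q64296, q64292, q64294, q63963, q64266] ⟨c61940, c62821, c64260, c64268, c57522, c61785, c61925, c63931, c64282, c64284, c64301, c64302, c64285, c64296, c64292, c64294, c63963, c64266, trivial⟩ (nd (nat_lit 294) (nat_lit 0) (cs (rf (nat_lit 0)) (cs (rf (nat_lit 1)) (cs (nd (nat_lit 293) (nat_lit 0) (cs (rf (nat_lit 2)) (cs (rf (nat_lit 3)) (cs (nd (nat_lit 229) (nat_lit 0) (cs (rf (nat_lit 4)) (nd (nat_lit 295) (nat_lit 0) (cs (rf (nat_lit 5)) (cs (rf (nat_lit 6)) (cs (rf (nat_lit 7)) (cs (rf (nat_lit 8)) (nd (nat_lit 247) (nat_lit 0) (cs (lf (nat_lit 13)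 (nat_lit 225)) (nd (nat_lit 314) (nat_lit 0) (cs (rf (nat_lit 9)) (cs (rf (nat_lit 10)) (cs (rf (nat_lit 11)) (nd (nat_lit 318) (nat_lit 0) (cs (rf (nat_lit 12)) (cs (rf (nat_lit 13)) (nd (nat_lit 340) (nat_lit 0) (cs (rf (nat_lit 14)) (cs (rf (nat_lit 15)) (nd (nat_lit 296) (nat_lit 0) (cs (lf (nat_lit 10) (nat_lit 292)) (nd (nat_lit 273) (nat_lit 0) (cs (lf (nat_lit 25) (nat_lit 229)) (lf (nat_lit 42) (nat_lit 273))))))))))))))))))))))))) (nd (nat_lit 271) (nat_lit 0) (cs (lf (nat_lit 30) (nat_lit 227)) (nd (nat_lit 292) (nat_lit 0) (cs (lf (nat_lit 41) (nat_lit 226)) (nd (nat_lit 204) (nat_lit 0) (cs (lf (nat_lit 46) (nat_lit 204)) (nd (nat_lit 205) (nat_lit 0) (cs (lf (nat_lit 47) (nat_lit 182)) (nd (nat_lit 230) (nat_lit 0) (cs (lf (nat_lit 19) (nat_lit 204)) (rf (nat_lit 16)))))))))))))))) (nd (nat_lit 272) (nat_lit 0) (cs (lf (nat_lit 42) (nat_lit 227)) (nd (nat_lit 273) (nat_lit 0) (cs (lf (nat_lit 19) (nat_lit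 249)) (nd (nat_lit 247) (nat_lit 0) (cs (lf (nat_lit 1) (nat_lit 247)) (nd (nat_lit 293) (nat_lit 0) (cs (lf (nat_lit 41) (nat_lit 227)) (nd (nat_lit 292) (nat_lit 0) (cs (lf (nat_lit 12) (nat_lit 269)) (nd (nat_lit 295) (nat_lit 0) (cs (lf (nat_lit 29) (nat_lit 228)) (rf (nat_lit 17)))))))))))))))))) q64398 (by decide +kernel)
def q64485 : Q := Q.p (nat_lit 0x800000700000000000000000000000000000000000000000000000000000000000000) (nat_lit 0xa00003e0000f8000ffc001ff0017fe000800007c0000780001e000078000000000000000000000000000000000000000) (nat_lit 14)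
theorem c64485 : QOK q64485 := cut [q57373, q58952, q18571, q63481, q62524, q45209, q62958, q64479, q63482, q57625, q58951, q63468, q40878, q57367] ⟨c57373, c58952, c18571, c63481, c62524, c45209, c62958, c64479, c63482, c57625, c58951, c63468, c40878, c57367, trivial⟩ (nd (nat_lit 270) (nat_lit 0) (cs (rf (nat_lit 0)) (cs (nd (nat_lit 292) (nat_lit 0) (cs (rf (nat_lit 1)) (cs (nd (nat_lit 269) (nat_lit 0) (cs (lf (nat_lit 6) (nat_lit 247)) (nd (nat_lit 293) (nat_lit 0) (cs (nd (nat_lit 226) (nat_lit 0) (cs (lf (nat_lit 29) (nat_lit 226)) (nd (nat_lit 291) (nat_lit 0) (cs (lf (nat_lit 41) (nat_lit 225)) (lf (nat_lit 36) (nat_lit 203)))))) (cs (nd (nat_lit 267) (nat_lit 0) (cs (lf (nat_lit 13) (nat_lit 245)) (nd (nat_lit 294) (nat_lit 0) (cs (lf (nat_lit 18) (nat_lit 269)) (nd (nat_lit 315) (nat_lit 0) (cs (lf (nat_lit 24) (nat_lit 226)) (nd (nat_lit 272) (nat_lit 0) (cs (lf (nat_lit 36) (nat_lit 227)) (rf (nat_lit 2))))))))))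 (nd (nat_lit 268) (nat_lit 0) (cs (lf (nat_lit 12) (nat_lit 245)) (nd (nat_lit 294) (nat_lit 0) (cs (lf (nat_lit 18) (nat_lit 269)) (lf (nat_lit 21) (nat_lit 268))))))))))) (cs (nd (nat_lit 314) (nat_lit 0) (cs (rf (nat_lit 3)) (cs (nd (nat_lit 315) (nat_lit 0) (cs (lf (nat_lit 29) (nat_lit 248)) (nd (nat_lit 226) (nat_lit 0) (cs (lf (nat_lit 28) (nat_lit 226)) (rf (nat_lit 4)))))) (cs (nd (nat_lit 269) (nat_lit 0) (cs (lf (nat_lit 6) (nat_lit 247)) (nd (nat_lit 335) (nat_lit 0) (cs (lf (nat_lit 40) (nat_lit 247)) (nd (nat_lit 267) (nat_lit 0) (cs (lf (nat_lit 13) (nat_lit 245)) (nd (nat_lit 336) (nat_lit 0) (cs (lf (nat_lit 41) (nat_lit 269)) (nd (nat_lit 358) (nat_lit 0) (cs (rf (nat_lit 5)) (lf (nat_lit 46) (nat_lit 269)))))))))))) (nd (nat_lit 335) (nat_lit 0) (cs (lf (nat_lit 40) (nat_lit 247)) (nd (nat_lit 336) (nat_lit 0) (cs (lf (nat_lit 41) (nat_lit 269)) (nd (nat_lit 269) (nat_lit 0) (cs (lf (nat_lit 6) (nat_lit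 247)) (nd (nat_lit 291) (nat_lit 0) (cs (lf (nat_lit 42) (nat_lit 269)) (nd (nat_lit 226) (nat_lit 0) (cs (lf (nat_lit 36) (nat_lit 203)) (nd (nat_lit 268) (nat_lit 0) (cs (lf (nat_lit 12) (nat_lit 245)) (nd (nat_lit 293) (nat_lit 0) (cs (lf (nat_lit 29) (nat_lit 226)) (lf (nat_lit 18) (nat_lit 268)))))))))))))))))))) (nd (nat_lit 251) (nat_lit 0) (cs (lf (nat_lit 11) (nat_lit 247)) (nd (nat_lit 229) (nat_lit 0) (cs (lf (nat_lit 17) (nat_lit 226)) (nd (nat_lit 273) (nat_lit 0) (cs (lf (nat_lit 5) (nat_lit 248)) (nd (nat_lit 314) (nat_lit 0) (cs (lf (nat_lit 35) (nat_lit 226)) (nd (nat_lit 335) (nat_lit 0) (cs (lf (nat_lit 40) (nat_lit 247)) (nd (nat_lit 315) (nat_lit 0) (cs (lf (nat_lit 29) (nat_lit 248)) (nd (nat_lit 336) (nat_lit 0) (cs (lf (nat_lit 41) (nat_lit 269)) (nd (nat_lit 316) (nat_lit 0) (cs (lf (nat_lit 6) (nat_lit 313)) (rf (nat_lit 6)))))))))))))))))))))) (cs (rf (nat_lit 7)) (nd (nat_lit 292) (nat_lit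 0) (cs (rf (nat_lit 1)) (cs (rf (nat_lit 8)) (nd (nat_lit 227) (nat_lit 0) (cs (rf (nat_lit 9)) (cs (rf (nat_lit 10)) (nd (nat_lit 293) (nat_lit 0) (cs (rf (nat_lit 11)) (cs (nd (nat_lit 226) (nat_lit 0) (cs (lf (nat_lit 29) (nat_lit 226)) (rf (nat_lit 12)))) (nd (nat_lit 226) (nat_lit 0) (cs (lf (nat_lit 29) (nat_lit 226)) (rf (nat_lit 13))))))))))))))))) q64485 (by decide +kernel)
def q64761 : Q := Q.p (nat_lit 0x40000900000600000000000000000000000000000000000000000000000000000000000000) (nat_lit 0x280000e0000380000a0000600000980003000000000000000000000000000000000000000000000000000000000) (nat_lit 7)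
theorem c64761 : QOK q64761 := cut [q14184, q56490, q64760] ⟨c14184, c56490, c64760, trivial⟩ (nd (nat_lit 316) (nat_lit 0) (cs (rf (nat_lit 0)) (cs (rf (nat_lit 1)) (rf (nat_lit 2))))) q64761 (by decide +kernel)
def q64797 : Q := Q.p (nat_lit 0x40000900002700000000010000000000000000000000000000000000000000000000000000) (nat_lit 0xa0000380000e0000b80026f80088000fe8001e0000ff8001c0000700001c000040000000000000000000000000) (nat_lit 12)
theorem c64797 : QOK q64797 := cut [q56332, q64772, q55971, q55986, q64777, q64782, q15467, q8061, q75, q57373, q64790, q62825, q63791] ⟨c56332, c64772, c55971, c55986, c64777, c64782, c15467, c8061, c75, c57373, c64790, c62825, c63791, trivial⟩ (nd (nat_lit 209) (nat_lit 0) (cs (nd (nat_lit 210) (nat_lit 0) (cs (nd (nat_lit 231) (nat_lit 0) (cs (lf (nat_lit 35) (nat_lit 187)) (lf (nat_lit 47) (nat_lit 186)))) (cs (nd (nat_lit 211) (nat_lit 0) (cs (rf (nat_lit 0)) (cs (rf (nat_lit 1)) (cs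 (nd (nat_lit 189) (nat_lit 0) (cs (lf (nat_lit 17) (nat_lit 186)) (nd (nat_lit 167) (nat_lit 0) (cs (rf (nat_lit 2)) (cs (rf (nat_lit 3)) (nd (nat_lit 186) (nat_lit 0) (cs (lf (nat_lit 23) (nat_lit 185)) (nd (nat_lit 229) (nat_lit 0) (cs (lf (nat_lit 10) (nat_lit 207)) (rf (nat_lit 4))))))))))) (rf (nat_lit 5)))))) (cs (nd (nat_lit 211) (nat_lit 0) (cs (rf (nat_lit 0)) (cs (nd (nat_lit 189) (nat_lit 0) (cs (lf (nat_lit 17) (nat_lit 186)) (rf (nat_lit 6)))) (nd (nat_lit 188) (nat_lit 0) (cs (lf (nat_lit 32) (nat_lit 187)) (rf (nat_lit 7))))))) (nd (nat_lit 186) (nat_lit 0) (cs (rf (nat_lit 8)) (lf (nat_lit 44) (nat_lit 186)))))))) (nd (nat_lit 270) (nat_lit 0) (cs (rf (nat_lit 9)) (cs (nd (nat_lit 292) (nat_lit 0) (cs (rf (nat_lit 10)) (nd (nat_lit 273) (nat_lit 0) (cs (lf (nat_lit 19) (nat_lit 249)) (nd (nat_lit 293) (nat_lit 0) (cs (lf (nat_lit 12) (nat_lit 269)) (rf (nat_lit 11)))))))) (nd (nat_lit 292) (nat_lit 0)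 (cs (rf (nat_lit 10)) (nd (nat_lit 273) (nat_lit 0) (cs (lf (nat_lit 19) (nat_lit 249)) (rf (nat_lit 12))))))))))) q64797 (by decide +kernel)
def q64862 : Q := Q.p (nat_lit 0x40000800000600000000000000000000000000000000000000000000000000000000000000) (nat_lit 0xa0001f8000ff8001fc000ffc001be0005fc00098000f80000700001c000070000100000000000000000000000000000000000) (nat_lit 15)
theorem c64862 : QOK q64862 := cut [q41488, q61906, q64650, q60899, q62089, q64824, q61764, q61900, q64828, q64831, q64821, q60056, q56921, q64851, q41472, q63456, q64856, q56496] ⟨c41488, c61906, c64650, c60899, c62089, c64824, c61764, c61900, c64828, c64831, c64821, c60056, c56921, c64851, c41472, c63456, c64856, c56496, trivial⟩ (nd (nat_lit 316) (nat_lit 0) (cs (nd (nat_lit 272) (nat_lit 0) (cs (lf (nat_lit 47) (nat_lit 227)) (nd (nat_lit 229) (nat_lit 0) (cs (lf (nat_lit 34) (nat_lit 228)) (rf (nat_lit 0)))))) (cs (nd (nat_lit 293) (nat_lit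 0) (cs (rf (nat_lit 1)) (cs (nd (nat_lit 271) (nat_lit 0) (cs (rf (nat_lit 2)) (nd (nat_lit 360) (nat_lit 0) (cs (lf (nat_lit 43) (nat_lit 271)) (nd (nat_lit 292) (nat_lit 0) (cs (rf (nat_lit 3)) (cs (nd (nat_lit 291) (nat_lit 0) (cs (lf (nat_lit 5) (nat_lit 291)) (rf (nat_lit 4)))) (cs (rf (nat_lit 5)) (cs (nd (nat_lit 291) (nat_lit 0) (cs (rf (nat_lit 6)) (cs (rf (nat_lit 7)) (cs (rf (nat_lit 4)) (cs (rf (nat_lit 8)) (cs (rf (nat_lit 9)) (nd (nat_lit 268) (nat_lit 0) (cs (lf (nat_lit 22) (nat_lit 268)) (nd (nat_lit 290) (nat_lit 0) (cs (lf (nat_lit 23) (nat_lit 267)) (nd (nat_lit 270) (nat_lit 0) (cs (lf (nat_lit 12) (nat_lit 267)) (nd (nat_lit 295) (nat_lit 0) (cs (lf (nat_lit 18) (nat_lit 270)) (rf (nat_lit 10)))))))))))))))) (cs (nd (nat_lit 291) (nat_lit 0) (cs (lf (nat_lit 5) (nat_lit 291)) (rf (nat_lit 8)))) (nd (nat_lit 291) (nat_lit 0) (cs (lf (nat_lit 5) (nat_lit 291)) (rf (nat_lit 9)))))))))))))) (cs (nd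 (nat_lit 271) (nat_lit 0) (cs (lf (nat_lit 24) (nat_lit 227)) (nd (nat_lit 315) (nat_lit 0) (cs (lf (nat_lit 35) (nat_lit 227)) (rf (nat_lit 11)))))) (nd (nat_lit 271) (nat_lit 0) (cs (lf (nat_lit 24) (nat_lit 227)) (rf (nat_lit 12)))))))) (cs (nd (nat_lit 272) (nat_lit 0) (cs (lf (nat_lit 47) (nat_lit 227)) (rf (nat_lit 13)))) (cs (nd (nat_lit 272) (nat_lit 0) (cs (rf (nat_lit 14)) (cs (rf (nat_lit 15)) (cs (rf (nat_lit 13)) (rf (nat_lit 16)))))) (cs (nd (nat_lit 272) (nat_lit 0) (cs (lf (nat_lit 47) (nat_lit 227)) (nd (nat_lit 229) (nat_lit 0) (cs (lf (nat_lit 34) (nat_lit 228)) (nd (nat_lit 315) (nat_lit 0) (cs (lf (nat_lit 41) (nat_lit 249)) (rf (nat_lit 17)))))))) (nd (nat_lit 272) (nat_lit 0) (cs (lf (nat_lit 47) (nat_lit 227)) (rf (nat_lit 16)))))))))) q64862 (by decide +kernel)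
def q64914 : Q := Q.p (nat_lit 0x40000800000600000000010000000000000000000000000000000000000000000000000000) (nat_lit 0xa0000780007f0001fe0001b80017e0000980007000006000018000020000000000000000000000000000000000000000) (nat_lit 13)
theorem c64914 : QOK q64914 := cut [q62410, q15307, q56357, q61766, q64697, q64814, q14448, q14433, q62311, q64230, q64877, q63456, q23854, q64906, q64908, q56496, q64759, q64855, q12962, q64913] ⟨c62410, c15307, c56357, c61766, c64697, c64814, c14448, c14433, c62311, c64230, c64877, c63456, c23854, c64906, c64908, c56496, c64759, c64855, c12962, c64913, trivial⟩ (nd (nat_lit 273) (nat_lit 0) (cs (rf (nat_lit 0)) (cs (nd (nat_lit 251) (nat_lit 0) (cs (rf (nat_lit 1)) (nd (nat_lit 295) (nat_lit 0) (cs (rf (nat_lit 2)) (cs (rf (nat_lit 3)) (rf (nat_lit 4))))))) (cs (nd (nat_lit 272) (nat_lit 0) (cs (rf (nat_lit 5)) (cs (nd (nat_lit 228) (nat_lit 0) (cs (rf (nat_lit 6)) (cs (nd (nat_lit 247)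 (nat_lit 0) (cs (lf (nat_lit 1) (nat_lit 247)) (nd (nat_lit 293) (nat_lit 0) (cs (lf (nat_lit 41) (nat_lit 227)) (nd (nat_lit 291) (nat_lit 0) (cs (lf (nat_lit 13) (nat_lit 269)) (nd (nat_lit 206) (nat_lit 0) (cs (lf (nat_lit 40) (nat_lit 205)) (rf (nat_lit 7)))))))))) (nd (nat_lit 295) (nat_lit 0) (cs (rf (nat_lit 8)) (nd (nat_lit 293) (nat_lit 0) (cs (lf (nat_lit 41) (nat_lit 227)) (nd (nat_lit 292) (nat_lit 0) (cs (lf (nat_lit 12) (nat_lit 269)) (nd (nat_lit 247) (nat_lit 0) (cs (lf (nat_lit 1) (nat_lit 247)) (nd (nat_lit 314) (nat_lit 0) (cs (lf (nat_lit 11) (nat_lit 291)) (nd (nat_lit 270) (nat_lit 0) (cs (lf (nat_lit 23) (nat_lit 269)) (nd (nat_lit 271) (nat_lit 0) (cs (lf (nat_lit 5) (nat_lit 270)) (lf (nat_lit 30) (nat_lit 248))))))))))))))))))) (cs (nd (nat_lit 316) (nat_lit 0) (cs (rf (nat_lit 9)) (rf (nat_lit 10)))) (cs (nd (nat_lit 316) (nat_lit 0) (cs (rf (nat_lit 11)) (cs (rf (nat_lit 9)) (nd (nat_lit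 247) (nat_lit 0) (cs (lf (nat_lit 1) (nat_lit 247)) (nd (nat_lit 317) (nat_lit 0) (cs (lf (nat_lit 29) (nat_lit 250)) (nd (nat_lit 295) (nat_lit 0) (cs (lf (nat_lit 24) (nat_lit 228)) (nd (nat_lit 229) (nat_lit 0) (cs (lf (nat_lit 37) (nat_lit 228)) (rf (nat_lit 12))))))))))))) (cs (rf (nat_lit 13)) (cs (nd (nat_lit 316) (nat_lit 0) (cs (rf (nat_lit 11)) (cs (rf (nat_lit 9)) (rf (nat_lit 14))))) (cs (nd (nat_lit 316) (nat_lit 0) (cs (rf (nat_lit 15)) (cs (rf (nat_lit 16)) (rf (nat_lit 17))))) (nd (nat_lit 316) (nat_lit 0) (cs (rf (nat_lit 18)) (rf (nat_lit 16)))))))))))) (rf (nat_lit 19)))))) q64914 (by decide +kernel)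
def q64932 : Q := Q.p (nat_lit 0x40000900000600000000000000000000000000000000000000000000000000000000000000) (nat_lit 0x200000f00003e0001a0000680000180001000000000000000000000000000000000000000000000000000000000) (nat_lit 7)
theorem c64932 : QOK q64932 := cut [q56496, q64760, q64855] ⟨c56496, c64760, c64855, trivial⟩ (nd (nat_lit 316) (nat_lit 0) (cs (rf (nat_lit 0)) (cs (rf (nat_lit 1)) (rf (nat_lit 2))))) q64932 (by decide +kernel)
def q64956 : Q := Q.p (nat_lit 0x40000900000600000000000000000000000000000000000000000000000000000000000000) (nat_lit 0x240000b0000ef0001bc0016f00008000018000040000300000c0000200000000000000000000000000000000000) (nat_lit 8)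
theorem c64956 : QOK q64956 := cut [q58854, q61949, q64188, q64945, q61804, q64672, q64951] ⟨c58854, c61949, c64188, c64945, c61804, c64672, c64951, trivial⟩ (nd (nat_lit 293) (nat_lit 0) (cs (nd (nat_lit 273) (nat_lit 0) (cs (lf (nat_lit 19) (nat_lit 249)) (nd (nat_lit 291) (nat_lit 0) (cs (lf (nat_lit 13) (nat_lit 269)) (rf (nat_lit 0)))))) (cs (rf (nat_lit 1)) (cs (rf (nat_lit 2)) (cs (rf (nat_lit 3)) (cs (nd (nat_lit 292) (nat_lit 0) (cs (nd (nat_lit 314) (nat_lit 0) (cs (rf (nat_lit 4)) (rf (nat_lit 5)))) (cs (nd (nat_lit 291) (nat_lit 0) (cs (lf (nat_lit 17) (nat_lit 269)) (nd (nat_lit 271) (nat_lit 0) (cs (lf (nat_lit 12) (nat_lit 268)) (nd (nat_lit 315) (nat_lit 0) (cs (lf (nat_lit 30) (nat_lit 249)) (nd (nat_lit 314) (nat_lit 0) (cs (lf (nat_lit 36) (nat_lit 226)) (lf (nat_lit 41) (nat_lit 248)))))))))) (rf (nat_lit 6))))) (nd (nat_lit 228) (nat_lit 0) (cs (lf (nat_lit 41) (nat_lit 227)) (nd (nat_lit 295) (nat_lit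 0) (cs (lf (nat_lit 29) (nat_lit 228)) (nd (nat_lit 206) (nat_lit 0) (cs (lf (nat_lit 28) (nat_lit 206)) (lf (nat_lit 40) (nat_lit 205)))))))))))))) q64956 (by decide +kernel)
def q65074 : Q := Q.p (nat_lit 0x60000900000600000000000000000000000000000000000000000000000000000000000000) (nat_lit 0x2e0001980004780009c0007f80007800008000000000000000000000000000000000000000000000) (nat_lit 13)
theorem c65074 : QOK q65074 := cut [q63510, q47089, q65043, q58810] ⟨c63510, c47089, c65043, c58810, trivial⟩ (nd (nat_lit 248) (nat_lit 0) (cs (rf (nat_lit 0)) (cs (nd (nat_lit 269) (nat_lit 0) (cs (nd (nat_lit 270) (nat_lit 0) (cs (lf (nat_lit 6) (nat_lit 247)) (nd (nat_lit 292) (nat_lit 0) (cs (lf (nat_lit 18) (nat_lit 269)) (nd (nat_lit 227) (nat_lit 0) (cs (lf (nat_lit 30) (nat_lit 226)) (nd (nat_lit 226) (nat_lit 0) (cs (lf (nat_lit 29) (nat_lit 226)) (lf (nat_lit 35) (nat_lit 204)))))))))) (cs (nd (nat_lit 247) (nat_lit 0) (cs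 (lf (nat_lit 11) (nat_lit 246)) (nd (nat_lit 225) (nat_lit 0) (cs (lf (nat_lit 23) (nat_lit 224)) (nd (nat_lit 226) (nat_lit 0) (cs (lf (nat_lit 18) (nat_lit 225)) (rf (nat_lit 1)))))))) (nd (nat_lit 268) (nat_lit 0) (cs (lf (nat_lit 9) (nat_lit 246)) (nd (nat_lit 270) (nat_lit 0) (cs (lf (nat_lit 12) (nat_lit 245)) (nd (nat_lit 292) (nat_lit 0) (cs (lf (nat_lit 18) (nat_lit 269)) (lf (nat_lit 21) (nat_lit 268))))))))))) (cs (nd (nat_lit 270) (nat_lit 0) (cs (nd (nat_lit 251) (nat_lit 0) (cs (lf (nat_lit 11) (nat_lit 247)) (nd (nat_lit 229) (nat_lit 0) (cs (lf (nat_lit 17) (nat_lit 226)) (nd (nat_lit 226) (nat_lit 0) (cs (lf (nat_lit 23) (nat_lit 225)) (nd (nat_lit 228) (nat_lit 0) (cs (lf (nat_lit 41) (nat_lit 227)) (nd (nat_lit 205) (nat_lit 0) (cs (lf (nat_lit 46) (nat_lit 205)) (nd (nat_lit 183) (nat_lit 0) (cs (lf (nat_lit 45) (nat_lit 183)) (lf (nat_lit 33) (nat_lit 182)))))))))))))) (cs (nd (nat_lit 228) (nat_lit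 0) (cs (lf (nat_lit 41) (nat_lit 227)) (nd (nat_lit 295) (nat_lit 0) (cs (lf (nat_lit 29) (nat_lit 228)) (nd (nat_lit 274) (nat_lit 0) (cs (lf (nat_lit 15) (nat_lit 271)) (nd (nat_lit 205) (nat_lit 0) (cs (lf (nat_lit 46) (nat_lit 205)) (nd (nat_lit 183) (nat_lit 0) (cs (lf (nat_lit 45) (nat_lit 183)) (nd (nat_lit 226) (nat_lit 0) (cs (lf (nat_lit 33) (nat_lit 182)) (nd (nat_lit 225) (nat_lit 0) (cs (lf (nat_lit 18) (nat_lit 225)) (nd (nat_lit 223) (nat_lit 0) (cs (lf (nat_lit 1) (nat_lit 223)) (nd (nat_lit 292) (nat_lit 0) (cs (lf (nat_lit 47) (nat_lit 203)) (rf (nat_lit 2)))))))))))))))))))) (cs (nd (nat_lit 228) (nat_lit 0) (cs (lf (nat_lit 41) (nat_lit 227)) (nd (nat_lit 205) (nat_lit 0) (cs (lf (nat_lit 46) (nat_lit 205)) (nd (nat_lit 183) (nat_lit 0) (cs (lf (nat_lit 45) (nat_lit 183)) (nd (nat_lit 226) (nat_lit 0) (cs (lf (nat_lit 33) (nat_lit 182)) (nd (nat_lit 295) (nat_lit 0) (cs (lf (nat_lit 29) (nat_lit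 228)) (nd (nat_lit 292) (nat_lit 0) (cs (lf (nat_lit 23) (nat_lit 269)) (rf (nat_lit 2)))))))))))))) (cs (nd (nat_lit 228) (nat_lit 0) (cs (lf (nat_lit 41) (nat_lit 227)) (nd (nat_lit 295) (nat_lit 0) (cs (lf (nat_lit 29) (nat_lit 228)) (nd (nat_lit 269) (nat_lit 0) (cs (lf (nat_lit 6) (nat_lit 247)) (lf (nat_lit 21) (nat_lit 269)))))))) (cs (nd (nat_lit 251) (nat_lit 0) (cs (lf (nat_lit 11) (nat_lit 247)) (nd (nat_lit 229) (nat_lit 0) (cs (lf (nat_lit 17) (nat_lit 226)) (nd (nat_lit 226) (nat_lit 0) (cs (lf (nat_lit 23) (nat_lit 225)) (rf (nat_lit 3)))))))) (nd (nat_lit 269) (nat_lit 0) (cs (lf (nat_lit 6) (nat_lit 247)) (nd (nat_lit 267) (nat_lit 0) (cs (lf (nat_lit 13) (nat_lit 245)) (nd (nat_lit 292) (nat_lit 0) (cs (lf (nat_lit 18) (nat_lit 269)) (nd (nat_lit 227) (nat_lit 0) (cs (lf (nat_lit 30) (nat_lit 226)) (nd (nat_lit 205) (nat_lit 0) (cs (lf (nat_lit 45) (nat_lit 205)) (lf (nat_lit 36) (nat_lit 182))))))))))))))))))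 (nd (nat_lit 228) (nat_lit 0) (cs (lf (nat_lit 41) (nat_lit 227)) (nd (nat_lit 229) (nat_lit 0) (cs (lf (nat_lit 12) (nat_lit 225)) (nd (nat_lit 227) (nat_lit 0) (cs (lf (nat_lit 47) (nat_lit 205)) (lf (nat_lit 6) (nat_lit 226)))))))))))) q65074 (by decide +kernel)
def q65179 : Q := Q.p (nat_lit 0x900000600000000010000000000000000000000000000000000000000000000000000) (nat_lit 0xa0000380000f80003e0001f80006f80009c000f780006800018000020000000000000000000000000000000000000000) (nat_lit 14)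
theorem c65179 : QOK q65179 := cut [q63510, q63708, q22121, q53059, q14434, q63972, q63996, q12962, q63456, q61766, q65154, q65156, q61284, q65174, q62311] ⟨c63510, c63708, c22121, c53059, c14434, c63972, c63996, c12962, c63456, c61766, c65154, c65156, c61284, c65174, c62311, trivial⟩ (nd (nat_lit 248) (nat_lit 0) (cs (rf (nat_lit 0)) (cs (rf (nat_lit 1)) (nd (nat_lit 273) (nat_lit 0) (cs (lf (nat_lit 19) (nat_lit 249)) (nd (nat_lit 295) (nat_lit 0) (cs (rf (nat_lit 2)) (cs (rf (nat_lit 3)) (cs (nd (nat_lit 228) (nat_lit 0) (cs (rf (nat_lit 4)) (cs (rf (nat_lit 5)) (nd (nat_lit 294) (nat_lit 0) (cs (rf (nat_lit 6)) (cs (nd (nat_lit 316) (nat_lit 0) (cs (rf (nat_lit 7)) (cs (rf (nat_lit 8)) (nd (nat_lit 315) (nat_lit 0) (cs (lf (nat_lit 41) (nat_lit 249)) (nd (nat_lit 314) (nat_lit 0) (cs (lf (nat_lit 12) (nat_lit 291)) (nd (nat_lit 251) (nat_lit 0) (cs (lf (nat_lit 36) (nat_lit 228)) (nd (nat_lit 225) (nat_lit 0) (cs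 (lf (nat_lit 22) (nat_lit 225)) (nd (nat_lit 270) (nat_lit 0) (cs (lf (nat_lit 11) (nat_lit 247)) (nd (nat_lit 271) (nat_lit 0) (cs (lf (nat_lit 5) (nat_lit 270)) (nd (nat_lit 292) (nat_lit 0) (cs (lf (nat_lit 11) (nat_lit 269)) (lf (nat_lit 30) (nat_lit 248))))))))))))))))))) (cs (nd (nat_lit 270) (nat_lit 0) (cs (nd (nat_lit 271) (nat_lit 0) (cs (lf (nat_lit 5) (nat_lit 270)) (nd (nat_lit 292) (nat_lit 0) (cs (lf (nat_lit 11) (nat_lit 269)) (nd (nat_lit 316) (nat_lit 0) (cs (lf (nat_lit 42) (nat_lit 249)) (nd (nat_lit 229) (nat_lit 0) (cs (lf (nat_lit 37) (nat_lit 228)) (nd (nat_lit 230) (nat_lit 0) (cs (lf (nat_lit 6) (nat_lit 227)) (nd (nat_lit 314) (nat_lit 0) (cs (lf (nat_lit 30) (nat_lit 248)) (nd (nat_lit 313) (nat_lit 0) (cs (lf (nat_lit 41) (nat_lit 247)) (lf (nat_lit 8) (nat_lit 291)))))))))))))))) (cs (nd (nat_lit 251) (nat_lit 0) (cs (lf (nat_lit 11) (nat_lit 247)) (rf (nat_lit 9)))) (rf (nat_lit 10)))))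 (nd (nat_lit 293) (nat_lit 0) (cs (lf (nat_lit 41) (nat_lit 227)) (nd (nat_lit 292) (nat_lit 0) (cs (lf (nat_lit 12) (nat_lit 269)) (nd (nat_lit 270) (nat_lit 0) (cs (lf (nat_lit 23) (nat_lit 269)) (nd (nat_lit 314) (nat_lit 0) (cs (lf (nat_lit 11) (nat_lit 291)) (rf (nat_lit 11))))))))))))))))) (cs (nd (nat_lit 270) (nat_lit 0) (cs (nd (nat_lit 317) (nat_lit 0) (cs (lf (nat_lit 42) (nat_lit 250)) (nd (nat_lit 251) (nat_lit 0) (cs (lf (nat_lit 11) (nat_lit 247)) (nd (nat_lit 316) (nat_lit 0) (cs (lf (nat_lit 41) (nat_lit 250)) (nd (nat_lit 229) (nat_lit 0) (cs (lf (nat_lit 17) (nat_lit 226)) (lf (nat_lit 40) (nat_lit 228)))))))))) (cs (nd (nat_lit 271) (nat_lit 0) (cs (lf (nat_lit 5) (nat_lit 270)) (nd (nat_lit 292) (nat_lit 0) (cs (lf (nat_lit 11) (nat_lit 269)) (nd (nat_lit 317) (nat_lit 0) (cs (lf (nat_lit 42) (nat_lit 250)) (nd (nat_lit 314) (nat_lit 0) (cs (lf (nat_lit 30) (nat_lit 248)) (nd (nat_lit 315) (nat_lit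 0) (cs (lf (nat_lit 29) (nat_lit 248)) (nd (nat_lit 226) (nat_lit 0) (cs (lf (nat_lit 43) (nat_lit 226)) (rf (nat_lit 12)))))))))))))) (rf (nat_lit 13))))) (nd (nat_lit 228) (nat_lit 0) (cs (lf (nat_lit 24) (nat_lit 206)) (rf (nat_lit 14)))))))))))))) q65179 (by decide +kernel)
def q65202 : Q := Q.p (nat_lit 0x900000600000000010000000000000000000000000000000000000000000000000000) (nat_lit 0xa0000380001f0000f60001f80016f8000980007e00006000018000000000000000000000000000000000000000000000) (nat_lit 14)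
theorem c65202 : QOK q65202 := cut [q23133, q25763, q56490, q63456, q64908, q62410, q64913, q14448, q56464, q65154, q65185, q65197] ⟨c23133, c25763, c56490, c63456, c64908, c62410, c64913, c14448, c56464, c65154, c65185, c65197, trivial⟩ (nd (nat_lit 294) (nat_lit 0) (cs (rf (nat_lit 0)) (cs (rf (nat_lit 1)) (cs (nd (nat_lit 316) (nat_lit 0) (cs (rf (nat_lit 2)) (cs (rf (nat_lit 3)) (nd (nat_lit 273) (nat_lit 0) (cs (lf (nat_lit 19) (nat_lit 249)) (rf (nat_lit 4))))))) (nd (nat_lit 273) (nat_lit 0) (cs (rf (nat_lit 5)) (cs (rf (nat_lit 6)) (nd (nat_lit 228) (nat_lit 0) (cs (rf (nat_lit 7)) (cs (nd (nat_lit 247) (nat_lit 0) (cs (lf (nat_lit 1) (nat_lit 247)) (nd (nat_lit 205) (nat_lit 0) (cs (lf (nat_lit 46) (nat_lit 205)) (nd (nat_lit 206) (nat_lit 0) (cs (lf (nat_lit 47) (nat_lit 183)) (rf (nat_lit 8)))))))) (nd (nat_lit 270) (nat_lit 0) (cs (nd (nat_lit 295) (nat_lit 0) (cs (lf (nat_lit 29) (nat_lit 228)) (rf (nat_lit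 9)))) (cs (nd (nat_lit 295) (nat_lit 0) (cs (lf (nat_lit 29) (nat_lit 228)) (nd (nat_lit 271) (nat_lit 0) (cs (lf (nat_lit 5) (nat_lit 270)) (rf (nat_lit 10)))))) (cs (nd (nat_lit 295) (nat_lit 0) (cs (lf (nat_lit 29) (nat_lit 228)) (nd (nat_lit 248) (nat_lit 0) (cs (lf (nat_lit 0) (nat_lit 247)) (nd (nat_lit 227) (nat_lit 0) (cs (lf (nat_lit 47) (nat_lit 205)) (nd (nat_lit 251) (nat_lit 0) (cs (lf (nat_lit 11) (nat_lit 247)) (nd (nat_lit 229) (nat_lit 0) (cs (lf (nat_lit 34) (nat_lit 207)) (nd (nat_lit 296) (nat_lit 0) (cs (lf (nat_lit 29) (nat_lit 229)) (nd (nat_lit 292) (nat_lit 0) (cs (lf (nat_lit 30) (nat_lit 226)) (nd (nat_lit 226) (nat_lit 0) (cs (lf (nat_lit 0) (nat_lit 225)) (nd (nat_lit 291) (nat_lit 0) (cs (lf (nat_lit 41) (nat_lit 225)) (lf (nat_lit 14) (nat_lit 269)))))))))))))))))))) (nd (nat_lit 205) (nat_lit 0) (cs (lf (nat_lit 46) (nat_lit 205)) (rf (nat_lit 11)))))))))))))))))) q65202 (by decide +kernel)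
def q65228 : Q := Q.p (nat_lit 0x900000600000000000000000000000000000000000000000000000000000000000000) (nat_lit 0x80000200001c00007c0006f80009c0007f800070000380000c0000200000000000000000000000000000000000) (nat_lit 10)
theorem c65228 : QOK q65228 := cut [q45536, q64945, q63510, q63708, q65205, q64871, q56480, q45751, q57542, q65197] ⟨c45536, c64945, c63510, c63708, c65205, c64871, c56480, c45751, c57542, c65197, trivial⟩ (nd (nat_lit 227) (nat_lit 0) (cs (rf (nat_lit 0)) (cs (nd (nat_lit 294) (nat_lit 0) (cs (lf (nat_lit 42) (nat_lit 227)) (nd (nat_lit 293) (nat_lit 0) (cs (rf (nat_lit 1)) (cs (nd (nat_lit 248) (nat_lit 0) (cs (rf (nat_lit 2)) (cs (rf (nat_lit 3)) (nd (nat_lit 315) (nat_lit 0) (cs (lf (nat_lit 36) (nat_lit 227)) (nd (nat_lit 337) (nat_lit 0) (cs (lf (nat_lit 30) (nat_lit 271)) (nd (nat_lit 273) (nat_lit 0) (cs (lf (nat_lit 19) (nat_lit 249)) (nd (nat_lit 292) (nat_lit 0) (cs (lf (nat_lit 12) (nat_lit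 269)) (rf (nat_lit 4))))))))))))) (cs (nd (nat_lit 273) (nat_lit 0) (cs (lf (nat_lit 19) (nat_lit 249)) (nd (nat_lit 248) (nat_lit 0) (cs (lf (nat_lit 0) (nat_lit 247)) (rf (nat_lit 5)))))) (nd (nat_lit 228) (nat_lit 0) (cs (lf (nat_lit 41) (nat_lit 227)) (nd (nat_lit 271) (nat_lit 0) (cs (lf (nat_lit 36) (nat_lit 205)) (nd (nat_lit 292) (nat_lit 0) (cs (lf (nat_lit 41) (nat_lit 226)) (nd (nat_lit 290) (nat_lit 0) (cs (lf (nat_lit 13) (nat_lit 268)) (rf (nat_lit 6)))))))))))))))) (nd (nat_lit 270) (nat_lit 0) (cs (nd (nat_lit 205) (nat_lit 0) (cs (lf (nat_lit 24) (nat_lit 183)) (nd (nat_lit 273) (nat_lit 0) (cs (lf (nat_lit 19) (nat_lit 249)) (nd (nat_lit 248) (nat_lit 0) (cs (lf (nat_lit 0) (nat_lit 247)) (rf (nat_lit 7)))))))) (cs (nd (nat_lit 273) (nat_lit 0) (cs (lf (nat_lit 19) (nat_lit 249)) (nd (nat_lit 248) (nat_lit 0) (cs (lf (nat_lit 0) (nat_lit 247)) (nd (nat_lit 292) (nat_lit 0) (cs (lf (nat_lit 30) (nat_lit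 226)) (nd (nat_lit 271) (nat_lit 0) (cs (lf (nat_lit 11) (nat_lit 269)) (rf (nat_lit 8)))))))))) (cs (nd (nat_lit 205) (nat_lit 0) (cs (lf (nat_lit 24) (nat_lit 183)) (nd (nat_lit 271) (nat_lit 0) (cs (lf (nat_lit 41) (nat_lit 204)) (rf (nat_lit 8)))))) (nd (nat_lit 183) (nat_lit 0) (cs (lf (nat_lit 25) (nat_lit 183)) (nd (nat_lit 273) (nat_lit 0) (cs (lf (nat_lit 19) (nat_lit 249)) (rf (nat_lit 9))))))))))))) q65228 (by decide +kernel)
def q65368 : Q := Q.p (nat_lit 0x800000600001000000000000000000000000000000000000000000000000000000000) (nat_lit 0xa00003a0000f8000ffc001ff0007fe0009c000ef80002800008000000000000000000000000000000000000000000000) (nat_lit 15)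
theorem c65368 : QOK q65368 := cut [q26200, q26237, q62167, q57373, q62480, q62763, q46953, q62764, q57626, q58952, q63343, q57625, q58951, q65304, q60684, q64450, q63482] ⟨c26200, c26237, c62167, c57373, c62480, c62763, c46953, c62764, c57626, c58952, c63343, c57625, c58951, c65304, c60684, c64450, c63482, trivial⟩ (nd (nat_lit 248) (nat_lit 0) (cs (rf (nat_lit 0)) (cs (rf (nat_lit 1)) (cs (rf (nat_lit 2)) (nd (nat_lit 270) (nat_lit 0) (cs (rf (nat_lit 3)) (cs (nd (nat_lit 227) (nat_lit 0) (cs (rf (nat_lit 4)) (cs (nd (nat_lit 251) (nat_lit 0) (cs (lf (nat_lit 11) (nat_lit 247)) (nd (nat_lit 229) (nat_lit 0) (cs (lf (nat_lit 17) (nat_lit 226)) (nd (nat_lit 225) (nat_lit 0) (cs (lf (nat_lit 22) (nat_lit 225)) (nd (nat_lit 205) (nat_lit 0) (cs (lf (nat_lit 36) (nat_lit 182)) (nd (nat_lit 294) (nat_lit 0) (cs (lf (nat_lit 43) (nat_lit 205)) (rf (nat_lit 5)))))))))))) (cs (nd (nat_lit 292) (nat_lit 0) (cs (lf (nat_lit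 30) (nat_lit 226)) (nd (nat_lit 226) (nat_lit 0) (cs (rf (nat_lit 6)) (nd (nat_lit 291) (nat_lit 0) (cs (lf (nat_lit 41) (nat_lit 225)) (nd (nat_lit 251) (nat_lit 0) (cs (lf (nat_lit 11) (nat_lit 247)) (nd (nat_lit 229) (nat_lit 0) (cs (lf (nat_lit 17) (nat_lit 226)) (nd (nat_lit 293) (nat_lit 0) (cs (lf (nat_lit 29) (nat_lit 226)) (nd (nat_lit 273) (nat_lit 0) (cs (lf (nat_lit 5) (nat_lit 248)) (nd (nat_lit 295) (nat_lit 0) (cs (lf (nat_lit 42) (nat_lit 228)) (nd (nat_lit 294) (nat_lit 0) (cs (lf (nat_lit 41) (nat_lit 228)) (lf (nat_lit 16) (nat_lit 269)))))))))))))))))))) (nd (nat_lit 229) (nat_lit 0) (cs (lf (nat_lit 6) (nat_lit 226)) (nd (nat_lit 292) (nat_lit 0) (cs (lf (nat_lit 30) (nat_lit 226)) (nd (nat_lit 205) (nat_lit 0) (cs (lf (nat_lit 36) (nat_lit 182)) (nd (nat_lit 294) (nat_lit 0) (cs (lf (nat_lit 43) (nat_lit 205)) (rf (nat_lit 7)))))))))))))) (cs (nd (nat_lit 292) (nat_lit 0) (cs (rf (nat_lit 8)) (cs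 (rf (nat_lit 9)) (cs (rf (nat_lit 10)) (nd (nat_lit 227) (nat_lit 0) (cs (rf (nat_lit 11)) (cs (rf (nat_lit 12)) (nd (nat_lit 293) (nat_lit 0) (cs (rf (nat_lit 13)) (nd (nat_lit 272) (nat_lit 0) (cs (nd (nat_lit 273) (nat_lit 0) (cs (lf (nat_lit 19) (nat_lit 249)) (nd (nat_lit 271) (nat_lit 0) (cs (lf (nat_lit 11) (nat_lit 269)) (nd (nat_lit 229) (nat_lit 0) (cs (lf (nat_lit 6) (nat_lit 226)) (rf (nat_lit 14)))))))) (cs (nd (nat_lit 294) (nat_lit 0) (cs (lf (nat_lit 42) (nat_lit 227)) (nd (nat_lit 295) (nat_lit 0) (cs (lf (nat_lit 29) (nat_lit 228)) (nd (nat_lit 296) (nat_lit 0) (cs (lf (nat_lit 16) (nat_lit 271)) (lf (nat_lit 22) (nat_lit 270)))))))) (cs (nd (nat_lit 229) (nat_lit 0) (cs (lf (nat_lit 6) (nat_lit 226)) (nd (nat_lit 294) (nat_lit 0) (cs (lf (nat_lit 42) (nat_lit 227)) (nd (nat_lit 273) (nat_lit 0) (cs (lf (nat_lit 12) (nat_lit 269)) (nd (nat_lit 295) (nat_lit 0) (cs (lf (nat_lit 29) (nat_lit 228)) (nd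 (nat_lit 296) (nat_lit 0) (cs (lf (nat_lit 1) (nat_lit 270)) (rf (nat_lit 15)))))))))))) (nd (nat_lit 229) (nat_lit 0) (cs (lf (nat_lit 6) (nat_lit 226)) (nd (nat_lit 273) (nat_lit 0) (cs (lf (nat_lit 19) (nat_lit 249)) (nd (nat_lit 294) (nat_lit 0) (cs (lf (nat_lit 42) (nat_lit 227)) (lf (nat_lit 12) (nat_lit 269))))))))))))))))))))) (nd (nat_lit 292) (nat_lit 0) (cs (rf (nat_lit 9)) (cs (rf (nat_lit 16)) (nd (nat_lit 227) (nat_lit 0) (cs (rf (nat_lit 11)) (cs (rf (nat_lit 12)) (nd (nat_lit 272) (nat_lit 0) (cs (nd (nat_lit 273) (nat_lit 0) (cs (lf (nat_lit 19) (nat_lit 249)) (nd (nat_lit 291) (nat_lit 0) (cs (lf (nat_lit 8) (nat_lit 269)) (nd (nat_lit 226) (nat_lit 0) (cs (lf (nat_lit 41) (nat_lit 225)) (rf (nat_lit 6)))))))) (nd (nat_lit 229) (nat_lit 0) (cs (lf (nat_lit 6) (nat_lit 226)) (nd (nat_lit 294) (nat_lit 0) (cs (lf (nat_lit 42) (nat_lit 227)) (nd (nat_lit 293) (nat_lit 0) (cs (lf (nat_lit 41) (nat_lit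 227)) (nd (nat_lit 295) (nat_lit 0) (cs (lf (nat_lit 29) (nat_lit 228)) (lf (nat_lit 23) (nat_lit 269)))))))))))))))))))))))))) q65368 (by decide +kernel)
def q65390 : Q := Q.p (nat_lit 0x800002600001000010000000000000000000000000000000000000000000000000000) (nat_lit 0xa0000380003f0001fc0001f80009c000ef800668000fe0007e0000e00002800000000000000000000000000000) (nat_lit 13)
theorem c65390 : QOK q65390 := cut [q26200, q26237, q62580, q57373, q58952, q64790, q63301, q61284, q63540, q62564, q62480, q62575, q65299, q64462, q65304] ⟨c26200, c26237, c62580, c57373, c58952, c64790, c63301, c61284, c63540, c62564, c62480, c62575, c65299, c64462, c65304, trivial⟩ (nd (nat_lit 248) (nat_lit 0) (cs (rf (nat_lit 0)) (cs (rf (nat_lit 1)) (cs (rf (nat_lit 2)) (nd (nat_lit 270) (nat_lit 0) (cs (rf (nat_lit 3)) (cs (nd (nat_lit 292) (nat_lit 0) (cs (rf (nat_lit 4)) (cs (rf (nat_lit 5)) (cs (nd (nat_lit 251) (nat_lit 0) (cs (lf (nat_lit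 11) (nat_lit 247)) (nd (nat_lit 229) (nat_lit 0) (cs (lf (nat_lit 17) (nat_lit 226)) (nd (nat_lit 226) (nat_lit 0) (cs (lf (nat_lit 23) (nat_lit 225)) (rf (nat_lit 6)))))))) (nd (nat_lit 226) (nat_lit 0) (cs (rf (nat_lit 7)) (cs (rf (nat_lit 8)) (nd (nat_lit 291) (nat_lit 0) (cs (lf (nat_lit 41) (nat_lit 225)) (nd (nat_lit 205) (nat_lit 0) (cs (lf (nat_lit 34) (nat_lit 204)) (nd (nat_lit 293) (nat_lit 0) (cs (lf (nat_lit 29) (nat_lit 226)) (nd (nat_lit 269) (nat_lit 0) (cs (lf (nat_lit 6) (nat_lit 247)) (rf (nat_lit 9))))))))))))))))) (nd (nat_lit 227) (nat_lit 0) (cs (rf (nat_lit 10)) (cs (rf (nat_lit 11)) (nd (nat_lit 293) (nat_lit 0) (cs (rf (nat_lit 12)) (cs (nd (nat_lit 271) (nat_lit 0) (cs (lf (nat_lit 35) (nat_lit 205)) (nd (nat_lit 294) (nat_lit 0) (cs (lf (nat_lit 29) (nat_lit 227)) (nd (nat_lit 295) (nat_lit 0) (cs (lf (nat_lit 18) (nat_lit 270)) (nd (nat_lit 272) (nat_lit 0) (cs (lf (nat_lit 29) (nat_lit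 228)) (nd (nat_lit 229) (nat_lit 0) (cs (lf (nat_lit 6) (nat_lit 226)) (nd (nat_lit 292) (nat_lit 0) (cs (lf (nat_lit 41) (nat_lit 226)) (nd (nat_lit 291) (nat_lit 0) (cs (lf (nat_lit 12) (nat_lit 268)) (rf (nat_lit 13)))))))))))))))) (nd (nat_lit 229) (nat_lit 0) (cs (lf (nat_lit 6) (nat_lit 226)) (nd (nat_lit 292) (nat_lit 0) (cs (lf (nat_lit 30) (nat_lit 226)) (rf (nat_lit 14))))))))))))))))))) q65390 (by decide +kernel)
def q65420 : Q := Q.p (nat_lit 0x800002600001000010000000000000000000000000000000000000000000000000000) (nat_lit 0x1f80007c0007f80009c000ef801e6c007fe003ff8001e80003800000000000000000000000000000) (nat_lit 15)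
theorem c65420 : QOK q65420 := cut [q61276, q61331, q61669, q26200, q26237, q62167, q63850, q63916, q63917, q56766, q62169, q26206, q62480, q62526, q8751, q18911, q63899, q62632, q8750, q20025, q61660, q61667, q56677, q62463, q56962, q63779, q56969, q61671] ⟨c61276, c61331, c61669, c26200, c26237, c62167, c63850, c63916, c63917, c56766, c62169, c26206, c62480, c62526, c8751, c18911, c63899, c62632, c8750, c20025, c61660, c61667, c56677, c62463, c56962, c63779, c56969, c61671, trivial⟩ (nd (nat_lit 271) (nat_lit 0) (cs (rf (nat_lit 0)) (cs (rf (nat_lit 1)) (cs (nd (nat_lit 293) (nat_lit 0) (cs (lf (nat_lit 30) (nat_lit 227)) (rf (nat_lit 2)))) (cs (nd (nat_lit 248) (nat_lit 0) (cs (rf (nat_lit 3)) (cs (rf (nat_lit 4)) (cs (rf (nat_lit 5)) (nd (nat_lit 184) (nat_lit 0) (cs (rf (nat_lit 6)) (cs (rf (nat_lit 7)) (cs (rf (nat_lit 8)) (nd (nat_lit 186) (nat_lit 0) (cs (rf (nat_lit 9)) (cs (rf (nat_lit 10)) (cs (nd (nat_lit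 270) (nat_lit 0) (cs (rf (nat_lit 11)) (nd (nat_lit 227) (nat_lit 0) (cs (rf (nat_lit 12)) (rf (nat_lit 13)))))) (nd (nat_lit 185) (nat_lit 0) (cs (rf (nat_lit 14)) (cs (rf (nat_lit 15)) (cs (rf (nat_lit 16)) (nd (nat_lit 161) (nat_lit 0) (cs (rf (nat_lit 17)) (cs (nd (nat_lit 183) (nat_lit 0) (cs (lf (nat_lit 23) (nat_lit 160)) (nd (nat_lit 205) (nat_lit 0) (cs (lf (nat_lit 27) (nat_lit 161)) (rf (nat_lit 18)))))) (nd (nat_lit 187) (nat_lit 0) (cs (lf (nat_lit 22) (nat_lit 161)) (nd (nat_lit 165) (nat_lit 0) (cs (lf (nat_lit 17) (nat_lit 162)) (nd (nat_lit 164) (nat_lit 0) (cs (lf (nat_lit 12) (nat_lit 161)) (rf (nat_lit 19))))))))))))))))))))))))))) (nd (nat_lit 293) (nat_lit 0) (cs (lf (nat_lit 30) (nat_lit 227)) (nd (nat_lit 227) (nat_lit 0) (cs (rf (nat_lit 20)) (cs (nd (nat_lit 294) (nat_lit 0) (cs (lf (nat_lit 29) (nat_lit 227)) (rf (nat_lit 21)))) (cs (nd (nat_lit 294) (nat_lit 0) (cs (lf (nat_lit 29) (nat_lit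 227)) (nd (nat_lit 292) (nat_lit 0) (cs (lf (nat_lit 41) (nat_lit 226)) (nd (nat_lit 270) (nat_lit 0) (cs (lf (nat_lit 36) (nat_lit 204)) (nd (nat_lit 269) (nat_lit 0) (cs (lf (nat_lit 12) (nat_lit 246)) (nd (nat_lit 248) (nat_lit 0) (cs (lf (nat_lit 6) (nat_lit 247)) (rf (nat_lit 22)))))))))))) (cs (nd (nat_lit 248) (nat_lit 0) (cs (rf (nat_lit 22)) (cs (rf (nat_lit 23)) (nd (nat_lit 292) (nat_lit 0) (cs (lf (nat_lit 41) (nat_lit 226)) (nd (nat_lit 291) (nat_lit 0) (cs (rf (nat_lit 24)) (cs (nd (nat_lit 294) (nat_lit 0) (cs (lf (nat_lit 29) (nat_lit 227)) (nd (nat_lit 312) (nat_lit 0) (cs (lf (nat_lit 10) (nat_lit 290)) (nd (nat_lit 273) (nat_lit 0) (cs (lf (nat_lit 16) (nat_lit 269)) (nd (nat_lit 269) (nat_lit 0) (cs (lf (nat_lit 23) (nat_lit 268)) (rf (nat_lit 25)))))))))) (nd (nat_lit 229) (nat_lit 0) (cs (lf (nat_lit 6) (nat_lit 226)) (rf (nat_lit 26)))))))))))) (nd (nat_lit 294) (nat_lit 0) (cs (lf (nat_lit 29)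 (nat_lit 227)) (nd (nat_lit 272) (nat_lit 0) (cs (lf (nat_lit 47) (nat_lit 205)) (rf (nat_lit 27)))))))))))))))))) q65420 (by decide +kernel)
def q65438 : Q := Q.p (nat_lit 0x8c0000600000000000000000000000000000000000000000000000000000000000000) (nat_lit 0x80000300001c00007300001c0001800006000000000000000000000000000000000000000000000000000) (nat_lit 6)
theorem c65438 : QOK q65438 := cut [q46564, q61551, q65437] ⟨c46564, c61551, c65437, trivial⟩ (nd (nat_lit 272) (nat_lit 0) (cs (rf (nat_lit 0)) (cs (rf (nat_lit 1)) (rf (nat_lit 2))))) q65438 (by decide +kernel)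
def q65531 : Q := Q.p (nat_lit 0x80000600000000000000000000000000000000000000000000000000000000000000) (nat_lit 0x100000700001c00007000018000070000170000900001f0000700001c000040000000000000000000000000000000000000000) (nat_lit 13)
theorem c65531 : QOK q65531 := cut [q58513, q61516, q61633, q57008, q65487, q57004, q65530] ⟨c58513, c61516, c61633, c57008, c65487, c57004, c65530, trivial⟩ (nd (nat_lit 293) (nat_lit 0) (cs (rf (nat_lit 0)) (cs (rf (nat_lit 1)) (cs (rf (nat_lit 2)) (cs (nd (nat_lit 227) (nat_lit 0) (cs (rf (nat_lit 3)) (cs (rf (nat_lit 4)) (nd (nat_lit 294) (nat_lit 0) (cs (lf (nat_lit 29) (nat_lit 227)) (nd (nat_lit 205) (nat_lit 0) (cs (lf (nat_lit 28) (nat_lit 205)) (rf (nat_lit 5))))))))) (rf (nat_lit 6))))))) q65531 (by decide +kernel)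
def q65565 : Q := Q.p (nat_lit 0x980000600000000000000000000000000000000000000000000000000000000000000) (nat_lit 0xf80003e0001dc0006700001c0003700005800012000000000000000000000000000000000000000000000) (nat_lit 12)
theorem c65565 : QOK q65565 := cut [q61551, q61620, q47250, q65557, q65561, q65563] ⟨c61551, c61620, c47250, c65557, c65561, c65563, trivial⟩ (nd (nat_lit 270) (nat_lit 0) (cs (rf (nat_lit 0)) (cs (rf (nat_lit 1)) (nd (nat_lit 248) (nat_lit 0) (cs (rf (nat_lit 2)) (cs (rf (nat_lit 3)) (cs (rf (nat_lit 4)) (rf (nat_lit 5))))))))) q65565 (by decide +kernel)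
def q65670 : Q := Q.p (nat_lit 0x980002600000000000000000000000000000000000000000000000000000000000000) (nat_lit 0x140003fe000ff0001fe000600000180001400004000010000000000000000000000000000000000000000000000) (nat_lit 13)
theorem c65670 : QOK q65670 := cut [q65585, q65632, q61516, q65636, q65639, q62101, q65642, q65647, q65660, q46687] ⟨c65585, c65632, c61516, c65636, c65639, c62101, c65642, c65647, c65660, c46687, trivial⟩ (nd (nat_lit 294) (nat_lit 0) (cs (rf (nat_lit 0)) (cs (nd (nat_lit 273) (nat_lit 0) (cs (lf (nat_lit 19) (nat_lit 249)) (nd (nat_lit 247) (nat_lit 0) (cs (lf (nat_lit 1) (nat_lit 247)) (rf (nat_lit 1)))))) (cs (nd (nat_lit 293) (nat_lit 0) (cs (rf (nat_lit 2)) (cs (nd (nat_lit 274) (nat_lit 0) (cs (lf (nat_lit 20) (nat_lit 249)) (rf (nat_lit 3)))) (rf (nat_lit 4))))) (cs (nd (nat_lit 293) (nat_lit 0) (cs (rf (nat_lit 5)) (cs (rf (nat_lit 4)) (cs (nd (nat_lit 273) (nat_lit 0) (cs (lf (nat_lit 19)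 (nat_lit 249)) (nd (nat_lit 292) (nat_lit 0) (cs (lf (nat_lit 12) (nat_lit 269)) (nd (nat_lit 247) (nat_lit 0) (cs (lf (nat_lit 1) (nat_lit 247)) (rf (nat_lit 6)))))))) (nd (nat_lit 316) (nat_lit 0) (cs (lf (nat_lit 42) (nat_lit 249)) (nd (nat_lit 315) (nat_lit 0) (cs (lf (nat_lit 30) (nat_lit 249)) (nd (nat_lit 226) (nat_lit 0) (cs (lf (nat_lit 46) (nat_lit 226)) (nd (nat_lit 317) (nat_lit 0) (cs (lf (nat_lit 29) (nat_lit 250)) (nd (nat_lit 318) (nat_lit 0) (cs (lf (nat_lit 18) (nat_lit 293)) (rf (nat_lit 7)))))))))))))))) (cs (rf (nat_lit 8)) (nd (nat_lit 273) (nat_lit 0) (cs (lf (nat_lit 19) (nat_lit 249)) (nd (nat_lit 247) (nat_lit 0) (cs (lf (nat_lit 1) (nat_lit 247)) (nd (nat_lit 316) (nat_lit 0) (cs (lf (nat_lit 42) (nat_lit 249)) (nd (nat_lit 315) (nat_lit 0) (cs (lf (nat_lit 41) (nat_lit 249)) (nd (nat_lit 293) (nat_lit 0) (cs (lf (nat_lit 35) (nat_lit 227)) (nd (nat_lit 291) (nat_lit 0) (cs (lf (nat_lit 13)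 (nat_lit 269)) (nd (nat_lit 317) (nat_lit 0) (cs (lf (nat_lit 29) (nat_lit 250)) (nd (nat_lit 318) (nat_lit 0) (cs (lf (nat_lit 18) (nat_lit 293)) (nd (nat_lit 340) (nat_lit 0) (cs (lf (nat_lit 5) (nat_lit 315)) (rf (nat_lit 9)))))))))))))))))))))))))) q65670 (by decide +kernel)
def q65687 : Q := Q.p (nat_lit 0x980002600000000000000000000000000000000000000000000000000000000000000) (nat_lit 0x3f0000ff0001f8000460000000001000004000010000000000000000000000000000000000000000000000) (nat_lit 11)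
theorem c65687 : QOK q65687 := cut [q65585, q65632, q47486, q59554, q61516, q47203, q47470, q60915, q60056, q45169] ⟨c65585, c65632, c47486, c59554, c61516, c47203, c47470, c60915, c60056, c45169, trivial⟩ (nd (nat_lit 294) (nat_lit 0) (cs (rf (nat_lit 0)) (cs (rf (nat_lit 1)) (cs (nd (nat_lit 293) (nat_lit 0) (cs (rf (nat_lit 2)) (cs (rf (nat_lit 3)) (rf (nat_lit 4))))) (cs (nd (nat_lit 293) (nat_lit 0) (cs (rf (nat_lit 5)) (cs (rf (nat_lit 6)) (cs (rf (nat_lit 2)) (nd (nat_lit 316) (nat_lit 0) (cs (lf (nat_lit 42) (nat_lit 249)) (nd (nat_lit 317) (nat_lit 0) (cs (lf (nat_lit 29) (nat_lit 250)) (nd (nat_lit 318) (nat_lit 0) (cs (lf (nat_lit 18) (nat_lit 293)) (nd (nat_lit 315) (nat_lit 0) (cs (lf (nat_lit 30) (nat_lit 249)) (nd (nat_lit 340) (nat_lit 0) (cs (lf (nat_lit 5) (nat_lit 315)) (nd (nat_lit 274) (nat_lit 0) (cs (lf (nat_lit 32) (nat_lit 252)) (rf (nat_lit 7)))))))))))))))))) (cs (nd (nat_lit 316) (nat_lit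 0) (cs (lf (nat_lit 42) (nat_lit 249)) (nd (nat_lit 315) (nat_lit 0) (cs (lf (nat_lit 41) (nat_lit 249)) (nd (nat_lit 293) (nat_lit 0) (cs (lf (nat_lit 35) (nat_lit 227)) (rf (nat_lit 8)))))))) (nd (nat_lit 316) (nat_lit 0) (cs (lf (nat_lit 42) (nat_lit 249)) (nd (nat_lit 315) (nat_lit 0) (cs (lf (nat_lit 41) (nat_lit 249)) (nd (nat_lit 293) (nat_lit 0) (cs (lf (nat_lit 35) (nat_lit 227)) (nd (nat_lit 314) (nat_lit 0) (cs (lf (nat_lit 41) (nat_lit 248)) (nd (nat_lit 312) (nat_lit 0) (cs (rf (nat_lit 9)) (lf (nat_lit 13) (nat_lit 290)))))))))))))))))) q65687 (by decide +kernel)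
def q65765 : Q := Q.p (nat_lit 0x980000600000000000000000000000000000000000000000000000000000000000000) (nat_lit 0x400007c0001f00007c0006700001c0001700007c00017000004000000000000000000000000000000000000000) (nat_lit 14)
theorem c65765 : QOK q65765 := cut [q61516, q48703, q48841, q65741, q48839, q49160, q65744, q65751, q65755, q22122, q65764] ⟨c61516, c48703, c48841, c65741, c48839, c49160, c65744, c65751, c65755, c22122, c65764, trivial⟩ (nd (nat_lit 293) (nat_lit 0) (cs (rf (nat_lit 0)) (cs (nd (nat_lit 273) (nat_lit 0) (cs (lf (nat_lit 19) (nat_lit 249)) (nd (nat_lit 291) (nat_lit 0) (cs (rf (nat_lit 1)) (cs (rf (nat_lit 2)) (nd (nat_lit 269) (nat_lit 0) (cs (rf (nat_lit 3)) (cs (nd (nat_lit 247) (nat_lit 0) (cs (lf (nat_lit 1) (nat_lit 247)) (rf (nat_lit 4)))) (cs (nd (nat_lit 247) (nat_lit 0) (cs (lf (nat_lit 1) (nat_lit 247)) (nd (nat_lit 313) (nat_lit 0) (cs (rf (nat_lit 5)) (cs (nd (nat_lit 206) (nat_lit 0) (cs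 (lf (nat_lit 37) (nat_lit 205)) (nd (nat_lit 224) (nat_lit 0) (cs (lf (nat_lit 46) (nat_lit 224)) (nd (nat_lit 225) (nat_lit 0) (cs (lf (nat_lit 47) (nat_lit 202)) (nd (nat_lit 314) (nat_lit 0) (cs (lf (nat_lit 29) (nat_lit 247)) (rf (nat_lit 6)))))))))) (cs (rf (nat_lit 7)) (nd (nat_lit 312) (nat_lit 0) (cs (lf (nat_lit 41) (nat_lit 246)) (rf (nat_lit 8)))))))))) (nd (nat_lit 206) (nat_lit 0) (cs (lf (nat_lit 37) (nat_lit 205)) (nd (nat_lit 270) (nat_lit 0) (cs (rf (nat_lit 9)) (lf (nat_lit 12) (nat_lit 246))))))))))))))) (rf (nat_lit 10))))) q65765 (by decide +kernel)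
def q65850 : Q := Q.p (nat_lit 0x20000080000600000800010000000000000000000000000000000000000000000000000000) (nat_lit 0x1c000f700025c00010000000000000000000000000000000000000000000000) (nat_lit 8)
theorem c65850 : QOK q65850 := cut [q56623, q65767] ⟨c56623, c65767, trivial⟩ (nd (nat_lit 228) (nat_lit 0) (cs (rf (nat_lit 0)) (rf (nat_lit 1)))) q65850 (by decide +kernel)
def q66027 : Q := Q.p (nat_lit 0x300000c0000000000800000000000000000000000000000000000) (nat_lit 0x7c0007780007800000000000000000000000000000) (nat_lit 7)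
theorem c66027 : QOK q66027 := cut [q66025] ⟨c66025, trivial⟩ (nd (nat_lit 165) (nat_lit 0) (cs (lf (nat_lit 36) (nat_lit 120)) (rf (nat_lit 0)))) q66027 (by decide +kernel)
def q66082 : Q := Q.p (nat_lit 0x8000024000000000100000c0000000000000000000000000000000000000000000000) (nat_lit 0x190000e60001380003f8003fc001ff00001000000000000000000000000) (nat_lit 13)
theorem c66082 : QOK q66082 := cut [q57995, q57996, q11, q57982, q61486, q5807, q57937, q66050, q66055, q66062, q66022, q57934, q57939, q57952, q57959, q58102, q5713, q5770, q34444, q58105] ⟨c57995, c57996, c11, c57982, c61486, c5807, c57937, c66050, c66055, c66062, c66022, c57934, c57939, c57952, c57959, c58102, c5713, c5770, c34444, c58105, trivial⟩ (nd (nat_lit 209) (nat_lit 0) (cs (lf (nat_lit 44) (nat_lit 186)) (nd (nat_lit 143) (nat_lit 0) (cs (rf (nat_lit 0)) (cs (rf (nat_lit 1)) (cs (nd (nat_lit 185) (nat_lit 0) (cs (rf (nat_lit 2)) (cs (nd (nat_lit 142)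 (nat_lit 0) (cs (rf (nat_lit 3)) (cs (rf (nat_lit 4)) (cs (nd (nat_lit 141) (nat_lit 0) (cs (rf (nat_lit 5)) (cs (rf (nat_lit 6)) (cs (nd (nat_lit 210) (nat_lit 0) (cs (lf (nat_lit 18) (nat_lit 185)) (nd (nat_lit 165) (nat_lit 0) (cs (lf (nat_lit 29) (nat_lit 143)) (rf (nat_lit 7)))))) (nd (nat_lit 210) (nat_lit 0) (cs (lf (nat_lit 18) (nat_lit 185)) (nd (nat_lit 165) (nat_lit 0) (cs (lf (nat_lit 29) (nat_lit 143)) (rf (nat_lit 8)))))))))) (rf (nat_lit 9)))))) (nd (nat_lit 184) (nat_lit 0) (cs (lf (nat_lit 0) (nat_lit 183)) (nd (nat_lit 205) (nat_lit 0) (cs (lf (nat_lit 10) (nat_lit 183)) (nd (nat_lit 162) (nat_lit 0) (cs (lf (nat_lit 23) (nat_lit 161)) (nd (nat_lit 163) (nat_lit 0) (cs (lf (nat_lit 18) (nat_lit 162)) (nd (nat_lit 141) (nat_lit 0) (cs (lf (nat_lit 24) (nat_lit 119)) (nd (nat_lit 142) (nat_lit 0) (cs (lf (nat_lit 6) (nat_lit 140)) (rf (nat_lit 3))))))))))))))))) (nd (nat_lit 185) (nat_lit 0) (cs (rf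 (nat_lit 2)) (cs (rf (nat_lit 10)) (nd (nat_lit 142) (nat_lit 0) (cs (rf (nat_lit 11)) (cs (rf (nat_lit 12)) (cs (rf (nat_lit 9)) (nd (nat_lit 141) (nat_lit 0) (cs (rf (nat_lit 13)) (cs (rf (nat_lit 14)) (cs (rf (nat_lit 15)) (cs (nd (nat_lit 140) (nat_lit 0) (cs (rf (nat_lit 16)) (cs (rf (nat_lit 17)) (cs (rf (nat_lit 18)) (nd (nat_lit 210) (nat_lit 0) (cs (lf (nat_lit 18) (nat_lit 185)) (nd (nat_lit 122) (nat_lit 0) (cs (lf (nat_lit 16) (nat_lit 118)) (nd (nat_lit 161) (nat_lit 0) (cs (lf (nat_lit 10) (nat_lit 139)) (rf (nat_lit 19)))))))))))) (nd (nat_lit 210) (nat_lit 0) (cs (lf (nat_lit 18) (nat_lit 185)) (nd (nat_lit 163) (nat_lit 0) (cs (lf (nat_lit 24) (nat_lit 119)) (nd (nat_lit 162) (nat_lit 0) (cs (lf (nat_lit 6) (nat_lit 140)) (lf (nat_lit 18) (nat_lit 162)))))))))))))))))))))))))) q66082 (by decide +kernel)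
def q66122 : Q := Q.p (nat_lit 0x300001c0000000000000000000000000000000000000000000000) (nat_lit 0x100001c0000600001bf0007f8001ff00040000000000000000000000000) (nat_lit 13)
theorem c66122 : QOK q66122 := cut [q10489, q58224, q10427, q5713, q66095, q58226, q66108, q58158] ⟨c10489, c58224, c10427, c5713, c66095, c58226, c66108, c58158, trivial⟩ (nd (nat_lit 164) (nat_lit 0) (cs (rf (nat_lit 0)) (cs (rf (nat_lit 1)) (nd (nat_lit 143) (nat_lit 0) (cs (rf (nat_lit 2)) (cs (nd (nat_lit 142) (nat_lit 0) (cs (lf (nat_lit 24) (nat_lit 120)) (nd (nat_lit 141) (nat_lit 0) (cs (lf (nat_lit 47) (nat_lit 119)) (nd (nat_lit 140) (nat_lit 0) (cs (rf (nat_lit 3)) (cs (nd (nat_lit 189) (nat_lit 0) (cs (lf (nat_lit 6) (nat_lit 186)) (nd (nat_lit 167) (nat_lit 0) (cs (lf (nat_lit 17) (nat_lit 164)) (nd (nat_lit 145) (nat_lit 0) (cs (rf (nat_lit 4)) (cs (nd (nat_lit 211) (nat_lit 0) (cs (lf (nat_lit 5) (nat_lit 186)) (nd (nat_lit 210) (nat_lit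 0) (cs (lf (nat_lit 41) (nat_lit 144)) (rf (nat_lit 5)))))) (cs (nd (nat_lit 161) (nat_lit 0) (cs (lf (nat_lit 10) (nat_lit 139)) (nd (nat_lit 211) (nat_lit 0) (cs (lf (nat_lit 5) (nat_lit 186)) (nd (nat_lit 124) (nat_lit 0) (cs (lf (nat_lit 34) (nat_lit 123)) (nd (nat_lit 144) (nat_lit 0) (cs (lf (nat_lit 16) (nat_lit 120)) (lf (nat_lit 47) (nat_lit 122)))))))))) (nd (nat_lit 123) (nat_lit 0) (cs (lf (nat_lit 41) (nat_lit 122)) (nd (nat_lit 124) (nat_lit 0) (cs (lf (nat_lit 35) (nat_lit 101)) (lf (nat_lit 14) (nat_lit 120)))))))))))))) (nd (nat_lit 189) (nat_lit 0) (cs (lf (nat_lit 6) (nat_lit 186)) (nd (nat_lit 167) (nat_lit 0) (cs (lf (nat_lit 17) (nat_lit 164)) (nd (nat_lit 211) (nat_lit 0) (cs (lf (nat_lit 5) (nat_lit 186)) (rf (nat_lit 6))))))))))))))) (nd (nat_lit 189) (nat_lit 0) (cs (lf (nat_lit 6) (nat_lit 186)) (nd (nat_lit 167) (nat_lit 0) (cs (lf (nat_lit 17) (nat_lit 164)) (nd (nat_lit 211) (nat_lit 0)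 (cs (lf (nat_lit 5) (nat_lit 186)) (nd (nat_lit 165) (nat_lit 0) (cs (lf (nat_lit 36) (nat_lit 120)) (nd (nat_lit 210) (nat_lit 0) (cs (lf (nat_lit 29) (nat_lit 143)) (nd (nat_lit 145) (nat_lit 0) (cs (lf (nat_lit 36) (nat_lit 122)) (rf (nat_lit 7)))))))))))))))))))) q66122 (by decide +kernel)
def q66213 : Q := Q.p (nat_lit 0x4000000000100000e0000000000000000000000000000000000000000000000) (nat_lit 0x140000300001c003e7000718001c30000000000000000000000000000000000000000) (nat_lit 10)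
theorem c66213 : QOK q66213 := cut [q19161, q19168, q19172, q66212] ⟨c19161, c19168, c19172, c66212, trivial⟩ (nd (nat_lit 188) (nat_lit 0) (cs (rf (nat_lit 0)) (cs (rf (nat_lit 1)) (cs (rf (nat_lit 2)) (rf (nat_lit 3)))))) q66213 (by decide +kernel)
def q66434 : Q := Q.p (nat_lit 0x8000020000000000100000c0000000000000000000000000000000000000000000000) (nat_lit 0x90000340001e0000700001ff8007fc000ff8003e000060000000000000000000) (nat_lit 12)
theorem c66434 : QOK q66434 := cut [q66385, q66386, q66387, q66390, q20025, q20796, q18440, q20045, q19971, q8348, q4703, q66399, q16449, q8292, q19977, q66433] ⟨c66385, c66386, c66387, c66390, c20025, c20796, c18440, c20045, c19971, c8348, c4703, c66399, c16449, c8292, c19977, c66433, trivial⟩ (nd (nat_lit 164) (nat_lit 0) (cs (rf (nat_lit 0)) (cs (rf (nat_lit 1)) (cs (rf (nat_lit 2)) (cs (rf (nat_lit 3)) (cs (nd (nat_lit 165) (nat_lit 0) (cs (rf (nat_lit 4)) (cs (nd (nat_lit 166)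 (nat_lit 0) (cs (nd (nat_lit 230) (nat_lit 0) (cs (lf (nat_lit 30) (nat_lit 164)) (rf (nat_lit 5)))) (cs (nd (nat_lit 188) (nat_lit 0) (cs (rf (nat_lit 6)) (cs (nd (nat_lit 230) (nat_lit 0) (cs (lf (nat_lit 30) (nat_lit 164)) (rf (nat_lit 7)))) (nd (nat_lit 230) (nat_lit 0) (cs (lf (nat_lit 30) (nat_lit 164)) (rf (nat_lit 8))))))) (cs (nd (nat_lit 230) (nat_lit 0) (cs (lf (nat_lit 30) (nat_lit 164)) (rf (nat_lit 9)))) (cs (nd (nat_lit 167) (nat_lit 0) (cs (lf (nat_lit 6) (nat_lit 164)) (nd (nat_lit 189) (nat_lit 0) (cs (lf (nat_lit 5) (nat_lit 164)) (nd (nat_lit 188) (nat_lit 0) (cs (rf (nat_lit 10)) (lf (nat_lit 0) (nat_lit 163)))))))) (cs (nd (nat_lit 167) (nat_lit 0) (cs (lf (nat_lit 6) (nat_lit 164)) (nd (nat_lit 189) (nat_lit 0) (cs (lf (nat_lit 5) (nat_lit 164)) (nd (nat_lit 188) (nat_lit 0) (cs (lf (nat_lit 0) (nat_lit 163)) (nd (nat_lit 211) (nat_lit 0) (cs (lf (nat_lit 5) (nat_lit 186)) (nd (nat_lit 233) (nat_lit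 0) (cs (lf (nat_lit 42) (nat_lit 166)) (rf (nat_lit 11)))))))))))) (nd (nat_lit 188) (nat_lit 0) (cs (rf (nat_lit 8)) (cs (nd (nat_lit 167) (nat_lit 0) (cs (lf (nat_lit 6) (nat_lit 164)) (nd (nat_lit 145) (nat_lit 0) (cs (lf (nat_lit 17) (nat_lit 142)) (nd (nat_lit 123) (nat_lit 0) (cs (lf (nat_lit 36) (nat_lit 100)) (nd (nat_lit 210) (nat_lit 0) (cs (lf (nat_lit 30) (nat_lit 144)) (lf (nat_lit 33) (nat_lit 122)))))))))) (cs (nd (nat_lit 167) (nat_lit 0) (cs (lf (nat_lit 6) (nat_lit 164)) (nd (nat_lit 189) (nat_lit 0) (cs (lf (nat_lit 5) (nat_lit 164)) (rf (nat_lit 11)))))) (nd (nat_lit 167) (nat_lit 0) (cs (lf (nat_lit 6) (nat_lit 164)) (nd (nat_lit 145) (nat_lit 0) (cs (lf (nat_lit 17) (nat_lit 142)) (nd (nat_lit 101) (nat_lit 0) (cs (lf (nat_lit 37) (nat_lit 100)) (nd (nat_lit 230) (nat_lit 0) (cs (lf (nat_lit 30) (nat_lit 164)) (nd (nat_lit 189) (nat_lit 0) (cs (lf (nat_lit 18) (nat_lit 164)) (nd (nat_lit 211) (nat_lit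 0) (cs (lf (nat_lit 5) (nat_lit 186)) (rf (nat_lit 12)))))))))))))))))))))))) (nd (nat_lit 143) (nat_lit 0) (cs (lf (nat_lit 36) (nat_lit 120)) (nd (nat_lit 144) (nat_lit 0) (cs (rf (nat_lit 13)) (cs (rf (nat_lit 14)) (nd (nat_lit 122) (nat_lit 0) (cs (lf (nat_lit 30) (nat_lit 121)) (nd (nat_lit 78) (nat_lit 0) (cs (lf (nat_lit 37) (nat_lit 77)) (nd (nat_lit 145) (nat_lit 0) (cs (lf (nat_lit 6) (nat_lit 142)) (nd (nat_lit 163) (nat_lit 0) (cs (lf (nat_lit 12) (nat_lit 140)) (lf (nat_lit 9) (nat_lit 141)))))))))))))))))) (rf (nat_lit 15)))))))) q66434 (by decide +kernel)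
def q66478 : Q := Q.p (nat_lit 0x8000024000000000100000c0000000000000000000000000000000000000000000000) (nat_lit 0x80001200005800067000038001ff8007fc000ff8000e0000380000a0000000000000) (nat_lit 11)
theorem c66478 : QOK q66478 := cut [q66385, q66386, q66390, q20025, q66437, q4466, q21241, q8355, q19696, q9201, q19155, q66450, q66457, q66460, q19728, q66464, q62364, q4866, q8949, q57787, q18362, q18377, q57767, q66471] ⟨c66385, c66386, c66390, c20025, c66437, c4466, c21241, c8355, c19696, c9201, c19155, c66450, c66457, c66460, c19728, c66464, c62364, c4866, c8949, c57787, c18362, c18377, c57767, c66471, trivial⟩ (nd (nat_lit 164) (nat_lit 0) (cs (rf (nat_lit 0)) (cs (rf (nat_lit 1)) (cs (rf (nat_lit 2)) (cs (nd (nat_lit 165) (nat_lit 0) (cs (rf (nat_lit 3)) (cs (nd (nat_lit 230) (nat_lit 0) (cs (lf (nat_lit 30) (nat_lit 164)) (nd (nat_lit 163) (nat_lit 0) (cs (lf (nat_lit 47) (nat_lit 141)) (rf (nat_lit 4)))))) (nd (nat_lit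 163) (nat_lit 0) (cs (rf (nat_lit 5)) (cs (rf (nat_lit 4)) (cs (nd (nat_lit 166) (nat_lit 0) (cs (rf (nat_lit 6)) (nd (nat_lit 121) (nat_lit 0) (cs (lf (nat_lit 37) (nat_lit 120)) (rf (nat_lit 7)))))) (nd (nat_lit 121) (nat_lit 0) (cs (lf (nat_lit 37) (nat_lit 120)) (nd (nat_lit 162) (nat_lit 0) (cs (lf (nat_lit 0) (nat_lit 161)) (nd (nat_lit 139) (nat_lit 0) (cs (lf (nat_lit 22) (nat_lit 139)) (nd (nat_lit 184) (nat_lit 0) (cs (lf (nat_lit 11) (nat_lit 161)) (nd (nat_lit 185) (nat_lit 0) (cs (lf (nat_lit 6) (nat_lit 162)) (rf (nat_lit 8))))))))))))))))))) (cs (nd (nat_lit 185) (nat_lit 0) (cs (nd (nat_lit 184) (nat_lit 0) (cs (rf (nat_lit 9)) (cs (rf (nat_lit 10)) (nd (nat_lit 230) (nat_lit 0) (cs (lf (nat_lit 27) (nat_lit 186)) (rf (nat_lit 11))))))) (cs (rf (nat_lit 12)) (cs (rf (nat_lit 13)) (nd (nat_lit 184) (nat_lit 0) (cs (rf (nat_lit 9)) (cs (rf (nat_lit 14)) (rf (nat_lit 11))))))))) (cs (rf (nat_lit 15)) (cs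 (nd (nat_lit 230) (nat_lit 0) (cs (lf (nat_lit 27) (nat_lit 186)) (nd (nat_lit 143) (nat_lit 0) (cs (lf (nat_lit 34) (nat_lit 142)) (nd (nat_lit 142) (nat_lit 0) (cs (lf (nat_lit 35) (nat_lit 120)) (nd (nat_lit 120) (nat_lit 0) (cs (lf (nat_lit 29) (nat_lit 120)) (nd (nat_lit 163) (nat_lit 0) (cs (lf (nat_lit 47) (nat_lit 141)) (rf (nat_lit 16)))))))))))) (nd (nat_lit 142) (nat_lit 0) (cs (rf (nat_lit 17)) (cs (rf (nat_lit 18)) (cs (rf (nat_lit 19)) (nd (nat_lit 141) (nat_lit 0) (cs (lf (nat_lit 47) (nat_lit 119)) (nd (nat_lit 140) (nat_lit 0) (cs (rf (nat_lit 20)) (cs (rf (nat_lit 21)) (cs (rf (nat_lit 22)) (nd (nat_lit 143) (nat_lit 0) (cs (lf (nat_lit 35) (nat_lit 120)) (nd (nat_lit 165) (nat_lit 0) (cs (lf (nat_lit 5) (nat_lit 140)) (nd (nat_lit 117) (nat_lit 0) (cs (lf (nat_lit 22) (nat_lit 117)) (rf (nat_lit 23)))))))))))))))))))))))))) q66478 (by decide +kernel)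
def q66514 : Q := Q.p (nat_lit 0x8000020000000000100001c0000000000000000000000000000000000000000000000) (nat_lit 0x10000340003e7000038003f7000ff8000fe000380000a0000000000000000000) (nat_lit 13)
theorem c66514 : QOK q66514 := cut [q2647, q19170, q19282, q582, q19169, q9208, q66217, q66496, q66497, q9217, q19835] ⟨c2647, c19170, c19282, c582, c19169, c9208, c66217, c66496, c66497, c9217, c19835, trivial⟩ (nd (nat_lit 166) (nat_lit 0) (cs (rf (nat_lit 0)) (cs (nd (nat_lit 230) (nat_lit 0) (cs (lf (nat_lit 27) (nat_lit 186)) (nd (nat_lit 185) (nat_lit 0) (cs (lf (nat_lit 17) (nat_lit 163)) (rf (nat_lit 1)))))) (cs (nd (nat_lit 210) (nat_lit 0) (cs (nd (nat_lit 143) (nat_lit 0) (cs (rf (nat_lit 2)) (cs (nd (nat_lit 230) (nat_lit 0) (cs (lf (nat_lit 27) (nat_lit 186)) (nd (nat_lit 165) (nat_lit 0) (cs (lf (nat_lit 42) (nat_lit 143)) (lf (nat_lit 39) (nat_lit 142)))))) (nd (nat_lit 165) (nat_lit 0) (cs (lf (nat_lit 42) (nat_lit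 143)) (lf (nat_lit 24) (nat_lit 121))))))) (cs (nd (nat_lit 230) (nat_lit 0) (cs (lf (nat_lit 27) (nat_lit 186)) (nd (nat_lit 185) (nat_lit 0) (cs (lf (nat_lit 5) (nat_lit 185)) (rf (nat_lit 3)))))) (nd (nat_lit 185) (nat_lit 0) (cs (lf (nat_lit 5) (nat_lit 185)) (rf (nat_lit 4))))))) (nd (nat_lit 144) (nat_lit 0) (cs (rf (nat_lit 5)) (cs (nd (nat_lit 143) (nat_lit 0) (cs (rf (nat_lit 6)) (cs (rf (nat_lit 7)) (rf (nat_lit 8))))) (cs (nd (nat_lit 230) (nat_lit 0) (cs (lf (nat_lit 27) (nat_lit 186)) (rf (nat_lit 9)))) (nd (nat_lit 143) (nat_lit 0) (cs (rf (nat_lit 7)) (cs (nd (nat_lit 230) (nat_lit 0) (cs (lf (nat_lit 27) (nat_lit 186)) (nd (nat_lit 165) (nat_lit 0) (cs (lf (nat_lit 33) (nat_lit 142)) (nd (nat_lit 100) (nat_lit 0) (cs (lf (nat_lit 37) (nat_lit 99)) (nd (nat_lit 168) (nat_lit 0) (cs (nd (nat_lit 210) (nat_lit 0) (cs (lf (nat_lit 42) (nat_lit 143)) (nd (nat_lit 211) (nat_lit 0) (cs (lf (nat_lit 29) (nat_lit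 144)) (nd (nat_lit 212) (nat_lit 0) (cs (lf (nat_lit 18) (nat_lit 187)) (nd (nat_lit 145) (nat_lit 0) (cs (lf (nat_lit 35) (nat_lit 122)) (nd (nat_lit 146) (nat_lit 0) (cs (lf (nat_lit 5) (nat_lit 143)) (lf (nat_lit 6) (nat_lit 143)))))))))))) (lf (nat_lit 7) (nat_lit 164)))))))))) (cs (nd (nat_lit 230) (nat_lit 0) (cs (lf (nat_lit 27) (nat_lit 186)) (rf (nat_lit 10)))) (nd (nat_lit 121) (nat_lit 0) (cs (lf (nat_lit 38) (nat_lit 120)) (lf (nat_lit 42) (nat_lit 121)))))))))))))))) q66514 (by decide +kernel)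
def q66601 : Q := Q.p (nat_lit 0x8000024000000000100000c0000000000000000000000000000000000000000000000) (nat_lit 0x60000190000750007e6000f38007fc001ffc000ff0002e000038000020000000000000) (nat_lit 13)
theorem c66601 : QOK q66601 := cut [q66381, q66385, q66386, q66390, q66580, q57722, q57778, q57795, q57824, q57907, q66541, q57724, q66457, q66587, q57811, q4866, q8949, q57787, q2647, q57964, q66177] ⟨c66381, c66385, c66386, c66390, c66580, c57722, c57778, c57795, c57824, c57907, c66541, c57724, c66457, c66587, c57811, c4866, c8949, c57787, c2647, c57964, c66177, trivial⟩ (nd (nat_lit 164) (nat_lit 0) (cs (rf (nat_lit 0)) (cs (rf (nat_lit 1)) (cs (rf (nat_lit 2)) (cs (rf (nat_lit 3)) (cs (nd (nat_lit 230) (nat_lit 0) (cs (lf (nat_lit 27) (nat_lit 186)) (nd (nat_lit 143) (nat_lit 0) (cs (lf (nat_lit 34) (nat_lit 142)) (nd (nat_lit 163) (nat_lit 0) (cs (lf (nat_lit 47) (nat_lit 141)) (nd (nat_lit 188) (nat_lit 0) (cs (lf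 (nat_lit 18) (nat_lit 163)) (nd (nat_lit 185) (nat_lit 0) (cs (lf (nat_lit 23) (nat_lit 162)) (nd (nat_lit 166) (nat_lit 0) (cs (lf (nat_lit 17) (nat_lit 163)) (rf (nat_lit 4)))))))))))))) (cs (nd (nat_lit 188) (nat_lit 0) (cs (rf (nat_lit 5)) (cs (rf (nat_lit 6)) (cs (rf (nat_lit 7)) (cs (rf (nat_lit 8)) (cs (rf (nat_lit 9)) (cs (rf (nat_lit 10)) (nd (nat_lit 185) (nat_lit 0) (cs (rf (nat_lit 11)) (cs (rf (nat_lit 12)) (nd (nat_lit 230) (nat_lit 0) (cs (lf (nat_lit 27) (nat_lit 186)) (nd (nat_lit 166) (nat_lit 0) (cs (lf (nat_lit 17) (nat_lit 163)) (rf (nat_lit 13)))))))))))))))) (nd (nat_lit 188) (nat_lit 0) (cs (rf (nat_lit 7)) (cs (rf (nat_lit 14)) (cs (rf (nat_lit 8)) (cs (nd (nat_lit 142) (nat_lit 0) (cs (rf (nat_lit 15)) (cs (rf (nat_lit 16)) (cs (rf (nat_lit 17)) (nd (nat_lit 143) (nat_lit 0) (cs (lf (nat_lit 35) (nat_lit 120)) (nd (nat_lit 166) (nat_lit 0) (cs (rf (nat_lit 18)) (cs (nd (nat_lit 141) (nat_lit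 0) (cs (lf (nat_lit 47) (nat_lit 119)) (nd (nat_lit 140) (nat_lit 0) (cs (lf (nat_lit 4) (nat_lit 140)) (rf (nat_lit 19)))))) (nd (nat_lit 119) (nat_lit 0) (cs (lf (nat_lit 46) (nat_lit 119)) (nd (nat_lit 185) (nat_lit 0) (cs (lf (nat_lit 17) (nat_lit 163)) (rf (nat_lit 13))))))))))))))) (nd (nat_lit 163) (nat_lit 0) (cs (lf (nat_lit 18) (nat_lit 163)) (rf (nat_lit 20)))))))))))))))) q66601 (by decide +kernel)
def q66683 : Q := Q.p (nat_lit 0x8000024000000000100000c0000000000000000000000000000000000000000000000) (nat_lit 0x140001300035c003e7000738003fb0007e0000f80003e0000a0000000000000000000) (nat_lit 12)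
theorem c66683 : QOK q66683 := cut [q66381, q66385, q66386, q66390, q66464, q57778, q66577, q57724, q66212, q9208, q19775, q19492] ⟨c66381, c66385, c66386, c66390, c66464, c57778, c66577, c57724, c66212, c9208, c19775, c19492, trivial⟩ (nd (nat_lit 164) (nat_lit 0) (cs (rf (nat_lit 0)) (cs (rf (nat_lit 1)) (cs (rf (nat_lit 2)) (cs (rf (nat_lit 3)) (cs (rf (nat_lit 4)) (nd (nat_lit 188) (nat_lit 0) (cs (rf (nat_lit 5)) (cs (rf (nat_lit 6)) (cs (nd (nat_lit 185) (nat_lit 0) (cs (rf (nat_lit 7)) (cs (rf (nat_lit 8)) (cs (nd (nat_lit 166) (nat_lit 0) (cs (lf (nat_lit 17) (nat_lit 163)) (nd (nat_lit 144) (nat_lit 0) (cs (rf (nat_lit 9)) (cs (rf (nat_lit 10)) (nd (nat_lit 210) (nat_lit 0) (cs (lf (nat_lit 5) (nat_lit 185)) (nd (nat_lit 143) (nat_lit 0) (cs (lf (nat_lit 47) (nat_lit 121)) (nd (nat_lit 165) (nat_lit 0) (cs (lf (nat_lit 42) (nat_lit 143)) (nd (nat_lit 145) (nat_lit 0) (cs (lf (nat_lit 6) (nat_lit 142)) (lf (nat_lit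 35) (nat_lit 122))))))))))))))) (nd (nat_lit 166) (nat_lit 0) (cs (lf (nat_lit 17) (nat_lit 163)) (nd (nat_lit 184) (nat_lit 0) (cs (lf (nat_lit 16) (nat_lit 162)) (rf (nat_lit 11)))))))))) (nd (nat_lit 189) (nat_lit 0) (cs (lf (nat_lit 23) (nat_lit 163)) (nd (nat_lit 190) (nat_lit 0) (cs (lf (nat_lit 10) (nat_lit 186)) (lf (nat_lit 22) (nat_lit 164)))))))))))))))) q66683 (by decide +kernel)
def q66706 : Q := Q.p (nat_lit 0x8000024000000000100000c0000000000000000000000000000000000000000000000) (nat_lit 0x140001300035c007c7000f38007ff0003fc0007f0000e000038000020000000000000) (nat_lit 13)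
theorem c66706 : QOK q66706 := cut [q18163, q20062, q32360, q2, q18440, q20002, q57811, q65987, q66460, q20020, q10455, q20054, q20080, q57787, q57790, q2879, q20076, q20070, q58222, q4951] ⟨c18163, c20062, c32360, c2, c18440, c20002, c57811, c65987, c66460, c20020, c10455, c20054, c20080, c57787, c57790, c2879, c20076, c20070, c58222, c4951, trivial⟩ (nd (nat_lit 164) (nat_lit 0) (cs (nd (nat_lit 142) (nat_lit 0) (cs (rf (nat_lit 0)) (cs (nd (nat_lit 230) (nat_lit 0) (cs (lf (nat_lit 27) (nat_lit 186)) (rf (nat_lit 1)))) (cs (nd (nat_lit 230) (nat_lit 0) (cs (lf (nat_lit 27) (nat_lit 186)) (nd (nat_lit 165) (nat_lit 0) (cs (lf (nat_lit 35) (nat_lit 142)) (rf (nat_lit 2)))))) (nd (nat_lit 230) (nat_lit 0) (cs (rf (nat_lit 3)) (lf (nat_lit 27) (nat_lit 186)))))))) (cs (nd (nat_lit 188) (nat_lit 0) (cs (rf (nat_lit 4)) (cs (rf (nat_lit 5)) (cs (rf (nat_lit 6)) (nd (nat_lit 185) (nat_lit 0) (cs (rf (nat_lit 7)) (cs (rf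 (nat_lit 8)) (cs (nd (nat_lit 230) (nat_lit 0) (cs (lf (nat_lit 27) (nat_lit 186)) (nd (nat_lit 165) (nat_lit 0) (cs (lf (nat_lit 35) (nat_lit 142)) (nd (nat_lit 184) (nat_lit 0) (cs (lf (nat_lit 12) (nat_lit 161)) (nd (nat_lit 162) (nat_lit 0) (cs (lf (nat_lit 23) (nat_lit 161)) (lf (nat_lit 1) (nat_lit 162)))))))))) (nd (nat_lit 166) (nat_lit 0) (cs (lf (nat_lit 17) (nat_lit 163)) (nd (nat_lit 210) (nat_lit 0) (cs (lf (nat_lit 5) (nat_lit 185)) (nd (nat_lit 162) (nat_lit 0) (cs (lf (nat_lit 22) (nat_lit 162)) (nd (nat_lit 230) (nat_lit 0) (cs (lf (nat_lit 27) (nat_lit 186)) (rf (nat_lit 9)))))))))))))))))) (cs (nd (nat_lit 163) (nat_lit 0) (cs (rf (nat_lit 10)) (cs (rf (nat_lit 11)) (cs (nd (nat_lit 142) (nat_lit 0) (cs (rf (nat_lit 0)) (cs (rf (nat_lit 12)) (cs (rf (nat_lit 13)) (cs (rf (nat_lit 14)) (cs (nd (nat_lit 141) (nat_lit 0) (cs (rf (nat_lit 15)) (rf (nat_lit 16)))) (nd (nat_lit 188) (nat_lit 0) (cs (lf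 (nat_lit 18) (nat_lit 163)) (nd (nat_lit 119) (nat_lit 0) (cs (lf (nat_lit 46) (nat_lit 119)) (rf (nat_lit 17)))))))))))) (nd (nat_lit 142) (nat_lit 0) (cs (rf (nat_lit 12)) (cs (rf (nat_lit 13)) (cs (rf (nat_lit 14)) (rf (nat_lit 18)))))))))) (nd (nat_lit 230) (nat_lit 0) (cs (lf (nat_lit 27) (nat_lit 186)) (rf (nat_lit 19)))))))) q66706 (by decide +kernel)
def q66723 : Q := Q.p (nat_lit 0x8000024000000000100000c0000000000000000000000000000000000000000000000) (nat_lit 0x90000770003e6000f38007fe001f80000e000030000000000000000000000000) (nat_lit 12)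
theorem c66723 : QOK q66723 := cut [q7194, q9295, q66083, q19161, q19172, q66264, q66526, q66534, q66710, q19956, q9274, q66540, q9282] ⟨c7194, c9295, c66083, c19161, c19172, c66264, c66526, c66534, c66710, c19956, c9274, c66540, c9282, trivial⟩ (nd (nat_lit 165) (nat_lit 0) (cs (rf (nat_lit 0)) (cs (rf (nat_lit 1)) (cs (nd (nat_lit 185) (nat_lit 0) (cs (rf (nat_lit 2)) (cs (nd (nat_lit 188) (nat_lit 0) (cs (rf (nat_lit 3)) (cs (rf (nat_lit 4)) (cs (rf (nat_lit 5)) (cs (rf (nat_lit 6)) (cs (rf (nat_lit 7)) (cs (rf (nat_lit 8)) (nd (nat_lit 230) (nat_lit 0) (cs (lf (nat_lit 27) (nat_lit 186)) (nd (nat_lit 166) (nat_lit 0) (cs (lf (nat_lit 17) (nat_lit 163)) (nd (nat_lit 210) (nat_lit 0) (cs (lf (nat_lit 5) (nat_lit 185)) (nd (nat_lit 163) (nat_lit 0) (cs (lf (nat_lit 23) (nat_lit 162)) (nd (nat_lit 164) (nat_lit 0) (cs (lf (nat_lit 18) (nat_lit 163)) (rf (nat_lit 9))))))))))))))))))) (nd (nat_lit 230) (nat_lit 0) (cs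 (lf (nat_lit 30) (nat_lit 164)) (rf (nat_lit 10))))))) (nd (nat_lit 185) (nat_lit 0) (cs (rf (nat_lit 10)) (cs (rf (nat_lit 2)) (nd (nat_lit 188) (nat_lit 0) (cs (rf (nat_lit 3)) (cs (rf (nat_lit 4)) (cs (rf (nat_lit 11)) (cs (rf (nat_lit 8)) (nd (nat_lit 121) (nat_lit 0) (cs (lf (nat_lit 37) (nat_lit 120)) (nd (nat_lit 162) (nat_lit 0) (cs (lf (nat_lit 22) (nat_lit 162)) (rf (nat_lit 12)))))))))))))))))) q66723 (by decide +kernel)
def q66778 : Q := Q.p (nat_lit 0x20000880002600000000010000040000000000000000000000000000000000000000000000) (nat_lit 0x700001c000050000700001180004c00000000000000000000000000000000000000000000000000000000) (nat_lit 6)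
theorem c66778 : QOK q66778 := cut [q59775, q66776] ⟨c59775, c66776, trivial⟩ (nd (nat_lit 315) (nat_lit 0) (cs (rf (nat_lit 0)) (rf (nat_lit 1)))) q66778 (by decide +kernel)
def q66798 : Q := Q.p (nat_lit 0xe0000800002000000000010000040000000000000000000000000000000000000000000000) (nat_lit 0x1d0000760001900006c0001e0000fa0000000000000000000000000000000000000000000000) (nat_lit 11)
theorem c66798 : QOK q66798 := cut [q66782, q66783, q55954, q2454] ⟨c66782, c66783, c55954, c2454, trivial⟩ (nd (nat_lit 274) (nat_lit 0) (cs (lf (nat_lit 15) (nat_lit 271)) (nd (nat_lit 276) (nat_lit 0) (cs (lf (nat_lit 9) (nat_lit 272)) (nd (nat_lit 209) (nat_lit 0) (cs (lf (nat_lit 44) (nat_lit 186)) (nd (nat_lit 211) (nat_lit 0) (cs (rf (nat_lit 0)) (cs (nd (nat_lit 252) (nat_lit 0) (cs (lf (nat_lit 26) (nat_lit 186)) (nd (nat_lit 277) (nat_lit 0) (cs (lf (nat_lit 18) (nat_lit 252)) (nd (nat_lit 299) (nat_lit 0) (cs (lf (nat_lit 5) (nat_lit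 274)) (nd (nat_lit 255) (nat_lit 0) (cs (lf (nat_lit 17) (nat_lit 252)) (nd (nat_lit 233) (nat_lit 0) (cs (lf (nat_lit 41) (nat_lit 210)) (rf (nat_lit 1)))))))))))) (cs (nd (nat_lit 252) (nat_lit 0) (cs (lf (nat_lit 26) (nat_lit 186)) (nd (nat_lit 210) (nat_lit 0) (cs (lf (nat_lit 23) (nat_lit 185)) (nd (nat_lit 233) (nat_lit 0) (cs (lf (nat_lit 5) (nat_lit 208)) (nd (nat_lit 277) (nat_lit 0) (cs (lf (nat_lit 18) (nat_lit 252)) (rf (nat_lit 2)))))))))) (nd (nat_lit 230) (nat_lit 0) (cs (lf (nat_lit 27) (nat_lit 186)) (nd (nat_lit 210) (nat_lit 0) (cs (lf (nat_lit 23) (nat_lit 185)) (rf (nat_lit 3)))))))))))))))) q66798 (by decide +kernel)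
def q66872 : Q := Q.p (nat_lit 0x60000800002600000000010000040000000000000000000000000000000000000000000000) (nat_lit 0x280000e00003e0000180007780011c000df800e70000bc0000e0000080000000000000000000000000000000000) (nat_lit 13)
theorem c66872 : QOK q66872 := cut [q25763, q2175, q63708, q66830, q66848, q45203, q66866] ⟨c25763, c2175, c63708, c66830, c66848, c45203, c66866, trivial⟩ (nd (nat_lit 272) (nat_lit 0) (cs (rf (nat_lit 0)) (cs (nd (nat_lit 209) (nat_lit 0) (cs (lf (nat_lit 44) (nat_lit 186)) (nd (nat_lit 185) (nat_lit 0) (cs (rf (nat_lit 1)) (cs (nd (nat_lit 228) (nat_lit 0) (cs (lf (nat_lit 41) (nat_lit 227)) (nd (nat_lit 205) (nat_lit 0) (cs (lf (nat_lit 46) (nat_lit 205)) (nd (nat_lit 183) (nat_lit 0) (cs (lf (nat_lit 1) (nat_lit 183)) (lf (nat_lit 45) (nat_lit 183)))))))) (cs (nd (nat_lit 210) (nat_lit 0) (cs (lf (nat_lit 18) (nat_lit 185)) (nd (nat_lit 248) (nat_lit 0) (cs (rf (nat_lit 2)) (cs (nd (nat_lit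 273) (nat_lit 0) (cs (lf (nat_lit 19) (nat_lit 249)) (nd (nat_lit 292) (nat_lit 0) (cs (lf (nat_lit 12) (nat_lit 269)) (nd (nat_lit 230) (nat_lit 0) (cs (lf (nat_lit 27) (nat_lit 186)) (rf (nat_lit 3)))))))) (rf (nat_lit 4))))))) (nd (nat_lit 228) (nat_lit 0) (cs (lf (nat_lit 41) (nat_lit 227)) (nd (nat_lit 227) (nat_lit 0) (cs (lf (nat_lit 47) (nat_lit 205)) (nd (nat_lit 273) (nat_lit 0) (cs (lf (nat_lit 19) (nat_lit 249)) (nd (nat_lit 247) (nat_lit 0) (cs (lf (nat_lit 1) (nat_lit 247)) (nd (nat_lit 291) (nat_lit 0) (cs (lf (nat_lit 13) (nat_lit 269)) (nd (nat_lit 210) (nat_lit 0) (cs (lf (nat_lit 18) (nat_lit 185)) (nd (nat_lit 184) (nat_lit 0) (cs (lf (nat_lit 3) (nat_lit 184)) (nd (nat_lit 206) (nat_lit 0) (cs (lf (nat_lit 35) (nat_lit 162)) (lf (nat_lit 36) (nat_lit 161)))))))))))))))))))))))) (cs (nd (nat_lit 273) (nat_lit 0) (cs (lf (nat_lit 7) (nat_lit 271)) (nd (nat_lit 291) (nat_lit 0) (cs (lf (nat_lit 13)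 (nat_lit 269)) (nd (nat_lit 209) (nat_lit 0) (cs (lf (nat_lit 44) (nat_lit 186)) (nd (nat_lit 247) (nat_lit 0) (cs (lf (nat_lit 1) (nat_lit 247)) (nd (nat_lit 230) (nat_lit 0) (cs (lf (nat_lit 27) (nat_lit 186)) (rf (nat_lit 5)))))))))))) (nd (nat_lit 273) (nat_lit 0) (cs (lf (nat_lit 7) (nat_lit 271)) (nd (nat_lit 291) (nat_lit 0) (cs (lf (nat_lit 13) (nat_lit 269)) (nd (nat_lit 209) (nat_lit 0) (cs (lf (nat_lit 44) (nat_lit 186)) (nd (nat_lit 247) (nat_lit 0) (cs (lf (nat_lit 1) (nat_lit 247)) (nd (nat_lit 230) (nat_lit 0) (cs (lf (nat_lit 27) (nat_lit 186)) (rf (nat_lit 6)))))))))))))))) q66872 (by decide +kernel)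
def q66934 : Q := Q.p (nat_lit 0x60000800002600000000010000040000000000000000000000000000000000000000000000) (nat_lit 0x380001e0001fc000ff80019c00057800118000de00020000000000000000000000000000000000000000000000000000) (nat_lit 13)
theorem c66934 : QOK q66934 := cut [q61799, q66888, q61905, q47467, q61859, q61803, q66800, q66912, q56081, q66922, q61901, q61903, q61899, q61904, q66933] ⟨c61799, c66888, c61905, c47467, c61859, c61803, c66800, c66912, c56081, c66922, c61901, c61903, c61899, c61904, c66933, trivial⟩ (nd (nat_lit 316) (nat_lit 0) (cs (nd (nat_lit 209) (nat_lit 0) (cs (lf (nat_lit 44) (nat_lit 186)) (nd (nat_lit 230) (nat_lit 0) (cs (lf (nat_lit 27) (nat_lit 186)) (rf (nat_lit 0)))))) (cs (nd (nat_lit 209) (nat_lit 0) (cs (lf (nat_lit 44) (nat_lit 186)) (nd (nat_lit 230) (nat_lit 0) (cs (lf (nat_lit 27) (nat_lit 186)) (rf (nat_lit 1)))))) (cs (nd (nat_lit 292) (nat_lit 0) (cs (nd (nat_lit 209) (nat_lit 0)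 (cs (lf (nat_lit 44) (nat_lit 186)) (rf (nat_lit 2)))) (cs (nd (nat_lit 317) (nat_lit 0) (cs (rf (nat_lit 3)) (cs (rf (nat_lit 4)) (nd (nat_lit 209) (nat_lit 0) (cs (lf (nat_lit 44) (nat_lit 186)) (nd (nat_lit 314) (nat_lit 0) (cs (nd (nat_lit 230) (nat_lit 0) (cs (lf (nat_lit 27) (nat_lit 186)) (rf (nat_lit 5)))) (cs (nd (nat_lit 270) (nat_lit 0) (cs (nd (nat_lit 295) (nat_lit 0) (cs (lf (nat_lit 23) (nat_lit 269)) (lf (nat_lit 11) (nat_lit 291)))) (cs (nd (nat_lit 269) (nat_lit 0) (cs (lf (nat_lit 18) (nat_lit 269)) (nd (nat_lit 267) (nat_lit 0) (cs (lf (nat_lit 1) (nat_lit 267)) (nd (nat_lit 227) (nat_lit 0) (cs (lf (nat_lit 33) (nat_lit 226)) (nd (nat_lit 336) (nat_lit 0) (cs (lf (nat_lit 47) (nat_lit 247)) (nd (nat_lit 337) (nat_lit 0) (cs (lf (nat_lit 29) (nat_lit 270)) (nd (nat_lit 335) (nat_lit 0) (cs (lf (nat_lit 15) (nat_lit 313)) (lf (nat_lit 41) (nat_lit 269)))))))))))))) (nd (nat_lit 230) (nat_lit 0) (cs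 (lf (nat_lit 27) (nat_lit 186)) (nd (nat_lit 248) (nat_lit 0) (cs (lf (nat_lit 35) (nat_lit 226)) (nd (nat_lit 225) (nat_lit 0) (cs (lf (nat_lit 46) (nat_lit 225)) (nd (nat_lit 335) (nat_lit 0) (cs (lf (nat_lit 40) (nat_lit 247)) (nd (nat_lit 336) (nat_lit 0) (cs (lf (nat_lit 41) (nat_lit 269)) (nd (nat_lit 337) (nat_lit 0) (cs (lf (nat_lit 29) (nat_lit 270)) (lf (nat_lit 15) (nat_lit 313))))))))))))))))) (cs (nd (nat_lit 315) (nat_lit 0) (cs (nd (nat_lit 295) (nat_lit 0) (cs (lf (nat_lit 17) (nat_lit 292)) (nd (nat_lit 270) (nat_lit 0) (cs (lf (nat_lit 23) (nat_lit 269)) (rf (nat_lit 6)))))) (rf (nat_lit 7)))) (nd (nat_lit 315) (nat_lit 0) (cs (rf (nat_lit 7)) (cs (nd (nat_lit 230) (nat_lit 0) (cs (lf (nat_lit 27) (nat_lit 186)) (nd (nat_lit 339) (nat_lit 0) (cs (lf (nat_lit 5) (nat_lit 314)) (nd (nat_lit 313) (nat_lit 0) (cs (lf (nat_lit 4) (nat_lit 313)) (lf (nat_lit 12) (nat_lit 290)))))))) (nd (nat_lit 230) (nat_lit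 0) (cs (lf (nat_lit 27) (nat_lit 186)) (rf (nat_lit 8)))))))))))))))) (cs (nd (nat_lit 230) (nat_lit 0) (cs (lf (nat_lit 27) (nat_lit 186)) (rf (nat_lit 9)))) (cs (nd (nat_lit 291) (nat_lit 0) (cs (rf (nat_lit 10)) (cs (nd (nat_lit 230) (nat_lit 0) (cs (lf (nat_lit 27) (nat_lit 186)) (rf (nat_lit 11)))) (nd (nat_lit 230) (nat_lit 0) (cs (lf (nat_lit 27) (nat_lit 186)) (nd (nat_lit 269) (nat_lit 0) (cs (lf (nat_lit 23) (nat_lit 268)) (nd (nat_lit 209) (nat_lit 0) (cs (lf (nat_lit 44) (nat_lit 186)) (rf (nat_lit 12))))))))))) (nd (nat_lit 209) (nat_lit 0) (cs (lf (nat_lit 44) (nat_lit 186)) (nd (nat_lit 230) (nat_lit 0) (cs (lf (nat_lit 27) (nat_lit 186)) (rf (nat_lit 13))))))))))) (rf (nat_lit 14)))))) q66934 (by decide +kernel)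
def q67011 : Q := Q.p (nat_lit 0x20000880002200000800010000040000000000000000000000000000000000000000000000) (nat_lit 0x40000100000000000000094000e70000b8000000000000000000000000000000000000000000000) (nat_lit 8)
theorem c67011 : QOK q67011 := cut [q67008] ⟨c67008, trivial⟩ (nd (nat_lit 206) (nat_lit 0) (cs (lf (nat_lit 34) (nat_lit 205)) (nd (nat_lit 184) (nat_lit 0) (cs (lf (nat_lit 33) (nat_lit 183)) (nd (nat_lit 292) (nat_lit 0) (cs (lf (nat_lit 41) (nat_lit 226)) (rf (nat_lit 0)))))))) q67011 (by decide +kernel)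
def q67053 : Q := Q.p (nat_lit 0x20000880002600000800010000040000000000000000000000000000000000000000000000) (nat_lit 0x20000080000f70001d8001770001000005000000000000000000000000000000000000000000000000000000000) (nat_lit 8)
theorem c67053 : QOK q67053 := cut [q67005] ⟨c67005, trivial⟩ (nd (nat_lit 294) (nat_lit 0) (cs (lf (nat_lit 29) (nat_lit 227)) (rf (nat_lit 0)))) q67053 (by decide +kernel)
def q67141 : Q := Q.p (nat_lit 0x20000880002600000800010000040000000000000000000000000000000000000000000000) (nat_lit 0x100000720001c80007700011c0009700025400001000000000000000000000000000000000000000000000) (nat_lit 12)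
theorem c67141 : QOK q67141 := cut [q67126, q67128, q56821, q17230, q48834] ⟨c67126, c67128, c56821, c17230, c48834, trivial⟩ (nd (nat_lit 294) (nat_lit 0) (cs (lf (nat_lit 29) (nat_lit 227)) (nd (nat_lit 272) (nat_lit 0) (cs (rf (nat_lit 0)) (cs (rf (nat_lit 1)) (nd (nat_lit 247) (nat_lit 0) (cs (rf (nat_lit 2)) (cs (nd (nat_lit 226) (nat_lit 0) (cs (lf (nat_lit 47) (nat_lit 204)) (nd (nat_lit 273) (nat_lit 0) (cs (lf (nat_lit 19) (nat_lit 249)) (nd (nat_lit 228) (nat_lit 0) (cs (lf (nat_lit 36) (nat_lit 205)) (rf (nat_lit 3)))))))) (nd (nat_lit 246) (nat_lit 0) (cs (lf (nat_lit 2) (nat_lit 246)) (nd (nat_lit 269) (nat_lit 0) (cs (lf (nat_lit 20) (nat_lit 246)) (nd (nat_lit 206) (nat_lit 0) (cs (lf (nat_lit 37) (nat_lit 205)) (nd (nat_lit 209) (nat_lit 0) (cs (lf (nat_lit 44) (nat_lit 186)) (nd (nat_lit 226) (nat_lit 0) (cs (lf (nat_lit 47) (nat_lit 204)) (nd (nat_lit 224) (nat_lit 0) (cs (lf (nat_lit 1) (nat_lit 224))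 (nd (nat_lit 291) (nat_lit 0) (cs (lf (nat_lit 42) (nat_lit 224)) (rf (nat_lit 4)))))))))))))))))))))))) q67141 (by decide +kernel)
def q67148 : Q := Q.p (nat_lit 0x8000020000880002600000000010000040000000000000000000000000000000000000000000000) (nat_lit 0x7000014000040000700001000004c0000300000c000000000000000000000000000000000000000000000) (nat_lit 9)
theorem c67148 : QOK q67148 := cut [q67146] ⟨c67146, trivial⟩ (nd (nat_lit 230) (nat_lit 0) (cs (lf (nat_lit 27) (nat_lit 186)) (nd (nat_lit 314) (nat_lit 0) (cs (lf (nat_lit 41) (nat_lit 248)) (rf (nat_lit 0)))))) q67148 (by decide +kernel)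
def q67166 : Q := Q.p (nat_lit 0x60000800002600000000010000040000000000000000000000000000000000000000000000) (nat_lit 0x20000080000ef000198001770001000005000000000000000000000000000000000000000000000000000000000) (nat_lit 7)
theorem c67166 : QOK q67166 := cut [q61787, q66881, q66882] ⟨c61787, c66881, c66882, trivial⟩ (nd (nat_lit 295) (nat_lit 0) (cs (rf (nat_lit 0)) (cs (rf (nat_lit 1)) (rf (nat_lit 2))))) q67166 (by decide +kernel)
def q67191 : Q := Q.p (nat_lit 0xe000020000880002200000000010000040000000000000000000000000000000000000000000000) (nat_lit 0x4e0001100000e000000001100004400000000000000000000000000000000000000000000000000000000) (nat_lit 7)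
theorem c67191 : QOK q67191 := cut [q59362] ⟨c59362, trivial⟩ (nd (nat_lit 230) (nat_lit 0) (cs (lf (nat_lit 27) (nat_lit 186)) (rf (nat_lit 0)))) q67191 (by decide +kernel)
def q67230 : Q := Q.p (nat_lit 0x20000880002600000800010000040000000000000000000000000000000000000000000000) (nat_lit 0x500001c00007000008000000000100001100004700001000000000000000000000000000000000000000000000000000) (nat_lit 9)
theorem c67230 : QOK q67230 := cut [q56988] ⟨c56988, trivial⟩ (nd (nat_lit 230) (nat_lit 0) (cs (lf (nat_lit 27) (nat_lit 186)) (rf (nat_lit 0)))) q67230 (by decide +kernel)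
def q67234 : Q := Q.p (nat_lit 0x20000880002600000000010000040000000000000000000000000000000000000000000000) (nat_lit 0x2000008000000000700001180005400000000000000000000000000000000000000000000000000000000) (nat_lit 6)
theorem c67234 : QOK q67234 := cut [q66776] ⟨c66776, trivial⟩ (nd (nat_lit 315) (nat_lit 0) (cs (lf (nat_lit 35) (nat_lit 227)) (rf (nat_lit 0)))) q67234 (by decide +kernel)
def q67485 : Q := Q.p (nat_lit 0x20000800002600000800010000040000000000000000000000000000000000000000000000) (nat_lit 0x1600005c0000f80011c006f7801e3c00ebf00007c000050000000000000000000000000000000000) (nat_lit 13)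
theorem c67485 : QOK q67485 := cut [q66782, q60044, q67384, q58795, q67374, q67389, q67383, q67458, q66956, q45262, q66952, q66955, q63836, q56870, q40908, q67472] ⟨c66782, c60044, c67384, c58795, c67374, c67389, c67383, c67458, c66956, c45262, c66952, c66955, c63836, c56870, c40908, c67472, trivial⟩ (nd (nat_lit 209) (nat_lit 0) (cs (lf (nat_lit 44) (nat_lit 186)) (nd (nat_lit 211) (nat_lit 0) (cs (rf (nat_lit 0)) (cs (nd (nat_lit 292) (nat_lit 0) (cs (nd (nat_lit 271) (nat_lit 0) (cs (lf (nat_lit 41) (nat_lit 226)) (nd (nat_lit 294) (nat_lit 0) (cs (lf (nat_lit 29) (nat_lit 227)) (rf (nat_lit 1)))))) (cs (nd (nat_lit 271) (nat_lit 0) (cs (lf (nat_lit 41) (nat_lit 226)) (rf (nat_lit 2)))) (cs (nd (nat_lit 204) (nat_lit 0) (cs (nd (nat_lit 271) (nat_lit 0) (cs (lf (nat_lit 46) (nat_lit 204)) (rf (nat_lit 3)))) (cs (nd (nat_lit 205) (nat_lit 0) (cs (rf (nat_lit 4)) (nd (nat_lit 271) (nat_lit 0) (cs (lf (nat_lit 47) (nat_lit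 182)) (lf (nat_lit 40) (nat_lit 204)))))) (cs (nd (nat_lit 230) (nat_lit 0) (cs (lf (nat_lit 27) (nat_lit 186)) (nd (nat_lit 228) (nat_lit 0) (cs (lf (nat_lit 14) (nat_lit 205)) (nd (nat_lit 226) (nat_lit 0) (cs (lf (nat_lit 43) (nat_lit 204)) (nd (nat_lit 225) (nat_lit 0) (cs (lf (nat_lit 0) (nat_lit 224)) (nd (nat_lit 203) (nat_lit 0) (cs (lf (nat_lit 23) (nat_lit 202)) (nd (nat_lit 247) (nat_lit 0) (cs (lf (nat_lit 11) (nat_lit 224)) (rf (nat_lit 5)))))))))))))) (cs (nd (nat_lit 271) (nat_lit 0) (cs (lf (nat_lit 46) (nat_lit 204)) (rf (nat_lit 6)))) (rf (nat_lit 7))))))) (cs (nd (nat_lit 248) (nat_lit 0) (cs (rf (nat_lit 8)) (cs (nd (nat_lit 247) (nat_lit 0) (cs (rf (nat_lit 9)) (cs (rf (nat_lit 10)) (cs (rf (nat_lit 11)) (nd (nat_lit 225) (nat_lit 0) (cs (lf (nat_lit 23) (nat_lit 224)) (nd (nat_lit 269) (nat_lit 0) (cs (lf (nat_lit 11) (nat_lit 246)) (nd (nat_lit 228) (nat_lit 0) (cs (lf (nat_lit 17) (nat_lit 225))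 (rf (nat_lit 12)))))))))))) (cs (nd (nat_lit 226) (nat_lit 0) (cs (nd (nat_lit 205) (nat_lit 0) (cs (lf (nat_lit 31) (nat_lit 204)) (nd (nat_lit 183) (nat_lit 0) (cs (lf (nat_lit 36) (nat_lit 160)) (rf (nat_lit 13)))))) (nd (nat_lit 225) (nat_lit 0) (cs (lf (nat_lit 0) (nat_lit 224)) (nd (nat_lit 230) (nat_lit 0) (cs (lf (nat_lit 27) (nat_lit 186)) (nd (nat_lit 228) (nat_lit 0) (cs (lf (nat_lit 14) (nat_lit 205)) (nd (nat_lit 202) (nat_lit 0) (cs (lf (nat_lit 22) (nat_lit 202)) (nd (nat_lit 247) (nat_lit 0) (cs (lf (nat_lit 12) (nat_lit 224)) (rf (nat_lit 14)))))))))))))) (rf (nat_lit 15)))))) (nd (nat_lit 314) (nat_lit 0) (cs (lf (nat_lit 38) (nat_lit 226)) (nd (nat_lit 248) (nat_lit 0) (cs (lf (nat_lit 32) (nat_lit 226)) (nd (nat_lit 230) (nat_lit 0) (cs (lf (nat_lit 27) (nat_lit 186)) (nd (nat_lit 228) (nat_lit 0) (cs (lf (nat_lit 7) (nat_lit 226)) (nd (nat_lit 247) (nat_lit 0) (cs (lf (nat_lit 12) (nat_lit 224))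 (nd (nat_lit 225) (nat_lit 0) (cs (lf (nat_lit 23) (nat_lit 224)) (nd (nat_lit 269) (nat_lit 0) (cs (lf (nat_lit 11) (nat_lit 246)) (lf (nat_lit 27) (nat_lit 225))))))))))))))))))))) (nd (nat_lit 230) (nat_lit 0) (cs (lf (nat_lit 27) (nat_lit 186)) (nd (nat_lit 229) (nat_lit 0) (cs (lf (nat_lit 13) (nat_lit 205)) (lf (nat_lit 7) (nat_lit 207))))))))))) q67485 (by decide +kernel)
def q67496 : Q := Q.p (nat_lit 0x20000800002200000800010000040000000000000000000000000000000000000000000000) (nat_lit 0x140001dc0007f0000000008400023000004000000000000000000000000000000000000000000000) (nat_lit 7)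
theorem c67496 : QOK q67496 := cut [q59916, q67028, q67069, q67495] ⟨c59916, c67028, c67069, c67495, trivial⟩ (nd (nat_lit 271) (nat_lit 0) (cs (rf (nat_lit 0)) (cs (rf (nat_lit 1)) (cs (rf (nat_lit 2)) (rf (nat_lit 3)))))) q67496 (by decide +kernel)
def q67515 : Q := Q.p (nat_lit 0x20000880002600000000010000040000000000000000000000000000000000000000000000) (nat_lit 0x40000100001600011c000ff00023c0003c000070000000000000000000000000000000000000000) (nat_lit 11)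
theorem c67515 : QOK q67515 := cut [q26954, q67503, q67508, q67513] ⟨c26954, c67503, c67508, c67513, trivial⟩ (nd (nat_lit 227) (nat_lit 0) (cs (nd (nat_lit 292) (nat_lit 0) (cs (lf (nat_lit 41) (nat_lit 226)) (nd (nat_lit 205) (nat_lit 0) (cs (lf (nat_lit 40) (nat_lit 204)) (nd (nat_lit 183) (nat_lit 0) (cs (lf (nat_lit 29) (nat_lit 183)) (rf (nat_lit 0)))))))) (cs (rf (nat_lit 1)) (cs (rf (nat_lit 2)) (nd (nat_lit 209) (nat_lit 0) (cs (lf (nat_lit 44) (nat_lit 186)) (rf (nat_lit 3)))))))) q67515 (by decide +kernel)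
def q67541 : Q := Q.p (nat_lit 0x20000880002600000000010000040000000000000000000000000000000000000000000000) (nat_lit 0x300001c00007700011c006ff001e3c00ebc000060000000000000000000000000000000000000000) (nat_lit 13)
theorem c67541 : QOK q67541 := cut [q64507, q67384, q67508, q67373, q66782, q59254, q67205] ⟨c64507, c67384, c67508, c67373, c66782, c59254, c67205, trivial⟩ (nd (nat_lit 227) (nat_lit 0) (cs (rf (nat_lit 0)) (cs (rf (nat_lit 1)) (cs (rf (nat_lit 2)) (cs (nd (nat_lit 230) (nat_lit 0) (cs (lf (nat_lit 27) (nat_lit 186)) (nd (nat_lit 209) (nat_lit 0) (cs (lf (nat_lit 44) (nat_lit 186)) (nd (nat_lit 294) (nat_lit 0) (cs (lf (nat_lit 29) (nat_lit 227)) (nd (nat_lit 205) (nat_lit 0) (cs (lf (nat_lit 28) (nat_lit 205)) (rf (nat_lit 3)))))))))) (nd (nat_lit 294) (nat_lit 0) (cs (lf (nat_lit 29) (nat_lit 227)) (nd (nat_lit 209) (nat_lit 0) (cs (lf (nat_lit 44) (nat_lit 186)) (nd (nat_lit 226) (nat_lit 0) (cs (lf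 (nat_lit 47) (nat_lit 204)) (nd (nat_lit 225) (nat_lit 0) (cs (lf (nat_lit 0) (nat_lit 224)) (nd (nat_lit 211) (nat_lit 0) (cs (rf (nat_lit 4)) (nd (nat_lit 295) (nat_lit 0) (cs (rf (nat_lit 5)) (cs (nd (nat_lit 230) (nat_lit 0) (cs (lf (nat_lit 27) (nat_lit 186)) (nd (nat_lit 270) (nat_lit 0) (cs (lf (nat_lit 18) (nat_lit 270)) (nd (nat_lit 269) (nat_lit 0) (cs (lf (nat_lit 12) (nat_lit 246)) (lf (nat_lit 3) (nat_lit 269)))))))) (nd (nat_lit 230) (nat_lit 0) (cs (lf (nat_lit 27) (nat_lit 186)) (nd (nat_lit 228) (nat_lit 0) (cs (lf (nat_lit 14) (nat_lit 205)) (nd (nat_lit 247) (nat_lit 0) (cs (lf (nat_lit 11) (nat_lit 224)) (rf (nat_lit 6)))))))))))))))))))))))))) q67541 (by decide +kernel)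
def q67569 : Q := Q.p (nat_lit 0x20000880002600000000000000000000000000000000000000000000000000000000000000) (nat_lit 0x10000160000580001c0000700001180008c0002300000c000000000000000000000000000000000000000000000) (nat_lit 7)
theorem c67569 : QOK q67569 := cut [q60708, q67144, q65860, q67128] ⟨c60708, c67144, c65860, c67128, trivial⟩ (nd (nat_lit 272) (nat_lit 0) (cs (rf (nat_lit 0)) (cs (nd (nat_lit 315) (nat_lit 0) (cs (lf (nat_lit 30) (nat_lit 249)) (rf (nat_lit 1)))) (nd (nat_lit 294) (nat_lit 0) (cs (rf (nat_lit 2)) (rf (nat_lit 3))))))) q67569 (by decide +kernel)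
def q67621 : Q := Q.p (nat_lit 0x20000880002200000000010000040000000000000000000000000000000000000000000000) (nat_lit 0x140001dc000770000000008c00023000004000000000000000000000000000000000000000000000) (nat_lit 7)
theorem c67621 : QOK q67621 := cut [q59916, q67028, q67069, q67495] ⟨c59916, c67028, c67069, c67495, trivial⟩ (nd (nat_lit 227) (nat_lit 0) (cs (rf (nat_lit 0)) (cs (rf (nat_lit 1)) (cs (rf (nat_lit 2)) (rf (nat_lit 3)))))) q67621 (by decide +kernel)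
def q67864 : Q := Q.p (nat_lit 0x800002600000800010000040000000000000000000000000000000000000000000000) (nat_lit 0x3e0000f80003f00001c000f7000e5c000be0000f8000280000000000000000000000000000000000) (nat_lit 14)
theorem c67864 : QOK q67864 := cut [q67838, q62472, q62666, q67844, q67847, q67848] ⟨c67838, c62472, c62666, c67844, c67847, c67848, trivial⟩ (nd (nat_lit 209) (nat_lit 0) (cs (lf (nat_lit 44) (nat_lit 186)) (nd (nat_lit 228) (nat_lit 0) (cs (rf (nat_lit 0)) (cs (nd (nat_lit 226) (nat_lit 0) (cs (nd (nat_lit 248) (nat_lit 0) (cs (rf (nat_lit 1)) (cs (nd (nat_lit 229) (nat_lit 0) (cs (lf (nat_lit 15) (nat_lit 205)) (lf (nat_lit 11) (nat_lit 225)))) (nd (nat_lit 229) (nat_lit 0) (cs (lf (nat_lit 15) (nat_lit 205)) (nd (nat_lit 204) (nat_lit 0) (cs (lf (nat_lit 23) (nat_lit 203)) (rf (nat_lit 2))))))))) (cs (rf (nat_lit 3)) (cs (rf (nat_lit 4)) (rf (nat_lit 5)))))) (nd (nat_lit 226) (nat_lit 0) (cs (rf (nat_lit 3))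 (cs (rf (nat_lit 4)) (cs (rf (nat_lit 5)) (nd (nat_lit 229) (nat_lit 0) (cs (lf (nat_lit 15) (nat_lit 205)) (nd (nat_lit 204) (nat_lit 0) (cs (lf (nat_lit 23) (nat_lit 203)) (nd (nat_lit 271) (nat_lit 0) (cs (lf (nat_lit 42) (nat_lit 204)) (nd (nat_lit 248) (nat_lit 0) (cs (lf (nat_lit 11) (nat_lit 225)) (lf (nat_lit 24) (nat_lit 182))))))))))))))))))) q67864 (by decide +kernel)
def q67923 : Q := Q.p (nat_lit 0x800002600000800010000040000000000000000000000000000000000000000000000) (nat_lit 0x140000fc0007700001c000f700027c000bf8000fc000050000000000000000000000000000000000) (nat_lit 14)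
theorem c67923 : QOK q67923 := cut [q56640, q66986, q40983, q56871, q59335, q17893, q56824, q67421, q64322, q45594, q67869, q44707, q67918, q67921] ⟨c56640, c66986, c40983, c56871, c59335, c17893, c56824, c67421, c64322, c45594, c67869, c44707, c67918, c67921, trivial⟩ (nd (nat_lit 205) (nat_lit 0) (cs (rf (nat_lit 0)) (cs (rf (nat_lit 1)) (cs (nd (nat_lit 183) (nat_lit 0) (cs (rf (nat_lit 2)) (rf (nat_lit 3)))) (nd (nat_lit 228) (nat_lit 0) (cs (nd (nat_lit 209) (nat_lit 0) (cs (lf (nat_lit 44) (nat_lit 186)) (nd (nat_lit 225) (nat_lit 0) (cs (rf (nat_lit 4)) (cs (nd (nat_lit 229) (nat_lit 0) (cs (lf (nat_lit 15) (nat_lit 205)) (nd (nat_lit 247) (nat_lit 0) (cs (lf (nat_lit 13) (nat_lit 225)) (nd (nat_lit 226) (nat_lit 0) (cs (lf (nat_lit 11) (nat_lit 224)) (rf (nat_lit 5)))))))) (cs (nd (nat_lit 203) (nat_lit 0) (cs (nd (nat_lit 204) (nat_lit 0) (cs (lf (nat_lit 0) (nat_lit 202)) (nd (nat_lit 206) (nat_lit 0) (cs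 (lf (nat_lit 11) (nat_lit 202)) (nd (nat_lit 184) (nat_lit 0) (cs (lf (nat_lit 36) (nat_lit 161)) (lf (nat_lit 17) (nat_lit 181)))))))) (cs (nd (nat_lit 247) (nat_lit 0) (cs (rf (nat_lit 6)) (cs (nd (nat_lit 181) (nat_lit 0) (cs (rf (nat_lit 7)) (cs (nd (nat_lit 229) (nat_lit 0) (cs (lf (nat_lit 15) (nat_lit 205)) (rf (nat_lit 8)))) (cs (nd (nat_lit 158) (nat_lit 0) (cs (lf (nat_lit 46) (nat_lit 158)) (nd (nat_lit 229) (nat_lit 0) (cs (lf (nat_lit 15) (nat_lit 205)) (rf (nat_lit 9)))))) (nd (nat_lit 160) (nat_lit 0) (cs (lf (nat_lit 34) (nat_lit 159)) (nd (nat_lit 180) (nat_lit 0) (cs (lf (nat_lit 47) (nat_lit 158)) (nd (nat_lit 229) (nat_lit 0) (cs (lf (nat_lit 15) (nat_lit 205)) (rf (nat_lit 10)))))))))))) (nd (nat_lit 229) (nat_lit 0) (cs (lf (nat_lit 15) (nat_lit 205)) (lf (nat_lit 13) (nat_lit 225))))))) (nd (nat_lit 229) (nat_lit 0) (cs (lf (nat_lit 15) (nat_lit 205)) (nd (nat_lit 247) (nat_lit 0) (cs (lf (nat_lit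 13) (nat_lit 225)) (nd (nat_lit 204) (nat_lit 0) (cs (rf (nat_lit 11)) (lf (nat_lit 3) (nat_lit 203))))))))))) (nd (nat_lit 229) (nat_lit 0) (cs (lf (nat_lit 15) (nat_lit 205)) (nd (nat_lit 226) (nat_lit 0) (cs (lf (nat_lit 0) (nat_lit 224)) (rf (nat_lit 5)))))))))))) (cs (rf (nat_lit 12)) (rf (nat_lit 13))))))))) q67923 (by decide +kernel)
def q68001 : Q := Q.p (nat_lit 0x600000800000000040000000000000000000000000000000000000000000000) (nat_lit 0x1400007c0001f00001c0001780007e000be000070000100000000000000000000000000000000000) (nat_lit 12)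
theorem c68001 : QOK q68001 := cut [q56640, q66980, q67758, q23761, q41027, q67997] ⟨c56640, c66980, c67758, c23761, c41027, c67997, trivial⟩ (nd (nat_lit 205) (nat_lit 0) (cs (rf (nat_lit 0)) (cs (rf (nat_lit 1)) (cs (rf (nat_lit 2)) (nd (nat_lit 183) (nat_lit 0) (cs (rf (nat_lit 3)) (cs (rf (nat_lit 4)) (nd (nat_lit 160) (nat_lit 0) (cs (lf (nat_lit 46) (nat_lit 160)) (nd (nat_lit 248) (nat_lit 0) (cs (lf (nat_lit 41) (nat_lit 182)) (rf (nat_lit 5))))))))))))) q68001 (by decide +kernel)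
def q68062 : Q := Q.p (nat_lit 0x800002600000800010000040000000000000000000000000000000000000000000000) (nat_lit 0xb00007e0001fc0007f00001c000f700067c000b40000d0000000000000000000000000000000000000000) (nat_lit 12)
theorem c68062 : QOK q68062 := cut [q56631, q68006, q68031, q60327, q46588, q68049, q67807, q67851, q67857, q68030] ⟨c56631, c68006, c68031, c60327, c46588, c68049, c67807, c67851, c67857, c68030, trivial⟩ (nd (nat_lit 272) (nat_lit 0) (cs (rf (nat_lit 0)) (cs (rf (nat_lit 1)) (cs (rf (nat_lit 2)) (cs (nd (nat_lit 292) (nat_lit 0) (cs (nd (nat_lit 273) (nat_lit 0) (cs (lf (nat_lit 19) (nat_lit 249)) (nd (nat_lit 248) (nat_lit 0) (cs (lf (nat_lit 0) (nat_lit 247)) (nd (nat_lit 209) (nat_lit 0) (cs (lf (nat_lit 44) (nat_lit 186)) (nd (nat_lit 270) (nat_lit 0) (cs (lf (nat_lit 30) (nat_lit 226)) (nd (nat_lit 205) (nat_lit 0) (cs (lf (nat_lit 33) (nat_lit 204)) (nd (nat_lit 294) (nat_lit 0) (cs (lf (nat_lit 42)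 (nat_lit 227)) (nd (nat_lit 293) (nat_lit 0) (cs (lf (nat_lit 12) (nat_lit 269)) (rf (nat_lit 3)))))))))))))))) (cs (nd (nat_lit 209) (nat_lit 0) (cs (lf (nat_lit 44) (nat_lit 186)) (nd (nat_lit 273) (nat_lit 0) (cs (lf (nat_lit 19) (nat_lit 249)) (nd (nat_lit 248) (nat_lit 0) (cs (lf (nat_lit 0) (nat_lit 247)) (nd (nat_lit 270) (nat_lit 0) (cs (lf (nat_lit 30) (nat_lit 226)) (nd (nat_lit 205) (nat_lit 0) (cs (lf (nat_lit 33) (nat_lit 204)) (lf (nat_lit 39) (nat_lit 204)))))))))))) (cs (nd (nat_lit 294) (nat_lit 0) (cs (lf (nat_lit 42) (nat_lit 227)) (nd (nat_lit 271) (nat_lit 0) (cs (lf (nat_lit 24) (nat_lit 205)) (nd (nat_lit 209) (nat_lit 0) (cs (lf (nat_lit 44) (nat_lit 186)) (nd (nat_lit 293) (nat_lit 0) (cs (lf (nat_lit 41) (nat_lit 226)) (nd (nat_lit 290) (nat_lit 0) (cs (lf (nat_lit 13) (nat_lit 268)) (rf (nat_lit 4)))))))))))) (cs (nd (nat_lit 273) (nat_lit 0) (cs (lf (nat_lit 19) (nat_lit 249)) (nd (nat_lit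 294) (nat_lit 0) (cs (lf (nat_lit 42) (nat_lit 227)) (nd (nat_lit 247) (nat_lit 0) (cs (lf (nat_lit 1) (nat_lit 247)) (nd (nat_lit 209) (nat_lit 0) (cs (lf (nat_lit 44) (nat_lit 186)) (nd (nat_lit 293) (nat_lit 0) (cs (lf (nat_lit 12) (nat_lit 269)) (nd (nat_lit 314) (nat_lit 0) (cs (lf (nat_lit 38) (nat_lit 226)) (rf (nat_lit 5)))))))))))))) (nd (nat_lit 273) (nat_lit 0) (cs (lf (nat_lit 19) (nat_lit 249)) (nd (nat_lit 294) (nat_lit 0) (cs (lf (nat_lit 42) (nat_lit 227)) (nd (nat_lit 271) (nat_lit 0) (cs (lf (nat_lit 24) (nat_lit 205)) (nd (nat_lit 291) (nat_lit 0) (cs (lf (nat_lit 9) (nat_lit 269)) (lf (nat_lit 14) (nat_lit 269))))))))))))))) (nd (nat_lit 228) (nat_lit 0) (cs (rf (nat_lit 6)) (cs (rf (nat_lit 7)) (cs (rf (nat_lit 8)) (rf (nat_lit 9))))))))))) q68062 (by decide +kernel)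
def q68078 : Q := Q.p (nat_lit 0x800002600000800010000040000000000000000000000000000000000000000000000) (nat_lit 0x100000600001c0001f00007c000018000900002700003c000070000140000000000000000000000000000000000) (nat_lit 11)
theorem c68078 : QOK q68078 := cut [q66980, q66986, q67941, q67942, q67641, q67930, q56922, q68067, q57346] ⟨c66980, c66986, c67941, c67942, c67641, c67930, c56922, c68067, c57346, trivial⟩ (nd (nat_lit 205) (nat_lit 0) (cs (rf (nat_lit 0)) (cs (rf (nat_lit 1)) (cs (rf (nat_lit 2)) (cs (rf (nat_lit 3)) (nd (nat_lit 271) (nat_lit 0) (cs (rf (nat_lit 4)) (cs (rf (nat_lit 5)) (cs (nd (nat_lit 209) (nat_lit 0) (cs (lf (nat_lit 44) (nat_lit 186)) (nd (nat_lit 184) (nat_lit 0) (cs (lf (nat_lit 34) (nat_lit 183)) (nd (nat_lit 182) (nat_lit 0) (cs (lf (nat_lit 46) (nat_lit 182)) (nd (nat_lit 292) (nat_lit 0) (cs (lf (nat_lit 40) (nat_lit 204)) (nd (nat_lit 293) (nat_lit 0) (cs (lf (nat_lit 41) (nat_lit 226))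 (rf (nat_lit 6)))))))))))) (cs (nd (nat_lit 272) (nat_lit 0) (cs (lf (nat_lit 29) (nat_lit 205)) (nd (nat_lit 273) (nat_lit 0) (cs (lf (nat_lit 19) (nat_lit 249)) (nd (nat_lit 247) (nat_lit 0) (cs (lf (nat_lit 1) (nat_lit 247)) (nd (nat_lit 209) (nat_lit 0) (cs (lf (nat_lit 44) (nat_lit 186)) (nd (nat_lit 182) (nat_lit 0) (cs (lf (nat_lit 46) (nat_lit 182)) (rf (nat_lit 7)))))))))))) (nd (nat_lit 292) (nat_lit 0) (cs (lf (nat_lit 40) (nat_lit 204)) (nd (nat_lit 184) (nat_lit 0) (cs (lf (nat_lit 34) (nat_lit 183)) (nd (nat_lit 209) (nat_lit 0) (cs (lf (nat_lit 44) (nat_lit 186)) (nd (nat_lit 182) (nat_lit 0) (cs (lf (nat_lit 46) (nat_lit 182)) (rf (nat_lit 8)))))))))))))))))))) q68078 (by decide +kernel)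
def q68088 : Q := Q.p (nat_lit 0x600000800002000000000000000000000000000000000000000000000000000) (nat_lit 0x100000700001c0000380001f00001c00037c0005e00017c00000000000000000000000000000000000000000000) (nat_lit 11)
theorem c68088 : QOK q68088 := cut [q56933, q56929, q57347, q67648, q68087] ⟨c56933, c56929, c57347, c67648, c68087, trivial⟩ (nd (nat_lit 271) (nat_lit 0) (cs (rf (nat_lit 0)) (cs (nd (nat_lit 184) (nat_lit 0) (cs (lf (nat_lit 34) (nat_lit 183)) (nd (nat_lit 292) (nat_lit 0) (cs (lf (nat_lit 40) (nat_lit 204)) (nd (nat_lit 293) (nat_lit 0) (cs (lf (nat_lit 41) (nat_lit 226)) (nd (nat_lit 315) (nat_lit 0) (cs (lf (nat_lit 35) (nat_lit 227)) (nd (nat_lit 226) (nat_lit 0) (cs (lf (nat_lit 46) (nat_lit 226)) (nd (nat_lit 224) (nat_lit 0) (cs (lf (nat_lit 1) (nat_lit 224)) (rf (nat_lit 1)))))))))))))) (cs (nd (nat_lit 182) (nat_lit 0) (cs (lf (nat_lit 46) (nat_lit 182)) (nd (nat_lit 184) (nat_lit 0) (cs (lf (nat_lit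 34) (nat_lit 183)) (rf (nat_lit 2)))))) (cs (rf (nat_lit 3)) (rf (nat_lit 4))))))) q68088 (by decide +kernel)

end Crest.Agent.H3.Snaky.CR
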