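import Crest.Agent.H3.Snaky.Cert
import Crest.Agent.H3.Snaky.CR.CR0
import Crest.Agent.H3.Snaky.CR.CR1
import Crest.Agent.H3.Snaky.CR.CR2
import Crest.Agent.H3.Snaky.CR.CR3
import Crest.Agent.H3.Snaky.CR.CR4
import Crest.Agent.H3.Snaky.CR.CR5
import Crest.Agent.H3.Snaky.CR.CR6
import Crest.Agent.H3.Snaky.CR.CR7
import Crest.Agent.H3.Snaky.CR.CR9
import Crest.Agent.H3.Snaky.CR.CR10
import Crest.Agent.H3.Snaky.CR.CR11
import Crest.Agent.H3.Snaky.CR.CR12
import Crest.Agent.H3.Snaky.CR.CR13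
import Crest.Agent.H3.Snaky.CR.CR14
import Crest.Agent.H3.Snaky.CR.CR15
import Crest.Agent.H3.Snaky.CR.CR16
import Crest.Agent.H3.Snaky.CR.CR17
import Crest.Agent.H3.Snaky.CR.CR20
import Crest.Agent.H3.Snaky.CR.CR21
import Crest.Agent.H3.Snaky.CR.CR22
import Crest.Agent.H3.Snaky.CR.CR23
import Crest.Agent.H3.Snaky.CR.CR24
import Crest.Agent.H3.Snaky.CR.CR25
import Crest.Agent.H3.Snaky.CR.CR26
import Crest.Agent.H3.Snaky.CR.CR27
import Crest.Agent.H3.Snaky.CR.CR28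
import Crest.Agent.H3.Snaky.CR.CR29
import Crest.Agent.H3.Snaky.CR.CR30
import Crest.Agent.H3.Snaky.CR.CR31
import Crest.Agent.H3.Snaky.CR.CR32
import Crest.Agent.H3.Snaky.CR.CR33
import Crest.Agent.H3.Snaky.CR.CR34
import Crest.Agent.H3.Snaky.CR.CR35
import Crest.Agent.H3.Snaky.CR.CR39
import Crest.Agent.H3.Snaky.CR.CR40
import Crest.Agent.H3.Snaky.CR.CR41
import Crest.Agent.H3.Snaky.CR.CR42
import Crest.Agent.H3.Snaky.CR.CR44
import Crest.Agent.H3.Snaky.CR.CR45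
import Crest.Agent.H3.Snaky.CR.CR46
import Crest.Agent.H3.Snaky.CR.CR47
import Crest.Agent.H3.Snaky.CR.CR48
import Crest.Agent.H3.Snaky.CR.CR49
import Crest.Agent.H3.Snaky.CR.CR54
import Crest.Agent.H3.Snaky.CR.CR55
import Crest.Agent.H3.Snaky.CR.CR56
import Crest.Agent.H3.Snaky.CR.CR57
import Crest.Agent.H3.Snaky.CR.CR58
import Crest.Agent.H3.Snaky.CR.CR59
import Crest.Agent.H3.Snaky.CR.CR60

set_option autoImplicit false
set_option maxRecDepth 100000

namespace Crest.Agent.H3.Snaky.CR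

open T

def q68107 : Q := Q.p (nat_lit 0x800000600000800002000000000000000000000000000000000000000000000000000) (nat_lit 0x100000700001c0000e0000780000180003400005c00014000000000000000000000000000000000000000000000) (nat_lit 9)
theorem c68107 : QOK q68107 := cut [q56924, q56933, q65838, q67967, q68106] ⟨c56924, c56933, c65838, c67967, c68106, trivial⟩ (nd (nat_lit 271) (nat_lit 0) (cs (rf (nat_lit 0)) (cs (rf (nat_lit 1)) (cs (rf (nat_lit 2)) (cs (nd (nat_lit 204) (nat_lit 0) (cs (lf (nat_lit 47) (nat_lit 182)) (nd (nat_lit 272) (nat_lit 0) (cs (lf (nat_lit 29) (nat_lit 205)) (nd (nat_lit 273) (nat_lit 0) (cs (lf (nat_lit 19) (nat_lit 249)) (nd (nat_lit 247) (nat_lit 0) (cs (lf (nat_lit 1) (nat_lit 247)) (rf (nat_lit 3)))))))))) (rf (nat_lit 4))))))) q68107 (by decide +kernel)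
def q68123 : Q := Q.p (nat_lit 0x600000800002000000000000000000000000000000000000000000000000000) (nat_lit 0x100000700001c00007c0001f00001c0001600001000004000000000000000000000000000000000000000000000) (nat_lit 9)
theorem c68123 : QOK q68123 := cut [q56924, q56933, q67641, q67729] ⟨c56924, c56933, c67641, c67729, trivial⟩ (nd (nat_lit 271) (nat_lit 0) (cs (rf (nat_lit 0)) (cs (rf (nat_lit 1)) (cs (rf (nat_lit 2)) (rf (nat_lit 3)))))) q68123 (by decide +kernel)
def q68171 : Q := Q.p (nat_lit 0x800002600000000010000040000000000000000000000000000000000000000000000) (nat_lit 0x2e0000f80007f80011c000ff800e7c000be0000e0000280000000000000000000000000000000000) (nat_lit 15)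
theorem c68171 : QOK q68171 := cut [q66727, q66728, q66731, q64165, q68132, q61276, q61331, q59011, q45262, q65299, q61439] ⟨c66727, c66728, c66731, c64165, c68132, c61276, c61331, c59011, c45262, c65299, c61439, trivial⟩ (nd (nat_lit 228) (nat_lit 0) (cs (rf (nat_lit 0)) (cs (rf (nat_lit 1)) (cs (rf (nat_lit 2)) (nd (nat_lit 248) (nat_lit 0) (cs (rf (nat_lit 3)) (cs (nd (nat_lit 230) (nat_lit 0) (cs (lf (nat_lit 27) (nat_lit 186)) (rf (nat_lit 4)))) (cs (nd (nat_lit 271) (nat_lit 0) (cs (rf (nat_lit 5)) (cs (nd (nat_lit 230) (nat_lit 0) (cs (lf (nat_lit 27) (nat_lit 186)) (rf (nat_lit 6)))) (cs (nd (nat_lit 205) (nat_lit 0) (cs (nd (nat_lit 230) (nat_lit 0) (cs (lf (nat_lit 27) (nat_lit 186)) (nd (nat_lit 227) (nat_lit 0) (cs (lf (nat_lit 7) (nat_lit 226)) (nd (nat_lit 270) (nat_lit 0) (cs (lf (nat_lit 41) (nat_lit 204)) (nd (nat_lit 269) (nat_lit 0) (cs (lf (nat_lit 12) (nat_lit 246)) (nd (nat_lit 204) (nat_lit 0) (cs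 (lf (nat_lit 47) (nat_lit 182)) (nd (nat_lit 226) (nat_lit 0) (cs (lf (nat_lit 41) (nat_lit 203)) (nd (nat_lit 203) (nat_lit 0) (cs (lf (nat_lit 47) (nat_lit 181)) (lf (nat_lit 0) (nat_lit 202)))))))))))))))) (nd (nat_lit 206) (nat_lit 0) (cs (lf (nat_lit 36) (nat_lit 183)) (nd (nat_lit 272) (nat_lit 0) (cs (lf (nat_lit 47) (nat_lit 183)) (nd (nat_lit 273) (nat_lit 0) (cs (lf (nat_lit 29) (nat_lit 206)) (lf (nat_lit 18) (nat_lit 248)))))))))) (nd (nat_lit 293) (nat_lit 0) (cs (lf (nat_lit 30) (nat_lit 227)) (nd (nat_lit 230) (nat_lit 0) (cs (lf (nat_lit 27) (nat_lit 186)) (nd (nat_lit 227) (nat_lit 0) (cs (lf (nat_lit 7) (nat_lit 226)) (rf (nat_lit 7)))))))))))) (nd (nat_lit 247) (nat_lit 0) (cs (rf (nat_lit 8)) (cs (nd (nat_lit 293) (nat_lit 0) (cs (rf (nat_lit 9)) (cs (nd (nat_lit 230) (nat_lit 0) (cs (lf (nat_lit 27) (nat_lit 186)) (nd (nat_lit 269) (nat_lit 0) (cs (lf (nat_lit 11) (nat_lit 246)) (nd (nat_lit 272) (nat_lit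 0) (cs (lf (nat_lit 5) (nat_lit 247)) (nd (nat_lit 294) (nat_lit 0) (cs (lf (nat_lit 41) (nat_lit 227)) (nd (nat_lit 205) (nat_lit 0) (cs (lf (nat_lit 46) (nat_lit 205)) (nd (nat_lit 183) (nat_lit 0) (cs (lf (nat_lit 45) (nat_lit 183)) (nd (nat_lit 225) (nat_lit 0) (cs (lf (nat_lit 23) (nat_lit 224)) (nd (nat_lit 295) (nat_lit 0) (cs (lf (nat_lit 29) (nat_lit 228)) (nd (nat_lit 292) (nat_lit 0) (cs (lf (nat_lit 22) (nat_lit 269)) (nd (nat_lit 314) (nat_lit 0) (cs (lf (nat_lit 11) (nat_lit 291)) (lf (nat_lit 27) (nat_lit 225)))))))))))))))))))))) (cs (nd (nat_lit 230) (nat_lit 0) (cs (lf (nat_lit 27) (nat_lit 186)) (nd (nat_lit 268) (nat_lit 0) (cs (lf (nat_lit 10) (nat_lit 246)) (nd (nat_lit 224) (nat_lit 0) (cs (lf (nat_lit 22) (nat_lit 224)) (nd (nat_lit 272) (nat_lit 0) (cs (lf (nat_lit 5) (nat_lit 247)) (nd (nat_lit 206) (nat_lit 0) (cs (lf (nat_lit 40) (nat_lit 205)) (rf (nat_lit 10)))))))))))) (nd (nat_lit 272) (nat_lit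 0) (cs (lf (nat_lit 5) (nat_lit 247)) (nd (nat_lit 315) (nat_lit 0) (cs (lf (nat_lit 39) (nat_lit 227)) (lf (nat_lit 32) (nat_lit 227)))))))))) (nd (nat_lit 272) (nat_lit 0) (cs (lf (nat_lit 5) (nat_lit 247)) (nd (nat_lit 246) (nat_lit 0) (cs (lf (nat_lit 16) (nat_lit 224)) (lf (nat_lit 4) (nat_lit 246))))))))))))))))) q68171 (by decide +kernel)
def q68264 : Q := Q.p (nat_lit 0x900002600008000010000040000000000000000000000000000000000000000000000) (nat_lit 0x8000060000380003f80007f0001fc0006f80011c0004f8000380000a000000000000000000000000000000000000000000000) (nat_lit 13)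
theorem c68264 : QOK q68264 := cut [q66866, q63708, q15828, q57236, q68210, q68212, q60134, q45262, q57398, q68221, q68222, q68225, q68260, q68261] ⟨c66866, c63708, c15828, c57236, c68210, c68212, c60134, c45262, c57398, c68221, c68222, c68225, c68260, c68261, trivial⟩ (nd (nat_lit 294) (nat_lit 0) (cs (rf (nat_lit 0)) (cs (nd (nat_lit 248) (nat_lit 0) (cs (rf (nat_lit 1)) (cs (nd (nat_lit 274) (nat_lit 0) (cs (lf (nat_lit 20) (nat_lit 249)) (nd (nat_lit 296) (nat_lit 0) (cs (rf (nat_lit 2)) (cs (nd (nat_lit 293) (nat_lit 0) (cs (lf (nat_lit 14) (nat_lit 271)) (nd (nat_lit 271) (nat_lit 0) (cs (rf (nat_lit 3)) (cs (nd (nat_lit 230) (nat_lit 0) (cs (lf (nat_lit 27) (nat_lit 186)) (rf (nat_lit 4)))) (nd (nat_lit 227) (nat_lit 0) (cs (lf (nat_lit 24) (nat_lit 205)) (rf (nat_lit 5))))))))) (nd (nat_lit 293) (nat_lit 0) (cs (lf (nat_lit 14) (nat_lit 271)) (nd (nat_lit 271) (nat_lit 0) (cs (rf (nat_lit 3)) (cs (rf (nat_lit 4))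 (nd (nat_lit 318) (nat_lit 0) (cs (lf (nat_lit 30) (nat_lit 252)) (rf (nat_lit 6)))))))))))))) (nd (nat_lit 247) (nat_lit 0) (cs (rf (nat_lit 7)) (cs (rf (nat_lit 8)) (cs (rf (nat_lit 9)) (nd (nat_lit 270) (nat_lit 0) (cs (rf (nat_lit 10)) (cs (rf (nat_lit 11)) (nd (nat_lit 269) (nat_lit 0) (cs (lf (nat_lit 11) (nat_lit 246)) (nd (nat_lit 224) (nat_lit 0) (cs (lf (nat_lit 22) (nat_lit 224)) (nd (nat_lit 271) (nat_lit 0) (cs (lf (nat_lit 5) (nat_lit 269)) (nd (nat_lit 291) (nat_lit 0) (cs (lf (nat_lit 11) (nat_lit 268)) (nd (nat_lit 227) (nat_lit 0) (cs (lf (nat_lit 24) (nat_lit 205)) (nd (nat_lit 313) (nat_lit 0) (cs (lf (nat_lit 30) (nat_lit 247)) (nd (nat_lit 314) (nat_lit 0) (cs (lf (nat_lit 29) (nat_lit 247)) (lf (nat_lit 31) (nat_lit 226)))))))))))))))))))))))))) (cs (rf (nat_lit 12)) (nd (nat_lit 273) (nat_lit 0) (cs (lf (nat_lit 19) (nat_lit 249)) (nd (nat_lit 247) (nat_lit 0) (cs (lf (nat_lit 1) (nat_lit 247)) (rf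 (nat_lit 13)))))))))) q68264 (by decide +kernel)
def q68327 : Q := Q.p (nat_lit 0x60000900000600000000000000000000000000000000000000000000000000000000000000) (nat_lit 0x80000200000e0000180006780001c0001f8000700000c000020000080000000000000000000000000000000000) (nat_lit 9)
theorem c68327 : QOK q68327 := cut [q63708, q66848, q66830] ⟨c63708, c66848, c66830, trivial⟩ (nd (nat_lit 248) (nat_lit 0) (cs (rf (nat_lit 0)) (cs (rf (nat_lit 1)) (nd (nat_lit 273) (nat_lit 0) (cs (lf (nat_lit 19) (nat_lit 249)) (nd (nat_lit 292) (nat_lit 0) (cs (lf (nat_lit 12) (nat_lit 269)) (rf (nat_lit 2))))))))) q68327 (by decide +kernel)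
def q68418 : Q := Q.p (nat_lit 0x20000800000700000800030000040000000000000000000000000000000000000000000000) (nat_lit 0xa000378001dc00077c0000e00007c0007c0003f000074000040000000000000000000000000000000000) (nat_lit 11)
theorem c68418 : QOK q68418 := cut [q66985, q67944, q45262, q68385, q57432, q68408, q50090, q57439] ⟨c66985, c67944, c45262, c68385, c57432, c68408, c50090, c57439, trivial⟩ (nd (nat_lit 205) (nat_lit 0) (cs (rf (nat_lit 0)) (cs (rf (nat_lit 1)) (nd (nat_lit 247) (nat_lit 0) (cs (rf (nat_lit 2)) (cs (rf (nat_lit 3)) (cs (nd (nat_lit 272) (nat_lit 0) (cs (lf (nat_lit 5) (nat_lit 247)) (nd (nat_lit 294) (nat_lit 0) (cs (lf (nat_lit 42) (nat_lit 227)) (rf (nat_lit 4)))))) (cs (nd (nat_lit 268) (nat_lit 0) (cs (lf (nat_lit 10) (nat_lit 246)) (nd (nat_lit 246) (nat_lit 0) (cs (lf (nat_lit 11) (nat_lit 245)) (nd (nat_lit 312) (nat_lit 0) (cs (nd (nat_lit 292) (nat_lit 0) (cs (nd (nat_lit 272) (nat_lit 0) (cs (lf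 (nat_lit 5) (nat_lit 247)) (nd (nat_lit 294) (nat_lit 0) (cs (lf (nat_lit 42) (nat_lit 227)) (nd (nat_lit 313) (nat_lit 0) (cs (lf (nat_lit 9) (nat_lit 290)) (nd (nat_lit 314) (nat_lit 0) (cs (lf (nat_lit 12) (nat_lit 289)) (lf (nat_lit 6) (nat_lit 291)))))))))) (nd (nat_lit 226) (nat_lit 0) (cs (lf (nat_lit 12) (nat_lit 223)) (lf (nat_lit 31) (nat_lit 204)))))) (cs (nd (nat_lit 272) (nat_lit 0) (cs (lf (nat_lit 5) (nat_lit 247)) (nd (nat_lit 290) (nat_lit 0) (cs (lf (nat_lit 35) (nat_lit 224)) (rf (nat_lit 5)))))) (nd (nat_lit 245) (nat_lit 0) (cs (rf (nat_lit 6)) (lf (nat_lit 16) (nat_lit 223))))))))))) (nd (nat_lit 272) (nat_lit 0) (cs (lf (nat_lit 5) (nat_lit 247)) (nd (nat_lit 294) (nat_lit 0) (cs (lf (nat_lit 42) (nat_lit 227)) (nd (nat_lit 224) (nat_lit 0) (cs (lf (nat_lit 22) (nat_lit 224)) (nd (nat_lit 246) (nat_lit 0) (cs (lf (nat_lit 23) (nat_lit 223)) (rf (nat_lit 7)))))))))))))))))) q68418 (by decide +kernel)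
def q68452 : Q := Q.p (nat_lit 0x20000880002600000800010000040000000000000000000000000000000000000000000000) (nat_lit 0x600001c0003300001c000b7000e5c000b80000e0000280000000000000000000000000000000000) (nat_lit 11)
theorem c68452 : QOK q68452 := cut [q66731] ⟨c66731, trivial⟩ (nd (nat_lit 228) (nat_lit 0) (cs (rf (nat_lit 0)) (nd (nat_lit 292) (nat_lit 0) (cs (lf (nat_lit 41) (nat_lit 226)) (nd (nat_lit 226) (nat_lit 0) (cs (lf (nat_lit 47) (nat_lit 204)) (nd (nat_lit 225) (nat_lit 0) (cs (lf (nat_lit 0) (nat_lit 224)) (nd (nat_lit 202) (nat_lit 0) (cs (lf (nat_lit 22) (nat_lit 202)) (nd (nat_lit 247) (nat_lit 0) (cs (lf (nat_lit 11) (nat_lit 224)) (nd (nat_lit 248) (nat_lit 0) (cs (lf (nat_lit 17) (nat_lit 225)) (nd (nat_lit 269) (nat_lit 0) (cs (lf (nat_lit 11) (nat_lit 246)) (nd (nat_lit 272) (nat_lit 0) (cs (lf (nat_lit 5) (nat_lit 247)) (nd (nat_lit 291) (nat_lit 0) (cs (lf (nat_lit 12) (nat_lit 268)) (lf (nat_lit 30)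 (nat_lit 225)))))))))))))))))))))) q68452 (by decide +kernel)
def q68454 : Q := Q.p (nat_lit 0x20000880002200000800010000040000000000000000000000000000000000000000000000) (nat_lit 0x94000e70000b8000000000000000000000000000000000000000000000) (nat_lit 7)
theorem c68454 : QOK q68454 := cut [q67008] ⟨c67008, trivial⟩ (nd (nat_lit 206) (nat_lit 0) (cs (lf (nat_lit 34) (nat_lit 205)) (nd (nat_lit 184) (nat_lit 0) (cs (lf (nat_lit 33) (nat_lit 183)) (rf (nat_lit 0)))))) q68454 (by decide +kernel)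
def q68554 : Q := Q.p (nat_lit 0x880002700000000010000040000000000000000000000000000000000000000000000) (nat_lit 0x140000700003e00003e00017800100000cf0002780003c000040000000000000000000000000000000000000000) (nat_lit 12)
theorem c68554 : QOK q68554 := cut [q54918, q67217, q67503, q68538, q56929, q67194, q68552] ⟨c54918, c67217, c67503, c68538, c56929, c67194, c68552, trivial⟩ (nd (nat_lit 293) (nat_lit 0) (cs (rf (nat_lit 0)) (cs (nd (nat_lit 227) (nat_lit 0) (cs (rf (nat_lit 1)) (cs (rf (nat_lit 2)) (cs (nd (nat_lit 292) (nat_lit 0) (cs (lf (nat_lit 41) (nat_lit 226)) (nd (nat_lit 230) (nat_lit 0) (cs (lf (nat_lit 27) (nat_lit 186)) (nd (nat_lit 209) (nat_lit 0) (cs (lf (nat_lit 44) (nat_lit 186)) (nd (nat_lit 226) (nat_lit 0) (cs (lf (nat_lit 47) (nat_lit 204)) (rf (nat_lit 3)))))))))) (nd (nat_lit 209) (nat_lit 0) (cs (lf (nat_lit 44) (nat_lit 186)) (nd (nat_lit 204) (nat_lit 0) (cs (lf (nat_lit 46) (nat_lit 204)) (nd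 (nat_lit 205) (nat_lit 0) (cs (lf (nat_lit 47) (nat_lit 182)) (nd (nat_lit 184) (nat_lit 0) (cs (lf (nat_lit 34) (nat_lit 183)) (nd (nat_lit 183) (nat_lit 0) (cs (lf (nat_lit 2) (nat_lit 183)) (lf (nat_lit 29) (nat_lit 183)))))))))))))))) (nd (nat_lit 315) (nat_lit 0) (cs (rf (nat_lit 4)) (cs (rf (nat_lit 5)) (rf (nat_lit 6)))))))) q68554 (by decide +kernel)
def q68644 : Q := Q.p (nat_lit 0x800002780000200010800040000000000000000000000000000000000000000000000) (nat_lit 0x37000100000440000000000300000c000010000000000000000000000000000000000) (nat_lit 7)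
theorem c68644 : QOK q68644 := cut [q51534] ⟨c51534, trivial⟩ (nd (nat_lit 230) (nat_lit 0) (cs (lf (nat_lit 27) (nat_lit 186)) (nd (nat_lit 272) (nat_lit 0) (cs (lf (nat_lit 5) (nat_lit 247)) (rf (nat_lit 0)))))) q68644 (by decide +kernel)
def q68687 : Q := Q.p (nat_lit 0x880002700000000010000040000000000000000000000000000000000000000000000) (nat_lit 0x100000e00003c0003600010e00eef801e3f00ebf000000000000000000000000000000000000000000000) (nat_lit 13)
theorem c68687 : QOK q68687 := cut [q66782, q67617, q68600, q68618, q60671, q68613, q68659, q52007, q68670, q48818, q68681] ⟨c66782, c67617, c68600, c68618, c60671, c68613, c68659, c52007, c68670, c48818, c68681, trivial⟩ (nd (nat_lit 209) (nat_lit 0) (cs (lf (nat_lit 44) (nat_lit 186)) (nd (nat_lit 211) (nat_lit 0) (cs (rf (nat_lit 0)) (cs (rf (nat_lit 1)) (nd (nat_lit 226) (nat_lit 0) (cs (rf (nat_lit 2)) (cs (rf (nat_lit 3)) (cs (nd (nat_lit 247) (nat_lit 0) (cs (rf (nat_lit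 4)) (cs (rf (nat_lit 5)) (nd (nat_lit 292) (nat_lit 0) (cs (nd (nat_lit 230) (nat_lit 0) (cs (lf (nat_lit 27) (nat_lit 186)) (nd (nat_lit 272) (nat_lit 0) (cs (lf (nat_lit 5) (nat_lit 247)) (nd (nat_lit 225) (nat_lit 0) (cs (lf (nat_lit 23) (nat_lit 224)) (nd (nat_lit 293) (nat_lit 0) (cs (lf (nat_lit 42) (nat_lit 226)) (nd (nat_lit 314) (nat_lit 0) (cs (lf (nat_lit 36) (nat_lit 226)) (nd (nat_lit 291) (nat_lit 0) (cs (lf (nat_lit 12) (nat_lit 268)) (lf (nat_lit 26) (nat_lit 225)))))))))))))) (cs (nd (nat_lit 293) (nat_lit 0) (cs (lf (nat_lit 42) (nat_lit 226)) (rf (nat_lit 6)))) (cs (nd (nat_lit 230) (nat_lit 0) (cs (lf (nat_lit 27) (nat_lit 186)) (nd (nat_lit 272) (nat_lit 0) (cs (lf (nat_lit 5) (nat_lit 247)) (nd (nat_lit 293) (nat_lit 0) (cs (lf (nat_lit 42) (nat_lit 226)) (nd (nat_lit 290) (nat_lit 0) (cs (lf (nat_lit 13) (nat_lit 268)) (nd (nat_lit 227) (nat_lit 0) (cs (lf (nat_lit 41) (nat_lit 226)) (rf (nat_lit 7))))))))))))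 (nd (nat_lit 225) (nat_lit 0) (cs (lf (nat_lit 23) (nat_lit 224)) (nd (nat_lit 270) (nat_lit 0) (cs (lf (nat_lit 47) (nat_lit 203)) (lf (nat_lit 42) (nat_lit 225))))))))))))) (nd (nat_lit 204) (nat_lit 0) (cs (lf (nat_lit 24) (nat_lit 182)) (nd (nat_lit 270) (nat_lit 0) (cs (nd (nat_lit 203) (nat_lit 0) (cs (lf (nat_lit 47) (nat_lit 181)) (nd (nat_lit 183) (nat_lit 0) (cs (lf (nat_lit 34) (nat_lit 182)) (nd (nat_lit 184) (nat_lit 0) (cs (lf (nat_lit 2) (nat_lit 183)) (rf (nat_lit 8)))))))) (cs (nd (nat_lit 247) (nat_lit 0) (cs (rf (nat_lit 4)) (nd (nat_lit 203) (nat_lit 0) (cs (lf (nat_lit 47) (nat_lit 181)) (nd (nat_lit 183) (nat_lit 0) (cs (lf (nat_lit 34) (nat_lit 182)) (nd (nat_lit 225) (nat_lit 0) (cs (lf (nat_lit 23) (nat_lit 224)) (nd (nat_lit 269) (nat_lit 0) (cs (lf (nat_lit 30) (nat_lit 203)) (rf (nat_lit 9)))))))))))) (nd (nat_lit 230) (nat_lit 0) (cs (lf (nat_lit 27) (nat_lit 186)) (rf (nat_lit 10))))))))))))))))))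 q68687 (by decide +kernel)
def q68703 : Q := Q.p (nat_lit 0x880002700000000010000040000000000000000000000000000000000000000000000) (nat_lit 0x700001e00003c00075c0010e00eef801e7800ebc000040000000000000000000000000000000000000000) (nat_lit 13)
theorem c68703 : QOK q68703 := cut [q66782, q67617, q60671, q56821, q57236, q67227, q67502, q64210, q68700] ⟨c66782, c67617, c60671, c56821, c57236, c67227, c67502, c64210, c68700, trivial⟩ (nd (nat_lit 209) (nat_lit 0) (cs (lf (nat_lit 44) (nat_lit 186)) (nd (nat_lit 211) (nat_lit 0) (cs (rf (nat_lit 0)) (cs (rf (nat_lit 1)) (nd (nat_lit 247) (nat_lit 0) (cs (rf (nat_lit 2)) (cs (nd (nat_lit 225) (nat_lit 0) (cs (lf (nat_lit 23) (nat_lit 224)) (nd (nat_lit 272) (nat_lit 0) (cs (rf (nat_lit 3)) (nd (nat_lit 293) (nat_lit 0) (cs (rf (nat_lit 4)) (cs (nd (nat_lit 227) (nat_lit 0) (cs (rf (nat_lit 5)) (cs (rf (nat_lit 6)) (nd (nat_lit 230) (nat_lit 0) (cs (lf (nat_lit 27) (nat_lit 186))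 (nd (nat_lit 226) (nat_lit 0) (cs (lf (nat_lit 47) (nat_lit 204)) (rf (nat_lit 7))))))))) (nd (nat_lit 230) (nat_lit 0) (cs (lf (nat_lit 27) (nat_lit 186)) (nd (nat_lit 315) (nat_lit 0) (cs (lf (nat_lit 30) (nat_lit 249)) (nd (nat_lit 316) (nat_lit 0) (cs (lf (nat_lit 29) (nat_lit 249)) (nd (nat_lit 314) (nat_lit 0) (cs (lf (nat_lit 41) (nat_lit 248)) (nd (nat_lit 292) (nat_lit 0) (cs (lf (nat_lit 36) (nat_lit 226)) (lf (nat_lit 44) (nat_lit 225))))))))))))))))))) (rf (nat_lit 8)))))))))) q68703 (by decide +kernel)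
def q68821 : Q := Q.p (nat_lit 0x900002600008000010000040000000000000000000000000000000000000000000000) (nat_lit 0x280000e00003e0003f8000ff0001fc0006f80011c0004f80001800002000000000000000000000000000000000000000000000) (nat_lit 13)
theorem c68821 : QOK q68821 := cut [q66866, q68260, q68749, q63708, q68284, q57236, q68803, q47563, q56522, q45262, q57398, q68221, q46599, q68225, q68819] ⟨c66866, c68260, c68749, c63708, c68284, c57236, c68803, c47563, c56522, c45262, c57398, c68221, c46599, c68225, c68819, trivial⟩ (nd (nat_lit 294) (nat_lit 0) (cs (rf (nat_lit 0)) (cs (rf (nat_lit 1)) (cs (nd (nat_lit 230) (nat_lit 0) (cs (lf (nat_lit 27) (nat_lit 186)) (rf (nat_lit 2)))) (cs (nd (nat_lit 248) (nat_lit 0) (cs (rf (nat_lit 3)) (cs (nd (nat_lit 293) (nat_lit 0) (cs (rf (nat_lit 4)) (cs (nd (nat_lit 271) (nat_lit 0) (cs (rf (nat_lit 5)) (rf (nat_lit 6)))) (nd (nat_lit 271) (nat_lit 0) (cs (rf (nat_lit 5)) (nd (nat_lit 292) (nat_lit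 0) (cs (rf (nat_lit 7)) (rf (nat_lit 8))))))))) (nd (nat_lit 247) (nat_lit 0) (cs (rf (nat_lit 9)) (cs (rf (nat_lit 10)) (cs (rf (nat_lit 11)) (nd (nat_lit 270) (nat_lit 0) (cs (rf (nat_lit 12)) (cs (rf (nat_lit 13)) (nd (nat_lit 230) (nat_lit 0) (cs (lf (nat_lit 27) (nat_lit 186)) (nd (nat_lit 269) (nat_lit 0) (cs (lf (nat_lit 11) (nat_lit 246)) (nd (nat_lit 224) (nat_lit 0) (cs (lf (nat_lit 22) (nat_lit 224)) (nd (nat_lit 295) (nat_lit 0) (cs (lf (nat_lit 2) (nat_lit 269)) (nd (nat_lit 292) (nat_lit 0) (cs (lf (nat_lit 20) (nat_lit 269)) (nd (nat_lit 314) (nat_lit 0) (cs (lf (nat_lit 35) (nat_lit 226)) (lf (nat_lit 42) (nat_lit 247)))))))))))))))))))))))) (nd (nat_lit 230) (nat_lit 0) (cs (lf (nat_lit 27) (nat_lit 186)) (rf (nat_lit 14))))))))) q68821 (by decide +kernel)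
def q68953 : Q := Q.p (nat_lit 0x800002600001800010000040000000000000000000000000000000000000000000000) (nat_lit 0x3c0001fc0007e0001000006400025000038000060000000000000000000000000000000000000000) (nat_lit 12)
theorem c68953 : QOK q68953 := cut [q67851, q67857, q68030, q67852, q56611] ⟨c67851, c67857, c68030, c67852, c56611, trivial⟩ (nd (nat_lit 272) (nat_lit 0) (cs (rf (nat_lit 0)) (cs (rf (nat_lit 1)) (cs (rf (nat_lit 2)) (cs (nd (nat_lit 230) (nat_lit 0) (cs (lf (nat_lit 27) (nat_lit 186)) (nd (nat_lit 209) (nat_lit 0) (cs (lf (nat_lit 14) (nat_lit 205)) (nd (nat_lit 273) (nat_lit 0) (cs (lf (nat_lit 19) (nat_lit 249)) (nd (nat_lit 294) (nat_lit 0) (cs (lf (nat_lit 42) (nat_lit 227)) (nd (nat_lit 293) (nat_lit 0) (cs (lf (nat_lit 41) (nat_lit 227)) (nd (nat_lit 292) (nat_lit 0) (cs (lf (nat_lit 12) (nat_lit 269)) (nd (nat_lit 271) (nat_lit 0) (cs (lf (nat_lit 41) (nat_lit 226)) (rf (nat_lit 3)))))))))))))))) (nd (nat_lit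 230) (nat_lit 0) (cs (lf (nat_lit 27) (nat_lit 186)) (nd (nat_lit 209) (nat_lit 0) (cs (lf (nat_lit 14) (nat_lit 205)) (nd (nat_lit 273) (nat_lit 0) (cs (lf (nat_lit 19) (nat_lit 249)) (nd (nat_lit 294) (nat_lit 0) (cs (lf (nat_lit 42) (nat_lit 227)) (nd (nat_lit 293) (nat_lit 0) (cs (lf (nat_lit 41) (nat_lit 227)) (nd (nat_lit 291) (nat_lit 0) (cs (lf (nat_lit 13) (nat_lit 269)) (rf (nat_lit 4))))))))))))))))))) q68953 (by decide +kernel)
def q68954 : Q := Q.p (nat_lit 0x800000600001800000000000000000000000000000000000000000000000000000000) (nat_lit 0x3c0001fc0007e0000180000400005000010000040000000000000000000000000000000000000000) (nat_lit 10)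
theorem c68954 : QOK q68954 := cut [q67807, q67851, q67857, q68030] ⟨c67807, c67851, c67857, c68030, trivial⟩ (nd (nat_lit 272) (nat_lit 0) (cs (rf (nat_lit 0)) (cs (rf (nat_lit 1)) (cs (rf (nat_lit 2)) (rf (nat_lit 3)))))) q68954 (by decide +kernel)
def q69020 : Q := Q.p (nat_lit 0x800002600000800010000040000000000000000000000000000000000000000000000) (nat_lit 0x1400007c0001f00011c0007780007e0001e000030000040000000000000000000000000000000000) (nat_lit 13)
theorem c69020 : QOK q69020 := cut [q56953, q66938, q67650, q57098, q67452] ⟨c56953, c66938, c67650, c57098, c67452, trivial⟩ (nd (nat_lit 205) (nat_lit 0) (cs (rf (nat_lit 0)) (cs (rf (nat_lit 1)) (cs (rf (nat_lit 2)) (nd (nat_lit 204) (nat_lit 0) (cs (nd (nat_lit 230) (nat_lit 0) (cs (lf (nat_lit 27) (nat_lit 186)) (rf (nat_lit 3)))) (cs (nd (nat_lit 182) (nat_lit 0) (cs (lf (nat_lit 42) (nat_lit 182)) (nd (nat_lit 160) (nat_lit 0) (cs (lf (nat_lit 24) (nat_lit 138))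 (lf (nat_lit 45) (nat_lit 160)))))) (cs (nd (nat_lit 230) (nat_lit 0) (cs (lf (nat_lit 27) (nat_lit 186)) (nd (nat_lit 228) (nat_lit 0) (cs (lf (nat_lit 19) (nat_lit 204)) (nd (nat_lit 202) (nat_lit 0) (cs (lf (nat_lit 1) (nat_lit 202)) (nd (nat_lit 183) (nat_lit 0) (cs (lf (nat_lit 24) (nat_lit 161)) (nd (nat_lit 270) (nat_lit 0) (cs (lf (nat_lit 40) (nat_lit 182)) (nd (nat_lit 271) (nat_lit 0) (cs (lf (nat_lit 41) (nat_lit 204)) (nd (nat_lit 293) (nat_lit 0) (cs (lf (nat_lit 46) (nat_lit 204)) (lf (nat_lit 35) (nat_lit 205)))))))))))))))) (nd (nat_lit 230) (nat_lit 0) (cs (lf (nat_lit 27) (nat_lit 186)) (nd (nat_lit 228) (nat_lit 0) (cs (lf (nat_lit 19) (nat_lit 204)) (nd (nat_lit 202) (nat_lit 0) (cs (lf (nat_lit 1) (nat_lit 202)) (nd (nat_lit 183) (nat_lit 0) (cs (lf (nat_lit 24) (nat_lit 161)) (rf (nat_lit 4)))))))))))))))))) q69020 (by decide +kernel)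
def q69073 : Q := Q.p (nat_lit 0x9c0002600000000010000040000000000000000000000000000000000000000000000) (nat_lit 0x8000060000dc0000300011c0007700005800012000000000000000000000000000000000000000000000) (nat_lit 9)
theorem c69073 : QOK q69073 := cut [q65563, q68847, q68854, q64491] ⟨c65563, c68847, c68854, c64491, trivial⟩ (nd (nat_lit 248) (nat_lit 0) (cs (rf (nat_lit 0)) (cs (rf (nat_lit 1)) (cs (rf (nat_lit 2)) (nd (nat_lit 269) (nat_lit 0) (cs (lf (nat_lit 12) (nat_lit 246)) (nd (nat_lit 230) (nat_lit 0) (cs (lf (nat_lit 27) (nat_lit 186)) (nd (nat_lit 291) (nat_lit 0) (cs (lf (nat_lit 11) (nat_lit 268)) (nd (nat_lit 294) (nat_lit 0) (cs (lf (nat_lit 5) (nat_lit 269)) (rf (nat_lit 3)))))))))))))) q69073 (by decide +kernel)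
def q69111 : Q := Q.p (nat_lit 0x980000600000000000000000000000000000000000000000000000000000000000000) (nat_lit 0x10000140000dc0006700001c0000800002000000000000000000000000000000000000000000000000000) (nat_lit 6)
theorem c69111 : QOK q69111 := cut [q46564, q68841, q68842] ⟨c46564, c68841, c68842, trivial⟩ (nd (nat_lit 270) (nat_lit 0) (cs (rf (nat_lit 0)) (cs (rf (nat_lit 1)) (rf (nat_lit 2))))) q69111 (by decide +kernel)
def q69178 : Q := Q.p (nat_lit 0x20000980002600000000010000040000000000000000000000000000000000000000000000) (nat_lit 0x150000fc000f70001dc0000700011c000f700005c00005000000000000000000000000000000000000000000000) (nat_lit 12)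
theorem c69178 : QOK q69178 := cut [q47470, q67259, q60062, q47212, q69119, q45664, q48839, q65741, q46785, q48790, q60936, q47440, q49175, q69136, q69144, q66768, q49160, q69155, q69158, q50110, q69170, q69176] ⟨c47470, c67259, c60062, c47212, c69119, c45664, c48839, c65741, c46785, c48790, c60936, c47440, c49175, c69136, c69144, c66768, c49160, c69155, c69158, c50110, c69170, c69176, trivial⟩ (nd (nat_lit 294) (nat_lit 0) (cs (rf (nat_lit 0)) (cs (rf (nat_lit 1)) (cs (nd (nat_lit 316) (nat_lit 0) (cs (rf (nat_lit 2)) (nd (nat_lit 291) (nat_lit 0) (cs (rf (nat_lit 3)) (cs (nd (nat_lit 247) (nat_lit 0) (cs (nd (nat_lit 246) (nat_lit 0) (cs (lf (nat_lit 2) (nat_lit 246)) (nd (nat_lit 317) (nat_lit 0) (cs (lf (nat_lit 29) (nat_lit 250)) (rf (nat_lit 4)))))) (cs (nd (nat_lit 317) (nat_lit 0) (cs (lf (nat_lit 29) (nat_lit 250)) (nd (nat_lit 230) (nat_lit 0) (cs (lf (nat_lit 27) (nat_lit 186)) (nd (nat_lit 318) (nat_lit 0) (cs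 (lf (nat_lit 18) (nat_lit 293)) (nd (nat_lit 228) (nat_lit 0) (cs (lf (nat_lit 36) (nat_lit 205)) (nd (nat_lit 229) (nat_lit 0) (cs (lf (nat_lit 6) (nat_lit 227)) (lf (nat_lit 13) (nat_lit 225)))))))))))) (cs (nd (nat_lit 269) (nat_lit 0) (cs (rf (nat_lit 5)) (cs (rf (nat_lit 6)) (cs (rf (nat_lit 7)) (nd (nat_lit 225) (nat_lit 0) (cs (rf (nat_lit 8)) (cs (nd (nat_lit 206) (nat_lit 0) (cs (lf (nat_lit 37) (nat_lit 205)) (nd (nat_lit 317) (nat_lit 0) (cs (lf (nat_lit 29) (nat_lit 250)) (rf (nat_lit 9)))))) (nd (nat_lit 230) (nat_lit 0) (cs (lf (nat_lit 27) (nat_lit 186)) (rf (nat_lit 10))))))))))) (nd (nat_lit 206) (nat_lit 0) (cs (lf (nat_lit 37) (nat_lit 205)) (nd (nat_lit 246) (nat_lit 0) (cs (lf (nat_lit 2) (nat_lit 246)) (nd (nat_lit 230) (nat_lit 0) (cs (lf (nat_lit 27) (nat_lit 186)) (rf (nat_lit 4)))))))))))) (nd (nat_lit 269) (nat_lit 0) (cs (rf (nat_lit 11)) (cs (rf (nat_lit 12)) (cs (rf (nat_lit 7)) (rf (nat_lit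 13))))))))))) (nd (nat_lit 247) (nat_lit 0) (cs (nd (nat_lit 248) (nat_lit 0) (cs (lf (nat_lit 0) (nat_lit 246)) (nd (nat_lit 316) (nat_lit 0) (cs (lf (nat_lit 42) (nat_lit 249)) (nd (nat_lit 224) (nat_lit 0) (cs (lf (nat_lit 22) (nat_lit 224)) (rf (nat_lit 14)))))))) (cs (nd (nat_lit 269) (nat_lit 0) (cs (rf (nat_lit 15)) (cs (nd (nat_lit 291) (nat_lit 0) (cs (rf (nat_lit 11)) (cs (nd (nat_lit 316) (nat_lit 0) (cs (lf (nat_lit 42) (nat_lit 249)) (nd (nat_lit 292) (nat_lit 0) (cs (lf (nat_lit 23) (nat_lit 268)) (nd (nat_lit 206) (nat_lit 0) (cs (lf (nat_lit 37) (nat_lit 205)) (nd (nat_lit 313) (nat_lit 0) (cs (lf (nat_lit 11) (nat_lit 290)) (nd (nat_lit 314) (nat_lit 0) (cs (lf (nat_lit 29) (nat_lit 247)) (lf (nat_lit 24) (nat_lit 225)))))))))))) (cs (nd (nat_lit 313) (nat_lit 0) (cs (rf (nat_lit 16)) (cs (rf (nat_lit 17)) (nd (nat_lit 206) (nat_lit 0) (cs (lf (nat_lit 37) (nat_lit 205)) (nd (nat_lit 230) (nat_lit 0) (cs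 (lf (nat_lit 27) (nat_lit 186)) (nd (nat_lit 312) (nat_lit 0) (cs (lf (nat_lit 41) (nat_lit 246)) (nd (nat_lit 338) (nat_lit 0) (cs (lf (nat_lit 43) (nat_lit 249)) (rf (nat_lit 18))))))))))))) (nd (nat_lit 206) (nat_lit 0) (cs (lf (nat_lit 37) (nat_lit 205)) (nd (nat_lit 290) (nat_lit 0) (cs (lf (nat_lit 14) (nat_lit 268)) (nd (nat_lit 316) (nat_lit 0) (cs (lf (nat_lit 42) (nat_lit 249)) (nd (nat_lit 230) (nat_lit 0) (cs (lf (nat_lit 27) (nat_lit 186)) (nd (nat_lit 312) (nat_lit 0) (cs (lf (nat_lit 36) (nat_lit 224)) (rf (nat_lit 19)))))))))))))))) (rf (nat_lit 20))))) (cs (nd (nat_lit 228) (nat_lit 0) (cs (lf (nat_lit 36) (nat_lit 205)) (nd (nat_lit 316) (nat_lit 0) (cs (lf (nat_lit 42) (nat_lit 249)) (nd (nat_lit 229) (nat_lit 0) (cs (lf (nat_lit 13) (nat_lit 225)) (nd (nat_lit 230) (nat_lit 0) (cs (lf (nat_lit 27) (nat_lit 186)) (lf (nat_lit 6) (nat_lit 227)))))))))) (rf (nat_lit 21)))))))))) q69178 (by decide +kernel)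
def q69394 : Q := Q.p (nat_lit 0x800002680004200010000040000000000000000000000000000000000000000000000) (nat_lit 0x350000dc00077000007000bc00027c000bf0000fc000070000140000000000000000000000000000) (nat_lit 12)
theorem c69394 : QOK q69394 := cut [q69360, q41049, q56800, q69361, q50279, q69367, q69373, q69385, q69388] ⟨c69360, c41049, c56800, c69361, c50279, c69367, c69373, c69385, c69388, trivial⟩ (nd (nat_lit 231) (nat_lit 0) (cs (lf (nat_lit 45) (nat_lit 186)) (nd (nat_lit 228) (nat_lit 0) (cs (lf (nat_lit 8) (nat_lit 227)) (nd (nat_lit 203) (nat_lit 0) (cs (rf (nat_lit 0)) (cs (nd (nat_lit 181) (nat_lit 0) (cs (rf (nat_lit 1)) (cs (rf (nat_lit 2)) (rf (nat_lit 3))))) (cs (nd (nat_lit 181) (nat_lit 0) (cs (rf (nat_lit 1)) (cs (rf (nat_lit 2)) (cs (nd (nat_lit 246) (nat_lit 0) (cs (lf (nat_lit 41) (nat_lit 180)) (nd (nat_lit 226) (nat_lit 0) (cs (lf (nat_lit 7) (nat_lit 224)) (nd (nat_lit 244) (nat_lit 0) (cs (lf (nat_lit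 13) (nat_lit 222)) (nd (nat_lit 158) (nat_lit 0) (cs (lf (nat_lit 46) (nat_lit 158)) (nd (nat_lit 159) (nat_lit 0) (cs (lf (nat_lit 47) (nat_lit 136)) (nd (nat_lit 137) (nat_lit 0) (cs (lf (nat_lit 28) (nat_lit 137)) (nd (nat_lit 138) (nat_lit 0) (cs (lf (nat_lit 35) (nat_lit 115)) (lf (nat_lit 34) (nat_lit 137)))))))))))))))) (nd (nat_lit 246) (nat_lit 0) (cs (lf (nat_lit 41) (nat_lit 180)) (nd (nat_lit 226) (nat_lit 0) (cs (lf (nat_lit 7) (nat_lit 224)) (nd (nat_lit 244) (nat_lit 0) (cs (lf (nat_lit 13) (nat_lit 222)) (nd (nat_lit 158) (nat_lit 0) (cs (lf (nat_lit 46) (nat_lit 158)) (nd (nat_lit 159) (nat_lit 0) (cs (lf (nat_lit 47) (nat_lit 136)) (rf (nat_lit 4)))))))))))))))) (cs (nd (nat_lit 181) (nat_lit 0) (cs (rf (nat_lit 1)) (cs (rf (nat_lit 3)) (cs (nd (nat_lit 160) (nat_lit 0) (cs (lf (nat_lit 34) (nat_lit 159)) (nd (nat_lit 161) (nat_lit 0) (cs (rf (nat_lit 5)) (nd (nat_lit 159) (nat_lit 0) (cs (lf (nat_lit 35)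 (nat_lit 137)) (nd (nat_lit 136) (nat_lit 0) (cs (lf (nat_lit 46) (nat_lit 136)) (nd (nat_lit 137) (nat_lit 0) (cs (lf (nat_lit 47) (nat_lit 114)) (lf (nat_lit 18) (nat_lit 136)))))))))))) (nd (nat_lit 160) (nat_lit 0) (cs (lf (nat_lit 34) (nat_lit 159)) (nd (nat_lit 161) (nat_lit 0) (cs (rf (nat_lit 5)) (cs (nd (nat_lit 159) (nat_lit 0) (cs (lf (nat_lit 35) (nat_lit 137)) (nd (nat_lit 162) (nat_lit 0) (cs (lf (nat_lit 11) (nat_lit 158)) (rf (nat_lit 6)))))) (nd (nat_lit 159) (nat_lit 0) (cs (lf (nat_lit 35) (nat_lit 137)) (nd (nat_lit 268) (nat_lit 0) (cs (lf (nat_lit 40) (nat_lit 180)) (nd (nat_lit 269) (nat_lit 0) (cs (lf (nat_lit 41) (nat_lit 202)) (nd (nat_lit 180) (nat_lit 0) (cs (lf (nat_lit 46) (nat_lit 180)) (lf (nat_lit 6) (nat_lit 158))))))))))))))))))) (nd (nat_lit 181) (nat_lit 0) (cs (rf (nat_lit 1)) (cs (nd (nat_lit 182) (nat_lit 0) (cs (lf (nat_lit 35) (nat_lit 159)) (rf (nat_lit 7)))) (nd (nat_lit 180) (nat_lit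 0) (cs (lf (nat_lit 47) (nat_lit 158)) (nd (nat_lit 202) (nat_lit 0) (cs (lf (nat_lit 42) (nat_lit 180)) (rf (nat_lit 8)))))))))))))))))) q69394 (by decide +kernel)
def q69428 : Q := Q.p (nat_lit 0x680004200030800040000000000000000000000000000000000000000000000) (nat_lit 0x500001c0001700000000e38001c64006bf0000f4000000000000000000000000000000000000000) (nat_lit 10)
theorem c69428 : QOK q69428 := cut [q69384, q75, q69418, q69425] ⟨c69384, c75, c69418, c69425, trivial⟩ (nd (nat_lit 180) (nat_lit 0) (cs (nd (nat_lit 269) (nat_lit 0) (cs (lf (nat_lit 46) (nat_lit 180)) (rf (nat_lit 0)))) (nd (nat_lit 210) (nat_lit 0) (cs (rf (nat_lit 1)) (cs (rf (nat_lit 2)) (nd (nat_lit 181) (nat_lit 0) (cs (lf (nat_lit 47) (nat_lit 158)) (rf (nat_lit 3))))))))) q69428 (by decide +kernel)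
def q69698 : Q := Q.p (nat_lit 0x800002680004300010000040000000000000000000000000000000000000000000000) (nat_lit 0x100000780001fc0007e00007c00b0c0020f0000700001c000070000040000000000000000000000000000) (nat_lit 11)
theorem c69698 : QOK q69698 := cut [q45697, q45757, q69336, q69339, q69595, q69604, q69654, q41049, q45687, q69612, q50968, q69662, q69665, q69673, q69691] ⟨c45697, c45757, c69336, c69339, c69595, c69604, c69654, c41049, c45687, c69612, c50968, c69662, c69665, c69673, c69691, trivial⟩ (nd (nat_lit 269) (nat_lit 0) (cs (rf (nat_lit 0)) (cs (rf (nat_lit 1)) (cs (nd (nat_lit 291) (nat_lit 0) (cs (rf (nat_lit 2)) (cs (rf (nat_lit 3)) (nd (nat_lit 290) (nat_lit 0) (cs (lf (nat_lit 41) (nat_lit 224)) (nd (nat_lit 246) (nat_lit 0) (cs (lf (nat_lit 42) (nat_lit 224)) (nd (nat_lit 268) (nat_lit 0) (cs (lf (nat_lit 35) (nat_lit 202)) (nd (nat_lit 201) (nat_lit 0) (cs (lf (nat_lit 46) (nat_lit 201)) (rf (nat_lit 4)))))))))))))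 (nd (nat_lit 231) (nat_lit 0) (cs (lf (nat_lit 45) (nat_lit 186)) (nd (nat_lit 203) (nat_lit 0) (cs (rf (nat_lit 5)) (cs (nd (nat_lit 268) (nat_lit 0) (cs (lf (nat_lit 41) (nat_lit 202)) (nd (nat_lit 181) (nat_lit 0) (cs (lf (nat_lit 40) (nat_lit 180)) (rf (nat_lit 6)))))) (cs (nd (nat_lit 181) (nat_lit 0) (cs (rf (nat_lit 7)) (cs (rf (nat_lit 8)) (cs (rf (nat_lit 9)) (rf (nat_lit 6)))))) (nd (nat_lit 268) (nat_lit 0) (cs (lf (nat_lit 41) (nat_lit 202)) (nd (nat_lit 267) (nat_lit 0) (cs (nd (nat_lit 266) (nat_lit 0) (cs (nd (nat_lit 270) (nat_lit 0) (cs (lf (nat_lit 29) (nat_lit 203)) (rf (nat_lit 10)))) (rf (nat_lit 11)))) (cs (nd (nat_lit 266) (nat_lit 0) (cs (rf (nat_lit 11)) (cs (nd (nat_lit 228) (nat_lit 0) (cs (lf (nat_lit 8) (nat_lit 227)) (nd (nat_lit 287) (nat_lit 0) (cs (lf (nat_lit 10) (nat_lit 265)) (nd (nat_lit 265) (nat_lit 0) (cs (lf (nat_lit 11) (nat_lit 264)) (rf (nat_lit 12)))))))) (cs (nd (nat_lit 289)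 (nat_lit 0) (cs (nd (nat_lit 202) (nat_lit 0) (cs (lf (nat_lit 47) (nat_lit 180)) (lf (nat_lit 38) (nat_lit 201)))) (nd (nat_lit 288) (nat_lit 0) (cs (lf (nat_lit 11) (nat_lit 265)) (rf (nat_lit 13)))))) (nd (nat_lit 228) (nat_lit 0) (cs (lf (nat_lit 8) (nat_lit 227)) (nd (nat_lit 180) (nat_lit 0) (cs (lf (nat_lit 46) (nat_lit 180)) (nd (nat_lit 265) (nat_lit 0) (cs (lf (nat_lit 16) (nat_lit 243)) (rf (nat_lit 12)))))))))))) (cs (nd (nat_lit 202) (nat_lit 0) (cs (lf (nat_lit 47) (nat_lit 180)) (nd (nat_lit 228) (nat_lit 0) (cs (lf (nat_lit 8) (nat_lit 227)) (nd (nat_lit 289) (nat_lit 0) (cs (lf (nat_lit 38) (nat_lit 201)) (nd (nat_lit 270) (nat_lit 0) (cs (lf (nat_lit 29) (nat_lit 203)) (nd (nat_lit 245) (nat_lit 0) (cs (lf (nat_lit 23) (nat_lit 244)) (lf (nat_lit 33) (nat_lit 201)))))))))))) (cs (nd (nat_lit 202) (nat_lit 0) (cs (lf (nat_lit 47) (nat_lit 180)) (nd (nat_lit 228) (nat_lit 0) (cs (lf (nat_lit 8) (nat_lit 227))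 (nd (nat_lit 289) (nat_lit 0) (cs (lf (nat_lit 38) (nat_lit 201)) (nd (nat_lit 270) (nat_lit 0) (cs (lf (nat_lit 29) (nat_lit 203)) (lf (nat_lit 11) (nat_lit 266)))))))))) (nd (nat_lit 180) (nat_lit 0) (cs (lf (nat_lit 46) (nat_lit 180)) (nd (nat_lit 270) (nat_lit 0) (cs (lf (nat_lit 29) (nat_lit 203)) (rf (nat_lit 14))))))))))))))))))))))) q69698 (by decide +kernel)
def q69791 : Q := Q.p (nat_lit 0x800002680000200010000040000000000000000000000000000000000000000000000) (nat_lit 0x40000700001c000070000070008df0027fc000ff0007fc00070000000000000000000000000000000000) (nat_lit 12)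
theorem c69791 : QOK q69791 := cut [q69517, q41049, q56800, q67421, q69720, q69740, q69384, q69553, q48747, q48763, q51695, q69582, q69775, q50351, q69550] ⟨c69517, c41049, c56800, c67421, c69720, c69740, c69384, c69553, c48747, c48763, c51695, c69582, c69775, c50351, c69550, trivial⟩ (nd (nat_lit 203) (nat_lit 0) (cs (rf (nat_lit 0)) (cs (nd (nat_lit 181) (nat_lit 0) (cs (rf (nat_lit 1)) (cs (rf (nat_lit 2)) (rf (nat_lit 3))))) (cs (rf (nat_lit 4)) (cs (rf (nat_lit 5)) (cs (nd (nat_lit 269) (nat_lit 0) (cs (rf (nat_lit 6)) (cs (rf (nat_lit 7)) (nd (nat_lit 202) (nat_lit 0) (cs (lf (nat_lit 47) (nat_lit 180)) (nd (nat_lit 201) (nat_lit 0) (cs (rf (nat_lit 8)) (cs (rf (nat_lit 9)) (cs (rf (nat_lit 10)) (nd (nat_lit 209) (nat_lit 0) (cs (lf (nat_lit 44) (nat_lit 186)) (nd (nat_lit 268) (nat_lit 0) (cs (lf (nat_lit 41) (nat_lit 202)) (nd (nat_lit 204) (nat_lit 0) (cs (lf (nat_lit 35) (nat_lit 181)) (nd (nat_lit 270) (nat_lit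 0) (cs (lf (nat_lit 29) (nat_lit 203)) (rf (nat_lit 11))))))))))))))))))) (cs (rf (nat_lit 12)) (nd (nat_lit 180) (nat_lit 0) (cs (rf (nat_lit 13)) (cs (nd (nat_lit 209) (nat_lit 0) (cs (lf (nat_lit 44) (nat_lit 186)) (nd (nat_lit 181) (nat_lit 0) (cs (lf (nat_lit 47) (nat_lit 158)) (nd (nat_lit 160) (nat_lit 0) (cs (lf (nat_lit 34) (nat_lit 159)) (nd (nat_lit 159) (nat_lit 0) (cs (lf (nat_lit 35) (nat_lit 137)) (nd (nat_lit 161) (nat_lit 0) (cs (lf (nat_lit 6) (nat_lit 158)) (nd (nat_lit 224) (nat_lit 0) (cs (lf (nat_lit 41) (nat_lit 158)) (nd (nat_lit 226) (nat_lit 0) (cs (lf (nat_lit 3) (nat_lit 224)) (nd (nat_lit 204) (nat_lit 0) (cs (lf (nat_lit 24) (nat_lit 137)) (nd (nat_lit 205) (nat_lit 0) (cs (lf (nat_lit 12) (nat_lit 201)) (lf (nat_lit 18) (nat_lit 180)))))))))))))))))))) (nd (nat_lit 209) (nat_lit 0) (cs (lf (nat_lit 44) (nat_lit 186)) (nd (nat_lit 269) (nat_lit 0) (cs (lf (nat_lit 46) (nat_lit 180)) (nd (nat_lit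 204) (nat_lit 0) (cs (lf (nat_lit 35) (nat_lit 181)) (nd (nat_lit 270) (nat_lit 0) (cs (lf (nat_lit 29) (nat_lit 203)) (nd (nat_lit 226) (nat_lit 0) (cs (lf (nat_lit 30) (nat_lit 203)) (rf (nat_lit 14)))))))))))))))))))))) q69791 (by decide +kernel)
def q69825 : Q := Q.p (nat_lit 0x800002680004200010000040000000000000000000000000000000000000000000000) (nat_lit 0x2000378000df80077e00007800bd000e7c000bb0000ec000010000000000000000000000000000000000) (nat_lit 12)
theorem c69825 : QOK q69825 := cut [q69406, q69740, q75, q69384, q69800, q50630, q51030, q69360] ⟨c69406, c69740, c75, c69384, c69800, c50630, c51030, c69360, trivial⟩ (nd (nat_lit 203) (nat_lit 0) (cs (rf (nat_lit 0)) (cs (rf (nat_lit 1)) (cs (nd (nat_lit 209) (nat_lit 0) (cs (lf (nat_lit 44) (nat_lit 186)) (nd (nat_lit 210) (nat_lit 0) (cs (rf (nat_lit 2)) (nd (nat_lit 269) (nat_lit 0) (cs (rf (nat_lit 3)) (cs (nd (nat_lit 292) (nat_lit 0) (cs (lf (nat_lit 28) (nat_lit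 203)) (nd (nat_lit 291) (nat_lit 0) (cs (lf (nat_lit 29) (nat_lit 225)) (nd (nat_lit 226) (nat_lit 0) (cs (lf (nat_lit 35) (nat_lit 203)) (nd (nat_lit 290) (nat_lit 0) (cs (lf (nat_lit 41) (nat_lit 224)) (rf (nat_lit 4)))))))))) (cs (nd (nat_lit 292) (nat_lit 0) (cs (lf (nat_lit 28) (nat_lit 203)) (nd (nat_lit 291) (nat_lit 0) (cs (lf (nat_lit 29) (nat_lit 225)) (nd (nat_lit 226) (nat_lit 0) (cs (lf (nat_lit 35) (nat_lit 203)) (nd (nat_lit 224) (nat_lit 0) (cs (lf (nat_lit 3) (nat_lit 224)) (nd (nat_lit 246) (nat_lit 0) (cs (lf (nat_lit 42) (nat_lit 224)) (rf (nat_lit 5)))))))))))) (cs (nd (nat_lit 268) (nat_lit 0) (cs (lf (nat_lit 41) (nat_lit 202)) (nd (nat_lit 246) (nat_lit 0) (cs (lf (nat_lit 36) (nat_lit 180)) (nd (nat_lit 267) (nat_lit 0) (cs (nd (nat_lit 270) (nat_lit 0) (cs (lf (nat_lit 29) (nat_lit 203)) (nd (nat_lit 266) (nat_lit 0) (cs (lf (nat_lit 12) (nat_lit 243)) (rf (nat_lit 6)))))) (cs (nd (nat_lit 270)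 (nat_lit 0) (cs (lf (nat_lit 29) (nat_lit 203)) (nd (nat_lit 289) (nat_lit 0) (cs (lf (nat_lit 11) (nat_lit 266)) (nd (nat_lit 311) (nat_lit 0) (cs (lf (nat_lit 30) (nat_lit 245)) (nd (nat_lit 245) (nat_lit 0) (cs (lf (nat_lit 23) (nat_lit 244)) (lf (nat_lit 35) (nat_lit 223)))))))))) (nd (nat_lit 266) (nat_lit 0) (cs (lf (nat_lit 12) (nat_lit 243)) (nd (nat_lit 244) (nat_lit 0) (cs (lf (nat_lit 23) (nat_lit 243)) (nd (nat_lit 226) (nat_lit 0) (cs (lf (nat_lit 13) (nat_lit 222)) (nd (nat_lit 227) (nat_lit 0) (cs (lf (nat_lit 0) (nat_lit 224)) (lf (nat_lit 6) (nat_lit 224))))))))))))))))) (nd (nat_lit 290) (nat_lit 0) (cs (lf (nat_lit 40) (nat_lit 202)) (nd (nat_lit 291) (nat_lit 0) (cs (lf (nat_lit 41) (nat_lit 224)) (nd (nat_lit 226) (nat_lit 0) (cs (lf (nat_lit 35) (nat_lit 203)) (rf (nat_lit 4))))))))))))))))) (nd (nat_lit 231) (nat_lit 0) (cs (lf (nat_lit 45) (nat_lit 186)) (nd (nat_lit 228) (nat_lit 0) (cs (lf (nat_lit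 8) (nat_lit 227)) (rf (nat_lit 7)))))))))) q69825 (by decide +kernel)
def q69879 : Q := Q.p (nat_lit 0x800002780000000010000040000000000000000000000000000000000000000000000) (nat_lit 0x400001c0000700001c00037000000000b300021c00007000014000000000000000000000000000000000000000) (nat_lit 11)
theorem c69879 : QOK q69879 := cut [q68578, q26458, q69868, q47098] ⟨c68578, c26458, c69868, c47098, trivial⟩ (nd (nat_lit 225) (nat_lit 0) (cs (lf (nat_lit 23) (nat_lit 224)) (nd (nat_lit 209) (nat_lit 0) (cs (lf (nat_lit 44) (nat_lit 186)) (nd (nat_lit 269) (nat_lit 0) (cs (lf (nat_lit 11) (nat_lit 246)) (nd (nat_lit 291) (nat_lit 0) (cs (rf (nat_lit 0)) (cs (nd (nat_lit 228) (nat_lit 0) (cs (lf (nat_lit 17) (nat_lit 225)) (nd (nat_lit 272) (nat_lit 0) (cs (lf (nat_lit 5) (nat_lit 247)) (nd (nat_lit 312) (nat_lit 0) (cs (lf (nat_lit 40) (nat_lit 224)) (nd (nat_lit 313) (nat_lit 0) (cs (lf (nat_lit 41) (nat_lit 246)) (nd (nat_lit 270)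 (nat_lit 0) (cs (rf (nat_lit 1)) (lf (nat_lit 30) (nat_lit 247)))))))))))) (cs (nd (nat_lit 228) (nat_lit 0) (cs (lf (nat_lit 17) (nat_lit 225)) (nd (nat_lit 272) (nat_lit 0) (cs (lf (nat_lit 5) (nat_lit 247)) (nd (nat_lit 312) (nat_lit 0) (cs (lf (nat_lit 40) (nat_lit 224)) (nd (nat_lit 313) (nat_lit 0) (cs (lf (nat_lit 41) (nat_lit 246)) (nd (nat_lit 336) (nat_lit 0) (cs (lf (nat_lit 28) (nat_lit 247)) (rf (nat_lit 2)))))))))))) (nd (nat_lit 314) (nat_lit 0) (cs (lf (nat_lit 28) (nat_lit 225)) (nd (nat_lit 228) (nat_lit 0) (cs (lf (nat_lit 17) (nat_lit 225)) (rf (nat_lit 3)))))))))))))))) q69879 (by decide +kernel)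
def q70209 : Q := Q.p (nat_lit 0x820002680000000010000040000000000000000000000000000000000000000000000) (nat_lit 0xe0000780003f80005c0001780683801e0e00ea1000000000000000000000000000000000000000000000) (nat_lit 11)
theorem c70209 : QOK q70209 := cut [q66782, q50866, q50858, q50013, q69992, q50585, q69984] ⟨c66782, c50866, c50858, c50013, c69992, c50585, c69984, trivial⟩ (nd (nat_lit 268) (nat_lit 0) (cs (lf (nat_lit 8) (nat_lit 246)) (nd (nat_lit 209) (nat_lit 0) (cs (lf (nat_lit 44) (nat_lit 186)) (nd (nat_lit 211) (nat_lit 0) (cs (rf (nat_lit 0)) (nd (nat_lit 290) (nat_lit 0) (cs (nd (nat_lit 225) (nat_lit 0) (cs (lf (nat_lit 36) (nat_lit 202)) (nd (nat_lit 312) (nat_lit 0) (cs (lf (nat_lit 30) (nat_lit 246)) (lf (nat_lit 33) (nat_lit 224)))))) (cs (nd (nat_lit 312) (nat_lit 0) (cs (lf (nat_lit 30) (nat_lit 246)) (nd (nat_lit 246) (nat_lit 0) (cs (rf (nat_lit 1)) (cs (nd (nat_lit 223) (nat_lit 0) (cs (rf (nat_lit 2)) (lf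 (nat_lit 46) (nat_lit 223)))) (nd (nat_lit 313) (nat_lit 0) (cs (lf (nat_lit 29) (nat_lit 246)) (nd (nat_lit 311) (nat_lit 0) (cs (lf (nat_lit 41) (nat_lit 245)) (nd (nat_lit 245) (nat_lit 0) (cs (rf (nat_lit 3)) (lf (nat_lit 47) (nat_lit 223))))))))))))) (cs (rf (nat_lit 4)) (nd (nat_lit 225) (nat_lit 0) (cs (lf (nat_lit 36) (nat_lit 202)) (nd (nat_lit 291) (nat_lit 0) (cs (rf (nat_lit 5)) (rf (nat_lit 6)))))))))))))))) q70209 (by decide +kernel)
def q70245 : Q := Q.p (nat_lit 0x800002680000000010000040000000000000000000000000000000000000000000000) (nat_lit 0xc0001700005c00037e000170009fe0023c0003f00001c000050000000000000000000000000000000000) (nat_lit 13)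
theorem c70245 : QOK q70245 := cut [q45262, q69862, q61123, q17277, q70218, q57439, q44583, q46598, q70235, q59140] ⟨c45262, c69862, c61123, c17277, c70218, c57439, c44583, c46598, c70235, c59140, trivial⟩ (nd (nat_lit 248) (nat_lit 0) (cs (rf (nat_lit 0)) (cs (rf (nat_lit 1)) (cs (nd (nat_lit 209) (nat_lit 0) (cs (lf (nat_lit 44) (nat_lit 186)) (nd (nat_lit 268) (nat_lit 0) (cs (lf (nat_lit 10) (nat_lit 246)) (nd (nat_lit 246) (nat_lit 0) (cs (lf (nat_lit 11) (nat_lit 245)) (rf (nat_lit 2)))))))) (cs (nd (nat_lit 209) (nat_lit 0) (cs (lf (nat_lit 44) (nat_lit 186)) (nd (nat_lit 246) (nat_lit 0) (cs (rf (nat_lit 3)) (cs (rf (nat_lit 4)) (nd (nat_lit 227) (nat_lit 0) (cs (lf (nat_lit 17) (nat_lit 224)) (nd (nat_lit 226) (nat_lit 0) (cs (lf (nat_lit 12) (nat_lit 223)) (nd (nat_lit 269) (nat_lit 0) (cs (lf (nat_lit 11) (nat_lit 246)) (nd (nat_lit 272) (nat_lit 0) (cs (lf (nat_lit 5) (nat_lit 247)) (nd (nat_lit 294) (nat_lit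 0) (cs (lf (nat_lit 42) (nat_lit 227)) (nd (nat_lit 183) (nat_lit 0) (cs (lf (nat_lit 25) (nat_lit 183)) (nd (nat_lit 184) (nat_lit 0) (cs (lf (nat_lit 2) (nat_lit 183)) (nd (nat_lit 204) (nat_lit 0) (cs (lf (nat_lit 36) (nat_lit 181)) (nd (nat_lit 291) (nat_lit 0) (cs (lf (nat_lit 30) (nat_lit 225)) (lf (nat_lit 33) (nat_lit 203))))))))))))))))))))))))) (cs (nd (nat_lit 209) (nat_lit 0) (cs (lf (nat_lit 44) (nat_lit 186)) (nd (nat_lit 272) (nat_lit 0) (cs (lf (nat_lit 5) (nat_lit 247)) (nd (nat_lit 224) (nat_lit 0) (cs (lf (nat_lit 22) (nat_lit 224)) (nd (nat_lit 246) (nat_lit 0) (cs (lf (nat_lit 23) (nat_lit 223)) (nd (nat_lit 227) (nat_lit 0) (cs (lf (nat_lit 17) (nat_lit 224)) (rf (nat_lit 5)))))))))))) (nd (nat_lit 246) (nat_lit 0) (cs (rf (nat_lit 6)) (cs (rf (nat_lit 4)) (nd (nat_lit 225) (nat_lit 0) (cs (lf (nat_lit 23) (nat_lit 224)) (nd (nat_lit 270) (nat_lit 0) (cs (rf (nat_lit 7)) (cs (nd (nat_lit 227) (nat_lit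 0) (cs (lf (nat_lit 17) (nat_lit 224)) (nd (nat_lit 245) (nat_lit 0) (cs (lf (nat_lit 16) (nat_lit 223)) (nd (nat_lit 183) (nat_lit 0) (cs (lf (nat_lit 37) (nat_lit 182)) (nd (nat_lit 244) (nat_lit 0) (cs (lf (nat_lit 4) (nat_lit 244)) (rf (nat_lit 8)))))))))) (nd (nat_lit 227) (nat_lit 0) (cs (lf (nat_lit 17) (nat_lit 224)) (nd (nat_lit 183) (nat_lit 0) (cs (lf (nat_lit 37) (nat_lit 182)) (rf (nat_lit 9)))))))))))))))))))) q70245 (by decide +kernel)
def q70274 : Q := Q.p (nat_lit 0x200009a0002680000000010000040000000000000000000000000000000000000000000000) (nat_lit 0x500005c0003700005c000010001040005700007c00004000000000000000000000000000000000000000000000) (nat_lit 8)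
theorem c70274 : QOK q70274 := cut [q70267, q70269, q70272] ⟨c70267, c70269, c70272, trivial⟩ (nd (nat_lit 291) (nat_lit 0) (cs (rf (nat_lit 0)) (cs (rf (nat_lit 1)) (nd (nat_lit 230) (nat_lit 0) (cs (lf (nat_lit 27) (nat_lit 186)) (rf (nat_lit 2))))))) q70274 (by decide +kernel)
def q70353 : Q := Q.p (nat_lit 0x980002600000000010000040000000000000000000000000000000000000000000000) (nat_lit 0xe0000fe0001f80006300011c0007700004000010000000000000000000000000000000000000000000000) (nat_lit 10)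
theorem c70353 : QOK q70353 := cut [q40967, q70253, q64934, q70336, q57236, q70338, q18202, q65697, q70352] ⟨c40967, c70253, c64934, c70336, c57236, c70338, c18202, c65697, c70352, trivial⟩ (nd (nat_lit 248) (nat_lit 0) (cs (rf (nat_lit 0)) (cs (nd (nat_lit 294) (nat_lit 0) (cs (rf (nat_lit 1)) (cs (nd (nat_lit 316) (nat_lit 0) (cs (lf (nat_lit 42) (nat_lit 249)) (nd (nat_lit 317) (nat_lit 0) (cs (lf (nat_lit 29) (nat_lit 250)) (nd (nat_lit 315) (nat_lit 0) (cs (lf (nat_lit 41) (nat_lit 249)) (nd (nat_lit 230) (nat_lit 0) (cs (lf (nat_lit 27) (nat_lit 186)) (nd (nat_lit 273) (nat_lit 0) (cs (lf (nat_lit 18) (nat_lit 248)) (rf (nat_lit 2)))))))))))) (cs (rf (nat_lit 3)) (cs (nd (nat_lit 293) (nat_lit 0) (cs (rf (nat_lit 4)) (rf (nat_lit 5)))) (cs (nd (nat_lit 273) (nat_lit 0) (cs (lf (nat_lit 18) (nat_lit 248)) (nd (nat_lit 230) (nat_lit 0) (cs (lf (nat_lit 27) (nat_lit 186)) (nd (nat_lit 316) (nat_lit 0) (cs (lf (nat_lit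 42) (nat_lit 249)) (nd (nat_lit 317) (nat_lit 0) (cs (lf (nat_lit 29) (nat_lit 250)) (nd (nat_lit 315) (nat_lit 0) (cs (lf (nat_lit 41) (nat_lit 249)) (nd (nat_lit 293) (nat_lit 0) (cs (rf (nat_lit 6)) (lf (nat_lit 47) (nat_lit 226)))))))))))))) (nd (nat_lit 273) (nat_lit 0) (cs (lf (nat_lit 18) (nat_lit 248)) (nd (nat_lit 230) (nat_lit 0) (cs (lf (nat_lit 27) (nat_lit 186)) (rf (nat_lit 7)))))))))))) (rf (nat_lit 8))))) q70353 (by decide +kernel)
def q70377 : Q := Q.p (nat_lit 0x980002600000000010000040000000000000000000000000000000000000000000000) (nat_lit 0xf80003f0001fc0002700011c0007700005000010000000000000000000000000000000000000000000000) (nat_lit 11)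
theorem c70377 : QOK q70377 := cut [q40967, q70352, q65696, q47513, q61550, q65721, q46619] ⟨c40967, c70352, c65696, c47513, c61550, c65721, c46619, trivial⟩ (nd (nat_lit 248) (nat_lit 0) (cs (rf (nat_lit 0)) (cs (rf (nat_lit 1)) (nd (nat_lit 270) (nat_lit 0) (cs (nd (nat_lit 269) (nat_lit 0) (cs (lf (nat_lit 12) (nat_lit 246)) (nd (nat_lit 294) (nat_lit 0) (cs (lf (nat_lit 5) (nat_lit 269)) (nd (nat_lit 316) (nat_lit 0) (cs (lf (nat_lit 42) (nat_lit 249)) (nd (nat_lit 290) (nat_lit 0) (cs (lf (nat_lit 10) (nat_lit 268)) (nd (nat_lit 317) (nat_lit 0) (cs (lf (nat_lit 29) (nat_lit 250)) (rf (nat_lit 2)))))))))))) (cs (nd (nat_lit 292) (nat_lit 0) (cs (rf (nat_lit 3)) (cs (nd (nat_lit 314) (nat_lit 0) (cs (lf (nat_lit 30) (nat_lit 248)) (nd (nat_lit 315) (nat_lit 0) (cs (lf (nat_lit 29) (nat_lit 248)) (nd (nat_lit 293) (nat_lit 0) (cs (lf (nat_lit 47) (nat_lit 226)) (lf (nat_lit 35) (nat_lit 227)))))))) (nd (nat_lit 273) (nat_lit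 0) (cs (lf (nat_lit 11) (nat_lit 269)) (nd (nat_lit 230) (nat_lit 0) (cs (lf (nat_lit 27) (nat_lit 186)) (rf (nat_lit 4))))))))) (cs (nd (nat_lit 230) (nat_lit 0) (cs (lf (nat_lit 27) (nat_lit 186)) (rf (nat_lit 5)))) (cs (nd (nat_lit 269) (nat_lit 0) (cs (lf (nat_lit 12) (nat_lit 246)) (nd (nat_lit 230) (nat_lit 0) (cs (lf (nat_lit 27) (nat_lit 186)) (nd (nat_lit 291) (nat_lit 0) (cs (lf (nat_lit 11) (nat_lit 268)) (nd (nat_lit 294) (nat_lit 0) (cs (lf (nat_lit 5) (nat_lit 269)) (nd (nat_lit 292) (nat_lit 0) (cs (lf (nat_lit 6) (nat_lit 269)) (nd (nat_lit 313) (nat_lit 0) (cs (lf (nat_lit 30) (nat_lit 247)) (nd (nat_lit 316) (nat_lit 0) (cs (lf (nat_lit 42) (nat_lit 249)) (nd (nat_lit 293) (nat_lit 0) (cs (lf (nat_lit 11) (nat_lit 290)) (lf (nat_lit 5) (nat_lit 291)))))))))))))))))) (nd (nat_lit 269) (nat_lit 0) (cs (lf (nat_lit 12) (nat_lit 246)) (nd (nat_lit 230) (nat_lit 0) (cs (lf (nat_lit 27) (nat_lit 186)) (rf (nat_lit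 6)))))))))))))) q70377 (by decide +kernel)
def q70383 : Q := Q.p (nat_lit 0x20000980002600000000010000040000000000000000000000000000000000000000000000) (nat_lit 0x700001c000000000600001180004400000000000000000000000000000000000000000000000000000000) (nat_lit 7)
theorem c70383 : QOK q70383 := cut [q65764] ⟨c65764, trivial⟩ (nd (nat_lit 230) (nat_lit 0) (cs (lf (nat_lit 27) (nat_lit 186)) (rf (nat_lit 0)))) q70383 (by decide +kernel)
def q70452 : Q := Q.p (nat_lit 0x820002080000200010000040000000000000000000000000000000000000000000000) (nat_lit 0xc000010001040004500001c00007000014000000000000000000000000000000000000000) (nat_lit 6)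
theorem c70452 : QOK q70452 := cut [q45793, q70448, q46783] ⟨c45793, c70448, c46783, trivial⟩ (nd (nat_lit 203) (nat_lit 0) (cs (rf (nat_lit 0)) (cs (rf (nat_lit 1)) (nd (nat_lit 230) (nat_lit 0) (cs (lf (nat_lit 27) (nat_lit 186)) (nd (nat_lit 204) (nat_lit 0) (cs (lf (nat_lit 35) (nat_lit 181)) (nd (nat_lit 291) (nat_lit 0) (cs (lf (nat_lit 34) (nat_lit 203)) (rf (nat_lit 2))))))))))) q70452 (by decide +kernel)
def q70461 : Q := Q.p (nat_lit 0x9a0002680000000010000040000000000000000000000000000000000000000000000) (nat_lit 0xe0000f80000f0000040001040005000000000000000000000000000000000000000000000000000000000) (nat_lit 9)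
theorem c70461 : QOK q70461 := cut [q70254] ⟨c70254, trivial⟩ (nd (nat_lit 230) (nat_lit 0) (cs (lf (nat_lit 27) (nat_lit 186)) (nd (nat_lit 270) (nat_lit 0) (cs (lf (nat_lit 23) (nat_lit 246)) (rf (nat_lit 0)))))) q70461 (by decide +kernel)
def q70466 : Q := Q.p (nat_lit 0x280009a0002080000000010000040000000000000000000000000000000000000000000000) (nat_lit 0x1000014000000001000004700001c00005000000000000000000000000000000000000000000000) (nat_lit 7)
theorem c70466 : QOK q70466 := cut [q70465] ⟨c70465, trivial⟩ (nd (nat_lit 230) (nat_lit 0) (cs (lf (nat_lit 27) (nat_lit 186)) (rf (nat_lit 0)))) q70466 (by decide +kernel)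
def q70505 : Q := Q.p (nat_lit 0x920002680000000010000040000000000000000000000000000000000000000000000) (nat_lit 0x2000018000240001140004780001800006000000000000000000000000000000000000000000000) (nat_lit 8)
theorem c70505 : QOK q70505 := cut [q70504] ⟨c70504, trivial⟩ (nd (nat_lit 248) (nat_lit 0) (cs (lf (nat_lit 5) (nat_lit 247)) (rf (nat_lit 0)))) q70505 (by decide +kernel)
def q70539 : Q := Q.p (nat_lit 0x820002080000200010000040000000000000000000000000000000000000000000000) (nat_lit 0x140000500010400045f0003f80007f00014000000000000000000000000000000000000000) (nat_lit 10)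
theorem c70539 : QOK q70539 := cut [q45760, q45793, q70448, q49457, q70530, q70531, q48763] ⟨c45760, c45793, c70448, c49457, c70530, c70531, c48763, trivial⟩ (nd (nat_lit 203) (nat_lit 0) (cs (rf (nat_lit 0)) (cs (rf (nat_lit 1)) (cs (rf (nat_lit 2)) (nd (nat_lit 202) (nat_lit 0) (cs (lf (nat_lit 47) (nat_lit 180)) (nd (nat_lit 201) (nat_lit 0) (cs (rf (nat_lit 3)) (cs (rf (nat_lit 4)) (cs (nd (nat_lit 204) (nat_lit 0) (cs (lf (nat_lit 35) (nat_lit 181)) (nd (nat_lit 268) (nat_lit 0) (cs (lf (nat_lit 41) (nat_lit 202)) (nd (nat_lit 179) (nat_lit 0) (cs (lf (nat_lit 23) (nat_lit 178)) (nd (nat_lit 270) (nat_lit 0) (cs (lf (nat_lit 29) (nat_lit 203)) (rf (nat_lit 5)))))))))) (nd (nat_lit 270) (nat_lit 0) (cs (lf (nat_lit 29) (nat_lit 203)) (rf (nat_lit 6)))))))))))))) q70539 (by decide +kernel)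
def q70555 : Q := Q.p (nat_lit 0x820002080000200010000040000000000000000000000000000000000000000000000) (nat_lit 0x1400007e0003f80005f001040004500001400000000000000000000000000000000000000000000000000) (nat_lit 9)
theorem c70555 : QOK q70555 := cut [q69576, q70541, q69570, q70546, q70551, q70554] ⟨c69576, c70541, c69570, c70546, c70551, c70554, trivial⟩ (nd (nat_lit 291) (nat_lit 0) (cs (rf (nat_lit 0)) (cs (nd (nat_lit 290) (nat_lit 0) (cs (lf (nat_lit 41) (nat_lit 224)) (nd (nat_lit 289) (nat_lit 0) (cs (rf (nat_lit 1)) (cs (nd (nat_lit 224) (nat_lit 0) (cs (lf (nat_lit 47) (nat_lit 202)) (rf (nat_lit 2)))) (nd (nat_lit 202) (nat_lit 0) (cs (lf (nat_lit 46) (nat_lit 202)) (rf (nat_lit 3))))))))) (cs (rf (nat_lit 4)) (rf (nat_lit 5)))))) q70555 (by decide +kernel)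
def q70564 : Q := Q.p (nat_lit 0x820002080000200010000040000000000000000000000000000000000000000000000) (nat_lit 0x140000700001c000010001040004100000c00001000000000000000000000000000000000000000000000) (nat_lit 6)
theorem c70564 : QOK q70564 := cut [q69576, q70551, q70563] ⟨c69576, c70551, c70563, trivial⟩ (nd (nat_lit 291) (nat_lit 0) (cs (rf (nat_lit 0)) (cs (rf (nat_lit 1)) (rf (nat_lit 2))))) q70564 (by decide +kernel)
def q70621 : Q := Q.p (nat_lit 0x8000820002080000000010000040000000000000000000000000000000000000000000000) (nat_lit 0x400003000004000010001040004700001c00005000000000000000000000000000000000000000000000) (nat_lit 7)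
theorem c70621 : QOK q70621 := cut [q46785, q70554, q70561, q70563] ⟨c46785, c70554, c70561, c70563, trivial⟩ (nd (nat_lit 225) (nat_lit 0) (cs (rf (nat_lit 0)) (cs (rf (nat_lit 1)) (cs (rf (nat_lit 2)) (rf (nat_lit 3)))))) q70621 (by decide +kernel)
def q70649 : Q := Q.p (nat_lit 0x1e0000600000000030000040000000000000000000000000000000000000000000000) (nat_lit 0xe0000380000e00000000000000010000c40000b8000000000000000000000000000000000000000000000) (nat_lit 9)
theorem c70649 : QOK q70649 := cut [q70648] ⟨c70648, trivial⟩ (nd (nat_lit 294) (nat_lit 0) (cs (lf (nat_lit 5) (nat_lit 269)) (rf (nat_lit 0)))) q70649 (by decide +kernel)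
def q70894 : Q := Q.p (nat_lit 0x920002600008000010000040000000000000000000000000000000000000000000000) (nat_lit 0x50000fc000ff0000ff0000c00011c0007700007c0001f000000000000000000000000000000000000000000000) (nat_lit 12)
theorem c70894 : QOK q70894 := cut [q70813, q47437, q48839, q70568, q49172, q70819, q70100, q70737, q70833, q70834, q70836, q70521, q48924, q70846, q70854, q51241, q70864, q70866, q70871, q70254, q70880, q70882, q70891, q70892] ⟨c70813, c47437, c48839, c70568, c49172, c70819, c70100, c70737, c70833, c70834, c70836, c70521, c48924, c70846, c70854, c51241, c70864, c70866, c70871, c70254, c70880, c70882, c70891, c70892, trivial⟩ (nd (nat_lit 271) (nat_lit 0) (cs (rf (nat_lit 0)) (cs (nd (nat_lit 247) (nat_lit 0) (cs (rf (nat_lit 1)) (cs (nd (nat_lit 291) (nat_lit 0) (cs (rf (nat_lit 2)) (cs (rf (nat_lit 3)) (cs (nd (nat_lit 230) (nat_lit 0) (cs (lf (nat_lit 27) (nat_lit 186)) (nd (nat_lit 228) (nat_lit 0) (cs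 (lf (nat_lit 8) (nat_lit 227)) (nd (nat_lit 184) (nat_lit 0) (cs (rf (nat_lit 4)) (lf (nat_lit 37) (nat_lit 183)))))))) (rf (nat_lit 5)))))) (cs (nd (nat_lit 291) (nat_lit 0) (cs (nd (nat_lit 313) (nat_lit 0) (cs (rf (nat_lit 6)) (cs (nd (nat_lit 314) (nat_lit 0) (cs (lf (nat_lit 29) (nat_lit 247)) (nd (nat_lit 230) (nat_lit 0) (cs (lf (nat_lit 27) (nat_lit 186)) (nd (nat_lit 228) (nat_lit 0) (cs (lf (nat_lit 8) (nat_lit 227)) (nd (nat_lit 184) (nat_lit 0) (cs (lf (nat_lit 37) (nat_lit 183)) (nd (nat_lit 312) (nat_lit 0) (cs (lf (nat_lit 41) (nat_lit 246)) (nd (nat_lit 290) (nat_lit 0) (cs (lf (nat_lit 8) (nat_lit 268)) (rf (nat_lit 7)))))))))))))) (nd (nat_lit 230) (nat_lit 0) (cs (lf (nat_lit 27) (nat_lit 186)) (nd (nat_lit 228) (nat_lit 0) (cs (lf (nat_lit 8) (nat_lit 227)) (nd (nat_lit 184) (nat_lit 0) (cs (lf (nat_lit 37) (nat_lit 183)) (nd (nat_lit 248) (nat_lit 0) (cs (lf (nat_lit 35) (nat_lit 225)) (nd (nat_lit 270)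 (nat_lit 0) (cs (lf (nat_lit 11) (nat_lit 268)) (lf (nat_lit 30) (nat_lit 247))))))))))))))) (cs (rf (nat_lit 8)) (cs (rf (nat_lit 9)) (rf (nat_lit 10)))))) (nd (nat_lit 248) (nat_lit 0) (cs (lf (nat_lit 0) (nat_lit 246)) (nd (nat_lit 291) (nat_lit 0) (cs (rf (nat_lit 11)) (cs (nd (nat_lit 228) (nat_lit 0) (cs (lf (nat_lit 17) (nat_lit 225)) (nd (nat_lit 225) (nat_lit 0) (cs (lf (nat_lit 23) (nat_lit 224)) (nd (nat_lit 206) (nat_lit 0) (cs (lf (nat_lit 36) (nat_lit 183)) (nd (nat_lit 204) (nat_lit 0) (cs (lf (nat_lit 34) (nat_lit 203)) (nd (nat_lit 205) (nat_lit 0) (cs (lf (nat_lit 47) (nat_lit 183)) (rf (nat_lit 12)))))))))))) (nd (nat_lit 230) (nat_lit 0) (cs (lf (nat_lit 27) (nat_lit 186)) (nd (nat_lit 228) (nat_lit 0) (cs (lf (nat_lit 8) (nat_lit 227)) (nd (nat_lit 184) (nat_lit 0) (cs (lf (nat_lit 37) (nat_lit 183)) (rf (nat_lit 13))))))))))))))))) (cs (nd (nat_lit 291) (nat_lit 0) (cs (nd (nat_lit 270) (nat_lit 0)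 (cs (lf (nat_lit 11) (nat_lit 268)) (nd (nat_lit 246) (nat_lit 0) (cs (lf (nat_lit 22) (nat_lit 246)) (rf (nat_lit 14)))))) (cs (nd (nat_lit 247) (nat_lit 0) (cs (rf (nat_lit 3)) (cs (rf (nat_lit 8)) (cs (nd (nat_lit 230) (nat_lit 0) (cs (lf (nat_lit 27) (nat_lit 186)) (nd (nat_lit 248) (nat_lit 0) (cs (lf (nat_lit 0) (nat_lit 246)) (nd (nat_lit 225) (nat_lit 0) (cs (lf (nat_lit 23) (nat_lit 224)) (nd (nat_lit 204) (nat_lit 0) (cs (lf (nat_lit 34) (nat_lit 203)) (nd (nat_lit 182) (nat_lit 0) (cs (lf (nat_lit 33) (nat_lit 181)) (rf (nat_lit 15)))))))))))) (cs (rf (nat_lit 16)) (rf (nat_lit 17))))))) (cs (nd (nat_lit 247) (nat_lit 0) (cs (rf (nat_lit 4)) (cs (rf (nat_lit 9)) (cs (rf (nat_lit 16)) (rf (nat_lit 17)))))) (cs (nd (nat_lit 247) (nat_lit 0) (cs (rf (nat_lit 1)) (cs (rf (nat_lit 5)) (rf (nat_lit 17))))) (rf (nat_lit 18))))))) (nd (nat_lit 270) (nat_lit 0) (cs (rf (nat_lit 19)) (cs (rf (nat_lit 20)) (cs (rf (nat_lit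 21)) (cs (rf (nat_lit 22)) (rf (nat_lit 23))))))))))) q70894 (by decide +kernel)
def q70971 : Q := Q.p (nat_lit 0x820002680008200010000040000000000000000000000000000000000000000000000) (nat_lit 0x100000400011000075c0007c00007000014000000000000000000000000000000000000000) (nat_lit 10)
theorem c70971 : QOK q70971 := cut [q45760, q70957, q70961, q70967] ⟨c45760, c70957, c70961, c70967, trivial⟩ (nd (nat_lit 203) (nat_lit 0) (cs (rf (nat_lit 0)) (cs (rf (nat_lit 1)) (cs (rf (nat_lit 2)) (nd (nat_lit 224) (nat_lit 0) (cs (lf (nat_lit 20) (nat_lit 224)) (nd (nat_lit 230) (nat_lit 0) (cs (lf (nat_lit 27) (nat_lit 186)) (nd (nat_lit 228) (nat_lit 0) (cs (lf (nat_lit 8) (nat_lit 227)) (rf (nat_lit 3)))))))))))) q70971 (by decide +kernel)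
def q71026 : Q := Q.p (nat_lit 0x920002680008000010000040000000000000000000000000000000000000000000000) (nat_lit 0x500005c000ff0003fc000ffc0005c0011780075e0001500004400000000000000000000000000000000000000000000) (nat_lit 11)
theorem c71026 : QOK q71026 := cut [q70981, q70007, q70026, q70027, q70040, q70032, q70777, q70015, q71019, q71021, q71022, q71024, q70128] ⟨c70981, c70007, c70026, c70027, c70040, c70032, c70777, c70015, c71019, c71021, c71022, c71024, c70128, trivial⟩ (nd (nat_lit 291) (nat_lit 0) (cs (rf (nat_lit 0)) (cs (nd (nat_lit 268) (nat_lit 0) (cs (lf (nat_lit 8) (nat_lit 246)) (nd (nat_lit 292) (nat_lit 0) (cs (rf (nat_lit 1)) (cs (nd (nat_lit 294) (nat_lit 0) (cs (lf (nat_lit 19) (nat_lit 268)) (nd (nat_lit 230) (nat_lit 0) (cs (lf (nat_lit 27) (nat_lit 186)) (nd (nat_lit 228) (nat_lit 0) (cs (lf (nat_lit 8) (nat_lit 227)) (nd (nat_lit 317) (nat_lit 0) (cs (lf (nat_lit 28) (nat_lit 228)) (nd (nat_lit 316)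 (nat_lit 0) (cs (lf (nat_lit 29) (nat_lit 250)) (nd (nat_lit 315) (nat_lit 0) (cs (lf (nat_lit 41) (nat_lit 249)) (lf (nat_lit 21) (nat_lit 291)))))))))))))) (nd (nat_lit 267) (nat_lit 0) (cs (lf (nat_lit 0) (nat_lit 266)) (nd (nat_lit 289) (nat_lit 0) (cs (nd (nat_lit 230) (nat_lit 0) (cs (lf (nat_lit 27) (nat_lit 186)) (rf (nat_lit 2)))) (cs (nd (nat_lit 245) (nat_lit 0) (cs (rf (nat_lit 3)) (cs (rf (nat_lit 4)) (nd (nat_lit 230) (nat_lit 0) (cs (lf (nat_lit 27) (nat_lit 186)) (nd (nat_lit 288) (nat_lit 0) (cs (lf (nat_lit 6) (nat_lit 266)) (rf (nat_lit 5))))))))) (cs (nd (nat_lit 311) (nat_lit 0) (cs (rf (nat_lit 6)) (nd (nat_lit 230) (nat_lit 0) (cs (lf (nat_lit 27) (nat_lit 186)) (nd (nat_lit 290) (nat_lit 0) (cs (lf (nat_lit 11) (nat_lit 288)) (rf (nat_lit 7)))))))) (nd (nat_lit 311) (nat_lit 0) (cs (rf (nat_lit 6)) (cs (nd (nat_lit 310) (nat_lit 0) (cs (lf (nat_lit 8) (nat_lit 288)) (nd (nat_lit 245) (nat_lit 0) (cs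 (lf (nat_lit 41) (nat_lit 244)) (nd (nat_lit 224) (nat_lit 0) (cs (lf (nat_lit 34) (nat_lit 223)) (nd (nat_lit 223) (nat_lit 0) (cs (lf (nat_lit 35) (nat_lit 201)) (lf (nat_lit 40) (nat_lit 222)))))))))) (nd (nat_lit 290) (nat_lit 0) (cs (lf (nat_lit 11) (nat_lit 288)) (nd (nat_lit 333) (nat_lit 0) (cs (lf (nat_lit 30) (nat_lit 267)) (nd (nat_lit 334) (nat_lit 0) (cs (lf (nat_lit 29) (nat_lit 267)) (lf (nat_lit 31) (nat_lit 246)))))))))))))))))))))) (cs (nd (nat_lit 313) (nat_lit 0) (cs (rf (nat_lit 8)) (cs (rf (nat_lit 9)) (rf (nat_lit 10))))) (cs (rf (nat_lit 11)) (nd (nat_lit 230) (nat_lit 0) (cs (lf (nat_lit 27) (nat_lit 186)) (rf (nat_lit 12))))))))) q71026 (by decide +kernel)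
def q71044 : Q := Q.p (nat_lit 0x820002680008000010000040000000000000000000000000000000000000000000000) (nat_lit 0x140000700001c000010001140007700001c00007000014000000000000000000000000000000000000000) (nat_lit 7)
theorem c71044 : QOK q71044 := cut [q70558, q70977, q71030] ⟨c70558, c70977, c71030, trivial⟩ (nd (nat_lit 225) (nat_lit 0) (cs (rf (nat_lit 0)) (cs (rf (nat_lit 1)) (rf (nat_lit 2))))) q71044 (by decide +kernel)
def q71376 : Q := Q.p (nat_lit 0x20000980002600000000010000040000000000000000000000000000000000000000000000) (nat_lit 0xf80003f0000dc0000700001c0008700020000000000000000000000000000000000000000000000000000) (nat_lit 12)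
theorem c71376 : QOK q71376 := cut [q71313, q71352, q49053] ⟨c71313, c71352, c49053, trivial⟩ (nd (nat_lit 270) (nat_lit 0) (cs (nd (nat_lit 269) (nat_lit 0) (cs (lf (nat_lit 12) (nat_lit 246)) (nd (nat_lit 246) (nat_lit 0) (cs (lf (nat_lit 22) (nat_lit 246)) (rf (nat_lit 0)))))) (cs (nd (nat_lit 315) (nat_lit 0) (cs (lf (nat_lit 30) (nat_lit 249)) (nd (nat_lit 316) (nat_lit 0) (cs (lf (nat_lit 29) (nat_lit 249)) (rf (nat_lit 1)))))) (cs (nd (nat_lit 315) (nat_lit 0) (cs (lf (nat_lit 30) (nat_lit 249)) (nd (nat_lit 316) (nat_lit 0) (cs (lf (nat_lit 29) (nat_lit 249)) (nd (nat_lit 314) (nat_lit 0) (cs (lf (nat_lit 41) (nat_lit 248)) (nd (nat_lit 248) (nat_lit 0) (cs (lf (nat_lit 47) (nat_lit 226)) (nd (nat_lit 269) (nat_lit 0) (cs (lf (nat_lit 12) (nat_lit 246)) (nd (nat_lit 246) (nat_lit 0) (cs (lf (nat_lit 1) (nat_lit 246)) (nd (nat_lit 294) (nat_lit 0) (cs (lf (nat_lit 5) (nat_lit 269)) (nd (nat_lit 317) (nat_lit 0) (cs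 (lf (nat_lit 29) (nat_lit 250)) (nd (nat_lit 313) (nat_lit 0) (cs (lf (nat_lit 12) (nat_lit 290)) (nd (nat_lit 291) (nat_lit 0) (cs (lf (nat_lit 11) (nat_lit 268)) (lf (nat_lit 30) (nat_lit 247)))))))))))))))))))))) (cs (nd (nat_lit 315) (nat_lit 0) (cs (lf (nat_lit 30) (nat_lit 249)) (nd (nat_lit 316) (nat_lit 0) (cs (lf (nat_lit 29) (nat_lit 249)) (nd (nat_lit 226) (nat_lit 0) (cs (lf (nat_lit 46) (nat_lit 226)) (nd (nat_lit 314) (nat_lit 0) (cs (lf (nat_lit 41) (nat_lit 248)) (nd (nat_lit 209) (nat_lit 0) (cs (lf (nat_lit 44) (nat_lit 186)) (nd (nat_lit 269) (nat_lit 0) (cs (lf (nat_lit 12) (nat_lit 246)) (nd (nat_lit 294) (nat_lit 0) (cs (lf (nat_lit 5) (nat_lit 269)) (nd (nat_lit 312) (nat_lit 0) (cs (lf (nat_lit 13) (nat_lit 290)) (nd (nat_lit 291) (nat_lit 0) (cs (lf (nat_lit 11) (nat_lit 268)) (rf (nat_lit 2)))))))))))))))))))) (nd (nat_lit 268) (nat_lit 0) (cs (lf (nat_lit 13) (nat_lit 246)) (nd (nat_lit 315) (nat_lit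 0) (cs (lf (nat_lit 30) (nat_lit 249)) (rf (nat_lit 1))))))))))) q71376 (by decide +kernel)
def q71553 : Q := Q.p (nat_lit 0x60000900002600000000010000040000000000000000000000000000000000000000000000) (nat_lit 0xc0000380000e0000fe000198000660000180008400020000000000000000000000000000000000000000000000000000) (nat_lit 11)
theorem c71553 : QOK q71553 := cut [q47469, q71526, q68332, q71531, q60304] ⟨c47469, c71526, c68332, c71531, c60304, trivial⟩ (nd (nat_lit 316) (nat_lit 0) (cs (rf (nat_lit 0)) (cs (rf (nat_lit 1)) (cs (nd (nat_lit 273) (nat_lit 0) (cs (lf (nat_lit 19) (nat_lit 249)) (nd (nat_lit 247) (nat_lit 0) (cs (lf (nat_lit 1) (nat_lit 247)) (nd (nat_lit 291) (nat_lit 0) (cs (lf (nat_lit 13) (nat_lit 269)) (nd (nat_lit 209) (nat_lit 0) (cs (lf (nat_lit 44) (nat_lit 186)) (rf (nat_lit 2)))))))))) (cs (nd (nat_lit 315) (nat_lit 0) (cs (lf (nat_lit 41) (nat_lit 249)) (nd (nat_lit 273) (nat_lit 0) (cs (lf (nat_lit 19)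 (nat_lit 249)) (nd (nat_lit 248) (nat_lit 0) (cs (lf (nat_lit 0) (nat_lit 247)) (nd (nat_lit 209) (nat_lit 0) (cs (lf (nat_lit 44) (nat_lit 186)) (nd (nat_lit 292) (nat_lit 0) (cs (lf (nat_lit 12) (nat_lit 269)) (nd (nat_lit 317) (nat_lit 0) (cs (lf (nat_lit 18) (nat_lit 292)) (rf (nat_lit 3)))))))))))))) (nd (nat_lit 273) (nat_lit 0) (cs (lf (nat_lit 19) (nat_lit 249)) (nd (nat_lit 247) (nat_lit 0) (cs (lf (nat_lit 1) (nat_lit 247)) (nd (nat_lit 315) (nat_lit 0) (cs (lf (nat_lit 41) (nat_lit 249)) (nd (nat_lit 209) (nat_lit 0) (cs (lf (nat_lit 44) (nat_lit 186)) (rf (nat_lit 4))))))))))))))) q71553 (by decide +kernel)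
def q71572 : Q := Q.p (nat_lit 0x10000040000900002200000000010000040000000000000000000000000000000000000000000000) (nat_lit 0xa0000380000e000000000000000080000000008000020000000000000000000000000000000000000000000000000000) (nat_lit 6)
theorem c71572 : QOK q71572 := cut [q60896] ⟨c60896, trivial⟩ (nd (nat_lit 209) (nat_lit 0) (cs (lf (nat_lit 44) (nat_lit 186)) (rf (nat_lit 0)))) q71572 (by decide +kernel)
def q71797 : Q := Q.p (nat_lit 0x60000980002600000000010000040000000000000000000000000000000000000000000000) (nat_lit 0x300000f000190000000001000004000000000000000000000000000000000000000000000000000000000) (nat_lit 6)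
theorem c71797 : QOK q71797 := cut [q47486] ⟨c47486, trivial⟩ (nd (nat_lit 230) (nat_lit 0) (cs (lf (nat_lit 27) (nat_lit 186)) (rf (nat_lit 0)))) q71797 (by decide +kernel)
def q71808 : Q := Q.p (nat_lit 0x200009a0002280000000010000040000000000000000000000000000000000000000000000) (nat_lit 0x500001c0000700001c000000001140004700001c00005000000000000000000000000000000000000000000000) (nat_lit 8)
theorem c71808 : QOK q71808 := cut [q70465, q70864, q70866] ⟨c70465, c70864, c70866, trivial⟩ (nd (nat_lit 291) (nat_lit 0) (cs (rf (nat_lit 0)) (cs (rf (nat_lit 1)) (rf (nat_lit 2))))) q71808 (by decide +kernel)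
def q71832 : Q := Q.p (nat_lit 0x200009a0002600000000010000040000000000000000000000000000000000000000000000) (nat_lit 0xc0000300000dc000050000000008000020000000000000000000000000000000000000000000000000000) (nat_lit 7)
theorem c71832 : QOK q71832 := cut [q71313] ⟨c71313, trivial⟩ (nd (nat_lit 209) (nat_lit 0) (cs (lf (nat_lit 44) (nat_lit 186)) (nd (nat_lit 270) (nat_lit 0) (cs (lf (nat_lit 12) (nat_lit 246)) (rf (nat_lit 0)))))) q71832 (by decide +kernel)
def q71921 : Q := Q.p (nat_lit 0x20000900002700000000010000040000000000000000000000000000000000000000000000) (nat_lit 0x20000080000080000f80010c0004780001c00007000004000000000000000000000000000000000000000) (nat_lit 9)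
theorem c71921 : QOK q71921 := cut [q71074, q71437, q71920] ⟨c71074, c71437, c71920, trivial⟩ (nd (nat_lit 247) (nat_lit 0) (cs (rf (nat_lit 0)) (cs (rf (nat_lit 1)) (rf (nat_lit 2))))) q71921 (by decide +kernel)
def q71945 : Q := Q.p (nat_lit 0x20000900002600000000010000040000000000000000000000000000000000000000000000) (nat_lit 0xd0000fe0001d80036f80011c000c780021c00007000004000000000000000000000000000000000000000) (nat_lit 13)
theorem c71945 : QOK q71945 := cut [q63708, q54918, q71348, q71645, q71890, q66877, q71939, q44584, q44740, q71437, q71920] ⟨c63708, c54918, c71348, c71645, c71890, c66877, c71939, c44584, c44740, c71437, c71920, trivial⟩ (nd (nat_lit 248) (nat_lit 0) (cs (rf (nat_lit 0)) (cs (nd (nat_lit 274) (nat_lit 0) (cs (lf (nat_lit 20) (nat_lit 249)) (nd (nat_lit 271) (nat_lit 0) (cs (rf (nat_lit 1)) (cs (nd (nat_lit 231) (nat_lit 0) (cs (lf (nat_lit 45) (nat_lit 186)) (nd (nat_lit 252) (nat_lit 0) (cs (lf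 (nat_lit 26) (nat_lit 186)) (nd (nat_lit 296) (nat_lit 0) (cs (lf (nat_lit 30) (nat_lit 230)) (nd (nat_lit 295) (nat_lit 0) (cs (lf (nat_lit 13) (nat_lit 271)) (nd (nat_lit 276) (nat_lit 0) (cs (lf (nat_lit 6) (nat_lit 273)) (nd (nat_lit 315) (nat_lit 0) (cs (lf (nat_lit 47) (nat_lit 226)) (nd (nat_lit 316) (nat_lit 0) (cs (lf (nat_lit 29) (nat_lit 249)) (nd (nat_lit 314) (nat_lit 0) (cs (lf (nat_lit 41) (nat_lit 248)) (lf (nat_lit 15) (nat_lit 292)))))))))))))))))) (nd (nat_lit 294) (nat_lit 0) (cs (rf (nat_lit 2)) (cs (rf (nat_lit 3)) (cs (rf (nat_lit 4)) (cs (nd (nat_lit 231) (nat_lit 0) (cs (lf (nat_lit 45) (nat_lit 186)) (nd (nat_lit 296) (nat_lit 0) (cs (lf (nat_lit 14) (nat_lit 271)) (rf (nat_lit 5)))))) (nd (nat_lit 230) (nat_lit 0) (cs (lf (nat_lit 27) (nat_lit 186)) (rf (nat_lit 6)))))))))))))) (nd (nat_lit 247) (nat_lit 0) (cs (rf (nat_lit 7)) (cs (rf (nat_lit 8)) (cs (rf (nat_lit 9)) (rf (nat_lit 10)))))))))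 q71945 (by decide +kernel)
def q72022 : Q := Q.p (nat_lit 0x20000900002600000000010000040000000000000000000000000000000000000000000000) (nat_lit 0x40000380007f0000fc0001d00006c000118006c4001e0000ea0000000000000000000000000000000000000000000000) (nat_lit 13)
theorem c72022 : QOK q72022 := cut [q71441, q71456, q71457, q66782, q60229, q60745, q54468, q60746, q23863, q72021] ⟨c71441, c71456, c71457, c66782, c60229, c60745, c54468, c60746, c23863, c72021, trivial⟩ (nd (nat_lit 315) (nat_lit 0) (cs (rf (nat_lit 0)) (cs (rf (nat_lit 1)) (cs (rf (nat_lit 2)) (cs (nd (nat_lit 209) (nat_lit 0) (cs (lf (nat_lit 44) (nat_lit 186)) (nd (nat_lit 211) (nat_lit 0) (cs (rf (nat_lit 3)) (nd (nat_lit 273) (nat_lit 0) (cs (lf (nat_lit 19) (nat_lit 249)) (nd (nat_lit 316) (nat_lit 0) (cs (nd (nat_lit 230) (nat_lit 0) (cs (lf (nat_lit 27) (nat_lit 186)) (rf (nat_lit 4)))) (cs (nd (nat_lit 317) (nat_lit 0) (cs (rf (nat_lit 5)) (cs (nd (nat_lit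 230) (nat_lit 0) (cs (lf (nat_lit 27) (nat_lit 186)) (nd (nat_lit 247) (nat_lit 0) (cs (lf (nat_lit 1) (nat_lit 247)) (nd (nat_lit 318) (nat_lit 0) (cs (lf (nat_lit 23) (nat_lit 292)) (nd (nat_lit 341) (nat_lit 0) (cs (lf (nat_lit 4) (nat_lit 315)) (nd (nat_lit 319) (nat_lit 0) (cs (lf (nat_lit 5) (nat_lit 316)) (lf (nat_lit 22) (nat_lit 293)))))))))))) (nd (nat_lit 292) (nat_lit 0) (cs (lf (nat_lit 18) (nat_lit 292)) (nd (nat_lit 230) (nat_lit 0) (cs (lf (nat_lit 27) (nat_lit 186)) (nd (nat_lit 247) (nat_lit 0) (cs (lf (nat_lit 1) (nat_lit 247)) (nd (nat_lit 339) (nat_lit 0) (cs (lf (nat_lit 44) (nat_lit 250)) (nd (nat_lit 340) (nat_lit 0) (cs (lf (nat_lit 0) (nat_lit 314)) (rf (nat_lit 6))))))))))))))) (cs (nd (nat_lit 230) (nat_lit 0) (cs (lf (nat_lit 27) (nat_lit 186)) (nd (nat_lit 248) (nat_lit 0) (cs (lf (nat_lit 0) (nat_lit 247)) (nd (nat_lit 226) (nat_lit 0) (cs (lf (nat_lit 44) (nat_lit 226)) (nd (nat_lit 292) (nat_lit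 0) (cs (lf (nat_lit 26) (nat_lit 226)) (rf (nat_lit 7)))))))))) (nd (nat_lit 338) (nat_lit 0) (cs (lf (nat_lit 25) (nat_lit 249)) (nd (nat_lit 360) (nat_lit 0) (cs (lf (nat_lit 42) (nat_lit 293)) (nd (nat_lit 294) (nat_lit 0) (cs (rf (nat_lit 8)) (lf (nat_lit 34) (nat_lit 272)))))))))))))))))) (rf (nat_lit 9))))))) q72022 (by decide +kernel)
def q72068 : Q := Q.p (nat_lit 0x20000900002600000000010000040000000000000000000000000000000000000000000000) (nat_lit 0x800007e0007fc001df0006bc0011c006c5001e0000ea0000000000000000000000000000000000000000000000) (nat_lit 13)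
theorem c72068 : QOK q72068 := cut [q71441, q71456, q71457, q72021, q66782, q45291, q45270, q71987, q59783, q71759, q72057, q60763] ⟨c71441, c71456, c71457, c72021, c66782, c45291, c45270, c71987, c59783, c71759, c72057, c60763, trivial⟩ (nd (nat_lit 315) (nat_lit 0) (cs (rf (nat_lit 0)) (cs (rf (nat_lit 1)) (cs (rf (nat_lit 2)) (cs (rf (nat_lit 3)) (nd (nat_lit 209) (nat_lit 0) (cs (lf (nat_lit 44) (nat_lit 186)) (nd (nat_lit 273) (nat_lit 0) (cs (lf (nat_lit 19) (nat_lit 249)) (nd (nat_lit 211) (nat_lit 0) (cs (rf (nat_lit 4)) (nd (nat_lit 291) (nat_lit 0) (cs (nd (nat_lit 230) (nat_lit 0) (cs (lf (nat_lit 27) (nat_lit 186)) (nd (nat_lit 292) (nat_lit 0) (cs (rf (nat_lit 5)) (lf (nat_lit 15) (nat_lit 269)))))) (cs (nd (nat_lit 314) (nat_lit 0) (cs (nd (nat_lit 230) (nat_lit 0) (cs (lf (nat_lit 27) (nat_lit 186)) (nd (nat_lit 271) (nat_lit 0) (cs (lf (nat_lit 41) (nat_lit 248)) (rf (nat_lit 6)))))) (cs (nd (nat_lit 230)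 (nat_lit 0) (cs (lf (nat_lit 27) (nat_lit 186)) (nd (nat_lit 248) (nat_lit 0) (cs (lf (nat_lit 0) (nat_lit 247)) (nd (nat_lit 271) (nat_lit 0) (cs (lf (nat_lit 47) (nat_lit 226)) (rf (nat_lit 7)))))))) (cs (nd (nat_lit 313) (nat_lit 0) (cs (rf (nat_lit 8)) (cs (nd (nat_lit 247) (nat_lit 0) (cs (lf (nat_lit 1) (nat_lit 247)) (nd (nat_lit 269) (nat_lit 0) (cs (lf (nat_lit 29) (nat_lit 247)) (nd (nat_lit 246) (nat_lit 0) (cs (lf (nat_lit 47) (nat_lit 224)) (nd (nat_lit 335) (nat_lit 0) (cs (lf (nat_lit 46) (nat_lit 246)) (nd (nat_lit 316) (nat_lit 0) (cs (lf (nat_lit 23) (nat_lit 290)) (lf (nat_lit 11) (nat_lit 312)))))))))))) (nd (nat_lit 312) (nat_lit 0) (cs (lf (nat_lit 17) (nat_lit 290)) (nd (nat_lit 289) (nat_lit 0) (cs (lf (nat_lit 22) (nat_lit 289)) (nd (nat_lit 288) (nat_lit 0) (cs (nd (nat_lit 334) (nat_lit 0) (cs (lf (nat_lit 11) (nat_lit 311)) (nd (nat_lit 247) (nat_lit 0) (cs (lf (nat_lit 1) (nat_lit 247)) (lf (nat_lit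 37) (nat_lit 246)))))) (lf (nat_lit 21) (nat_lit 288))))))))))) (nd (nat_lit 230) (nat_lit 0) (cs (lf (nat_lit 27) (nat_lit 186)) (nd (nat_lit 271) (nat_lit 0) (cs (lf (nat_lit 41) (nat_lit 248)) (rf (nat_lit 7)))))))))) (cs (nd (nat_lit 292) (nat_lit 0) (cs (lf (nat_lit 15) (nat_lit 269)) (nd (nat_lit 230) (nat_lit 0) (cs (lf (nat_lit 27) (nat_lit 186)) (nd (nat_lit 248) (nat_lit 0) (cs (lf (nat_lit 0) (nat_lit 247)) (nd (nat_lit 271) (nat_lit 0) (cs (lf (nat_lit 47) (nat_lit 226)) (nd (nat_lit 314) (nat_lit 0) (cs (lf (nat_lit 41) (nat_lit 248)) (rf (nat_lit 9)))))))))))) (cs (nd (nat_lit 247) (nat_lit 0) (cs (lf (nat_lit 1) (nat_lit 247)) (nd (nat_lit 292) (nat_lit 0) (cs (lf (nat_lit 15) (nat_lit 269)) (nd (nat_lit 290) (nat_lit 0) (cs (lf (nat_lit 16) (nat_lit 268)) (nd (nat_lit 267) (nat_lit 0) (cs (lf (nat_lit 22) (nat_lit 267)) (nd (nat_lit 289) (nat_lit 0) (cs (lf (nat_lit 23) (nat_lit 266)) (lf (nat_lit 4) (nat_lit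 289)))))))))))) (cs (nd (nat_lit 230) (nat_lit 0) (cs (lf (nat_lit 27) (nat_lit 186)) (nd (nat_lit 248) (nat_lit 0) (cs (lf (nat_lit 0) (nat_lit 247)) (nd (nat_lit 271) (nat_lit 0) (cs (lf (nat_lit 47) (nat_lit 226)) (rf (nat_lit 10)))))))) (nd (nat_lit 247) (nat_lit 0) (cs (lf (nat_lit 1) (nat_lit 247)) (nd (nat_lit 230) (nat_lit 0) (cs (lf (nat_lit 27) (nat_lit 186)) (nd (nat_lit 292) (nat_lit 0) (cs (lf (nat_lit 15) (nat_lit 269)) (rf (nat_lit 11))))))))))))))))))))))))) q72068 (by decide +kernel)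
def q72141 : Q := Q.p (nat_lit 0x20000900002600000000010000040000000000000000000000000000000000000000000000) (nat_lit 0x80000700001fc000df8006fe00118006c4001e0000ea0000000000000000000000000000000000000000000000) (nat_lit 13)
theorem c72141 : QOK q72141 := cut [q66782, q71441, q71455, q71456, q71457, q72084, q72088, q72102, q72104, q60491, q72093, q60763, q72115, q62086, q44926] ⟨c66782, c71441, c71455, c71456, c71457, c72084, c72088, c72102, c72104, c60491, c72093, c60763, c72115, c62086, c44926, trivial⟩ (nd (nat_lit 209) (nat_lit 0) (cs (lf (nat_lit 44) (nat_lit 186)) (nd (nat_lit 211) (nat_lit 0) (cs (rf (nat_lit 0)) (nd (nat_lit 315) (nat_lit 0) (cs (rf (nat_lit 1)) (cs (rf (nat_lit 2)) (cs (rf (nat_lit 3)) (cs (rf (nat_lit 4)) (nd (nat_lit 292) (nat_lit 0) (cs (rf (nat_lit 5)) (cs (rf (nat_lit 6)) (cs (rf (nat_lit 7)) (cs (rf (nat_lit 8)) (nd (nat_lit 337) (nat_lit 0) (cs (rf (nat_lit 9)) (cs (rf (nat_lit 10)) (nd (nat_lit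 291) (nat_lit 0) (cs (rf (nat_lit 11)) (cs (nd (nat_lit 230) (nat_lit 0) (cs (lf (nat_lit 27) (nat_lit 186)) (nd (nat_lit 294) (nat_lit 0) (cs (lf (nat_lit 39) (nat_lit 249)) (nd (nat_lit 269) (nat_lit 0) (cs (lf (nat_lit 23) (nat_lit 268)) (nd (nat_lit 312) (nat_lit 0) (cs (lf (nat_lit 10) (nat_lit 290)) (rf (nat_lit 12)))))))))) (cs (nd (nat_lit 312) (nat_lit 0) (cs (nd (nat_lit 230) (nat_lit 0) (cs (lf (nat_lit 27) (nat_lit 186)) (nd (nat_lit 290) (nat_lit 0) (cs (lf (nat_lit 11) (nat_lit 289)) (nd (nat_lit 289) (nat_lit 0) (cs (lf (nat_lit 4) (nat_lit 289)) (rf (nat_lit 13)))))))) (cs (nd (nat_lit 230) (nat_lit 0) (cs (lf (nat_lit 27) (nat_lit 186)) (nd (nat_lit 294) (nat_lit 0) (cs (lf (nat_lit 10) (nat_lit 290)) (nd (nat_lit 269) (nat_lit 0) (cs (lf (nat_lit 23) (nat_lit 268)) (rf (nat_lit 12)))))))) (cs (nd (nat_lit 290) (nat_lit 0) (cs (lf (nat_lit 11) (nat_lit 289)) (nd (nat_lit 294) (nat_lit 0) (cs (rf (nat_lit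 14)) (lf (nat_lit 10) (nat_lit 290)))))) (nd (nat_lit 290) (nat_lit 0) (cs (lf (nat_lit 11) (nat_lit 289)) (nd (nat_lit 289) (nat_lit 0) (cs (lf (nat_lit 4) (nat_lit 289)) (nd (nat_lit 266) (nat_lit 0) (cs (lf (nat_lit 22) (nat_lit 266)) (nd (nat_lit 313) (nat_lit 0) (cs (lf (nat_lit 6) (nat_lit 290)) (nd (nat_lit 288) (nat_lit 0) (cs (lf (nat_lit 23) (nat_lit 265)) (lf (nat_lit 0) (nat_lit 287)))))))))))))))) (nd (nat_lit 316) (nat_lit 0) (cs (lf (nat_lit 0) (nat_lit 290)) (lf (nat_lit 38) (nat_lit 249))))))))))))))))))))))))) q72141 (by decide +kernel)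
def q72195 : Q := Q.p (nat_lit 0x20000880002600000000010000040000000000000000000000000000000000000000000000) (nat_lit 0x500001c0000700000c000010000700001180004c00001000000000000000000000000000000000000000000000000000) (nat_lit 6)
theorem c72195 : QOK q72195 := cut [q56985, q66776, q66777] ⟨c56985, c66776, c66777, trivial⟩ (nd (nat_lit 315) (nat_lit 0) (cs (rf (nat_lit 0)) (cs (rf (nat_lit 1)) (rf (nat_lit 2))))) q72195 (by decide +kernel)
def q72206 : Q := Q.p (nat_lit 0x20000880002600000000010000040000000000000000000000000000000000000000000000) (nat_lit 0x500001c00007000018000040000700001180004c00001000000000000000000000000000000000000000000000000000) (nat_lit 6)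
theorem c72206 : QOK q72206 := cut [q56985, q66776, q72177] ⟨c56985, c66776, c72177, trivial⟩ (nd (nat_lit 315) (nat_lit 0) (cs (rf (nat_lit 0)) (cs (rf (nat_lit 1)) (rf (nat_lit 2))))) q72206 (by decide +kernel)
def q72397 : Q := Q.p (nat_lit 0x880002700000000010000040000000000000000000000000000000000000000000000) (nat_lit 0x380000f80003e00007e0010e0004f80003e0000f80000a000000000000000000000000000000000000000) (nat_lit 11)
theorem c72397 : QOK q72397 := cut [q72358, q72360, q72361, q72367, q72369, q72379, q61587, q11170, q57381, q72384, q46881, q44570, q72393, q72396] ⟨c72358, c72360, c72361, c72367, c72369, c72379, c61587, c11170, c57381, c72384, c46881, c44570, c72393, c72396, trivial⟩ (nd (nat_lit 224) (nat_lit 0) (cs (nd (nat_lit 225) (nat_lit 0) (cs (lf (nat_lit 21) (nat_lit 224)) (rf (nat_lit 0)))) (cs (nd (nat_lit 268) (nat_lit 0) (cs (rf (nat_lit 1)) (cs (nd (nat_lit 246) (nat_lit 0) (cs (rf (nat_lit 2)) (cs (rf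 (nat_lit 3)) (cs (rf (nat_lit 4)) (rf (nat_lit 5)))))) (nd (nat_lit 270) (nat_lit 0) (cs (lf (nat_lit 13) (nat_lit 246)) (nd (nat_lit 292) (nat_lit 0) (cs (rf (nat_lit 6)) (cs (nd (nat_lit 226) (nat_lit 0) (cs (rf (nat_lit 7)) (cs (nd (nat_lit 230) (nat_lit 0) (cs (lf (nat_lit 27) (nat_lit 186)) (nd (nat_lit 293) (nat_lit 0) (cs (lf (nat_lit 42) (nat_lit 226)) (nd (nat_lit 205) (nat_lit 0) (cs (lf (nat_lit 34) (nat_lit 204)) (rf (nat_lit 8)))))))) (nd (nat_lit 291) (nat_lit 0) (cs (lf (nat_lit 41) (nat_lit 225)) (rf (nat_lit 9))))))) (nd (nat_lit 314) (nat_lit 0) (cs (lf (nat_lit 30) (nat_lit 248)) (rf (nat_lit 10)))))))))))) (cs (nd (nat_lit 230) (nat_lit 0) (cs (lf (nat_lit 27) (nat_lit 186)) (nd (nat_lit 247) (nat_lit 0) (cs (lf (nat_lit 22) (nat_lit 224)) (rf (nat_lit 11)))))) (cs (rf (nat_lit 12)) (rf (nat_lit 13))))))) q72397 (by decide +kernel)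
def q72428 : Q := Q.p (nat_lit 0x880002780000000010000040000000000000000000000000000000000000000000000) (nat_lit 0x780010600041c0000000000000000000000000000000000000000000000000000000) (nat_lit 6)
theorem c72428 : QOK q72428 := cut [q59057] ⟨c59057, trivial⟩ (nd (nat_lit 230) (nat_lit 0) (cs (lf (nat_lit 27) (nat_lit 186)) (rf (nat_lit 0)))) q72428 (by decide +kernel)
def q72546 : Q := Q.p (nat_lit 0x980002600000000010000040000000000000000000000000000000000000000000000) (nat_lit 0xe0000780001fc000670001180004c00002000000000000000000000000000000000000000000000000000) (nat_lit 11)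
theorem c72546 : QOK q72546 := cut [q57056, q72212, q45270, q67810] ⟨c57056, c72212, c45270, c67810, trivial⟩ (nd (nat_lit 273) (nat_lit 0) (cs (lf (nat_lit 19) (nat_lit 249)) (nd (nat_lit 270) (nat_lit 0) (cs (rf (nat_lit 0)) (cs (rf (nat_lit 1)) (nd (nat_lit 293) (nat_lit 0) (cs (nd (nat_lit 230) (nat_lit 0) (cs (lf (nat_lit 27) (nat_lit 186)) (nd (nat_lit 315) (nat_lit 0) (cs (lf (nat_lit 30) (nat_lit 249)) (rf (nat_lit 2)))))) (cs (nd (nat_lit 315) (nat_lit 0) (cs (lf (nat_lit 30) (nat_lit 249)) (nd (nat_lit 316) (nat_lit 0) (cs (lf (nat_lit 29) (nat_lit 249)) (nd (nat_lit 227) (nat_lit 0) (cs (lf (nat_lit 28) (nat_lit 227)) (rf (nat_lit 3)))))))) (nd (nat_lit 247) (nat_lit 0) (cs (lf (nat_lit 22) (nat_lit 247)) (nd (nat_lit 295) (nat_lit 0) (cs (lf (nat_lit 5) (nat_lit 270)) (nd (nat_lit 317) (nat_lit 0) (cs (lf (nat_lit 42) (nat_lit 250)) (nd (nat_lit 292) (nat_lit 0) (cs (lf (nat_lit 11) (nat_lit 269)) (nd (nat_lit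 230) (nat_lit 0) (cs (lf (nat_lit 27) (nat_lit 186)) (nd (nat_lit 294) (nat_lit 0) (cs (lf (nat_lit 5) (nat_lit 292)) (nd (nat_lit 227) (nat_lit 0) (cs (lf (nat_lit 42) (nat_lit 227)) (lf (nat_lit 36) (nat_lit 204)))))))))))))))))))))))) q72546 (by decide +kernel)
def q72614 : Q := Q.p (nat_lit 0x8c0002600000000010000040000000000000000000000000000000000000000000000) (nat_lit 0x80000fe000ff8001fe0007000011e000ca00026000018000040000000000000000000000000000000000000000) (nat_lit 12)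
theorem c72614 : QOK q72614 := cut [q56654, q72562, q46560, q61642, q64739, q47790, q72578, q72582, q72587, q72577, q58802, q68552, q61648, q63279, q72611, q59775, q72184] ⟨c56654, c72562, c46560, c61642, c64739, c47790, c72578, c72582, c72587, c72577, c58802, c68552, c61648, c63279, c72611, c59775, c72184, trivial⟩ (nd (nat_lit 293) (nat_lit 0) (cs (nd (nat_lit 315) (nat_lit 0) (cs (rf (nat_lit 0)) (rf (nat_lit 1)))) (cs (nd (nat_lit 292) (nat_lit 0) (cs (rf (nat_lit 2)) (cs (nd (nat_lit 230) (nat_lit 0) (cs (lf (nat_lit 27) (nat_lit 186)) (nd (nat_lit 209) (nat_lit 0) (cs (lf (nat_lit 44) (nat_lit 186)) (nd (nat_lit 227) (nat_lit 0) (cs (lf (nat_lit 36) (nat_lit 204)) (rf (nat_lit 3)))))))) (nd (nat_lit 272) (nat_lit 0) (cs (nd (nat_lit 273) (nat_lit 0) (cs (lf (nat_lit 11) (nat_lit 269)) (lf (nat_lit 19) (nat_lit 249)))) (cs (nd (nat_lit 294) (nat_lit 0) (cs (rf (nat_lit 4)) (nd (nat_lit 316) (nat_lit 0) (cs (lf (nat_lit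 42) (nat_lit 249)) (nd (nat_lit 291) (nat_lit 0) (cs (lf (nat_lit 12) (nat_lit 268)) (lf (nat_lit 5) (nat_lit 291)))))))) (nd (nat_lit 314) (nat_lit 0) (cs (lf (nat_lit 30) (nat_lit 248)) (nd (nat_lit 273) (nat_lit 0) (cs (lf (nat_lit 6) (nat_lit 270)) (rf (nat_lit 5)))))))))))) (cs (nd (nat_lit 315) (nat_lit 0) (cs (rf (nat_lit 1)) (cs (nd (nat_lit 230) (nat_lit 0) (cs (lf (nat_lit 27) (nat_lit 186)) (rf (nat_lit 6)))) (cs (rf (nat_lit 7)) (nd (nat_lit 230) (nat_lit 0) (cs (lf (nat_lit 27) (nat_lit 186)) (rf (nat_lit 8)))))))) (cs (nd (nat_lit 316) (nat_lit 0) (cs (nd (nat_lit 230) (nat_lit 0) (cs (lf (nat_lit 27) (nat_lit 186)) (nd (nat_lit 315) (nat_lit 0) (cs (lf (nat_lit 29) (nat_lit 249)) (rf (nat_lit 0)))))) (cs (nd (nat_lit 315) (nat_lit 0) (cs (lf (nat_lit 29) (nat_lit 249)) (rf (nat_lit 9)))) (nd (nat_lit 227) (nat_lit 0) (cs (lf (nat_lit 28) (nat_lit 227)) (nd (nat_lit 205) (nat_lit 0) (cs (lf (nat_lit 41) (nat_lit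 204)) (rf (nat_lit 10))))))))) (cs (nd (nat_lit 315) (nat_lit 0) (cs (rf (nat_lit 0)) (rf (nat_lit 11)))) (cs (nd (nat_lit 314) (nat_lit 0) (cs (nd (nat_lit 292) (nat_lit 0) (cs (lf (nat_lit 30) (nat_lit 248)) (lf (nat_lit 36) (nat_lit 226)))) (cs (nd (nat_lit 230) (nat_lit 0) (cs (lf (nat_lit 27) (nat_lit 186)) (nd (nat_lit 315) (nat_lit 0) (cs (lf (nat_lit 41) (nat_lit 248)) (rf (nat_lit 0)))))) (nd (nat_lit 292) (nat_lit 0) (cs (lf (nat_lit 36) (nat_lit 226)) (nd (nat_lit 313) (nat_lit 0) (cs (nd (nat_lit 248) (nat_lit 0) (cs (lf (nat_lit 41) (nat_lit 247)) (nd (nat_lit 315) (nat_lit 0) (cs (lf (nat_lit 42) (nat_lit 248)) (rf (nat_lit 12)))))) (nd (nat_lit 209) (nat_lit 0) (cs (lf (nat_lit 44) (nat_lit 186)) (nd (nat_lit 230) (nat_lit 0) (cs (lf (nat_lit 27) (nat_lit 186)) (nd (nat_lit 312) (nat_lit 0) (cs (lf (nat_lit 12) (nat_lit 289)) (rf (nat_lit 13))))))))))))))) (cs (nd (nat_lit 315) (nat_lit 0) (cs (rf (nat_lit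 0)) (rf (nat_lit 14)))) (nd (nat_lit 315) (nat_lit 0) (cs (rf (nat_lit 15)) (cs (rf (nat_lit 16)) (cs (rf (nat_lit 6)) (cs (rf (nat_lit 7)) (rf (nat_lit 8))))))))))))))) q72614 (by decide +kernel)
def q72676 : Q := Q.p (nat_lit 0x8c0002600000000010000040000000000000000000000000000000000000000000000) (nat_lit 0x400001e00007e0003f8001fe00003800114000c900026000038000040000000000000000000000000000000000000000) (nat_lit 11)
theorem c72676 : QOK q72676 := cut [q72562, q72616, q56647, q61966, q62076, q68552, q72582, q72633, q72635, q62045, q72643, q72611, q72662, q59279] ⟨c72562, c72616, c56647, c61966, c62076, c68552, c72582, c72633, c72635, c62045, c72643, c72611, c72662, c59279, trivial⟩ (nd (nat_lit 293) (nat_lit 0) (cs (nd (nat_lit 315) (nat_lit 0) (cs (rf (nat_lit 0)) (cs (rf (nat_lit 1)) (nd (nat_lit 268) (nat_lit 0) (cs (lf (nat_lit 13) (nat_lit 246)) (rf (nat_lit 2))))))) (cs (nd (nat_lit 294) (nat_lit 0) (cs (rf (nat_lit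 3)) (cs (nd (nat_lit 209) (nat_lit 0) (cs (lf (nat_lit 44) (nat_lit 186)) (nd (nat_lit 230) (nat_lit 0) (cs (lf (nat_lit 27) (nat_lit 186)) (nd (nat_lit 227) (nat_lit 0) (cs (lf (nat_lit 29) (nat_lit 227)) (nd (nat_lit 205) (nat_lit 0) (cs (lf (nat_lit 41) (nat_lit 204)) (nd (nat_lit 184) (nat_lit 0) (cs (lf (nat_lit 34) (nat_lit 183)) (nd (nat_lit 183) (nat_lit 0) (cs (lf (nat_lit 2) (nat_lit 183)) (lf (nat_lit 40) (nat_lit 182)))))))))))))) (nd (nat_lit 295) (nat_lit 0) (cs (lf (nat_lit 18) (nat_lit 270)) (nd (nat_lit 268) (nat_lit 0) (cs (lf (nat_lit 13) (nat_lit 246)) (nd (nat_lit 209) (nat_lit 0) (cs (lf (nat_lit 44) (nat_lit 186)) (nd (nat_lit 230) (nat_lit 0) (cs (lf (nat_lit 27) (nat_lit 186)) (rf (nat_lit 4))))))))))))) (cs (nd (nat_lit 315) (nat_lit 0) (cs (rf (nat_lit 5)) (cs (rf (nat_lit 6)) (rf (nat_lit 1))))) (cs (nd (nat_lit 292) (nat_lit 0) (cs (nd (nat_lit 291) (nat_lit 0) (cs (rf (nat_lit 7)) (cs (rf (nat_lit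 8)) (cs (nd (nat_lit 290) (nat_lit 0) (cs (lf (nat_lit 12) (nat_lit 267)) (nd (nat_lit 205) (nat_lit 0) (cs (lf (nat_lit 37) (nat_lit 204)) (nd (nat_lit 268) (nat_lit 0) (cs (lf (nat_lit 23) (nat_lit 267)) (nd (nat_lit 230) (nat_lit 0) (cs (lf (nat_lit 27) (nat_lit 186)) (rf (nat_lit 9)))))))))) (nd (nat_lit 205) (nat_lit 0) (cs (lf (nat_lit 37) (nat_lit 204)) (rf (nat_lit 10)))))))) (cs (nd (nat_lit 314) (nat_lit 0) (cs (lf (nat_lit 30) (nat_lit 248)) (lf (nat_lit 36) (nat_lit 226)))) (nd (nat_lit 291) (nat_lit 0) (cs (rf (nat_lit 7)) (cs (rf (nat_lit 8)) (cs (rf (nat_lit 10)) (nd (nat_lit 230) (nat_lit 0) (cs (lf (nat_lit 27) (nat_lit 186)) (nd (nat_lit 290) (nat_lit 0) (cs (lf (nat_lit 12) (nat_lit 267)) (nd (nat_lit 314) (nat_lit 0) (cs (lf (nat_lit 30) (nat_lit 248)) (nd (nat_lit 267) (nat_lit 0) (cs (lf (nat_lit 22) (nat_lit 267)) (nd (nat_lit 312) (nat_lit 0) (cs (lf (nat_lit 11) (nat_lit 289)) (nd (nat_lit 313) (nat_lit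 0) (cs (lf (nat_lit 6) (nat_lit 290)) (nd (nat_lit 335) (nat_lit 0) (cs (lf (nat_lit 30) (nat_lit 269)) (lf (nat_lit 36) (nat_lit 247))))))))))))))))))))))) (cs (nd (nat_lit 269) (nat_lit 0) (cs (lf (nat_lit 12) (nat_lit 246)) (nd (nat_lit 315) (nat_lit 0) (cs (rf (nat_lit 2)) (cs (rf (nat_lit 11)) (rf (nat_lit 1))))))) (cs (nd (nat_lit 315) (nat_lit 0) (cs (rf (nat_lit 0)) (cs (rf (nat_lit 12)) (cs (nd (nat_lit 230) (nat_lit 0) (cs (lf (nat_lit 27) (nat_lit 186)) (nd (nat_lit 336) (nat_lit 0) (cs (lf (nat_lit 40) (nat_lit 248)) (nd (nat_lit 268) (nat_lit 0) (cs (lf (nat_lit 13) (nat_lit 246)) (nd (nat_lit 337) (nat_lit 0) (cs (lf (nat_lit 41) (nat_lit 270)) (nd (nat_lit 359) (nat_lit 0) (cs (lf (nat_lit 46) (nat_lit 270)) (nd (nat_lit 360) (nat_lit 0) (cs (lf (nat_lit 29) (nat_lit 293)) (lf (nat_lit 28) (nat_lit 271)))))))))))))) (nd (nat_lit 336) (nat_lit 0) (cs (lf (nat_lit 40) (nat_lit 248)) (nd (nat_lit 337) (nat_lit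 0) (cs (lf (nat_lit 41) (nat_lit 270)) (nd (nat_lit 292) (nat_lit 0) (cs (lf (nat_lit 42) (nat_lit 270)) (nd (nat_lit 227) (nat_lit 0) (cs (lf (nat_lit 36) (nat_lit 204)) (nd (nat_lit 230) (nat_lit 0) (cs (lf (nat_lit 27) (nat_lit 186)) (rf (nat_lit 13)))))))))))))))) (nd (nat_lit 315) (nat_lit 0) (cs (rf (nat_lit 6)) (cs (rf (nat_lit 1)) (rf (nat_lit 12)))))))))))) q72676 (by decide +kernel)
def q72690 : Q := Q.p (nat_lit 0x8c0002600000000010000040000000000000000000000000000000000000000000000) (nat_lit 0x90000340001fc00073000100000c800022000000000000000000000000000000000000000000000000000) (nat_lit 10)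
theorem c72690 : QOK q72690 := cut [q61620, q72212, q72688] ⟨c61620, c72212, c72688, trivial⟩ (nd (nat_lit 272) (nat_lit 0) (cs (rf (nat_lit 0)) (cs (rf (nat_lit 1)) (nd (nat_lit 230) (nat_lit 0) (cs (lf (nat_lit 27) (nat_lit 186)) (rf (nat_lit 2))))))) q72690 (by decide +kernel)
def q72709 : Q := Q.p (nat_lit 0x8c0002600000000010000040000000000000000000000000000000000000000000000) (nat_lit 0x10000140000fc000730000180008800022000000000000000000000000000000000000000000000000000) (nat_lit 7)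
theorem c72709 : QOK q72709 := cut [q61620, q72210, q72328] ⟨c61620, c72210, c72328, trivial⟩ (nd (nat_lit 272) (nat_lit 0) (cs (rf (nat_lit 0)) (cs (rf (nat_lit 1)) (rf (nat_lit 2))))) q72709 (by decide +kernel)
def q72811 : Q := Q.p (nat_lit 0x880002700000000010000040000000000000000000000000000000000000000000000) (nat_lit 0x100000f0000ff0000fc00035c0010e006cf801e1800ea6000000000000000000000000000000000000000000000) (nat_lit 13)
theorem c72811 : QOK q72811 := cut [q66782, q60671, q68700, q72341, q72774, q65860, q58830, q72802, q47470] ⟨c66782, c60671, c68700, c72341, c72774, c65860, c58830, c72802, c47470, trivial⟩ (nd (nat_lit 209) (nat_lit 0) (cs (lf (nat_lit 44) (nat_lit 186)) (nd (nat_lit 211) (nat_lit 0) (cs (rf (nat_lit 0)) (nd (nat_lit 247) (nat_lit 0) (cs (rf (nat_lit 1)) (cs (rf (nat_lit 2)) (nd (nat_lit 293) (nat_lit 0) (cs (rf (nat_lit 3)) (cs (rf (nat_lit 4)) (nd (nat_lit 272) (nat_lit 0) (cs (lf (nat_lit 5)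 (nat_lit 247)) (nd (nat_lit 294) (nat_lit 0) (cs (rf (nat_lit 5)) (cs (nd (nat_lit 292) (nat_lit 0) (cs (nd (nat_lit 291) (nat_lit 0) (cs (lf (nat_lit 12) (nat_lit 268)) (nd (nat_lit 313) (nat_lit 0) (cs (lf (nat_lit 11) (nat_lit 290)) (nd (nat_lit 226) (nat_lit 0) (cs (lf (nat_lit 38) (nat_lit 225)) (rf (nat_lit 6)))))))) (cs (nd (nat_lit 230) (nat_lit 0) (cs (lf (nat_lit 27) (nat_lit 186)) (nd (nat_lit 224) (nat_lit 0) (cs (lf (nat_lit 22) (nat_lit 224)) (nd (nat_lit 291) (nat_lit 0) (cs (lf (nat_lit 12) (nat_lit 268)) (nd (nat_lit 313) (nat_lit 0) (cs (lf (nat_lit 11) (nat_lit 290)) (nd (nat_lit 314) (nat_lit 0) (cs (lf (nat_lit 36) (nat_lit 226)) (lf (nat_lit 6) (nat_lit 291)))))))))))) (rf (nat_lit 7))))) (nd (nat_lit 230) (nat_lit 0) (cs (lf (nat_lit 27) (nat_lit 186)) (nd (nat_lit 224) (nat_lit 0) (cs (lf (nat_lit 22) (nat_lit 224)) (rf (nat_lit 8))))))))))))))))))))) q72811 (by decide +kernel)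
def q72985 : Q := Q.p (nat_lit 0x880002700000000010000040000000000000000000000000000000000000000000000) (nat_lit 0x100000e0000fc0003600010e00eef801e3800ebe000000000000000000000000000000000000000000000) (nat_lit 13)
theorem c72985 : QOK q72985 := cut [q66782, q67617, q63832, q72786, q60671, q68613, q72802, q40946, q68656, q63808, q68681, q40967, q65587, q68670] ⟨c66782, c67617, c63832, c72786, c60671, c68613, c72802, c40946, c68656, c63808, c68681, c40967, c65587, c68670, trivial⟩ (nd (nat_lit 209) (nat_lit 0) (cs (lf (nat_lit 44) (nat_lit 186)) (nd (nat_lit 211) (nat_lit 0) (cs (rf (nat_lit 0)) (cs (rf (nat_lit 1)) (nd (nat_lit 226) (nat_lit 0) (cs (rf (nat_lit 2)) (cs (rf (nat_lit 3)) (cs (nd (nat_lit 247) (nat_lit 0) (cs (rf (nat_lit 4)) (cs (rf (nat_lit 5)) (nd (nat_lit 292) (nat_lit 0) (cs (rf (nat_lit 6)) (cs (nd (nat_lit 272) (nat_lit 0) (cs (lf (nat_lit 5) (nat_lit 247)) (nd (nat_lit 293) (nat_lit 0) (cs (lf (nat_lit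 42) (nat_lit 226)) (nd (nat_lit 227) (nat_lit 0) (cs (lf (nat_lit 41) (nat_lit 226)) (rf (nat_lit 7)))))))) (nd (nat_lit 293) (nat_lit 0) (cs (lf (nat_lit 42) (nat_lit 226)) (nd (nat_lit 230) (nat_lit 0) (cs (lf (nat_lit 27) (nat_lit 186)) (nd (nat_lit 224) (nat_lit 0) (cs (lf (nat_lit 22) (nat_lit 224)) (nd (nat_lit 272) (nat_lit 0) (cs (lf (nat_lit 5) (nat_lit 247)) (rf (nat_lit 8)))))))))))))))) (nd (nat_lit 204) (nat_lit 0) (cs (lf (nat_lit 24) (nat_lit 182)) (nd (nat_lit 270) (nat_lit 0) (cs (nd (nat_lit 205) (nat_lit 0) (cs (lf (nat_lit 35) (nat_lit 182)) (nd (nat_lit 227) (nat_lit 0) (cs (lf (nat_lit 30) (nat_lit 204)) (rf (nat_lit 9)))))) (cs (nd (nat_lit 230) (nat_lit 0) (cs (lf (nat_lit 27) (nat_lit 186)) (nd (nat_lit 181) (nat_lit 0) (cs (lf (nat_lit 46) (nat_lit 181)) (rf (nat_lit 10)))))) (cs (nd (nat_lit 272) (nat_lit 0) (cs (rf (nat_lit 11)) (nd (nat_lit 269) (nat_lit 0) (cs (lf (nat_lit 41) (nat_lit 203))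 (nd (nat_lit 294) (nat_lit 0) (cs (lf (nat_lit 5) (nat_lit 269)) (rf (nat_lit 12)))))))) (nd (nat_lit 183) (nat_lit 0) (cs (lf (nat_lit 34) (nat_lit 182)) (nd (nat_lit 184) (nat_lit 0) (cs (lf (nat_lit 2) (nat_lit 183)) (nd (nat_lit 230) (nat_lit 0) (cs (lf (nat_lit 27) (nat_lit 186)) (nd (nat_lit 203) (nat_lit 0) (cs (lf (nat_lit 47) (nat_lit 181)) (nd (nat_lit 269) (nat_lit 0) (cs (lf (nat_lit 41) (nat_lit 203)) (rf (nat_lit 13))))))))))))))))))))))))))) q72985 (by decide +kernel)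
def q73240 : Q := Q.p (nat_lit 0x9a0002600000000010000040000000000000000000000000000000000000000000000) (nat_lit 0x50000fc0003f0000fc0000400011c006c7001e1c00ea5000000000000000000000000000000000000000000000) (nat_lit 12)
theorem c73240 : QOK q73240 := cut [q66782, q47437, q73212, q48839, q68593, q49172, q49160, q73215, q70871, q46580, q72404, q46785, q59189, q47289, q70836] ⟨c66782, c47437, c73212, c48839, c68593, c49172, c49160, c73215, c70871, c46580, c72404, c46785, c59189, c47289, c70836, trivial⟩ (nd (nat_lit 209) (nat_lit 0) (cs (lf (nat_lit 44) (nat_lit 186)) (nd (nat_lit 211) (nat_lit 0) (cs (rf (nat_lit 0)) (nd (nat_lit 247) (nat_lit 0) (cs (rf (nat_lit 1)) (cs (rf (nat_lit 2)) (cs (nd (nat_lit 291) (nat_lit 0) (cs (rf (nat_lit 3)) (cs (rf (nat_lit 4)) (cs (nd (nat_lit 230) (nat_lit 0) (cs (lf (nat_lit 27) (nat_lit 186)) (rf (nat_lit 5)))) (nd (nat_lit 313) (nat_lit 0) (cs (rf (nat_lit 6)) (cs (rf (nat_lit 7)) (nd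 (nat_lit 312) (nat_lit 0) (cs (lf (nat_lit 41) (nat_lit 246)) (nd (nat_lit 336) (nat_lit 0) (cs (lf (nat_lit 28) (nat_lit 247)) (nd (nat_lit 335) (nat_lit 0) (cs (lf (nat_lit 29) (nat_lit 269)) (nd (nat_lit 337) (nat_lit 0) (cs (lf (nat_lit 18) (nat_lit 312)) (nd (nat_lit 293) (nat_lit 0) (cs (lf (nat_lit 31) (nat_lit 249)) (nd (nat_lit 292) (nat_lit 0) (cs (lf (nat_lit 12) (nat_lit 268)) (lf (nat_lit 6) (nat_lit 290))))))))))))))))))))) (nd (nat_lit 291) (nat_lit 0) (cs (rf (nat_lit 4)) (cs (rf (nat_lit 8)) (cs (nd (nat_lit 225) (nat_lit 0) (cs (rf (nat_lit 9)) (rf (nat_lit 10)))) (cs (nd (nat_lit 313) (nat_lit 0) (cs (nd (nat_lit 314) (nat_lit 0) (cs (lf (nat_lit 29) (nat_lit 247)) (nd (nat_lit 225) (nat_lit 0) (cs (rf (nat_lit 11)) (lf (nat_lit 28) (nat_lit 225)))))) (cs (nd (nat_lit 314) (nat_lit 0) (cs (lf (nat_lit 29) (nat_lit 247)) (nd (nat_lit 225) (nat_lit 0) (cs (rf (nat_lit 9)) (lf (nat_lit 28) (nat_lit 225))))))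 (cs (nd (nat_lit 248) (nat_lit 0) (cs (lf (nat_lit 35) (nat_lit 225)) (nd (nat_lit 224) (nat_lit 0) (cs (lf (nat_lit 22) (nat_lit 224)) (rf (nat_lit 12)))))) (nd (nat_lit 230) (nat_lit 0) (cs (lf (nat_lit 27) (nat_lit 186)) (nd (nat_lit 312) (nat_lit 0) (cs (lf (nat_lit 41) (nat_lit 246)) (nd (nat_lit 248) (nat_lit 0) (cs (lf (nat_lit 35) (nat_lit 225)) (nd (nat_lit 335) (nat_lit 0) (cs (rf (nat_lit 13)) (lf (nat_lit 34) (nat_lit 247)))))))))))))) (nd (nat_lit 230) (nat_lit 0) (cs (lf (nat_lit 27) (nat_lit 186)) (rf (nat_lit 14))))))))))))))))) q73240 (by decide +kernel)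
def q73370 : Q := Q.p (nat_lit 0x8a0002600000000010000040000000000000000000000000000000000000000000000) (nat_lit 0x100000700005c0001fc0007f00031c0011c000c700021c00007000014000000000000000000000000000000000000000) (nat_lit 13)
theorem c73370 : QOK q73370 := cut [q73296, q46785, q70561, q70569, q70563, q73312, q73299, q73326, q70100, q65753, q70604, q70610, q73331, q49160, q71034, q73215, q48738, q49593, q70612, q70613, q70619, q73311, q70003, q73343, q73347, q73356, q73361, q73362, q73369] ⟨c73296, c46785, c70561, c70569, c70563, c73312, c73299, c73326, c70100, c65753, c70604, c70610, c73331, c49160, c71034, c73215, c48738, c49593, c70612, c70613, c70619, c73311, c70003, c73343, c73347, c73356, c73361, c73362, c73369, trivial⟩ (nd (nat_lit 247) (nat_lit 0) (cs (rf (nat_lit 0)) (cs (nd (nat_lit 209) (nat_lit 0) (cs (lf (nat_lit 44) (nat_lit 186)) (nd (nat_lit 291) (nat_lit 0) (cs (nd (nat_lit 225) (nat_lit 0) (cs (rf (nat_lit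 1)) (cs (rf (nat_lit 2)) (cs (nd (nat_lit 290) (nat_lit 0) (cs (lf (nat_lit 41) (nat_lit 224)) (nd (nat_lit 230) (nat_lit 0) (cs (lf (nat_lit 27) (nat_lit 186)) (nd (nat_lit 204) (nat_lit 0) (cs (lf (nat_lit 34) (nat_lit 203)) (nd (nat_lit 202) (nat_lit 0) (cs (lf (nat_lit 46) (nat_lit 202)) (nd (nat_lit 292) (nat_lit 0) (cs (lf (nat_lit 29) (nat_lit 225)) (nd (nat_lit 293) (nat_lit 0) (cs (lf (nat_lit 17) (nat_lit 268)) (rf (nat_lit 3)))))))))))))) (nd (nat_lit 292) (nat_lit 0) (cs (lf (nat_lit 29) (nat_lit 225)) (rf (nat_lit 4)))))))) (cs (rf (nat_lit 5)) (cs (nd (nat_lit 313) (nat_lit 0) (cs (rf (nat_lit 6)) (cs (rf (nat_lit 7)) (cs (nd (nat_lit 230) (nat_lit 0) (cs (lf (nat_lit 27) (nat_lit 186)) (rf (nat_lit 8)))) (nd (nat_lit 230) (nat_lit 0) (cs (lf (nat_lit 27) (nat_lit 186)) (nd (nat_lit 336) (nat_lit 0) (cs (lf (nat_lit 28) (nat_lit 247)) (rf (nat_lit 9)))))))))) (cs (nd (nat_lit 225) (nat_lit 0) (cs (rf (nat_lit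 1)) (cs (rf (nat_lit 10)) (cs (rf (nat_lit 11)) (rf (nat_lit 12)))))) (cs (nd (nat_lit 313) (nat_lit 0) (cs (rf (nat_lit 13)) (cs (rf (nat_lit 14)) (cs (rf (nat_lit 15)) (rf (nat_lit 7)))))) (cs (nd (nat_lit 225) (nat_lit 0) (cs (rf (nat_lit 1)) (cs (rf (nat_lit 2)) (cs (rf (nat_lit 4)) (nd (nat_lit 230) (nat_lit 0) (cs (lf (nat_lit 27) (nat_lit 186)) (nd (nat_lit 204) (nat_lit 0) (cs (lf (nat_lit 34) (nat_lit 203)) (rf (nat_lit 16)))))))))) (cs (nd (nat_lit 313) (nat_lit 0) (cs (rf (nat_lit 17)) (cs (rf (nat_lit 18)) (cs (rf (nat_lit 19)) (cs (rf (nat_lit 20)) (rf (nat_lit 21))))))) (nd (nat_lit 313) (nat_lit 0) (cs (rf (nat_lit 17)) (cs (rf (nat_lit 15)) (rf (nat_lit 6))))))))))))))) (cs (nd (nat_lit 225) (nat_lit 0) (cs (nd (nat_lit 209) (nat_lit 0) (cs (lf (nat_lit 44) (nat_lit 186)) (rf (nat_lit 22)))) (cs (nd (nat_lit 209) (nat_lit 0) (cs (lf (nat_lit 44) (nat_lit 186)) (nd (nat_lit 291) (nat_lit 0) (cs (nd (nat_lit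 290) (nat_lit 0) (cs (lf (nat_lit 41) (nat_lit 224)) (nd (nat_lit 204) (nat_lit 0) (cs (lf (nat_lit 34) (nat_lit 203)) (nd (nat_lit 182) (nat_lit 0) (cs (lf (nat_lit 33) (nat_lit 181)) (rf (nat_lit 23)))))))) (cs (nd (nat_lit 230) (nat_lit 0) (cs (lf (nat_lit 27) (nat_lit 186)) (nd (nat_lit 226) (nat_lit 0) (cs (lf (nat_lit 35) (nat_lit 203)) (nd (nat_lit 290) (nat_lit 0) (cs (lf (nat_lit 41) (nat_lit 224)) (rf (nat_lit 24)))))))) (cs (nd (nat_lit 230) (nat_lit 0) (cs (lf (nat_lit 27) (nat_lit 186)) (nd (nat_lit 226) (nat_lit 0) (cs (lf (nat_lit 35) (nat_lit 203)) (nd (nat_lit 292) (nat_lit 0) (cs (lf (nat_lit 29) (nat_lit 225)) (rf (nat_lit 24)))))))) (cs (nd (nat_lit 230) (nat_lit 0) (cs (lf (nat_lit 27) (nat_lit 186)) (nd (nat_lit 290) (nat_lit 0) (cs (lf (nat_lit 41) (nat_lit 224)) (rf (nat_lit 23)))))) (nd (nat_lit 204) (nat_lit 0) (cs (lf (nat_lit 34) (nat_lit 203)) (nd (nat_lit 182) (nat_lit 0) (cs (lf (nat_lit 33)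 (nat_lit 181)) (rf (nat_lit 25))))))))))))) (cs (rf (nat_lit 26)) (nd (nat_lit 230) (nat_lit 0) (cs (lf (nat_lit 27) (nat_lit 186)) (nd (nat_lit 209) (nat_lit 0) (cs (lf (nat_lit 44) (nat_lit 186)) (rf (nat_lit 27)))))))))) (rf (nat_lit 28)))))) q73370 (by decide +kernel)
def q73418 : Q := Q.p (nat_lit 0x8a0002680000000010000040000000000000000000000000000000000000000000000) (nat_lit 0x1c0000750001040004000000000000000000000000000000000000000000000000000000000) (nat_lit 6)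
theorem c73418 : QOK q73418 := cut [q73417] ⟨c73417, trivial⟩ (nd (nat_lit 230) (nat_lit 0) (cs (lf (nat_lit 27) (nat_lit 186)) (rf (nat_lit 0)))) q73418 (by decide +kernel)
def q73538 : Q := Q.p (nat_lit 0x880002200000800010000040000000000000000000000000000000000000000000000) (nat_lit 0x500001c00007000000000100000c40002700003c000040000000000000000000000000000000000000000) (nat_lit 7)
theorem c73538 : QOK q73538 := cut [q73515, q73537] ⟨c73515, c73537, trivial⟩ (nd (nat_lit 293) (nat_lit 0) (cs (rf (nat_lit 0)) (rf (nat_lit 1)))) q73538 (by decide +kernel)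
def q73625 : Q := Q.p (nat_lit 0x8a0002680000000010000040000000000000000000000000000000000000000000000) (nat_lit 0x140000700005c00070000114006cf001e7c00eaf000004000000000000000000000000000000000000000) (nat_lit 11)
theorem c73625 : QOK q73625 := cut [q66782, q73361, q73362, q70845, q56821, q72350] ⟨c66782, c73361, c73362, c70845, c56821, c72350, trivial⟩ (nd (nat_lit 209) (nat_lit 0) (cs (lf (nat_lit 44) (nat_lit 186)) (nd (nat_lit 211) (nat_lit 0) (cs (rf (nat_lit 0)) (nd (nat_lit 225) (nat_lit 0) (cs (rf (nat_lit 1)) (cs (rf (nat_lit 2)) (nd (nat_lit 204) (nat_lit 0) (cs (nd (nat_lit 230) (nat_lit 0) (cs (lf (nat_lit 27) (nat_lit 186)) (nd (nat_lit 291) (nat_lit 0) (cs (lf (nat_lit 34) (nat_lit 203)) (rf (nat_lit 3)))))) (nd (nat_lit 272) (nat_lit 0) (cs (rf (nat_lit 4)) (rf (nat_lit 5))))))))))))) q73625 (by decide +kernel)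
def q73783 : Q := Q.p (nat_lit 0x24000080000200000400030000040000000000000000000000000000000000000000000000) (nat_lit 0x4000018000058000040000100000800006000038000040000000000000000000000000000000000000000) (nat_lit 8)
theorem c73783 : QOK q73783 := cut [q73782] ⟨c73782, trivial⟩ (nd (nat_lit 315) (nat_lit 0) (cs (lf (nat_lit 46) (nat_lit 226)) (rf (nat_lit 0)))) q73783 (by decide +kernel)
def q73873 : Q := Q.p (nat_lit 0x20000880002200000000010000040000000000000000000000000000000000000000000000) (nat_lit 0x1400007e0003f0001de000040001100004400000000000000000000000000000000000000000000000000000000) (nat_lit 9)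
theorem c73873 : QOK q73873 := cut [q67184, q72611, q73872] ⟨c67184, c72611, c73872, trivial⟩ (nd (nat_lit 315) (nat_lit 0) (cs (rf (nat_lit 0)) (cs (rf (nat_lit 1)) (rf (nat_lit 2))))) q73873 (by decide +kernel)
def q73880 : Q := Q.p (nat_lit 0x20000880002200000000010000040000000000000000000000000000000000000000000000) (nat_lit 0x5e0003f0001de000000001100004c00001000000000000000000000000000000000000000000000000000) (nat_lit 9)
theorem c73880 : QOK q73880 := cut [q59324, q72177, q72611] ⟨c59324, c72177, c72611, trivial⟩ (nd (nat_lit 315) (nat_lit 0) (cs (rf (nat_lit 0)) (cs (rf (nat_lit 1)) (rf (nat_lit 2))))) q73880 (by decide +kernel)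
def q73985 : Q := Q.p (nat_lit 0x4000890002600000000010000040000000000000000000000000000000000000000000000) (nat_lit 0xa0000380000e0000380003a00004e0011e0004380000e00003800002000000000000000000000000000000000000000) (nat_lit 10)
theorem c73985 : QOK q73985 := cut [q50580, q72373, q72378, q73951, q73961, q73962, q72372, q73955, q73967, q73974, q73979] ⟨c50580, c72373, c72378, c73951, c73961, c73962, c72372, c73955, c73967, c73974, c73979, trivial⟩ (nd (nat_lit 246) (nat_lit 0) (cs (nd (nat_lit 224) (nat_lit 0) (cs (rf (nat_lit 0)) (cs (rf (nat_lit 1)) (rf (nat_lit 2))))) (cs (rf (nat_lit 3)) (cs (rf (nat_lit 4)) (cs (rf (nat_lit 5)) (cs (nd (nat_lit 224) (nat_lit 0) (cs (rf (nat_lit 6)) (cs (rf (nat_lit 7)) (cs (nd (nat_lit 230) (nat_lit 0) (cs (lf (nat_lit 27) (nat_lit 186)) (nd (nat_lit 291) (nat_lit 0) (cs (lf (nat_lit 29) (nat_lit 224)) (rf (nat_lit 8)))))) (nd (nat_lit 230) (nat_lit 0) (cs (lf (nat_lit 27) (nat_lit 186))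 (nd (nat_lit 291) (nat_lit 0) (cs (lf (nat_lit 29) (nat_lit 224)) (rf (nat_lit 9)))))))))) (cs (nd (nat_lit 224) (nat_lit 0) (cs (rf (nat_lit 0)) (cs (rf (nat_lit 7)) (cs (rf (nat_lit 8)) (cs (rf (nat_lit 9)) (nd (nat_lit 230) (nat_lit 0) (cs (lf (nat_lit 27) (nat_lit 186)) (nd (nat_lit 289) (nat_lit 0) (cs (lf (nat_lit 41) (nat_lit 223)) (nd (nat_lit 201) (nat_lit 0) (cs (lf (nat_lit 46) (nat_lit 201)) (rf (nat_lit 10))))))))))))) (nd (nat_lit 224) (nat_lit 0) (cs (rf (nat_lit 0)) (cs (rf (nat_lit 6)) (cs (rf (nat_lit 8)) (rf (nat_lit 9))))))))))))) q73985 (by decide +kernel)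
def q74056 : Q := Q.p (nat_lit 0x4000890002600000000010000040000000000000000000000000000000000000000000000) (nat_lit 0xa0000380000e000038000020000480011e006c7801e0e00ea380000e000000000000000000000000000000000000000) (nat_lit 12)
theorem c74056 : QOK q74056 := cut [q66782, q73951, q74020, q73763, q73904, q74027, q73967, q73974, q74018, q74030, q70736, q74046, q73955, q73979, q74051, q50580] ⟨c66782, c73951, c74020, c73763, c73904, c74027, c73967, c73974, c74018, c74030, c70736, c74046, c73955, c73979, c74051, c50580, trivial⟩ (nd (nat_lit 209) (nat_lit 0) (cs (lf (nat_lit 44) (nat_lit 186)) (nd (nat_lit 211) (nat_lit 0) (cs (rf (nat_lit 0)) (nd (nat_lit 246) (nat_lit 0) (cs (rf (nat_lit 1)) (cs (rf (nat_lit 2)) (cs (nd (nat_lit 312) (nat_lit 0) (cs (rf (nat_lit 3)) (cs (rf (nat_lit 4)) (rf (nat_lit 5))))) (cs (nd (nat_lit 224) (nat_lit 0) (cs (rf (nat_lit 6)) (cs (rf (nat_lit 7)) (cs (rf (nat_lit 8)) (cs (nd (nat_lit 230)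 (nat_lit 0) (cs (lf (nat_lit 27) (nat_lit 186)) (nd (nat_lit 201) (nat_lit 0) (cs (lf (nat_lit 46) (nat_lit 201)) (nd (nat_lit 202) (nat_lit 0) (cs (lf (nat_lit 47) (nat_lit 179)) (rf (nat_lit 9)))))))) (nd (nat_lit 230) (nat_lit 0) (cs (lf (nat_lit 27) (nat_lit 186)) (nd (nat_lit 201) (nat_lit 0) (cs (lf (nat_lit 46) (nat_lit 201)) (nd (nat_lit 202) (nat_lit 0) (cs (lf (nat_lit 47) (nat_lit 179)) (nd (nat_lit 267) (nat_lit 0) (cs (lf (nat_lit 41) (nat_lit 201)) (nd (nat_lit 180) (nat_lit 0) (cs (lf (nat_lit 40) (nat_lit 179)) (nd (nat_lit 247) (nat_lit 0) (cs (nd (nat_lit 225) (nat_lit 0) (cs (lf (nat_lit 24) (nat_lit 158)) (lf (nat_lit 30) (nat_lit 224)))) (lf (nat_lit 7) (nat_lit 245))))))))))))))))))) (cs (nd (nat_lit 312) (nat_lit 0) (cs (rf (nat_lit 10)) (cs (rf (nat_lit 4)) (rf (nat_lit 11))))) (cs (nd (nat_lit 224) (nat_lit 0) (cs (rf (nat_lit 12)) (cs (rf (nat_lit 13)) (rf (nat_lit 14))))) (nd (nat_lit 224) (nat_lit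 0) (cs (rf (nat_lit 15)) (rf (nat_lit 13))))))))))))))) q74056 (by decide +kernel)
def q74103 : Q := Q.p (nat_lit 0x4000890002200000000010000040000000000000000000000000000000000000000000000) (nat_lit 0x200000e0000f80003e0000fe0003b80004e0010e0004380000e00002800000000000000000000000000000000000000000000) (nat_lit 10)
theorem c74103 : QOK q74103 := cut [q74067, q50866, q73737, q51076, q73712, q73732, q74064, q73717, q73724, q50957, q73961, q74027, q74046, q74090, q74101, q74102] ⟨c74067, c50866, c73737, c51076, c73712, c73732, c74064, c73717, c73724, c50957, c73961, c74027, c74046, c74090, c74101, c74102, trivial⟩ (nd (nat_lit 312) (nat_lit 0) (cs (rf (nat_lit 0)) (cs (nd (nat_lit 246) (nat_lit 0) (cs (rf (nat_lit 1)) (cs (rf (nat_lit 2)) (nd (nat_lit 311) (nat_lit 0) (cs (lf (nat_lit 41) (nat_lit 245)) (nd (nat_lit 292) (nat_lit 0) (cs (nd (nat_lit 313) (nat_lit 0) (cs (lf (nat_lit 29) (nat_lit 246)) (nd (nat_lit 291) (nat_lit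 0) (cs (lf (nat_lit 12) (nat_lit 288)) (nd (nat_lit 289) (nat_lit 0) (cs (lf (nat_lit 16) (nat_lit 267)) (nd (nat_lit 288) (nat_lit 0) (cs (lf (nat_lit 5) (nat_lit 288)) (lf (nat_lit 0) (nat_lit 287)))))))))) (cs (nd (nat_lit 223) (nat_lit 0) (cs (lf (nat_lit 46) (nat_lit 223)) (nd (nat_lit 230) (nat_lit 0) (cs (lf (nat_lit 27) (nat_lit 186)) (nd (nat_lit 313) (nat_lit 0) (cs (lf (nat_lit 29) (nat_lit 246)) (nd (nat_lit 314) (nat_lit 0) (cs (lf (nat_lit 17) (nat_lit 289)) (nd (nat_lit 336) (nat_lit 0) (cs (lf (nat_lit 33) (nat_lit 248)) (lf (nat_lit 5) (nat_lit 311)))))))))))) (nd (nat_lit 225) (nat_lit 0) (cs (lf (nat_lit 34) (nat_lit 224)) (nd (nat_lit 223) (nat_lit 0) (cs (lf (nat_lit 46) (nat_lit 223)) (nd (nat_lit 230) (nat_lit 0) (cs (lf (nat_lit 27) (nat_lit 186)) (rf (nat_lit 3)))))))))))))))) (cs (nd (nat_lit 334) (nat_lit 0) (cs (rf (nat_lit 4)) (cs (rf (nat_lit 5)) (cs (rf (nat_lit 6)) (nd (nat_lit 335) (nat_lit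 0) (cs (lf (nat_lit 29) (nat_lit 268)) (nd (nat_lit 336) (nat_lit 0) (cs (nd (nat_lit 230) (nat_lit 0) (cs (lf (nat_lit 27) (nat_lit 186)) (rf (nat_lit 7)))) (rf (nat_lit 8)))))))))) (cs (nd (nat_lit 246) (nat_lit 0) (cs (rf (nat_lit 9)) (cs (rf (nat_lit 2)) (cs (rf (nat_lit 10)) (cs (rf (nat_lit 11)) (rf (nat_lit 12))))))) (cs (rf (nat_lit 13)) (cs (rf (nat_lit 14)) (rf (nat_lit 15))))))))) q74103 (by decide +kernel)
def q74251 : Q := Q.p (nat_lit 0x810002600000100010000040000000000000000000000000000000000000000000000) (nat_lit 0x40000500003e00002c0011bc06cee01e3fc0ea7e0001780000e000020000000000000000000000000000) (nat_lit 12)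
theorem c74251 : QOK q74251 := cut [q74165, q74167, q66782, q45757, q45761, q50585, q45770, q51725, q51832, q74216, q74223, q74224, q50204, q69947, q74248] ⟨c74165, c74167, c66782, c45757, c45761, c50585, c45770, c51725, c51832, c74216, c74223, c74224, c50204, c69947, c74248, trivial⟩ (nd (nat_lit 225) (nat_lit 0) (cs (rf (nat_lit 0)) (cs (rf (nat_lit 1)) (cs (nd (nat_lit 247) (nat_lit 0) (cs (lf (nat_lit 20) (nat_lit 224)) (nd (nat_lit 209) (nat_lit 0) (cs (lf (nat_lit 44) (nat_lit 186)) (nd (nat_lit 211) (nat_lit 0) (cs (rf (nat_lit 2)) (nd (nat_lit 269) (nat_lit 0) (cs (rf (nat_lit 3)) (cs (rf (nat_lit 4)) (cs (nd (nat_lit 230) (nat_lit 0) (cs (lf (nat_lit 27) (nat_lit 186)) (nd (nat_lit 291) (nat_lit 0) (cs (lf (nat_lit 47) (nat_lit 202)) (nd (nat_lit 290) (nat_lit 0) (cs (lf (nat_lit 41) (nat_lit 224)) (rf (nat_lit 5)))))))) (nd (nat_lit 230) (nat_lit 0) (cs (lf (nat_lit 27) (nat_lit 186)) (rf (nat_lit 6))))))))))))))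 (nd (nat_lit 209) (nat_lit 0) (cs (lf (nat_lit 44) (nat_lit 186)) (nd (nat_lit 223) (nat_lit 0) (cs (nd (nat_lit 230) (nat_lit 0) (cs (lf (nat_lit 27) (nat_lit 186)) (nd (nat_lit 226) (nat_lit 0) (cs (lf (nat_lit 3) (nat_lit 224)) (rf (nat_lit 7)))))) (cs (nd (nat_lit 226) (nat_lit 0) (cs (lf (nat_lit 3) (nat_lit 224)) (nd (nat_lit 201) (nat_lit 0) (cs (lf (nat_lit 23) (nat_lit 200)) (nd (nat_lit 245) (nat_lit 0) (cs (lf (nat_lit 11) (nat_lit 222)) (nd (nat_lit 204) (nat_lit 0) (cs (lf (nat_lit 17) (nat_lit 201)) (nd (nat_lit 267) (nat_lit 0) (cs (lf (nat_lit 29) (nat_lit 201)) (nd (nat_lit 202) (nat_lit 0) (cs (lf (nat_lit 35) (nat_lit 179)) (lf (nat_lit 30) (nat_lit 201)))))))))))))) (cs (nd (nat_lit 222) (nat_lit 0) (cs (nd (nat_lit 230) (nat_lit 0) (cs (lf (nat_lit 27) (nat_lit 186)) (rf (nat_lit 8)))) (cs (rf (nat_lit 9)) (cs (nd (nat_lit 200) (nat_lit 0) (cs (lf (nat_lit 23) (nat_lit 199)) (nd (nat_lit 178) (nat_lit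 0) (cs (rf (nat_lit 10)) (cs (nd (nat_lit 244) (nat_lit 0) (cs (lf (nat_lit 11) (nat_lit 221)) (nd (nat_lit 203) (nat_lit 0) (cs (lf (nat_lit 17) (nat_lit 200)) (nd (nat_lit 179) (nat_lit 0) (cs (lf (nat_lit 35) (nat_lit 156)) (nd (nat_lit 267) (nat_lit 0) (cs (rf (nat_lit 11)) (lf (nat_lit 28) (nat_lit 178)))))))))) (cs (nd (nat_lit 244) (nat_lit 0) (cs (lf (nat_lit 11) (nat_lit 221)) (nd (nat_lit 203) (nat_lit 0) (cs (lf (nat_lit 17) (nat_lit 200)) (nd (nat_lit 155) (nat_lit 0) (cs (lf (nat_lit 46) (nat_lit 155)) (nd (nat_lit 157) (nat_lit 0) (cs (lf (nat_lit 34) (nat_lit 156)) (nd (nat_lit 156) (nat_lit 0) (cs (lf (nat_lit 35) (nat_lit 134)) (lf (nat_lit 47) (nat_lit 133)))))))))))) (nd (nat_lit 243) (nat_lit 0) (cs (lf (nat_lit 10) (nat_lit 221)) (nd (nat_lit 203) (nat_lit 0) (cs (lf (nat_lit 17) (nat_lit 200)) (nd (nat_lit 230) (nat_lit 0) (cs (lf (nat_lit 27) (nat_lit 186)) (nd (nat_lit 245) (nat_lit 0) (cs (lf (nat_lit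 24) (nat_lit 156)) (rf (nat_lit 12)))))))))))))))) (nd (nat_lit 199) (nat_lit 0) (cs (lf (nat_lit 22) (nat_lit 199)) (nd (nat_lit 203) (nat_lit 0) (cs (lf (nat_lit 17) (nat_lit 200)) (nd (nat_lit 221) (nat_lit 0) (cs (lf (nat_lit 16) (nat_lit 199)) (lf (nat_lit 23) (nat_lit 198)))))))))))) (cs (nd (nat_lit 230) (nat_lit 0) (cs (lf (nat_lit 27) (nat_lit 186)) (rf (nat_lit 13)))) (rf (nat_lit 14))))))))))))) q74251 (by decide +kernel)
def q74340 : Q := Q.p (nat_lit 0x890002600000100010000040000000000000000000000000000000000000000000000) (nat_lit 0x200000e0001f80007f80002e0011e0004ce0001e0000780000e000000000000000000000000000000000000000) (nat_lit 10)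
theorem c74340 : QOK q74340 := cut [q74276, q73965, q74030, q74290, q50001, q74301, q74278, q74306, q74312, q74314, q74275, q74324, q74335, q74283] ⟨c74276, c73965, c74030, c74290, c50001, c74301, c74278, c74306, c74312, c74314, c74275, c74324, c74335, c74283, trivial⟩ (nd (nat_lit 246) (nat_lit 0) (cs (rf (nat_lit 0)) (cs (nd (nat_lit 247) (nat_lit 0) (cs (nd (nat_lit 248) (nat_lit 0) (cs (lf (nat_lit 11) (nat_lit 245)) (lf (nat_lit 23) (nat_lit 223)))) (cs (nd (nat_lit 248) (nat_lit 0) (cs (lf (nat_lit 10) (nat_lit 246)) (lf (nat_lit 23) (nat_lit 223)))) (cs (nd (nat_lit 202) (nat_lit 0) (cs (rf (nat_lit 1)) (cs (rf (nat_lit 2)) (cs (rf (nat_lit 3)) (nd (nat_lit 201) (nat_lit 0) (cs (lf (nat_lit 47) (nat_lit 179)) (nd (nat_lit 267) (nat_lit 0) (cs (lf (nat_lit 41) (nat_lit 201)) (nd (nat_lit 266) (nat_lit 0) (cs (lf (nat_lit 12) (nat_lit 243)) (nd (nat_lit 223) (nat_lit 0) (cs (rf (nat_lit 4)) (nd (nat_lit 288) (nat_lit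 0) (cs (lf (nat_lit 38) (nat_lit 200)) (nd (nat_lit 269) (nat_lit 0) (cs (lf (nat_lit 29) (nat_lit 202)) (lf (nat_lit 11) (nat_lit 265)))))))))))))))))) (rf (nat_lit 5)))))) (cs (nd (nat_lit 202) (nat_lit 0) (cs (rf (nat_lit 1)) (cs (nd (nat_lit 230) (nat_lit 0) (cs (lf (nat_lit 27) (nat_lit 186)) (rf (nat_lit 6)))) (rf (nat_lit 7))))) (cs (rf (nat_lit 8)) (cs (nd (nat_lit 202) (nat_lit 0) (cs (rf (nat_lit 6)) (cs (rf (nat_lit 3)) (nd (nat_lit 230) (nat_lit 0) (cs (lf (nat_lit 27) (nat_lit 186)) (nd (nat_lit 181) (nat_lit 0) (cs (lf (nat_lit 34) (nat_lit 180)) (rf (nat_lit 9))))))))) (cs (nd (nat_lit 290) (nat_lit 0) (cs (rf (nat_lit 10)) (cs (rf (nat_lit 11)) (cs (nd (nat_lit 230) (nat_lit 0) (cs (lf (nat_lit 27) (nat_lit 186)) (nd (nat_lit 311) (nat_lit 0) (cs (lf (nat_lit 40) (nat_lit 223)) (nd (nat_lit 312) (nat_lit 0) (cs (lf (nat_lit 41) (nat_lit 245)) (nd (nat_lit 223) (nat_lit 0) (cs (lf (nat_lit 46) (nat_lit 223))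 (nd (nat_lit 247) (nat_lit 0) (cs (nd (nat_lit 335) (nat_lit 0) (cs (lf (nat_lit 28) (nat_lit 246)) (nd (nat_lit 334) (nat_lit 0) (cs (lf (nat_lit 34) (nat_lit 246)) (lf (nat_lit 29) (nat_lit 268)))))) (lf (nat_lit 19) (nat_lit 223)))))))))))) (nd (nat_lit 289) (nat_lit 0) (cs (lf (nat_lit 41) (nat_lit 223)) (nd (nat_lit 202) (nat_lit 0) (cs (lf (nat_lit 40) (nat_lit 201)) (rf (nat_lit 12)))))))))) (nd (nat_lit 202) (nat_lit 0) (cs (rf (nat_lit 1)) (cs (rf (nat_lit 6)) (nd (nat_lit 269) (nat_lit 0) (cs (lf (nat_lit 29) (nat_lit 202)) (nd (nat_lit 247) (nat_lit 0) (cs (lf (nat_lit 8) (nat_lit 246)) (nd (nat_lit 181) (nat_lit 0) (cs (lf (nat_lit 34) (nat_lit 180)) (rf (nat_lit 13)))))))))))))))))) q74340 (by decide +kernel)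
def q74370 : Q := Q.p (nat_lit 0x810002600000100010000040000000000000000000000000000000000000000000000) (nat_lit 0xe0000380000e0000200011f806cee01e3bc0ea280000a000000000000000000000000000000000000000) (nat_lit 12)
theorem c74370 : QOK q74370 := cut [q66782, q74164, q74167, q74347, q51725, q74247, q51144, q74359, q74367] ⟨c66782, c74164, c74167, c74347, c51725, c74247, c51144, c74359, c74367, trivial⟩ (nd (nat_lit 209) (nat_lit 0) (cs (lf (nat_lit 44) (nat_lit 186)) (nd (nat_lit 211) (nat_lit 0) (cs (rf (nat_lit 0)) (nd (nat_lit 225) (nat_lit 0) (cs (rf (nat_lit 1)) (cs (rf (nat_lit 2)) (cs (nd (nat_lit 246) (nat_lit 0) (cs (rf (nat_lit 3)) (cs (nd (nat_lit 226) (nat_lit 0) (cs (lf (nat_lit 3) (nat_lit 224)) (nd (nat_lit 223) (nat_lit 0) (cs (rf (nat_lit 4)) (cs (rf (nat_lit 5)) (nd (nat_lit 230) (nat_lit 0) (cs (lf (nat_lit 27) (nat_lit 186)) (nd (nat_lit 201) (nat_lit 0) (cs (lf (nat_lit 23) (nat_lit 200)) (nd (nat_lit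 245) (nat_lit 0) (cs (lf (nat_lit 11) (nat_lit 222)) (lf (nat_lit 24) (nat_lit 179))))))))))))) (nd (nat_lit 223) (nat_lit 0) (cs (rf (nat_lit 6)) (cs (nd (nat_lit 230) (nat_lit 0) (cs (lf (nat_lit 27) (nat_lit 186)) (nd (nat_lit 226) (nat_lit 0) (cs (lf (nat_lit 3) (nat_lit 224)) (nd (nat_lit 201) (nat_lit 0) (cs (lf (nat_lit 23) (nat_lit 200)) (lf (nat_lit 42) (nat_lit 201)))))))) (nd (nat_lit 226) (nat_lit 0) (cs (lf (nat_lit 3) (nat_lit 224)) (nd (nat_lit 204) (nat_lit 0) (cs (lf (nat_lit 17) (nat_lit 201)) (rf (nat_lit 7)))))))))))) (rf (nat_lit 8)))))))))) q74370 (by decide +kernel)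
def q74378 : Q := Q.p (nat_lit 0x810002680000100010000040000000000000000000000000000000000000000000000) (nat_lit 0x280000e00002e001160004000000e0000380000a000000000000000000000000000000000000000) (nat_lit 8)
theorem c74378 : QOK q74378 := cut [q74301, q50857, q74376, q74377] ⟨c74301, c50857, c74376, c74377, trivial⟩ (nd (nat_lit 246) (nat_lit 0) (cs (rf (nat_lit 0)) (cs (nd (nat_lit 230) (nat_lit 0) (cs (lf (nat_lit 27) (nat_lit 186)) (nd (nat_lit 269) (nat_lit 0) (cs (lf (nat_lit 8) (nat_lit 246)) (rf (nat_lit 1)))))) (cs (rf (nat_lit 2)) (rf (nat_lit 3)))))) q74378 (by decide +kernel)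
def q74480 : Q := Q.p (nat_lit 0x810002600000100010000040000000000000000000000000000000000000000000000) (nat_lit 0xa0000280011f806cee01e7f80ea7e0001f000060000000000000000000000000000000000) (nat_lit 12)
theorem c74480 : QOK q74480 := cut [q74165, q74167, q69641, q49412, q74442, q73963, q74287, q74447, q66782, q45697, q45782, q45688, q45792, q51538, q51725, q73647, q74247, q74462, q74469, q74473] ⟨c74165, c74167, c69641, c49412, c74442, c73963, c74287, c74447, c66782, c45697, c45782, c45688, c45792, c51538, c51725, c73647, c74247, c74462, c74469, c74473, trivial⟩ (nd (nat_lit 225) (nat_lit 0) (cs (rf (nat_lit 0)) (cs (rf (nat_lit 1)) (cs (nd (nat_lit 247) (nat_lit 0) (cs (lf (nat_lit 20) (nat_lit 224)) (nd (nat_lit 202) (nat_lit 0) (cs (nd (nat_lit 203) (nat_lit 0) (cs (rf (nat_lit 2)) (cs (nd (nat_lit 230) (nat_lit 0) (cs (lf (nat_lit 27) (nat_lit 186)) (nd (nat_lit 209) (nat_lit 0) (cs (lf (nat_lit 44) (nat_lit 186)) (nd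 (nat_lit 269) (nat_lit 0) (cs (lf (nat_lit 42) (nat_lit 202)) (rf (nat_lit 3)))))))) (nd (nat_lit 246) (nat_lit 0) (cs (lf (nat_lit 35) (nat_lit 180)) (rf (nat_lit 4))))))) (cs (nd (nat_lit 180) (nat_lit 0) (cs (lf (nat_lit 24) (nat_lit 158)) (nd (nat_lit 246) (nat_lit 0) (cs (rf (nat_lit 5)) (rf (nat_lit 6)))))) (nd (nat_lit 209) (nat_lit 0) (cs (lf (nat_lit 44) (nat_lit 186)) (rf (nat_lit 7))))))))) (cs (nd (nat_lit 226) (nat_lit 0) (cs (lf (nat_lit 3) (nat_lit 224)) (nd (nat_lit 247) (nat_lit 0) (cs (lf (nat_lit 20) (nat_lit 224)) (nd (nat_lit 209) (nat_lit 0) (cs (lf (nat_lit 44) (nat_lit 186)) (nd (nat_lit 211) (nat_lit 0) (cs (rf (nat_lit 8)) (nd (nat_lit 269) (nat_lit 0) (cs (rf (nat_lit 9)) (cs (nd (nat_lit 230) (nat_lit 0) (cs (lf (nat_lit 27) (nat_lit 186)) (rf (nat_lit 10)))) (nd (nat_lit 203) (nat_lit 0) (cs (rf (nat_lit 11)) (cs (rf (nat_lit 12)) (cs (rf (nat_lit 13)) (nd (nat_lit 202) (nat_lit 0) (cs (lf (nat_lit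 47) (nat_lit 180)) (nd (nat_lit 204) (nat_lit 0) (cs (lf (nat_lit 35) (nat_lit 181)) (nd (nat_lit 201) (nat_lit 0) (cs (lf (nat_lit 0) (nat_lit 200)) (nd (nat_lit 179) (nat_lit 0) (cs (lf (nat_lit 23) (nat_lit 178)) (lf (nat_lit 43) (nat_lit 179))))))))))))))))))))))))) (nd (nat_lit 209) (nat_lit 0) (cs (lf (nat_lit 44) (nat_lit 186)) (nd (nat_lit 211) (nat_lit 0) (cs (rf (nat_lit 8)) (nd (nat_lit 226) (nat_lit 0) (cs (lf (nat_lit 3) (nat_lit 224)) (nd (nat_lit 223) (nat_lit 0) (cs (rf (nat_lit 14)) (cs (rf (nat_lit 15)) (cs (rf (nat_lit 16)) (nd (nat_lit 202) (nat_lit 0) (cs (nd (nat_lit 245) (nat_lit 0) (cs (lf (nat_lit 11) (nat_lit 222)) (rf (nat_lit 17)))) (cs (nd (nat_lit 204) (nat_lit 0) (cs (lf (nat_lit 17) (nat_lit 201)) (nd (nat_lit 201) (nat_lit 0) (cs (lf (nat_lit 23) (nat_lit 200)) (nd (nat_lit 245) (nat_lit 0) (cs (lf (nat_lit 11) (nat_lit 222)) (nd (nat_lit 179) (nat_lit 0) (cs (lf (nat_lit 43) (nat_lit 179))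 (nd (nat_lit 178) (nat_lit 0) (cs (lf (nat_lit 47) (nat_lit 156)) (lf (nat_lit 19) (nat_lit 178)))))))))))) (cs (nd (nat_lit 201) (nat_lit 0) (cs (lf (nat_lit 23) (nat_lit 200)) (nd (nat_lit 246) (nat_lit 0) (cs (lf (nat_lit 47) (nat_lit 179)) (nd (nat_lit 269) (nat_lit 0) (cs (lf (nat_lit 29) (nat_lit 202)) (rf (nat_lit 18)))))))) (nd (nat_lit 201) (nat_lit 0) (cs (lf (nat_lit 23) (nat_lit 200)) (rf (nat_lit 19))))))))))))))))))))))) q74480 (by decide +kernel)
def q74547 : Q := Q.p (nat_lit 0x890002600000100010000040000000000000000000000000000000000000000000000) (nat_lit 0xe0000380001e00002e0011f800cec0027c0000700000c000000000000000000000000000000000000000) (nat_lit 12)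
theorem c74547 : QOK q74547 := cut [q74165, q74167, q74173, q74177, q74180, q74195, q74347, q74503, q74030, q74335, q49411, q49406, q74532, q72378, q74275, q49381, q49330] ⟨c74165, c74167, c74173, c74177, c74180, c74195, c74347, c74503, c74030, c74335, c49411, c49406, c74532, c72378, c74275, c49381, c49330, trivial⟩ (nd (nat_lit 225) (nat_lit 0) (cs (rf (nat_lit 0)) (cs (rf (nat_lit 1)) (cs (nd (nat_lit 290) (nat_lit 0) (cs (rf (nat_lit 2)) (cs (nd (nat_lit 230) (nat_lit 0) (cs (lf (nat_lit 27) (nat_lit 186)) (rf (nat_lit 3)))) (cs (rf (nat_lit 4)) (nd (nat_lit 230) (nat_lit 0) (cs (lf (nat_lit 27) (nat_lit 186)) (rf (nat_lit 5)))))))) (nd (nat_lit 246) (nat_lit 0) (cs (nd (nat_lit 230) (nat_lit 0) (cs (lf (nat_lit 27) (nat_lit 186)) (rf (nat_lit 6)))) (cs (rf (nat_lit 7)) (cs (nd (nat_lit 202) (nat_lit 0) (cs (rf (nat_lit 8)) (cs (rf (nat_lit 9)) (cs (nd (nat_lit 203) (nat_lit 0) (cs (lf (nat_lit 35) (nat_lit 180)) (nd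 (nat_lit 209) (nat_lit 0) (cs (lf (nat_lit 44) (nat_lit 186)) (nd (nat_lit 204) (nat_lit 0) (cs (rf (nat_lit 10)) (cs (nd (nat_lit 244) (nat_lit 0) (cs (nd (nat_lit 269) (nat_lit 0) (cs (lf (nat_lit 29) (nat_lit 202)) (nd (nat_lit 247) (nat_lit 0) (cs (lf (nat_lit 35) (nat_lit 181)) (rf (nat_lit 11)))))) (nd (nat_lit 226) (nat_lit 0) (cs (lf (nat_lit 3) (nat_lit 224)) (nd (nat_lit 223) (nat_lit 0) (cs (lf (nat_lit 12) (nat_lit 200)) (lf (nat_lit 10) (nat_lit 222)))))))) (nd (nat_lit 227) (nat_lit 0) (cs (lf (nat_lit 2) (nat_lit 224)) (nd (nat_lit 205) (nat_lit 0) (cs (lf (nat_lit 47) (nat_lit 182)) (lf (nat_lit 6) (nat_lit 202))))))))))))) (rf (nat_lit 12)))))) (nd (nat_lit 290) (nat_lit 0) (cs (rf (nat_lit 13)) (cs (rf (nat_lit 14)) (cs (nd (nat_lit 209) (nat_lit 0) (cs (lf (nat_lit 44) (nat_lit 186)) (nd (nat_lit 291) (nat_lit 0) (cs (lf (nat_lit 29) (nat_lit 224)) (nd (nat_lit 202) (nat_lit 0) (cs (lf (nat_lit 28) (nat_lit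 202)) (nd (nat_lit 247) (nat_lit 0) (cs (lf (nat_lit 30) (nat_lit 224)) (nd (nat_lit 180) (nat_lit 0) (cs (lf (nat_lit 24) (nat_lit 158)) (nd (nat_lit 230) (nat_lit 0) (cs (lf (nat_lit 27) (nat_lit 186)) (nd (nat_lit 226) (nat_lit 0) (cs (lf (nat_lit 3) (nat_lit 224)) (rf (nat_lit 15)))))))))))))))) (nd (nat_lit 209) (nat_lit 0) (cs (lf (nat_lit 44) (nat_lit 186)) (nd (nat_lit 289) (nat_lit 0) (cs (lf (nat_lit 41) (nat_lit 223)) (nd (nat_lit 202) (nat_lit 0) (cs (lf (nat_lit 40) (nat_lit 201)) (nd (nat_lit 247) (nat_lit 0) (cs (lf (nat_lit 30) (nat_lit 224)) (rf (nat_lit 16)))))))))))))))))))))) q74547 (by decide +kernel)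
def q74609 : Q := Q.p (nat_lit 0x810002600000100010000040000000000000000000000000000000000000000000000) (nat_lit 0xa00003f0003f80002e0011f800cee0020700001800006000000000000000000000000000000000000000) (nat_lit 12)
theorem c74609 : QOK q74609 := cut [q74371, q72379, q74435, q74557, q74579, q74309, q74431, q73963, q74585, q51132, q74314, q74176, q74275, q49852, q74600, q44569] ⟨c74371, c72379, c74435, c74557, c74579, c74309, c74431, c73963, c74585, c51132, c74314, c74176, c74275, c49852, c74600, c44569, trivial⟩ (nd (nat_lit 247) (nat_lit 0) (cs (rf (nat_lit 0)) (cs (nd (nat_lit 246) (nat_lit 0) (cs (rf (nat_lit 1)) (cs (rf (nat_lit 2)) (cs (rf (nat_lit 3)) (cs (nd (nat_lit 209) (nat_lit 0) (cs (lf (nat_lit 44) (nat_lit 186)) (rf (nat_lit 4)))) (cs (nd (nat_lit 202) (nat_lit 0) (cs (rf (nat_lit 5)) (cs (rf (nat_lit 6)) (nd (nat_lit 230) (nat_lit 0) (cs (lf (nat_lit 27) (nat_lit 186)) (nd (nat_lit 180) (nat_lit 0) (cs (lf (nat_lit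 29) (nat_lit 180)) (rf (nat_lit 7))))))))) (cs (rf (nat_lit 8)) (cs (nd (nat_lit 202) (nat_lit 0) (cs (rf (nat_lit 9)) (cs (rf (nat_lit 10)) (nd (nat_lit 230) (nat_lit 0) (cs (lf (nat_lit 27) (nat_lit 186)) (nd (nat_lit 209) (nat_lit 0) (cs (lf (nat_lit 44) (nat_lit 186)) (nd (nat_lit 179) (nat_lit 0) (cs (lf (nat_lit 46) (nat_lit 179)) (nd (nat_lit 180) (nat_lit 0) (cs (lf (nat_lit 47) (nat_lit 157)) (nd (nat_lit 158) (nat_lit 0) (cs (nd (nat_lit 245) (nat_lit 0) (cs (lf (nat_lit 40) (nat_lit 157)) (lf (nat_lit 41) (nat_lit 179)))) (lf (nat_lit 28) (nat_lit 158))))))))))))))) (nd (nat_lit 290) (nat_lit 0) (cs (rf (nat_lit 11)) (cs (rf (nat_lit 12)) (cs (nd (nat_lit 230) (nat_lit 0) (cs (lf (nat_lit 27) (nat_lit 186)) (nd (nat_lit 291) (nat_lit 0) (cs (lf (nat_lit 29) (nat_lit 224)) (nd (nat_lit 202) (nat_lit 0) (cs (lf (nat_lit 28) (nat_lit 202)) (nd (nat_lit 225) (nat_lit 0) (cs (lf (nat_lit 30) (nat_lit 224)) (nd (nat_lit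 226) (nat_lit 0) (cs (lf (nat_lit 3) (nat_lit 224)) (nd (nat_lit 245) (nat_lit 0) (cs (lf (nat_lit 12) (nat_lit 222)) (rf (nat_lit 13)))))))))))))) (nd (nat_lit 225) (nat_lit 0) (cs (lf (nat_lit 30) (nat_lit 224)) (nd (nat_lit 226) (nat_lit 0) (cs (lf (nat_lit 3) (nat_lit 224)) (nd (nat_lit 244) (nat_lit 0) (cs (lf (nat_lit 13) (nat_lit 222)) (rf (nat_lit 14)))))))))))))))))))) (cs (nd (nat_lit 230) (nat_lit 0) (cs (lf (nat_lit 27) (nat_lit 186)) (nd (nat_lit 248) (nat_lit 0) (cs (lf (nat_lit 10) (nat_lit 246)) (rf (nat_lit 15)))))) (nd (nat_lit 248) (nat_lit 0) (cs (lf (nat_lit 22) (nat_lit 224)) (rf (nat_lit 15)))))))) q74609 (by decide +kernel)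
def q74645 : Q := Q.p (nat_lit 0x810002600000100010000040000000000000000000000000000000000000000000000) (nat_lit 0x40000200011f806cec01e3f80ea780001e000050000000000000000000000000000000000) (nat_lit 12)
theorem c74645 : QOK q74645 := cut [q66782, q74164, q51725, q73647, q56888, q74187, q74620, q74614, q45760, q69603] ⟨c66782, c74164, c51725, c73647, c56888, c74187, c74620, c74614, c45760, c69603, trivial⟩ (nd (nat_lit 209) (nat_lit 0) (cs (lf (nat_lit 44) (nat_lit 186)) (nd (nat_lit 211) (nat_lit 0) (cs (rf (nat_lit 0)) (nd (nat_lit 225) (nat_lit 0) (cs (rf (nat_lit 1)) (cs (nd (nat_lit 226) (nat_lit 0) (cs (lf (nat_lit 3) (nat_lit 224)) (nd (nat_lit 223) (nat_lit 0) (cs (rf (nat_lit 2)) (cs (rf (nat_lit 3)) (cs (nd (nat_lit 230) (nat_lit 0) (cs (lf (nat_lit 27) (nat_lit 186)) (nd (nat_lit 204) (nat_lit 0) (cs (lf (nat_lit 17) (nat_lit 201)) (nd (nat_lit 203) (nat_lit 0) (cs (lf (nat_lit 12) (nat_lit 200)) (nd (nat_lit 200)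 (nat_lit 0) (cs (lf (nat_lit 22) (nat_lit 200)) (nd (nat_lit 246) (nat_lit 0) (cs (lf (nat_lit 30) (nat_lit 202)) (rf (nat_lit 4)))))))))))) (nd (nat_lit 244) (nat_lit 0) (cs (lf (nat_lit 10) (nat_lit 222)) (nd (nat_lit 230) (nat_lit 0) (cs (lf (nat_lit 27) (nat_lit 186)) (nd (nat_lit 204) (nat_lit 0) (cs (lf (nat_lit 17) (nat_lit 201)) (rf (nat_lit 5)))))))))))))) (cs (rf (nat_lit 6)) (nd (nat_lit 203) (nat_lit 0) (cs (rf (nat_lit 7)) (cs (nd (nat_lit 230) (nat_lit 0) (cs (lf (nat_lit 27) (nat_lit 186)) (nd (nat_lit 247) (nat_lit 0) (cs (lf (nat_lit 20) (nat_lit 224)) (nd (nat_lit 269) (nat_lit 0) (cs (lf (nat_lit 41) (nat_lit 202)) (rf (nat_lit 8)))))))) (cs (nd (nat_lit 247) (nat_lit 0) (cs (lf (nat_lit 20) (nat_lit 224)) (nd (nat_lit 290) (nat_lit 0) (cs (lf (nat_lit 39) (nat_lit 202)) (lf (nat_lit 32) (nat_lit 202)))))) (nd (nat_lit 247) (nat_lit 0) (cs (lf (nat_lit 20) (nat_lit 224)) (rf (nat_lit 9))))))))))))))))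 q74645 (by decide +kernel)
def q74675 : Q := Q.p (nat_lit 0x810002600000100010000040000000000000000000000000000000000000000000000) (nat_lit 0x80000380001e00000e0011e006cec01e3f80ea3e0000a000000000000000000000000000000000000000) (nat_lit 12)
theorem c74675 : QOK q74675 := cut [q66782, q74164, q74620, q74347, q73965, q74030, q74290, q51178, q74613, q72379, q56888, q74665] ⟨c66782, c74164, c74620, c74347, c73965, c74030, c74290, c51178, c74613, c72379, c56888, c74665, trivial⟩ (nd (nat_lit 209) (nat_lit 0) (cs (lf (nat_lit 44) (nat_lit 186)) (nd (nat_lit 211) (nat_lit 0) (cs (rf (nat_lit 0)) (nd (nat_lit 225) (nat_lit 0) (cs (rf (nat_lit 1)) (cs (rf (nat_lit 2)) (cs (nd (nat_lit 246) (nat_lit 0) (cs (rf (nat_lit 3)) (cs (nd (nat_lit 202) (nat_lit 0) (cs (rf (nat_lit 4)) (cs (rf (nat_lit 5)) (cs (rf (nat_lit 6)) (nd (nat_lit 230) (nat_lit 0) (cs (lf (nat_lit 27) (nat_lit 186)) (nd (nat_lit 267) (nat_lit 0) (cs (lf (nat_lit 41)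 (nat_lit 201)) (nd (nat_lit 247) (nat_lit 0) (cs (lf (nat_lit 7) (nat_lit 245)) (nd (nat_lit 226) (nat_lit 0) (cs (lf (nat_lit 3) (nat_lit 224)) (nd (nat_lit 203) (nat_lit 0) (cs (lf (nat_lit 35) (nat_lit 180)) (nd (nat_lit 201) (nat_lit 0) (cs (lf (nat_lit 0) (nat_lit 200)) (lf (nat_lit 47) (nat_lit 179)))))))))))))))))) (cs (nd (nat_lit 230) (nat_lit 0) (cs (lf (nat_lit 27) (nat_lit 186)) (nd (nat_lit 247) (nat_lit 0) (cs (lf (nat_lit 20) (nat_lit 224)) (nd (nat_lit 290) (nat_lit 0) (cs (lf (nat_lit 30) (nat_lit 224)) (nd (nat_lit 291) (nat_lit 0) (cs (lf (nat_lit 29) (nat_lit 224)) (nd (nat_lit 289) (nat_lit 0) (cs (lf (nat_lit 41) (nat_lit 223)) (nd (nat_lit 267) (nat_lit 0) (cs (lf (nat_lit 36) (nat_lit 201)) (rf (nat_lit 7)))))))))))))) (nd (nat_lit 226) (nat_lit 0) (cs (lf (nat_lit 3) (nat_lit 224)) (nd (nat_lit 230) (nat_lit 0) (cs (lf (nat_lit 27) (nat_lit 186)) (nd (nat_lit 203) (nat_lit 0) (cs (lf (nat_lit 30)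 (nat_lit 202)) (rf (nat_lit 8)))))))))))) (nd (nat_lit 246) (nat_lit 0) (cs (rf (nat_lit 9)) (cs (rf (nat_lit 3)) (nd (nat_lit 202) (nat_lit 0) (cs (rf (nat_lit 4)) (cs (rf (nat_lit 5)) (cs (rf (nat_lit 6)) (nd (nat_lit 203) (nat_lit 0) (cs (rf (nat_lit 10)) (nd (nat_lit 223) (nat_lit 0) (cs (nd (nat_lit 204) (nat_lit 0) (cs (lf (nat_lit 6) (nat_lit 201)) (lf (nat_lit 12) (nat_lit 200)))) (nd (nat_lit 201) (nat_lit 0) (cs (lf (nat_lit 47) (nat_lit 179)) (nd (nat_lit 267) (nat_lit 0) (cs (lf (nat_lit 41) (nat_lit 201)) (nd (nat_lit 200) (nat_lit 0) (cs (lf (nat_lit 0) (nat_lit 199)) (rf (nat_lit 11))))))))))))))))))))))))))) q74675 (by decide +kernel)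
def q74699 : Q := Q.p (nat_lit 0x20000890002600000000010000040000000000000000000000000000000000000000000000) (nat_lit 0x14000058000060000000008c0002700003c000040000000000000000000000000000000000000000) (nat_lit 7)
theorem c74699 : QOK q74699 := cut [q59011, q73537, q73764, q59315] ⟨c59011, c73537, c73764, c59315, trivial⟩ (nd (nat_lit 227) (nat_lit 0) (cs (rf (nat_lit 0)) (cs (rf (nat_lit 1)) (cs (rf (nat_lit 2)) (nd (nat_lit 209) (nat_lit 0) (cs (lf (nat_lit 44) (nat_lit 186)) (nd (nat_lit 292) (nat_lit 0) (cs (lf (nat_lit 41) (nat_lit 226)) (nd (nat_lit 204) (nat_lit 0) (cs (lf (nat_lit 46) (nat_lit 204)) (nd (nat_lit 269) (nat_lit 0) (cs (lf (nat_lit 14) (nat_lit 246)) (rf (nat_lit 3)))))))))))))) q74699 (by decide +kernel)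
def q74733 : Q := Q.p (nat_lit 0x800002000000000070000040000000000000000000000000000000000000000000000) (nat_lit 0x10000e6000180000680000000000000000000000000000000000000000000000) (nat_lit 6)
theorem c74733 : QOK q74733 := cut [q69418] ⟨c69418, trivial⟩ (nd (nat_lit 230) (nat_lit 0) (cs (lf (nat_lit 27) (nat_lit 186)) (rf (nat_lit 0)))) q74733 (by decide +kernel)
def q74854 : Q := Q.p (nat_lit 0x6000890002600000000010000040000000000000000000000000000000000000000000000) (nat_lit 0x80000a00006e0000980006f00107c06c1e01e0000ea0000000000000000000000000000000000000000000000) (nat_lit 11)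
theorem c74854 : QOK q74854 := cut [q66782, q69665, q51027] ⟨c66782, c69665, c51027, trivial⟩ (nd (nat_lit 269) (nat_lit 0) (cs (lf (nat_lit 14) (nat_lit 246)) (nd (nat_lit 288) (nat_lit 0) (cs (lf (nat_lit 12) (nat_lit 265)) (nd (nat_lit 209) (nat_lit 0) (cs (lf (nat_lit 44) (nat_lit 186)) (nd (nat_lit 211) (nat_lit 0) (cs (rf (nat_lit 0)) (nd (nat_lit 266) (nat_lit 0) (cs (nd (nat_lit 265) (nat_lit 0) (cs (lf (nat_lit 18) (nat_lit 265)) (nd (nat_lit 267) (nat_lit 0) (cs (rf (nat_lit 1)) (lf (nat_lit 0) (nat_lit 264)))))) (cs (nd (nat_lit 244) (nat_lit 0) (cs (nd (nat_lit 230) (nat_lit 0) (cs (lf (nat_lit 27) (nat_lit 186)) (nd (nat_lit 243) (nat_lit 0) (cs (nd (nat_lit 245) (nat_lit 0) (cs (nd (nat_lit 310) (nat_lit 0) (cs (lf (nat_lit 47) (nat_lit 221)) (lf (nat_lit 35) (nat_lit 222)))) (lf (nat_lit 3) (nat_lit 243)))) (lf (nat_lit 20) (nat_lit 243)))))) (cs (nd (nat_lit 230) (nat_lit 0) (cs (lf (nat_lit 27) (nat_lit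 186)) (rf (nat_lit 2)))) (nd (nat_lit 243) (nat_lit 0) (cs (lf (nat_lit 20) (nat_lit 243)) (nd (nat_lit 246) (nat_lit 0) (cs (nd (nat_lit 311) (nat_lit 0) (cs (lf (nat_lit 24) (nat_lit 222)) (lf (nat_lit 36) (nat_lit 223)))) (lf (nat_lit 2) (nat_lit 243))))))))) (nd (nat_lit 230) (nat_lit 0) (cs (lf (nat_lit 27) (nat_lit 186)) (nd (nat_lit 291) (nat_lit 0) (cs (lf (nat_lit 23) (nat_lit 265)) (nd (nat_lit 309) (nat_lit 0) (cs (lf (nat_lit 10) (nat_lit 287)) (nd (nat_lit 313) (nat_lit 0) (cs (lf (nat_lit 5) (nat_lit 288)) (nd (nat_lit 246) (nat_lit 0) (cs (lf (nat_lit 42) (nat_lit 246)) (lf (nat_lit 24) (nat_lit 224))))))))))))))))))))))) q74854 (by decide +kernel)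
def q74929 : Q := Q.p (nat_lit 0x1000004000890002600000000030000040000000000000000000000000000000000000000000000) (nat_lit 0x100000e80003b800068001000004c0000700003c000040000000000000000000000000000000000000000) (nat_lit 8)
theorem c74929 : QOK q74929 := cut [q48712, q73840, q74915] ⟨c48712, c73840, c74915, trivial⟩ (nd (nat_lit 292) (nat_lit 0) (cs (nd (nat_lit 270) (nat_lit 0) (cs (lf (nat_lit 13) (nat_lit 246)) (nd (nat_lit 230) (nat_lit 0) (cs (lf (nat_lit 27) (nat_lit 186)) (rf (nat_lit 0)))))) (cs (nd (nat_lit 293) (nat_lit 0) (cs (rf (nat_lit 1)) (nd (nat_lit 291) (nat_lit 0) (cs (lf (nat_lit 23) (nat_lit 267)) (lf (nat_lit 11) (nat_lit 289)))))) (cs (nd (nat_lit 230) (nat_lit 0) (cs (lf (nat_lit 27) (nat_lit 186)) (nd (nat_lit 270) (nat_lit 0) (cs (lf (nat_lit 13) (nat_lit 246)) (nd (nat_lit 205) (nat_lit 0) (cs (lf (nat_lit 37) (nat_lit 204)) (nd (nat_lit 291) (nat_lit 0) (cs (lf (nat_lit 12) (nat_lit 267)) (nd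 (nat_lit 293) (nat_lit 0) (cs (lf (nat_lit 23) (nat_lit 267)) (lf (nat_lit 11) (nat_lit 289)))))))))))) (nd (nat_lit 230) (nat_lit 0) (cs (lf (nat_lit 27) (nat_lit 186)) (nd (nat_lit 270) (nat_lit 0) (cs (lf (nat_lit 13) (nat_lit 246)) (nd (nat_lit 314) (nat_lit 0) (cs (lf (nat_lit 30) (nat_lit 248)) (nd (nat_lit 289) (nat_lit 0) (cs (lf (nat_lit 14) (nat_lit 267)) (rf (nat_lit 2)))))))))))))) q74929 (by decide +kernel)
def q74971 : Q := Q.p (nat_lit 0x4000890002600000000010000040000000000000000000000000000000000000000000000) (nat_lit 0xa0000780007e0001f80007a0000600010e006cb801e0e00ea0000000000000000000000000000000000000000000000) (nat_lit 12)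
theorem c74971 : QOK q74971 := cut [q66782, q74910, q74945, q50866, q73737, q74951, q73732, q74956, q50955] ⟨c66782, c74910, c74945, c50866, c73737, c74951, c73732, c74956, c50955, trivial⟩ (nd (nat_lit 269) (nat_lit 0) (cs (lf (nat_lit 14) (nat_lit 246)) (nd (nat_lit 209) (nat_lit 0) (cs (lf (nat_lit 44) (nat_lit 186)) (nd (nat_lit 211) (nat_lit 0) (cs (rf (nat_lit 0)) (nd (nat_lit 312) (nat_lit 0) (cs (rf (nat_lit 1)) (cs (rf (nat_lit 2)) (cs (nd (nat_lit 246) (nat_lit 0) (cs (rf (nat_lit 3)) (cs (rf (nat_lit 4)) (rf (nat_lit 5))))) (nd (nat_lit 334) (nat_lit 0) (cs (rf (nat_lit 6)) (cs (rf (nat_lit 7)) (cs (nd (nat_lit 335) (nat_lit 0) (cs (lf (nat_lit 29) (nat_lit 268)) (nd (nat_lit 230) (nat_lit 0) (cs (lf (nat_lit 27) (nat_lit 186)) (nd (nat_lit 246) (nat_lit 0) (cs (lf (nat_lit 28) (nat_lit 246)) (nd (nat_lit 291) (nat_lit 0) (cs (lf (nat_lit 30) (nat_lit 268)) (nd (nat_lit 224) (nat_lit 0) (cs (lf (nat_lit 24) (nat_lit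 202)) (rf (nat_lit 8)))))))))))) (nd (nat_lit 333) (nat_lit 0) (cs (lf (nat_lit 41) (nat_lit 267)) (nd (nat_lit 246) (nat_lit 0) (cs (lf (nat_lit 40) (nat_lit 245)) (nd (nat_lit 223) (nat_lit 0) (cs (lf (nat_lit 46) (nat_lit 223)) (nd (nat_lit 291) (nat_lit 0) (cs (lf (nat_lit 30) (nat_lit 268)) (nd (nat_lit 224) (nat_lit 0) (cs (lf (nat_lit 29) (nat_lit 224)) (lf (nat_lit 47) (nat_lit 201)))))))))))))))))))))))))) q74971 (by decide +kernel)
def q74990 : Q := Q.p (nat_lit 0x4000810002000000000010000040000000000000000000000000000000000000000000000) (nat_lit 0x200000e00003f0003fc000ff0003bc000080010e006c3801e0e00ea0000000000000000000000000000000000000000000000) (nat_lit 12)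
theorem c74990 : QOK q74990 := cut [q66782, q74090, q74101, q74129, q74159, q50866, q73737] ⟨c66782, c74090, c74101, c74129, c74159, c50866, c73737, trivial⟩ (nd (nat_lit 209) (nat_lit 0) (cs (lf (nat_lit 44) (nat_lit 186)) (nd (nat_lit 211) (nat_lit 0) (cs (rf (nat_lit 0)) (nd (nat_lit 312) (nat_lit 0) (cs (rf (nat_lit 1)) (cs (rf (nat_lit 2)) (cs (rf (nat_lit 3)) (cs (rf (nat_lit 4)) (nd (nat_lit 246) (nat_lit 0) (cs (rf (nat_lit 5)) (cs (rf (nat_lit 6)) (nd (nat_lit 311) (nat_lit 0) (cs (lf (nat_lit 41) (nat_lit 245)) (nd (nat_lit 310) (nat_lit 0) (cs (nd (nat_lit 230) (nat_lit 0) (cs (lf (nat_lit 27) (nat_lit 186)) (nd (nat_lit 291) (nat_lit 0) (cs (lf (nat_lit 12) (nat_lit 287)) (nd (nat_lit 292) (nat_lit 0) (cs (lf (nat_lit 9) (nat_lit 288)) (lf (nat_lit 6) (nat_lit 289)))))))) (cs (nd (nat_lit 230) (nat_lit 0) (cs (lf (nat_lit 27) (nat_lit 186)) (nd (nat_lit 313) (nat_lit 0) (cs (lf (nat_lit 29) (nat_lit 246)) (nd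 (nat_lit 331) (nat_lit 0) (cs (lf (nat_lit 10) (nat_lit 309)) (nd (nat_lit 287) (nat_lit 0) (cs (lf (nat_lit 22) (nat_lit 287)) (nd (nat_lit 309) (nat_lit 0) (cs (lf (nat_lit 23) (nat_lit 286)) (lf (nat_lit 11) (nat_lit 308)))))))))))) (nd (nat_lit 223) (nat_lit 0) (cs (lf (nat_lit 46) (nat_lit 223)) (nd (nat_lit 313) (nat_lit 0) (cs (lf (nat_lit 29) (nat_lit 246)) (nd (nat_lit 288) (nat_lit 0) (cs (lf (nat_lit 23) (nat_lit 287)) (nd (nat_lit 292) (nat_lit 0) (cs (lf (nat_lit 16) (nat_lit 288)) (nd (nat_lit 314) (nat_lit 0) (cs (lf (nat_lit 17) (nat_lit 289)) (lf (nat_lit 22) (nat_lit 288))))))))))))))))))))))))))))) q74990 (by decide +kernel)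
def q75042 : Q := Q.p (nat_lit 0x4000890002600000000010000040000000000000000000000000000000000000000000000) (nat_lit 0xe0000780007e0001f80007a0000680010c006cb001e0c00ea0000000000000000000000000000000000000000000000) (nat_lit 12)
theorem c75042 : QOK q75042 := cut [q66782, q74910, q74945, q73407, q73729, q73763, q74951, q73732, q74956, q71255] ⟨c66782, c74910, c74945, c73407, c73729, c73763, c74951, c73732, c74956, c71255, trivial⟩ (nd (nat_lit 269) (nat_lit 0) (cs (lf (nat_lit 14) (nat_lit 246)) (nd (nat_lit 209) (nat_lit 0) (cs (lf (nat_lit 44) (nat_lit 186)) (nd (nat_lit 211) (nat_lit 0) (cs (rf (nat_lit 0)) (nd (nat_lit 312) (nat_lit 0) (cs (rf (nat_lit 1)) (cs (rf (nat_lit 2)) (cs (nd (nat_lit 246) (nat_lit 0) (cs (rf (nat_lit 3)) (cs (rf (nat_lit 4)) (cs (rf (nat_lit 5)) (rf (nat_lit 6)))))) (nd (nat_lit 334) (nat_lit 0) (cs (rf (nat_lit 7)) (cs (rf (nat_lit 8)) (cs (nd (nat_lit 230) (nat_lit 0) (cs (lf (nat_lit 27)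 (nat_lit 186)) (nd (nat_lit 335) (nat_lit 0) (cs (lf (nat_lit 29) (nat_lit 268)) (nd (nat_lit 246) (nat_lit 0) (cs (lf (nat_lit 28) (nat_lit 246)) (nd (nat_lit 356) (nat_lit 0) (cs (nd (nat_lit 289) (nat_lit 0) (cs (lf (nat_lit 47) (nat_lit 267)) (nd (nat_lit 311) (nat_lit 0) (cs (lf (nat_lit 42) (nat_lit 289)) (lf (nat_lit 36) (nat_lit 223)))))) (lf (nat_lit 34) (nat_lit 268)))))))))) (nd (nat_lit 291) (nat_lit 0) (cs (lf (nat_lit 30) (nat_lit 268)) (nd (nat_lit 230) (nat_lit 0) (cs (lf (nat_lit 27) (nat_lit 186)) (nd (nat_lit 333) (nat_lit 0) (cs (lf (nat_lit 41) (nat_lit 267)) (nd (nat_lit 246) (nat_lit 0) (cs (lf (nat_lit 40) (nat_lit 245)) (rf (nat_lit 9)))))))))))))))))))))))) q75042 (by decide +kernel)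
def q75064 : Q := Q.p (nat_lit 0x4000890002600000000010000040000000000000000000000000000000000000000000000) (nat_lit 0xa0000380001e0003f80007b80006800106006c8801e2000ea0000000000000000000000000000000000000000000000) (nat_lit 12)
theorem c75064 : QOK q75064 := cut [q66782, q46560, q58732, q74915, q63048, q75057] ⟨c66782, c46560, c58732, c74915, c63048, c75057, trivial⟩ (nd (nat_lit 209) (nat_lit 0) (cs (lf (nat_lit 44) (nat_lit 186)) (nd (nat_lit 211) (nat_lit 0) (cs (rf (nat_lit 0)) (nd (nat_lit 270) (nat_lit 0) (cs (lf (nat_lit 13) (nat_lit 246)) (nd (nat_lit 292) (nat_lit 0) (cs (rf (nat_lit 1)) (cs (nd (nat_lit 230) (nat_lit 0) (cs (lf (nat_lit 27) (nat_lit 186)) (nd (nat_lit 205) (nat_lit 0) (cs (lf (nat_lit 37) (nat_lit 204)) (nd (nat_lit 291) (nat_lit 0) (cs (lf (nat_lit 12) (nat_lit 267)) (nd (nat_lit 293) (nat_lit 0) (cs (lf (nat_lit 23) (nat_lit 267)) (nd (nat_lit 316) (nat_lit 0) (cs (lf (nat_lit 4) (nat_lit 290))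 (nd (nat_lit 294) (nat_lit 0) (cs (lf (nat_lit 5) (nat_lit 291)) (rf (nat_lit 2)))))))))))))) (nd (nat_lit 314) (nat_lit 0) (cs (lf (nat_lit 30) (nat_lit 248)) (nd (nat_lit 289) (nat_lit 0) (cs (lf (nat_lit 14) (nat_lit 267)) (nd (nat_lit 312) (nat_lit 0) (cs (rf (nat_lit 3)) (cs (nd (nat_lit 230) (nat_lit 0) (cs (lf (nat_lit 27) (nat_lit 186)) (nd (nat_lit 313) (nat_lit 0) (cs (lf (nat_lit 18) (nat_lit 289)) (nd (nat_lit 335) (nat_lit 0) (cs (lf (nat_lit 24) (nat_lit 246)) (rf (nat_lit 4)))))))) (rf (nat_lit 5)))))))))))))))))) q75064 (by decide +kernel)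
def q75124 : Q := Q.p (nat_lit 0x890002600000000010000040000000000000000000000000000000000000000000000) (nat_lit 0x300000c8000360000680011e000cf80023e0003f80000a000000000000000000000000000000000000000) (nat_lit 12)
theorem c75124 : QOK q75124 := cut [q72360, q45261, q63832, q63759, q63765, q72361, q72367, q72369, q74312, q68600, q46953, q70396, q64023] ⟨c72360, c45261, c63832, c63759, c63765, c72361, c72367, c72369, c74312, c68600, c46953, c70396, c64023, trivial⟩ (nd (nat_lit 209) (nat_lit 0) (cs (lf (nat_lit 44) (nat_lit 186)) (nd (nat_lit 248) (nat_lit 0) (cs (rf (nat_lit 0)) (cs (nd (nat_lit 230) (nat_lit 0) (cs (lf (nat_lit 27) (nat_lit 186)) (nd (nat_lit 247) (nat_lit 0) (cs (lf (nat_lit 10) (nat_lit 246)) (rf (nat_lit 1)))))) (cs (nd (nat_lit 226) (nat_lit 0) (cs (rf (nat_lit 2)) (nd (nat_lit 224) (nat_lit 0) (cs (rf (nat_lit 3)) (cs (rf (nat_lit 4)) (nd (nat_lit 246) (nat_lit 0) (cs (rf (nat_lit 5)) (cs (rf (nat_lit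 6)) (cs (rf (nat_lit 7)) (rf (nat_lit 8))))))))))) (nd (nat_lit 270) (nat_lit 0) (cs (lf (nat_lit 13) (nat_lit 246)) (nd (nat_lit 226) (nat_lit 0) (cs (rf (nat_lit 9)) (cs (nd (nat_lit 292) (nat_lit 0) (cs (nd (nat_lit 230) (nat_lit 0) (cs (lf (nat_lit 27) (nat_lit 186)) (nd (nat_lit 227) (nat_lit 0) (cs (lf (nat_lit 36) (nat_lit 204)) (rf (nat_lit 10)))))) (nd (nat_lit 315) (nat_lit 0) (cs (lf (nat_lit 28) (nat_lit 226)) (rf (nat_lit 11)))))) (nd (nat_lit 204) (nat_lit 0) (cs (lf (nat_lit 24) (nat_lit 182)) (nd (nat_lit 203) (nat_lit 0) (cs (lf (nat_lit 47) (nat_lit 181)) (nd (nat_lit 183) (nat_lit 0) (cs (lf (nat_lit 34) (nat_lit 182)) (nd (nat_lit 184) (nat_lit 0) (cs (lf (nat_lit 2) (nat_lit 183)) (rf (nat_lit 12))))))))))))))))))))) q75124 (by decide +kernel)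
def q75147 : Q := Q.p (nat_lit 0x890002600000000010000040000000000000000000000000000000000000000000000) (nat_lit 0xa0000780001e0001fe0003f80006e0011f800c3e0020e00000000000000000000000000000000000000000000000000) (nat_lit 13)
theorem c75147 : QOK q75147 := cut [q70734, q70749, q73399, q75070, q70614, q70722, q75135, q48778, q70078] ⟨c70734, c70749, c73399, c75070, c70614, c70722, c75135, c48778, c70078, trivial⟩ (nd (nat_lit 269) (nat_lit 0) (cs (lf (nat_lit 14) (nat_lit 246)) (nd (nat_lit 247) (nat_lit 0) (cs (lf (nat_lit 8) (nat_lit 246)) (nd (nat_lit 290) (nat_lit 0) (cs (rf (nat_lit 0)) (cs (rf (nat_lit 1)) (cs (rf (nat_lit 2)) (cs (rf (nat_lit 3)) (nd (nat_lit 291) (nat_lit 0) (cs (rf (nat_lit 4)) (cs (nd (nat_lit 230) (nat_lit 0) (cs (lf (nat_lit 27) (nat_lit 186)) (nd (nat_lit 209) (nat_lit 0) (cs (lf (nat_lit 44) (nat_lit 186)) (nd (nat_lit 225) (nat_lit 0) (cs (lf (nat_lit 36) (nat_lit 202)) (rf (nat_lit 5))))))))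 (cs (nd (nat_lit 224) (nat_lit 0) (cs (nd (nat_lit 225) (nat_lit 0) (cs (lf (nat_lit 47) (nat_lit 202)) (lf (nat_lit 36) (nat_lit 202)))) (nd (nat_lit 246) (nat_lit 0) (cs (lf (nat_lit 29) (nat_lit 224)) (rf (nat_lit 6)))))) (nd (nat_lit 246) (nat_lit 0) (cs (rf (nat_lit 7)) (cs (nd (nat_lit 209) (nat_lit 0) (cs (lf (nat_lit 44) (nat_lit 186)) (nd (nat_lit 313) (nat_lit 0) (cs (lf (nat_lit 42) (nat_lit 246)) (nd (nat_lit 314) (nat_lit 0) (cs (lf (nat_lit 29) (nat_lit 247)) (nd (nat_lit 315) (nat_lit 0) (cs (lf (nat_lit 18) (nat_lit 290)) (rf (nat_lit 8)))))))))) (nd (nat_lit 224) (nat_lit 0) (cs (lf (nat_lit 24) (nat_lit 202)) (rf (nat_lit 6)))))))))))))))))))) q75147 (by decide +kernel)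
def q75192 : Q := Q.p (nat_lit 0x890002600000000010000040000000000000000000000000000000000000000000000) (nat_lit 0x1500007c0001f8001f800006c0011c00eef001e7400ebc000040000000000000000000000000000000000000000) (nat_lit 13)
theorem c75192 : QOK q75192 := cut [q66782, q67617, q72339, q59008, q66777, q72177, q73312, q71685, q61752, q47444, q74706, q67226, q75176, q67225, q74709, q62073, q59112] ⟨c66782, c67617, c72339, c59008, c66777, c72177, c73312, c71685, c61752, c47444, c74706, c67226, c75176, c67225, c74709, c62073, c59112, trivial⟩ (nd (nat_lit 269) (nat_lit 0) (cs (lf (nat_lit 14) (nat_lit 246)) (nd (nat_lit 209) (nat_lit 0) (cs (lf (nat_lit 44) (nat_lit 186)) (nd (nat_lit 211) (nat_lit 0) (cs (rf (nat_lit 0)) (cs (rf (nat_lit 1)) (nd (nat_lit 293) (nat_lit 0) (cs (nd (nat_lit 248) (nat_lit 0) (cs (lf (nat_lit 9) (nat_lit 246)) (rf (nat_lit 2)))) (cs (nd (nat_lit 315) (nat_lit 0) (cs (rf (nat_lit 3)) (cs (rf (nat_lit 4))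 (rf (nat_lit 5))))) (cs (nd (nat_lit 247) (nat_lit 0) (cs (lf (nat_lit 8) (nat_lit 246)) (nd (nat_lit 291) (nat_lit 0) (cs (rf (nat_lit 6)) (cs (nd (nat_lit 224) (nat_lit 0) (cs (nd (nat_lit 202) (nat_lit 0) (cs (lf (nat_lit 45) (nat_lit 202)) (lf (nat_lit 26) (nat_lit 202)))) (cs (nd (nat_lit 230) (nat_lit 0) (cs (lf (nat_lit 27) (nat_lit 186)) (rf (nat_lit 7)))) (nd (nat_lit 230) (nat_lit 0) (cs (lf (nat_lit 27) (nat_lit 186)) (rf (nat_lit 8))))))) (cs (nd (nat_lit 230) (nat_lit 0) (cs (lf (nat_lit 27) (nat_lit 186)) (nd (nat_lit 292) (nat_lit 0) (cs (lf (nat_lit 18) (nat_lit 268)) (nd (nat_lit 266) (nat_lit 0) (cs (lf (nat_lit 1) (nat_lit 266)) (nd (nat_lit 314) (nat_lit 0) (cs (lf (nat_lit 36) (nat_lit 226)) (nd (nat_lit 336) (nat_lit 0) (cs (lf (nat_lit 27) (nat_lit 247)) (lf (nat_lit 42) (nat_lit 269)))))))))))) (cs (nd (nat_lit 230) (nat_lit 0) (cs (lf (nat_lit 27) (nat_lit 186)) (nd (nat_lit 294) (nat_lit 0) (cs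 (lf (nat_lit 20) (nat_lit 268)) (nd (nat_lit 227) (nat_lit 0) (cs (lf (nat_lit 29) (nat_lit 227)) (nd (nat_lit 226) (nat_lit 0) (cs (lf (nat_lit 47) (nat_lit 204)) (nd (nat_lit 224) (nat_lit 0) (cs (lf (nat_lit 1) (nat_lit 224)) (rf (nat_lit 9)))))))))))) (nd (nat_lit 292) (nat_lit 0) (cs (lf (nat_lit 18) (nat_lit 268)) (nd (nat_lit 314) (nat_lit 0) (cs (lf (nat_lit 36) (nat_lit 226)) (lf (nat_lit 24) (nat_lit 225))))))))))))) (cs (nd (nat_lit 314) (nat_lit 0) (cs (rf (nat_lit 10)) (cs (nd (nat_lit 227) (nat_lit 0) (cs (lf (nat_lit 40) (nat_lit 226)) (nd (nat_lit 204) (nat_lit 0) (cs (lf (nat_lit 46) (nat_lit 204)) (nd (nat_lit 294) (nat_lit 0) (cs (lf (nat_lit 29) (nat_lit 227)) (rf (nat_lit 11)))))))) (cs (rf (nat_lit 12)) (nd (nat_lit 227) (nat_lit 0) (cs (lf (nat_lit 40) (nat_lit 226)) (nd (nat_lit 204) (nat_lit 0) (cs (lf (nat_lit 46) (nat_lit 204)) (nd (nat_lit 315) (nat_lit 0) (cs (lf (nat_lit 41) (nat_lit 248)) (nd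 (nat_lit 205) (nat_lit 0) (cs (lf (nat_lit 47) (nat_lit 182)) (nd (nat_lit 230) (nat_lit 0) (cs (lf (nat_lit 27) (nat_lit 186)) (rf (nat_lit 13)))))))))))))))) (cs (nd (nat_lit 314) (nat_lit 0) (cs (rf (nat_lit 10)) (cs (rf (nat_lit 14)) (cs (rf (nat_lit 12)) (nd (nat_lit 230) (nat_lit 0) (cs (lf (nat_lit 27) (nat_lit 186)) (nd (nat_lit 292) (nat_lit 0) (cs (lf (nat_lit 36) (nat_lit 226)) (rf (nat_lit 15)))))))))) (nd (nat_lit 230) (nat_lit 0) (cs (lf (nat_lit 27) (nat_lit 186)) (nd (nat_lit 248) (nat_lit 0) (cs (lf (nat_lit 9) (nat_lit 246)) (nd (nat_lit 315) (nat_lit 0) (cs (lf (nat_lit 47) (nat_lit 226)) (rf (nat_lit 16))))))))))))))))))))) q75192 (by decide +kernel)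
def q75252 : Q := Q.p (nat_lit 0x20000890002600000800010000040000000000000000000000000000000000000000000000) (nat_lit 0xa0000780001e0000fc0005e0001480010e006c7801e1600ea0800000000000000000000000000000000000000000000) (nat_lit 11)
theorem c75252 : QOK q75252 := cut [q73988, q74008, q66782, q75230, q50580, q72373, q74275, q73907, q74060, q62045, q72930] ⟨c73988, c74008, c66782, c75230, c50580, c72373, c74275, c73907, c74060, c62045, c72930, trivial⟩ (nd (nat_lit 290) (nat_lit 0) (cs (rf (nat_lit 0)) (cs (rf (nat_lit 1)) (cs (nd (nat_lit 209) (nat_lit 0) (cs (lf (nat_lit 44) (nat_lit 186)) (nd (nat_lit 211) (nat_lit 0) (cs (rf (nat_lit 2)) (nd (nat_lit 224) (nat_lit 0) (cs (rf (nat_lit 3)) (nd (nat_lit 246) (nat_lit 0) (cs (rf (nat_lit 4)) (cs (rf (nat_lit 5)) (rf (nat_lit 6))))))))))) (cs (nd (nat_lit 312) (nat_lit 0) (cs (rf (nat_lit 7)) (cs (rf (nat_lit 8)) (nd (nat_lit 204) (nat_lit 0) (cs (lf (nat_lit 46) (nat_lit 204))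 (nd (nat_lit 209) (nat_lit 0) (cs (lf (nat_lit 44) (nat_lit 186)) (nd (nat_lit 230) (nat_lit 0) (cs (lf (nat_lit 27) (nat_lit 186)) (nd (nat_lit 314) (nat_lit 0) (cs (lf (nat_lit 40) (nat_lit 226)) (nd (nat_lit 315) (nat_lit 0) (cs (lf (nat_lit 41) (nat_lit 248)) (nd (nat_lit 313) (nat_lit 0) (cs (lf (nat_lit 23) (nat_lit 289)) (lf (nat_lit 17) (nat_lit 290))))))))))))))))) (cs (nd (nat_lit 204) (nat_lit 0) (cs (lf (nat_lit 46) (nat_lit 204)) (nd (nat_lit 209) (nat_lit 0) (cs (lf (nat_lit 44) (nat_lit 186)) (nd (nat_lit 230) (nat_lit 0) (cs (lf (nat_lit 27) (nat_lit 186)) (nd (nat_lit 292) (nat_lit 0) (cs (lf (nat_lit 41) (nat_lit 226)) (nd (nat_lit 291) (nat_lit 0) (cs (lf (nat_lit 17) (nat_lit 268)) (nd (nat_lit 270) (nat_lit 0) (cs (lf (nat_lit 12) (nat_lit 267)) (rf (nat_lit 9)))))))))))))) (nd (nat_lit 204) (nat_lit 0) (cs (lf (nat_lit 46) (nat_lit 204)) (nd (nat_lit 209) (nat_lit 0) (cs (lf (nat_lit 44) (nat_lit 186))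 (nd (nat_lit 230) (nat_lit 0) (cs (lf (nat_lit 27) (nat_lit 186)) (nd (nat_lit 292) (nat_lit 0) (cs (lf (nat_lit 41) (nat_lit 226)) (rf (nat_lit 10)))))))))))))))) q75252 (by decide +kernel)
def q75472 : Q := Q.p (nat_lit 0x880002200000100011400040000000000000000000000000000000000000000000000) (nat_lit 0x112000c4e00e6b000bfe000ff0007fc000380000000000000000000000000000) (nat_lit 11)
theorem c75472 : QOK q75472 := cut [q27568, q75427, q32459, q75445, q35305, q75453, q75465, q75470, q75471] ⟨c27568, c75427, c32459, c75445, c35305, c75453, c75465, c75470, c75471, trivial⟩ (nd (nat_lit 203) (nat_lit 0) (cs (nd (nat_lit 183) (nat_lit 0) (cs (nd (nat_lit 209) (nat_lit 0) (cs (lf (nat_lit 44) (nat_lit 186)) (nd (nat_lit 184) (nat_lit 0) (cs (lf (nat_lit 2) (nat_lit 183)) (lf (nat_lit 15) (nat_lit 180)))))) (cs (nd (nat_lit 182) (nat_lit 0) (cs (lf (nat_lit 12) (nat_lit 179)) (nd (nat_lit 226) (nat_lit 0) (cs (lf (nat_lit 27) (nat_lit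 182)) (nd (nat_lit 160) (nat_lit 0) (cs (nd (nat_lit 209) (nat_lit 0) (cs (lf (nat_lit 44) (nat_lit 186)) (rf (nat_lit 0)))) (cs (nd (nat_lit 230) (nat_lit 0) (cs (lf (nat_lit 27) (nat_lit 186)) (nd (nat_lit 139) (nat_lit 0) (cs (lf (nat_lit 34) (nat_lit 138)) (nd (nat_lit 138) (nat_lit 0) (cs (lf (nat_lit 35) (nat_lit 116)) (rf (nat_lit 1)))))))) (cs (nd (nat_lit 159) (nat_lit 0) (cs (lf (nat_lit 47) (nat_lit 137)) (nd (nat_lit 161) (nat_lit 0) (cs (lf (nat_lit 35) (nat_lit 138)) (nd (nat_lit 162) (nat_lit 0) (cs (nd (nat_lit 163) (nat_lit 0) (cs (lf (nat_lit 4) (nat_lit 160)) (rf (nat_lit 2)))) (nd (nat_lit 158) (nat_lit 0) (cs (lf (nat_lit 0) (nat_lit 157)) (nd (nat_lit 180) (nat_lit 0) (cs (lf (nat_lit 13) (nat_lit 158)) (lf (nat_lit 11) (nat_lit 157)))))))))))) (nd (nat_lit 209) (nat_lit 0) (cs (lf (nat_lit 44) (nat_lit 186)) (nd (nat_lit 230) (nat_lit 0) (cs (lf (nat_lit 27) (nat_lit 186)) (nd (nat_lit 137) (nat_lit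 0) (cs (lf (nat_lit 46) (nat_lit 137)) (nd (nat_lit 138) (nat_lit 0) (cs (lf (nat_lit 47) (nat_lit 115)) (rf (nat_lit 1)))))))))))))))))) (cs (nd (nat_lit 184) (nat_lit 0) (cs (lf (nat_lit 15) (nat_lit 180)) (rf (nat_lit 3)))) (nd (nat_lit 209) (nat_lit 0) (cs (lf (nat_lit 44) (nat_lit 186)) (nd (nat_lit 184) (nat_lit 0) (cs (lf (nat_lit 2) (nat_lit 183)) (rf (nat_lit 3)))))))))) (cs (nd (nat_lit 201) (nat_lit 0) (cs (rf (nat_lit 4)) (cs (rf (nat_lit 5)) (cs (nd (nat_lit 223) (nat_lit 0) (cs (lf (nat_lit 11) (nat_lit 200)) (nd (nat_lit 182) (nat_lit 0) (cs (lf (nat_lit 17) (nat_lit 179)) (nd (nat_lit 179) (nat_lit 0) (cs (lf (nat_lit 23) (nat_lit 178)) (nd (nat_lit 226) (nat_lit 0) (cs (lf (nat_lit 27) (nat_lit 182)) (nd (nat_lit 157) (nat_lit 0) (cs (lf (nat_lit 24) (nat_lit 135)) (nd (nat_lit 156) (nat_lit 0) (cs (lf (nat_lit 47) (nat_lit 134)) (nd (nat_lit 158) (nat_lit 0) (cs (lf (nat_lit 35) (nat_lit 135)) (nd (nat_lit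 180) (nat_lit 0) (cs (lf (nat_lit 41) (nat_lit 157)) (lf (nat_lit 19) (nat_lit 156)))))))))))))))))) (rf (nat_lit 6)))))) (cs (rf (nat_lit 7)) (rf (nat_lit 8)))))) q75472 (by decide +kernel)
def q75505 : Q := Q.p (nat_lit 0x880002640000100010400040000000000000000000000000000000000000000000000) (nat_lit 0x140001fe000ff0001ee0007400011a000cce00e7a000bc000000000000000000000000000000000000000000000) (nat_lit 11)
theorem c75505 : QOK q75505 := cut [q75481, q75482, q54918, q73121, q75380, q75370, q75493, q75467, q75499, q75504] ⟨c75481, c75482, c54918, c73121, c75380, c75370, c75493, c75467, c75499, c75504, trivial⟩ (nd (nat_lit 248) (nat_lit 0) (cs (rf (nat_lit 0)) (cs (nd (nat_lit 204) (nat_lit 0) (cs (nd (nat_lit 230) (nat_lit 0) (cs (lf (nat_lit 27) (nat_lit 186)) (nd (nat_lit 223) (nat_lit 0) (cs (lf (nat_lit 20) (nat_lit 223)) (rf (nat_lit 1)))))) (nd (nat_lit 209) (nat_lit 0) (cs (lf (nat_lit 44) (nat_lit 186)) (nd (nat_lit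 226) (nat_lit 0) (cs (lf (nat_lit 24) (nat_lit 182)) (nd (nat_lit 293) (nat_lit 0) (cs (lf (nat_lit 27) (nat_lit 204)) (lf (nat_lit 45) (nat_lit 204)))))))))) (cs (nd (nat_lit 293) (nat_lit 0) (cs (nd (nat_lit 209) (nat_lit 0) (cs (lf (nat_lit 44) (nat_lit 186)) (rf (nat_lit 2)))) (cs (nd (nat_lit 209) (nat_lit 0) (cs (lf (nat_lit 44) (nat_lit 186)) (nd (nat_lit 204) (nat_lit 0) (cs (rf (nat_lit 3)) (cs (rf (nat_lit 4)) (nd (nat_lit 205) (nat_lit 0) (cs (rf (nat_lit 5)) (cs (rf (nat_lit 6)) (nd (nat_lit 230) (nat_lit 0) (cs (lf (nat_lit 27) (nat_lit 186)) (nd (nat_lit 203) (nat_lit 0) (cs (lf (nat_lit 11) (nat_lit 201)) (rf (nat_lit 7)))))))))))))) (rf (nat_lit 8))))) (rf (nat_lit 9)))))) q75505 (by decide +kernel)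
def q75632 : Q := Q.p (nat_lit 0x880002600000100010400040000000000000000000000000000000000000000000000) (nat_lit 0xf00007f0001ee0007780011e006cc801e7800ebfe0000e000028000000000000000000000000000000000) (nat_lit 12)
theorem c75632 : QOK q75632 := cut [q66782, q75507, q37980, q75343, q47420, q46561, q75514, q75607, q46562, q65422, q75476, q75613, q75355, q75360, q75364, q75538, q72677, q51158] ⟨c66782, c75507, c37980, c75343, c47420, c46561, c75514, c75607, c46562, c65422, c75476, c75613, c75355, c75360, c75364, c75538, c72677, c51158, trivial⟩ (nd (nat_lit 269) (nat_lit 0) (cs (nd (nat_lit 272) (nat_lit 0) (cs (nd (nat_lit 209) (nat_lit 0) (cs (lf (nat_lit 44) (nat_lit 186)) (nd (nat_lit 211) (nat_lit 0) (cs (rf (nat_lit 0)) (nd (nat_lit 246) (nat_lit 0) (cs (rf (nat_lit 1)) (nd (nat_lit 180) (nat_lit 0) (cs (rf (nat_lit 2)) (cs (rf (nat_lit 3)) (nd (nat_lit 205) (nat_lit 0) (cs (rf (nat_lit 4)) (nd (nat_lit 230) (nat_lit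 0) (cs (lf (nat_lit 27) (nat_lit 186)) (nd (nat_lit 181) (nat_lit 0) (cs (lf (nat_lit 35) (nat_lit 158)) (nd (nat_lit 179) (nat_lit 0) (cs (lf (nat_lit 47) (nat_lit 157)) (nd (nat_lit 204) (nat_lit 0) (cs (lf (nat_lit 3) (nat_lit 179)) (lf (nat_lit 20) (nat_lit 179))))))))))))))))))))) (cs (nd (nat_lit 274) (nat_lit 0) (cs (lf (nat_lit 20) (nat_lit 249)) (nd (nat_lit 294) (nat_lit 0) (cs (rf (nat_lit 5)) (cs (rf (nat_lit 6)) (nd (nat_lit 252) (nat_lit 0) (cs (lf (nat_lit 26) (nat_lit 186)) (nd (nat_lit 205) (nat_lit 0) (cs (lf (nat_lit 25) (nat_lit 205)) (nd (nat_lit 231) (nat_lit 0) (cs (lf (nat_lit 45) (nat_lit 186)) (nd (nat_lit 295) (nat_lit 0) (cs (lf (nat_lit 1) (nat_lit 269)) (nd (nat_lit 296) (nat_lit 0) (cs (lf (nat_lit 30) (nat_lit 230)) (lf (nat_lit 12) (nat_lit 271))))))))))))))))) (cs (rf (nat_lit 7)) (nd (nat_lit 273) (nat_lit 0) (cs (lf (nat_lit 19) (nat_lit 249)) (nd (nat_lit 247) (nat_lit 0) (cs (lf (nat_lit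 1) (nat_lit 247)) (nd (nat_lit 246) (nat_lit 0) (cs (lf (nat_lit 20) (nat_lit 246)) (lf (nat_lit 24) (nat_lit 180)))))))))))) (cs (nd (nat_lit 270) (nat_lit 0) (cs (lf (nat_lit 12) (nat_lit 246)) (nd (nat_lit 272) (nat_lit 0) (cs (rf (nat_lit 8)) (cs (rf (nat_lit 9)) (nd (nat_lit 273) (nat_lit 0) (cs (lf (nat_lit 19) (nat_lit 249)) (nd (nat_lit 248) (nat_lit 0) (cs (lf (nat_lit 0) (nat_lit 247)) (nd (nat_lit 204) (nat_lit 0) (cs (nd (nat_lit 205) (nat_lit 0) (cs (rf (nat_lit 10)) (cs (nd (nat_lit 203) (nat_lit 0) (cs (lf (nat_lit 11) (nat_lit 201)) (rf (nat_lit 11)))) (nd (nat_lit 227) (nat_lit 0) (cs (lf (nat_lit 47) (nat_lit 182)) (lf (nat_lit 24) (nat_lit 183))))))) (nd (nat_lit 226) (nat_lit 0) (cs (lf (nat_lit 41) (nat_lit 203)) (lf (nat_lit 29) (nat_lit 204))))))))))))))) (cs (nd (nat_lit 246) (nat_lit 0) (cs (nd (nat_lit 180) (nat_lit 0) (cs (rf (nat_lit 2)) (cs (rf (nat_lit 3)) (cs (rf (nat_lit 12)) (nd (nat_lit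 230) (nat_lit 0) (cs (lf (nat_lit 27) (nat_lit 186)) (nd (nat_lit 245) (nat_lit 0) (cs (lf (nat_lit 41) (nat_lit 179)) (rf (nat_lit 13)))))))))) (cs (rf (nat_lit 14)) (rf (nat_lit 15))))) (cs (nd (nat_lit 270) (nat_lit 0) (cs (lf (nat_lit 12) (nat_lit 246)) (nd (nat_lit 272) (nat_lit 0) (cs (rf (nat_lit 8)) (nd (nat_lit 230) (nat_lit 0) (cs (lf (nat_lit 27) (nat_lit 186)) (rf (nat_lit 16)))))))) (nd (nat_lit 268) (nat_lit 0) (cs (lf (nat_lit 14) (nat_lit 246)) (nd (nat_lit 246) (nat_lit 0) (cs (lf (nat_lit 29) (nat_lit 202)) (rf (nat_lit 17))))))))))) q75632 (by decide +kernel)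
def q75660 : Q := Q.p (nat_lit 0x880002600000100010400040000000000000000000000000000000000000000000000) (nat_lit 0x300005f0001ea0007780011e000cc00023a0000380000e000028000000000000000000000000000000000) (nat_lit 12)
theorem c75660 : QOK q75660 := cut [q75539, q75355, q75635, q75658, q75659] ⟨c75539, c75355, c75635, c75658, c75659, trivial⟩ (nd (nat_lit 246) (nat_lit 0) (cs (rf (nat_lit 0)) (cs (nd (nat_lit 180) (nat_lit 0) (cs (rf (nat_lit 1)) (cs (nd (nat_lit 245) (nat_lit 0) (cs (lf (nat_lit 41) (nat_lit 179)) (nd (nat_lit 157) (nat_lit 0) (cs (lf (nat_lit 46) (nat_lit 157)) (nd (nat_lit 135) (nat_lit 0) (cs (nd (nat_lit 230) (nat_lit 0) (cs (lf (nat_lit 27) (nat_lit 186)) (rf (nat_lit 2)))) (lf (nat_lit 45) (nat_lit 135)))))))) (cs (nd (nat_lit 159) (nat_lit 0) (cs (lf (nat_lit 34) (nat_lit 158)) (nd (nat_lit 230) (nat_lit 0) (cs (lf (nat_lit 27) (nat_lit 186)) (nd (nat_lit 245) (nat_lit 0) (cs (lf (nat_lit 41) (nat_lit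 179)) (nd (nat_lit 137) (nat_lit 0) (cs (lf (nat_lit 33) (nat_lit 136)) (rf (nat_lit 2)))))))))) (nd (nat_lit 157) (nat_lit 0) (cs (lf (nat_lit 46) (nat_lit 157)) (nd (nat_lit 230) (nat_lit 0) (cs (lf (nat_lit 27) (nat_lit 186)) (nd (nat_lit 245) (nat_lit 0) (cs (lf (nat_lit 41) (nat_lit 179)) (nd (nat_lit 159) (nat_lit 0) (cs (lf (nat_lit 34) (nat_lit 158)) (rf (nat_lit 2)))))))))))))) (cs (rf (nat_lit 3)) (rf (nat_lit 4)))))) q75660 (by decide +kernel)
def q75866 : Q := Q.p (nat_lit 0x800002000000100010600041000000000000000000000000000000000000000000000) (nat_lit 0x100006c0001e39c0eaee0007fc000fc0007fc000000000000000000000000000) (nat_lit 10)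
theorem c75866 : QOK q75866 := cut [q66782, q75839, q75732, q75706, q75717, q75854, q75859] ⟨c66782, c75839, c75732, c75706, c75717, c75854, c75859, trivial⟩ (nd (nat_lit 135) (nat_lit 0) (cs (nd (nat_lit 157) (nat_lit 0) (cs (lf (nat_lit 45) (nat_lit 135)) (lf (nat_lit 26) (nat_lit 135)))) (cs (nd (nat_lit 209) (nat_lit 0) (cs (lf (nat_lit 44) (nat_lit 186)) (nd (nat_lit 211) (nat_lit 0) (cs (rf (nat_lit 0)) (nd (nat_lit 137) (nat_lit 0) (cs (nd (nat_lit 136) (nat_lit 0) (cs (nd (nat_lit 158) (nat_lit 0) (cs (lf (nat_lit 35) (nat_lit 114)) (lf (nat_lit 47) (nat_lit 113)))) (cs (nd (nat_lit 230) (nat_lit 0) (cs (lf (nat_lit 27) (nat_lit 186)) (nd (nat_lit 113) (nat_lit 0) (cs (nd (nat_lit 112) (nat_lit 0) (cs (nd (nat_lit 111) (nat_lit 0) (cs (lf (nat_lit 0) (nat_lit 110)) (lf (nat_lit 21) (nat_lit 111)))) (lf (nat_lit 18) (nat_lit 112)))) (lf (nat_lit 44) (nat_lit 113)))))) (cs (nd (nat_lit 115) (nat_lit 0) (cs (nd (nat_lit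 116) (nat_lit 0) (cs (nd (nat_lit 117) (nat_lit 0) (cs (lf (nat_lit 6) (nat_lit 114)) (lf (nat_lit 9) (nat_lit 113)))) (lf (nat_lit 12) (nat_lit 112)))) (lf (nat_lit 32) (nat_lit 114)))) (nd (nat_lit 138) (nat_lit 0) (cs (nd (nat_lit 112) (nat_lit 0) (cs (nd (nat_lit 116) (nat_lit 0) (cs (nd (nat_lit 134) (nat_lit 0) (cs (lf (nat_lit 16) (nat_lit 112)) (lf (nat_lit 23) (nat_lit 111)))) (lf (nat_lit 17) (nat_lit 113)))) (lf (nat_lit 22) (nat_lit 112)))) (cs (nd (nat_lit 161) (nat_lit 0) (cs (nd (nat_lit 113) (nat_lit 0) (cs (lf (nat_lit 23) (nat_lit 112)) (nd (nat_lit 139) (nat_lit 0) (cs (lf (nat_lit 22) (nat_lit 113)) (lf (nat_lit 5) (nat_lit 136)))))) (lf (nat_lit 4) (nat_lit 135)))) (nd (nat_lit 161) (nat_lit 0) (cs (lf (nat_lit 4) (nat_lit 135)) (nd (nat_lit 117) (nat_lit 0) (cs (nd (nat_lit 139) (nat_lit 0) (cs (lf (nat_lit 17) (nat_lit 114)) (lf (nat_lit 5) (nat_lit 136)))) (lf (nat_lit 16) (nat_lit 113)))))))))))))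 (cs (nd (nat_lit 230) (nat_lit 0) (cs (lf (nat_lit 27) (nat_lit 186)) (nd (nat_lit 159) (nat_lit 0) (cs (lf (nat_lit 33) (nat_lit 136)) (nd (nat_lit 181) (nat_lit 0) (cs (rf (nat_lit 1)) (lf (nat_lit 39) (nat_lit 136)))))))) (nd (nat_lit 181) (nat_lit 0) (cs (rf (nat_lit 1)) (nd (nat_lit 159) (nat_lit 0) (cs (lf (nat_lit 39) (nat_lit 136)) (lf (nat_lit 36) (nat_lit 114))))))))))))) (cs (nd (nat_lit 230) (nat_lit 0) (cs (lf (nat_lit 27) (nat_lit 186)) (nd (nat_lit 158) (nat_lit 0) (cs (lf (nat_lit 46) (nat_lit 135)) (nd (nat_lit 209) (nat_lit 0) (cs (lf (nat_lit 44) (nat_lit 186)) (rf (nat_lit 2)))))))) (nd (nat_lit 209) (nat_lit 0) (cs (lf (nat_lit 44) (nat_lit 186)) (nd (nat_lit 179) (nat_lit 0) (cs (lf (nat_lit 25) (nat_lit 135)) (nd (nat_lit 181) (nat_lit 0) (cs (rf (nat_lit 1)) (cs (nd (nat_lit 178) (nat_lit 0) (cs (rf (nat_lit 3)) (cs (rf (nat_lit 4)) (nd (nat_lit 230) (nat_lit 0) (cs (lf (nat_lit 27) (nat_lit 186))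 (nd (nat_lit 199) (nat_lit 0) (cs (lf (nat_lit 10) (nat_lit 177)) (rf (nat_lit 5))))))))) (nd (nat_lit 182) (nat_lit 0) (cs (lf (nat_lit 6) (nat_lit 179)) (nd (nat_lit 204) (nat_lit 0) (cs (lf (nat_lit 5) (nat_lit 179)) (nd (nat_lit 178) (nat_lit 0) (cs (lf (nat_lit 19) (nat_lit 178)) (rf (nat_lit 6))))))))))))))))))) q75866 (by decide +kernel)
def q75932 : Q := Q.p (nat_lit 0x80000600000100000400001000000000000000000000000000000000000000000000) (nat_lit 0x80000700000c000000000000000280000e0000380000a0000000000000000000000000000) (nat_lit 6)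
theorem c75932 : QOK q75932 := cut [q75677, q75733, q75735] ⟨c75677, c75733, c75735, trivial⟩ (nd (nat_lit 158) (nat_lit 0) (cs (rf (nat_lit 0)) (cs (rf (nat_lit 1)) (rf (nat_lit 2))))) q75932 (by decide +kernel)
def q75991 : Q := Q.p (nat_lit 0x880002600000100010400040000000000000000000000000000000000000000000000) (nat_lit 0x140001fe000ff8001ee00077e0011c000cce00e7a000bfc0000a000000000000000000000000000000000000000) (nat_lit 12)
theorem c75991 : QOK q75991 := cut [q75939, q75479, q75374, q75380, q75499, q75943, q75470, q75471, q75951, q75955, q74290, q75350, q72361, q75481, q72767, q75979, q75542, q75661, q75981, q74289] ⟨c75939, c75479, c75374, c75380, c75499, c75943, c75470, c75471, c75951, c75955, c74290, c75350, c72361, c75481, c72767, c75979, c75542, c75661, c75981, c74289, trivial⟩ (nd (nat_lit 268) (nat_lit 0) (cs (rf (nat_lit 0)) (cs (nd (nat_lit 204) (nat_lit 0) (cs (rf (nat_lit 1)) (cs (nd (nat_lit 293) (nat_lit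 0) (cs (rf (nat_lit 2)) (cs (nd (nat_lit 209) (nat_lit 0) (cs (lf (nat_lit 44) (nat_lit 186)) (rf (nat_lit 3)))) (cs (rf (nat_lit 4)) (nd (nat_lit 209) (nat_lit 0) (cs (lf (nat_lit 44) (nat_lit 186)) (rf (nat_lit 5)))))))) (cs (nd (nat_lit 203) (nat_lit 0) (cs (rf (nat_lit 6)) (cs (rf (nat_lit 7)) (rf (nat_lit 8))))) (nd (nat_lit 209) (nat_lit 0) (cs (lf (nat_lit 44) (nat_lit 186)) (rf (nat_lit 9)))))))) (cs (nd (nat_lit 246) (nat_lit 0) (cs (rf (nat_lit 10)) (cs (rf (nat_lit 11)) (nd (nat_lit 181) (nat_lit 0) (cs (lf (nat_lit 34) (nat_lit 180)) (nd (nat_lit 159) (nat_lit 0) (cs (lf (nat_lit 33) (nat_lit 158)) (nd (nat_lit 248) (nat_lit 0) (cs (rf (nat_lit 12)) (cs (rf (nat_lit 13)) (nd (nat_lit 315) (nat_lit 0) (cs (nd (nat_lit 230) (nat_lit 0) (cs (lf (nat_lit 27) (nat_lit 186)) (nd (nat_lit 293) (nat_lit 0) (cs (lf (nat_lit 47) (nat_lit 226)) (rf (nat_lit 14)))))) (nd (nat_lit 209) (nat_lit 0) (cs (lf (nat_lit 44) (nat_lit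 186)) (nd (nat_lit 289) (nat_lit 0) (cs (lf (nat_lit 40) (nat_lit 201)) (nd (nat_lit 290) (nat_lit 0) (cs (lf (nat_lit 41) (nat_lit 223)) (nd (nat_lit 313) (nat_lit 0) (cs (lf (nat_lit 28) (nat_lit 224)) (nd (nat_lit 312) (nat_lit 0) (cs (lf (nat_lit 29) (nat_lit 246)) (lf (nat_lit 19) (nat_lit 289)))))))))))))))))))))))) (cs (rf (nat_lit 15)) (cs (nd (nat_lit 246) (nat_lit 0) (cs (rf (nat_lit 11)) (cs (rf (nat_lit 16)) (rf (nat_lit 17))))) (cs (nd (nat_lit 230) (nat_lit 0) (cs (lf (nat_lit 27) (nat_lit 186)) (nd (nat_lit 269) (nat_lit 0) (cs (lf (nat_lit 14) (nat_lit 246)) (nd (nat_lit 247) (nat_lit 0) (cs (lf (nat_lit 8) (nat_lit 246)) (nd (nat_lit 246) (nat_lit 0) (cs (lf (nat_lit 24) (nat_lit 180)) (nd (nat_lit 209) (nat_lit 0) (cs (lf (nat_lit 44) (nat_lit 186)) (nd (nat_lit 181) (nat_lit 0) (cs (lf (nat_lit 34) (nat_lit 180)) (rf (nat_lit 18)))))))))))))) (nd (nat_lit 269) (nat_lit 0) (cs (lf (nat_lit 14) (nat_lit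 246)) (nd (nat_lit 246) (nat_lit 0) (cs (lf (nat_lit 29) (nat_lit 202)) (nd (nat_lit 267) (nat_lit 0) (cs (lf (nat_lit 41) (nat_lit 201)) (rf (nat_lit 19))))))))))))))) q75991 (by decide +kernel)
def q76107 : Q := Q.p (nat_lit 0x880002600000100010400041000000000000000000000000000000000000000000000) (nat_lit 0x6e00017800116006cce01e7bc0ebee0007c0000b0000280000000000000000000000000000) (nat_lit 11)
theorem c76107 : QOK q76107 := cut [q76033, q76034, q75482, q76039, q76042, q76057, q76064, q75839, q76075, q66782, q76097, q75370, q76104] ⟨c76033, c76034, c75482, c76039, c76042, c76057, c76064, c75839, c76075, c66782, c76097, c75370, c76104, trivial⟩ (nd (nat_lit 223) (nat_lit 0) (cs (rf (nat_lit 0)) (cs (nd (nat_lit 230) (nat_lit 0) (cs (lf (nat_lit 27) (nat_lit 186)) (nd (nat_lit 209) (nat_lit 0) (cs (lf (nat_lit 44) (nat_lit 186)) (nd (nat_lit 245) (nat_lit 0) (cs (lf (nat_lit 36) (nat_lit 157)) (rf (nat_lit 1)))))))) (cs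 (nd (nat_lit 204) (nat_lit 0) (cs (rf (nat_lit 2)) (cs (nd (nat_lit 209) (nat_lit 0) (cs (lf (nat_lit 44) (nat_lit 186)) (nd (nat_lit 182) (nat_lit 0) (cs (nd (nat_lit 230) (nat_lit 0) (cs (lf (nat_lit 27) (nat_lit 186)) (rf (nat_lit 3)))) (cs (nd (nat_lit 181) (nat_lit 0) (cs (nd (nat_lit 226) (nat_lit 0) (cs (lf (nat_lit 27) (nat_lit 182)) (rf (nat_lit 4)))) (cs (nd (nat_lit 179) (nat_lit 0) (cs (lf (nat_lit 5) (nat_lit 179)) (nd (nat_lit 160) (nat_lit 0) (cs (lf (nat_lit 17) (nat_lit 157)) (nd (nat_lit 159) (nat_lit 0) (cs (lf (nat_lit 30) (nat_lit 158)) (lf (nat_lit 12) (nat_lit 156)))))))) (nd (nat_lit 183) (nat_lit 0) (cs (lf (nat_lit 11) (nat_lit 179)) (nd (nat_lit 161) (nat_lit 0) (cs (lf (nat_lit 17) (nat_lit 158)) (nd (nat_lit 117) (nat_lit 0) (cs (nd (nat_lit 159) (nat_lit 0) (cs (lf (nat_lit 30) (nat_lit 158)) (nd (nat_lit 184) (nat_lit 0) (cs (lf (nat_lit 2) (nat_lit 183)) (lf (nat_lit 23) (nat_lit 158))))))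 (lf (nat_lit 37) (nat_lit 116))))))))))) (nd (nat_lit 230) (nat_lit 0) (cs (lf (nat_lit 27) (nat_lit 186)) (rf (nat_lit 5))))))))) (cs (nd (nat_lit 201) (nat_lit 0) (cs (rf (nat_lit 6)) (cs (nd (nat_lit 230) (nat_lit 0) (cs (lf (nat_lit 27) (nat_lit 186)) (nd (nat_lit 209) (nat_lit 0) (cs (lf (nat_lit 44) (nat_lit 186)) (nd (nat_lit 158) (nat_lit 0) (cs (lf (nat_lit 36) (nat_lit 135)) (nd (nat_lit 159) (nat_lit 0) (cs (lf (nat_lit 35) (nat_lit 136)) (nd (nat_lit 181) (nat_lit 0) (cs (lf (nat_lit 30) (nat_lit 158)) (rf (nat_lit 7)))))))))))) (nd (nat_lit 136) (nat_lit 0) (cs (rf (nat_lit 8)) (lf (nat_lit 37) (nat_lit 135))))))) (nd (nat_lit 230) (nat_lit 0) (cs (lf (nat_lit 27) (nat_lit 186)) (nd (nat_lit 209) (nat_lit 0) (cs (lf (nat_lit 44) (nat_lit 186)) (nd (nat_lit 205) (nat_lit 0) (cs (nd (nat_lit 182) (nat_lit 0) (cs (lf (nat_lit 44) (nat_lit 182)) (nd (nat_lit 181) (nat_lit 0) (cs (lf (nat_lit 0) (nat_lit 179)) (nd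 (nat_lit 226) (nat_lit 0) (cs (lf (nat_lit 27) (nat_lit 182)) (nd (nat_lit 183) (nat_lit 0) (cs (lf (nat_lit 5) (nat_lit 180)) (nd (nat_lit 161) (nat_lit 0) (cs (lf (nat_lit 36) (nat_lit 138)) (lf (nat_lit 17) (nat_lit 158)))))))))))) (lf (nat_lit 8) (nat_lit 201)))))))))))) (nd (nat_lit 209) (nat_lit 0) (cs (lf (nat_lit 44) (nat_lit 186)) (nd (nat_lit 245) (nat_lit 0) (cs (rf (nat_lit 1)) (cs (nd (nat_lit 211) (nat_lit 0) (cs (rf (nat_lit 9)) (nd (nat_lit 204) (nat_lit 0) (cs (rf (nat_lit 2)) (cs (nd (nat_lit 182) (nat_lit 0) (cs (rf (nat_lit 3)) (cs (rf (nat_lit 5)) (nd (nat_lit 181) (nat_lit 0) (cs (rf (nat_lit 4)) (nd (nat_lit 226) (nat_lit 0) (cs (lf (nat_lit 27) (nat_lit 182)) (nd (nat_lit 159) (nat_lit 0) (cs (lf (nat_lit 30) (nat_lit 158)) (nd (nat_lit 137) (nat_lit 0) (cs (lf (nat_lit 45) (nat_lit 137)) (lf (nat_lit 36) (nat_lit 114))))))))))))) (cs (nd (nat_lit 201) (nat_lit 0) (cs (rf (nat_lit 6)) (cs (rf (nat_lit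 8)) (nd (nat_lit 246) (nat_lit 0) (cs (nd (nat_lit 181) (nat_lit 0) (cs (lf (nat_lit 35) (nat_lit 158)) (rf (nat_lit 7)))) (rf (nat_lit 10))))))) (nd (nat_lit 230) (nat_lit 0) (cs (lf (nat_lit 27) (nat_lit 186)) (nd (nat_lit 205) (nat_lit 0) (cs (rf (nat_lit 11)) (lf (nat_lit 8) (nat_lit 201)))))))))))) (rf (nat_lit 12))))))))))) q76107 (by decide +kernel)
def q76136 : Q := Q.p (nat_lit 0x880002600000100010400041000000000000000000000000000000000000000000000) (nat_lit 0xa0000780010600040800002000008000060000380000e0000280000000000000000000000) (nat_lit 8)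
theorem c76136 : QOK q76136 := cut [q75730, q76113, q76120, q76127, q76134] ⟨c75730, c76113, c76120, c76127, c76134, trivial⟩ (nd (nat_lit 158) (nat_lit 0) (cs (rf (nat_lit 0)) (cs (nd (nat_lit 230) (nat_lit 0) (cs (lf (nat_lit 27) (nat_lit 186)) (nd (nat_lit 223) (nat_lit 0) (cs (lf (nat_lit 41) (nat_lit 157)) (nd (nat_lit 136) (nat_lit 0) (cs (lf (nat_lit 40) (nat_lit 135)) (rf (nat_lit 1)))))))) (cs (nd (nat_lit 230) (nat_lit 0) (cs (lf (nat_lit 27) (nat_lit 186)) (rf (nat_lit 2)))) (cs (nd (nat_lit 230) (nat_lit 0) (cs (lf (nat_lit 27) (nat_lit 186)) (rf (nat_lit 3)))) (nd (nat_lit 230) (nat_lit 0) (cs (lf (nat_lit 27) (nat_lit 186)) (rf (nat_lit 4))))))))) q76136 (by decide +kernel)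
def q76205 : Q := Q.p (nat_lit 0x880002200000100010400040000000000000000000000000000000000000000000000) (nat_lit 0x20001380011e00ee0801e0a00ebfe0007f0001f80000e0000380000800000000000000000) (nat_lit 12)
theorem c76205 : QOK q76205 := cut [q66782, q67617, q75684, q75730, q75733, q76172, q76177, q76179, q76186, q75355, q76193, q75346, q75656, q37980, q76134, q76143, q76148, q76157] ⟨c66782, c67617, c75684, c75730, c75733, c76172, c76177, c76179, c76186, c75355, c76193, c75346, c75656, c37980, c76134, c76143, c76148, c76157, trivial⟩ (nd (nat_lit 209) (nat_lit 0) (cs (lf (nat_lit 44) (nat_lit 186)) (nd (nat_lit 211) (nat_lit 0) (cs (rf (nat_lit 0)) (cs (rf (nat_lit 1)) (nd (nat_lit 180) (nat_lit 0) (cs (nd (nat_lit 158) (nat_lit 0) (cs (rf (nat_lit 2)) (cs (rf (nat_lit 3)) (cs (rf (nat_lit 4)) (nd (nat_lit 159) (nat_lit 0) (cs (lf (nat_lit 35) (nat_lit 136)) (nd (nat_lit 160) (nat_lit 0) (cs (nd (nat_lit 230) (nat_lit 0) (cs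 (lf (nat_lit 27) (nat_lit 186)) (rf (nat_lit 5)))) (cs (rf (nat_lit 6)) (cs (nd (nat_lit 223) (nat_lit 0) (cs (lf (nat_lit 41) (nat_lit 157)) (rf (nat_lit 7)))) (nd (nat_lit 230) (nat_lit 0) (cs (lf (nat_lit 27) (nat_lit 186)) (rf (nat_lit 8)))))))))))))) (cs (nd (nat_lit 246) (nat_lit 0) (cs (rf (nat_lit 9)) (nd (nat_lit 230) (nat_lit 0) (cs (lf (nat_lit 27) (nat_lit 186)) (rf (nat_lit 10)))))) (cs (nd (nat_lit 246) (nat_lit 0) (cs (rf (nat_lit 11)) (rf (nat_lit 12)))) (cs (nd (nat_lit 246) (nat_lit 0) (cs (rf (nat_lit 13)) (cs (rf (nat_lit 11)) (rf (nat_lit 10))))) (nd (nat_lit 158) (nat_lit 0) (cs (rf (nat_lit 4)) (cs (rf (nat_lit 14)) (cs (rf (nat_lit 15)) (cs (rf (nat_lit 16)) (cs (rf (nat_lit 17)) (nd (nat_lit 230) (nat_lit 0) (cs (lf (nat_lit 27) (nat_lit 186)) (nd (nat_lit 137) (nat_lit 0) (cs (lf (nat_lit 34) (nat_lit 136)) (nd (nat_lit 157) (nat_lit 0) (cs (lf (nat_lit 47) (nat_lit 135)) (nd (nat_lit 246) (nat_lit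 0) (cs (lf (nat_lit 46) (nat_lit 157)) (rf (nat_lit 11)))))))))))))))))))))))))) q76205 (by decide +kernel)
def q76384 : Q := Q.p (nat_lit 0x880002600000180010400040000000000000000000000000000000000000000000000) (nat_lit 0xc0000380006e0001780010f006ce001e3b00eaee00012000000000000000000000000000000000000000) (nat_lit 11)
theorem c76384 : QOK q76384 := cut [q76327, q66782, q51866, q45781, q74821, q40955, q76242, q75350, q72371, q76374, q76324, q76376] ⟨c76327, c66782, c51866, c45781, c74821, c40955, c76242, c75350, c72371, c76374, c76324, c76376, trivial⟩ (nd (nat_lit 268) (nat_lit 0) (cs (rf (nat_lit 0)) (cs (nd (nat_lit 209) (nat_lit 0) (cs (lf (nat_lit 44) (nat_lit 186)) (nd (nat_lit 211) (nat_lit 0) (cs (rf (nat_lit 1)) (nd (nat_lit 269) (nat_lit 0) (cs (lf (nat_lit 14) (nat_lit 246)) (nd (nat_lit 225) (nat_lit 0) (cs (nd (nat_lit 230) (nat_lit 0) (cs (lf (nat_lit 27) (nat_lit 186)) (nd (nat_lit 226) (nat_lit 0) (cs (lf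 (nat_lit 3) (nat_lit 224)) (nd (nat_lit 245) (nat_lit 0) (cs (lf (nat_lit 11) (nat_lit 222)) (nd (nat_lit 201) (nat_lit 0) (cs (lf (nat_lit 23) (nat_lit 200)) (nd (nat_lit 267) (nat_lit 0) (cs (lf (nat_lit 30) (nat_lit 201)) (lf (nat_lit 29) (nat_lit 201)))))))))))) (cs (nd (nat_lit 230) (nat_lit 0) (cs (lf (nat_lit 27) (nat_lit 186)) (nd (nat_lit 247) (nat_lit 0) (cs (lf (nat_lit 42) (nat_lit 202)) (rf (nat_lit 2)))))) (nd (nat_lit 247) (nat_lit 0) (cs (lf (nat_lit 42) (nat_lit 202)) (nd (nat_lit 226) (nat_lit 0) (cs (lf (nat_lit 3) (nat_lit 224)) (nd (nat_lit 244) (nat_lit 0) (cs (lf (nat_lit 10) (nat_lit 222)) (nd (nat_lit 204) (nat_lit 0) (cs (rf (nat_lit 3)) (lf (nat_lit 17) (nat_lit 201))))))))))))))))))) (cs (nd (nat_lit 209) (nat_lit 0) (cs (lf (nat_lit 44) (nat_lit 186)) (nd (nat_lit 269) (nat_lit 0) (cs (lf (nat_lit 14) (nat_lit 246)) (nd (nat_lit 246) (nat_lit 0) (cs (lf (nat_lit 29) (nat_lit 202)) (nd (nat_lit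 289) (nat_lit 0) (cs (lf (nat_lit 40) (nat_lit 201)) (nd (nat_lit 181) (nat_lit 0) (cs (lf (nat_lit 34) (nat_lit 180)) (nd (nat_lit 290) (nat_lit 0) (cs (lf (nat_lit 41) (nat_lit 223)) (nd (nat_lit 312) (nat_lit 0) (cs (lf (nat_lit 46) (nat_lit 223)) (nd (nat_lit 247) (nat_lit 0) (cs (lf (nat_lit 30) (nat_lit 246)) (lf (nat_lit 35) (nat_lit 224)))))))))))))))))) (cs (nd (nat_lit 227) (nat_lit 0) (cs (rf (nat_lit 4)) (cs (nd (nat_lit 269) (nat_lit 0) (cs (lf (nat_lit 14) (nat_lit 246)) (nd (nat_lit 246) (nat_lit 0) (cs (lf (nat_lit 29) (nat_lit 202)) (nd (nat_lit 267) (nat_lit 0) (cs (lf (nat_lit 41) (nat_lit 201)) (nd (nat_lit 179) (nat_lit 0) (cs (lf (nat_lit 46) (nat_lit 179)) (nd (nat_lit 209) (nat_lit 0) (cs (lf (nat_lit 44) (nat_lit 186)) (nd (nat_lit 203) (nat_lit 0) (cs (lf (nat_lit 35) (nat_lit 180)) (nd (nat_lit 205) (nat_lit 0) (cs (rf (nat_lit 5)) (lf (nat_lit 7) (nat_lit 201)))))))))))))))) (nd (nat_lit 230)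 (nat_lit 0) (cs (lf (nat_lit 27) (nat_lit 186)) (nd (nat_lit 225) (nat_lit 0) (cs (lf (nat_lit 2) (nat_lit 224)) (nd (nat_lit 209) (nat_lit 0) (cs (lf (nat_lit 44) (nat_lit 186)) (rf (nat_lit 6))))))))))) (cs (nd (nat_lit 246) (nat_lit 0) (cs (rf (nat_lit 7)) (cs (nd (nat_lit 209) (nat_lit 0) (cs (lf (nat_lit 44) (nat_lit 186)) (nd (nat_lit 203) (nat_lit 0) (cs (lf (nat_lit 35) (nat_lit 180)) (nd (nat_lit 204) (nat_lit 0) (cs (lf (nat_lit 6) (nat_lit 201)) (nd (nat_lit 290) (nat_lit 0) (cs (lf (nat_lit 34) (nat_lit 202)) (rf (nat_lit 8)))))))))) (rf (nat_lit 9))))) (nd (nat_lit 246) (nat_lit 0) (cs (rf (nat_lit 10)) (cs (rf (nat_lit 9)) (nd (nat_lit 230) (nat_lit 0) (cs (lf (nat_lit 27) (nat_lit 186)) (nd (nat_lit 267) (nat_lit 0) (cs (lf (nat_lit 41) (nat_lit 201)) (nd (nat_lit 269) (nat_lit 0) (cs (lf (nat_lit 14) (nat_lit 246)) (nd (nat_lit 203) (nat_lit 0) (cs (lf (nat_lit 35) (nat_lit 180)) (nd (nat_lit 205) (nat_lit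 0) (cs (lf (nat_lit 7) (nat_lit 201)) (nd (nat_lit 225) (nat_lit 0) (cs (lf (nat_lit 30) (nat_lit 202)) (rf (nat_lit 11))))))))))))))))))))))) q76384 (by decide +kernel)
def q76518 : Q := Q.p (nat_lit 0x880002600000180010600040000000000000000000000000000000000000000000000) (nat_lit 0xf00007f0010fc06c0701e0800ea0800002000008000000000000000000000000000000000) (nat_lit 10)
theorem c76518 : QOK q76518 := cut [q76489, q76492, q76499, q76097, q66782, q76253] ⟨c76489, c76492, c76499, c76097, c66782, c76253, trivial⟩ (nd (nat_lit 221) (nat_lit 0) (cs (nd (nat_lit 222) (nat_lit 0) (cs (lf (nat_lit 12) (nat_lit 198)) (lf (nat_lit 17) (nat_lit 199)))) (cs (nd (nat_lit 211) (nat_lit 0) (cs (nd (nat_lit 245) (nat_lit 0) (cs (nd (nat_lit 230) (nat_lit 0) (cs (lf (nat_lit 27) (nat_lit 186)) (rf (nat_lit 0)))) (cs (nd (nat_lit 267) (nat_lit 0) (cs (lf (nat_lit 30) (nat_lit 201)) (rf (nat_lit 1)))) (cs (rf (nat_lit 2)) (cs (nd (nat_lit 246)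 (nat_lit 0) (cs (nd (nat_lit 268) (nat_lit 0) (cs (lf (nat_lit 47) (nat_lit 179)) (lf (nat_lit 42) (nat_lit 201)))) (cs (rf (nat_lit 3)) (nd (nat_lit 230) (nat_lit 0) (cs (lf (nat_lit 27) (nat_lit 186)) (nd (nat_lit 179) (nat_lit 0) (cs (lf (nat_lit 24) (nat_lit 157)) (nd (nat_lit 244) (nat_lit 0) (cs (lf (nat_lit 41) (nat_lit 178)) (nd (nat_lit 243) (nat_lit 0) (cs (lf (nat_lit 23) (nat_lit 220)) (lf (nat_lit 12) (nat_lit 220))))))))))))) (nd (nat_lit 267) (nat_lit 0) (cs (lf (nat_lit 30) (nat_lit 201)) (nd (nat_lit 268) (nat_lit 0) (cs (lf (nat_lit 29) (nat_lit 201)) (nd (nat_lit 269) (nat_lit 0) (cs (lf (nat_lit 14) (nat_lit 246)) (nd (nat_lit 246) (nat_lit 0) (cs (lf (nat_lit 29) (nat_lit 202)) (nd (nat_lit 266) (nat_lit 0) (cs (lf (nat_lit 41) (nat_lit 200)) (nd (nat_lit 265) (nat_lit 0) (cs (lf (nat_lit 12) (nat_lit 242)) (lf (nat_lit 17) (nat_lit 243))))))))))))))))))) (nd (nat_lit 209) (nat_lit 0) (cs (lf (nat_lit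 44) (nat_lit 186)) (rf (nat_lit 4)))))) (nd (nat_lit 209) (nat_lit 0) (cs (lf (nat_lit 44) (nat_lit 186)) (nd (nat_lit 222) (nat_lit 0) (cs (lf (nat_lit 17) (nat_lit 199)) (nd (nat_lit 242) (nat_lit 0) (cs (lf (nat_lit 10) (nat_lit 220)) (nd (nat_lit 246) (nat_lit 0) (cs (lf (nat_lit 5) (nat_lit 221)) (rf (nat_lit 5))))))))))))) q76518 (by decide +kernel)
def q76616 : Q := Q.p (nat_lit 0x880002600000180010400040000000000000000000000000000000000000000000000) (nat_lit 0x380000f00007f0010fc06e6701e03c0ea0f00003800008000000000000000000000000000000000) (nat_lit 11)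
theorem c76616 : QOK q76616 := cut [q76541, q76545, q66782, q76324, q76550, q76555, q76560, q76561, q76096, q70250, q71264, q75338, q76488, q76538, q76492, q76615] ⟨c76541, c76545, c66782, c76324, c76550, c76555, c76560, c76561, c76096, c70250, c71264, c75338, c76488, c76538, c76492, c76615, trivial⟩ (nd (nat_lit 245) (nat_lit 0) (cs (rf (nat_lit 0)) (cs (nd (nat_lit 244) (nat_lit 0) (cs (rf (nat_lit 1)) (cs (nd (nat_lit 209) (nat_lit 0) (cs (lf (nat_lit 44) (nat_lit 186)) (nd (nat_lit 211) (nat_lit 0) (cs (rf (nat_lit 2)) (nd (nat_lit 243) (nat_lit 0) (cs (lf (nat_lit 12) (nat_lit 220)) (nd (nat_lit 246) (nat_lit 0) (cs (nd (nat_lit 268) (nat_lit 0) (cs (lf (nat_lit 5) (nat_lit 243)) (rf (nat_lit 3)))) (rf (nat_lit 4)))))))))) (cs (nd (nat_lit 230) (nat_lit 0) (cs (lf (nat_lit 27) (nat_lit 186)) (nd (nat_lit 209) (nat_lit 0) (cs (lf (nat_lit 44) (nat_lit 186)) (rf (nat_lit 5)))))) (nd (nat_lit 209) (nat_lit 0) (cs (lf (nat_lit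 44) (nat_lit 186)) (nd (nat_lit 225) (nat_lit 0) (cs (lf (nat_lit 6) (nat_lit 222)) (nd (nat_lit 222) (nat_lit 0) (cs (rf (nat_lit 6)) (cs (nd (nat_lit 201) (nat_lit 0) (cs (rf (nat_lit 7)) (nd (nat_lit 221) (nat_lit 0) (cs (lf (nat_lit 12) (nat_lit 198)) (nd (nat_lit 246) (nat_lit 0) (cs (lf (nat_lit 5) (nat_lit 221)) (rf (nat_lit 8)))))))) (nd (nat_lit 200) (nat_lit 0) (cs (lf (nat_lit 23) (nat_lit 199)) (nd (nat_lit 178) (nat_lit 0) (cs (lf (nat_lit 24) (nat_lit 156)) (nd (nat_lit 177) (nat_lit 0) (cs (lf (nat_lit 47) (nat_lit 155)) (nd (nat_lit 179) (nat_lit 0) (cs (lf (nat_lit 35) (nat_lit 156)) (nd (nat_lit 201) (nat_lit 0) (cs (lf (nat_lit 0) (nat_lit 176)) (lf (nat_lit 41) (nat_lit 178))))))))))))))))))))))) (cs (nd (nat_lit 209) (nat_lit 0) (cs (lf (nat_lit 44) (nat_lit 186)) (nd (nat_lit 244) (nat_lit 0) (cs (rf (nat_lit 1)) (cs (rf (nat_lit 5)) (cs (nd (nat_lit 222) (nat_lit 0) (cs (nd (nat_lit 230) (nat_lit 0)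 (cs (lf (nat_lit 27) (nat_lit 186)) (nd (nat_lit 225) (nat_lit 0) (cs (lf (nat_lit 6) (nat_lit 222)) (rf (nat_lit 6)))))) (cs (nd (nat_lit 289) (nat_lit 0) (cs (lf (nat_lit 31) (nat_lit 201)) (nd (nat_lit 211) (nat_lit 0) (cs (rf (nat_lit 9)) (nd (nat_lit 246) (nat_lit 0) (cs (rf (nat_lit 10)) (nd (nat_lit 268) (nat_lit 0) (cs (rf (nat_lit 11)) (nd (nat_lit 290) (nat_lit 0) (cs (lf (nat_lit 41) (nat_lit 223)) (lf (nat_lit 42) (nat_lit 223)))))))))))) (nd (nat_lit 225) (nat_lit 0) (cs (lf (nat_lit 6) (nat_lit 222)) (nd (nat_lit 200) (nat_lit 0) (cs (lf (nat_lit 23) (nat_lit 199)) (nd (nat_lit 267) (nat_lit 0) (cs (lf (nat_lit 24) (nat_lit 178)) (lf (nat_lit 30) (nat_lit 201))))))))))) (nd (nat_lit 267) (nat_lit 0) (cs (lf (nat_lit 30) (nat_lit 201)) (nd (nat_lit 243) (nat_lit 0) (cs (lf (nat_lit 12) (nat_lit 220)) (nd (nat_lit 246) (nat_lit 0) (cs (rf (nat_lit 4)) (cs (nd (nat_lit 269) (nat_lit 0) (cs (lf (nat_lit 4) (nat_lit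 243)) (nd (nat_lit 230) (nat_lit 0) (cs (lf (nat_lit 27) (nat_lit 186)) (nd (nat_lit 247) (nat_lit 0) (cs (lf (nat_lit 5) (nat_lit 244)) (nd (nat_lit 221) (nat_lit 0) (cs (lf (nat_lit 23) (nat_lit 220)) (lf (nat_lit 1) (nat_lit 221)))))))))) (nd (nat_lit 265) (nat_lit 0) (cs (lf (nat_lit 11) (nat_lit 242)) (nd (nat_lit 268) (nat_lit 0) (cs (lf (nat_lit 5) (nat_lit 243)) (nd (nat_lit 290) (nat_lit 0) (cs (lf (nat_lit 42) (nat_lit 223)) (nd (nat_lit 291) (nat_lit 0) (cs (lf (nat_lit 29) (nat_lit 224)) (lf (nat_lit 1) (nat_lit 265))))))))))))))))))))))) (cs (nd (nat_lit 209) (nat_lit 0) (cs (lf (nat_lit 44) (nat_lit 186)) (nd (nat_lit 267) (nat_lit 0) (cs (lf (nat_lit 30) (nat_lit 201)) (nd (nat_lit 201) (nat_lit 0) (cs (rf (nat_lit 12)) (rf (nat_lit 13)))))))) (cs (nd (nat_lit 267) (nat_lit 0) (cs (lf (nat_lit 30) (nat_lit 201)) (nd (nat_lit 201) (nat_lit 0) (cs (rf (nat_lit 14)) (rf (nat_lit 13)))))) (rf (nat_lit 15))))))))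 q76616 (by decide +kernel)
def q76659 : Q := Q.p (nat_lit 0x800002600000180010400040000000000000000000000000000000000000000000000) (nat_lit 0x10000040010b806ce601e3b80eaee0001f0000fc000300000800000000000000000000000) (nat_lit 11)
theorem c76659 : QOK q76659 := cut [q76618, q76620, q66782, q76238, q76622, q76439, q76391, q76629, q75465, q26986, q27525, q76656] ⟨c76618, c76620, c66782, c76238, c76622, c76439, c76391, c76629, c75465, c26986, c27525, c76656, trivial⟩ (nd (nat_lit 203) (nat_lit 0) (cs (rf (nat_lit 0)) (cs (rf (nat_lit 1)) (cs (nd (nat_lit 209) (nat_lit 0) (cs (lf (nat_lit 44) (nat_lit 186)) (nd (nat_lit 222) (nat_lit 0) (cs (lf (nat_lit 12) (nat_lit 199)) (nd (nat_lit 211) (nat_lit 0) (cs (rf (nat_lit 2)) (nd (nat_lit 225) (nat_lit 0) (cs (rf (nat_lit 3)) (cs (rf (nat_lit 4)) (cs (nd (nat_lit 243) (nat_lit 0) (cs (lf (nat_lit 10) (nat_lit 221)) (nd (nat_lit 200) (nat_lit 0) (cs (lf (nat_lit 23) (nat_lit 199))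 (nd (nat_lit 201) (nat_lit 0) (cs (lf (nat_lit 18) (nat_lit 200)) (rf (nat_lit 5)))))))) (nd (nat_lit 201) (nat_lit 0) (cs (nd (nat_lit 200) (nat_lit 0) (cs (lf (nat_lit 0) (nat_lit 199)) (rf (nat_lit 6)))) (cs (nd (nat_lit 244) (nat_lit 0) (cs (lf (nat_lit 11) (nat_lit 221)) (nd (nat_lit 230) (nat_lit 0) (cs (lf (nat_lit 27) (nat_lit 186)) (rf (nat_lit 7)))))) (nd (nat_lit 200) (nat_lit 0) (cs (lf (nat_lit 0) (nat_lit 199)) (nd (nat_lit 230) (nat_lit 0) (cs (lf (nat_lit 27) (nat_lit 186)) (rf (nat_lit 5))))))))))))))))))) (nd (nat_lit 204) (nat_lit 0) (cs (lf (nat_lit 6) (nat_lit 201)) (nd (nat_lit 201) (nat_lit 0) (cs (rf (nat_lit 8)) (cs (nd (nat_lit 230) (nat_lit 0) (cs (lf (nat_lit 27) (nat_lit 186)) (nd (nat_lit 226) (nat_lit 0) (cs (lf (nat_lit 5) (nat_lit 201)) (nd (nat_lit 200) (nat_lit 0) (cs (rf (nat_lit 9)) (lf (nat_lit 19) (nat_lit 200)))))))) (cs (nd (nat_lit 182) (nat_lit 0) (cs (lf (nat_lit 17) (nat_lit 179))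 (nd (nat_lit 160) (nat_lit 0) (cs (nd (nat_lit 226) (nat_lit 0) (cs (rf (nat_lit 10)) (lf (nat_lit 5) (nat_lit 201)))) (cs (nd (nat_lit 159) (nat_lit 0) (cs (nd (nat_lit 226) (nat_lit 0) (cs (lf (nat_lit 47) (nat_lit 137)) (lf (nat_lit 5) (nat_lit 201)))) (nd (nat_lit 179) (nat_lit 0) (cs (lf (nat_lit 23) (nat_lit 178)) (nd (nat_lit 157) (nat_lit 0) (cs (lf (nat_lit 24) (nat_lit 135)) (nd (nat_lit 156) (nat_lit 0) (cs (lf (nat_lit 47) (nat_lit 134)) (nd (nat_lit 158) (nat_lit 0) (cs (lf (nat_lit 35) (nat_lit 135)) (lf (nat_lit 4) (nat_lit 156)))))))))))) (nd (nat_lit 178) (nat_lit 0) (cs (lf (nat_lit 22) (nat_lit 178)) (nd (nat_lit 138) (nat_lit 0) (cs (lf (nat_lit 41) (nat_lit 137)) (nd (nat_lit 117) (nat_lit 0) (cs (lf (nat_lit 34) (nat_lit 116)) (nd (nat_lit 116) (nat_lit 0) (cs (lf (nat_lit 35) (nat_lit 94)) (lf (nat_lit 40) (nat_lit 115))))))))))))))) (rf (nat_lit 11)))))))))))) q76659 (by decide +kernel)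
def q76706 : Q := Q.p (nat_lit 0x800002600000180010400040000000000000000000000000000000000000000000000) (nat_lit 0x100000600107c06ce701e3bc0ea6f0000b800022000000000000000000000000000000000) (nat_lit 11)
theorem c76706 : QOK q76706 := cut [q66782, q76234, q76235, q76238, q76239, q76385, q76391, q76262, q76306, q76317, q76687, q76277, q76629] ⟨c66782, c76234, c76235, c76238, c76239, c76385, c76391, c76262, c76306, c76317, c76687, c76277, c76629, trivial⟩ (nd (nat_lit 209) (nat_lit 0) (cs (lf (nat_lit 44) (nat_lit 186)) (nd (nat_lit 211) (nat_lit 0) (cs (rf (nat_lit 0)) (nd (nat_lit 222) (nat_lit 0) (cs (rf (nat_lit 1)) (cs (rf (nat_lit 2)) (cs (nd (nat_lit 225) (nat_lit 0) (cs (rf (nat_lit 3)) (cs (rf (nat_lit 4)) (nd (nat_lit 200) (nat_lit 0) (cs (lf (nat_lit 23) (nat_lit 199)) (nd (nat_lit 201) (nat_lit 0) (cs (nd (nat_lit 203) (nat_lit 0) (cs (lf (nat_lit 6) (nat_lit 200)) (nd (nat_lit 181) (nat_lit 0) (cs (lf (nat_lit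 17) (nat_lit 178)) (rf (nat_lit 5)))))) (nd (nat_lit 230) (nat_lit 0) (cs (lf (nat_lit 27) (nat_lit 186)) (rf (nat_lit 6))))))))))) (nd (nat_lit 221) (nat_lit 0) (cs (nd (nat_lit 201) (nat_lit 0) (cs (lf (nat_lit 12) (nat_lit 198)) (nd (nat_lit 199) (nat_lit 0) (cs (lf (nat_lit 23) (nat_lit 198)) (nd (nat_lit 200) (nat_lit 0) (cs (rf (nat_lit 7)) (lf (nat_lit 5) (nat_lit 199)))))))) (cs (rf (nat_lit 8)) (cs (rf (nat_lit 9)) (cs (nd (nat_lit 230) (nat_lit 0) (cs (lf (nat_lit 27) (nat_lit 186)) (nd (nat_lit 201) (nat_lit 0) (cs (lf (nat_lit 12) (nat_lit 198)) (nd (nat_lit 243) (nat_lit 0) (cs (lf (nat_lit 11) (nat_lit 220)) (nd (nat_lit 225) (nat_lit 0) (cs (lf (nat_lit 10) (nat_lit 221)) (rf (nat_lit 10)))))))))) (nd (nat_lit 244) (nat_lit 0) (cs (rf (nat_lit 11)) (cs (nd (nat_lit 242) (nat_lit 0) (cs (lf (nat_lit 10) (nat_lit 220)) (nd (nat_lit 230) (nat_lit 0) (cs (lf (nat_lit 27) (nat_lit 186)) (nd (nat_lit 201) (nat_lit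 0) (cs (lf (nat_lit 12) (nat_lit 198)) (rf (nat_lit 12)))))))) (nd (nat_lit 201) (nat_lit 0) (cs (lf (nat_lit 12) (nat_lit 198)) (nd (nat_lit 179) (nat_lit 0) (cs (lf (nat_lit 36) (nat_lit 156)) (nd (nat_lit 199) (nat_lit 0) (cs (lf (nat_lit 23) (nat_lit 198)) (nd (nat_lit 177) (nat_lit 0) (cs (lf (nat_lit 24) (nat_lit 155)) (nd (nat_lit 176) (nat_lit 0) (cs (lf (nat_lit 20) (nat_lit 176)) (lf (nat_lit 2) (nat_lit 176)))))))))))))))))))))))))))) q76706 (by decide +kernel)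
def q76765 : Q := Q.p (nat_lit 0x880002600000100010400040000000000000000000000000000000000000000000000) (nat_lit 0x8001ce0007780010e0004ec000780001f80000e0000380000a0000000000000000000000000000) (nat_lit 10)
theorem c76765 : QOK q76765 := cut [q75628, q76712, q76714, q75733, q76720, q75370, q76376, q76734, q76737, q40946, q76744, q76752, q75343, q76759, q75265] ⟨c75628, c76712, c76714, c75733, c76720, c75370, c76376, c76734, c76737, c40946, c76744, c76752, c75343, c76759, c75265, trivial⟩ (nd (nat_lit 269) (nat_lit 0) (cs (rf (nat_lit 0)) (cs (nd (nat_lit 180) (nat_lit 0) (cs (nd (nat_lit 247) (nat_lit 0) (cs (lf (nat_lit 27) (nat_lit 180)) (rf (nat_lit 1)))) (cs (rf (nat_lit 2)) (nd (nat_lit 158) (nat_lit 0) (cs (rf (nat_lit 3)) (cs (nd (nat_lit 230) (nat_lit 0) (cs (lf (nat_lit 27) (nat_lit 186)) (rf (nat_lit 4)))) (nd (nat_lit 205) (nat_lit 0) (cs (nd (nat_lit 223) (nat_lit 0) (cs (lf (nat_lit 41) (nat_lit 157)) (nd (nat_lit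 204) (nat_lit 0) (cs (lf (nat_lit 8) (nat_lit 201)) (nd (nat_lit 225) (nat_lit 0) (cs (lf (nat_lit 15) (nat_lit 201)) (lf (nat_lit 29) (nat_lit 158)))))))) (cs (nd (nat_lit 137) (nat_lit 0) (cs (lf (nat_lit 34) (nat_lit 136)) (nd (nat_lit 223) (nat_lit 0) (cs (lf (nat_lit 41) (nat_lit 157)) (nd (nat_lit 204) (nat_lit 0) (cs (rf (nat_lit 5)) (lf (nat_lit 8) (nat_lit 201)))))))) (nd (nat_lit 230) (nat_lit 0) (cs (lf (nat_lit 27) (nat_lit 186)) (nd (nat_lit 137) (nat_lit 0) (cs (lf (nat_lit 34) (nat_lit 136)) (nd (nat_lit 225) (nat_lit 0) (cs (rf (nat_lit 6)) (lf (nat_lit 29) (nat_lit 158))))))))))))))))) (cs (nd (nat_lit 272) (nat_lit 0) (cs (nd (nat_lit 230) (nat_lit 0) (cs (lf (nat_lit 27) (nat_lit 186)) (rf (nat_lit 7)))) (cs (nd (nat_lit 270) (nat_lit 0) (cs (lf (nat_lit 12) (nat_lit 246)) (nd (nat_lit 291) (nat_lit 0) (cs (lf (nat_lit 11) (nat_lit 268)) (nd (nat_lit 225) (nat_lit 0) (cs (lf (nat_lit 44) (nat_lit 202))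 (nd (nat_lit 227) (nat_lit 0) (cs (lf (nat_lit 2) (nat_lit 224)) (nd (nat_lit 205) (nat_lit 0) (cs (lf (nat_lit 24) (nat_lit 183)) (rf (nat_lit 8)))))))))))) (nd (nat_lit 227) (nat_lit 0) (cs (rf (nat_lit 9)) (nd (nat_lit 273) (nat_lit 0) (cs (lf (nat_lit 19) (nat_lit 249)) (rf (nat_lit 10))))))))) (cs (rf (nat_lit 11)) (nd (nat_lit 246) (nat_lit 0) (cs (nd (nat_lit 230) (nat_lit 0) (cs (lf (nat_lit 27) (nat_lit 186)) (nd (nat_lit 180) (nat_lit 0) (cs (lf (nat_lit 28) (nat_lit 180)) (rf (nat_lit 12)))))) (cs (rf (nat_lit 13)) (cs (nd (nat_lit 268) (nat_lit 0) (cs (lf (nat_lit 14) (nat_lit 246)) (nd (nat_lit 181) (nat_lit 0) (cs (lf (nat_lit 34) (nat_lit 180)) (nd (nat_lit 180) (nat_lit 0) (cs (lf (nat_lit 28) (nat_lit 180)) (lf (nat_lit 35) (nat_lit 158)))))))) (nd (nat_lit 268) (nat_lit 0) (cs (lf (nat_lit 14) (nat_lit 246)) (rf (nat_lit 14))))))))))))) q76765 (by decide +kernel)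
def q77151 : Q := Q.p (nat_lit 0x800002600000100010600040000000000000000000000000000000000000000000000) (nat_lit 0x40000780003e0010bc00eef00e01c002ff0003fc000ff000088000000000000000000000000000) (nat_lit 11)
theorem c77151 : QOK q77151 := cut [q76906, q76537, q70250, q76499, q76894, q76898, q76955, q76983, q77042, q77056, q51650, q76903, q77074, q76541, q77101, q76033, q77071, q76104, q76545, q76893, q77117, q76899, q77134, q77150] ⟨c76906, c76537, c70250, c76499, c76894, c76898, c76955, c76983, c77042, c77056, c51650, c76903, c77074, c76541, c77101, c76033, c77071, c76104, c76545, c76893, c77117, c76899, c77134, c77150, trivial⟩ (nd (nat_lit 223) (nat_lit 0) (cs (rf (nat_lit 0)) (cs (nd (nat_lit 200) (nat_lit 0) (cs (rf (nat_lit 1)) (cs (nd (nat_lit 209) (nat_lit 0) (cs (lf (nat_lit 44) (nat_lit 186)) (nd (nat_lit 211) (nat_lit 0) (cs (rf (nat_lit 2)) (nd (nat_lit 245) (nat_lit 0) (cs (rf (nat_lit 3)) (cs (nd (nat_lit 179)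 (nat_lit 0) (cs (rf (nat_lit 4)) (cs (rf (nat_lit 5)) (nd (nat_lit 225) (nat_lit 0) (cs (lf (nat_lit 18) (nat_lit 200)) (rf (nat_lit 6))))))) (nd (nat_lit 267) (nat_lit 0) (cs (lf (nat_lit 47) (nat_lit 178)) (lf (nat_lit 30) (nat_lit 201))))))))))) (rf (nat_lit 7))))) (cs (rf (nat_lit 8)) (cs (rf (nat_lit 9)) (cs (nd (nat_lit 209) (nat_lit 0) (cs (lf (nat_lit 44) (nat_lit 186)) (nd (nat_lit 245) (nat_lit 0) (cs (rf (nat_lit 10)) (cs (rf (nat_lit 3)) (nd (nat_lit 179) (nat_lit 0) (cs (rf (nat_lit 4)) (cs (rf (nat_lit 11)) (rf (nat_lit 12)))))))))) (cs (nd (nat_lit 245) (nat_lit 0) (cs (rf (nat_lit 10)) (cs (rf (nat_lit 13)) (nd (nat_lit 179) (nat_lit 0) (cs (rf (nat_lit 11)) (cs (rf (nat_lit 6)) (rf (nat_lit 12)))))))) (cs (rf (nat_lit 14)) (cs (nd (nat_lit 180) (nat_lit 0) (cs (rf (nat_lit 15)) (cs (nd (nat_lit 209) (nat_lit 0) (cs (lf (nat_lit 44) (nat_lit 186)) (nd (nat_lit 199) (nat_lit 0) (cs (rf (nat_lit 16)) (nd (nat_lit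 245) (nat_lit 0) (cs (rf (nat_lit 17)) (nd (nat_lit 244) (nat_lit 0) (cs (rf (nat_lit 18)) (cs (nd (nat_lit 243) (nat_lit 0) (cs (lf (nat_lit 12) (nat_lit 220)) (nd (nat_lit 266) (nat_lit 0) (cs (lf (nat_lit 36) (nat_lit 178)) (nd (nat_lit 288) (nat_lit 0) (cs (lf (nat_lit 30) (nat_lit 222)) (nd (nat_lit 221) (nat_lit 0) (cs (lf (nat_lit 24) (nat_lit 177)) (lf (nat_lit 27) (nat_lit 199)))))))))) (nd (nat_lit 179) (nat_lit 0) (cs (lf (nat_lit 41) (nat_lit 178)) (rf (nat_lit 19))))))))))))) (nd (nat_lit 230) (nat_lit 0) (cs (lf (nat_lit 27) (nat_lit 186)) (nd (nat_lit 209) (nat_lit 0) (cs (lf (nat_lit 44) (nat_lit 186)) (rf (nat_lit 20))))))))) (cs (nd (nat_lit 180) (nat_lit 0) (cs (rf (nat_lit 15)) (cs (rf (nat_lit 20)) (nd (nat_lit 179) (nat_lit 0) (cs (nd (nat_lit 245) (nat_lit 0) (cs (lf (nat_lit 30) (nat_lit 179)) (rf (nat_lit 21)))) (cs (nd (nat_lit 157) (nat_lit 0) (cs (lf (nat_lit 24) (nat_lit 135)) (nd (nat_lit 209)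 (nat_lit 0) (cs (lf (nat_lit 44) (nat_lit 186)) (nd (nat_lit 222) (nat_lit 0) (cs (lf (nat_lit 41) (nat_lit 156)) (nd (nat_lit 220) (nat_lit 0) (cs (nd (nat_lit 156) (nat_lit 0) (cs (lf (nat_lit 47) (nat_lit 134)) (nd (nat_lit 155) (nat_lit 0) (cs (lf (nat_lit 0) (nat_lit 154)) (nd (nat_lit 181) (nat_lit 0) (cs (lf (nat_lit 18) (nat_lit 156)) (lf (nat_lit 21) (nat_lit 155)))))))) (lf (nat_lit 13) (nat_lit 198)))))))))) (cs (nd (nat_lit 135) (nat_lit 0) (cs (lf (nat_lit 25) (nat_lit 135)) (nd (nat_lit 209) (nat_lit 0) (cs (lf (nat_lit 44) (nat_lit 186)) (nd (nat_lit 245) (nat_lit 0) (cs (lf (nat_lit 30) (nat_lit 179)) (rf (nat_lit 5)))))))) (rf (nat_lit 22))))))))) (rf (nat_lit 23)))))))))))) q77151 (by decide +kernel)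
def q77271 : Q := Q.p (nat_lit 0x880002200000100010600040000000000000000000000000000000000000000000000) (nat_lit 0x600103c06cef01e39c0eacf0000380000e000000000000000000000000000000000) (nat_lit 11)
theorem c77271 : QOK q77271 := cut [q66782, q76849, q76873, q77221, q76854, q76978] ⟨c66782, c76849, c76873, c77221, c76854, c76978, trivial⟩ (nd (nat_lit 209) (nat_lit 0) (cs (lf (nat_lit 44) (nat_lit 186)) (nd (nat_lit 211) (nat_lit 0) (cs (rf (nat_lit 0)) (nd (nat_lit 200) (nat_lit 0) (cs (rf (nat_lit 1)) (cs (rf (nat_lit 2)) (cs (rf (nat_lit 3)) (nd (nat_lit 177) (nat_lit 0) (cs (nd (nat_lit 230) (nat_lit 0) (cs (lf (nat_lit 27) (nat_lit 186)) (nd (nat_lit 178) (nat_lit 0) (cs (lf (nat_lit 18) (nat_lit 177)) (nd (nat_lit 176) (nat_lit 0) (cs (lf (nat_lit 21) (nat_lit 176)) (lf (nat_lit 3) (nat_lit 176)))))))) (cs (nd (nat_lit 230) (nat_lit 0) (cs (lf (nat_lit 27) (nat_lit 186)) (nd (nat_lit 199) (nat_lit 0) (cs (lf (nat_lit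 23) (nat_lit 176)) (nd (nat_lit 198) (nat_lit 0) (cs (lf (nat_lit 4) (nat_lit 198)) (rf (nat_lit 4)))))))) (cs (nd (nat_lit 230) (nat_lit 0) (cs (lf (nat_lit 27) (nat_lit 186)) (nd (nat_lit 203) (nat_lit 0) (cs (lf (nat_lit 22) (nat_lit 177)) (nd (nat_lit 222) (nat_lit 0) (cs (lf (nat_lit 11) (nat_lit 199)) (nd (nat_lit 204) (nat_lit 0) (cs (lf (nat_lit 10) (nat_lit 200)) (nd (nat_lit 227) (nat_lit 0) (cs (lf (nat_lit 4) (nat_lit 201)) (nd (nat_lit 182) (nat_lit 0) (cs (lf (nat_lit 45) (nat_lit 182)) (lf (nat_lit 17) (nat_lit 179)))))))))))))) (nd (nat_lit 199) (nat_lit 0) (cs (lf (nat_lit 23) (nat_lit 176)) (nd (nat_lit 222) (nat_lit 0) (cs (rf (nat_lit 5)) (cs (nd (nat_lit 221) (nat_lit 0) (cs (lf (nat_lit 11) (nat_lit 198)) (nd (nat_lit 223) (nat_lit 0) (cs (lf (nat_lit 23) (nat_lit 198)) (nd (nat_lit 243) (nat_lit 0) (cs (lf (nat_lit 11) (nat_lit 220)) (nd (nat_lit 178) (nat_lit 0) (cs (lf (nat_lit 30) (nat_lit 177))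 (lf (nat_lit 35) (nat_lit 155)))))))))) (nd (nat_lit 155) (nat_lit 0) (cs (lf (nat_lit 24) (nat_lit 133)) (nd (nat_lit 221) (nat_lit 0) (cs (lf (nat_lit 11) (nat_lit 198)) (lf (nat_lit 29) (nat_lit 155))))))))))))))))))))))) q77271 (by decide +kernel)
def q77473 : Q := Q.p (nat_lit 0x880002600000100010400040000000000000000000000000000000000000000000000) (nat_lit 0x40000700001c80006e0007780010e006ce801e7a00ebf80005a000000000000000000000000000000000000000) (nat_lit 12)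
theorem c77473 : QOK q77473 := cut [q66782, q74821, q77440, q77444, q75628, q76752, q77447, q76759, q77451, q77454, q77470] ⟨c66782, c74821, c77440, c77444, c75628, c76752, c77447, c76759, c77451, c77454, c77470, trivial⟩ (nd (nat_lit 209) (nat_lit 0) (cs (lf (nat_lit 44) (nat_lit 186)) (nd (nat_lit 211) (nat_lit 0) (cs (rf (nat_lit 0)) (nd (nat_lit 227) (nat_lit 0) (cs (rf (nat_lit 1)) (cs (rf (nat_lit 2)) (cs (rf (nat_lit 3)) (cs (nd (nat_lit 225) (nat_lit 0) (cs (lf (nat_lit 2) (nat_lit 224)) (nd (nat_lit 269) (nat_lit 0) (cs (nd (nat_lit 230) (nat_lit 0) (cs (lf (nat_lit 27) (nat_lit 186)) (rf (nat_lit 4)))) (cs (rf (nat_lit 5)) (cs (nd (nat_lit 230) (nat_lit 0) (cs (lf (nat_lit 27) (nat_lit 186)) (rf (nat_lit 6)))) (cs (nd (nat_lit 246) (nat_lit 0) (cs (rf (nat_lit 7)) (cs (rf (nat_lit 8)) (nd (nat_lit 180) (nat_lit 0) (cs (lf (nat_lit 28) (nat_lit 180)) (nd (nat_lit 245) (nat_lit 0) (cs (lf (nat_lit 41) (nat_lit 179))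 (rf (nat_lit 9))))))))) (nd (nat_lit 247) (nat_lit 0) (cs (lf (nat_lit 42) (nat_lit 202)) (nd (nat_lit 180) (nat_lit 0) (cs (lf (nat_lit 27) (nat_lit 180)) (lf (nat_lit 45) (nat_lit 180))))))))))))) (rf (nat_lit 10))))))))))) q77473 (by decide +kernel)
def q77496 : Q := Q.p (nat_lit 0x880002600000100010400040000000000000000000000000000000000000000000000) (nat_lit 0xa0000380006e0007780010e006ce801e7a00ebf00005c000000000000000000000000000000000000000) (nat_lit 12)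
theorem c77496 : QOK q77496 := cut [q66782, q74821, q76744, q77444, q40955, q77466, q77469, q51158, q74513, q76750, q77479, q50955, q76757, q74531, q74469, q75627] ⟨c66782, c74821, c76744, c77444, c40955, c77466, c77469, c51158, c74513, c76750, c77479, c50955, c76757, c74531, c74469, c75627, trivial⟩ (nd (nat_lit 209) (nat_lit 0) (cs (lf (nat_lit 44) (nat_lit 186)) (nd (nat_lit 211) (nat_lit 0) (cs (rf (nat_lit 0)) (nd (nat_lit 268) (nat_lit 0) (cs (nd (nat_lit 269) (nat_lit 0) (cs (lf (nat_lit 14) (nat_lit 246)) (nd (nat_lit 227) (nat_lit 0) (cs (rf (nat_lit 1)) (cs (rf (nat_lit 2)) (cs (rf (nat_lit 3)) (nd (nat_lit 205) (nat_lit 0) (cs (rf (nat_lit 4)) (cs (rf (nat_lit 5)) (rf (nat_lit 6))))))))))) (cs (nd (nat_lit 246) (nat_lit 0) (cs (rf (nat_lit 7)) (cs (rf (nat_lit 8)) (cs (rf (nat_lit 9)) (cs (rf (nat_lit 10)) (nd (nat_lit 230) (nat_lit 0) (cs (lf (nat_lit 27) (nat_lit 186)) (nd (nat_lit 203) (nat_lit 0) (cs (lf (nat_lit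 35) (nat_lit 180)) (nd (nat_lit 290) (nat_lit 0) (cs (lf (nat_lit 34) (nat_lit 202)) (nd (nat_lit 291) (nat_lit 0) (cs (lf (nat_lit 29) (nat_lit 224)) (nd (nat_lit 311) (nat_lit 0) (cs (lf (nat_lit 40) (nat_lit 223)) (nd (nat_lit 312) (nat_lit 0) (cs (lf (nat_lit 41) (nat_lit 245)) (rf (nat_lit 11))))))))))))))))))) (cs (nd (nat_lit 230) (nat_lit 0) (cs (lf (nat_lit 27) (nat_lit 186)) (nd (nat_lit 269) (nat_lit 0) (cs (lf (nat_lit 14) (nat_lit 246)) (nd (nat_lit 246) (nat_lit 0) (cs (lf (nat_lit 29) (nat_lit 202)) (rf (nat_lit 12)))))))) (cs (nd (nat_lit 246) (nat_lit 0) (cs (rf (nat_lit 9)) (cs (nd (nat_lit 269) (nat_lit 0) (cs (lf (nat_lit 14) (nat_lit 246)) (rf (nat_lit 13)))) (nd (nat_lit 269) (nat_lit 0) (cs (lf (nat_lit 14) (nat_lit 246)) (rf (nat_lit 14))))))) (nd (nat_lit 269) (nat_lit 0) (cs (lf (nat_lit 14) (nat_lit 246)) (rf (nat_lit 15))))))))))))) q77496 (by decide +kernel)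
def q77510 : Q := Q.p (nat_lit 0x880002600000100010400040000000000000000000000000000000000000000000000) (nat_lit 0x40000700001c00006e0007780010e006ce801e7a00ebd800056000008000000000000000000000000000000000) (nat_lit 12)
theorem c77510 : QOK q77510 := cut [q66782, q74821, q77440, q77444, q77470, q76241, q76743, q74287, q77451, q50554, q37980] ⟨c66782, c74821, c77440, c77444, c77470, c76241, c76743, c74287, c77451, c50554, c37980, trivial⟩ (nd (nat_lit 209) (nat_lit 0) (cs (lf (nat_lit 44) (nat_lit 186)) (nd (nat_lit 211) (nat_lit 0) (cs (rf (nat_lit 0)) (nd (nat_lit 227) (nat_lit 0) (cs (rf (nat_lit 1)) (cs (rf (nat_lit 2)) (cs (rf (nat_lit 3)) (cs (rf (nat_lit 4)) (nd (nat_lit 225) (nat_lit 0) (cs (lf (nat_lit 2) (nat_lit 224)) (nd (nat_lit 269) (nat_lit 0) (cs (nd (nat_lit 268) (nat_lit 0) (cs (lf (nat_lit 14) (nat_lit 246)) (rf (nat_lit 5)))) (cs (rf (nat_lit 6)) (cs (nd (nat_lit 230) (nat_lit 0) (cs (lf (nat_lit 27) (nat_lit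 186)) (nd (nat_lit 268) (nat_lit 0) (cs (lf (nat_lit 14) (nat_lit 246)) (nd (nat_lit 246) (nat_lit 0) (cs (lf (nat_lit 29) (nat_lit 202)) (nd (nat_lit 267) (nat_lit 0) (cs (lf (nat_lit 41) (nat_lit 201)) (nd (nat_lit 180) (nat_lit 0) (cs (lf (nat_lit 40) (nat_lit 179)) (rf (nat_lit 7)))))))))))) (nd (nat_lit 246) (nat_lit 0) (cs (rf (nat_lit 8)) (cs (nd (nat_lit 268) (nat_lit 0) (cs (lf (nat_lit 14) (nat_lit 246)) (nd (nat_lit 290) (nat_lit 0) (cs (lf (nat_lit 35) (nat_lit 202)) (rf (nat_lit 9)))))) (nd (nat_lit 180) (nat_lit 0) (cs (lf (nat_lit 28) (nat_lit 180)) (rf (nat_lit 10)))))))))))))))))))))) q77510 (by decide +kernel)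
def q77587 : Q := Q.p (nat_lit 0x880002200000100010400040000000000000000000000000000000000000000000000) (nat_lit 0x80000380000e0000180010e000cef0023bc000ff0000fc000380000a0000000000000000000000000000) (nat_lit 12)
theorem c77587 : QOK q77587 := cut [q75658, q75992, q75350, q75557, q76750, q76787, q76873, q76874, q74497, q75343, q75656, q77549, q77555, q77562, q77575, q77586] ⟨c75658, c75992, c75350, c75557, c76750, c76787, c76873, c76874, c74497, c75343, c75656, c77549, c77555, c77562, c77575, c77586, trivial⟩ (nd (nat_lit 246) (nat_lit 0) (cs (rf (nat_lit 0)) (cs (rf (nat_lit 1)) (cs (nd (nat_lit 268) (nat_lit 0) (cs (rf (nat_lit 2)) (cs (rf (nat_lit 3)) (cs (rf (nat_lit 4)) (nd (nat_lit 201) (nat_lit 0) (cs (lf (nat_lit 47) (nat_lit 179)) (nd (nat_lit 200) (nat_lit 0) (cs (rf (nat_lit 5)) (cs (rf (nat_lit 6)) (cs (rf (nat_lit 7)) (nd (nat_lit 230) (nat_lit 0) (cs (lf (nat_lit 27) (nat_lit 186)) (nd (nat_lit 203) (nat_lit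 0) (cs (lf (nat_lit 35) (nat_lit 180)) (nd (nat_lit 267) (nat_lit 0) (cs (lf (nat_lit 41) (nat_lit 201)) (nd (nat_lit 177) (nat_lit 0) (cs (lf (nat_lit 22) (nat_lit 177)) (rf (nat_lit 8)))))))))))))))))))) (cs (nd (nat_lit 180) (nat_lit 0) (cs (rf (nat_lit 9)) (cs (rf (nat_lit 10)) (cs (nd (nat_lit 230) (nat_lit 0) (cs (lf (nat_lit 27) (nat_lit 186)) (nd (nat_lit 209) (nat_lit 0) (cs (lf (nat_lit 44) (nat_lit 186)) (rf (nat_lit 11)))))) (rf (nat_lit 12)))))) (cs (nd (nat_lit 179) (nat_lit 0) (cs (nd (nat_lit 201) (nat_lit 0) (cs (lf (nat_lit 42) (nat_lit 179)) (nd (nat_lit 157) (nat_lit 0) (cs (lf (nat_lit 45) (nat_lit 157)) (lf (nat_lit 27) (nat_lit 157)))))) (cs (nd (nat_lit 230) (nat_lit 0) (cs (lf (nat_lit 27) (nat_lit 186)) (nd (nat_lit 209) (nat_lit 0) (cs (lf (nat_lit 44) (nat_lit 186)) (nd (nat_lit 180) (nat_lit 0) (cs (lf (nat_lit 47) (nat_lit 157)) (rf (nat_lit 13)))))))) (nd (nat_lit 230) (nat_lit 0) (cs (lf (nat_lit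 27) (nat_lit 186)) (nd (nat_lit 209) (nat_lit 0) (cs (lf (nat_lit 44) (nat_lit 186)) (nd (nat_lit 268) (nat_lit 0) (cs (lf (nat_lit 46) (nat_lit 179)) (nd (nat_lit 289) (nat_lit 0) (cs (lf (nat_lit 40) (nat_lit 201)) (nd (nat_lit 290) (nat_lit 0) (cs (lf (nat_lit 41) (nat_lit 223)) (nd (nat_lit 313) (nat_lit 0) (cs (lf (nat_lit 28) (nat_lit 224)) (nd (nat_lit 225) (nat_lit 0) (cs (lf (nat_lit 35) (nat_lit 202)) (nd (nat_lit 312) (nat_lit 0) (cs (lf (nat_lit 29) (nat_lit 246)) (lf (nat_lit 34) (nat_lit 224))))))))))))))))))))) (cs (rf (nat_lit 14)) (rf (nat_lit 15))))))))) q77587 (by decide +kernel)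
def q77666 : Q := Q.p (nat_lit 0x800002600000100010400041000000000000000000000000000000000000000000000) (nat_lit 0x112000ce8002080003ee0007f0001f80000a0000000000000000000000000000) (nat_lit 9)
theorem c77666 : QOK q77666 := cut [q75733, q77657, q77660, q77664] ⟨c75733, c77657, c77660, c77664, trivial⟩ (nd (nat_lit 158) (nat_lit 0) (cs (rf (nat_lit 0)) (cs (rf (nat_lit 1)) (cs (rf (nat_lit 2)) (nd (nat_lit 230) (nat_lit 0) (cs (lf (nat_lit 27) (nat_lit 186)) (rf (nat_lit 3)))))))) q77666 (by decide +kernel)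
def q77820 : Q := Q.p (nat_lit 0x880002600000100010400042000000000000000000000000000000000000000000000) (nat_lit 0x400001800006a0001780011600eee001e3380ebde0007f8000380000e0000380000800000000000000000) (nat_lit 11)
theorem c77820 : QOK q77820 := cut [q66782, q67617, q77776, q76119, q77780, q56870, q50022, q75733, q75681, q76113, q77744] ⟨c66782, c67617, c77776, c76119, c77780, c56870, c50022, c75733, c75681, c76113, c77744, trivial⟩ (nd (nat_lit 209) (nat_lit 0) (cs (lf (nat_lit 44) (nat_lit 186)) (nd (nat_lit 211) (nat_lit 0) (cs (rf (nat_lit 0)) (cs (rf (nat_lit 1)) (nd (nat_lit 180) (nat_lit 0) (cs (rf (nat_lit 2)) (cs (nd (nat_lit 157) (nat_lit 0) (cs (rf (nat_lit 3)) (nd (nat_lit 227) (nat_lit 0) (cs (rf (nat_lit 4)) (nd (nat_lit 158) (nat_lit 0) (cs (lf (nat_lit 47) (nat_lit 135)) (nd (nat_lit 183) (nat_lit 0) (cs (nd (nat_lit 205) (nat_lit 0) (cs (lf (nat_lit 29) (nat_lit 183)) (rf (nat_lit 5)))) (lf (nat_lit 19)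 (nat_lit 157)))))))))) (cs (nd (nat_lit 230) (nat_lit 0) (cs (lf (nat_lit 27) (nat_lit 186)) (nd (nat_lit 246) (nat_lit 0) (cs (lf (nat_lit 35) (nat_lit 158)) (nd (nat_lit 245) (nat_lit 0) (cs (lf (nat_lit 41) (nat_lit 179)) (nd (nat_lit 179) (nat_lit 0) (cs (lf (nat_lit 47) (nat_lit 157)) (nd (nat_lit 201) (nat_lit 0) (cs (rf (nat_lit 6)) (lf (nat_lit 42) (nat_lit 179)))))))))))) (nd (nat_lit 158) (nat_lit 0) (cs (rf (nat_lit 7)) (cs (nd (nat_lit 136) (nat_lit 0) (cs (rf (nat_lit 8)) (cs (rf (nat_lit 9)) (cs (nd (nat_lit 230) (nat_lit 0) (cs (lf (nat_lit 27) (nat_lit 186)) (nd (nat_lit 113) (nat_lit 0) (cs (lf (nat_lit 46) (nat_lit 113)) (nd (nat_lit 114) (nat_lit 0) (cs (lf (nat_lit 47) (nat_lit 91)) (nd (nat_lit 92) (nat_lit 0) (cs (lf (nat_lit 28) (nat_lit 92)) (nd (nat_lit 93) (nat_lit 0) (cs (lf (nat_lit 35) (nat_lit 70)) (lf (nat_lit 34) (nat_lit 92)))))))))))) (nd (nat_lit 113) (nat_lit 0) (cs (lf (nat_lit 46) (nat_lit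 113)) (nd (nat_lit 159) (nat_lit 0) (cs (lf (nat_lit 35) (nat_lit 136)) (nd (nat_lit 114) (nat_lit 0) (cs (lf (nat_lit 24) (nat_lit 92)) (lf (nat_lit 47) (nat_lit 91)))))))))))) (cs (nd (nat_lit 159) (nat_lit 0) (cs (rf (nat_lit 10)) (nd (nat_lit 182) (nat_lit 0) (cs (nd (nat_lit 157) (nat_lit 0) (cs (lf (nat_lit 0) (nat_lit 156)) (lf (nat_lit 18) (nat_lit 157)))) (nd (nat_lit 179) (nat_lit 0) (cs (nd (nat_lit 230) (nat_lit 0) (cs (lf (nat_lit 27) (nat_lit 186)) (nd (nat_lit 200) (nat_lit 0) (cs (lf (nat_lit 10) (nat_lit 178)) (nd (nat_lit 178) (nat_lit 0) (cs (lf (nat_lit 11) (nat_lit 177)) (lf (nat_lit 12) (nat_lit 155)))))))) (nd (nat_lit 204) (nat_lit 0) (cs (lf (nat_lit 5) (nat_lit 179)) (nd (nat_lit 160) (nat_lit 0) (cs (lf (nat_lit 6) (nat_lit 157)) (nd (nat_lit 226) (nat_lit 0) (cs (lf (nat_lit 42) (nat_lit 159)) (lf (nat_lit 28) (nat_lit 160)))))))))))))) (nd (nat_lit 230) (nat_lit 0) (cs (lf (nat_lit 27) (nat_lit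 186)) (nd (nat_lit 157) (nat_lit 0) (cs (lf (nat_lit 47) (nat_lit 135)) (nd (nat_lit 156) (nat_lit 0) (cs (lf (nat_lit 0) (nat_lit 155)) (nd (nat_lit 182) (nat_lit 0) (cs (lf (nat_lit 18) (nat_lit 157)) (lf (nat_lit 21) (nat_lit 156))))))))))))))))))))))) q77820 (by decide +kernel)
def q77874 : Q := Q.p (nat_lit 0x880002600000100010400041000000000000000000000000000000000000000000000) (nat_lit 0x140000700001e0001e000014000112006ce801e3200ea400001c000030000080000000000000000000000000000) (nat_lit 11)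
theorem c77874 : QOK q77874 := cut [q76033, q66782, q77722, q77738, q76224, q73793, q73791] ⟨c76033, c66782, c77722, c77738, c76224, c73793, c73791, trivial⟩ (nd (nat_lit 223) (nat_lit 0) (cs (rf (nat_lit 0)) (nd (nat_lit 209) (nat_lit 0) (cs (lf (nat_lit 44) (nat_lit 186)) (nd (nat_lit 211) (nat_lit 0) (cs (rf (nat_lit 1)) (nd (nat_lit 226) (nat_lit 0) (cs (rf (nat_lit 2)) (cs (rf (nat_lit 3)) (cs (nd (nat_lit 293) (nat_lit 0) (cs (rf (nat_lit 4)) (cs (nd (nat_lit 230) (nat_lit 0) (cs (lf (nat_lit 27) (nat_lit 186)) (rf (nat_lit 5)))) (nd (nat_lit 230) (nat_lit 0) (cs (lf (nat_lit 27) (nat_lit 186)) (rf (nat_lit 6))))))) (nd (nat_lit 225) (nat_lit 0) (cs (lf (nat_lit 3) (nat_lit 224)) (lf (nat_lit 4) (nat_lit 223)))))))))))))) q77874 (by decide +kernel)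
def q77927 : Q := Q.p (nat_lit 0x880002600000100010400040000000000000000000000000000000000000000000000) (nat_lit 0x40000700001c0000600007500011400eee801e7a00ebf0000fc000020000080000000000000000000000000000) (nat_lit 11)
theorem c77927 : QOK q77927 := cut [q66782, q67617, q77440, q77444, q77470, q57499, q77755, q77752, q77770, q77856, q77776, q69415] ⟨c66782, c67617, c77440, c77444, c77470, c57499, c77755, c77752, c77770, c77856, c77776, c69415, trivial⟩ (nd (nat_lit 209) (nat_lit 0) (cs (lf (nat_lit 44) (nat_lit 186)) (nd (nat_lit 211) (nat_lit 0) (cs (rf (nat_lit 0)) (cs (rf (nat_lit 1)) (nd (nat_lit 227) (nat_lit 0) (cs (rf (nat_lit 2)) (cs (rf (nat_lit 3)) (cs (rf (nat_lit 4)) (cs (nd (nat_lit 230) (nat_lit 0) (cs (lf (nat_lit 27) (nat_lit 186)) (nd (nat_lit 226) (nat_lit 0) (cs (lf (nat_lit 1) (nat_lit 224)) (rf (nat_lit 5)))))) (nd (nat_lit 183) (nat_lit 0) (cs (rf (nat_lit 6)) (cs (nd (nat_lit 181) (nat_lit 0) (cs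 (rf (nat_lit 7)) (cs (rf (nat_lit 8)) (cs (rf (nat_lit 9)) (nd (nat_lit 180) (nat_lit 0) (cs (rf (nat_lit 10)) (nd (nat_lit 184) (nat_lit 0) (cs (lf (nat_lit 2) (nat_lit 183)) (nd (nat_lit 182) (nat_lit 0) (cs (lf (nat_lit 11) (nat_lit 179)) (rf (nat_lit 11)))))))))))) (nd (nat_lit 230) (nat_lit 0) (cs (lf (nat_lit 27) (nat_lit 186)) (nd (nat_lit 226) (nat_lit 0) (cs (lf (nat_lit 1) (nat_lit 224)) (nd (nat_lit 205) (nat_lit 0) (cs (lf (nat_lit 29) (nat_lit 183)) (nd (nat_lit 248) (nat_lit 0) (cs (lf (nat_lit 41) (nat_lit 182)) (lf (nat_lit 36) (nat_lit 160))))))))))))))))))))))) q77927 (by decide +kernel)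
def q78042 : Q := Q.p (nat_lit 0x880002600000100010000040000000000000000000000000000000000000000000000) (nat_lit 0xe00007e0001ec0007700011c006ce001e7800eae000038000000000000000000000000000000000000000) (nat_lit 12)
theorem c78042 : QOK q78042 := cut [q72396, q66782, q68600, q77738, q63822, q56689, q40931, q40967, q75607, q46561, q75331, q60671] ⟨c72396, c66782, c68600, c77738, c63822, c56689, c40931, c40967, c75607, c46561, c75331, c60671, trivial⟩ (nd (nat_lit 248) (nat_lit 0) (cs (rf (nat_lit 0)) (cs (nd (nat_lit 209) (nat_lit 0) (cs (lf (nat_lit 44) (nat_lit 186)) (nd (nat_lit 211) (nat_lit 0) (cs (rf (nat_lit 1)) (nd (nat_lit 226) (nat_lit 0) (cs (rf (nat_lit 2)) (cs (rf (nat_lit 3)) (cs (nd (nat_lit 227) (nat_lit 0) (cs (lf (nat_lit 1) (nat_lit 224)) (nd (nat_lit 230) (nat_lit 0) (cs (lf (nat_lit 27) (nat_lit 186)) (nd (nat_lit 293) (nat_lit 0) (cs (lf (nat_lit 42) (nat_lit 226)) (rf (nat_lit 4)))))))) (nd (nat_lit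 204) (nat_lit 0) (cs (lf (nat_lit 24) (nat_lit 182)) (nd (nat_lit 205) (nat_lit 0) (cs (nd (nat_lit 225) (nat_lit 0) (cs (lf (nat_lit 3) (nat_lit 224)) (nd (nat_lit 203) (nat_lit 0) (cs (lf (nat_lit 6) (nat_lit 202)) (nd (nat_lit 181) (nat_lit 0) (cs (lf (nat_lit 42) (nat_lit 181)) (lf (nat_lit 24) (nat_lit 159)))))))) (cs (nd (nat_lit 270) (nat_lit 0) (cs (lf (nat_lit 35) (nat_lit 182)) (rf (nat_lit 5)))) (nd (nat_lit 227) (nat_lit 0) (cs (lf (nat_lit 1) (nat_lit 224)) (rf (nat_lit 6))))))))))))))))) (cs (nd (nat_lit 272) (nat_lit 0) (cs (rf (nat_lit 7)) (cs (rf (nat_lit 8)) (nd (nat_lit 294) (nat_lit 0) (cs (rf (nat_lit 9)) (nd (nat_lit 209) (nat_lit 0) (cs (lf (nat_lit 44) (nat_lit 186)) (nd (nat_lit 247) (nat_lit 0) (cs (lf (nat_lit 0) (nat_lit 246)) (rf (nat_lit 10))))))))))) (nd (nat_lit 209) (nat_lit 0) (cs (lf (nat_lit 44) (nat_lit 186)) (nd (nat_lit 247) (nat_lit 0) (cs (lf (nat_lit 22) (nat_lit 224)) (rf (nat_lit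 11)))))))))) q78042 (by decide +kernel)
def q78064 : Q := Q.p (nat_lit 0x800002000000100010400041000000000000000000000000000000000000000000000) (nat_lit 0x2000808002020003ee0007f0001f80000a0000000000000000000000000000) (nat_lit 8)
theorem c78064 : QOK q78064 := cut [q75684, q75730, q77660] ⟨c75684, c75730, c77660, trivial⟩ (nd (nat_lit 158) (nat_lit 0) (cs (rf (nat_lit 0)) (cs (rf (nat_lit 1)) (rf (nat_lit 2))))) q78064 (by decide +kernel)
def q78189 : Q := Q.p (nat_lit 0x880002600000100010000040000000000000000000000000000000000000000000000) (nat_lit 0x4e0001380011f000cee0027fc001fe0001fc00020000000000000000000000000000000000) (nat_lit 13)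
theorem c78189 : QOK q78189 := cut [q77245, q74164, q45696, q74442, q77640, q78168, q78176, q76385, q78184, q78186] ⟨c77245, c74164, c45696, c74442, c77640, c78168, c78176, c76385, c78184, c78186, trivial⟩ (nd (nat_lit 225) (nat_lit 0) (cs (rf (nat_lit 0)) (cs (nd (nat_lit 230) (nat_lit 0) (cs (lf (nat_lit 27) (nat_lit 186)) (rf (nat_lit 1)))) (nd (nat_lit 247) (nat_lit 0) (cs (lf (nat_lit 20) (nat_lit 224)) (nd (nat_lit 202) (nat_lit 0) (cs (nd (nat_lit 269) (nat_lit 0) (cs (lf (nat_lit 42) (nat_lit 202)) (rf (nat_lit 2)))) (cs (nd (nat_lit 203) (nat_lit 0) (cs (nd (nat_lit 268) (nat_lit 0) (cs (nd (nat_lit 269) (nat_lit 0) (cs (lf (nat_lit 41) (nat_lit 202)) (lf (nat_lit 42) (nat_lit 202)))) (nd (nat_lit 246) (nat_lit 0) (cs (lf (nat_lit 36) (nat_lit 180)) (rf (nat_lit 3)))))) (cs (nd (nat_lit 246) (nat_lit 0) (cs (rf (nat_lit 4)) (cs (nd (nat_lit 209) (nat_lit 0) (cs (lf (nat_lit 44) (nat_lit 186)) (nd (nat_lit 230) (nat_lit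 0) (cs (lf (nat_lit 27) (nat_lit 186)) (nd (nat_lit 181) (nat_lit 0) (cs (lf (nat_lit 36) (nat_lit 158)) (rf (nat_lit 5)))))))) (nd (nat_lit 268) (nat_lit 0) (cs (lf (nat_lit 30) (nat_lit 202)) (rf (nat_lit 3))))))) (cs (nd (nat_lit 230) (nat_lit 0) (cs (lf (nat_lit 27) (nat_lit 186)) (rf (nat_lit 6)))) (nd (nat_lit 230) (nat_lit 0) (cs (lf (nat_lit 27) (nat_lit 186)) (nd (nat_lit 209) (nat_lit 0) (cs (lf (nat_lit 44) (nat_lit 186)) (nd (nat_lit 269) (nat_lit 0) (cs (lf (nat_lit 42) (nat_lit 202)) (nd (nat_lit 182) (nat_lit 0) (cs (lf (nat_lit 34) (nat_lit 181)) (nd (nat_lit 181) (nat_lit 0) (cs (lf (nat_lit 35) (nat_lit 159)) (rf (nat_lit 7)))))))))))))))) (cs (nd (nat_lit 180) (nat_lit 0) (cs (lf (nat_lit 24) (nat_lit 158)) (rf (nat_lit 8)))) (rf (nat_lit 9))))))))))) q78189 (by decide +kernel)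
def q78371 : Q := Q.p (nat_lit 0x880002680000100010c00040000000000000000000000000000000000000000000000) (nat_lit 0xd00007c00103800c2f00273c0001f0000700001c000000000000000000000000000000000) (nat_lit 10)
theorem c78371 : QOK q78371 := cut [q77158, q76829, q76618, q77214, q76901, q77235, q75776, q76442, q76404, q76391] ⟨c77158, c76829, c76618, c77214, c76901, c77235, c75776, c76442, c76404, c76391, trivial⟩ (nd (nat_lit 225) (nat_lit 0) (cs (rf (nat_lit 0)) (nd (nat_lit 201) (nat_lit 0) (cs (nd (nat_lit 230) (nat_lit 0) (cs (lf (nat_lit 27) (nat_lit 186)) (nd (nat_lit 158) (nat_lit 0) (cs (lf (nat_lit 25) (nat_lit 158)) (nd (nat_lit 200) (nat_lit 0) (cs (lf (nat_lit 0) (nat_lit 199)) (nd (nat_lit 222) (nat_lit 0) (cs (lf (nat_lit 11) (nat_lit 199)) (rf (nat_lit 1)))))))))) (cs (nd (nat_lit 223) (nat_lit 0) (cs (rf (nat_lit 2)) (cs (rf (nat_lit 3)) (nd (nat_lit 209) (nat_lit 0) (cs (lf (nat_lit 44) (nat_lit 186)) (nd (nat_lit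 204) (nat_lit 0) (cs (lf (nat_lit 6) (nat_lit 201)) (nd (nat_lit 179) (nat_lit 0) (cs (lf (nat_lit 23) (nat_lit 178)) (nd (nat_lit 158) (nat_lit 0) (cs (rf (nat_lit 4)) (lf (nat_lit 25) (nat_lit 158))))))))))))) (cs (nd (nat_lit 158) (nat_lit 0) (cs (lf (nat_lit 25) (nat_lit 158)) (nd (nat_lit 209) (nat_lit 0) (cs (lf (nat_lit 44) (nat_lit 186)) (nd (nat_lit 230) (nat_lit 0) (cs (lf (nat_lit 27) (nat_lit 186)) (nd (nat_lit 200) (nat_lit 0) (cs (lf (nat_lit 0) (nat_lit 199)) (nd (nat_lit 178) (nat_lit 0) (cs (lf (nat_lit 23) (nat_lit 177)) (rf (nat_lit 5)))))))))))) (cs (nd (nat_lit 200) (nat_lit 0) (cs (lf (nat_lit 0) (nat_lit 199)) (nd (nat_lit 158) (nat_lit 0) (cs (lf (nat_lit 25) (nat_lit 158)) (nd (nat_lit 178) (nat_lit 0) (cs (lf (nat_lit 23) (nat_lit 177)) (nd (nat_lit 209) (nat_lit 0) (cs (lf (nat_lit 44) (nat_lit 186)) (rf (nat_lit 6)))))))))) (cs (nd (nat_lit 230) (nat_lit 0) (cs (lf (nat_lit 27) (nat_lit 186))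 (nd (nat_lit 209) (nat_lit 0) (cs (lf (nat_lit 44) (nat_lit 186)) (nd (nat_lit 180) (nat_lit 0) (cs (lf (nat_lit 24) (nat_lit 158)) (nd (nat_lit 200) (nat_lit 0) (cs (lf (nat_lit 0) (nat_lit 199)) (nd (nat_lit 222) (nat_lit 0) (cs (lf (nat_lit 11) (nat_lit 199)) (nd (nat_lit 204) (nat_lit 0) (cs (lf (nat_lit 10) (nat_lit 200)) (nd (nat_lit 205) (nat_lit 0) (cs (lf (nat_lit 23) (nat_lit 179)) (lf (nat_lit 6) (nat_lit 202)))))))))))))))) (nd (nat_lit 223) (nat_lit 0) (cs (rf (nat_lit 7)) (cs (rf (nat_lit 3)) (cs (nd (nat_lit 200) (nat_lit 0) (cs (lf (nat_lit 0) (nat_lit 199)) (nd (nat_lit 230) (nat_lit 0) (cs (lf (nat_lit 27) (nat_lit 186)) (nd (nat_lit 178) (nat_lit 0) (cs (lf (nat_lit 23) (nat_lit 177)) (nd (nat_lit 209) (nat_lit 0) (cs (lf (nat_lit 44) (nat_lit 186)) (rf (nat_lit 8)))))))))) (nd (nat_lit 209) (nat_lit 0) (cs (lf (nat_lit 44) (nat_lit 186)) (nd (nat_lit 222) (nat_lit 0) (cs (lf (nat_lit 12) (nat_lit 199))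 (nd (nat_lit 230) (nat_lit 0) (cs (lf (nat_lit 27) (nat_lit 186)) (nd (nat_lit 200) (nat_lit 0) (cs (lf (nat_lit 23) (nat_lit 199)) (rf (nat_lit 9)))))))))))))))))))))) q78371 (by decide +kernel)
def q78449 : Q := Q.p (nat_lit 0x880002680000100010e00040000000000000000000000000000000000000000000000) (nat_lit 0xc00007000103000c2e002000003ff0007f8001ff0001a0000400000000000000000000000) (nat_lit 9)
theorem c78449 : QOK q78449 := cut [q75900, q41050, q78395, q78400, q78403, q78412, q77158, q77959, q77609, q75684, q75730, q77660] ⟨c75900, c41050, c78395, c78400, c78403, c78412, c77158, c77959, c77609, c75684, c75730, c77660, trivial⟩ (nd (nat_lit 158) (nat_lit 0) (cs (nd (nat_lit 180) (nat_lit 0) (cs (lf (nat_lit 28) (nat_lit 158)) (rf (nat_lit 0)))) (cs (nd (nat_lit 159) (nat_lit 0) (cs (nd (nat_lit 181) (nat_lit 0) (cs (lf (nat_lit 36) (nat_lit 136)) (nd (nat_lit 225) (nat_lit 0) (cs (lf (nat_lit 47) (nat_lit 136)) (rf (nat_lit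 1)))))) (cs (nd (nat_lit 231) (nat_lit 0) (cs (lf (nat_lit 45) (nat_lit 186)) (nd (nat_lit 157) (nat_lit 0) (cs (nd (nat_lit 230) (nat_lit 0) (cs (lf (nat_lit 27) (nat_lit 186)) (rf (nat_lit 2)))) (cs (nd (nat_lit 160) (nat_lit 0) (cs (rf (nat_lit 3)) (rf (nat_lit 4)))) (cs (nd (nat_lit 160) (nat_lit 0) (cs (rf (nat_lit 3)) (cs (nd (nat_lit 139) (nat_lit 0) (cs (lf (nat_lit 16) (nat_lit 135)) (nd (nat_lit 135) (nat_lit 0) (cs (lf (nat_lit 23) (nat_lit 134)) (nd (nat_lit 161) (nat_lit 0) (cs (lf (nat_lit 17) (nat_lit 136)) (lf (nat_lit 22) (nat_lit 135)))))))) (nd (nat_lit 134) (nat_lit 0) (cs (lf (nat_lit 22) (nat_lit 134)) (nd (nat_lit 182) (nat_lit 0) (cs (lf (nat_lit 5) (nat_lit 157)) (nd (nat_lit 156) (nat_lit 0) (cs (lf (nat_lit 4) (nat_lit 156)) (lf (nat_lit 23) (nat_lit 133))))))))))) (nd (nat_lit 230) (nat_lit 0) (cs (lf (nat_lit 27) (nat_lit 186)) (rf (nat_lit 5)))))))))) (cs (nd (nat_lit 230) (nat_lit 0) (cs (lf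 (nat_lit 27) (nat_lit 186)) (nd (nat_lit 209) (nat_lit 0) (cs (lf (nat_lit 44) (nat_lit 186)) (nd (nat_lit 181) (nat_lit 0) (cs (lf (nat_lit 36) (nat_lit 136)) (nd (nat_lit 225) (nat_lit 0) (cs (lf (nat_lit 47) (nat_lit 136)) (rf (nat_lit 6)))))))))) (cs (nd (nat_lit 157) (nat_lit 0) (cs (rf (nat_lit 2)) (cs (nd (nat_lit 137) (nat_lit 0) (cs (nd (nat_lit 156) (nat_lit 0) (cs (lf (nat_lit 17) (nat_lit 134)) (nd (nat_lit 177) (nat_lit 0) (cs (lf (nat_lit 10) (nat_lit 155)) (nd (nat_lit 155) (nat_lit 0) (cs (lf (nat_lit 11) (nat_lit 154)) (rf (nat_lit 7)))))))) (lf (nat_lit 38) (nat_lit 136)))) (cs (nd (nat_lit 181) (nat_lit 0) (cs (lf (nat_lit 36) (nat_lit 136)) (nd (nat_lit 230) (nat_lit 0) (cs (lf (nat_lit 27) (nat_lit 186)) (nd (nat_lit 135) (nat_lit 0) (cs (lf (nat_lit 26) (nat_lit 135)) (nd (nat_lit 160) (nat_lit 0) (cs (lf (nat_lit 23) (nat_lit 134)) (nd (nat_lit 138) (nat_lit 0) (cs (lf (nat_lit 30) (nat_lit 137)) (lf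 (nat_lit 17) (nat_lit 135)))))))))))) (nd (nat_lit 209) (nat_lit 0) (cs (lf (nat_lit 44) (nat_lit 186)) (nd (nat_lit 230) (nat_lit 0) (cs (lf (nat_lit 27) (nat_lit 186)) (nd (nat_lit 137) (nat_lit 0) (cs (lf (nat_lit 38) (nat_lit 136)) (nd (nat_lit 138) (nat_lit 0) (cs (lf (nat_lit 12) (nat_lit 134)) (nd (nat_lit 139) (nat_lit 0) (cs (lf (nat_lit 6) (nat_lit 136)) (lf (nat_lit 15) (nat_lit 135)))))))))))))))) (nd (nat_lit 157) (nat_lit 0) (cs (rf (nat_lit 5)) (cs (nd (nat_lit 160) (nat_lit 0) (cs (rf (nat_lit 8)) (rf (nat_lit 4)))) (nd (nat_lit 160) (nat_lit 0) (cs (rf (nat_lit 8)) (nd (nat_lit 230) (nat_lit 0) (cs (lf (nat_lit 27) (nat_lit 186)) (nd (nat_lit 134) (nat_lit 0) (cs (lf (nat_lit 22) (nat_lit 134)) (nd (nat_lit 138) (nat_lit 0) (cs (lf (nat_lit 17) (nat_lit 135)) (nd (nat_lit 156) (nat_lit 0) (cs (lf (nat_lit 16) (nat_lit 134)) (lf (nat_lit 23) (nat_lit 133)))))))))))))))))))) (cs (nd (nat_lit 230) (nat_lit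 0) (cs (lf (nat_lit 27) (nat_lit 186)) (nd (nat_lit 209) (nat_lit 0) (cs (lf (nat_lit 44) (nat_lit 186)) (nd (nat_lit 225) (nat_lit 0) (cs (rf (nat_lit 6)) (lf (nat_lit 25) (nat_lit 158)))))))) (nd (nat_lit 180) (nat_lit 0) (cs (rf (nat_lit 9)) (cs (rf (nat_lit 10)) (rf (nat_lit 11))))))))) q78449 (by decide +kernel)
def q78495 : Q := Q.p (nat_lit 0x800002080000100010400040000000000000000000000000000000000000000000000) (nat_lit 0x80000380000f00001e00107000c2e0023bc000ff0000fc000380000a0000000000000000000000000000) (nat_lit 11)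
theorem c78495 : QOK q78495 := cut [q77575, q75556, q76750, q77479, q78375, q50797, q37980, q75343, q75355, q78481, q77562, q78479, q75656, q77549, q77555, q77454, q75341] ⟨c77575, c75556, c76750, c77479, c78375, c50797, c37980, c75343, c75355, c78481, c77562, c78479, c75656, c77549, c77555, c77454, c75341, trivial⟩ (nd (nat_lit 209) (nat_lit 0) (cs (lf (nat_lit 44) (nat_lit 186)) (nd (nat_lit 246) (nat_lit 0) (cs (rf (nat_lit 0)) (cs (nd (nat_lit 268) (nat_lit 0) (cs (rf (nat_lit 1)) (cs (rf (nat_lit 2)) (cs (rf (nat_lit 3)) (nd (nat_lit 203) (nat_lit 0) (cs (lf (nat_lit 35) (nat_lit 180)) (nd (nat_lit 222) (nat_lit 0) (cs (nd (nat_lit 230) (nat_lit 0) (cs (lf (nat_lit 27) (nat_lit 186)) (nd (nat_lit 201) (nat_lit 0) (cs (lf (nat_lit 47) (nat_lit 179)) (nd (nat_lit 200) (nat_lit 0) (cs (lf (nat_lit 11) (nat_lit 199)) (rf (nat_lit 4)))))))) (cs (nd (nat_lit 267) (nat_lit 0) (cs (lf (nat_lit 41) (nat_lit 201)) (nd (nat_lit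 266) (nat_lit 0) (cs (lf (nat_lit 12) (nat_lit 243)) (nd (nat_lit 201) (nat_lit 0) (cs (lf (nat_lit 47) (nat_lit 179)) (nd (nat_lit 223) (nat_lit 0) (cs (lf (nat_lit 6) (nat_lit 200)) (nd (nat_lit 288) (nat_lit 0) (cs (lf (nat_lit 38) (nat_lit 200)) (lf (nat_lit 32) (nat_lit 200)))))))))))) (nd (nat_lit 230) (nat_lit 0) (cs (lf (nat_lit 27) (nat_lit 186)) (nd (nat_lit 223) (nat_lit 0) (cs (lf (nat_lit 0) (nat_lit 221)) (rf (nat_lit 5))))))))))))))) (cs (nd (nat_lit 180) (nat_lit 0) (cs (rf (nat_lit 6)) (cs (rf (nat_lit 7)) (cs (rf (nat_lit 8)) (nd (nat_lit 230) (nat_lit 0) (cs (lf (nat_lit 27) (nat_lit 186)) (rf (nat_lit 9)))))))) (cs (nd (nat_lit 180) (nat_lit 0) (cs (rf (nat_lit 10)) (cs (rf (nat_lit 11)) (nd (nat_lit 230) (nat_lit 0) (cs (lf (nat_lit 27) (nat_lit 186)) (nd (nat_lit 267) (nat_lit 0) (cs (lf (nat_lit 40) (nat_lit 179)) (nd (nat_lit 179) (nat_lit 0) (cs (lf (nat_lit 47) (nat_lit 157)) (nd (nat_lit 268) (nat_lit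 0) (cs (lf (nat_lit 46) (nat_lit 179)) (lf (nat_lit 41) (nat_lit 201))))))))))))) (cs (nd (nat_lit 180) (nat_lit 0) (cs (rf (nat_lit 7)) (cs (rf (nat_lit 12)) (cs (rf (nat_lit 13)) (rf (nat_lit 14)))))) (cs (nd (nat_lit 180) (nat_lit 0) (cs (rf (nat_lit 15)) (cs (rf (nat_lit 11)) (nd (nat_lit 230) (nat_lit 0) (cs (lf (nat_lit 27) (nat_lit 186)) (nd (nat_lit 158) (nat_lit 0) (cs (lf (nat_lit 28) (nat_lit 158)) (rf (nat_lit 16))))))))) (nd (nat_lit 180) (nat_lit 0) (cs (rf (nat_lit 6)) (cs (rf (nat_lit 7)) (rf (nat_lit 15)))))))))))))) q78495 (by decide +kernel)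
def q78569 : Q := Q.p (nat_lit 0x980000600000000000000000000000000000000000000000000000000000000000000) (nat_lit 0x110001ec0006700001c0000f00007c0001f000014000000000000000000000000000000000000000) (nat_lit 12)
theorem c78569 : QOK q78569 := cut [q47375, q69282, q69288, q76734, q40946, q47072, q56821, q45794, q70600, q45793, q51538, q69709, q45781] ⟨c47375, c69282, c69288, c76734, c40946, c47072, c56821, c45794, c70600, c45793, c51538, c69709, c45781, trivial⟩ (nd (nat_lit 269) (nat_lit 0) (cs (rf (nat_lit 0)) (cs (rf (nat_lit 1)) (cs (rf (nat_lit 2)) (cs (rf (nat_lit 3)) (nd (nat_lit 227) (nat_lit 0) (cs (rf (nat_lit 4)) (cs (nd (nat_lit 247) (nat_lit 0) (cs (rf (nat_lit 5)) (cs (rf (nat_lit 6)) (nd (nat_lit 294) (nat_lit 0) (cs (lf (nat_lit 42) (nat_lit 227)) (nd (nat_lit 225) (nat_lit 0) (cs (rf (nat_lit 7)) (cs (nd (nat_lit 203) (nat_lit 0) (cs (nd (nat_lit 204) (nat_lit 0) (cs (lf (nat_lit 35) (nat_lit 181)) (nd (nat_lit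 226) (nat_lit 0) (cs (lf (nat_lit 42) (nat_lit 204)) (lf (nat_lit 30) (nat_lit 203)))))) (nd (nat_lit 273) (nat_lit 0) (cs (lf (nat_lit 19) (nat_lit 249)) (rf (nat_lit 8)))))) (cs (nd (nat_lit 203) (nat_lit 0) (cs (rf (nat_lit 9)) (cs (rf (nat_lit 10)) (cs (rf (nat_lit 8)) (nd (nat_lit 273) (nat_lit 0) (cs (lf (nat_lit 19) (nat_lit 249)) (rf (nat_lit 11)))))))) (nd (nat_lit 273) (nat_lit 0) (cs (lf (nat_lit 19) (nat_lit 249)) (nd (nat_lit 226) (nat_lit 0) (cs (lf (nat_lit 0) (nat_lit 224)) (nd (nat_lit 204) (nat_lit 0) (cs (lf (nat_lit 42) (nat_lit 204)) (rf (nat_lit 12))))))))))))))))) (nd (nat_lit 273) (nat_lit 0) (cs (lf (nat_lit 19) (nat_lit 249)) (nd (nat_lit 247) (nat_lit 0) (cs (lf (nat_lit 1) (nat_lit 247)) (nd (nat_lit 205) (nat_lit 0) (cs (lf (nat_lit 24) (nat_lit 183)) (nd (nat_lit 184) (nat_lit 0) (cs (lf (nat_lit 34) (nat_lit 183)) (nd (nat_lit 204) (nat_lit 0) (cs (lf (nat_lit 47) (nat_lit 182)) (nd (nat_lit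 226) (nat_lit 0) (cs (lf (nat_lit 42) (nat_lit 204)) (nd (nat_lit 225) (nat_lit 0) (cs (lf (nat_lit 0) (nat_lit 224)) (lf (nat_lit 30) (nat_lit 203)))))))))))))))))))))))) q78569 (by decide +kernel)
def q78593 : Q := Q.p (nat_lit 0x980002600000000010000040000000000000000000000000000000000000000000000) (nat_lit 0xf0000fe0001f00006700001c0008c0002300000c000000000000000000000000000000000000000000000) (nat_lit 12)
theorem c78593 : QOK q78593 := cut [q46571, q65764, q78536, q46561, q71889, q64821] ⟨c46571, c65764, c78536, c46561, c71889, c64821, trivial⟩ (nd (nat_lit 293) (nat_lit 0) (cs (rf (nat_lit 0)) (cs (rf (nat_lit 1)) (cs (rf (nat_lit 2)) (nd (nat_lit 294) (nat_lit 0) (cs (rf (nat_lit 3)) (cs (nd (nat_lit 209) (nat_lit 0) (cs (lf (nat_lit 44) (nat_lit 186)) (nd (nat_lit 273) (nat_lit 0) (cs (lf (nat_lit 19) (nat_lit 249)) (nd (nat_lit 247) (nat_lit 0) (cs (lf (nat_lit 1) (nat_lit 247)) (rf (nat_lit 4)))))))) (nd (nat_lit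 270) (nat_lit 0) (cs (nd (nat_lit 205) (nat_lit 0) (cs (lf (nat_lit 25) (nat_lit 205)) (nd (nat_lit 209) (nat_lit 0) (cs (lf (nat_lit 44) (nat_lit 186)) (nd (nat_lit 273) (nat_lit 0) (cs (lf (nat_lit 7) (nat_lit 271)) (nd (nat_lit 247) (nat_lit 0) (cs (lf (nat_lit 22) (nat_lit 247)) (nd (nat_lit 295) (nat_lit 0) (cs (lf (nat_lit 5) (nat_lit 270)) (nd (nat_lit 317) (nat_lit 0) (cs (lf (nat_lit 42) (nat_lit 250)) (nd (nat_lit 292) (nat_lit 0) (cs (lf (nat_lit 5) (nat_lit 292)) (rf (nat_lit 5)))))))))))))))) (cs (nd (nat_lit 273) (nat_lit 0) (cs (lf (nat_lit 19) (nat_lit 249)) (nd (nat_lit 247) (nat_lit 0) (cs (lf (nat_lit 22) (nat_lit 247)) (nd (nat_lit 269) (nat_lit 0) (cs (lf (nat_lit 23) (nat_lit 246)) (lf (nat_lit 0) (nat_lit 268)))))))) (nd (nat_lit 269) (nat_lit 0) (cs (lf (nat_lit 0) (nat_lit 268)) (lf (nat_lit 5) (nat_lit 269)))))))))))))) q78593 (by decide +kernel)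
def q78640 : Q := Q.p (nat_lit 0x880002600000000010000040000000000000000000000000000000000000000000000) (nat_lit 0x1c0000fe0007f0001fe00076000110006cc001e3000eac000000000000000000000000000000000000000000000) (nat_lit 14)
theorem c78640 : QOK q78640 := cut [q66782, q64507, q66758, q59011, q59250, q59254, q59327, q65265, q56973, q67108, q46567, q54923, q78621, q78608, q59361, q67188, q72191, q78633, q61542] ⟨c66782, c64507, c66758, c59011, c59250, c59254, c59327, c65265, c56973, c67108, c46567, c54923, c78621, c78608, c59361, c67188, c72191, c78633, c61542, trivial⟩ (nd (nat_lit 209) (nat_lit 0) (cs (lf (nat_lit 44) (nat_lit 186)) (nd (nat_lit 211) (nat_lit 0) (cs (rf (nat_lit 0)) (nd (nat_lit 293) (nat_lit 0) (cs (nd (nat_lit 227) (nat_lit 0) (cs (rf (nat_lit 1)) (cs (rf (nat_lit 2)) (cs (nd (nat_lit 230) (nat_lit 0) (cs (lf (nat_lit 27) (nat_lit 186)) (rf (nat_lit 3)))) (nd (nat_lit 294) (nat_lit 0) (cs (lf (nat_lit 29)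 (nat_lit 227)) (nd (nat_lit 295) (nat_lit 0) (cs (rf (nat_lit 4)) (cs (rf (nat_lit 5)) (cs (nd (nat_lit 274) (nat_lit 0) (cs (lf (nat_lit 15) (nat_lit 271)) (rf (nat_lit 6)))) (nd (nat_lit 230) (nat_lit 0) (cs (lf (nat_lit 27) (nat_lit 186)) (nd (nat_lit 204) (nat_lit 0) (cs (lf (nat_lit 46) (nat_lit 204)) (nd (nat_lit 292) (nat_lit 0) (cs (lf (nat_lit 41) (nat_lit 226)) (nd (nat_lit 269) (nat_lit 0) (cs (lf (nat_lit 22) (nat_lit 269)) (rf (nat_lit 7)))))))))))))))))))) (cs (nd (nat_lit 315) (nat_lit 0) (cs (rf (nat_lit 8)) (rf (nat_lit 9)))) (cs (nd (nat_lit 315) (nat_lit 0) (cs (rf (nat_lit 10)) (cs (rf (nat_lit 9)) (cs (nd (nat_lit 230) (nat_lit 0) (cs (lf (nat_lit 27) (nat_lit 186)) (nd (nat_lit 314) (nat_lit 0) (cs (lf (nat_lit 41) (nat_lit 248)) (rf (nat_lit 11)))))) (rf (nat_lit 12)))))) (cs (nd (nat_lit 315) (nat_lit 0) (cs (rf (nat_lit 8)) (cs (rf (nat_lit 13)) (nd (nat_lit 314) (nat_lit 0) (cs (lf (nat_lit 41)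 (nat_lit 248)) (nd (nat_lit 313) (nat_lit 0) (cs (rf (nat_lit 14)) (cs (rf (nat_lit 15)) (nd (nat_lit 230) (nat_lit 0) (cs (lf (nat_lit 27) (nat_lit 186)) (nd (nat_lit 226) (nat_lit 0) (cs (lf (nat_lit 46) (nat_lit 226)) (rf (nat_lit 16)))))))))))))) (cs (nd (nat_lit 315) (nat_lit 0) (cs (rf (nat_lit 9)) (cs (rf (nat_lit 13)) (cs (rf (nat_lit 17)) (nd (nat_lit 230) (nat_lit 0) (cs (lf (nat_lit 27) (nat_lit 186)) (rf (nat_lit 18)))))))) (cs (nd (nat_lit 315) (nat_lit 0) (cs (rf (nat_lit 8)) (cs (rf (nat_lit 13)) (rf (nat_lit 12))))) (nd (nat_lit 315) (nat_lit 0) (cs (rf (nat_lit 10)) (cs (rf (nat_lit 8)) (rf (nat_lit 17)))))))))))))))) q78640 (by decide +kernel)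
def q78773 : Q := Q.p (nat_lit 0x2000008000030000000000000000000000000000000000000000000000000000) (nat_lit 0x100000700001c00000000077c001ce000f3c000000000000000000000000000000000000000000000) (nat_lit 12)
theorem c78773 : QOK q78773 := cut [q732, q2931, q2935, q2938, q24557, q78771] ⟨c732, c2931, c2935, c2938, c24557, c78771, trivial⟩ (nd (nat_lit 275) (nat_lit 0) (cs (rf (nat_lit 0)) (cs (rf (nat_lit 1)) (nd (nat_lit 207) (nat_lit 0) (cs (rf (nat_lit 2)) (cs (rf (nat_lit 3)) (cs (nd (nat_lit 210) (nat_lit 0) (cs (lf (nat_lit 35) (nat_lit 187)) (nd (nat_lit 274) (nat_lit 0) (cs (lf (nat_lit 41) (nat_lit 208)) (nd (nat_lit 184) (nat_lit 0) (cs (lf (nat_lit 22) (nat_lit 184)) (nd (nat_lit 228) (nat_lit 0) (cs (lf (nat_lit 10) (nat_lit 206)) (nd (nat_lit 276) (nat_lit 0) (cs (lf (nat_lit 29) (nat_lit 209)) (rf (nat_lit 4)))))))))))) (rf (nat_lit 5))))))))) q78773 (by decide +kernel)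
def q78795 : Q := Q.p (nat_lit 0x2000000000030000000000000000000000000000000000000000000000000000) (nat_lit 0xe0000780001e000ffc001ce000ffc0003e0000780001c00000000000000000000000000000) (nat_lit 15)
theorem c78795 : QOK q78795 := cut [q7440, q15426, q64772, q64782, q11210, q87, q10558, q78791, q694, q9887, q16425, q2925, q78698, q78717] ⟨c7440, c15426, c64772, c64782, c11210, c87, c10558, c78791, c694, c9887, c16425, c2925, c78698, c78717, trivial⟩ (nd (nat_lit 210) (nat_lit 0) (cs (rf (nat_lit 0)) (cs (nd (nat_lit 211) (nat_lit 0) (cs (rf (nat_lit 1)) (cs (rf (nat_lit 2)) (cs (rf (nat_lit 3)) (nd (nat_lit 186) (nat_lit 0) (cs (lf (nat_lit 23) (nat_lit 185)) (nd (nat_lit 233) (nat_lit 0) (cs (lf (nat_lit 5) (nat_lit 208)) (nd (nat_lit 189) (nat_lit 0) (cs (lf (nat_lit 17) (nat_lit 186)) (nd (nat_lit 230) (nat_lit 0) (cs (lf (nat_lit 11) (nat_lit 207)) (nd (nat_lit 164) (nat_lit 0) (cs (lf (nat_lit 28) (nat_lit 164)) (nd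 (nat_lit 141) (nat_lit 0) (cs (lf (nat_lit 46) (nat_lit 141)) (nd (nat_lit 142) (nat_lit 0) (cs (lf (nat_lit 47) (nat_lit 119)) (rf (nat_lit 4)))))))))))))))))))) (cs (nd (nat_lit 207) (nat_lit 0) (cs (rf (nat_lit 5)) (cs (rf (nat_lit 6)) (rf (nat_lit 7))))) (cs (nd (nat_lit 211) (nat_lit 0) (cs (rf (nat_lit 8)) (cs (rf (nat_lit 9)) (rf (nat_lit 10))))) (nd (nat_lit 207) (nat_lit 0) (cs (rf (nat_lit 11)) (cs (rf (nat_lit 12)) (rf (nat_lit 13)))))))))) q78795 (by decide +kernel)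
def q78805 : Q := Q.p (nat_lit 0x2000000000030000000000000000000000000000000000000000000000000000) (nat_lit 0x80000000007fc003ce0003fc0007e0001700000c00000000000000000000000000000) (nat_lit 12)
theorem c78805 : QOK q78805 := cut [q1563, q1595, q78764, q2938, q78721, q78744, q1550, q78656, q339, q24087] ⟨c1563, c1595, c78764, c2938, c78721, c78744, c1550, c78656, c339, c24087, trivial⟩ (nd (nat_lit 231) (nat_lit 0) (cs (rf (nat_lit 0)) (cs (rf (nat_lit 1)) (cs (rf (nat_lit 2)) (nd (nat_lit 207) (nat_lit 0) (cs (rf (nat_lit 3)) (cs (rf (nat_lit 4)) (cs (rf (nat_lit 5)) (nd (nat_lit 206) (nat_lit 0) (cs (rf (nat_lit 6)) (cs (rf (nat_lit 7)) (cs (nd (nat_lit 187) (nat_lit 0) (cs (lf (nat_lit 17) (nat_lit 184)) (nd (nat_lit 186) (nat_lit 0) (cs (lf (nat_lit 12) (nat_lit 183)) (rf (nat_lit 8)))))) (nd (nat_lit 227) (nat_lit 0) (cs (lf (nat_lit 10) (nat_lit 205)) (nd (nat_lit 187) (nat_lit 0) (cs (lf (nat_lit 17) (nat_lit 184))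 (nd (nat_lit 164) (nat_lit 0) (cs (lf (nat_lit 46) (nat_lit 164)) (nd (nat_lit 142) (nat_lit 0) (cs (lf (nat_lit 45) (nat_lit 142)) (nd (nat_lit 184) (nat_lit 0) (cs (lf (nat_lit 23) (nat_lit 183)) (nd (nat_lit 185) (nat_lit 0) (cs (lf (nat_lit 18) (nat_lit 184)) (nd (nat_lit 163) (nat_lit 0) (cs (lf (nat_lit 30) (nat_lit 141)) (rf (nat_lit 9)))))))))))))))))))))))))))) q78805 (by decide +kernel)
def q78899 : Q := Q.p (nat_lit 0x2000000000030000040000000000000000000000000000000000000000000000) (nat_lit 0x80000000003b0000ce0003b8003e60003f0000fc00000000000000000000000000000) (nat_lit 13)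
theorem c78899 : QOK q78899 := cut [q4071, q39, q4439, q78872, q4073, q8460, q4408, q339] ⟨c4071, c39, c4439, c78872, c4073, c8460, c4408, c339, trivial⟩ (nd (nat_lit 207) (nat_lit 0) (cs (nd (nat_lit 231) (nat_lit 0) (cs (lf (nat_lit 42) (nat_lit 186)) (nd (nat_lit 206) (nat_lit 0) (cs (lf (nat_lit 5) (nat_lit 206)) (rf (nat_lit 0)))))) (cs (nd (nat_lit 210) (nat_lit 0) (cs (rf (nat_lit 1)) (nd (nat_lit 231) (nat_lit 0) (cs (lf (nat_lit 42) (nat_lit 186)) (nd (nat_lit 228) (nat_lit 0) (cs (lf (nat_lit 10) (nat_lit 206)) (rf (nat_lit 2)))))))) (cs (nd (nat_lit 210) (nat_lit 0) (cs (rf (nat_lit 1)) (rf (nat_lit 3)))) (cs (nd (nat_lit 187) (nat_lit 0) (cs (rf (nat_lit 4)) (cs (nd (nat_lit 231) (nat_lit 0) (cs (lf (nat_lit 42) (nat_lit 186)) (rf (nat_lit 5)))) (nd (nat_lit 188) (nat_lit 0) (cs (lf (nat_lit 6) (nat_lit 185)) (rf (nat_lit 6))))))) (nd (nat_lit 231) (nat_lit 0) (cs (lf (nat_lit 42) (nat_lit 186)) (nd (nat_lit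 206) (nat_lit 0) (cs (lf (nat_lit 5) (nat_lit 206)) (nd (nat_lit 187) (nat_lit 0) (cs (lf (nat_lit 12) (nat_lit 183)) (rf (nat_lit 7))))))))))))) q78899 (by decide +kernel)
def q78919 : Q := Q.p (nat_lit 0x30000040000000000000000000000000000000000000000000000) (nat_lit 0x8000730001ce000fb8001fc0003c0000e000000000000000000000000000000) (nat_lit 11)
theorem c78919 : QOK q78919 := cut [q39, q75, q78881, q37, q74, q1981, q15183] ⟨c39, c75, c78881, c37, c74, c1981, c15183, trivial⟩ (nd (nat_lit 210) (nat_lit 0) (cs (rf (nat_lit 0)) (cs (rf (nat_lit 1)) (cs (rf (nat_lit 2)) (nd (nat_lit 185) (nat_lit 0) (cs (rf (nat_lit 3)) (cs (rf (nat_lit 4)) (nd (nat_lit 207) (nat_lit 0) (cs (rf (nat_lit 5)) (nd (nat_lit 188) (nat_lit 0) (cs (lf (nat_lit 17) (nat_lit 185)) (nd (nat_lit 187) (nat_lit 0) (cs (lf (nat_lit 12) (nat_lit 184)) (nd (nat_lit 162) (nat_lit 0) (cs (lf (nat_lit 22) (nat_lit 162)) (nd (nat_lit 166) (nat_lit 0) (cs (lf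 (nat_lit 17) (nat_lit 163)) (rf (nat_lit 6))))))))))))))))))) q78919 (by decide +kernel)
def q79049 : Q := Q.p (nat_lit 0x400003000004000010000000000000000000000000000000000000000000000000000) (nat_lit 0x200000e00003800002000000000080000280000a0000000000000000000000000000000000000000000000) (nat_lit 7)
theorem c79049 : QOK q79049 := cut [q79048] ⟨c79048, trivial⟩ (nd (nat_lit 185) (nat_lit 0) (cs (lf (nat_lit 46) (nat_lit 185)) (rf (nat_lit 0)))) q79049 (by decide +kernel)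
def q79058 : Q := Q.p (nat_lit 0x400007000004000010000000000000000000000000000000000000000000000000000) (nat_lit 0x1f0000780000000001b000060000180000000000000000000000000000000000000000000000) (nat_lit 9)
theorem c79058 : QOK q79058 := cut [q79057] ⟨c79057, trivial⟩ (nd (nat_lit 275) (nat_lit 0) (cs (lf (nat_lit 29) (nat_lit 208)) (rf (nat_lit 0)))) q79058 (by decide +kernel)
def q79190 : Q := Q.p (nat_lit 0x800006000018000000000000000000000000000000000000000000000000000000000) (nat_lit 0x1c0000700000400000000004000030000040000000000000000000000000000000000000000000000) (nat_lit 6)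
theorem c79190 : QOK q79190 := cut [q79189] ⟨c79189, trivial⟩ (nd (nat_lit 297) (nat_lit 0) (cs (lf (nat_lit 30) (nat_lit 231)) (rf (nat_lit 0)))) q79190 (by decide +kernel)
def q79204 : Q := Q.p (nat_lit 0x7800000000000000000000000000000000000000000000000000000000000000) (nat_lit 0x40000300000040003b000020000080000000000000000000000000000000000000000000000) (nat_lit 6)
theorem c79204 : QOK q79204 := cut [q79203] ⟨c79203, trivial⟩ (nd (nat_lit 232) (nat_lit 0) (cs (lf (nat_lit 17) (nat_lit 229)) (rf (nat_lit 0)))) q79204 (by decide +kernel)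
def q79255 : Q := Q.p (nat_lit 0x7800010000000000000000000000000000000000000000000000000000000000) (nat_lit 0x80000840000f0000cc000100000400000000000000000000000000000000000000000) (nat_lit 7)
theorem c79255 : QOK q79255 := cut [q79254] ⟨c79254, trivial⟩ (nd (nat_lit 231) (nat_lit 0) (cs (lf (nat_lit 12) (nat_lit 228)) (rf (nat_lit 0)))) q79255 (by decide +kernel)
def q79304 : Q := Q.p (nat_lit 0x6000018000000000000000000000000000000000000000000000000000000000) (nat_lit 0x1c0000700001f0000000006400003c0001c0000700000000000000000000000000000000000000000) (nat_lit 9)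
theorem c79304 : QOK q79304 := cut [q79193, q79287, q79296, q79297, q79301] ⟨c79193, c79287, c79296, c79297, c79301, trivial⟩ (nd (nat_lit 209) (nat_lit 0) (cs (rf (nat_lit 0)) (cs (rf (nat_lit 1)) (nd (nat_lit 275) (nat_lit 0) (cs (rf (nat_lit 2)) (cs (rf (nat_lit 3)) (nd (nat_lit 276) (nat_lit 0) (cs (lf (nat_lit 42) (nat_lit 209)) (rf (nat_lit 4)))))))))) q79304 (by decide +kernel)
def q79597 : Q := Q.p (nat_lit 0x6000010000040000000000000000000000000000000000000000000000000000) (nat_lit 0x20000380000e00003000000000008000020000380000e00002800000000000000000000000000000000000) (nat_lit 9)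
theorem c79597 : QOK q79597 := cut [q79121, q79127, q79159, q79594] ⟨c79121, c79127, c79159, c79594, trivial⟩ (nd (nat_lit 188) (nat_lit 0) (cs (rf (nat_lit 0)) (cs (rf (nat_lit 1)) (cs (rf (nat_lit 2)) (nd (nat_lit 167) (nat_lit 0) (cs (lf (nat_lit 34) (nat_lit 166)) (nd (nat_lit 187) (nat_lit 0) (cs (lf (nat_lit 47) (nat_lit 165)) (rf (nat_lit 3)))))))))) q79597 (by decide +kernel)
def q79614 : Q := Q.p (nat_lit 0x6000018000000000000000000000000000000000000000000000000000000000) (nat_lit 0x380000e0000f0000000000040003e0000380000e00000000000000000000000000000000000000000) (nat_lit 8)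
theorem c79614 : QOK q79614 := cut [q79181, q79605, q79601, q79609, q79612] ⟨c79181, c79605, c79601, c79609, c79612, trivial⟩ (nd (nat_lit 276) (nat_lit 0) (cs (rf (nat_lit 0)) (cs (rf (nat_lit 1)) (nd (nat_lit 210) (nat_lit 0) (cs (rf (nat_lit 2)) (cs (nd (nat_lit 209) (nat_lit 0) (cs (lf (nat_lit 24) (nat_lit 187)) (rf (nat_lit 3)))) (rf (nat_lit 4)))))))) q79614 (by decide +kernel)
def q79625 : Q := Q.p (nat_lit 0x6000018000000000000000000000000000000000000000000000000000000000) (nat_lit 0x380000e0000f0000000000e00003fc0003f0000e00000000000000000000000000000000000000000) (nat_lit 12)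
theorem c79625 : QOK q79625 := cut [q79181, q79605, q79601, q79612, q79623] ⟨c79181, c79605, c79601, c79612, c79623, trivial⟩ (nd (nat_lit 276) (nat_lit 0) (cs (rf (nat_lit 0)) (cs (rf (nat_lit 1)) (nd (nat_lit 210) (nat_lit 0) (cs (rf (nat_lit 2)) (cs (rf (nat_lit 3)) (rf (nat_lit 4)))))))) q79625 (by decide +kernel)
def q79729 : Q := Q.p (nat_lit 0x1800006000010000040000000000000000000000000000000000000000000000000000) (nat_lit 0x5000006000180000080000b00002c0000000000000000000000000000000000000000000000) (nat_lit 7)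
theorem c79729 : QOK q79729 := cut [q79728] ⟨c79728, trivial⟩ (nd (nat_lit 189) (nat_lit 0) (cs (lf (nat_lit 34) (nat_lit 188)) (rf (nat_lit 0)))) q79729 (by decide +kernel)
def q79739 : Q := Q.p (nat_lit 0x800006000010000000000000000000000000000000000000000000000000000000000) (nat_lit 0x1c000070000040000000000c000070000040000000000000000000000000000000000000000000000) (nat_lit 7)
theorem c79739 : QOK q79739 := cut [q79737] ⟨c79737, trivial⟩ (nd (nat_lit 297) (nat_lit 0) (cs (lf (nat_lit 30) (nat_lit 231)) (nd (nat_lit 231) (nat_lit 0) (cs (lf (nat_lit 35) (nat_lit 209)) (rf (nat_lit 0)))))) q79739 (by decide +kernel)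
def q79740 : Q := Q.p (nat_lit 0x1000006000010000000000000000000000000000000000000000000000000000000000) (nat_lit 0x400000000038c000ef0003bc000280000800000000000000000000000000000000000000000) (nat_lit 9)
theorem c79740 : QOK q79740 := cut [q79181, q79332] ⟨c79181, c79332, trivial⟩ (nd (nat_lit 231) (nat_lit 0) (cs (rf (nat_lit 0)) (rf (nat_lit 1)))) q79740 (by decide +kernel)
def q79755 : Q := Q.p (nat_lit 0x1800006000010000000000000000000000000000000000000000000000000000000000) (nat_lit 0x100000400003c0000e4000380000e00001f8000680000000000000000000000000000000000000000000000) (nat_lit 9)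
theorem c79755 : QOK q79755 := cut [q79416, q79749, q79754] ⟨c79416, c79749, c79754, trivial⟩ (nd (nat_lit 277) (nat_lit 0) (cs (rf (nat_lit 0)) (cs (rf (nat_lit 1)) (rf (nat_lit 2))))) q79755 (by decide +kernel)
def q79879 : Q := Q.p (nat_lit 0x6000010000040000000000000000000000000000000000000000000000000000) (nat_lit 0x80001fc000ff000380000e0000080000200000000000000000000000000000000000000000000000) (nat_lit 9)
theorem c79879 : QOK q79879 := cut [q79434, q79439, q79447] ⟨c79434, c79439, c79447, trivial⟩ (nd (nat_lit 276) (nat_lit 0) (cs (rf (nat_lit 0)) (cs (rf (nat_lit 1)) (rf (nat_lit 2))))) q79879 (by decide +kernel)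
def q79989 : Q := Q.p (nat_lit 0x6000010000000000000000000000000000000000000000000000000000000000) (nat_lit 0xc0000380000e000078000018000600003f80003e0003e00003800006000008000000000000000000000000) (nat_lit 12)
theorem c79989 : QOK q79989 := cut [q79128, q79964, q79132, q79967, q79971, q79973, q79975, q79909, q79988] ⟨c79128, c79964, c79132, c79967, c79971, c79973, c79975, c79909, c79988, trivial⟩ (nd (nat_lit 210) (nat_lit 0) (cs (rf (nat_lit 0)) (cs (rf (nat_lit 1)) (cs (nd (nat_lit 187) (nat_lit 0) (cs (rf (nat_lit 2)) (cs (nd (nat_lit 276) (nat_lit 0) (cs (lf (nat_lit 46) (nat_lit 187)) (rf (nat_lit 3)))) (cs (rf (nat_lit 4)) (nd (nat_lit 188) (nat_lit 0) (cs (lf (nat_lit 47) (nat_lit 165)) (nd (nat_lit 211) (nat_lit 0) (cs (rf (nat_lit 5)) (cs (nd (nat_lit 167) (nat_lit 0) (cs (lf (nat_lit 34) (nat_lit 166)) (nd (nat_lit 166) (nat_lit 0) (cs (lf (nat_lit 35) (nat_lit 144)) (nd (nat_lit 185) (nat_lit 0) (cs (nd (nat_lit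 168) (nat_lit 0) (cs (lf (nat_lit 6) (nat_lit 165)) (rf (nat_lit 6)))) (lf (nat_lit 1) (nat_lit 185)))))))) (cs (nd (nat_lit 189) (nat_lit 0) (cs (lf (nat_lit 35) (nat_lit 166)) (rf (nat_lit 7)))) (nd (nat_lit 212) (nat_lit 0) (cs (lf (nat_lit 18) (nat_lit 187)) (nd (nat_lit 167) (nat_lit 0) (cs (lf (nat_lit 34) (nat_lit 166)) (nd (nat_lit 166) (nat_lit 0) (cs (lf (nat_lit 35) (nat_lit 144)) (rf (nat_lit 6)))))))))))))))))) (rf (nat_lit 8)))))) q79989 (by decide +kernel)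
def q80069 : Q := Q.p (nat_lit 0x6000018000000000000000000000000000000000000000000000000000000000) (nat_lit 0x1c0000700000f0000000002000007c0001c0000700000000000000000000000000000000000000000) (nat_lit 8)
theorem c80069 : QOK q80069 := cut [q79169, q79471, q79463, q79467, q79776] ⟨c79169, c79471, c79463, c79467, c79776, trivial⟩ (nd (nat_lit 275) (nat_lit 0) (cs (rf (nat_lit 0)) (cs (rf (nat_lit 1)) (nd (nat_lit 209) (nat_lit 0) (cs (rf (nat_lit 2)) (cs (rf (nat_lit 3)) (nd (nat_lit 210) (nat_lit 0) (cs (lf (nat_lit 36) (nat_lit 187)) (rf (nat_lit 4)))))))))) q80069 (by decide +kernel)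
def q80275 : Q := Q.p (nat_lit 0x6000010000000000000000000000000000000000000000000000000000000000) (nat_lit 0x400003c0003fc0007f80001c000ef8001dc0003e0000e00002800000000000000000000000000000000000) (nat_lit 12)
theorem c80275 : QOK q80275 := cut [q79118, q79165, q79160, q79913, q79149, q79439, q79967, q80274] ⟨c79118, c79165, c79160, c79913, c79149, c79439, c79967, c80274, trivial⟩ (nd (nat_lit 252) (nat_lit 0) (cs (rf (nat_lit 0)) (cs (rf (nat_lit 1)) (cs (nd (nat_lit 210) (nat_lit 0) (cs (rf (nat_lit 2)) (cs (rf (nat_lit 3)) (nd (nat_lit 276) (nat_lit 0) (cs (rf (nat_lit 4)) (cs (rf (nat_lit 5)) (rf (nat_lit 6)))))))) (rf (nat_lit 7)))))) q80275 (by decide +kernel)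
def q80301 : Q := Q.p (nat_lit 0x800007000010000000000000000000000000000000000000000000000000000000000) (nat_lit 0x1c000070000140000000006f0001b0000040000000000000000000000000000000000000000000000) (nat_lit 9)
theorem c80301 : QOK q80301 := cut [q79188, q80298, q80057] ⟨c79188, c80298, c80057, trivial⟩ (nd (nat_lit 297) (nat_lit 0) (cs (lf (nat_lit 30) (nat_lit 231)) (nd (nat_lit 231) (nat_lit 0) (cs (rf (nat_lit 0)) (cs (rf (nat_lit 1)) (nd (nat_lit 233) (nat_lit 0) (cs (lf (nat_lit 6) (nat_lit 230)) (rf (nat_lit 2))))))))) q80301 (by decide +kernel)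
def q80304 : Q := Q.p (nat_lit 0x1800007000010000000000000000000000000000000000000000000000000000000000) (nat_lit 0xc000060000000000600000f8000280000000000000000000000000000000000000000000000) (nat_lit 7)
theorem c80304 : QOK q80304 := cut [q79754] ⟨c79754, trivial⟩ (nd (nat_lit 277) (nat_lit 0) (cs (lf (nat_lit 18) (nat_lit 252)) (rf (nat_lit 0)))) q80304 (by decide +kernel)
def q80357 : Q := Q.p (nat_lit 0x1800006000018000020000000000000000000000000000000000000000000000000000) (nat_lit 0x1c0002700001c0000700001c000070000000000000000000000000000000000000000000000) (nat_lit 10)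
theorem c80357 : QOK q80357 := cut [q80355] ⟨c80355, trivial⟩ (nd (nat_lit 186) (nat_lit 0) (cs (lf (nat_lit 46) (nat_lit 186)) (nd (nat_lit 274) (nat_lit 0) (cs (lf (nat_lit 41) (nat_lit 208)) (rf (nat_lit 0)))))) q80357 (by decide +kernel)
def q80385 : Q := Q.p (nat_lit 0x6000010000000000000000000000000000000000000000000000000000000000) (nat_lit 0xc00003c0003fc0007f80001c000ef80007c0001e0000000000000000000000000000000000000000000000) (nat_lit 14)
theorem c80385 : QOK q80385 := cut [q79118, q79165, q80274, q79169, q79199, q79171, q79181, q80324, q80283, q80374, q80383] ⟨c79118, c79165, c80274, c79169, c79199, c79171, c79181, c80324, c80283, c80374, c80383, trivial⟩ (nd (nat_lit 252) (nat_lit 0) (cs (rf (nat_lit 0)) (cs (rf (nat_lit 1)) (cs (rf (nat_lit 2)) (nd (nat_lit 275) (nat_lit 0) (cs (rf (nat_lit 3)) (cs (rf (nat_lit 4)) (cs (nd (nat_lit 276) (nat_lit 0) (cs (rf (nat_lit 5)) (cs (nd (nat_lit 231) (nat_lit 0) (cs (rf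 (nat_lit 6)) (cs (rf (nat_lit 7)) (nd (nat_lit 277) (nat_lit 0) (cs (lf (nat_lit 18) (nat_lit 252)) (nd (nat_lit 233) (nat_lit 0) (cs (lf (nat_lit 6) (nat_lit 230)) (nd (nat_lit 298) (nat_lit 0) (cs (lf (nat_lit 42) (nat_lit 231)) (rf (nat_lit 8))))))))))) (rf (nat_lit 9))))) (rf (nat_lit 10)))))))))) q80385 (by decide +kernel)
def q80430 : Q := Q.p (nat_lit 0x7000000000000000000000000000000000000000000000000000000000000000) (nat_lit 0x1c0000700001c0000fe000180000f60001c0000700001800004000000000000000000000000000000000000) (nat_lit 14)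
theorem c80430 : QOK q80430 := cut [q79223, q80417, q80425, q80429] ⟨c79223, c80417, c80425, c80429, trivial⟩ (nd (nat_lit 255) (nat_lit 0) (cs (rf (nat_lit 0)) (cs (rf (nat_lit 1)) (cs (rf (nat_lit 2)) (rf (nat_lit 3)))))) q80430 (by decide +kernel)
def q80606 : Q := Q.p (nat_lit 0x7800000000000000000000000000000000000000000000000000000000000000) (nat_lit 0x1c0000700005c000370000000003f00003c0000f0000140000000000000000000000000000000000000000) (nat_lit 12)
theorem c80606 : QOK q80606 := cut [q80583, q80588] ⟨c80583, c80588, trivial⟩ (nd (nat_lit 273) (nat_lit 0) (cs (lf (nat_lit 11) (nat_lit 250)) (nd (nat_lit 295) (nat_lit 0) (cs (rf (nat_lit 0)) (cs (nd (nat_lit 276) (nat_lit 0) (cs (lf (nat_lit 5) (nat_lit 251)) (nd (nat_lit 229) (nat_lit 0) (cs (lf (nat_lit 23) (nat_lit 228)) (nd (nat_lit 232) (nat_lit 0) (cs (lf (nat_lit 17) (nat_lit 229)) (rf (nat_lit 1)))))))) (cs (nd (nat_lit 228) (nat_lit 0) (cs (lf (nat_lit 22)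 (nat_lit 228)) (nd (nat_lit 276) (nat_lit 0) (cs (lf (nat_lit 5) (nat_lit 251)) (nd (nat_lit 232) (nat_lit 0) (cs (lf (nat_lit 17) (nat_lit 229)) (nd (nat_lit 317) (nat_lit 0) (cs (nd (nat_lit 316) (nat_lit 0) (cs (lf (nat_lit 41) (nat_lit 250)) (nd (nat_lit 318) (nat_lit 0) (cs (lf (nat_lit 29) (nat_lit 251)) (nd (nat_lit 274) (nat_lit 0) (cs (lf (nat_lit 30) (nat_lit 251)) (nd (nat_lit 231) (nat_lit 0) (cs (lf (nat_lit 31) (nat_lit 230)) (nd (nat_lit 209) (nat_lit 0) (cs (lf (nat_lit 36) (nat_lit 186)) (lf (nat_lit 42) (nat_lit 209)))))))))))) (lf (nat_lit 35) (nat_lit 229)))))))))) (nd (nat_lit 230) (nat_lit 0) (cs (lf (nat_lit 30) (nat_lit 229)) (nd (nat_lit 229) (nat_lit 0) (cs (lf (nat_lit 23) (nat_lit 228)) (lf (nat_lit 35) (nat_lit 207)))))))))))) q80606 (by decide +kernel)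
def q80704 : Q := Q.p (nat_lit 0x6000000000000000000000000000000000000000000000000000000000000000) (nat_lit 0x3b8000ee0003f8001ef80039c001ff0003f8000fe0003200008000000000000000000000000000000000000) (nat_lit 17)
theorem c80704 : QOK q80704 := cut [q80497, q80500, q80641, q80646, q79210, q79228, q80649, q80653, q80658, q80675, q80680, q80686, q80428, q80690, q80700, q80702, q80703] ⟨c80497, c80500, c80641, c80646, c79210, c79228, c80649, c80653, c80658, c80675, c80680, c80686, c80428, c80690, c80700, c80702, c80703, trivial⟩ (nd (nat_lit 255) (nat_lit 0) (cs (nd (nat_lit 256) (nat_lit 0) (cs (rf (nat_lit 0)) (cs (rf (nat_lit 1)) (cs (nd (nat_lit 279) (nat_lit 0) (cs (lf (nat_lit 4) (nat_lit 253)) (nd (nat_lit 274) (nat_lit 0) (cs (lf (nat_lit 10) (nat_lit 252)) (rf (nat_lit 2)))))) (rf (nat_lit 3)))))) (cs (nd (nat_lit 252) (nat_lit 0) (cs (rf (nat_lit 4)) (cs (rf (nat_lit 5)) (nd (nat_lit 274) (nat_lit 0) (cs (lf (nat_lit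 11) (nat_lit 251)) (nd (nat_lit 296) (nat_lit 0) (cs (nd (nat_lit 277) (nat_lit 0) (cs (lf (nat_lit 5) (nat_lit 252)) (rf (nat_lit 6)))) (cs (nd (nat_lit 277) (nat_lit 0) (cs (lf (nat_lit 5) (nat_lit 252)) (nd (nat_lit 230) (nat_lit 0) (cs (lf (nat_lit 23) (nat_lit 229)) (nd (nat_lit 233) (nat_lit 0) (cs (lf (nat_lit 17) (nat_lit 230)) (nd (nat_lit 295) (nat_lit 0) (cs (lf (nat_lit 41) (nat_lit 229)) (rf (nat_lit 7)))))))))) (cs (nd (nat_lit 233) (nat_lit 0) (cs (lf (nat_lit 17) (nat_lit 230)) (nd (nat_lit 277) (nat_lit 0) (cs (lf (nat_lit 5) (nat_lit 252)) (nd (nat_lit 230) (nat_lit 0) (cs (lf (nat_lit 23) (nat_lit 229)) (nd (nat_lit 297) (nat_lit 0) (cs (lf (nat_lit 29) (nat_lit 230)) (nd (nat_lit 208) (nat_lit 0) (cs (lf (nat_lit 28) (nat_lit 208)) (nd (nat_lit 187) (nat_lit 0) (cs (lf (nat_lit 34) (nat_lit 186)) (nd (nat_lit 165) (nat_lit 0) (cs (lf (nat_lit 33) (nat_lit 164)) (nd (nat_lit 185) (nat_lit 0) (cs (lf (nat_lit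 46) (nat_lit 185)) (nd (nat_lit 317) (nat_lit 0) (cs (lf (nat_lit 40) (nat_lit 229)) (nd (nat_lit 318) (nat_lit 0) (cs (lf (nat_lit 41) (nat_lit 251)) (nd (nat_lit 299) (nat_lit 0) (cs (lf (nat_lit 7) (nat_lit 295)) (rf (nat_lit 8)))))))))))))))))))))))) (cs (nd (nat_lit 229) (nat_lit 0) (cs (lf (nat_lit 22) (nat_lit 229)) (nd (nat_lit 233) (nat_lit 0) (cs (lf (nat_lit 17) (nat_lit 230)) (nd (nat_lit 277) (nat_lit 0) (cs (lf (nat_lit 5) (nat_lit 252)) (rf (nat_lit 9)))))))) (rf (nat_lit 10)))))))))))) (cs (rf (nat_lit 11)) (cs (nd (nat_lit 252) (nat_lit 0) (cs (rf (nat_lit 4)) (cs (rf (nat_lit 12)) (cs (nd (nat_lit 277) (nat_lit 0) (cs (lf (nat_lit 5) (nat_lit 252)) (rf (nat_lit 13)))) (rf (nat_lit 14)))))) (cs (rf (nat_lit 15)) (rf (nat_lit 16)))))))) q80704 (by decide +kernel)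
def q80820 : Q := Q.p (nat_lit 0x6000008000000000000000000000000000000000000000000000000000000000) (nat_lit 0x3c0000fc0003f0001fe000390001f70003d8000f20003800008000000000000000000000000000000000000) (nat_lit 15)
theorem c80820 : QOK q80820 := cut [q80509, q80563, q80763, q80765, q80766, q80768, q80806, q80817, q80819] ⟨c80509, c80563, c80763, c80765, c80766, c80768, c80806, c80817, c80819, trivial⟩ (nd (nat_lit 255) (nat_lit 0) (cs (rf (nat_lit 0)) (cs (rf (nat_lit 1)) (cs (nd (nat_lit 277) (nat_lit 0) (cs (rf (nat_lit 2)) (cs (nd (nat_lit 230) (nat_lit 0) (cs (rf (nat_lit 3)) (cs (rf (nat_lit 4)) (nd (nat_lit 252) (nat_lit 0) (cs (lf (nat_lit 5) (nat_lit 252)) (nd (nat_lit 274) (nat_lit 0) (cs (lf (nat_lit 11) (nat_lit 251)) (nd (nat_lit 233) (nat_lit 0) (cs (lf (nat_lit 17) (nat_lit 230)) (nd (nat_lit 296) (nat_lit 0) (cs (lf (nat_lit 30) (nat_lit 230)) (nd (nat_lit 297) (nat_lit 0) (cs (lf (nat_lit 29) (nat_lit 230))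 (nd (nat_lit 208) (nat_lit 0) (cs (lf (nat_lit 28) (nat_lit 208)) (rf (nat_lit 5))))))))))))))))) (cs (rf (nat_lit 6)) (rf (nat_lit 7)))))) (rf (nat_lit 8)))))) q80820 (by decide +kernel)
def q80853 : Q := Q.p (nat_lit 0x6000008000000000000000000000000000000000000000000000000000000000) (nat_lit 0x20000080000f0000ff000010001d70003f0000fc0000700001400000000000000000000000000000000000) (nat_lit 13)
theorem c80853 : QOK q80853 := cut [q80725, q80728, q80733, q80743, q80823, q80713, q80833, q80837, q80848, q80715] ⟨c80725, c80728, c80733, c80743, c80823, c80713, c80833, c80837, c80848, c80715, trivial⟩ (nd (nat_lit 209) (nat_lit 0) (cs (rf (nat_lit 0)) (cs (rf (nat_lit 1)) (cs (rf (nat_lit 2)) (nd (nat_lit 275) (nat_lit 0) (cs (rf (nat_lit 3)) (cs (nd (nat_lit 210) (nat_lit 0) (cs (lf (nat_lit 35) (nat_lit 187)) (nd (nat_lit 211) (nat_lit 0) (cs (rf (nat_lit 4)) (cs (nd (nat_lit 186) (nat_lit 0) (cs (lf (nat_lit 46) (nat_lit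 186)) (nd (nat_lit 274) (nat_lit 0) (cs (lf (nat_lit 41) (nat_lit 208)) (nd (nat_lit 272) (nat_lit 0) (cs (lf (nat_lit 13) (nat_lit 250)) (nd (nat_lit 276) (nat_lit 0) (cs (lf (nat_lit 29) (nat_lit 209)) (nd (nat_lit 232) (nat_lit 0) (cs (lf (nat_lit 35) (nat_lit 188)) (nd (nat_lit 229) (nat_lit 0) (cs (rf (nat_lit 5)) (lf (nat_lit 13) (nat_lit 207)))))))))))))) (cs (nd (nat_lit 276) (nat_lit 0) (cs (lf (nat_lit 29) (nat_lit 209)) (rf (nat_lit 6)))) (nd (nat_lit 276) (nat_lit 0) (cs (lf (nat_lit 29) (nat_lit 209)) (rf (nat_lit 7)))))))))) (cs (rf (nat_lit 8)) (nd (nat_lit 276) (nat_lit 0) (cs (lf (nat_lit 29) (nat_lit 209)) (nd (nat_lit 274) (nat_lit 0) (cs (lf (nat_lit 41) (nat_lit 208)) (nd (nat_lit 272) (nat_lit 0) (cs (lf (nat_lit 13) (nat_lit 250)) (rf (nat_lit 9)))))))))))))))) q80853 (by decide +kernel)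
def q80932 : Q := Q.p (nat_lit 0xe000008000000000000000000000000000000000000000000000000000000000) (nat_lit 0x1000004000038000010000370001f0000fc0000f00001400000000000000000000000000000000000) (nat_lit 10)
theorem c80932 : QOK q80932 := cut [q80754, q80923, q80930, q80931] ⟨c80754, c80923, c80930, c80931, trivial⟩ (nd (nat_lit 209) (nat_lit 0) (cs (rf (nat_lit 0)) (cs (rf (nat_lit 1)) (cs (rf (nat_lit 2)) (rf (nat_lit 3)))))) q80932 (by decide +kernel)
def q80968 : Q := Q.p (nat_lit 0x6000008000000000000000000000000000000000000000000000000000000000) (nat_lit 0x20000080000700001f000190000170000700000c0000700001c00005000000000000000000000000000000) (nat_lit 11)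
theorem c80968 : QOK q80968 := cut [q80708, q80725, q80931, q80949, q80955, q80766, q80963, q80721, q80737, q80848] ⟨c80708, c80725, c80931, c80949, c80955, c80766, c80963, c80721, c80737, c80848, trivial⟩ (nd (nat_lit 209) (nat_lit 0) (cs (rf (nat_lit 0)) (cs (rf (nat_lit 1)) (cs (rf (nat_lit 2)) (cs (nd (nat_lit 274) (nat_lit 0) (cs (nd (nat_lit 275) (nat_lit 0) (cs (lf (nat_lit 41) (nat_lit 208)) (nd (nat_lit 272) (nat_lit 0) (cs (lf (nat_lit 13) (nat_lit 250)) (nd (nat_lit 255) (nat_lit 0) (cs (lf (nat_lit 6) (nat_lit 252)) (nd (nat_lit 186) (nat_lit 0) (cs (lf (nat_lit 46) (nat_lit 186)) (nd (nat_lit 187) (nat_lit 0) (cs (lf (nat_lit 47) (nat_lit 164)) (rf (nat_lit 3)))))))))))) (cs (rf (nat_lit 4)) (cs (nd (nat_lit 275) (nat_lit 0) (cs (lf (nat_lit 41) (nat_lit 208)) (nd (nat_lit 272) (nat_lit 0) (cs (lf (nat_lit 13) (nat_lit 250)) (nd (nat_lit 255) (nat_lit 0) (cs (lf (nat_lit 6) (nat_lit 252)) (nd (nat_lit 208) (nat_lit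 0) (cs (lf (nat_lit 47) (nat_lit 186)) (nd (nat_lit 230) (nat_lit 0) (cs (lf (nat_lit 42) (nat_lit 208)) (rf (nat_lit 5)))))))))))) (nd (nat_lit 275) (nat_lit 0) (cs (lf (nat_lit 41) (nat_lit 208)) (nd (nat_lit 187) (nat_lit 0) (cs (lf (nat_lit 40) (nat_lit 186)) (rf (nat_lit 6)))))))))) (nd (nat_lit 275) (nat_lit 0) (cs (rf (nat_lit 7)) (cs (rf (nat_lit 8)) (rf (nat_lit 9)))))))))) q80968 (by decide +kernel)
def q80976 : Q := Q.p (nat_lit 0xf000030000000000000000000000000000000000000000000000000000000000) (nat_lit 0x300000c00007000000000000000180000600001800000000000000000000000000000000000000000) (nat_lit 7)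
theorem c80976 : QOK q80976 := cut [q80975] ⟨c80975, trivial⟩ (nd (nat_lit 277) (nat_lit 0) (cs (lf (nat_lit 5) (nat_lit 252)) (rf (nat_lit 0)))) q80976 (by decide +kernel)
def q81004 : Q := Q.p (nat_lit 0x100000400007000010000000000000000000000000000000000000000000000000000000000) (nat_lit 0x380000e0000280000b00000000006000018000060000000000000000000000000000000000000000000000) (nat_lit 9)
theorem c81004 : QOK q81004 := cut [q80998, q81001] ⟨c80998, c81001, trivial⟩ (nd (nat_lit 319) (nat_lit 0) (cs (nd (nat_lit 297) (nat_lit 0) (cs (lf (nat_lit 32) (nat_lit 231)) (lf (nat_lit 24) (nat_lit 230)))) (cs (rf (nat_lit 0)) (cs (rf (nat_lit 1)) (nd (nat_lit 318) (nat_lit 0) (cs (lf (nat_lit 29) (nat_lit 252)) (nd (nat_lit 275) (nat_lit 0) (cs (lf (nat_lit 30) (nat_lit 252)) (lf (nat_lit 31) (nat_lit 231)))))))))) q81004 (by decide +kernel)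
def q81098 : Q := Q.p (nat_lit 0xe000000000000000000000000000000000000000000000000000000000000000) (nat_lit 0x1ff00071c003bb800000000000000000000000000000000000000000000000000000000) (nat_lit 8)
theorem c81098 : QOK q81098 := cut [q81087, q81094] ⟨c81087, c81094, trivial⟩ (nd (nat_lit 274) (nat_lit 0) (cs (nd (nat_lit 252) (nat_lit 0) (cs (lf (nat_lit 11) (nat_lit 251)) (rf (nat_lit 0)))) (cs (nd (nat_lit 256) (nat_lit 0) (cs (lf (nat_lit 10) (nat_lit 252)) (rf (nat_lit 1)))) (nd (nat_lit 273) (nat_lit 0) (cs (lf (nat_lit 9) (nat_lit 251)) (nd (nat_lit 275) (nat_lit 0) (cs (lf (nat_lit 12) (nat_lit 250)) (lf (nat_lit 6) (nat_lit 252))))))))) q81098 (by decide +kernel)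
def q81265 : Q := Q.p (nat_lit 0x80000e000000000000000000000000000000000000000000000000000000000000000) (nat_lit 0x80000e0000780003f0001f0000300001f80001f8000780000e00002800000000000000000000000000000000000) (nat_lit 11)
theorem c81265 : QOK q81265 := cut [q79169, q79199, q80292, q80500, q22465, q81245, q81249, q81253, q79123, q79128, q79160, q79425, q79590, q79753] ⟨c79169, c79199, c80292, c80500, c22465, c81245, c81249, c81253, c79123, c79128, c79160, c79425, c79590, c79753, trivial⟩ (nd (nat_lit 232) (nat_lit 0) (cs (rf (nat_lit 0)) (cs (rf (nat_lit 1)) (cs (rf (nat_lit 2)) (cs (nd (nat_lit 297) (nat_lit 0) (cs (lf (nat_lit 30) (nat_lit 231)) (nd (nat_lit 256) (nat_lit 0) (cs (rf (nat_lit 3)) (cs (nd (nat_lit 277) (nat_lit 0) (cs (nd (nat_lit 299) (nat_lit 0) (cs (lf (nat_lit 42) (nat_lit 232)) (nd (nat_lit 234) (nat_lit 0) (cs (rf (nat_lit 4)) (lf (nat_lit 17) (nat_lit 231)))))) (cs (nd (nat_lit 234) (nat_lit 0) (cs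 (lf (nat_lit 17) (nat_lit 231)) (nd (nat_lit 190) (nat_lit 0) (cs (lf (nat_lit 37) (nat_lit 189)) (nd (nat_lit 278) (nat_lit 0) (cs (lf (nat_lit 5) (nat_lit 253)) (rf (nat_lit 5)))))))) (nd (nat_lit 299) (nat_lit 0) (cs (lf (nat_lit 42) (nat_lit 232)) (nd (nat_lit 278) (nat_lit 0) (cs (lf (nat_lit 5) (nat_lit 253)) (rf (nat_lit 6))))))))) (rf (nat_lit 7))))))) (nd (nat_lit 210) (nat_lit 0) (cs (rf (nat_lit 8)) (cs (rf (nat_lit 9)) (cs (rf (nat_lit 10)) (nd (nat_lit 276) (nat_lit 0) (cs (rf (nat_lit 11)) (cs (rf (nat_lit 12)) (cs (rf (nat_lit 13)) (nd (nat_lit 187) (nat_lit 0) (cs (lf (nat_lit 46) (nat_lit 187)) (nd (nat_lit 256) (nat_lit 0) (cs (lf (nat_lit 6) (nat_lit 253)) (nd (nat_lit 234) (nat_lit 0) (cs (lf (nat_lit 17) (nat_lit 231)) (nd (nat_lit 278) (nat_lit 0) (cs (lf (nat_lit 5) (nat_lit 253)) (nd (nat_lit 277) (nat_lit 0) (cs (lf (nat_lit 29) (nat_lit 210)) (nd (nat_lit 300) (nat_lit 0) (cs (lf (nat_lit 5) (nat_lit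 275)) (nd (nat_lit 211) (nat_lit 0) (cs (lf (nat_lit 35) (nat_lit 188)) (lf (nat_lit 46) (nat_lit 211))))))))))))))))))))))))))))) q81265 (by decide +kernel)
def q81335 : Q := Q.p (nat_lit 0x400007000000000000000000000000000000000000000000000000000000000000000) (nat_lit 0x200000c000030000080000800000f8000380000e0000280000000000000000000000000000000000000000) (nat_lit 8)
theorem c81335 : QOK q81335 := cut [q79028, q80985, q81334] ⟨c79028, c80985, c81334, trivial⟩ (nd (nat_lit 230) (nat_lit 0) (cs (rf (nat_lit 0)) (cs (rf (nat_lit 1)) (rf (nat_lit 2))))) q81335 (by decide +kernel)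
def q81342 : Q := Q.p (nat_lit 0x7800000000000000000000000000000000000000000000000000000000000000) (nat_lit 0x380000060001dc00000000000000000000000000000000000000000000000000000000) (nat_lit 6)
theorem c81342 : QOK q81342 := cut [q81341] ⟨c81341, trivial⟩ (nd (nat_lit 276) (nat_lit 0) (cs (lf (nat_lit 5) (nat_lit 251)) (rf (nat_lit 0)))) q81342 (by decide +kernel)
def q81410 : Q := Q.p (nat_lit 0x7000000000000000000000000000000000000000000000000000000000000000) (nat_lit 0x800002c0001f00007c00018e0001f8000fc0007e0000780000a00000000000000000000000000000000000) (nat_lit 13)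
theorem c81410 : QOK q81410 := cut [q79028, q79078, q79112, q81379, q79096, q81382, q81385, q81394, q79029, q79041, q79066, q1140, q1298, q81404, q81406, q81409] ⟨c79028, c79078, c79112, c81379, c79096, c81382, c81385, c81394, c79029, c79041, c79066, c1140, c1298, c81404, c81406, c81409, trivial⟩ (nd (nat_lit 230) (nat_lit 0) (cs (rf (nat_lit 0)) (cs (nd (nat_lit 275) (nat_lit 0) (cs (rf (nat_lit 1)) (cs (rf (nat_lit 2)) (cs (rf (nat_lit 3)) (nd (nat_lit 231) (nat_lit 0) (cs (rf (nat_lit 4)) (cs (rf (nat_lit 5)) (cs (nd (nat_lit 255) (nat_lit 0) (cs (lf (nat_lit 18) (nat_lit 230)) (rf (nat_lit 6)))) (rf (nat_lit 7)))))))))) (cs (nd (nat_lit 208) (nat_lit 0) (cs (rf (nat_lit 8)) (cs (rf (nat_lit 9)) (cs (rf (nat_lit 10)) (nd (nat_lit 229) (nat_lit 0) (cs (nd (nat_lit 275) (nat_lit 0) (cs (rf (nat_lit 11)) (cs (rf (nat_lit 12)) (rf (nat_lit 13))))) (rf (nat_lit 14)))))))) (rf (nat_lit 15)))))) q81410 (by decide +kernel)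
def q81495 : Q := Q.p (nat_lit 0x7000000000000000000000000000000000000000000000000000000000000000) (nat_lit 0x7f80018e0001e000000000000000000000000000000000000000000000000000000000) (nat_lit 7)
theorem c81495 : QOK q81495 := cut [q79009, q79231, q81492, q81494] ⟨c79009, c79231, c81492, c81494, trivial⟩ (nd (nat_lit 251) (nat_lit 0) (cs (rf (nat_lit 0)) (cs (rf (nat_lit 1)) (cs (rf (nat_lit 2)) (rf (nat_lit 3)))))) q81495 (by decide +kernel)
def q81514 : Q := Q.p (nat_lit 0xe000000000000000000000000000000000000000000000000000000000000000) (nat_lit 0x140000700001e0001f8000018001f70001f80007e0001e00005000000000000000000000000000000000000) (nat_lit 12)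
theorem c81514 : QOK q81514 := cut [q80811, q81497, q80393, q81154, q81174, q81176, q80408, q81499, q81503, q81509, q80763, q81070, q81512] ⟨c80811, c81497, c80393, c81154, c81174, c81176, c80408, c81499, c81503, c81509, c80763, c81070, c81512, trivial⟩ (nd (nat_lit 233) (nat_lit 0) (cs (rf (nat_lit 0)) (cs (rf (nat_lit 1)) (cs (nd (nat_lit 211) (nat_lit 0) (cs (rf (nat_lit 2)) (cs (rf (nat_lit 3)) (cs (rf (nat_lit 4)) (cs (rf (nat_lit 5)) (nd (nat_lit 277) (nat_lit 0) (cs (rf (nat_lit 6)) (cs (rf (nat_lit 7)) (cs (rf (nat_lit 8)) (rf (nat_lit 9))))))))))) (nd (nat_lit 277) (nat_lit 0) (cs (rf (nat_lit 10)) (cs (rf (nat_lit 11)) (rf (nat_lit 12))))))))) q81514 (by decide +kernel)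
def q81627 : Q := Q.p (nat_lit 0xe000000000000000000000000000000000000000000000000000000000000000) (nat_lit 0x10000fc0003f0001f8000f00007ff8003fc000ff8003f00001400000000000000000000000000000000000) (nat_lit 16)
theorem c81627 : QOK q81627 := cut [q80872, q81570, q80728, q80754, q80930, q80931, q80743, q81589, q81593, q81600, q80905, q81463, q80500, q81526, q79511, q81606, q81616, q81624] ⟨c80872, c81570, c80728, c80754, c80930, c80931, c80743, c81589, c81593, c81600, c80905, c81463, c80500, c81526, c79511, c81606, c81616, c81624, trivial⟩ (nd (nat_lit 231) (nat_lit 0) (cs (rf (nat_lit 0)) (cs (nd (nat_lit 256) (nat_lit 0) (cs (lf (nat_lit 23) (nat_lit 230)) (nd (nat_lit 234) (nat_lit 0) (cs (lf (nat_lit 17) (nat_lit 231)) (nd (nat_lit 279) (nat_lit 0) (cs (lf (nat_lit 4) (nat_lit 253)) (nd (nat_lit 257) (nat_lit 0) (cs (lf (nat_lit 5) (nat_lit 254)) (nd (nat_lit 276) (nat_lit 0) (cs (lf (nat_lit 11) (nat_lit 253)) (nd (nat_lit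 301) (nat_lit 0) (cs (nd (nat_lit 190) (nat_lit 0) (cs (nd (nat_lit 187) (nat_lit 0) (cs (lf (nat_lit 25) (nat_lit 187)) (nd (nat_lit 298) (nat_lit 0) (cs (lf (nat_lit 42) (nat_lit 231)) (rf (nat_lit 1)))))) (lf (nat_lit 25) (nat_lit 190)))) (lf (nat_lit 42) (nat_lit 234)))))))))))))) (cs (nd (nat_lit 209) (nat_lit 0) (cs (rf (nat_lit 2)) (cs (rf (nat_lit 3)) (cs (rf (nat_lit 4)) (cs (rf (nat_lit 5)) (nd (nat_lit 275) (nat_lit 0) (cs (rf (nat_lit 6)) (cs (rf (nat_lit 7)) (cs (nd (nat_lit 276) (nat_lit 0) (cs (lf (nat_lit 29) (nat_lit 209)) (nd (nat_lit 210) (nat_lit 0) (cs (lf (nat_lit 35) (nat_lit 187)) (nd (nat_lit 232) (nat_lit 0) (cs (lf (nat_lit 30) (nat_lit 209)) (nd (nat_lit 229) (nat_lit 0) (cs (lf (nat_lit 1) (nat_lit 229)) (rf (nat_lit 8)))))))))) (nd (nat_lit 186) (nat_lit 0) (cs (lf (nat_lit 46) (nat_lit 186)) (rf (nat_lit 9))))))))))))) (nd (nat_lit 276) (nat_lit 0) (cs (rf (nat_lit 10)) (cs (rf (nat_lit 11))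 (cs (nd (nat_lit 209) (nat_lit 0) (cs (rf (nat_lit 2)) (cs (rf (nat_lit 3)) (nd (nat_lit 256) (nat_lit 0) (cs (rf (nat_lit 12)) (cs (rf (nat_lit 13)) (nd (nat_lit 233) (nat_lit 0) (cs (rf (nat_lit 14)) (cs (nd (nat_lit 278) (nat_lit 0) (cs (lf (nat_lit 5) (nat_lit 253)) (nd (nat_lit 234) (nat_lit 0) (cs (lf (nat_lit 17) (nat_lit 231)) (nd (nat_lit 208) (nat_lit 0) (cs (lf (nat_lit 20) (nat_lit 208)) (nd (nat_lit 186) (nat_lit 0) (cs (lf (nat_lit 42) (nat_lit 186)) (nd (nat_lit 142) (nat_lit 0) (cs (lf (nat_lit 25) (nat_lit 142)) (nd (nat_lit 300) (nat_lit 0) (cs (lf (nat_lit 42) (nat_lit 233)) (nd (nat_lit 299) (nat_lit 0) (cs (lf (nat_lit 41) (nat_lit 233)) (rf (nat_lit 15)))))))))))))))) (rf (nat_lit 16))))))))))) (nd (nat_lit 298) (nat_lit 0) (cs (lf (nat_lit 42) (nat_lit 231)) (rf (nat_lit 17)))))))))))) q81627 (by decide +kernel)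
def q81644 : Q := Q.p (nat_lit 0x7000004000000000000000000000000000000000000000000000000000000000) (nat_lit 0x1ce000780003f2000000000000000000000000000000000000000000000000000000000) (nat_lit 9)
theorem c81644 : QOK q81644 := cut [q81643] ⟨c81643, trivial⟩ (nd (nat_lit 255) (nat_lit 0) (cs (lf (nat_lit 23) (nat_lit 229)) (rf (nat_lit 0)))) q81644 (by decide +kernel)
def q81655 : Q := Q.p (nat_lit 0x7000004000000000000000000000000000000000000000000000000000000000) (nat_lit 0x200000e0000780001f8000000001b0001fc0007e0000780000a00000000000000000000000000000000000) (nat_lit 12)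
theorem c81655 : QOK q81655 := cut [q6259, q79029, q79041, q79066, q79048, q79062, q81651] ⟨c6259, c79029, c79041, c79066, c79048, c79062, c81651, trivial⟩ (nd (nat_lit 208) (nat_lit 0) (cs (rf (nat_lit 0)) (cs (rf (nat_lit 1)) (cs (rf (nat_lit 2)) (cs (rf (nat_lit 3)) (nd (nat_lit 274) (nat_lit 0) (cs (rf (nat_lit 4)) (cs (rf (nat_lit 5)) (nd (nat_lit 185) (nat_lit 0) (cs (lf (nat_lit 46) (nat_lit 185)) (nd (nat_lit 275) (nat_lit 0) (cs (lf (nat_lit 29) (nat_lit 208)) (rf (nat_lit 6)))))))))))))) q81655 (by decide +kernel)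
def q81714 : Q := Q.p (nat_lit 0x7000000000000000000000000000000000000000000000000000000000000000) (nat_lit 0xf80003e0000fc0001f00038c001fc001ffc001ff0001e00006800000000000000000000000000000000000) (nat_lit 18)
theorem c81714 : QOK q81714 := cut [q79914, q81677, q79169, q79199, q80292, q81704, q79177, q81707, q81711] ⟨c79914, c81677, c79169, c79199, c80292, c81704, c79177, c81707, c81711, trivial⟩ (nd (nat_lit 232) (nat_lit 0) (cs (rf (nat_lit 0)) (cs (rf (nat_lit 1)) (nd (nat_lit 275) (nat_lit 0) (cs (rf (nat_lit 2)) (cs (rf (nat_lit 3)) (cs (rf (nat_lit 4)) (cs (rf (nat_lit 5)) (nd (nat_lit 231) (nat_lit 0) (cs (nd (nat_lit 297) (nat_lit 0) (cs (lf (nat_lit 30) (nat_lit 231)) (rf (nat_lit 6)))) (cs (rf (nat_lit 7)) (rf (nat_lit 8))))))))))))) q81714 (by decide +kernel)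
def q81717 : Q := Q.p (nat_lit 0x7000002000000000000000000000000000000000000000000000000000000000) (nat_lit 0x1dc0000e00039000000000000000000000000000000000000000000000000000000000) (nat_lit 7)
theorem c81717 : QOK q81717 := cut [q81716] ⟨c81716, trivial⟩ (nd (nat_lit 251) (nat_lit 0) (cs (lf (nat_lit 23) (nat_lit 228)) (rf (nat_lit 0)))) q81717 (by decide +kernel)
def q81744 : Q := Q.p (nat_lit 0x800007800010000040000000000000000000000000000000000000000000000000000) (nat_lit 0x2000008000070000000000f0000bc000060000080000000000000000000000000000000000000000) (nat_lit 6)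
theorem c81744 : QOK q81744 := cut [q81733, q81737, q81741] ⟨c81733, c81737, c81741, trivial⟩ (nd (nat_lit 230) (nat_lit 0) (cs (rf (nat_lit 0)) (cs (rf (nat_lit 1)) (nd (nat_lit 229) (nat_lit 0) (cs (lf (nat_lit 23) (nat_lit 228)) (nd (nat_lit 272) (nat_lit 0) (cs (lf (nat_lit 10) (nat_lit 250)) (rf (nat_lit 2))))))))) q81744 (by decide +kernel)
def q81753 : Q := Q.p (nat_lit 0x7000000000000000000000000000000000000000000000000000000000000000) (nat_lit 0x80000200001ee0018f0007fe00000000000000000000000000000000000000000000000000000000) (nat_lit 10)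
theorem c81753 : QOK q81753 := cut [q79260, q81675, q81752] ⟨c79260, c81675, c81752, trivial⟩ (nd (nat_lit 251) (nat_lit 0) (cs (rf (nat_lit 0)) (cs (rf (nat_lit 1)) (rf (nat_lit 2))))) q81753 (by decide +kernel)
def q81833 : Q := Q.p (nat_lit 0x10000040000f000008000000000000000000000000000000000000000000000000000000000) (nat_lit 0x300001e800078000000000700000c0000200000000000000000000000000000000000000000000000) (nat_lit 8)
theorem c81833 : QOK q81833 := cut [q81146, q81828, q81832] ⟨c81146, c81828, c81832, trivial⟩ (nd (nat_lit 276) (nat_lit 0) (cs (nd (nat_lit 298) (nat_lit 0) (cs (lf (nat_lit 42) (nat_lit 231)) (nd (nat_lit 233) (nat_lit 0) (cs (lf (nat_lit 17) (nat_lit 230)) (rf (nat_lit 0)))))) (cs (rf (nat_lit 1)) (rf (nat_lit 2))))) q81833 (by decide +kernel)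
def q81872 : Q := Q.p (nat_lit 0xf000000000000000000000000000000000000000000000000000000000000000) (nat_lit 0x1000004000039c0000e00071c00000000000000000000000000000000000000000000000000000000) (nat_lit 9)
theorem c81872 : QOK q81872 := cut [q81868] ⟨c81868, trivial⟩ (nd (nat_lit 233) (nat_lit 0) (cs (lf (nat_lit 17) (nat_lit 230)) (nd (nat_lit 251) (nat_lit 0) (cs (lf (nat_lit 16) (nat_lit 229)) (nd (nat_lit 276) (nat_lit 0) (cs (lf (nat_lit 5) (nat_lit 251)) (nd (nat_lit 298) (nat_lit 0) (cs (lf (nat_lit 30) (nat_lit 232)) (rf (nat_lit 0)))))))))) q81872 (by decide +kernel)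
def q81876 : Q := Q.p (nat_lit 0x7000000000000000000000000000000000000000000000000000000000000000) (nat_lit 0xff00038c0003c000000000000000000000000000000000000000000000000000000000) (nat_lit 7)
theorem c81876 : QOK q81876 := cut [q79217, q80428, q81867, q81875] ⟨c79217, c80428, c81867, c81875, trivial⟩ (nd (nat_lit 255) (nat_lit 0) (cs (rf (nat_lit 0)) (cs (rf (nat_lit 1)) (cs (rf (nat_lit 2)) (rf (nat_lit 3)))))) q81876 (by decide +kernel)
def q81908 : Q := Q.p (nat_lit 0xe000000000000000000000000000000000000000000000000000000000000000) (nat_lit 0x700003e0001fc007fe000f00003bf0000700001c0000500000000000000000000000000000000000000000) (nat_lit 11)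
theorem c81908 : QOK q81908 := cut [q81882, q81889, q81192, q81238, q81239, q79188, q81209, q80872, q81898, q81904, q81907] ⟨c81882, c81889, c81192, c81238, c81239, c79188, c81209, c80872, c81898, c81904, c81907, trivial⟩ (nd (nat_lit 275) (nat_lit 0) (cs (rf (nat_lit 0)) (cs (rf (nat_lit 1)) (cs (nd (nat_lit 297) (nat_lit 0) (cs (rf (nat_lit 2)) (cs (rf (nat_lit 3)) (cs (rf (nat_lit 4)) (nd (nat_lit 231) (nat_lit 0) (cs (rf (nat_lit 5)) (cs (rf (nat_lit 6)) (nd (nat_lit 298) (nat_lit 0) (cs (lf (nat_lit 29) (nat_lit 231)) (nd (nat_lit 296) (nat_lit 0) (cs (lf (nat_lit 41) (nat_lit 230)) (nd (nat_lit 232) (nat_lit 0) (cs (lf (nat_lit 35) (nat_lit 209)) (nd (nat_lit 230) (nat_lit 0) (cs (lf (nat_lit 0) (nat_lit 229)) (lf (nat_lit 47) (nat_lit 208))))))))))))))))) (cs (nd (nat_lit 231) (nat_lit 0) (cs (rf (nat_lit 7)) (cs (rf (nat_lit 8)) (rf (nat_lit 9))))) (rf (nat_lit 10))))))) q81908 (by decide +kernel)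
def q81988 : Q := Q.p (nat_lit 0xe000000000000000000000000000000000000000000000000000000000000000) (nat_lit 0xff00031c0003c000000000000000000000000000000000000000000000000000000000) (nat_lit 7)
theorem c81988 : QOK q81988 := cut [q79217, q80428, q81867, q81875] ⟨c79217, c80428, c81867, c81875, trivial⟩ (nd (nat_lit 252) (nat_lit 0) (cs (rf (nat_lit 0)) (cs (rf (nat_lit 1)) (cs (rf (nat_lit 2)) (rf (nat_lit 3)))))) q81988 (by decide +kernel)
def q81998 : Q := Q.p (nat_lit 0x1800007000010000040000000000000000000000000000000000000000000000000000) (nat_lit 0x50000040000000000c0000bc0002f0000000000000000000000000000000000000000000000) (nat_lit 8)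
theorem c81998 : QOK q81998 := cut [q81997] ⟨c81997, trivial⟩ (nd (nat_lit 189) (nat_lit 0) (cs (lf (nat_lit 34) (nat_lit 188)) (rf (nat_lit 0)))) q81998 (by decide +kernel)
def q82097 : Q := Q.p (nat_lit 0xe000000000000000000000000000000000000000000000000000000000000000) (nat_lit 0x100001c000070003bc000f00007ff8000fc000ff8000f00001400000000000000000000000000000000000) (nat_lit 13)
theorem c82097 : QOK q82097 := cut [q80872, q82089, q80728, q80754, q80930, q80931, q80743, q81589, q81600, q81904, q81879, q82086] ⟨c80872, c82089, c80728, c80754, c80930, c80931, c80743, c81589, c81600, c81904, c81879, c82086, trivial⟩ (nd (nat_lit 231) (nat_lit 0) (cs (rf (nat_lit 0)) (cs (rf (nat_lit 1)) (cs (nd (nat_lit 209) (nat_lit 0) (cs (rf (nat_lit 2)) (cs (rf (nat_lit 3)) (cs (rf (nat_lit 4)) (cs (rf (nat_lit 5)) (nd (nat_lit 275) (nat_lit 0) (cs (rf (nat_lit 6)) (cs (rf (nat_lit 7)) (rf (nat_lit 8)))))))))) (nd (nat_lit 275) (nat_lit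 0) (cs (rf (nat_lit 9)) (cs (nd (nat_lit 256) (nat_lit 0) (cs (lf (nat_lit 11) (nat_lit 252)) (nd (nat_lit 234) (nat_lit 0) (cs (lf (nat_lit 17) (nat_lit 231)) (rf (nat_lit 10)))))) (nd (nat_lit 256) (nat_lit 0) (cs (lf (nat_lit 11) (nat_lit 252)) (nd (nat_lit 234) (nat_lit 0) (cs (lf (nat_lit 17) (nat_lit 231)) (rf (nat_lit 11))))))))))))) q82097 (by decide +kernel)
def q82184 : Q := Q.p (nat_lit 0x3c00008000000000000000000000000000000000000000000000000000000000) (nat_lit 0x400004200007800066000080000200000000000000000000000000000000000000000) (nat_lit 7)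
theorem c82184 : QOK q82184 := cut [q82183] ⟨c82183, trivial⟩ (nd (nat_lit 230) (nat_lit 0) (cs (lf (nat_lit 12) (nat_lit 227)) (rf (nat_lit 0)))) q82184 (by decide +kernel)
def q82195 : Q := Q.p (nat_lit 0x3800000000000000000000000000000000000000000000000000000000000000) (nat_lit 0x40000100000fe000c700039c00000000000000000000000000000000000000000000000000000000) (nat_lit 9)
theorem c82195 : QOK q82195 := cut [q2623, q40739, q82187, q82194] ⟨c2623, c40739, c82187, c82194, trivial⟩ (nd (nat_lit 250) (nat_lit 0) (cs (rf (nat_lit 0)) (cs (rf (nat_lit 1)) (cs (rf (nat_lit 2)) (rf (nat_lit 3)))))) q82195 (by decide +kernel)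
def q82204 : Q := Q.p (nat_lit 0x7800010000000000000000000000000000000000000000000000000000000000) (nat_lit 0xe7000380001c8000000000000000000000000000000000000000000000000000000000) (nat_lit 7)
theorem c82204 : QOK q82204 := cut [q82203] ⟨c82203, trivial⟩ (nd (nat_lit 273) (nat_lit 0) (cs (lf (nat_lit 11) (nat_lit 250)) (rf (nat_lit 0)))) q82204 (by decide +kernel)
def q82217 : Q := Q.p (nat_lit 0x200003800002000008000000000000000000000000000000000000000000000000000) (nat_lit 0x380000c0000000000d8000f00003c0000000000000000000000000000000000000000000000) (nat_lit 9)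
theorem c82217 : QOK q82217 := cut [q82213] ⟨c82213, trivial⟩ (nd (nat_lit 274) (nat_lit 0) (cs (lf (nat_lit 29) (nat_lit 207)) (nd (nat_lit 208) (nat_lit 0) (cs (lf (nat_lit 35) (nat_lit 185)) (nd (nat_lit 230) (nat_lit 0) (cs (lf (nat_lit 30) (nat_lit 207)) (nd (nat_lit 227) (nat_lit 0) (cs (lf (nat_lit 1) (nat_lit 227)) (rf (nat_lit 0)))))))))) q82217 (by decide +kernel)
def q82226 : Q := Q.p (nat_lit 0x3800002000008000000000000000000000000000000000000000000000000000) (nat_lit 0xa000000000058000360003f00003c0000500000000000000000000000000000000000) (nat_lit 9)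
theorem c82226 : QOK q82226 := cut [q82219, q82220, q82221, q82224] ⟨c82219, c82220, c82221, c82224, trivial⟩ (nd (nat_lit 186) (nat_lit 0) (cs (rf (nat_lit 0)) (cs (rf (nat_lit 1)) (cs (rf (nat_lit 2)) (nd (nat_lit 208) (nat_lit 0) (cs (lf (nat_lit 30) (nat_lit 185)) (rf (nat_lit 3)))))))) q82226 (by decide +kernel)
def q82232 : Q := Q.p (nat_lit 0x200007800000000000000000000000000000000000000000000000000000000000000) (nat_lit 0xe4000380001f8000000000000000000000000000000000000000000000000000000000) (nat_lit 7)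
theorem c82232 : QOK q82232 := cut [q82203] ⟨c82203, trivial⟩ (nd (nat_lit 232) (nat_lit 0) (cs (lf (nat_lit 17) (nat_lit 229)) (rf (nat_lit 0)))) q82232 (by decide +kernel)
def q82262 : Q := Q.p (nat_lit 0x3800001000000000000000000000000000000000000000000000000000000000) (nat_lit 0xee0001c000072000000000000000000000000000000000000000000000000000000000) (nat_lit 7)
theorem c82262 : QOK q82262 := cut [q82261] ⟨c82261, trivial⟩ (nd (nat_lit 254) (nat_lit 0) (cs (lf (nat_lit 22) (nat_lit 228)) (rf (nat_lit 0)))) q82262 (by decide +kernel)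
def q82297 : Q := Q.p (nat_lit 0x3800008000000000000000000000000000000000000000000000000000000000) (nat_lit 0x38001c600016000000000000000000000000000000000000000000000000000000000) (nat_lit 6)
theorem c82297 : QOK q82297 := cut [q82296] ⟨c82296, trivial⟩ (nd (nat_lit 250) (nat_lit 0) (cs (lf (nat_lit 17) (nat_lit 228)) (rf (nat_lit 0)))) q82297 (by decide +kernel)
def q82312 : Q := Q.p (nat_lit 0x3800001000000000000000000000000000000000000000000000000000000000) (nat_lit 0xee000070001c800000000000000000000000000000000000000000000000000000000) (nat_lit 7)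
theorem c82312 : QOK q82312 := cut [q82311] ⟨c82311, trivial⟩ (nd (nat_lit 250) (nat_lit 0) (cs (lf (nat_lit 23) (nat_lit 227)) (rf (nat_lit 0)))) q82312 (by decide +kernel)
def q82353 : Q := Q.p (nat_lit 0x3800008000000000000000000000000000000000000000000000000000000000) (nat_lit 0x700001c0000780000f800000000f70001fe000ff8000780001600000000000000000000000000000000000) (nat_lit 12)
theorem c82353 : QOK q82353 := cut [q82300, q82301, q80750, q82299, q82307, q82309, q82318, q82326, q82330, q82342, q82345, q82350] ⟨c82300, c82301, c80750, c82299, c82307, c82309, c82318, c82326, c82330, c82342, c82345, c82350, trivial⟩ (nd (nat_lit 209) (nat_lit 0) (cs (rf (nat_lit 0)) (cs (rf (nat_lit 1)) (cs (nd (nat_lit 187) (nat_lit 0) (cs (rf (nat_lit 2)) (cs (rf (nat_lit 3)) (rf (nat_lit 4))))) (cs (rf (nat_lit 5)) (nd (nat_lit 275) (nat_lit 0) (cs (rf (nat_lit 6)) (cs (nd (nat_lit 210) (nat_lit 0) (cs (lf (nat_lit 35) (nat_lit 187)) (nd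 (nat_lit 229) (nat_lit 0) (cs (nd (nat_lit 230) (nat_lit 0) (cs (lf (nat_lit 12) (nat_lit 206)) (nd (nat_lit 208) (nat_lit 0) (cs (lf (nat_lit 6) (nat_lit 207)) (lf (nat_lit 47) (nat_lit 186)))))) (cs (nd (nat_lit 274) (nat_lit 0) (cs (lf (nat_lit 41) (nat_lit 208)) (nd (nat_lit 208) (nat_lit 0) (cs (lf (nat_lit 47) (nat_lit 186)) (nd (nat_lit 207) (nat_lit 0) (cs (lf (nat_lit 11) (nat_lit 206)) (lf (nat_lit 24) (nat_lit 185)))))))) (cs (nd (nat_lit 274) (nat_lit 0) (cs (lf (nat_lit 41) (nat_lit 208)) (nd (nat_lit 185) (nat_lit 0) (cs (lf (nat_lit 25) (nat_lit 185)) (rf (nat_lit 7)))))) (nd (nat_lit 274) (nat_lit 0) (cs (lf (nat_lit 41) (nat_lit 208)) (nd (nat_lit 185) (nat_lit 0) (cs (lf (nat_lit 25) (nat_lit 185)) (nd (nat_lit 208) (nat_lit 0) (cs (lf (nat_lit 47) (nat_lit 186)) (nd (nat_lit 211) (nat_lit 0) (cs (lf (nat_lit 10) (nat_lit 207)) (rf (nat_lit 8)))))))))))))))) (cs (nd (nat_lit 274) (nat_lit 0) (cs (lf (nat_lit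 41) (nat_lit 208)) (rf (nat_lit 9)))) (cs (nd (nat_lit 188) (nat_lit 0) (cs (lf (nat_lit 34) (nat_lit 187)) (nd (nat_lit 208) (nat_lit 0) (cs (lf (nat_lit 47) (nat_lit 186)) (nd (nat_lit 230) (nat_lit 0) (cs (lf (nat_lit 42) (nat_lit 208)) (rf (nat_lit 10)))))))) (nd (nat_lit 188) (nat_lit 0) (cs (lf (nat_lit 34) (nat_lit 187)) (rf (nat_lit 11)))))))))))))) q82353 (by decide +kernel)
def q82388 : Q := Q.p (nat_lit 0x3800000000000000000000000000000000000000000000000000000000000000) (nat_lit 0x40000fe000c780007e00008000020000000000000000000000000000000000000000000000) (nat_lit 8)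
theorem c82388 : QOK q82388 := cut [q40738, q40773, q82253, q82256, q82387] ⟨c40738, c40773, c82253, c82256, c82387, trivial⟩ (nd (nat_lit 250) (nat_lit 0) (cs (rf (nat_lit 0)) (cs (rf (nat_lit 1)) (cs (rf (nat_lit 2)) (cs (rf (nat_lit 3)) (rf (nat_lit 4))))))) q82388 (by decide +kernel)
def q82394 : Q := Q.p (nat_lit 0x3c00000000000000000000000000000000000000000000000000000000000000) (nat_lit 0x40000100000e7000038001c700000000000000000000000000000000000000000000000000000000) (nat_lit 9)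
theorem c82394 : QOK q82394 := cut [q82393] ⟨c82393, trivial⟩ (nd (nat_lit 231) (nat_lit 0) (cs (lf (nat_lit 17) (nat_lit 228)) (rf (nat_lit 0)))) q82394 (by decide +kernel)
def q82494 : Q := Q.p (nat_lit 0x80000300001800000000000000000000000000000000000000000000000000000000000000) (nat_lit 0x1e0000780001e0007780000e0000380003e0000f80000e000028000000000000000000000000000000000000000) (nat_lit 13)
theorem c82494 : QOK q82494 := cut [q82431, q82438, q82442, q63332, q51310, q82453, q82456, q82461, q82467, q82468, q47606, q60391, q58648] ⟨c82431, c82438, c82442, c63332, c51310, c82453, c82456, c82461, c82467, c82468, c47606, c60391, c58648, trivial⟩ (nd (nat_lit 294) (nat_lit 0) (cs (rf (nat_lit 0)) (cs (nd (nat_lit 229) (nat_lit 0) (cs (lf (nat_lit 36) (nat_lit 206)) (nd (nat_lit 226) (nat_lit 0) (cs (nd (nat_lit 228) (nat_lit 0) (cs (lf (nat_lit 47) (nat_lit 206)) (lf (nat_lit 1) (nat_lit 226)))) (cs (nd (nat_lit 292) (nat_lit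 0) (cs (nd (nat_lit 270) (nat_lit 0) (cs (lf (nat_lit 13) (nat_lit 248)) (nd (nat_lit 293) (nat_lit 0) (cs (lf (nat_lit 23) (nat_lit 269)) (lf (nat_lit 12) (nat_lit 269)))))) (cs (nd (nat_lit 206) (nat_lit 0) (cs (lf (nat_lit 46) (nat_lit 206)) (nd (nat_lit 293) (nat_lit 0) (cs (lf (nat_lit 12) (nat_lit 269)) (rf (nat_lit 1)))))) (cs (nd (nat_lit 206) (nat_lit 0) (cs (lf (nat_lit 46) (nat_lit 206)) (nd (nat_lit 270) (nat_lit 0) (cs (lf (nat_lit 13) (nat_lit 248)) (nd (nat_lit 293) (nat_lit 0) (cs (lf (nat_lit 23) (nat_lit 269)) (rf (nat_lit 2)))))))) (cs (nd (nat_lit 293) (nat_lit 0) (cs (lf (nat_lit 12) (nat_lit 269)) (nd (nat_lit 206) (nat_lit 0) (cs (lf (nat_lit 46) (nat_lit 206)) (nd (nat_lit 270) (nat_lit 0) (cs (lf (nat_lit 23) (nat_lit 269)) (rf (nat_lit 2)))))))) (nd (nat_lit 270) (nat_lit 0) (cs (lf (nat_lit 13) (nat_lit 248)) (nd (nat_lit 248) (nat_lit 0) (cs (rf (nat_lit 3)) (cs (nd (nat_lit 206) (nat_lit 0) (cs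 (lf (nat_lit 46) (nat_lit 206)) (rf (nat_lit 4)))) (cs (nd (nat_lit 206) (nat_lit 0) (cs (lf (nat_lit 46) (nat_lit 206)) (rf (nat_lit 5)))) (cs (nd (nat_lit 206) (nat_lit 0) (cs (lf (nat_lit 46) (nat_lit 206)) (rf (nat_lit 6)))) (nd (nat_lit 206) (nat_lit 0) (cs (lf (nat_lit 46) (nat_lit 206)) (rf (nat_lit 7)))))))))))))))) (nd (nat_lit 293) (nat_lit 0) (cs (rf (nat_lit 8)) (cs (rf (nat_lit 9)) (cs (nd (nat_lit 292) (nat_lit 0) (cs (lf (nat_lit 12) (nat_lit 269)) (nd (nat_lit 313) (nat_lit 0) (cs (lf (nat_lit 10) (nat_lit 291)) (nd (nat_lit 270) (nat_lit 0) (cs (lf (nat_lit 23) (nat_lit 269)) (nd (nat_lit 248) (nat_lit 0) (cs (lf (nat_lit 29) (nat_lit 226)) (rf (nat_lit 10)))))))))) (nd (nat_lit 271) (nat_lit 0) (cs (lf (nat_lit 12) (nat_lit 248)) (nd (nat_lit 296) (nat_lit 0) (cs (lf (nat_lit 18) (nat_lit 271)) (nd (nat_lit 315) (nat_lit 0) (cs (lf (nat_lit 11) (nat_lit 292)) (nd (nat_lit 337) (nat_lit 0) (cs (lf (nat_lit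 30) (nat_lit 271)) (nd (nat_lit 338) (nat_lit 0) (cs (lf (nat_lit 29) (nat_lit 271)) (nd (nat_lit 336) (nat_lit 0) (cs (lf (nat_lit 41) (nat_lit 270)) (nd (nat_lit 249) (nat_lit 0) (cs (lf (nat_lit 46) (nat_lit 226)) (rf (nat_lit 11))))))))))))))))))))))))) (nd (nat_lit 293) (nat_lit 0) (cs (rf (nat_lit 8)) (cs (rf (nat_lit 9)) (cs (nd (nat_lit 292) (nat_lit 0) (cs (lf (nat_lit 12) (nat_lit 269)) (nd (nat_lit 316) (nat_lit 0) (cs (lf (nat_lit 30) (nat_lit 250)) (nd (nat_lit 270) (nat_lit 0) (cs (lf (nat_lit 23) (nat_lit 269)) (nd (nat_lit 314) (nat_lit 0) (cs (lf (nat_lit 11) (nat_lit 291)) (nd (nat_lit 315) (nat_lit 0) (cs (lf (nat_lit 6) (nat_lit 292)) (rf (nat_lit 12)))))))))))) (nd (nat_lit 338) (nat_lit 0) (cs (lf (nat_lit 31) (nat_lit 250)) (nd (nat_lit 271) (nat_lit 0) (cs (lf (nat_lit 12) (nat_lit 248)) (nd (nat_lit 296) (nat_lit 0) (cs (lf (nat_lit 18) (nat_lit 271)) (nd (nat_lit 315) (nat_lit 0) (cs (lf (nat_lit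 11) (nat_lit 292)) (nd (nat_lit 337) (nat_lit 0) (cs (lf (nat_lit 30) (nat_lit 271)) (lf (nat_lit 29) (nat_lit 271))))))))))))))))))) q82494 (by decide +kernel)
def q82565 : Q := Q.p (nat_lit 0x80000200000800000000000000000000000000000000000000000000000000000000000000) (nat_lit 0x40000180000700001f8001fe00077000010000000000300000c000010000000000000000000000000000000000000000000000) (nat_lit 11)
theorem c82565 : QOK q82565 := cut [q82544, q82547, q82548, q40641, q82549, q82562] ⟨c82544, c82547, c82548, c40641, c82549, c82562, trivial⟩ (nd (nat_lit 318) (nat_lit 0) (cs (rf (nat_lit 0)) (cs (rf (nat_lit 1)) (cs (rf (nat_lit 2)) (nd (nat_lit 317) (nat_lit 0) (cs (lf (nat_lit 29) (nat_lit 251)) (nd (nat_lit 294) (nat_lit 0) (cs (rf (nat_lit 3)) (cs (rf (nat_lit 4)) (cs (nd (nat_lit 316) (nat_lit 0) (cs (lf (nat_lit 41) (nat_lit 250)) (nd (nat_lit 319) (nat_lit 0) (cs (lf (nat_lit 18) (nat_lit 294)) (nd (nat_lit 297) (nat_lit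 0) (cs (lf (nat_lit 17) (nat_lit 294)) (nd (nat_lit 315) (nat_lit 0) (cs (lf (nat_lit 16) (nat_lit 293)) (nd (nat_lit 336) (nat_lit 0) (cs (lf (nat_lit 10) (nat_lit 314)) (nd (nat_lit 314) (nat_lit 0) (cs (lf (nat_lit 11) (nat_lit 313)) (lf (nat_lit 12) (nat_lit 291)))))))))))))) (rf (nat_lit 5)))))))))))) q82565 (by decide +kernel)
def q82626 : Q := Q.p (nat_lit 0x80000200003800002000000000000000000000000000000000000000000000000000000000) (nat_lit 0x5e000170000de0000000001000004000000000000000000000000000000000000000000000000000) (nat_lit 8)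
theorem c82626 : QOK q82626 := cut [q82616, q82620, q82623, q82624] ⟨c82616, c82620, c82623, c82624, trivial⟩ (nd (nat_lit 294) (nat_lit 0) (cs (lf (nat_lit 41) (nat_lit 228)) (nd (nat_lit 293) (nat_lit 0) (cs (rf (nat_lit 0)) (cs (nd (nat_lit 206) (nat_lit 0) (cs (lf (nat_lit 46) (nat_lit 206)) (rf (nat_lit 1)))) (cs (rf (nat_lit 2)) (rf (nat_lit 3)))))))) q82626 (by decide +kernel)
def q82719 : Q := Q.p (nat_lit 0x3800000000000000000000000000000000000000000000000000000000000000) (nat_lit 0xa000ff8003fe000ff8000ee000c78003be0002b8000ae000028000000000000000000000000000000000000000) (nat_lit 17)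
theorem c82719 : QOK q82719 := cut [q40738, q82663, q82665, q82666, q51310, q82453, q82456, q82461, q82678, q82682, q82685, q82691, q82645, q82700, q82718] ⟨c40738, c82663, c82665, c82666, c51310, c82453, c82456, c82461, c82678, c82682, c82685, c82691, c82645, c82700, c82718, trivial⟩ (nd (nat_lit 250) (nat_lit 0) (cs (rf (nat_lit 0)) (cs (nd (nat_lit 274) (nat_lit 0) (cs (rf (nat_lit 1)) (cs (rf (nat_lit 2)) (nd (nat_lit 232) (nat_lit 0) (cs (lf (nat_lit 16) (nat_lit 228)) (nd (nat_lit 254) (nat_lit 0) (cs (lf (nat_lit 17) (nat_lit 229)) (nd (nat_lit 273) (nat_lit 0) (cs (lf (nat_lit 6) (nat_lit 251)) (nd (nat_lit 295) (nat_lit 0) (cs (nd (nat_lit 296) (nat_lit 0) (cs (rf (nat_lit 3)) (cs (nd (nat_lit 270) (nat_lit 0) (cs (nd (nat_lit 249) (nat_lit 0) (cs (lf (nat_lit 10) (nat_lit 248)) (lf (nat_lit 0) (nat_lit 248)))) (cs (nd (nat_lit 229) (nat_lit 0) (cs (lf (nat_lit 24) (nat_lit 207)) (nd (nat_lit 294) (nat_lit 0) (cs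 (lf (nat_lit 41) (nat_lit 228)) (nd (nat_lit 293) (nat_lit 0) (cs (lf (nat_lit 12) (nat_lit 270)) (lf (nat_lit 22) (nat_lit 270)))))))) (nd (nat_lit 292) (nat_lit 0) (cs (nd (nat_lit 229) (nat_lit 0) (cs (lf (nat_lit 24) (nat_lit 207)) (nd (nat_lit 294) (nat_lit 0) (cs (lf (nat_lit 41) (nat_lit 228)) (lf (nat_lit 13) (nat_lit 270)))))) (nd (nat_lit 248) (nat_lit 0) (cs (lf (nat_lit 1) (nat_lit 248)) (nd (nat_lit 226) (nat_lit 0) (cs (rf (nat_lit 4)) (cs (rf (nat_lit 5)) (cs (rf (nat_lit 6)) (rf (nat_lit 7))))))))))))) (rf (nat_lit 8))))) (cs (nd (nat_lit 248) (nat_lit 0) (cs (lf (nat_lit 1) (nat_lit 248)) (rf (nat_lit 9)))) (cs (nd (nat_lit 317) (nat_lit 0) (cs (lf (nat_lit 30) (nat_lit 251)) (nd (nat_lit 318) (nat_lit 0) (cs (lf (nat_lit 29) (nat_lit 251)) (nd (nat_lit 316) (nat_lit 0) (cs (lf (nat_lit 41) (nat_lit 250)) (nd (nat_lit 248) (nat_lit 0) (cs (lf (nat_lit 1) (nat_lit 248)) (rf (nat_lit 10)))))))))) (cs (nd (nat_lit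 317) (nat_lit 0) (cs (lf (nat_lit 30) (nat_lit 251)) (nd (nat_lit 318) (nat_lit 0) (cs (lf (nat_lit 29) (nat_lit 251)) (nd (nat_lit 296) (nat_lit 0) (cs (lf (nat_lit 24) (nat_lit 229)) (nd (nat_lit 248) (nat_lit 0) (cs (lf (nat_lit 1) (nat_lit 248)) (rf (nat_lit 11)))))))))) (cs (nd (nat_lit 296) (nat_lit 0) (cs (rf (nat_lit 8)) (cs (nd (nat_lit 317) (nat_lit 0) (cs (lf (nat_lit 30) (nat_lit 251)) (nd (nat_lit 248) (nat_lit 0) (cs (lf (nat_lit 1) (nat_lit 248)) (rf (nat_lit 12)))))) (cs (nd (nat_lit 317) (nat_lit 0) (cs (lf (nat_lit 30) (nat_lit 251)) (nd (nat_lit 318) (nat_lit 0) (cs (lf (nat_lit 29) (nat_lit 251)) (rf (nat_lit 11)))))) (nd (nat_lit 318) (nat_lit 0) (cs (lf (nat_lit 42) (nat_lit 251)) (nd (nat_lit 248) (nat_lit 0) (cs (lf (nat_lit 1) (nat_lit 248)) (nd (nat_lit 319) (nat_lit 0) (cs (lf (nat_lit 29) (nat_lit 252)) (nd (nat_lit 320) (nat_lit 0) (cs (lf (nat_lit 18) (nat_lit 295)) (nd (nat_lit 317) (nat_lit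 0) (cs (lf (nat_lit 30) (nat_lit 251)) (rf (nat_lit 13)))))))))))))))) (nd (nat_lit 317) (nat_lit 0) (cs (lf (nat_lit 30) (nat_lit 251)) (nd (nat_lit 318) (nat_lit 0) (cs (lf (nat_lit 29) (nat_lit 251)) (nd (nat_lit 296) (nat_lit 0) (cs (lf (nat_lit 24) (nat_lit 229)) (nd (nat_lit 319) (nat_lit 0) (cs (lf (nat_lit 29) (nat_lit 252)) (nd (nat_lit 320) (nat_lit 0) (cs (lf (nat_lit 18) (nat_lit 295)) (nd (nat_lit 342) (nat_lit 0) (cs (lf (nat_lit 5) (nat_lit 317)) (rf (nat_lit 13))))))))))))))))))))))))))))) (rf (nat_lit 14))))) q82719 (by decide +kernel)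
def q82744 : Q := Q.p (nat_lit 0xf0000000000000001e00000000000000000000000000000000000000000000000000000000000000) (nat_lit 0x1ce000300001c00000c00000000000000000000000000000000000000000000000000000000000000000000) (nat_lit 7)
theorem c82744 : QOK q82744 := cut [q55427] ⟨c55427, trivial⟩ (nd (nat_lit 274) (nat_lit 0) (cs (lf (nat_lit 5) (nat_lit 249)) (rf (nat_lit 0)))) q82744 (by decide +kernel)
def q82967 : Q := Q.p (nat_lit 0xc0000000000000003c00000000000000000000000000000000000000000000000000000000000000) (nat_lit 0xe00003c0007ff000f38001ff000280000c000018000000000000000000000000000000000000000000000000000000000) (nat_lit 15)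
theorem c82967 : QOK q82967 := cut [q48318, q21970, q82891, q82728, q82841, q14721, q2583, q82964] ⟨c48318, c21970, c82891, c82728, c82841, c14721, c2583, c82964, trivial⟩ (nd (nat_lit 297) (nat_lit 0) (cs (rf (nat_lit 0)) (cs (nd (nat_lit 231) (nat_lit 0) (cs (lf (nat_lit 17) (nat_lit 228)) (nd (nat_lit 275) (nat_lit 0) (cs (lf (nat_lit 40) (nat_lit 230)) (rf (nat_lit 1)))))) (cs (nd (nat_lit 317) (nat_lit 0) (cs (rf (nat_lit 2)) (cs (nd (nat_lit 320) (nat_lit 0) (cs (rf (nat_lit 3)) (cs (nd (nat_lit 342) (nat_lit 0) (cs (lf (nat_lit 5) (nat_lit 317)) (nd (nat_lit 364) (nat_lit 0) (cs (lf (nat_lit 42) (nat_lit 297)) (nd (nat_lit 339) (nat_lit 0) (cs (lf (nat_lit 11) (nat_lit 316)) (nd (nat_lit 231) (nat_lit 0) (cs (lf (nat_lit 17) (nat_lit 228)) (nd (nat_lit 298) (nat_lit 0) (cs (lf (nat_lit 17) (nat_lit 295)) (nd (nat_lit 363) (nat_lit 0) (cs (lf (nat_lit 41) (nat_lit 297)) (nd (nat_lit 294) (nat_lit 0) (cs (lf (nat_lit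 22) (nat_lit 294)) (rf (nat_lit 4)))))))))))))))) (cs (nd (nat_lit 342) (nat_lit 0) (cs (lf (nat_lit 5) (nat_lit 317)) (nd (nat_lit 364) (nat_lit 0) (cs (lf (nat_lit 42) (nat_lit 297)) (nd (nat_lit 231) (nat_lit 0) (cs (lf (nat_lit 17) (nat_lit 228)) (nd (nat_lit 294) (nat_lit 0) (cs (lf (nat_lit 22) (nat_lit 294)) (nd (nat_lit 339) (nat_lit 0) (cs (lf (nat_lit 11) (nat_lit 316)) (nd (nat_lit 321) (nat_lit 0) (cs (lf (nat_lit 10) (nat_lit 317)) (nd (nat_lit 322) (nat_lit 0) (cs (lf (nat_lit 23) (nat_lit 296)) (nd (nat_lit 323) (nat_lit 0) (cs (lf (nat_lit 22) (nat_lit 297)) (lf (nat_lit 11) (nat_lit 319)))))))))))))))))) (cs (nd (nat_lit 298) (nat_lit 0) (cs (lf (nat_lit 17) (nat_lit 295)) (nd (nat_lit 338) (nat_lit 0) (cs (lf (nat_lit 10) (nat_lit 316)) (nd (nat_lit 231) (nat_lit 0) (cs (lf (nat_lit 17) (nat_lit 228)) (nd (nat_lit 295) (nat_lit 0) (cs (lf (nat_lit 23) (nat_lit 294)) (rf (nat_lit 5)))))))))) (cs (nd (nat_lit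 299) (nat_lit 0) (cs (lf (nat_lit 16) (nat_lit 295)) (nd (nat_lit 321) (nat_lit 0) (cs (lf (nat_lit 17) (nat_lit 296)) (nd (nat_lit 231) (nat_lit 0) (cs (lf (nat_lit 17) (nat_lit 228)) (nd (nat_lit 322) (nat_lit 0) (cs (lf (nat_lit 23) (nat_lit 296)) (nd (nat_lit 341) (nat_lit 0) (cs (lf (nat_lit 11) (nat_lit 318)) (nd (nat_lit 345) (nat_lit 0) (cs (lf (nat_lit 4) (nat_lit 319)) (nd (nat_lit 323) (nat_lit 0) (cs (lf (nat_lit 5) (nat_lit 320)) (lf (nat_lit 10) (nat_lit 319)))))))))))))))) (nd (nat_lit 294) (nat_lit 0) (cs (lf (nat_lit 22) (nat_lit 294)) (nd (nat_lit 342) (nat_lit 0) (cs (lf (nat_lit 5) (nat_lit 317)) (nd (nat_lit 364) (nat_lit 0) (cs (lf (nat_lit 42) (nat_lit 297)) (nd (nat_lit 231) (nat_lit 0) (cs (lf (nat_lit 17) (nat_lit 228)) (nd (nat_lit 339) (nat_lit 0) (cs (lf (nat_lit 11) (nat_lit 316)) (nd (nat_lit 321) (nat_lit 0) (cs (lf (nat_lit 10) (nat_lit 317)) (nd (nat_lit 299) (nat_lit 0) (cs (lf (nat_lit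 17) (nat_lit 296)) (nd (nat_lit 255) (nat_lit 0) (cs (lf (nat_lit 37) (nat_lit 254)) (nd (nat_lit 322) (nat_lit 0) (cs (lf (nat_lit 23) (nat_lit 296)) (nd (nat_lit 345) (nat_lit 0) (cs (lf (nat_lit 4) (nat_lit 319)) (nd (nat_lit 323) (nat_lit 0) (cs (lf (nat_lit 5) (nat_lit 320)) (lf (nat_lit 11) (nat_lit 319)))))))))))))))))))))))))))))) (nd (nat_lit 231) (nat_lit 0) (cs (lf (nat_lit 17) (nat_lit 228)) (rf (nat_lit 6))))))) (cs (nd (nat_lit 275) (nat_lit 0) (cs (lf (nat_lit 41) (nat_lit 252)) (nd (nat_lit 232) (nat_lit 0) (cs (lf (nat_lit 16) (nat_lit 228)) (lf (nat_lit 34) (nat_lit 231)))))) (nd (nat_lit 317) (nat_lit 0) (cs (rf (nat_lit 6)) (cs (rf (nat_lit 2)) (nd (nat_lit 275) (nat_lit 0) (cs (lf (nat_lit 41) (nat_lit 252)) (rf (nat_lit 7)))))))))))) q82967 (by decide +kernel)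
def q83032 : Q := Q.p (nat_lit 0x70000000000000000000000000000000000000000000000000000000000000000000000000000000) (nat_lit 0x1ffc0038e001e1c000000000000000000000000000000000000000000000000000000000000000000000000) (nat_lit 8)
theorem c83032 : QOK q83032 := cut [q55427, q56138, q82748, q82788] ⟨c55427, c56138, c82748, c82788, trivial⟩ (nd (nat_lit 319) (nat_lit 0) (cs (rf (nat_lit 0)) (cs (rf (nat_lit 1)) (cs (rf (nat_lit 2)) (rf (nat_lit 3)))))) q83032 (by decide +kernel)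
def q83198 : Q := Q.p (nat_lit 0x1e00000000000000070000000000000000000000000000000000000000000000) (nat_lit 0xc0000000000000003780000c0003f80003c0000700001c00005000000000000000000) (nat_lit 10)
theorem c83198 : QOK q83198 := cut [q39506, q83194, q38594, q83196] ⟨c39506, c83194, c38594, c83196, trivial⟩ (nd (nat_lit 183) (nat_lit 0) (cs (rf (nat_lit 0)) (cs (rf (nat_lit 1)) (cs (nd (nat_lit 274) (nat_lit 0) (cs (rf (nat_lit 2)) (lf (nat_lit 5) (nat_lit 249)))) (nd (nat_lit 274) (nat_lit 0) (cs (lf (nat_lit 5) (nat_lit 249)) (rf (nat_lit 3)))))))) q83198 (by decide +kernel)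
def q83352 : Q := Q.p (nat_lit 0x1e000000000000000e0000000000000000000000000000000000000000000000) (nat_lit 0xc000000000000000fe000310001e00000000000000000000000000000000000000000) (nat_lit 6)
theorem c83352 : QOK q83352 := cut [q4961, q83349, q83351] ⟨c4961, c83349, c83351, trivial⟩ (nd (nat_lit 188) (nat_lit 0) (cs (rf (nat_lit 0)) (cs (rf (nat_lit 1)) (rf (nat_lit 2))))) q83352 (by decide +kernel)
def q83359 : Q := Q.p (nat_lit 0x1e000000000000000e0000000000000000000000000000000000000000000000) (nat_lit 0xc000000000000001e0000310000fc0003300004000010000000000000000000000000) (nat_lit 10)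
theorem c83359 : QOK q83359 := cut [q83337, q83351, q19956] ⟨c83337, c83351, c19956, trivial⟩ (nd (nat_lit 188) (nat_lit 0) (cs (rf (nat_lit 0)) (cs (rf (nat_lit 1)) (nd (nat_lit 274) (nat_lit 0) (cs (lf (nat_lit 5) (nat_lit 249)) (nd (nat_lit 166) (nat_lit 0) (cs (lf (nat_lit 17) (nat_lit 163)) (nd (nat_lit 165) (nat_lit 0) (cs (lf (nat_lit 12) (nat_lit 162)) (nd (nat_lit 163) (nat_lit 0) (cs (lf (nat_lit 23) (nat_lit 162)) (nd (nat_lit 164) (nat_lit 0) (cs (lf (nat_lit 18) (nat_lit 163)) (nd (nat_lit 140) (nat_lit 0) (cs (lf (nat_lit 22) (nat_lit 140)) (rf (nat_lit 2))))))))))))))))) q83359 (by decide +kernel)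
def q83528 : Q := Q.p (nat_lit 0x1e00000000000000030000000000000000000000000000000000000000000000) (nat_lit 0xc0000000000240007fc003ce000ffc0007e0000f00003c00005000000000000000000) (nat_lit 13)
theorem c83528 : QOK q83528 := cut [q83313, q83194, q83218, q83271, q21626, q83503, q17226, q83296, q83451, q83505, q83513, q83522, q83525] ⟨c83313, c83194, c83218, c83271, c21626, c83503, c17226, c83296, c83451, c83505, c83513, c83522, c83525, trivial⟩ (nd (nat_lit 207) (nat_lit 0) (cs (nd (nat_lit 274) (nat_lit 0) (cs (lf (nat_lit 26) (nat_lit 185)) (lf (nat_lit 5) (nat_lit 249)))) (cs (nd (nat_lit 183) (nat_lit 0) (cs (rf (nat_lit 0)) (cs (nd (nat_lit 186) (nat_lit 0) (cs (rf (nat_lit 1)) (cs (rf (nat_lit 2)) (cs (rf (nat_lit 3)) (nd (nat_lit 204) (nat_lit 0) (cs (lf (nat_lit 10) (nat_lit 182)) (nd (nat_lit 208) (nat_lit 0) (cs (lf (nat_lit 5) (nat_lit 183)) (nd (nat_lit 274) (nat_lit 0) (cs (rf (nat_lit 4)) (lf (nat_lit 5) (nat_lit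 249)))))))))))) (cs (nd (nat_lit 274) (nat_lit 0) (cs (lf (nat_lit 5) (nat_lit 249)) (rf (nat_lit 5)))) (cs (nd (nat_lit 182) (nat_lit 0) (cs (rf (nat_lit 6)) (cs (rf (nat_lit 7)) (cs (rf (nat_lit 8)) (nd (nat_lit 274) (nat_lit 0) (cs (lf (nat_lit 5) (nat_lit 249)) (nd (nat_lit 163) (nat_lit 0) (cs (lf (nat_lit 17) (nat_lit 160)) (nd (nat_lit 160) (nat_lit 0) (cs (lf (nat_lit 23) (nat_lit 159)) (nd (nat_lit 161) (nat_lit 0) (cs (lf (nat_lit 18) (nat_lit 160)) (rf (nat_lit 9)))))))))))))) (nd (nat_lit 274) (nat_lit 0) (cs (lf (nat_lit 5) (nat_lit 249)) (rf (nat_lit 10))))))))) (nd (nat_lit 183) (nat_lit 0) (cs (rf (nat_lit 5)) (cs (nd (nat_lit 229) (nat_lit 0) (cs (lf (nat_lit 47) (nat_lit 162)) (rf (nat_lit 11)))) (nd (nat_lit 229) (nat_lit 0) (cs (lf (nat_lit 47) (nat_lit 162)) (rf (nat_lit 12)))))))))) q83528 (by decide +kernel)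
def q83658 : Q := Q.p (nat_lit 0x3c00000000000000000000000000000000000000000000000000000000000000) (nat_lit 0x20000380000e000038000000001b80000e0000380000e0000280000000000000000000000000000000000) (nat_lit 11)
theorem c83658 : QOK q83658 := cut [q2074, q2514, q40743, q57706] ⟨c2074, c2514, c40743, c57706, trivial⟩ (nd (nat_lit 228) (nat_lit 0) (cs (lf (nat_lit 23) (nat_lit 227)) (nd (nat_lit 206) (nat_lit 0) (cs (rf (nat_lit 0)) (cs (rf (nat_lit 1)) (cs (rf (nat_lit 2)) (nd (nat_lit 272) (nat_lit 0) (cs (lf (nat_lit 11) (nat_lit 249)) (nd (nat_lit 231) (nat_lit 0) (cs (lf (nat_lit 17) (nat_lit 228)) (nd (nat_lit 183) (nat_lit 0) (cs (lf (nat_lit 46) (nat_lit 183)) (nd (nat_lit 185) (nat_lit 0) (cs (lf (nat_lit 34) (nat_lit 184)) (nd (nat_lit 295) (nat_lit 0) (cs (lf (nat_lit 28) (nat_lit 206)) (rf (nat_lit 3)))))))))))))))))) q83658 (by decide +kernel)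
def q83665 : Q := Q.p (nat_lit 0x3c00000000000000000000000000000000000000000000000000000000000000) (nat_lit 0xe70000380003f00000000000000000000000000000000000000000000000000000000) (nat_lit 7)
theorem c83665 : QOK q83665 := cut [q2063, q83659] ⟨c2063, c83659, trivial⟩ (nd (nat_lit 249) (nat_lit 0) (cs (rf (nat_lit 0)) (cs (rf (nat_lit 1)) (nd (nat_lit 274) (nat_lit 0) (cs (lf (nat_lit 5) (nat_lit 249)) (nd (nat_lit 248) (nat_lit 0) (cs (lf (nat_lit 4) (nat_lit 248)) (nd (nat_lit 269) (nat_lit 0) (cs (lf (nat_lit 10) (nat_lit 247)) (nd (nat_lit 247) (nat_lit 0) (cs (lf (nat_lit 11) (nat_lit 246)) (nd (nat_lit 228) (nat_lit 0) (cs (lf (nat_lit 23) (nat_lit 227)) (lf (nat_lit 17) (nat_lit 225))))))))))))))) q83665 (by decide +kernel)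
def q83705 : Q := Q.p (nat_lit 0x400007000000000000000000000000000000000000000000000000000000000000000) (nat_lit 0x800006200008800070000040000100000000000000000000000000000000000000000000000) (nat_lit 6)
theorem c83705 : QOK q83705 := cut [q83704] ⟨c83704, trivial⟩ (nd (nat_lit 255) (nat_lit 0) (cs (lf (nat_lit 11) (nat_lit 251)) (rf (nat_lit 0)))) q83705 (by decide +kernel)
def q83737 : Q := Q.p (nat_lit 0x400003000004000000000000000000000000000000000000000000000000000000000) (nat_lit 0x80000380000e00003800008000000000000000380000e0000280000000000000000000000000000000000000000) (nat_lit 9)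
theorem c83737 : QOK q83737 := cut [q80524, q81803, q83736] ⟨c80524, c81803, c83736, trivial⟩ (nd (nat_lit 208) (nat_lit 0) (cs (rf (nat_lit 0)) (cs (rf (nat_lit 1)) (rf (nat_lit 2))))) q83737 (by decide +kernel)
def q83912 : Q := Q.p (nat_lit 0x100000400003000000000000000000000000000000000000000000000000000000000000000) (nat_lit 0x280000f40003f00007c000ef0000bc000c700007c0003f0000fc000250000000000000000000000000000000000000000) (nat_lit 15)
theorem c83912 : QOK q83912 := cut [q83839, q81320, q83835, q83843, q83845, q83850, q43962, q44105, q59011, q59263, q54934, q57004, q83896, q83718, q83837, q83899] ⟨c83839, c81320, c83835, c83843, c83845, c83850, c43962, c44105, c59011, c59263, c54934, c57004, c83896, c83718, c83837, c83899, trivial⟩ (nd (nat_lit 273) (nat_lit 0) (cs (rf (nat_lit 0)) (cs (nd (nat_lit 230) (nat_lit 0) (cs (rf (nat_lit 1)) (cs (rf (nat_lit 2)) (rf (nat_lit 3))))) (cs (nd (nat_lit 295) (nat_lit 0) (cs (rf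 (nat_lit 4)) (cs (nd (nat_lit 293) (nat_lit 0) (cs (nd (nat_lit 271) (nat_lit 0) (cs (lf (nat_lit 13) (nat_lit 249)) (nd (nat_lit 294) (nat_lit 0) (cs (lf (nat_lit 23) (nat_lit 270)) (lf (nat_lit 12) (nat_lit 270)))))) (cs (nd (nat_lit 208) (nat_lit 0) (cs (lf (nat_lit 37) (nat_lit 207)) (nd (nat_lit 254) (nat_lit 0) (cs (lf (nat_lit 6) (nat_lit 251)) (nd (nat_lit 294) (nat_lit 0) (cs (lf (nat_lit 12) (nat_lit 270)) (rf (nat_lit 5)))))))) (cs (nd (nat_lit 294) (nat_lit 0) (cs (lf (nat_lit 12) (nat_lit 270)) (nd (nat_lit 254) (nat_lit 0) (cs (lf (nat_lit 6) (nat_lit 251)) (nd (nat_lit 271) (nat_lit 0) (cs (lf (nat_lit 23) (nat_lit 270)) (nd (nat_lit 208) (nat_lit 0) (cs (lf (nat_lit 37) (nat_lit 207)) (rf (nat_lit 6)))))))))) (cs (nd (nat_lit 254) (nat_lit 0) (cs (lf (nat_lit 6) (nat_lit 251)) (nd (nat_lit 208) (nat_lit 0) (cs (lf (nat_lit 37) (nat_lit 207)) (nd (nat_lit 271) (nat_lit 0) (cs (lf (nat_lit 13) (nat_lit 249))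 (rf (nat_lit 7)))))))) (nd (nat_lit 230) (nat_lit 0) (cs (lf (nat_lit 36) (nat_lit 207)) (nd (nat_lit 229) (nat_lit 0) (cs (lf (nat_lit 47) (nat_lit 207)) (nd (nat_lit 227) (nat_lit 0) (cs (lf (nat_lit 1) (nat_lit 227)) (nd (nat_lit 271) (nat_lit 0) (cs (lf (nat_lit 13) (nat_lit 249)) (nd (nat_lit 249) (nat_lit 0) (cs (rf (nat_lit 8)) (cs (nd (nat_lit 254) (nat_lit 0) (cs (rf (nat_lit 9)) (lf (nat_lit 18) (nat_lit 229)))) (cs (nd (nat_lit 254) (nat_lit 0) (cs (lf (nat_lit 18) (nat_lit 229)) (nd (nat_lit 226) (nat_lit 0) (cs (lf (nat_lit 47) (nat_lit 204)) (nd (nat_lit 315) (nat_lit 0) (cs (lf (nat_lit 46) (nat_lit 226)) (nd (nat_lit 336) (nat_lit 0) (cs (lf (nat_lit 40) (nat_lit 248)) (nd (nat_lit 337) (nat_lit 0) (cs (lf (nat_lit 41) (nat_lit 270)) (rf (nat_lit 10)))))))))))) (cs (nd (nat_lit 254) (nat_lit 0) (cs (lf (nat_lit 18) (nat_lit 229)) (nd (nat_lit 314) (nat_lit 0) (cs (lf (nat_lit 40) (nat_lit 226)) (nd (nat_lit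 315) (nat_lit 0) (cs (lf (nat_lit 41) (nat_lit 248)) (nd (nat_lit 248) (nat_lit 0) (cs (lf (nat_lit 47) (nat_lit 226)) (nd (nat_lit 337) (nat_lit 0) (cs (lf (nat_lit 46) (nat_lit 248)) (rf (nat_lit 10)))))))))))) (nd (nat_lit 254) (nat_lit 0) (cs (lf (nat_lit 18) (nat_lit 229)) (nd (nat_lit 204) (nat_lit 0) (cs (lf (nat_lit 46) (nat_lit 204)) (nd (nat_lit 205) (nat_lit 0) (cs (lf (nat_lit 47) (nat_lit 182)) (rf (nat_lit 11)))))))))))))))))))))))))) (rf (nat_lit 12))))) (nd (nat_lit 272) (nat_lit 0) (cs (lf (nat_lit 12) (nat_lit 249)) (nd (nat_lit 318) (nat_lit 0) (cs (rf (nat_lit 13)) (cs (rf (nat_lit 14)) (cs (nd (nat_lit 275) (nat_lit 0) (cs (lf (nat_lit 30) (nat_lit 252)) (nd (nat_lit 250) (nat_lit 0) (cs (lf (nat_lit 23) (nat_lit 249)) (nd (nat_lit 297) (nat_lit 0) (cs (lf (nat_lit 5) (nat_lit 272)) (nd (nat_lit 230) (nat_lit 0) (cs (lf (nat_lit 24) (nat_lit 208)) (nd (nat_lit 293) (nat_lit 0) (cs (lf (nat_lit 10) (nat_lit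 271)) (nd (nat_lit 295) (nat_lit 0) (cs (lf (nat_lit 41) (nat_lit 229)) (rf (nat_lit 15)))))))))))))) (nd (nat_lit 339) (nat_lit 0) (cs (lf (nat_lit 40) (nat_lit 251)) (nd (nat_lit 340) (nat_lit 0) (cs (lf (nat_lit 41) (nat_lit 273)) (nd (nat_lit 362) (nat_lit 0) (cs (lf (nat_lit 46) (nat_lit 273)) (nd (nat_lit 363) (nat_lit 0) (cs (lf (nat_lit 29) (nat_lit 296)) (lf (nat_lit 28) (nat_lit 274)))))))))))))))))))) q83912 (by decide +kernel)
def q83952 : Q := Q.p (nat_lit 0x100000400001000000000000000000000000000000000000000000000000000000000000000) (nat_lit 0x80000300000e00003f0003fc000ee0000200000000006000018000020000000000000000000000000000000000000000000000) (nat_lit 11)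
theorem c83952 : QOK q83952 := cut [q81321, q83937, q82690, q45040, q44975, q42168] ⟨c81321, c83937, c82690, c45040, c44975, c42168, trivial⟩ (nd (nat_lit 319) (nat_lit 0) (cs (rf (nat_lit 0)) (cs (rf (nat_lit 1)) (cs (nd (nat_lit 318) (nat_lit 0) (cs (lf (nat_lit 29) (nat_lit 252)) (nd (nat_lit 317) (nat_lit 0) (cs (lf (nat_lit 41) (nat_lit 251)) (nd (nat_lit 295) (nat_lit 0) (cs (lf (nat_lit 36) (nat_lit 229)) (rf (nat_lit 2)))))))) (nd (nat_lit 318) (nat_lit 0) (cs (lf (nat_lit 29) (nat_lit 252)) (nd (nat_lit 295) (nat_lit 0) (cs (rf (nat_lit 3)) (cs (nd (nat_lit 317) (nat_lit 0) (cs (lf (nat_lit 41) (nat_lit 251)) (rf (nat_lit 4)))) (cs (nd (nat_lit 320) (nat_lit 0) (cs (lf (nat_lit 18) (nat_lit 295)) (rf (nat_lit 5)))) (nd (nat_lit 293) (nat_lit 0) (cs (lf (nat_lit 1) (nat_lit 293)) (nd (nat_lit 339) (nat_lit 0) (cs (lf (nat_lit 40) (nat_lit 251)) (nd (nat_lit 340) (nat_lit 0) (cs (lf (nat_lit 41) (nat_lit 273)) (nd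 (nat_lit 337) (nat_lit 0) (cs (lf (nat_lit 13) (nat_lit 315)) (nd (nat_lit 362) (nat_lit 0) (cs (lf (nat_lit 47) (nat_lit 273)) (nd (nat_lit 385) (nat_lit 0) (cs (lf (nat_lit 28) (nat_lit 296)) (nd (nat_lit 384) (nat_lit 0) (cs (lf (nat_lit 29) (nat_lit 318)) (lf (nat_lit 35) (nat_lit 296)))))))))))))))))))))))))) q83952 (by decide +kernel)
def q83972 : Q := Q.p (nat_lit 0x400007800000000000000000000000000000000000000000000000000000000000000) (nat_lit 0x280000b000000000370000fc0001f0000000000000000000000000000000000000000000000) (nat_lit 11)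
theorem c83972 : QOK q83972 := cut [q83968] ⟨c83968, trivial⟩ (nd (nat_lit 273) (nat_lit 0) (cs (lf (nat_lit 11) (nat_lit 250)) (nd (nat_lit 229) (nat_lit 0) (cs (lf (nat_lit 23) (nat_lit 228)) (nd (nat_lit 232) (nat_lit 0) (cs (lf (nat_lit 17) (nat_lit 229)) (nd (nat_lit 207) (nat_lit 0) (cs (lf (nat_lit 24) (nat_lit 185)) (rf (nat_lit 0)))))))))) q83972 (by decide +kernel)
def q83979 : Q := Q.p (nat_lit 0x400007000000000000000000000000000000000000000000000000000000000000000) (nat_lit 0x80000e8000188000f0000040000100000000000000000000000000000000000000000000000) (nat_lit 6)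
theorem c83979 : QOK q83979 := cut [q82258, q83704, q80860] ⟨c82258, c83704, c80860, trivial⟩ (nd (nat_lit 255) (nat_lit 0) (cs (rf (nat_lit 0)) (cs (rf (nat_lit 1)) (nd (nat_lit 256) (nat_lit 0) (cs (lf (nat_lit 10) (nat_lit 252)) (rf (nat_lit 2))))))) q83979 (by decide +kernel)
def q84048 : Q := Q.p (nat_lit 0x600003000000000000000000000000000000000000000000000000000000000000000) (nat_lit 0x280000f00003c0001ffc003fe001ffc00e80001cf000f5000010000000000000000000000000000000000000000000000000000) (nat_lit 14)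
theorem c84048 : QOK q84048 := cut [q83986, q83610, q83988, q83991, q83097, q83996, q13105, q55425, q55391, q82840, q82841, q82748, q84011, q55427, q82786, q82877, q84000, q25666, q82876, q4049, q84024, q84032, q84035, q84037, q84040, q14604, q84023] ⟨c83986, c83610, c83988, c83991, c83097, c83996, c13105, c55425, c55391, c82840, c82841, c82748, c84011, c55427, c82786, c82877, c84000, c25666, c82876, c4049, c84024, c84032, c84035, c84037, c84040, c14604, c84023, trivial⟩ (nd (nat_lit 317) (nat_lit 0) (cs (nd (nat_lit 295) (nat_lit 0) (cs (lf (nat_lit 30) (nat_lit 251)) (rf (nat_lit 0)))) (cs (nd (nat_lit 254) (nat_lit 0) (cs (rf (nat_lit 1)) (nd (nat_lit 318) (nat_lit 0) (cs (rf (nat_lit 2)) (cs (nd (nat_lit 296) (nat_lit 0) (cs (lf (nat_lit 41) (nat_lit 251)) (rf (nat_lit 3)))) (cs (nd (nat_lit 319) (nat_lit 0) (cs (nd (nat_lit 320) (nat_lit 0) (cs (rf (nat_lit 4)) (cs (nd (nat_lit 298) (nat_lit 0) (cs (lf (nat_lit 17)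 (nat_lit 295)) (nd (nat_lit 297) (nat_lit 0) (cs (lf (nat_lit 12) (nat_lit 294)) (nd (nat_lit 275) (nat_lit 0) (cs (lf (nat_lit 29) (nat_lit 253)) (lf (nat_lit 47) (nat_lit 230)))))))) (nd (nat_lit 298) (nat_lit 0) (cs (lf (nat_lit 17) (nat_lit 295)) (nd (nat_lit 297) (nat_lit 0) (cs (lf (nat_lit 12) (nat_lit 294)) (rf (nat_lit 5))))))))) (cs (nd (nat_lit 320) (nat_lit 0) (cs (rf (nat_lit 6)) (cs (rf (nat_lit 7)) (cs (rf (nat_lit 4)) (nd (nat_lit 342) (nat_lit 0) (cs (lf (nat_lit 5) (nat_lit 317)) (nd (nat_lit 364) (nat_lit 0) (cs (rf (nat_lit 8)) (cs (rf (nat_lit 9)) (nd (nat_lit 339) (nat_lit 0) (cs (lf (nat_lit 11) (nat_lit 316)) (nd (nat_lit 275) (nat_lit 0) (cs (lf (nat_lit 26) (nat_lit 253)) (nd (nat_lit 298) (nat_lit 0) (cs (lf (nat_lit 17) (nat_lit 295)) (nd (nat_lit 363) (nat_lit 0) (cs (lf (nat_lit 41) (nat_lit 297)) (rf (nat_lit 10))))))))))))))))))) (cs (nd (nat_lit 316) (nat_lit 0) (cs (rf (nat_lit 11)) (cs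 (nd (nat_lit 297) (nat_lit 0) (cs (lf (nat_lit 17) (nat_lit 294)) (rf (nat_lit 5)))) (rf (nat_lit 12))))) (cs (nd (nat_lit 316) (nat_lit 0) (cs (rf (nat_lit 13)) (cs (rf (nat_lit 14)) (rf (nat_lit 12))))) (cs (nd (nat_lit 297) (nat_lit 0) (cs (rf (nat_lit 15)) (cs (rf (nat_lit 5)) (rf (nat_lit 16))))) (nd (nat_lit 316) (nat_lit 0) (cs (rf (nat_lit 17)) (cs (rf (nat_lit 14)) (rf (nat_lit 18))))))))))) (nd (nat_lit 296) (nat_lit 0) (cs (rf (nat_lit 19)) (rf (nat_lit 3)))))))))) (cs (nd (nat_lit 295) (nat_lit 0) (cs (rf (nat_lit 0)) (cs (nd (nat_lit 318) (nat_lit 0) (cs (rf (nat_lit 20)) (cs (rf (nat_lit 21)) (cs (rf (nat_lit 22)) (rf (nat_lit 23)))))) (rf (nat_lit 24))))) (cs (nd (nat_lit 254) (nat_lit 0) (cs (lf (nat_lit 6) (nat_lit 251)) (nd (nat_lit 295) (nat_lit 0) (cs (lf (nat_lit 30) (nat_lit 251)) (rf (nat_lit 24)))))) (nd (nat_lit 318) (nat_lit 0) (cs (rf (nat_lit 25)) (cs (rf (nat_lit 2)) (cs (nd (nat_lit 295) (nat_lit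 0) (cs (rf (nat_lit 20)) (cs (rf (nat_lit 21)) (cs (rf (nat_lit 22)) (rf (nat_lit 23)))))) (nd (nat_lit 254) (nat_lit 0) (cs (lf (nat_lit 6) (nat_lit 251)) (nd (nat_lit 295) (nat_lit 0) (cs (lf (nat_lit 30) (nat_lit 251)) (rf (nat_lit 26))))))))))))))) q84048 (by decide +kernel)
def q84102 : Q := Q.p (nat_lit 0x400003000004000000000000000000000000000000000000000000000000000000000) (nat_lit 0x280000e0000380000fc0007f0000bc0000e0000380000e000000000000000000000000000000000000000000000000000) (nat_lit 12)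
theorem c84102 : QOK q84102 := cut [q83728, q84077, q84089, q84092, q42165, q83719] ⟨c83728, c84077, c84089, c84092, c42165, c83719, trivial⟩ (nd (nat_lit 296) (nat_lit 0) (cs (rf (nat_lit 0)) (cs (nd (nat_lit 295) (nat_lit 0) (cs (lf (nat_lit 41) (nat_lit 229)) (nd (nat_lit 294) (nat_lit 0) (cs (nd (nat_lit 275) (nat_lit 0) (cs (lf (nat_lit 12) (nat_lit 271)) (nd (nat_lit 297) (nat_lit 0) (cs (lf (nat_lit 29) (nat_lit 230)) (rf (nat_lit 1)))))) (cs (nd (nat_lit 297) (nat_lit 0) (cs (lf (nat_lit 29) (nat_lit 230)) (nd (nat_lit 315) (nat_lit 0) (cs (lf (nat_lit 10) (nat_lit 293)) (nd (nat_lit 272) (nat_lit 0) (cs (lf (nat_lit 23) (nat_lit 271)) (nd (nat_lit 273) (nat_lit 0) (cs (lf (nat_lit 18) (nat_lit 272)) (nd (nat_lit 229) (nat_lit 0) (cs (lf (nat_lit 47) (nat_lit 207)) (nd (nat_lit 228) (nat_lit 0) (cs (lf (nat_lit 0) (nat_lit 227)) (nd (nat_lit 206) (nat_lit 0) (cs (lf (nat_lit 44) (nat_lit 206)) (lf (nat_lit 26) (nat_lit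 206)))))))))))))))) (cs (nd (nat_lit 207) (nat_lit 0) (cs (lf (nat_lit 46) (nat_lit 207)) (rf (nat_lit 2)))) (nd (nat_lit 207) (nat_lit 0) (cs (lf (nat_lit 46) (nat_lit 207)) (rf (nat_lit 3)))))))))) (cs (nd (nat_lit 229) (nat_lit 0) (cs (lf (nat_lit 47) (nat_lit 207)) (nd (nat_lit 227) (nat_lit 0) (cs (lf (nat_lit 1) (nat_lit 227)) (nd (nat_lit 318) (nat_lit 0) (cs (lf (nat_lit 46) (nat_lit 229)) (rf (nat_lit 4)))))))) (nd (nat_lit 297) (nat_lit 0) (cs (lf (nat_lit 29) (nat_lit 230)) (nd (nat_lit 229) (nat_lit 0) (cs (lf (nat_lit 47) (nat_lit 207)) (nd (nat_lit 227) (nat_lit 0) (cs (lf (nat_lit 1) (nat_lit 227)) (rf (nat_lit 5)))))))))))) q84102 (by decide +kernel)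
def q84153 : Q := Q.p (nat_lit 0x400003000004000000000000000000000000000000000000000000000000000000000) (nat_lit 0x40000980006e0000b80000f00003c000ff8003fc001ff8000000000000000000000000000000000000000) (nat_lit 17)
theorem c84153 : QOK q84153 := cut [q84104, q84110, q84112, q84148, q84151] ⟨c84104, c84110, c84112, c84148, c84151, trivial⟩ (nd (nat_lit 273) (nat_lit 0) (cs (rf (nat_lit 0)) (cs (nd (nat_lit 272) (nat_lit 0) (cs (lf (nat_lit 12) (nat_lit 249)) (rf (nat_lit 1)))) (cs (nd (nat_lit 271) (nat_lit 0) (cs (lf (nat_lit 13) (nat_lit 249)) (rf (nat_lit 2)))) (cs (nd (nat_lit 272) (nat_lit 0) (cs (lf (nat_lit 12) (nat_lit 249)) (rf (nat_lit 3)))) (nd (nat_lit 271) (nat_lit 0) (cs (lf (nat_lit 13) (nat_lit 249)) (rf (nat_lit 4))))))))) q84153 (by decide +kernel)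
def q84163 : Q := Q.p (nat_lit 0x400003000004000000000000000000000000000000000000000000000000000000000) (nat_lit 0x1c0000380000800003c0003f0000f0000280000000000000000000000000000000000000000) (nat_lit 10)
theorem c84163 : QOK q84163 := cut [q80524, q83958, q84162] ⟨c80524, c83958, c84162, trivial⟩ (nd (nat_lit 208) (nat_lit 0) (cs (rf (nat_lit 0)) (cs (rf (nat_lit 1)) (rf (nat_lit 2))))) q84163 (by decide +kernel)
def q84380 : Q := Q.p (nat_lit 0x3000008000020000000000000000000000000000000000000000000000000000) (nat_lit 0x40000700001c0001f00002f0001c000073c001de000f7c001000004000000000000000000000000000000000000) (nat_lit 15)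
theorem c84380 : QOK q84380 := cut [q82318, q84346, q119, q17544, q84347, q84361, q84362, q84367, q84372, q84379] ⟨c82318, c84346, c119, c17544, c84347, c84361, c84362, c84367, c84372, c84379, trivial⟩ (nd (nat_lit 275) (nat_lit 0) (cs (rf (nat_lit 0)) (cs (rf (nat_lit 1)) (cs (nd (nat_lit 208) (nat_lit 0) (cs (lf (nat_lit 47) (nat_lit 186)) (nd (nat_lit 207) (nat_lit 0) (cs (rf (nat_lit 2)) (cs (nd (nat_lit 274) (nat_lit 0) (cs (rf (nat_lit 3)) (nd (nat_lit 210) (nat_lit 0) (cs (lf (nat_lit 35) (nat_lit 187)) (nd (nat_lit 228) (nat_lit 0) (cs (lf (nat_lit 10) (nat_lit 206)) (nd (nat_lit 184) (nat_lit 0) (cs (lf (nat_lit 22) (nat_lit 184)) (nd (nat_lit 233) (nat_lit 0) (cs (lf (nat_lit 4) (nat_lit 207)) (nd (nat_lit 211) (nat_lit 0) (cs (lf (nat_lit 5) (nat_lit 208)) (nd (nat_lit 190) (nat_lit 0) (cs (lf (nat_lit 16) (nat_lit 186)) (nd (nat_lit 212) (nat_lit 0) (cs (lf (nat_lit 17) (nat_lit 187)) (nd (nat_lit 146) (nat_lit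 0) (cs (lf (nat_lit 37) (nat_lit 145)) (nd (nat_lit 255) (nat_lit 0) (cs (lf (nat_lit 30) (nat_lit 189)) (rf (nat_lit 4)))))))))))))))))))))) (cs (rf (nat_lit 5)) (rf (nat_lit 6)))))))) (cs (nd (nat_lit 186) (nat_lit 0) (cs (lf (nat_lit 46) (nat_lit 186)) (rf (nat_lit 7)))) (cs (nd (nat_lit 186) (nat_lit 0) (cs (lf (nat_lit 46) (nat_lit 186)) (rf (nat_lit 8)))) (rf (nat_lit 9)))))))) q84380 (by decide +kernel)
def q84430 : Q := Q.p (nat_lit 0x300000c000000000000000000000000000000000000000000000000000000000) (nat_lit 0x80001c6000738001ce000100000400000000000000000000000000000000000000000) (nat_lit 8)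
theorem c84430 : QOK q84430 := cut [q84417, q84423, q84429] ⟨c84417, c84423, c84429, trivial⟩ (nd (nat_lit 229) (nat_lit 0) (cs (rf (nat_lit 0)) (cs (rf (nat_lit 1)) (rf (nat_lit 2))))) q84430 (by decide +kernel)
def q84434 : Q := Q.p (nat_lit 0x300000c000010000000000000000000000000000000000000000000000000000) (nat_lit 0xe0000380000f0000c000000000008000020000000000000000000000000000000000000000000000) (nat_lit 6)
theorem c84434 : QOK q84434 := cut [q57679, q84411, q84431] ⟨c57679, c84411, c84431, trivial⟩ (nd (nat_lit 274) (nat_lit 0) (cs (rf (nat_lit 0)) (cs (rf (nat_lit 1)) (nd (nat_lit 297) (nat_lit 0) (cs (rf (nat_lit 2)) (lf (nat_lit 43) (nat_lit 208))))))) q84434 (by decide +kernel)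
def q84440 : Q := Q.p (nat_lit 0x40000300000c000010000000000000000000000000000000000000000000000000000) (nat_lit 0x280000b8000000003200000e000020000000000000000000000000000000000000000000000) (nat_lit 7)
theorem c84440 : QOK q84440 := cut [q22273] ⟨c22273, trivial⟩ (nd (nat_lit 275) (nat_lit 0) (cs (lf (nat_lit 42) (nat_lit 208)) (rf (nat_lit 0)))) q84440 (by decide +kernel)
def q84447 : Q := Q.p (nat_lit 0x300001e000000000000000000000000000000000000000000000000000000000) (nat_lit 0x10000040000c0000000000dc000120000480000000000000000000000000000000000000000) (nat_lit 7)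
theorem c84447 : QOK q84447 := cut [q84446] ⟨c84446, trivial⟩ (nd (nat_lit 254) (nat_lit 0) (cs (lf (nat_lit 18) (nat_lit 229)) (rf (nat_lit 0)))) q84447 (by decide +kernel)
def q84488 : Q := Q.p (nat_lit 0x40000300001c000000000000000000000000000000000000000000000000000000000) (nat_lit 0x80000620001c0000600001c0000300000800000000000000000000000000000000000000000) (nat_lit 8)
theorem c84488 : QOK q84488 := cut [q84485] ⟨c84485, trivial⟩ (nd (nat_lit 233) (nat_lit 0) (cs (lf (nat_lit 6) (nat_lit 230)) (nd (nat_lit 211) (nat_lit 0) (cs (lf (nat_lit 17) (nat_lit 208)) (nd (nat_lit 255) (nat_lit 0) (cs (lf (nat_lit 5) (nat_lit 230)) (rf (nat_lit 0)))))))) q84488 (by decide +kernel)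
def q84513 : Q := Q.p (nat_lit 0x3000008000020000000000000000000000000000000000000000000000000000) (nat_lit 0x500001c00007000008000100003f7000fd8007f70000900002000000000000000000000000000000000000) (nat_lit 12)
theorem c84513 : QOK q84513 := cut [q82350, q84367, q80823, q84315, q84320, q84324, q84509] ⟨c82350, c84367, c80823, c84315, c84320, c84324, c84509, trivial⟩ (nd (nat_lit 275) (nat_lit 0) (cs (rf (nat_lit 0)) (cs (rf (nat_lit 1)) (nd (nat_lit 210) (nat_lit 0) (cs (lf (nat_lit 35) (nat_lit 187)) (nd (nat_lit 211) (nat_lit 0) (cs (rf (nat_lit 2)) (cs (rf (nat_lit 3)) (cs (rf (nat_lit 4)) (cs (rf (nat_lit 5)) (nd (nat_lit 186) (nat_lit 0) (cs (lf (nat_lit 46) (nat_lit 186)) (rf (nat_lit 6)))))))))))))) q84513 (by decide +kernel)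
def q84525 : Q := Q.p (nat_lit 0x80000f0000000000000000000000000000000000000000000000000000) (nat_lit 0x67c0000e000638000000000000000000000000000000000000000000000) (nat_lit 8)
theorem c84525 : QOK q84525 := cut [q4284, q84359, q84523] ⟨c4284, c84359, c84523, trivial⟩ (nd (nat_lit 207) (nat_lit 0) (cs (rf (nat_lit 0)) (cs (rf (nat_lit 1)) (cs (nd (nat_lit 233) (nat_lit 0) (cs (lf (nat_lit 5) (nat_lit 208)) (nd (nat_lit 184) (nat_lit 0) (cs (lf (nat_lit 22) (nat_lit 184)) (nd (nat_lit 206) (nat_lit 0) (cs (lf (nat_lit 23) (nat_lit 183)) (nd (nat_lit 230) (nat_lit 0) (cs (lf (nat_lit 11) (nat_lit 207)) (lf (nat_lit 0) (nat_lit 205)))))))))) (nd (nat_lit 233) (nat_lit 0) (cs (lf (nat_lit 5) (nat_lit 208)) (rf (nat_lit 2)))))))) q84525 (by decide +kernel)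
def q84530 : Q := Q.p (nat_lit 0x80000f0000000000000000000000000000000000000000000000000000) (nat_lit 0x75c0000e000638000000000000000000000000000000000000000000000) (nat_lit 8)
theorem c84530 : QOK q84530 := cut [q84523] ⟨c84523, trivial⟩ (nd (nat_lit 233) (nat_lit 0) (cs (lf (nat_lit 5) (nat_lit 208)) (nd (nat_lit 207) (nat_lit 0) (cs (lf (nat_lit 4) (nat_lit 207)) (rf (nat_lit 0)))))) q84530 (by decide +kernel)
def q84605 : Q := Q.p (nat_lit 0x3000008000020000000000000000000000000000000000000000000000000000) (nat_lit 0x140000740003df000ff8001ff0003400008000000000000000000000000000000) (nat_lit 15)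
theorem c84605 : QOK q84605 := cut [q4090, q82299, q84587, q20853, q84602] ⟨c4090, c82299, c84587, c20853, c84602, trivial⟩ (nd (nat_lit 187) (nat_lit 0) (cs (rf (nat_lit 0)) (cs (rf (nat_lit 1)) (nd (nat_lit 186) (nat_lit 0) (cs (lf (nat_lit 47) (nat_lit 164)) (nd (nat_lit 185) (nat_lit 0) (cs (rf (nat_lit 2)) (cs (nd (nat_lit 188) (nat_lit 0) (cs (lf (nat_lit 35) (nat_lit 165)) (rf (nat_lit 3)))) (cs (nd (nat_lit 188) (nat_lit 0) (cs (lf (nat_lit 35) (nat_lit 165)) (nd (nat_lit 210) (nat_lit 0) (cs (lf (nat_lit 5) (nat_lit 185)) (nd (nat_lit 162) (nat_lit 0) (cs (lf (nat_lit 22) (nat_lit 162)) (nd (nat_lit 207) (nat_lit 0) (cs (lf (nat_lit 11) (nat_lit 184)) (nd (nat_lit 189) (nat_lit 0) (cs (lf (nat_lit 10) (nat_lit 185)) (nd (nat_lit 167) (nat_lit 0) (cs (lf (nat_lit 17) (nat_lit 164)) (nd (nat_lit 123) (nat_lit 0) (cs (lf (nat_lit 37) (nat_lit 122)) (nd (nat_lit 190) (nat_lit 0) (cs (lf (nat_lit 6) (nat_lit 187)) (nd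 (nat_lit 232) (nat_lit 0) (cs (nd (nat_lit 212) (nat_lit 0) (cs (lf (nat_lit 5) (nat_lit 187)) (nd (nat_lit 234) (nat_lit 0) (cs (lf (nat_lit 42) (nat_lit 167)) (lf (nat_lit 7) (nat_lit 230)))))) (lf (nat_lit 30) (nat_lit 166)))))))))))))))))))) (rf (nat_lit 4))))))))))) q84605 (by decide +kernel)
def q84830 : Q := Q.p (nat_lit 0x10000000000b000008000060000000000000000000000000000000000000000000000000000) (nat_lit 0x240001ff800fec003eb800f00003f4001f80007e0001f80001e000068000000000000000000000000000000) (nat_lit 14)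
theorem c84830 : QOK q84830 := cut [q80822, q84646, q84648, q84652, q84702, q84717, q84785, q84808, q84554, q84313, q84822, q84825] ⟨c80822, c84646, c84648, c84652, c84702, c84717, c84785, c84808, c84554, c84313, c84822, c84825, trivial⟩ (nd (nat_lit 212) (nat_lit 0) (cs (nd (nat_lit 211) (nat_lit 0) (cs (lf (nat_lit 11) (nat_lit 208)) (rf (nat_lit 0)))) (cs (nd (nat_lit 297) (nat_lit 0) (cs (rf (nat_lit 1)) (cs (rf (nat_lit 2)) (cs (nd (nat_lit 234) (nat_lit 0) (cs (rf (nat_lit 3)) (cs (rf (nat_lit 4)) (cs (nd (nat_lit 299) (nat_lit 0) (cs (rf (nat_lit 5)) (nd (nat_lit 233) (nat_lit 0) (cs (lf (nat_lit 8) (nat_lit 230)) (lf (nat_lit 31) (nat_lit 211)))))) (cs (nd (nat_lit 233) (nat_lit 0) (cs (lf (nat_lit 8) (nat_lit 230)) (nd (nat_lit 190) (nat_lit 0) (cs (lf (nat_lit 36) (nat_lit 167)) (nd (nat_lit 256) (nat_lit 0) (cs (lf (nat_lit 41) (nat_lit 189)) (nd (nat_lit 257) (nat_lit 0) (cs (lf (nat_lit 29) (nat_lit 190)) (nd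 (nat_lit 191) (nat_lit 0) (cs (lf (nat_lit 35) (nat_lit 168)) (nd (nat_lit 167) (nat_lit 0) (cs (lf (nat_lit 46) (nat_lit 167)) (nd (nat_lit 213) (nat_lit 0) (cs (nd (nat_lit 258) (nat_lit 0) (cs (nd (nat_lit 280) (nat_lit 0) (cs (lf (nat_lit 5) (nat_lit 255)) (lf (nat_lit 26) (nat_lit 191)))) (lf (nat_lit 18) (nat_lit 233)))) (lf (nat_lit 30) (nat_lit 190)))))))))))))))) (nd (nat_lit 190) (nat_lit 0) (cs (nd (nat_lit 233) (nat_lit 0) (cs (lf (nat_lit 36) (nat_lit 167)) (lf (nat_lit 8) (nat_lit 230)))) (cs (rf (nat_lit 6)) (nd (nat_lit 168) (nat_lit 0) (cs (nd (nat_lit 145) (nat_lit 0) (cs (nd (nat_lit 147) (nat_lit 0) (cs (nd (nat_lit 146) (nat_lit 0) (cs (lf (nat_lit 47) (nat_lit 123)) (lf (nat_lit 35) (nat_lit 124)))) (lf (nat_lit 34) (nat_lit 146)))) (lf (nat_lit 46) (nat_lit 145)))) (cs (nd (nat_lit 145) (nat_lit 0) (cs (lf (nat_lit 46) (nat_lit 145)) (nd (nat_lit 235) (nat_lit 0) (cs (nd (nat_lit 146) (nat_lit 0) (cs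 (lf (nat_lit 47) (nat_lit 123)) (lf (nat_lit 28) (nat_lit 146)))) (lf (nat_lit 29) (nat_lit 168)))))) (cs (nd (nat_lit 235) (nat_lit 0) (cs (lf (nat_lit 29) (nat_lit 168)) (nd (nat_lit 146) (nat_lit 0) (cs (lf (nat_lit 28) (nat_lit 146)) (nd (nat_lit 147) (nat_lit 0) (cs (lf (nat_lit 35) (nat_lit 124)) (lf (nat_lit 34) (nat_lit 146)))))))) (nd (nat_lit 235) (nat_lit 0) (cs (lf (nat_lit 29) (nat_lit 168)) (nd (nat_lit 167) (nat_lit 0) (cs (lf (nat_lit 47) (nat_lit 145)) (nd (nat_lit 169) (nat_lit 0) (cs (lf (nat_lit 35) (nat_lit 146)) (nd (nat_lit 256) (nat_lit 0) (cs (lf (nat_lit 46) (nat_lit 167)) (lf (nat_lit 34) (nat_lit 168)))))))))))))))))))))) (rf (nat_lit 7)))))) (cs (nd (nat_lit 211) (nat_lit 0) (cs (lf (nat_lit 11) (nat_lit 208)) (nd (nat_lit 190) (nat_lit 0) (cs (lf (nat_lit 17) (nat_lit 187)) (nd (nat_lit 234) (nat_lit 0) (cs (lf (nat_lit 5) (nat_lit 209)) (nd (nat_lit 277) (nat_lit 0) (cs (lf (nat_lit 32) (nat_lit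 189)) (lf (nat_lit 39) (nat_lit 189)))))))))) (cs (nd (nat_lit 211) (nat_lit 0) (cs (lf (nat_lit 11) (nat_lit 208)) (rf (nat_lit 8)))) (cs (nd (nat_lit 234) (nat_lit 0) (cs (rf (nat_lit 3)) (cs (nd (nat_lit 211) (nat_lit 0) (cs (lf (nat_lit 5) (nat_lit 209)) (nd (nat_lit 190) (nat_lit 0) (cs (lf (nat_lit 17) (nat_lit 187)) (nd (nat_lit 213) (nat_lit 0) (cs (lf (nat_lit 10) (nat_lit 209)) (nd (nat_lit 256) (nat_lit 0) (cs (lf (nat_lit 41) (nat_lit 189)) (nd (nat_lit 189) (nat_lit 0) (cs (lf (nat_lit 42) (nat_lit 189)) (lf (nat_lit 47) (nat_lit 167)))))))))))) (cs (nd (nat_lit 211) (nat_lit 0) (cs (lf (nat_lit 5) (nat_lit 209)) (rf (nat_lit 9)))) (nd (nat_lit 211) (nat_lit 0) (cs (lf (nat_lit 5) (nat_lit 209)) (rf (nat_lit 10)))))))) (nd (nat_lit 211) (nat_lit 0) (cs (lf (nat_lit 11) (nat_lit 208)) (nd (nat_lit 190) (nat_lit 0) (cs (lf (nat_lit 17) (nat_lit 187)) (nd (nat_lit 213) (nat_lit 0) (cs (lf (nat_lit 10) (nat_lit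 209)) (nd (nat_lit 233) (nat_lit 0) (cs (lf (nat_lit 30) (nat_lit 189)) (rf (nat_lit 11)))))))))))))))) q84830 (by decide +kernel)
def q84910 : Q := Q.p (nat_lit 0xb00000c000000000000000000000000000000000000000000000000000000000) (nat_lit 0x10000460001380000e000020000080000000000000000000000000000000000000000) (nat_lit 7)
theorem c84910 : QOK q84910 := cut [q84909] ⟨c84909, trivial⟩ (nd (nat_lit 229) (nat_lit 0) (cs (lf (nat_lit 19) (nat_lit 229)) (rf (nat_lit 0)))) q84910 (by decide +kernel)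
def q84965 : Q := Q.p (nat_lit 0x800003000008000020000000000000000000000000000000000000000000000000000) (nat_lit 0x40000700001c0000600000400000000004000050000140000000000000000000000000000000000000000000000) (nat_lit 8)
theorem c84965 : QOK q84965 := cut [q84964] ⟨c84964, trivial⟩ (nd (nat_lit 188) (nat_lit 0) (cs (lf (nat_lit 34) (nat_lit 187)) (rf (nat_lit 0)))) q84965 (by decide +kernel)
def q84997 : Q := Q.p (nat_lit 0x300000c000030000000000000000000000000000000000000000000000000000) (nat_lit 0x18000078000c00001000000e000020000000000000000000000000000000000000000000000) (nat_lit 7)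
theorem c84997 : QOK q84997 := cut [q84996] ⟨c84996, trivial⟩ (nd (nat_lit 274) (nat_lit 0) (cs (lf (nat_lit 30) (nat_lit 208)) (rf (nat_lit 0)))) q84997 (by decide +kernel)
def q85008 : Q := Q.p (nat_lit 0x300000c000010000000000000000000000000000000000000000000000000000) (nat_lit 0xec0007f8000780000000000000000000000000000000000000000) (nat_lit 7)
theorem c85008 : QOK q85008 := cut [q84998, q85001, q85004, q85007] ⟨c84998, c85001, c85004, c85007, trivial⟩ (nd (nat_lit 209) (nat_lit 0) (cs (rf (nat_lit 0)) (cs (rf (nat_lit 1)) (cs (rf (nat_lit 2)) (rf (nat_lit 3)))))) q85008 (by decide +kernel)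
def q85020 : Q := Q.p (nat_lit 0x300000c000000000000000000000000000000000000000000000000000000000) (nat_lit 0x4000010000040001c6000738001ee000180000600000000000000000000000000000000000000000) (nat_lit 8)
theorem c85020 : QOK q85020 := cut [q84417, q84429, q84418, q84422, q81488, q85014, q85018] ⟨c84417, c84429, c84418, c84422, c81488, c85014, c85018, trivial⟩ (nd (nat_lit 229) (nat_lit 0) (cs (rf (nat_lit 0)) (cs (rf (nat_lit 1)) (nd (nat_lit 274) (nat_lit 0) (cs (nd (nat_lit 232) (nat_lit 0) (cs (rf (nat_lit 2)) (cs (rf (nat_lit 3)) (nd (nat_lit 254) (nat_lit 0) (cs (rf (nat_lit 4)) (nd (nat_lit 210) (nat_lit 0) (cs (lf (nat_lit 17) (nat_lit 207)) (rf (nat_lit 5))))))))) (rf (nat_lit 6))))))) q85020 (by decide +kernel)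
def q85030 : Q := Q.p (nat_lit 0x300000c000000000000000000000000000000000000000000000000000000000) (nat_lit 0x1c6000738001de0003e0000f80000000000000000000000000000000000000000) (nat_lit 11)
theorem c85030 : QOK q85030 := cut [q84417, q84429, q84418, q84422, q81488] ⟨c84417, c84429, c84418, c84422, c81488, trivial⟩ (nd (nat_lit 229) (nat_lit 0) (cs (rf (nat_lit 0)) (cs (rf (nat_lit 1)) (nd (nat_lit 232) (nat_lit 0) (cs (rf (nat_lit 2)) (cs (rf (nat_lit 3)) (nd (nat_lit 254) (nat_lit 0) (cs (rf (nat_lit 4)) (nd (nat_lit 210) (nat_lit 0) (cs (lf (nat_lit 17) (nat_lit 207)) (nd (nat_lit 188) (nat_lit 0) (cs (lf (nat_lit 36) (nat_lit 165)) (nd (nat_lit 207) (nat_lit 0) (cs (lf (nat_lit 23) (nat_lit 206)) (nd (nat_lit 163) (nat_lit 0) (cs (lf (nat_lit 25) (nat_lit 163)) (nd (nat_lit 187) (nat_lit 0) (cs (lf (nat_lit 47) (nat_lit 165)) (nd (nat_lit 189) (nat_lit 0) (cs (lf (nat_lit 35) (nat_lit 166)) (nd (nat_lit 186) (nat_lit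 0) (cs (lf (nat_lit 22) (nat_lit 163)) (lf (nat_lit 10) (nat_lit 185)))))))))))))))))))))))) q85030 (by decide +kernel)
def q85063 : Q := Q.p (nat_lit 0x300000c000000000000000000000000000000000000000000000000000000000) (nat_lit 0xe000038000060000000003200003e0000e0000300000000000000000000000000000000000000000) (nat_lit 7)
theorem c85063 : QOK q85063 := cut [q79097, q85031, q85062] ⟨c79097, c85031, c85062, trivial⟩ (nd (nat_lit 274) (nat_lit 0) (cs (rf (nat_lit 0)) (cs (rf (nat_lit 1)) (rf (nat_lit 2))))) q85063 (by decide +kernel)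
def q85119 : Q := Q.p (nat_lit 0x3000008000000000000000000000000000000000000000000000000000000000) (nat_lit 0x180004f0001c0001f7800ffc001ff8003f0000f400000000000000000000000000000000000) (nat_lit 14)
theorem c85119 : QOK q85119 := cut [q82300, q82301, q82309, q84332, q7464, q80823, q84304, q84315, q84320, q84324, q84971, q84979, q85101, q85105, q85107, q1563, q15486, q22155, q85078, q85116] ⟨c82300, c82301, c82309, c84332, c7464, c80823, c84304, c84315, c84320, c84324, c84971, c84979, c85101, c85105, c85107, c1563, c15486, c22155, c85078, c85116, trivial⟩ (nd (nat_lit 209) (nat_lit 0) (cs (rf (nat_lit 0)) (cs (rf (nat_lit 1)) (cs (rf (nat_lit 2)) (cs (rf (nat_lit 3)) (nd (nat_lit 210) (nat_lit 0) (cs (rf (nat_lit 4)) (cs (nd (nat_lit 211) (nat_lit 0) (cs (rf (nat_lit 5)) (cs (rf (nat_lit 6)) (cs (rf (nat_lit 7)) (cs (rf (nat_lit 8)) (rf (nat_lit 9))))))) (cs (nd (nat_lit 211) (nat_lit 0) (cs (rf (nat_lit 9)) (cs (nd (nat_lit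 188) (nat_lit 0) (cs (lf (nat_lit 30) (nat_lit 187)) (nd (nat_lit 144) (nat_lit 0) (cs (lf (nat_lit 37) (nat_lit 143)) (nd (nat_lit 212) (nat_lit 0) (cs (lf (nat_lit 11) (nat_lit 208)) (nd (nat_lit 191) (nat_lit 0) (cs (lf (nat_lit 16) (nat_lit 187)) (nd (nat_lit 234) (nat_lit 0) (cs (lf (nat_lit 5) (nat_lit 209)) (nd (nat_lit 213) (nat_lit 0) (cs (lf (nat_lit 17) (nat_lit 188)) (nd (nat_lit 256) (nat_lit 0) (cs (lf (nat_lit 30) (nat_lit 190)) (nd (nat_lit 147) (nat_lit 0) (cs (nd (nat_lit 189) (nat_lit 0) (cs (lf (nat_lit 18) (nat_lit 188)) (nd (nat_lit 167) (nat_lit 0) (cs (lf (nat_lit 24) (nat_lit 145)) (lf (nat_lit 27) (nat_lit 167)))))) (lf (nat_lit 37) (nat_lit 146)))))))))))))))))) (cs (nd (nat_lit 275) (nat_lit 0) (cs (lf (nat_lit 35) (nat_lit 187)) (nd (nat_lit 208) (nat_lit 0) (cs (lf (nat_lit 47) (nat_lit 186)) (nd (nat_lit 274) (nat_lit 0) (cs (lf (nat_lit 41) (nat_lit 208)) (rf (nat_lit 10)))))))) (cs (nd (nat_lit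 275) (nat_lit 0) (cs (lf (nat_lit 35) (nat_lit 187)) (rf (nat_lit 11)))) (cs (rf (nat_lit 12)) (cs (rf (nat_lit 13)) (nd (nat_lit 188) (nat_lit 0) (cs (lf (nat_lit 30) (nat_lit 187)) (nd (nat_lit 144) (nat_lit 0) (cs (lf (nat_lit 37) (nat_lit 143)) (nd (nat_lit 212) (nat_lit 0) (cs (lf (nat_lit 11) (nat_lit 208)) (nd (nat_lit 190) (nat_lit 0) (cs (lf (nat_lit 17) (nat_lit 187)) (nd (nat_lit 234) (nat_lit 0) (cs (lf (nat_lit 5) (nat_lit 209)) (nd (nat_lit 233) (nat_lit 0) (cs (lf (nat_lit 0) (nat_lit 208)) (rf (nat_lit 14))))))))))))))))))))) (nd (nat_lit 208) (nat_lit 0) (cs (rf (nat_lit 15)) (cs (nd (nat_lit 233) (nat_lit 0) (cs (rf (nat_lit 16)) (cs (rf (nat_lit 17)) (rf (nat_lit 18))))) (rf (nat_lit 19)))))))))))))) q85119 (by decide +kernel)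
def q85233 : Q := Q.p (nat_lit 0x3000008000000000000000000000000000000000000000000000000000000000) (nat_lit 0x400001c0000f80006f0001c0001f7000ff0000ff0000f00003400000000000000000000000000000000000) (nat_lit 12)
theorem c85233 : QOK q85233 := cut [q82300, q82301, q82309, q84332, q7464, q84298, q80823, q84304, q84315, q84324, q85123, q85142, q85177, q84834, q84319, q85191, q82330, q756, q85150] ⟨c82300, c82301, c82309, c84332, c7464, c84298, c80823, c84304, c84315, c84324, c85123, c85142, c85177, c84834, c84319, c85191, c82330, c756, c85150, trivial⟩ (nd (nat_lit 209) (nat_lit 0) (cs (rf (nat_lit 0)) (cs (rf (nat_lit 1)) (cs (rf (nat_lit 2)) (cs (rf (nat_lit 3)) (nd (nat_lit 210) (nat_lit 0) (cs (rf (nat_lit 4)) (cs (rf (nat_lit 5)) (cs (nd (nat_lit 211) (nat_lit 0) (cs (rf (nat_lit 6)) (cs (rf (nat_lit 7)) (cs (rf (nat_lit 8)) (cs (rf (nat_lit 9)) (nd (nat_lit 233) (nat_lit 0) (cs (rf (nat_lit 10)) (cs (rf (nat_lit 11)) (cs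 (nd (nat_lit 230) (nat_lit 0) (cs (rf (nat_lit 12)) (nd (nat_lit 255) (nat_lit 0) (cs (rf (nat_lit 13)) (nd (nat_lit 256) (nat_lit 0) (cs (lf (nat_lit 2) (nat_lit 230)) (lf (nat_lit 20) (nat_lit 230)))))))) (nd (nat_lit 208) (nat_lit 0) (cs (lf (nat_lit 5) (nat_lit 208)) (rf (nat_lit 14))))))))))))) (nd (nat_lit 208) (nat_lit 0) (cs (rf (nat_lit 15)) (cs (nd (nat_lit 211) (nat_lit 0) (cs (rf (nat_lit 16)) (rf (nat_lit 14)))) (nd (nat_lit 230) (nat_lit 0) (cs (rf (nat_lit 17)) (rf (nat_lit 18)))))))))))))))) q85233 (by decide +kernel)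
def q85315 : Q := Q.p (nat_lit 0x3800002000000000000000000000000000000000000000000000000000000000) (nat_lit 0x100000c0000b00004200039c003ff000ffc001ff8003f00007c00004000000000000000000000000) (nat_lit 14)
theorem c85315 : QOK q85315 := cut [q1857, q12021, q85239, q82584, q85251, q85252, q11483, q85255, q18922, q83322, q85262, q19291, q83348, q85264, q85285, q1558, q1613, q85295, q85314] ⟨c1857, c12021, c85239, c82584, c85251, c85252, c11483, c85255, c18922, c83322, c85262, c19291, c83348, c85264, c85285, c1558, c1613, c85295, c85314, trivial⟩ (nd (nat_lit 207) (nat_lit 0) (cs (nd (nat_lit 208) (nat_lit 0) (cs (rf (nat_lit 0)) (nd (nat_lit 228) (nat_lit 0) (cs (lf (nat_lit 18) (nat_lit 228)) (nd (nat_lit 227) (nat_lit 0) (cs (lf (nat_lit 12) (nat_lit 204)) (rf (nat_lit 1)))))))) (cs (nd (nat_lit 254) (nat_lit 0) (cs (lf (nat_lit 23) (nat_lit 228)) (nd (nat_lit 232) (nat_lit 0) (cs (lf (nat_lit 17) (nat_lit 229)) (nd (nat_lit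 273) (nat_lit 0) (cs (lf (nat_lit 11) (nat_lit 250)) (nd (nat_lit 186) (nat_lit 0) (cs (lf (nat_lit 34) (nat_lit 185)) (nd (nat_lit 185) (nat_lit 0) (cs (lf (nat_lit 35) (nat_lit 163)) (nd (nat_lit 162) (nat_lit 0) (cs (lf (nat_lit 46) (nat_lit 162)) (nd (nat_lit 163) (nat_lit 0) (cs (lf (nat_lit 47) (nat_lit 140)) (nd (nat_lit 160) (nat_lit 0) (cs (lf (nat_lit 1) (nat_lit 160)) (nd (nat_lit 188) (nat_lit 0) (cs (lf (nat_lit 19) (nat_lit 162)) (rf (nat_lit 2)))))))))))))))))))) (cs (nd (nat_lit 273) (nat_lit 0) (cs (rf (nat_lit 3)) (cs (rf (nat_lit 4)) (rf (nat_lit 5))))) (cs (nd (nat_lit 228) (nat_lit 0) (cs (lf (nat_lit 18) (nat_lit 228)) (nd (nat_lit 227) (nat_lit 0) (cs (lf (nat_lit 0) (nat_lit 226)) (nd (nat_lit 185) (nat_lit 0) (cs (rf (nat_lit 6)) (cs (rf (nat_lit 7)) (cs (nd (nat_lit 186) (nat_lit 0) (cs (lf (nat_lit 35) (nat_lit 163)) (nd (nat_lit 187) (nat_lit 0) (cs (nd (nat_lit 209) (nat_lit 0) (cs (nd (nat_lit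 184) (nat_lit 0) (cs (lf (nat_lit 5) (nat_lit 184)) (nd (nat_lit 205) (nat_lit 0) (cs (lf (nat_lit 10) (nat_lit 183)) (nd (nat_lit 183) (nat_lit 0) (cs (lf (nat_lit 11) (nat_lit 182)) (rf (nat_lit 8)))))))) (cs (nd (nat_lit 206) (nat_lit 0) (cs (rf (nat_lit 9)) (lf (nat_lit 7) (nat_lit 205)))) (cs (nd (nat_lit 210) (nat_lit 0) (cs (lf (nat_lit 0) (nat_lit 184)) (lf (nat_lit 8) (nat_lit 206)))) (rf (nat_lit 10)))))) (cs (nd (nat_lit 188) (nat_lit 0) (cs (rf (nat_lit 11)) (cs (rf (nat_lit 12)) (rf (nat_lit 13))))) (cs (nd (nat_lit 188) (nat_lit 0) (cs (lf (nat_lit 11) (nat_lit 184)) (nd (nat_lit 166) (nat_lit 0) (cs (lf (nat_lit 17) (nat_lit 163)) (rf (nat_lit 13)))))) (cs (nd (nat_lit 188) (nat_lit 0) (cs (lf (nat_lit 11) (nat_lit 184)) (nd (nat_lit 166) (nat_lit 0) (cs (lf (nat_lit 17) (nat_lit 163)) (nd (nat_lit 165) (nat_lit 0) (cs (lf (nat_lit 12) (nat_lit 162)) (nd (nat_lit 209) (nat_lit 0) (cs (lf (nat_lit 31) (nat_lit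 165)) (nd (nat_lit 122) (nat_lit 0) (cs (lf (nat_lit 37) (nat_lit 121)) (nd (nat_lit 210) (nat_lit 0) (cs (lf (nat_lit 5) (nat_lit 185)) (nd (nat_lit 143) (nat_lit 0) (cs (lf (nat_lit 29) (nat_lit 143)) (lf (nat_lit 24) (nat_lit 121)))))))))))))))) (nd (nat_lit 188) (nat_lit 0) (cs (lf (nat_lit 11) (nat_lit 184)) (nd (nat_lit 166) (nat_lit 0) (cs (lf (nat_lit 17) (nat_lit 163)) (nd (nat_lit 165) (nat_lit 0) (cs (lf (nat_lit 12) (nat_lit 162)) (nd (nat_lit 189) (nat_lit 0) (cs (lf (nat_lit 10) (nat_lit 185)) (nd (nat_lit 212) (nat_lit 0) (cs (lf (nat_lit 4) (nat_lit 186)) (nd (nat_lit 190) (nat_lit 0) (cs (lf (nat_lit 5) (nat_lit 187)) (lf (nat_lit 18) (nat_lit 165))))))))))))))))))))) (cs (rf (nat_lit 14)) (nd (nat_lit 208) (nat_lit 0) (cs (rf (nat_lit 1)) (cs (nd (nat_lit 209) (nat_lit 0) (cs (lf (nat_lit 6) (nat_lit 206)) (nd (nat_lit 184) (nat_lit 0) (cs (rf (nat_lit 15)) (lf (nat_lit 47) (nat_lit 162)))))) (nd (nat_lit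 162) (nat_lit 0) (cs (lf (nat_lit 46) (nat_lit 162)) (nd (nat_lit 163) (nat_lit 0) (cs (lf (nat_lit 47) (nat_lit 140)) (nd (nat_lit 141) (nat_lit 0) (cs (rf (nat_lit 16)) (lf (nat_lit 40) (nat_lit 140)))))))))))))))))))) (cs (nd (nat_lit 185) (nat_lit 0) (cs (rf (nat_lit 6)) (cs (nd (nat_lit 184) (nat_lit 0) (cs (lf (nat_lit 47) (nat_lit 162)) (rf (nat_lit 17)))) (nd (nat_lit 186) (nat_lit 0) (cs (lf (nat_lit 35) (nat_lit 163)) (nd (nat_lit 273) (nat_lit 0) (cs (lf (nat_lit 34) (nat_lit 185)) (rf (nat_lit 5))))))))) (rf (nat_lit 18)))))))) q85315 (by decide +kernel)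
def q85319 : Q := Q.p (nat_lit 0x1800002000008000020000000000000000000000000000000000000000000000) (nat_lit 0x100000700001c0000300000000004000004000050000140000000000000000000000000000000000000000) (nat_lit 8)
theorem c85319 : QOK q85319 := cut [q85316] ⟨c85316, trivial⟩ (nd (nat_lit 164) (nat_lit 0) (cs (lf (nat_lit 34) (nat_lit 163)) (nd (nat_lit 184) (nat_lit 0) (cs (lf (nat_lit 47) (nat_lit 162)) (nd (nat_lit 273) (nat_lit 0) (cs (lf (nat_lit 46) (nat_lit 184)) (rf (nat_lit 0)))))))) q85319 (by decide +kernel)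
def q85353 : Q := Q.p (nat_lit 0x3800002000008000000000000000000000000000000000000000000000000000) (nat_lit 0x100000700001d00003c000030001df000770001bc0006e0000100000000000000000000000000000000000) (nat_lit 13)
theorem c85353 : QOK q85353 := cut [q23552, q85321, q85322, q85316, q85330, q85341, q85343, q85352] ⟨c23552, c85321, c85322, c85316, c85330, c85341, c85343, c85352, trivial⟩ (nd (nat_lit 206) (nat_lit 0) (cs (rf (nat_lit 0)) (cs (rf (nat_lit 1)) (cs (nd (nat_lit 230) (nat_lit 0) (cs (rf (nat_lit 2)) (cs (nd (nat_lit 205) (nat_lit 0) (cs (lf (nat_lit 0) (nat_lit 204)) (nd (nat_lit 273) (nat_lit 0) (cs (rf (nat_lit 3)) (cs (rf (nat_lit 4)) (nd (nat_lit 295) (nat_lit 0) (cs (lf (nat_lit 46) (nat_lit 206)) (lf (nat_lit 35) (nat_lit 207))))))))) (cs (rf (nat_lit 5)) (rf (nat_lit 6)))))) (rf (nat_lit 7)))))) q85353 (by decide +kernel)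
def q85374 : Q := Q.p (nat_lit 0x3800002000008000000000000000000000000000000000000000000000000000) (nat_lit 0x100000700001c00003c000000000df0001780005f000000000000000000000000000000000000000000000) (nat_lit 10)
theorem c85374 : QOK q85374 := cut [q82211, q85251, q3210, q85365, q85368, q85373] ⟨c82211, c85251, c3210, c85365, c85368, c85373, trivial⟩ (nd (nat_lit 273) (nat_lit 0) (cs (rf (nat_lit 0)) (cs (rf (nat_lit 1)) (cs (nd (nat_lit 206) (nat_lit 0) (cs (lf (nat_lit 47) (nat_lit 184)) (nd (nat_lit 205) (nat_lit 0) (cs (nd (nat_lit 204) (nat_lit 0) (cs (lf (nat_lit 5) (nat_lit 204)) (nd (nat_lit 225) (nat_lit 0) (cs (lf (nat_lit 10) (nat_lit 203)) (nd (nat_lit 203) (nat_lit 0) (cs (lf (nat_lit 11) (nat_lit 202)) (lf (nat_lit 4) (nat_lit 203)))))))) (cs (nd (nat_lit 208) (nat_lit 0) (cs (lf (nat_lit 35) (nat_lit 185)) (nd (nat_lit 272) (nat_lit 0) (cs (lf (nat_lit 41) (nat_lit 206)) (nd (nat_lit 182) (nat_lit 0) (cs (lf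 (nat_lit 22) (nat_lit 182)) (nd (nat_lit 270) (nat_lit 0) (cs (rf (nat_lit 2)) (lf (nat_lit 13) (nat_lit 248)))))))))) (cs (rf (nat_lit 3)) (rf (nat_lit 4)))))))) (rf (nat_lit 5)))))) q85374 (by decide +kernel)
def q85380 : Q := Q.p (nat_lit 0x3800002000008000000000000000000000000000000000000000000000000000) (nat_lit 0xa000000000058000300000fc0003c0000500000000000000000000000000000000000) (nat_lit 9)
theorem c85380 : QOK q85380 := cut [q82219, q82220, q82221, q85379] ⟨c82219, c82220, c82221, c85379, trivial⟩ (nd (nat_lit 186) (nat_lit 0) (cs (rf (nat_lit 0)) (cs (rf (nat_lit 1)) (cs (rf (nat_lit 2)) (rf (nat_lit 3)))))) q85380 (by decide +kernel)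
def q85396 : Q := Q.p (nat_lit 0x1000002000038000000000000000000000000000000000000000000000000000) (nat_lit 0x1df0000780018e000700001c00005000000000000000000000000000000) (nat_lit 9)
theorem c85396 : QOK q85396 := cut [q85383, q1075, q85385, q85388, q3211, q85393, q85395] ⟨c85383, c1075, c85385, c85388, c3211, c85393, c85395, trivial⟩ (nd (nat_lit 206) (nat_lit 0) (cs (rf (nat_lit 0)) (cs (nd (nat_lit 205) (nat_lit 0) (cs (rf (nat_lit 1)) (cs (rf (nat_lit 2)) (cs (rf (nat_lit 3)) (nd (nat_lit 231) (nat_lit 0) (cs (lf (nat_lit 5) (nat_lit 206)) (rf (nat_lit 4)))))))) (cs (rf (nat_lit 5)) (rf (nat_lit 6)))))) q85396 (by decide +kernel)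
def q85404 : Q := Q.p (nat_lit 0x3800002000018000000000000000000000000000000000000000000000000000) (nat_lit 0xa000000000058000260003e0000280000000000000000000000000000000000000000) (nat_lit 8)
theorem c85404 : QOK q85404 := cut [q82224] ⟨c82224, trivial⟩ (nd (nat_lit 186) (nat_lit 0) (cs (lf (nat_lit 30) (nat_lit 185)) (rf (nat_lit 0)))) q85404 (by decide +kernel)
def q85461 : Q := Q.p (nat_lit 0x300000c000020000000000000000000000000000000000000000000000000000) (nat_lit 0x2000008000000000020001d8000178000180000400000000000000000000000000000000000) (nat_lit 6)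
theorem c85461 : QOK q85461 := cut [q1563, q85001, q85212] ⟨c1563, c85001, c85212, trivial⟩ (nd (nat_lit 208) (nat_lit 0) (cs (rf (nat_lit 0)) (cs (rf (nat_lit 1)) (rf (nat_lit 2))))) q85461 (by decide +kernel)
def q85466 : Q := Q.p (nat_lit 0x300000c000020000000000000000000000000000000000000000000000000000) (nat_lit 0xdc0007f8000780000000000000000000000000000000000000000) (nat_lit 7)
theorem c85466 : QOK q85466 := cut [q84998, q85001, q85004, q85007] ⟨c84998, c85001, c85004, c85007, trivial⟩ (nd (nat_lit 208) (nat_lit 0) (cs (rf (nat_lit 0)) (cs (rf (nat_lit 1)) (cs (rf (nat_lit 2)) (rf (nat_lit 3)))))) q85466 (by decide +kernel)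
def q85536 : Q := Q.p (nat_lit 0x3800000000000000000000000000000000000000000000000000000000000000) (nat_lit 0x100000400003f000c780077c0000a000028000000000000000000000000000000000000000000000) (nat_lit 10)
theorem c85536 : QOK q85536 := cut [q85525, q85526, q85527, q83671, q85528, q85533] ⟨c85525, c85526, c85527, c83671, c85528, c85533, trivial⟩ (nd (nat_lit 272) (nat_lit 0) (cs (rf (nat_lit 0)) (cs (rf (nat_lit 1)) (cs (rf (nat_lit 2)) (nd (nat_lit 250) (nat_lit 0) (cs (lf (nat_lit 11) (nat_lit 249)) (nd (nat_lit 229) (nat_lit 0) (cs (rf (nat_lit 3)) (cs (rf (nat_lit 4)) (rf (nat_lit 5))))))))))) q85536 (by decide +kernel)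
def q85556 : Q := Q.p (nat_lit 0x3800000000000000000000000000000000000000000000000000000000000000) (nat_lit 0xc00003e000c70000fe00018000060000000000000000000000000000000000000000000000) (nat_lit 9)
theorem c85556 : QOK q85556 := cut [q2623, q82387, q85540, q85544, q85549, q85555] ⟨c2623, c82387, c85540, c85544, c85549, c85555, trivial⟩ (nd (nat_lit 250) (nat_lit 0) (cs (rf (nat_lit 0)) (cs (rf (nat_lit 1)) (cs (rf (nat_lit 2)) (cs (rf (nat_lit 3)) (cs (rf (nat_lit 4)) (rf (nat_lit 5)))))))) q85556 (by decide +kernel)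
def q85569 : Q := Q.p (nat_lit 0x3800000000000000000000000000000000000000000000000000000000000000) (nat_lit 0xe000c78007fe00000000000000000000000000000000000000000000000000000000) (nat_lit 7)
theorem c85569 : QOK q85569 := cut [q82718, q85562, q2063, q11143, q85564, q85568] ⟨c82718, c85562, c2063, c11143, c85564, c85568, trivial⟩ (nd (nat_lit 250) (nat_lit 0) (cs (rf (nat_lit 0)) (cs (rf (nat_lit 1)) (cs (nd (nat_lit 249) (nat_lit 0) (cs (rf (nat_lit 2)) (cs (rf (nat_lit 3)) (rf (nat_lit 4))))) (rf (nat_lit 5)))))) q85569 (by decide +kernel)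
def q85670 : Q := Q.p (nat_lit 0x100000400000000004000000000000000000000000000000000000000000000000000) (nat_lit 0xa0000380000e00000800002000018000020000380000e0000280000000000000000000000000000000000) (nat_lit 7)
theorem c85670 : QOK q85670 := cut [q17426, q26108, q26116, q85622] ⟨c17426, c26108, c26116, c85622, trivial⟩ (nd (nat_lit 228) (nat_lit 0) (cs (rf (nat_lit 0)) (cs (rf (nat_lit 1)) (cs (rf (nat_lit 2)) (rf (nat_lit 3)))))) q85670 (by decide +kernel)
def q85711 : Q := Q.p (nat_lit 0x400003000004000010000000000000000000000000000000000000000000000000000) (nat_lit 0x20000080000c8000f9c0006e0003bc000000000000000000000000000000000000000000000) (nat_lit 9)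
theorem c85711 : QOK q85711 := cut [q85700, q82032, q85708] ⟨c85700, c82032, c85708, trivial⟩ (nd (nat_lit 207) (nat_lit 0) (cs (lf (nat_lit 47) (nat_lit 185)) (nd (nat_lit 232) (nat_lit 0) (cs (rf (nat_lit 0)) (cs (nd (nat_lit 275) (nat_lit 0) (cs (lf (nat_lit 29) (nat_lit 208)) (nd (nat_lit 209) (nat_lit 0) (cs (lf (nat_lit 35) (nat_lit 186)) (nd (nat_lit 210) (nat_lit 0) (cs (lf (nat_lit 5) (nat_lit 207)) (nd (nat_lit 188) (nat_lit 0) (cs (lf (nat_lit 17) (nat_lit 185)) (lf (nat_lit 39) (nat_lit 187)))))))))) (cs (nd (nat_lit 275) (nat_lit 0) (cs (lf (nat_lit 29) (nat_lit 208)) (rf (nat_lit 1)))) (nd (nat_lit 275) (nat_lit 0) (cs (lf (nat_lit 29) (nat_lit 208)) (rf (nat_lit 2)))))))))) q85711 (by decide +kernel)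
def q85909 : Q := Q.p (nat_lit 0x8000020000080000000000000000000000000000000000000000000000000000) (nat_lit 0x140000700001c00006000010000040000100000600001c0000700001c000040000000000000000000000000) (nat_lit 8)
theorem c85909 : QOK q85909 := cut [q85870, q85885, q85899, q85908] ⟨c85870, c85885, c85899, c85908, trivial⟩ (nd (nat_lit 189) (nat_lit 0) (cs (rf (nat_lit 0)) (cs (rf (nat_lit 1)) (cs (rf (nat_lit 2)) (rf (nat_lit 3)))))) q85909 (by decide +kernel)
def q86007 : Q := Q.p (nat_lit 0x40000b000020000000000000000000000000000000000000000000000000000000000) (nat_lit 0x140000700001c0000a8000748001d00007f0001f00001f0000700001c000050000000000000000000000000) (nat_lit 11)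
theorem c86007 : QOK q86007 := cut [q85965, q85914, q80408, q81106, q85791, q85998, q86000] ⟨c85965, c85914, c80408, c81106, c85791, c85998, c86000, trivial⟩ (nd (nat_lit 211) (nat_lit 0) (cs (rf (nat_lit 0)) (cs (nd (nat_lit 190) (nat_lit 0) (cs (nd (nat_lit 168) (nat_lit 0) (cs (lf (nat_lit 33) (nat_lit 167)) (nd (nat_lit 212) (nat_lit 0) (cs (lf (nat_lit 36) (nat_lit 145)) (lf (nat_lit 30) (nat_lit 189)))))) (cs (rf (nat_lit 1)) (cs (nd (nat_lit 277) (nat_lit 0) (cs (lf (nat_lit 34) (nat_lit 189)) (rf (nat_lit 2)))) (nd (nat_lit 189) (nat_lit 0) (cs (lf (nat_lit 35) (nat_lit 167)) (nd (nat_lit 166) (nat_lit 0) (cs (lf (nat_lit 46) (nat_lit 166)) (nd (nat_lit 167) (nat_lit 0) (cs (lf (nat_lit 47) (nat_lit 144)) (nd (nat_lit 164) (nat_lit 0) (cs (nd (nat_lit 232) (nat_lit 0) (cs (lf (nat_lit 41) (nat_lit 166)) (nd (nat_lit 145) (nat_lit 0) (cs (lf (nat_lit 40) (nat_lit 144)) (nd (nat_lit 124) (nat_lit 0) (cs (lf (nat_lit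 34) (nat_lit 123)) (nd (nat_lit 123) (nat_lit 0) (cs (lf (nat_lit 35) (nat_lit 101)) (lf (nat_lit 29) (nat_lit 123)))))))))) (lf (nat_lit 1) (nat_lit 164)))))))))))))) (cs (nd (nat_lit 210) (nat_lit 0) (cs (rf (nat_lit 3)) (nd (nat_lit 234) (nat_lit 0) (cs (lf (nat_lit 14) (nat_lit 230)) (nd (nat_lit 235) (nat_lit 0) (cs (lf (nat_lit 18) (nat_lit 210)) (nd (nat_lit 209) (nat_lit 0) (cs (lf (nat_lit 0) (nat_lit 208)) (lf (nat_lit 3) (nat_lit 209)))))))))) (cs (nd (nat_lit 254) (nat_lit 0) (cs (lf (nat_lit 17) (nat_lit 230)) (nd (nat_lit 256) (nat_lit 0) (cs (lf (nat_lit 10) (nat_lit 252)) (nd (nat_lit 232) (nat_lit 0) (cs (lf (nat_lit 12) (nat_lit 229)) (nd (nat_lit 189) (nat_lit 0) (cs (lf (nat_lit 36) (nat_lit 166)) (nd (nat_lit 190) (nat_lit 0) (cs (lf (nat_lit 35) (nat_lit 167)) (nd (nat_lit 212) (nat_lit 0) (cs (lf (nat_lit 30) (nat_lit 189)) (nd (nat_lit 213) (nat_lit 0) (cs (lf (nat_lit 6) (nat_lit 210)) (nd (nat_lit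 257) (nat_lit 0) (cs (lf (nat_lit 18) (nat_lit 232)) (nd (nat_lit 235) (nat_lit 0) (cs (lf (nat_lit 42) (nat_lit 190)) (lf (nat_lit 17) (nat_lit 232)))))))))))))))))))) (cs (nd (nat_lit 189) (nat_lit 0) (cs (rf (nat_lit 4)) (cs (rf (nat_lit 5)) (rf (nat_lit 6))))) (nd (nat_lit 254) (nat_lit 0) (cs (lf (nat_lit 17) (nat_lit 230)) (nd (nat_lit 232) (nat_lit 0) (cs (lf (nat_lit 12) (nat_lit 229)) (nd (nat_lit 189) (nat_lit 0) (cs (lf (nat_lit 36) (nat_lit 166)) (nd (nat_lit 275) (nat_lit 0) (cs (lf (nat_lit 6) (nat_lit 252)) (nd (nat_lit 188) (nat_lit 0) (cs (lf (nat_lit 47) (nat_lit 166)) (lf (nat_lit 37) (nat_lit 187)))))))))))))))))) q86007 (by decide +kernel)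
def q86311 : Q := Q.p (nat_lit 0x400003000000000000000000000000000000000000000000000000000000000000000) (nat_lit 0x280005f0001fe0007fc001ff00063c001ce0007c8001f80007e0001680000000000000000000000000000000000000000) (nat_lit 16)
theorem c86311 : QOK q86311 := cut [q81014, q84255, q84073, q79097, q85749, q81057, q86267, q86271, q86274, q13626, q84918, q86294, q83845, q83896, q84249, q84151, q84203, q86310] ⟨c81014, c84255, c84073, c79097, c85749, c81057, c86267, c86271, c86274, c13626, c84918, c86294, c83845, c83896, c84249, c84151, c84203, c86310, trivial⟩ (nd (nat_lit 296) (nat_lit 0) (cs (rf (nat_lit 0)) (cs (rf (nat_lit 1)) (cs (nd (nat_lit 273) (nat_lit 0) (cs (rf (nat_lit 2)) (cs (nd (nat_lit 255) (nat_lit 0) (cs (lf (nat_lit 7) (nat_lit 251)) (nd (nat_lit 230) (nat_lit 0) (cs (nd (nat_lit 231) (nat_lit 0) (cs (rf (nat_lit 3)) (nd (nat_lit 233) (nat_lit 0) (cs (rf (nat_lit 4)) (cs (nd (nat_lit 299) (nat_lit 0) (cs (nd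 (nat_lit 297) (nat_lit 0) (cs (lf (nat_lit 29) (nat_lit 230)) (lf (nat_lit 19) (nat_lit 273)))) (cs (nd (nat_lit 277) (nat_lit 0) (cs (nd (nat_lit 297) (nat_lit 0) (cs (lf (nat_lit 29) (nat_lit 230)) (rf (nat_lit 5)))) (cs (rf (nat_lit 6)) (cs (nd (nat_lit 297) (nat_lit 0) (cs (lf (nat_lit 29) (nat_lit 230)) (rf (nat_lit 7)))) (cs (nd (nat_lit 295) (nat_lit 0) (cs (lf (nat_lit 41) (nat_lit 229)) (nd (nat_lit 297) (nat_lit 0) (cs (lf (nat_lit 29) (nat_lit 230)) (nd (nat_lit 300) (nat_lit 0) (cs (lf (nat_lit 29) (nat_lit 233)) (nd (nat_lit 211) (nat_lit 0) (cs (lf (nat_lit 28) (nat_lit 211)) (rf (nat_lit 8)))))))))) (nd (nat_lit 295) (nat_lit 0) (cs (lf (nat_lit 41) (nat_lit 229)) (nd (nat_lit 297) (nat_lit 0) (cs (lf (nat_lit 29) (nat_lit 230)) (nd (nat_lit 322) (nat_lit 0) (cs (lf (nat_lit 28) (nat_lit 233)) (nd (nat_lit 321) (nat_lit 0) (cs (lf (nat_lit 29) (nat_lit 255)) (nd (nat_lit 256) (nat_lit 0) (cs (lf (nat_lit 35)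 (nat_lit 233)) (nd (nat_lit 343) (nat_lit 0) (cs (lf (nat_lit 34) (nat_lit 255)) (rf (nat_lit 9))))))))))))))))))) (nd (nat_lit 277) (nat_lit 0) (cs (rf (nat_lit 10)) (cs (rf (nat_lit 6)) (rf (nat_lit 7)))))))) (nd (nat_lit 232) (nat_lit 0) (cs (lf (nat_lit 5) (nat_lit 230)) (lf (nat_lit 11) (nat_lit 229))))))))) (cs (rf (nat_lit 11)) (nd (nat_lit 295) (nat_lit 0) (cs (lf (nat_lit 41) (nat_lit 229)) (lf (nat_lit 36) (nat_lit 207))))))))) (cs (nd (nat_lit 295) (nat_lit 0) (cs (rf (nat_lit 12)) (cs (rf (nat_lit 13)) (rf (nat_lit 14))))) (nd (nat_lit 230) (nat_lit 0) (cs (rf (nat_lit 15)) (cs (rf (nat_lit 16)) (rf (nat_lit 11))))))))) (rf (nat_lit 17)))))) q86311 (by decide +kernel)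
def q86316 : Q := Q.p (nat_lit 0x800003000008000020000000000000000000000000000000000000000000000000000) (nat_lit 0x200000000004c00070000050000140000000000000000000000000000000000000000000000) (nat_lit 6)
theorem c86316 : QOK q86316 := cut [q86315] ⟨c86315, trivial⟩ (nd (nat_lit 186) (nat_lit 0) (cs (lf (nat_lit 46) (nat_lit 186)) (rf (nat_lit 0)))) q86316 (by decide +kernel)
def q86503 : Q := Q.p (nat_lit 0x500003400008000000000000000000000000000000000000000000000000000000000) (nat_lit 0x40000380000e0000fe0001f00008e0000300005800006000008000000000000000000000000000000000000000000000) (nat_lit 10)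
theorem c86503 : QOK q86503 := cut [q86373, q86374, q58853, q86461, q86463, q86465, q86471, q25771, q52300, q68428, q45203, q56123, q86345, q86489, q22991, q45119] ⟨c86373, c86374, c58853, c86461, c86463, c86465, c86471, c25771, c52300, c68428, c45203, c56123, c86345, c86489, c22991, c45119, trivial⟩ (nd (nat_lit 294) (nat_lit 0) (cs (rf (nat_lit 0)) (cs (rf (nat_lit 1)) (cs (nd (nat_lit 293) (nat_lit 0) (cs (rf (nat_lit 2)) (cs (rf (nat_lit 3)) (rf (nat_lit 4))))) (cs (nd (nat_lit 317) (nat_lit 0) (cs (nd (nat_lit 296) (nat_lit 0) (cs (lf (nat_lit 30) (nat_lit 230)) (rf (nat_lit 5)))) (cs (rf (nat_lit 6)) (nd (nat_lit 316) (nat_lit 0) (cs (lf (nat_lit 29) (nat_lit 250)) (rf (nat_lit 7))))))) (cs (nd (nat_lit 293) (nat_lit 0) (cs (rf (nat_lit 2)) (cs (rf (nat_lit 4)) (cs (nd (nat_lit 227) (nat_lit 0) (cs (nd (nat_lit 249) (nat_lit 0) (cs (lf (nat_lit 42) (nat_lit 227)) (rf (nat_lit 8)))) (cs (nd (nat_lit 228) (nat_lit 0)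 (cs (lf (nat_lit 47) (nat_lit 205)) (nd (nat_lit 271) (nat_lit 0) (cs (lf (nat_lit 36) (nat_lit 205)) (nd (nat_lit 296) (nat_lit 0) (cs (lf (nat_lit 30) (nat_lit 230)) (nd (nat_lit 295) (nat_lit 0) (cs (lf (nat_lit 23) (nat_lit 270)) (lf (nat_lit 17) (nat_lit 271)))))))))) (cs (nd (nat_lit 249) (nat_lit 0) (cs (lf (nat_lit 42) (nat_lit 227)) (nd (nat_lit 296) (nat_lit 0) (cs (lf (nat_lit 30) (nat_lit 230)) (nd (nat_lit 295) (nat_lit 0) (cs (lf (nat_lit 17) (nat_lit 271)) (rf (nat_lit 9)))))))) (nd (nat_lit 296) (nat_lit 0) (cs (lf (nat_lit 30) (nat_lit 230)) (nd (nat_lit 205) (nat_lit 0) (cs (lf (nat_lit 45) (nat_lit 205)) (nd (nat_lit 249) (nat_lit 0) (cs (lf (nat_lit 42) (nat_lit 227)) (lf (nat_lit 24) (nat_lit 183)))))))))))) (nd (nat_lit 296) (nat_lit 0) (cs (lf (nat_lit 30) (nat_lit 230)) (nd (nat_lit 275) (nat_lit 0) (cs (lf (nat_lit 14) (nat_lit 271)) (rf (nat_lit 10)))))))))) (cs (nd (nat_lit 316) (nat_lit 0) (cs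 (rf (nat_lit 11)) (cs (rf (nat_lit 12)) (nd (nat_lit 296) (nat_lit 0) (cs (lf (nat_lit 30) (nat_lit 230)) (nd (nat_lit 315) (nat_lit 0) (cs (lf (nat_lit 41) (nat_lit 249)) (nd (nat_lit 317) (nat_lit 0) (cs (lf (nat_lit 29) (nat_lit 250)) (rf (nat_lit 13))))))))))) (cs (nd (nat_lit 317) (nat_lit 0) (cs (rf (nat_lit 6)) (cs (nd (nat_lit 316) (nat_lit 0) (cs (lf (nat_lit 29) (nat_lit 250)) (rf (nat_lit 14)))) (cs (nd (nat_lit 296) (nat_lit 0) (cs (lf (nat_lit 30) (nat_lit 230)) (nd (nat_lit 295) (nat_lit 0) (cs (lf (nat_lit 36) (nat_lit 229)) (nd (nat_lit 293) (nat_lit 0) (cs (lf (nat_lit 17) (nat_lit 271)) (rf (nat_lit 15)))))))) (nd (nat_lit 296) (nat_lit 0) (cs (lf (nat_lit 30) (nat_lit 230)) (nd (nat_lit 316) (nat_lit 0) (cs (lf (nat_lit 29) (nat_lit 250)) (nd (nat_lit 315) (nat_lit 0) (cs (lf (nat_lit 41) (nat_lit 249)) (rf (nat_lit 13)))))))))))) (nd (nat_lit 293) (nat_lit 0) (cs (rf (nat_lit 10)) (cs (rf (nat_lit 3))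 (rf (nat_lit 4))))))))))))) q86503 (by decide +kernel)
def q86638 : Q := Q.p (nat_lit 0xc00003000018000020000000000000000000000000000000000000000000000000000) (nat_lit 0x80000380000e0000400005c000160000000000000000000000000000000000000000000000) (nat_lit 8)
theorem c86638 : QOK q86638 := cut [q86636] ⟨c86636, trivial⟩ (nd (nat_lit 250) (nat_lit 0) (cs (lf (nat_lit 13) (nat_lit 228)) (nd (nat_lit 188) (nat_lit 0) (cs (lf (nat_lit 34) (nat_lit 187)) (rf (nat_lit 0)))))) q86638 (by decide +kernel)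
def q86785 : Q := Q.p (nat_lit 0x7800000000000000000000000000000000000000000000000000000000000000) (nat_lit 0xe7000380001df000000000000000000000000000000000000000000000000000000000) (nat_lit 9)
theorem c86785 : QOK q86785 := cut [q86783] ⟨c86783, trivial⟩ (nd (nat_lit 273) (nat_lit 0) (cs (lf (nat_lit 11) (nat_lit 250)) (nd (nat_lit 228) (nat_lit 0) (cs (lf (nat_lit 22) (nat_lit 228)) (rf (nat_lit 0)))))) q86785 (by decide +kernel)
def q86789 : Q := Q.p (nat_lit 0x7000000000000000000000000000000000000000000000000000000000000000) (nat_lit 0x80000ee00078800078000040000100000000000000000000000000000000000000000000000) (nat_lit 7)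
theorem c86789 : QOK q86789 := cut [q82259, q83704, q81141] ⟨c82259, c83704, c81141, trivial⟩ (nd (nat_lit 255) (nat_lit 0) (cs (rf (nat_lit 0)) (cs (rf (nat_lit 1)) (nd (nat_lit 233) (nat_lit 0) (cs (lf (nat_lit 17) (nat_lit 230)) (nd (nat_lit 232) (nat_lit 0) (cs (lf (nat_lit 12) (nat_lit 229)) (rf (nat_lit 2))))))))) q86789 (by decide +kernel)
def q86823 : Q := Q.p (nat_lit 0x3000018000020000000000000000000000000000000000000000000000000000) (nat_lit 0x700001c0001f00000f0001c000060000058000140000000000000000000000000000000000000000000000) (nat_lit 10)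
theorem c86823 : QOK q86823 := cut [q82302, q84346, q86384] ⟨c82302, c84346, c86384, trivial⟩ (nd (nat_lit 275) (nat_lit 0) (cs (rf (nat_lit 0)) (cs (rf (nat_lit 1)) (rf (nat_lit 2))))) q86823 (by decide +kernel)
def q86829 : Q := Q.p (nat_lit 0x3000008000020000000000000000000000000000000000000000000000000000) (nat_lit 0x200000c00004c000700000400001c0000300000c00000000000000000000000000000000000) (nat_lit 9)
theorem c86829 : QOK q86829 := cut [q86828] ⟨c86828, trivial⟩ (nd (nat_lit 187) (nat_lit 0) (cs (lf (nat_lit 41) (nat_lit 186)) (rf (nat_lit 0)))) q86829 (by decide +kernel)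
def q86864 : Q := Q.p (nat_lit 0x3000018000000000000000000000000000000000000000000000000000000000) (nat_lit 0x100001c0000f00007f000efc003cc000060000dc000170000540000000000000000000000000000000000000000) (nat_lit 12)
theorem c86864 : QOK q86864 := cut [q85421, q85427, q86838, q86844, q80583, q86847, q80587, q80024, q86851, q86853, q86855, q84557, q86861] ⟨c85421, c85427, c86838, c86844, c80583, c86847, c80587, c80024, c86851, c86853, c86855, c84557, c86861, trivial⟩ (nd (nat_lit 251) (nat_lit 0) (cs (lf (nat_lit 12) (nat_lit 228)) (nd (nat_lit 273) (nat_lit 0) (cs (nd (nat_lit 229) (nat_lit 0) (cs (rf (nat_lit 0)) (cs (rf (nat_lit 1)) (cs (nd (nat_lit 254) (nat_lit 0) (cs (lf (nat_lit 11) (nat_lit 250)) (nd (nat_lit 230) (nat_lit 0) (cs (lf (nat_lit 18) (nat_lit 229)) (nd (nat_lit 206) (nat_lit 0) (cs (lf (nat_lit 22) (nat_lit 206)) (nd (nat_lit 295) (nat_lit 0) (cs (lf (nat_lit 30) (nat_lit 229)) (nd (nat_lit 296) (nat_lit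 0) (cs (lf (nat_lit 29) (nat_lit 229)) (rf (nat_lit 2)))))))))))) (rf (nat_lit 3)))))) (cs (nd (nat_lit 295) (nat_lit 0) (cs (rf (nat_lit 4)) (cs (rf (nat_lit 5)) (cs (nd (nat_lit 229) (nat_lit 0) (cs (rf (nat_lit 6)) (cs (rf (nat_lit 3)) (nd (nat_lit 296) (nat_lit 0) (cs (lf (nat_lit 29) (nat_lit 229)) (nd (nat_lit 207) (nat_lit 0) (cs (lf (nat_lit 28) (nat_lit 207)) (rf (nat_lit 7))))))))) (rf (nat_lit 8)))))) (cs (nd (nat_lit 295) (nat_lit 0) (cs (rf (nat_lit 4)) (cs (rf (nat_lit 5)) (cs (rf (nat_lit 8)) (nd (nat_lit 296) (nat_lit 0) (cs (rf (nat_lit 9)) (nd (nat_lit 297) (nat_lit 0) (cs (rf (nat_lit 10)) (nd (nat_lit 275) (nat_lit 0) (cs (lf (nat_lit 35) (nat_lit 209)) (rf (nat_lit 11)))))))))))) (nd (nat_lit 254) (nat_lit 0) (cs (lf (nat_lit 11) (nat_lit 250)) (rf (nat_lit 12)))))))))) q86864 (by decide +kernel)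

end Crest.Agent.H3.Snaky.CR
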