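import Crest.Agent.H3.Snaky.Cert
import Crest.Agent.H3.Snaky.CR.CR0
import Crest.Agent.H3.Snaky.CR.CR1
import Crest.Agent.H3.Snaky.CR.CR2
import Crest.Agent.H3.Snaky.CR.CR3
import Crest.Agent.H3.Snaky.CR.CR4
import Crest.Agent.H3.Snaky.CR.CR5
import Crest.Agent.H3.Snaky.CR.CR6
import Crest.Agent.H3.Snaky.CR.CR9
import Crest.Agent.H3.Snaky.CR.CR10
import Crest.Agent.H3.Snaky.CR.CR12
import Crest.Agent.H3.Snaky.CR.CR13
import Crest.Agent.H3.Snaky.CR.CR15
import Crest.Agent.H3.Snaky.CR.CR16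
import Crest.Agent.H3.Snaky.CR.CR17
import Crest.Agent.H3.Snaky.CR.CR18
import Crest.Agent.H3.Snaky.CR.CR20
import Crest.Agent.H3.Snaky.CR.CR21
import Crest.Agent.H3.Snaky.CR.CR22
import Crest.Agent.H3.Snaky.CR.CR23
import Crest.Agent.H3.Snaky.CR.CR24
import Crest.Agent.H3.Snaky.CR.CR25
import Crest.Agent.H3.Snaky.CR.CR26
import Crest.Agent.H3.Snaky.CR.CR27
import Crest.Agent.H3.Snaky.CR.CR28
import Crest.Agent.H3.Snaky.CR.CR30
import Crest.Agent.H3.Snaky.CR.CR31
import Crest.Agent.H3.Snaky.CR.CR33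
import Crest.Agent.H3.Snaky.CR.CR34
import Crest.Agent.H3.Snaky.CR.CR35
import Crest.Agent.H3.Snaky.CR.CR36
import Crest.Agent.H3.Snaky.CR.CR39
import Crest.Agent.H3.Snaky.CR.CR40
import Crest.Agent.H3.Snaky.CR.CR41
import Crest.Agent.H3.Snaky.CR.CR42
import Crest.Agent.H3.Snaky.CR.CR43
import Crest.Agent.H3.Snaky.CR.CR44
import Crest.Agent.H3.Snaky.CR.CR48
import Crest.Agent.H3.Snaky.CR.CR49
import Crest.Agent.H3.Snaky.CR.CR50
import Crest.Agent.H3.Snaky.CR.CR51
import Crest.Agent.H3.Snaky.CR.CR54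
import Crest.Agent.H3.Snaky.CR.CR55
import Crest.Agent.H3.Snaky.CR.CR56
import Crest.Agent.H3.Snaky.CR.CR57
import Crest.Agent.H3.Snaky.CR.CR58
import Crest.Agent.H3.Snaky.CR.CR59
import Crest.Agent.H3.Snaky.CR.CR60
import Crest.Agent.H3.Snaky.CR.CR61

set_option autoImplicit false
set_option maxRecDepth 100000

namespace Crest.Agent.H3.Snaky.CR

open T

def q86882 : Q := Q.p (nat_lit 0x3800008000000000000000000000000000000000000000000000000000000000) (nat_lit 0xa0000fc0003f0000ff8000fc001c700006e000280000a0000000000000000000000000000000000000000000000) (nat_lit 11)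
theorem c86882 : QOK q86882 := cut [q80881, q82280, q83680, q86868, q82188, q86546, q15693, q40802, q83915, q40773, q82296, q82366, q86874] ⟨c80881, c82280, c83680, c86868, c82188, c86546, c15693, c40802, c83915, c40773, c82296, c82366, c86874, trivial⟩ (nd (nat_lit 274) (nat_lit 0) (cs (rf (nat_lit 0)) (cs (rf (nat_lit 1)) (cs (nd (nat_lit 272) (nat_lit 0) (cs (rf (nat_lit 2)) (cs (rf (nat_lit 3)) (nd (nat_lit 273) (nat_lit 0) (cs (rf (nat_lit 4)) (nd (nat_lit 294) (nat_lit 0) (cs (rf (nat_lit 5)) (nd (nat_lit 316) (nat_lit 0) (cs (lf (nat_lit 30) (nat_lit 250)) (rf (nat_lit 6))))))))))) (nd (nat_lit 296) (nat_lit 0) (cs (rf (nat_lit 7)) (cs (rf (nat_lit 8)) (nd (nat_lit 250) (nat_lit 0) (cs (rf (nat_lit 9)) (cs (rf (nat_lit 10)) (cs (rf (nat_lit 11)) (nd (nat_lit 272) (nat_lit 0) (cs (lf (nat_lit 11) (nat_lit 249)) (nd (nat_lit 273) (nat_lit 0) (cs (lf (nat_lit 6) (nat_lit 250)) (nd (nat_lit 229) (nat_lit 0) (cs (lf (nat_lit 24) (nat_lit 207)) (nd (nat_lit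 294) (nat_lit 0) (cs (lf (nat_lit 30) (nat_lit 228)) (nd (nat_lit 275) (nat_lit 0) (cs (lf (nat_lit 11) (nat_lit 271)) (rf (nat_lit 12))))))))))))))))))))))) q86882 (by decide +kernel)
def q86952 : Q := Q.p (nat_lit 0x3000008000000000000000000000000000000000000000000000000000000000) (nat_lit 0x40000700001c0000780000f0000cc001d60003fc000ff0000700001400000000000000000000000000000000000) (nat_lit 14)
theorem c86952 : QOK q86952 := cut [q82300, q82301, q82309, q84332, q82350, q84372, q80823, q83619, q84410, q86947] ⟨c82300, c82301, c82309, c84332, c82350, c84372, c80823, c83619, c84410, c86947, trivial⟩ (nd (nat_lit 209) (nat_lit 0) (cs (rf (nat_lit 0)) (cs (rf (nat_lit 1)) (cs (rf (nat_lit 2)) (cs (rf (nat_lit 3)) (nd (nat_lit 275) (nat_lit 0) (cs (rf (nat_lit 4)) (cs (rf (nat_lit 5)) (nd (nat_lit 210) (nat_lit 0) (cs (lf (nat_lit 35) (nat_lit 187)) (nd (nat_lit 211) (nat_lit 0) (cs (rf (nat_lit 6)) (cs (nd (nat_lit 274) (nat_lit 0) (cs (lf (nat_lit 41) (nat_lit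 208)) (nd (nat_lit 208) (nat_lit 0) (cs (lf (nat_lit 47) (nat_lit 186)) (nd (nat_lit 190) (nat_lit 0) (cs (lf (nat_lit 16) (nat_lit 186)) (nd (nat_lit 212) (nat_lit 0) (cs (lf (nat_lit 17) (nat_lit 187)) (nd (nat_lit 234) (nat_lit 0) (cs (lf (nat_lit 5) (nat_lit 209)) (nd (nat_lit 232) (nat_lit 0) (cs (lf (nat_lit 6) (nat_lit 209)) (nd (nat_lit 207) (nat_lit 0) (cs (lf (nat_lit 0) (nat_lit 206)) (nd (nat_lit 251) (nat_lit 0) (cs (lf (nat_lit 12) (nat_lit 228)) (rf (nat_lit 7)))))))))))))))))) (cs (nd (nat_lit 208) (nat_lit 0) (cs (lf (nat_lit 47) (nat_lit 186)) (nd (nat_lit 274) (nat_lit 0) (cs (lf (nat_lit 41) (nat_lit 208)) (nd (nat_lit 230) (nat_lit 0) (cs (lf (nat_lit 11) (nat_lit 207)) (nd (nat_lit 189) (nat_lit 0) (cs (lf (nat_lit 17) (nat_lit 186)) (rf (nat_lit 8)))))))))) (nd (nat_lit 274) (nat_lit 0) (cs (lf (nat_lit 41) (nat_lit 208)) (rf (nat_lit 9)))))))))))))))))) q86952 (by decide +kernel)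
def q87063 : Q := Q.p (nat_lit 0x3000008000000000000000000000000000000000000000000000000000000000) (nat_lit 0xe00004c000760001fc0003f8000780001600000000000000000000000000000000000) (nat_lit 10)
theorem c87063 : QOK q87063 := cut [q82300, q82301, q82309, q84332, q86313, q7464, q87053, q87051, q756, q82378, q4380, q1563, q87059] ⟨c82300, c82301, c82309, c84332, c86313, c7464, c87053, c87051, c756, c82378, c4380, c1563, c87059, trivial⟩ (nd (nat_lit 209) (nat_lit 0) (cs (rf (nat_lit 0)) (cs (rf (nat_lit 1)) (cs (rf (nat_lit 2)) (cs (rf (nat_lit 3)) (nd (nat_lit 232) (nat_lit 0) (cs (rf (nat_lit 4)) (cs (nd (nat_lit 210) (nat_lit 0) (cs (rf (nat_lit 5)) (cs (rf (nat_lit 6)) (nd (nat_lit 208) (nat_lit 0) (cs (rf (nat_lit 7)) (cs (nd (nat_lit 230) (nat_lit 0) (cs (rf (nat_lit 8)) (nd (nat_lit 251) (nat_lit 0) (cs (lf (nat_lit 12) (nat_lit 228)) (rf (nat_lit 9)))))) (nd (nat_lit 250) (nat_lit 0) (cs (rf (nat_lit 10)) (lf (nat_lit 13) (nat_lit 228)))))))))) (nd (nat_lit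 208) (nat_lit 0) (cs (rf (nat_lit 11)) (nd (nat_lit 233) (nat_lit 0) (cs (lf (nat_lit 6) (nat_lit 230)) (rf (nat_lit 12)))))))))))))) q87063 (by decide +kernel)
def q87126 : Q := Q.p (nat_lit 0x3000004000010000000000000000000000000000000000000000000000000000) (nat_lit 0xa0000380000e0000c8000338000e80007a0000000000000000000000000000000000000000000000) (nat_lit 8)
theorem c87126 : QOK q87126 := cut [q83714, q83749, q83956] ⟨c83714, c83749, c83956, trivial⟩ (nd (nat_lit 274) (nat_lit 0) (cs (rf (nat_lit 0)) (cs (rf (nat_lit 1)) (rf (nat_lit 2))))) q87126 (by decide +kernel)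
def q87144 : Q := Q.p (nat_lit 0x300000e000000000000000000000000000000000000000000000000000000000) (nat_lit 0x2000008000008000700000ec000100000400000000000000000000000000000000000000000) (nat_lit 6)
theorem c87144 : QOK q87144 := cut [q87131, q87143] ⟨c87131, c87143, trivial⟩ (nd (nat_lit 232) (nat_lit 0) (cs (rf (nat_lit 0)) (rf (nat_lit 1)))) q87144 (by decide +kernel)
def q87153 : Q := Q.p (nat_lit 0x7000016000000000000000000000000000000000000000000000000000000000) (nat_lit 0x6000018000070000080002000000c0000300000c0000000000000000000000000000000000000000) (nat_lit 8)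
theorem c87153 : QOK q87153 := cut [q87152] ⟨c87152, trivial⟩ (nd (nat_lit 251) (nat_lit 0) (cs (lf (nat_lit 17) (nat_lit 229)) (rf (nat_lit 0)))) q87153 (by decide +kernel)
def q87159 : Q := Q.p (nat_lit 0x3000016000000000000000000000000000000000000000000000000000000000) (nat_lit 0x2000008000008000680000ec000100000400000000000000000000000000000000000000000) (nat_lit 6)
theorem c87159 : QOK q87159 := cut [q87131, q87143] ⟨c87131, c87143, trivial⟩ (nd (nat_lit 231) (nat_lit 0) (cs (rf (nat_lit 0)) (rf (nat_lit 1)))) q87159 (by decide +kernel)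
def q87197 : Q := Q.p (nat_lit 0x3000004000000000000000000000000000000000000000000000000000000000) (nat_lit 0x8000eb0001c8000fb8003f80007f0001f80002a00000000000000000000000000000000000) (nat_lit 11)
theorem c87197 : QOK q87197 := cut [q6561, q79029, q87188, q83712, q87161, q29, q499, q376, q78903, q87190, q394] ⟨c6561, c79029, c87188, c83712, c87161, c29, c499, c376, c78903, c87190, c394, trivial⟩ (nd (nat_lit 208) (nat_lit 0) (cs (rf (nat_lit 0)) (cs (rf (nat_lit 1)) (cs (rf (nat_lit 2)) (nd (nat_lit 229) (nat_lit 0) (cs (rf (nat_lit 3)) (cs (rf (nat_lit 4)) (nd (nat_lit 186) (nat_lit 0) (cs (rf (nat_lit 5)) (cs (rf (nat_lit 6)) (nd (nat_lit 187) (nat_lit 0) (cs (lf (nat_lit 35) (nat_lit 164)) (nd (nat_lit 188) (nat_lit 0) (cs (rf (nat_lit 7)) (cs (rf (nat_lit 8)) (cs (rf (nat_lit 9)) (nd (nat_lit 185) (nat_lit 0) (cs (lf (nat_lit 47) (nat_lit 163)) (nd (nat_lit 251) (nat_lit 0) (cs (lf (nat_lit 41) (nat_lit 185)) (rf (nat_lit 10)))))))))))))))))))))) q87197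 (by decide +kernel)
def q87203 : Q := Q.p (nat_lit 0x3000004000010000000000000000000000000000000000000000000000000000) (nat_lit 0x80000380000f0000c800003800008000020000000000000000000000000000000000000000000000) (nat_lit 6)
theorem c87203 : QOK q87203 := cut [q83714, q84155, q85149] ⟨c83714, c84155, c85149, trivial⟩ (nd (nat_lit 274) (nat_lit 0) (cs (rf (nat_lit 0)) (cs (rf (nat_lit 1)) (rf (nat_lit 2))))) q87203 (by decide +kernel)
def q87394 : Q := Q.p (nat_lit 0x3000004000010000000000000000000000000000000000000000000000000000) (nat_lit 0x80000380000e0000380000c0000c8000338000e80007a0000000000000000000000000000000000000000000000) (nat_lit 8)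
theorem c87394 : QOK q87394 := cut [q83714, q83749, q87393] ⟨c83714, c83749, c87393, trivial⟩ (nd (nat_lit 274) (nat_lit 0) (cs (rf (nat_lit 0)) (cs (rf (nat_lit 1)) (rf (nat_lit 2))))) q87394 (by decide +kernel)
def q87437 : Q := Q.p (nat_lit 0x7800004000000000000000000000000000000000000000000000000000000000) (nat_lit 0xc0000000003b0000cc0003a0000e80002800000000000000000000000000000000000) (nat_lit 7)
theorem c87437 : QOK q87437 := cut [q79128, q81737] ⟨c79128, c81737, trivial⟩ (nd (nat_lit 232) (nat_lit 0) (cs (lf (nat_lit 17) (nat_lit 229)) (nd (nat_lit 210) (nat_lit 0) (cs (rf (nat_lit 0)) (rf (nat_lit 1)))))) q87437 (by decide +kernel)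
def q87498 : Q := Q.p (nat_lit 0x2000004000030000000000000000000000000000000000000000000000000000) (nat_lit 0x20000080000800007a0001cc000fb8000400001000000000000000000000000000000000000) (nat_lit 9)
theorem c87498 : QOK q87498 := cut [q22490, q87326, q7537, q9461, q87497] ⟨c22490, c87326, c7537, c9461, c87497, trivial⟩ (nd (nat_lit 210) (nat_lit 0) (cs (rf (nat_lit 0)) (cs (rf (nat_lit 1)) (cs (nd (nat_lit 188) (nat_lit 0) (cs (rf (nat_lit 2)) (rf (nat_lit 3)))) (rf (nat_lit 4)))))) q87498 (by decide +kernel)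
def q87534 : Q := Q.p (nat_lit 0x3000004000010000000000000000000000000000000000000000000000000000) (nat_lit 0x400001000005c000cf0007b8001ef00007c0001c0000000000000000000000000000000000000000) (nat_lit 12)
theorem c87534 : QOK q87534 := cut [q83712, q87161, q15146, q3176, q84429, q84993, q87526, q87531] ⟨c83712, c87161, c15146, c3176, c84429, c84993, c87526, c87531, trivial⟩ (nd (nat_lit 229) (nat_lit 0) (cs (rf (nat_lit 0)) (cs (rf (nat_lit 1)) (cs (nd (nat_lit 251) (nat_lit 0) (cs (nd (nat_lit 254) (nat_lit 0) (cs (lf (nat_lit 18) (nat_lit 229)) (nd (nat_lit 232) (nat_lit 0) (cs (lf (nat_lit 17) (nat_lit 229)) (nd (nat_lit 250) (nat_lit 0) (cs (lf (nat_lit 16) (nat_lit 228)) (rf (nat_lit 2)))))))) (cs (nd (nat_lit 186) (nat_lit 0) (cs (lf (nat_lit 36) (nat_lit 163)) (nd (nat_lit 185) (nat_lit 0) (cs (lf (nat_lit 47) (nat_lit 163)) (nd (nat_lit 207) (nat_lit 0) (cs (lf (nat_lit 29) (nat_lit 185)) (nd (nat_lit 250) (nat_lit 0) (cs (lf (nat_lit 41) (nat_lit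 184)) (nd (nat_lit 248) (nat_lit 0) (cs (lf (nat_lit 13) (nat_lit 226)) (rf (nat_lit 3)))))))))))) (nd (nat_lit 254) (nat_lit 0) (cs (lf (nat_lit 18) (nat_lit 229)) (nd (nat_lit 232) (nat_lit 0) (cs (lf (nat_lit 17) (nat_lit 229)) (nd (nat_lit 186) (nat_lit 0) (cs (lf (nat_lit 36) (nat_lit 163)) (nd (nat_lit 185) (nat_lit 0) (cs (lf (nat_lit 47) (nat_lit 163)) (nd (nat_lit 207) (nat_lit 0) (cs (lf (nat_lit 42) (nat_lit 185)) (nd (nat_lit 206) (nat_lit 0) (cs (lf (nat_lit 19) (nat_lit 206)) (nd (nat_lit 204) (nat_lit 0) (cs (lf (nat_lit 1) (nat_lit 204)) (rf (nat_lit 3))))))))))))))))))) (nd (nat_lit 231) (nat_lit 0) (cs (rf (nat_lit 4)) (cs (rf (nat_lit 5)) (cs (nd (nat_lit 227) (nat_lit 0) (cs (lf (nat_lit 1) (nat_lit 227)) (rf (nat_lit 6)))) (nd (nat_lit 164) (nat_lit 0) (cs (lf (nat_lit 25) (nat_lit 164)) (rf (nat_lit 7)))))))))))) q87534 (by decide +kernel)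
def q87619 : Q := Q.p (nat_lit 0x3000004000010000000000000000000000000000000000000000000000000000) (nat_lit 0xe000038000040000c8000fb8000ef0003dc000e0000380000a000000000000000000000000000000) (nat_lit 10)
theorem c87619 : QOK q87619 := cut [q10885, q87610] ⟨c10885, c87610, trivial⟩ (nd (nat_lit 209) (nat_lit 0) (cs (rf (nat_lit 0)) (cs (rf (nat_lit 1)) (nd (nat_lit 274) (nat_lit 0) (cs (lf (nat_lit 35) (nat_lit 186)) (nd (nat_lit 296) (nat_lit 0) (cs (lf (nat_lit 34) (nat_lit 208)) (nd (nat_lit 297) (nat_lit 0) (cs (lf (nat_lit 29) (nat_lit 230)) (nd (nat_lit 295) (nat_lit 0) (cs (lf (nat_lit 41) (nat_lit 229)) (nd (nat_lit 229) (nat_lit 0) (cs (lf (nat_lit 47) (nat_lit 207)) (nd (nat_lit 210) (nat_lit 0) (cs (lf (nat_lit 6) (nat_lit 207)) (nd (nat_lit 251) (nat_lit 0) (cs (lf (nat_lit 42) (nat_lit 229)) (nd (nat_lit 228) (nat_lit 0) (cs (lf (nat_lit 12) (nat_lit 205)) (lf (nat_lit 18) (nat_lit 228))))))))))))))))))))) q87619 (by decide +kernel)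
def q87629 : Q := Q.p (nat_lit 0x3000004000010000000000000000000000000000000000000000000000000000) (nat_lit 0x80000080000a000008000040000180000600000800000000000000000000000000000) (nat_lit 6)
theorem c87629 : QOK q87629 := cut [q32238] ⟨c32238, trivial⟩ (nd (nat_lit 186) (nat_lit 0) (cs (lf (nat_lit 29) (nat_lit 186)) (rf (nat_lit 0)))) q87629 (by decide +kernel)
def q87675 : Q := Q.p (nat_lit 0x3000004000000000000000000000000000000000000000000000000000000000) (nat_lit 0x80000380001f80003e0000d8000ce0007b8001f60001f80007e0000a00000000000000000000000000000000000) (nat_lit 15)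
theorem c87675 : QOK q87675 := cut [q83712, q87161, q79029, q79066, q87393, q87416, q87424, q81399, q441, q86019, q11, q84852, q87648, q87142, q87471, q87650, q87084, q87651] ⟨c83712, c87161, c79029, c79066, c87393, c87416, c87424, c81399, c441, c86019, c11, c84852, c87648, c87142, c87471, c87650, c87084, c87651, trivial⟩ (nd (nat_lit 229) (nat_lit 0) (cs (rf (nat_lit 0)) (cs (rf (nat_lit 1)) (cs (nd (nat_lit 208) (nat_lit 0) (cs (rf (nat_lit 2)) (cs (rf (nat_lit 3)) (cs (nd (nat_lit 274) (nat_lit 0) (cs (rf (nat_lit 4)) (cs (rf (nat_lit 5)) (cs (rf (nat_lit 6)) (cs (nd (nat_lit 275) (nat_lit 0) (cs (lf (nat_lit 29) (nat_lit 208)) (nd (nat_lit 254) (nat_lit 0) (cs (lf (nat_lit 18) (nat_lit 229)) (nd (nat_lit 209) (nat_lit 0) (cs (lf (nat_lit 35) (nat_lit 186)) (rf (nat_lit 7)))))))) (nd (nat_lit 297) (nat_lit 0) (cs (lf (nat_lit 28) (nat_lit 208)) (nd (nat_lit 254) (nat_lit 0) (cs (lf (nat_lit 18) (nat_lit 229)) (nd (nat_lit 296) (nat_lit 0) (cs (lf (nat_lit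 29) (nat_lit 230)) (nd (nat_lit 318) (nat_lit 0) (cs (lf (nat_lit 35) (nat_lit 230)) (lf (nat_lit 46) (nat_lit 229))))))))))))))) (nd (nat_lit 186) (nat_lit 0) (cs (rf (nat_lit 8)) (cs (rf (nat_lit 9)) (nd (nat_lit 254) (nat_lit 0) (cs (lf (nat_lit 18) (nat_lit 229)) (nd (nat_lit 185) (nat_lit 0) (cs (lf (nat_lit 47) (nat_lit 163)) (nd (nat_lit 187) (nat_lit 0) (cs (lf (nat_lit 35) (nat_lit 164)) (nd (nat_lit 209) (nat_lit 0) (cs (rf (nat_lit 10)) (lf (nat_lit 30) (nat_lit 186))))))))))))))))) (nd (nat_lit 231) (nat_lit 0) (cs (rf (nat_lit 11)) (cs (rf (nat_lit 12)) (cs (nd (nat_lit 232) (nat_lit 0) (cs (rf (nat_lit 13)) (rf (nat_lit 14)))) (nd (nat_lit 297) (nat_lit 0) (cs (rf (nat_lit 15)) (cs (nd (nat_lit 296) (nat_lit 0) (cs (rf (nat_lit 16)) (cs (nd (nat_lit 228) (nat_lit 0) (cs (lf (nat_lit 0) (nat_lit 227)) (nd (nat_lit 205) (nat_lit 0) (cs (lf (nat_lit 22) (nat_lit 205)) (nd (nat_lit 250) (nat_lit 0) (cs (lf (nat_lit 11) (nat_lit 227)) (nd (nat_lit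 251) (nat_lit 0) (cs (lf (nat_lit 17) (nat_lit 228)) (nd (nat_lit 272) (nat_lit 0) (cs (lf (nat_lit 11) (nat_lit 249)) (nd (nat_lit 294) (nat_lit 0) (cs (lf (nat_lit 30) (nat_lit 228)) (nd (nat_lit 293) (nat_lit 0) (cs (lf (nat_lit 41) (nat_lit 227)) (nd (nat_lit 295) (nat_lit 0) (cs (lf (nat_lit 29) (nat_lit 228)) (rf (nat_lit 17)))))))))))))))))) (nd (nat_lit 274) (nat_lit 0) (cs (lf (nat_lit 29) (nat_lit 230)) (lf (nat_lit 35) (nat_lit 208))))))) (nd (nat_lit 228) (nat_lit 0) (cs (lf (nat_lit 0) (nat_lit 227)) (nd (nat_lit 208) (nat_lit 0) (cs (lf (nat_lit 43) (nat_lit 208)) (nd (nat_lit 186) (nat_lit 0) (cs (lf (nat_lit 24) (nat_lit 164)) (nd (nat_lit 206) (nat_lit 0) (cs (lf (nat_lit 23) (nat_lit 205)) (nd (nat_lit 185) (nat_lit 0) (cs (lf (nat_lit 47) (nat_lit 163)) (nd (nat_lit 165) (nat_lit 0) (cs (lf (nat_lit 34) (nat_lit 164)) (nd (nat_lit 250) (nat_lit 0) (cs (lf (nat_lit 11) (nat_lit 227)) (nd (nat_lit 251) (nat_lit 0) (cs (lf (nat_lit 6) (nat_lit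 228)) (nd (nat_lit 271) (nat_lit 0) (cs (lf (nat_lit 10) (nat_lit 249)) (nd (nat_lit 184) (nat_lit 0) (cs (lf (nat_lit 24) (nat_lit 162)) (nd (nat_lit 183) (nat_lit 0) (cs (lf (nat_lit 47) (nat_lit 161)) (lf (nat_lit 5) (nat_lit 183))))))))))))))))))))))))))))))))))) q87675 (by decide +kernel)
def q87717 : Q := Q.p (nat_lit 0x3000004000000000000000000000000000000000000000000000000000000000) (nat_lit 0x80000380000e00003e0000d8000ce0003be0003f0003fe000380000a00000000000000000000000000000000000) (nat_lit 14)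
theorem c87717 : QOK q87717 := cut [q6259, q79029, q79066, q87244, q1411, q87536, q4006, q4032, q85717, q4010, q4011, q87699, q6873, q83713, q87393, q85731, q87705, q87706, q1156] ⟨c6259, c79029, c79066, c87244, c1411, c87536, c4006, c4032, c85717, c4010, c4011, c87699, c6873, c83713, c87393, c85731, c87705, c87706, c1156, trivial⟩ (nd (nat_lit 208) (nat_lit 0) (cs (rf (nat_lit 0)) (cs (rf (nat_lit 1)) (cs (rf (nat_lit 2)) (cs (rf (nat_lit 3)) (nd (nat_lit 207) (nat_lit 0) (cs (rf (nat_lit 4)) (cs (rf (nat_lit 5)) (cs (nd (nat_lit 206) (nat_lit 0) (cs (rf (nat_lit 6)) (cs (rf (nat_lit 7)) (cs (rf (nat_lit 8)) (nd (nat_lit 228) (nat_lit 0) (cs (rf (nat_lit 9)) (cs (nd (nat_lit 231) (nat_lit 0) (cs (rf (nat_lit 10)) (rf (nat_lit 11)))) (nd (nat_lit 227) (nat_lit 0) (cs (lf (nat_lit 2) (nat_lit 227)) (rf (nat_lit 12))))))))))) (nd (nat_lit 274) (nat_lit 0) (cs (rf (nat_lit 13)) (cs (rf (nat_lit 14)) (nd (nat_lit 206) (nat_lit 0) (cs (rf (nat_lit 8)) (cs (rf (nat_lit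 15)) (cs (rf (nat_lit 16)) (cs (nd (nat_lit 209) (nat_lit 0) (cs (lf (nat_lit 35) (nat_lit 186)) (nd (nat_lit 228) (nat_lit 0) (cs (lf (nat_lit 11) (nat_lit 205)) (nd (nat_lit 183) (nat_lit 0) (cs (lf (nat_lit 22) (nat_lit 183)) (nd (nat_lit 275) (nat_lit 0) (cs (lf (nat_lit 29) (nat_lit 208)) (nd (nat_lit 231) (nat_lit 0) (cs (lf (nat_lit 5) (nat_lit 206)) (rf (nat_lit 17)))))))))))) (nd (nat_lit 187) (nat_lit 0) (cs (lf (nat_lit 34) (nat_lit 186)) (nd (nat_lit 275) (nat_lit 0) (cs (lf (nat_lit 29) (nat_lit 208)) (rf (nat_lit 18))))))))))))))))))))))) q87717 (by decide +kernel)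
def q87776 : Q := Q.p (nat_lit 0x3000004000030000000000000000000000000000000000000000000000000000) (nat_lit 0x2000008000000000fb8007ce000fb8000600001000000000000000000000000000000000000) (nat_lit 9)
theorem c87776 : QOK q87776 := cut [q87239, q917, q16321, q84359, q87326, q87497, q87772] ⟨c87239, c917, c16321, c84359, c87326, c87497, c87772, trivial⟩ (nd (nat_lit 210) (nat_lit 0) (cs (rf (nat_lit 0)) (cs (nd (nat_lit 207) (nat_lit 0) (cs (rf (nat_lit 1)) (cs (rf (nat_lit 2)) (rf (nat_lit 3))))) (cs (rf (nat_lit 4)) (cs (rf (nat_lit 5)) (nd (nat_lit 211) (nat_lit 0) (cs (lf (nat_lit 11) (nat_lit 207)) (nd (nat_lit 189) (nat_lit 0) (cs (lf (nat_lit 17) (nat_lit 186)) (nd (nat_lit 188) (nat_lit 0) (cs (lf (nat_lit 12) (nat_lit 185)) (rf (nat_lit 6))))))))))))) q87776 (by decide +kernel)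
def q87815 : Q := Q.p (nat_lit 0x300000c000000000000000000000000000000000000000000000000000000000) (nat_lit 0x200000900000e000738000ee000120000480000000000000000000000000000000000000000) (nat_lit 8)
theorem c87815 : QOK q87815 := cut [q87131, q84909, q87142] ⟨c87131, c84909, c87142, trivial⟩ (nd (nat_lit 232) (nat_lit 0) (cs (rf (nat_lit 0)) (nd (nat_lit 229) (nat_lit 0) (cs (rf (nat_lit 1)) (rf (nat_lit 2)))))) q87815 (by decide +kernel)
def q87906 : Q := Q.p (nat_lit 0x300000c000020000000000000000000000000000000000000000000000000000) (nat_lit 0xa0001f80007e0000ff0000f80003f001ce0001380000e0000280000000000000000000000000000000000) (nat_lit 14)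
theorem c87906 : QOK q87906 := cut [q87874, q87875, q41236, q87879, q87882, q17424, q40573, q22948, q84109, q82393, q87441, q3768, q40729, q40706, q87903] ⟨c87874, c87875, c41236, c87879, c87882, c17424, c40573, c22948, c84109, c82393, c87441, c3768, c40729, c40706, c87903, trivial⟩ (nd (nat_lit 228) (nat_lit 0) (cs (nd (nat_lit 229) (nat_lit 0) (cs (lf (nat_lit 0) (nat_lit 227)) (lf (nat_lit 17) (nat_lit 206)))) (cs (nd (nat_lit 250) (nat_lit 0) (cs (rf (nat_lit 0)) (cs (nd (nat_lit 272) (nat_lit 0) (cs (rf (nat_lit 1)) (cs (nd (nat_lit 274) (nat_lit 0) (cs (lf (nat_lit 30) (nat_lit 208)) (nd (nat_lit 227) (nat_lit 0) (cs (lf (nat_lit 20) (nat_lit 227)) (rf (nat_lit 2)))))) (rf (nat_lit 3))))) (cs (nd (nat_lit 272) (nat_lit 0) (cs (rf (nat_lit 3)) (cs (rf (nat_lit 4)) (cs (nd (nat_lit 294) (nat_lit 0) (cs (rf (nat_lit 5)) (cs (rf (nat_lit 6)) (nd (nat_lit 274) (nat_lit 0) (cs (lf (nat_lit 30) (nat_lit 208)) (rf (nat_lit 7))))))) (nd (nat_lit 274) (nat_lit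 0) (cs (lf (nat_lit 30) (nat_lit 208)) (nd (nat_lit 273) (nat_lit 0) (cs (lf (nat_lit 12) (nat_lit 249)) (rf (nat_lit 8)))))))))) (nd (nat_lit 251) (nat_lit 0) (cs (rf (nat_lit 9)) (cs (rf (nat_lit 10)) (nd (nat_lit 206) (nat_lit 0) (cs (rf (nat_lit 11)) (cs (rf (nat_lit 12)) (cs (nd (nat_lit 272) (nat_lit 0) (cs (lf (nat_lit 11) (nat_lit 249)) (nd (nat_lit 274) (nat_lit 0) (cs (lf (nat_lit 30) (nat_lit 208)) (rf (nat_lit 13)))))) (nd (nat_lit 272) (nat_lit 0) (cs (lf (nat_lit 11) (nat_lit 249)) (nd (nat_lit 296) (nat_lit 0) (cs (lf (nat_lit 31) (nat_lit 208)) (nd (nat_lit 183) (nat_lit 0) (cs (lf (nat_lit 46) (nat_lit 183)) (nd (nat_lit 185) (nat_lit 0) (cs (lf (nat_lit 34) (nat_lit 184)) (nd (nat_lit 295) (nat_lit 0) (cs (lf (nat_lit 28) (nat_lit 206)) (nd (nat_lit 294) (nat_lit 0) (cs (lf (nat_lit 29) (nat_lit 228)) (nd (nat_lit 293) (nat_lit 0) (cs (lf (nat_lit 41) (nat_lit 227)) (nd (nat_lit 319) (nat_lit 0) (cs (lf (nat_lit 4) (nat_lit 293)) (nd (nat_lit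 297) (nat_lit 0) (cs (lf (nat_lit 5) (nat_lit 294)) (lf (nat_lit 44) (nat_lit 230))))))))))))))))))))))))))))))) (nd (nat_lit 296) (nat_lit 0) (cs (lf (nat_lit 31) (nat_lit 208)) (nd (nat_lit 210) (nat_lit 0) (cs (lf (nat_lit 13) (nat_lit 206)) (rf (nat_lit 14))))))))) q87906 (by decide +kernel)
def q87935 : Q := Q.p (nat_lit 0x300000e000000000000000000000000000000000000000000000000000000000) (nat_lit 0x100000c0000380000e0000180000e000030000040000000000000000000000000000000000000000) (nat_lit 7)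
theorem c87935 : QOK q87935 := cut [q87919, q87928, q87931, q87934] ⟨c87919, c87928, c87931, c87934, trivial⟩ (nd (nat_lit 251) (nat_lit 0) (cs (rf (nat_lit 0)) (cs (rf (nat_lit 1)) (cs (rf (nat_lit 2)) (rf (nat_lit 3)))))) q87935 (by decide +kernel)
def q87974 : Q := Q.p (nat_lit 0x300000c000000000000000000000000000000000000000000000000000000000) (nat_lit 0x300000c0002300018e000738001fe0001700005c0000000000000000000000000000000000000000) (nat_lit 13)
theorem c87974 : QOK q87974 := cut [q57663, q87131, q84952, q87531, q87972] ⟨c57663, c87131, c84952, c87531, c87972, trivial⟩ (nd (nat_lit 232) (nat_lit 0) (cs (rf (nat_lit 0)) (cs (rf (nat_lit 1)) (nd (nat_lit 229) (nat_lit 0) (cs (rf (nat_lit 2)) (cs (rf (nat_lit 3)) (rf (nat_lit 4)))))))) q87974 (by decide +kernel)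
def q88020 : Q := Q.p (nat_lit 0x3000004000010000000000000000000000000000000000000000000000000000) (nat_lit 0x180000e00003e0000f80000e0000bc0000f000030000000000000000000000000000000000000000000000) (nat_lit 10)
theorem c88020 : QOK q88020 := cut [q84155, q84162, q87422, q88014, q88019] ⟨c84155, c84162, c87422, c88014, c88019, trivial⟩ (nd (nat_lit 274) (nat_lit 0) (cs (rf (nat_lit 0)) (cs (rf (nat_lit 1)) (cs (rf (nat_lit 2)) (cs (rf (nat_lit 3)) (rf (nat_lit 4))))))) q88020 (by decide +kernel)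
def q88114 : Q := Q.p (nat_lit 0x3000004000010000000000000000000000000000000000000000000000000000) (nat_lit 0xe000008000000000600000f8000280000000000000000000000000000000000000000) (nat_lit 7)
theorem c88114 : QOK q88114 := cut [q19] ⟨c19, trivial⟩ (nd (nat_lit 186) (nat_lit 0) (cs (rf (nat_lit 0)) (lf (nat_lit 29) (nat_lit 186)))) q88114 (by decide +kernel)
def q88191 : Q := Q.p (nat_lit 0x10000040000300000c000000000000000000000000000000000000000000000000000000000) (nat_lit 0xe000738001ce000000000000000000000000000000000000000000000000000) (nat_lit 8)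
theorem c88191 : QOK q88191 := cut [q87648] ⟨c87648, trivial⟩ (nd (nat_lit 229) (nat_lit 0) (cs (lf (nat_lit 47) (nat_lit 207)) (rf (nat_lit 0)))) q88191 (by decide +kernel)
def q88301 : Q := Q.p (nat_lit 0x200003800000000000000000000000000000000000000000000000000000000000000) (nat_lit 0x400001c0000700001c0000400004000007c0001c000070000140000000000000000000000000000000000000000) (nat_lit 8)
theorem c88301 : QOK q88301 := cut [q82198, q82592] ⟨c82198, c82592, trivial⟩ (nd (nat_lit 229) (nat_lit 0) (cs (rf (nat_lit 0)) (rf (nat_lit 1)))) q88301 (by decide +kernel)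
def q88431 : Q := Q.p (nat_lit 0x400003000000000000000000000000000000000000000000000000000000000000000) (nat_lit 0x80000e0000b80006f0000be000cf0000fe000ff8003fc001ff8000280000000000000000000000000000000000) (nat_lit 18)
theorem c88431 : QOK q88431 := cut [q83829, q86569, q85674, q88349, q88351, q88152, q17127, q40706, q88353, q17424, q40573, q45087, q88356, q81803, q88361, q88365, q41226, q88369, q25776, q88377, q88381, q26116, q88384, q88388, q88394, q88399, q85622, q88402, q88405, q83677, q83700, q83821, q84072, q84110, q84112, q84148, q84151, q14308, q23608, q88413, q25810, q88422, q88429] ⟨c83829, c86569, c85674, c88349, c88351, c88152, c17127, c40706, c88353, c17424, c40573, c45087, c88356, c81803, c88361, c88365, c41226, c88369, c25776, c88377, c88381, c26116, c88384, c88388, c88394, c88399, c85622, c88402, c88405, c83677, c83700, c83821, c84072, c84110, c84112, c84148, c84151, c14308, c23608, c88413, c25810, c88422, c88429, trivial⟩ (nd (nat_lit 272)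 (nat_lit 0) (cs (rf (nat_lit 0)) (cs (rf (nat_lit 1)) (cs (nd (nat_lit 250) (nat_lit 0) (cs (rf (nat_lit 2)) (cs (nd (nat_lit 251) (nat_lit 0) (cs (lf (nat_lit 11) (nat_lit 249)) (rf (nat_lit 3)))) (cs (rf (nat_lit 4)) (cs (nd (nat_lit 228) (nat_lit 0) (cs (rf (nat_lit 5)) (cs (nd (nat_lit 206) (nat_lit 0) (cs (rf (nat_lit 6)) (cs (rf (nat_lit 7)) (rf (nat_lit 8))))) (cs (nd (nat_lit 294) (nat_lit 0) (cs (rf (nat_lit 9)) (cs (rf (nat_lit 10)) (cs (rf (nat_lit 11)) (nd (nat_lit 293) (nat_lit 0) (cs (lf (nat_lit 41) (nat_lit 227)) (nd (nat_lit 295) (nat_lit 0) (cs (lf (nat_lit 29) (nat_lit 228)) (rf (nat_lit 12)))))))))) (cs (nd (nat_lit 230) (nat_lit 0) (cs (nd (nat_lit 206) (nat_lit 0) (cs (rf (nat_lit 6)) (nd (nat_lit 208) (nat_lit 0) (cs (rf (nat_lit 13)) (rf (nat_lit 14)))))) (cs (rf (nat_lit 15)) (nd (nat_lit 206) (nat_lit 0) (cs (rf (nat_lit 6)) (cs (rf (nat_lit 7)) (cs (rf (nat_lit 16)) (rf (nat_lit 17))))))))) (cs (nd (nat_lit 294) (nat_lit 0) (cs (rf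 (nat_lit 18)) (cs (rf (nat_lit 10)) (cs (rf (nat_lit 19)) (rf (nat_lit 20)))))) (cs (nd (nat_lit 206) (nat_lit 0) (cs (rf (nat_lit 21)) (cs (rf (nat_lit 7)) (cs (rf (nat_lit 22)) (cs (rf (nat_lit 23)) (cs (rf (nat_lit 24)) (rf (nat_lit 25)))))))) (nd (nat_lit 206) (nat_lit 0) (cs (rf (nat_lit 7)) (cs (rf (nat_lit 26)) (rf (nat_lit 27)))))))))))) (cs (nd (nat_lit 251) (nat_lit 0) (cs (lf (nat_lit 11) (nat_lit 249)) (rf (nat_lit 28)))) (nd (nat_lit 251) (nat_lit 0) (cs (rf (nat_lit 29)) (cs (rf (nat_lit 30)) (cs (rf (nat_lit 3)) (rf (nat_lit 28)))))))))))) (cs (nd (nat_lit 273) (nat_lit 0) (cs (rf (nat_lit 31)) (cs (rf (nat_lit 32)) (nd (nat_lit 230) (nat_lit 0) (cs (rf (nat_lit 33)) (cs (rf (nat_lit 34)) (cs (rf (nat_lit 35)) (rf (nat_lit 36))))))))) (nd (nat_lit 250) (nat_lit 0) (cs (rf (nat_lit 37)) (cs (rf (nat_lit 2)) (cs (nd (nat_lit 251) (nat_lit 0) (cs (rf (nat_lit 30)) (cs (nd (nat_lit 207) (nat_lit 0) (cs (nd (nat_lit 229) (nat_lit 0) (cs (lf (nat_lit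 24) (nat_lit 185)) (rf (nat_lit 38)))) (cs (rf (nat_lit 39)) (cs (nd (nat_lit 228) (nat_lit 0) (cs (lf (nat_lit 23) (nat_lit 227)) (nd (nat_lit 294) (nat_lit 0) (cs (lf (nat_lit 34) (nat_lit 206)) (nd (nat_lit 295) (nat_lit 0) (cs (lf (nat_lit 29) (nat_lit 228)) (nd (nat_lit 273) (nat_lit 0) (cs (lf (nat_lit 24) (nat_lit 206)) (nd (nat_lit 293) (nat_lit 0) (cs (lf (nat_lit 41) (nat_lit 227)) (lf (nat_lit 12) (nat_lit 270)))))))))))) (nd (nat_lit 185) (nat_lit 0) (cs (lf (nat_lit 38) (nat_lit 184)) (rf (nat_lit 40)))))))) (nd (nat_lit 249) (nat_lit 0) (cs (lf (nat_lit 5) (nat_lit 249)) (rf (nat_lit 41))))))) (rf (nat_lit 42))))))))))) q88431 (by decide +kernel)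
def q88512 : Q := Q.p (nat_lit 0x700003000000000000000000000000000000000000000000000000000000000000000) (nat_lit 0x7a0007f80007e0000800000f8000980000e0000380000a0000000000000000000000000000000000000000) (nat_lit 12)
theorem c88512 : QOK q88512 := cut [q84066, q14772, q22805, q87885, q84114, q87882, q88468] ⟨c84066, c14772, c22805, c87885, c84114, c87882, c88468, trivial⟩ (nd (nat_lit 250) (nat_lit 0) (cs (rf (nat_lit 0)) (cs (nd (nat_lit 275) (nat_lit 0) (cs (lf (nat_lit 23) (nat_lit 249)) (nd (nat_lit 293) (nat_lit 0) (cs (lf (nat_lit 10) (nat_lit 271)) (nd (nat_lit 297) (nat_lit 0) (cs (lf (nat_lit 5) (nat_lit 272)) (nd (nat_lit 319) (nat_lit 0) (cs (lf (nat_lit 42) (nat_lit 252)) (nd (nat_lit 318) (nat_lit 0) (cs (lf (nat_lit 41) (nat_lit 252)) (nd (nat_lit 296) (nat_lit 0) (cs (lf (nat_lit 35) (nat_lit 230)) (rf (nat_lit 1)))))))))))))) (cs (nd (nat_lit 228) (nat_lit 0) (cs (rf (nat_lit 2)) (cs (rf (nat_lit 3)) (nd (nat_lit 227) (nat_lit 0) (cs (lf (nat_lit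 20) (nat_lit 227)) (nd (nat_lit 294) (nat_lit 0) (cs (lf (nat_lit 47) (nat_lit 205)) (rf (nat_lit 4))))))))) (nd (nat_lit 228) (nat_lit 0) (cs (rf (nat_lit 2)) (cs (rf (nat_lit 5)) (rf (nat_lit 6))))))))) q88512 (by decide +kernel)
def q88603 : Q := Q.p (nat_lit 0x300000c00003000000000000000000000000000000000000000000000000000000000000000) (nat_lit 0x280003e0000bc001ce0000380004e0000b80002e000028000000000000000000000000000000000000000000000) (nat_lit 13)
theorem c88603 : QOK q88603 := cut [q88517, q83677, q23009, q25778, q88483, q88570, q14128, q86367, q22816, q45179, q14308, q88351, q88599] ⟨c88517, c83677, c23009, c25778, c88483, c88570, c14128, c86367, c22816, c45179, c14308, c88351, c88599, trivial⟩ (nd (nat_lit 250) (nat_lit 0) (cs (nd (nat_lit 319) (nat_lit 0) (cs (lf (nat_lit 42) (nat_lit 252)) (nd (nat_lit 209) (nat_lit 0) (cs (lf (nat_lit 37) (nat_lit 208)) (nd (nat_lit 251) (nat_lit 0) (cs (lf (nat_lit 0) (nat_lit 249)) (rf (nat_lit 0)))))))) (cs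 (nd (nat_lit 251) (nat_lit 0) (cs (lf (nat_lit 0) (nat_lit 249)) (nd (nat_lit 319) (nat_lit 0) (cs (lf (nat_lit 42) (nat_lit 252)) (nd (nat_lit 272) (nat_lit 0) (cs (lf (nat_lit 11) (nat_lit 249)) (nd (nat_lit 209) (nat_lit 0) (cs (lf (nat_lit 37) (nat_lit 208)) (rf (nat_lit 1)))))))))) (cs (nd (nat_lit 294) (nat_lit 0) (cs (nd (nat_lit 319) (nat_lit 0) (cs (lf (nat_lit 42) (nat_lit 252)) (nd (nat_lit 209) (nat_lit 0) (cs (lf (nat_lit 37) (nat_lit 208)) (nd (nat_lit 295) (nat_lit 0) (cs (lf (nat_lit 12) (nat_lit 271)) (rf (nat_lit 2)))))))) (cs (nd (nat_lit 295) (nat_lit 0) (cs (lf (nat_lit 12) (nat_lit 271)) (nd (nat_lit 319) (nat_lit 0) (cs (lf (nat_lit 42) (nat_lit 252)) (nd (nat_lit 315) (nat_lit 0) (cs (lf (nat_lit 10) (nat_lit 293)) (nd (nat_lit 272) (nat_lit 0) (cs (lf (nat_lit 23) (nat_lit 271)) (nd (nat_lit 209) (nat_lit 0) (cs (lf (nat_lit 37) (nat_lit 208)) (rf (nat_lit 3)))))))))))) (cs (nd (nat_lit 272) (nat_lit 0) (cs (rf (nat_lit 4)) (rf (nat_lit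 5)))) (cs (nd (nat_lit 272) (nat_lit 0) (cs (rf (nat_lit 5)) (nd (nat_lit 316) (nat_lit 0) (cs (rf (nat_lit 6)) (cs (rf (nat_lit 7)) (cs (nd (nat_lit 319) (nat_lit 0) (cs (lf (nat_lit 42) (nat_lit 252)) (nd (nat_lit 317) (nat_lit 0) (cs (lf (nat_lit 29) (nat_lit 250)) (nd (nat_lit 315) (nat_lit 0) (cs (lf (nat_lit 41) (nat_lit 249)) (nd (nat_lit 228) (nat_lit 0) (cs (lf (nat_lit 40) (nat_lit 227)) (rf (nat_lit 8)))))))))) (nd (nat_lit 315) (nat_lit 0) (cs (lf (nat_lit 41) (nat_lit 249)) (nd (nat_lit 228) (nat_lit 0) (cs (lf (nat_lit 40) (nat_lit 227)) (nd (nat_lit 207) (nat_lit 0) (cs (lf (nat_lit 34) (nat_lit 206)) (nd (nat_lit 185) (nat_lit 0) (cs (lf (nat_lit 33) (nat_lit 184)) (nd (nat_lit 341) (nat_lit 0) (cs (lf (nat_lit 43) (nat_lit 252)) (nd (nat_lit 209) (nat_lit 0) (cs (lf (nat_lit 37) (nat_lit 208)) (nd (nat_lit 339) (nat_lit 0) (cs (lf (nat_lit 28) (nat_lit 250)) (nd (nat_lit 338) (nat_lit 0) (cs (lf (nat_lit 29) (nat_lit 272)) (lf (nat_lit 19)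 (nat_lit 315)))))))))))))))))))))))) (nd (nat_lit 295) (nat_lit 0) (cs (lf (nat_lit 12) (nat_lit 271)) (nd (nat_lit 272) (nat_lit 0) (cs (lf (nat_lit 23) (nat_lit 271)) (rf (nat_lit 9))))))))))) (cs (nd (nat_lit 272) (nat_lit 0) (cs (rf (nat_lit 10)) (cs (rf (nat_lit 11)) (rf (nat_lit 5))))) (cs (nd (nat_lit 319) (nat_lit 0) (cs (lf (nat_lit 42) (nat_lit 252)) (nd (nat_lit 251) (nat_lit 0) (cs (lf (nat_lit 0) (nat_lit 249)) (nd (nat_lit 209) (nat_lit 0) (cs (lf (nat_lit 37) (nat_lit 208)) (nd (nat_lit 227) (nat_lit 0) (cs (lf (nat_lit 22) (nat_lit 227)) (nd (nat_lit 272) (nat_lit 0) (cs (lf (nat_lit 11) (nat_lit 249)) (nd (nat_lit 273) (nat_lit 0) (cs (lf (nat_lit 5) (nat_lit 272)) (nd (nat_lit 294) (nat_lit 0) (cs (lf (nat_lit 11) (nat_lit 271)) (nd (nat_lit 229) (nat_lit 0) (cs (lf (nat_lit 30) (nat_lit 228)) (lf (nat_lit 24) (nat_lit 207)))))))))))))))))) (nd (nat_lit 209) (nat_lit 0) (cs (lf (nat_lit 37) (nat_lit 208)) (nd (nat_lit 319) (nat_lit 0) (cs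 (lf (nat_lit 42) (nat_lit 252)) (nd (nat_lit 251) (nat_lit 0) (cs (lf (nat_lit 0) (nat_lit 249)) (rf (nat_lit 12)))))))))))))) q88603 (by decide +kernel)
def q88759 : Q := Q.p (nat_lit 0x800003000008000020000000000000000000000000000000000000000000000000000) (nat_lit 0x300000400004c00070000050000140000000000000000000000000000000000000000000000) (nat_lit 7)
theorem c88759 : QOK q88759 := cut [q88758] ⟨c88758, trivial⟩ (nd (nat_lit 186) (nat_lit 0) (cs (lf (nat_lit 46) (nat_lit 186)) (rf (nat_lit 0)))) q88759 (by decide +kernel)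
def q88785 : Q := Q.p (nat_lit 0x200003800008000000000000000000000000000000000000000000000000000000000) (nat_lit 0x1800006000039000040000770000c0000300000c00000000000000000000000000000000000000000) (nat_lit 10)
theorem c88785 : QOK q88785 := cut [q82274, q88782] ⟨c82274, c88782, trivial⟩ (nd (nat_lit 232) (nat_lit 0) (cs (rf (nat_lit 0)) (nd (nat_lit 254) (nat_lit 0) (cs (lf (nat_lit 11) (nat_lit 250)) (nd (nat_lit 228) (nat_lit 0) (cs (lf (nat_lit 22) (nat_lit 228)) (rf (nat_lit 1)))))))) q88785 (by decide +kernel)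
def q88808 : Q := Q.p (nat_lit 0x3800008000000000000000000000000000000000000000000000000000000000) (nat_lit 0x200003980004600007c00010000040000000000000000000000000000000000000000000000) (nat_lit 6)
theorem c88808 : QOK q88808 := cut [q88801, q88804, q88807] ⟨c88801, c88804, c88807, trivial⟩ (nd (nat_lit 250) (nat_lit 0) (cs (rf (nat_lit 0)) (cs (nd (nat_lit 271) (nat_lit 0) (cs (lf (nat_lit 10) (nat_lit 249)) (rf (nat_lit 1)))) (rf (nat_lit 2))))) q88808 (by decide +kernel)
def q88826 : Q := Q.p (nat_lit 0x800003000008000020000000000000000000000000000000000000000000000000000) (nat_lit 0xe000070000040000740003c0000300000000000000000000000000000000000000000000000) (nat_lit 9)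
theorem c88826 : QOK q88826 := cut [q88824] ⟨c88824, trivial⟩ (nd (nat_lit 276) (nat_lit 0) (cs (lf (nat_lit 29) (nat_lit 209)) (nd (nat_lit 277) (nat_lit 0) (cs (lf (nat_lit 18) (nat_lit 252)) (rf (nat_lit 0)))))) q88826 (by decide +kernel)
def q88875 : Q := Q.p (nat_lit 0x3000008000000000000000000000000000000000000000000000000000000000) (nat_lit 0x780007f80004c000040000700001c0000700001400000000000000000000000000000000000) (nat_lit 9)
theorem c88875 : QOK q88875 := cut [q82300, q82309, q88739, q88743, q88748, q88756, q88771] ⟨c82300, c82309, c88739, c88743, c88748, c88756, c88771, trivial⟩ (nd (nat_lit 209) (nat_lit 0) (cs (rf (nat_lit 0)) (cs (rf (nat_lit 1)) (cs (nd (nat_lit 275) (nat_lit 0) (cs (rf (nat_lit 2)) (cs (rf (nat_lit 3)) (rf (nat_lit 4))))) (cs (rf (nat_lit 5)) (rf (nat_lit 6))))))) q88875 (by decide +kernel)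
def q88886 : Q := Q.p (nat_lit 0x3000008000000000000000000000000000000000000000000000000000000000) (nat_lit 0x400005c00037c0004e00077c000ee0000b00002c0000000000000000000000000000000000000000) (nat_lit 10)
theorem c88886 : QOK q88886 := cut [q82275, q82278, q88840, q82198, q88872, q88876, q88884] ⟨c82275, c82278, c88840, c82198, c88872, c88876, c88884, trivial⟩ (nd (nat_lit 251) (nat_lit 0) (cs (rf (nat_lit 0)) (cs (rf (nat_lit 1)) (cs (rf (nat_lit 2)) (nd (nat_lit 229) (nat_lit 0) (cs (rf (nat_lit 3)) (cs (rf (nat_lit 4)) (cs (rf (nat_lit 5)) (rf (nat_lit 6)))))))))) q88886 (by decide +kernel)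
def q88896 : Q := Q.p (nat_lit 0x3800008000000000000000000000000000000000000000000000000000000000) (nat_lit 0x40000300000e0000400007600007e0001f8000780001400000000000000000000000000000000000) (nat_lit 11)
theorem c88896 : QOK q88896 := cut [q82300, q82301, q82309, q88893, q88895] ⟨c82300, c82301, c82309, c88893, c88895, trivial⟩ (nd (nat_lit 209) (nat_lit 0) (cs (rf (nat_lit 0)) (cs (rf (nat_lit 1)) (cs (rf (nat_lit 2)) (cs (rf (nat_lit 3)) (rf (nat_lit 4))))))) q88896 (by decide +kernel)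
def q88919 : Q := Q.p (nat_lit 0xc00003000008000020000000000000000000000000000000000000000000000000000) (nat_lit 0x28000038000000001400001e000060000000000000000000000000000000000000000000000) (nat_lit 7)
theorem c88919 : QOK q88919 := cut [q2956] ⟨c2956, trivial⟩ (nd (nat_lit 208) (nat_lit 0) (cs (lf (nat_lit 47) (nat_lit 186)) (rf (nat_lit 0)))) q88919 (by decide +kernel)
def q88930 : Q := Q.p (nat_lit 0x3000008000020000000000000000000000000000000000000000000000000000) (nat_lit 0x1c00007000018000008000740000500001c0000700001400000000000000000000000000000000000) (nat_lit 11)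
theorem c88930 : QOK q88930 := cut [q4090, q80750, q82299, q88927] ⟨c4090, c80750, c82299, c88927, trivial⟩ (nd (nat_lit 187) (nat_lit 0) (cs (rf (nat_lit 0)) (cs (rf (nat_lit 1)) (cs (rf (nat_lit 2)) (nd (nat_lit 166) (nat_lit 0) (cs (lf (nat_lit 34) (nat_lit 165)) (nd (nat_lit 186) (nat_lit 0) (cs (lf (nat_lit 47) (nat_lit 164)) (rf (nat_lit 3)))))))))) q88930 (by decide +kernel)
def q88938 : Q := Q.p (nat_lit 0x380000800002000008000000000000000000000000000000000000000000000000000000000) (nat_lit 0xf30001c00007700000000000000000000000000000000000000000000000000000000000000000000) (nat_lit 8)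
theorem c88938 : QOK q88938 := cut [q11709] ⟨c11709, trivial⟩ (nd (nat_lit 298) (nat_lit 0) (cs (lf (nat_lit 29) (nat_lit 231)) (nd (nat_lit 272) (nat_lit 0) (cs (rf (nat_lit 0)) (lf (nat_lit 22) (nat_lit 272)))))) q88938 (by decide +kernel)
def q89024 : Q := Q.p (nat_lit 0x380000000000000000000000000000000000000000000000000000000000000000000000000) (nat_lit 0xeff001c780073f0000000000000000000000000000000000000000000000000000000000000000000) (nat_lit 10)
theorem c89024 : QOK q89024 := cut [q41955, q61784, q63937, q83801, q88998, q41978] ⟨c41955, c61784, c63937, c83801, c88998, c41978, trivial⟩ (nd (nat_lit 294) (nat_lit 0) (cs (rf (nat_lit 0)) (cs (nd (nat_lit 271) (nat_lit 0) (cs (lf (nat_lit 22) (nat_lit 271)) (nd (nat_lit 293) (nat_lit 0) (cs (lf (nat_lit 23) (nat_lit 270)) (rf (nat_lit 1)))))) (cs (nd (nat_lit 293) (nat_lit 0) (cs (rf (nat_lit 2)) (cs (rf (nat_lit 3)) (nd (nat_lit 318) (nat_lit 0) (cs (lf (nat_lit 5) (nat_lit 293)) (nd (nat_lit 316) (nat_lit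 0) (cs (lf (nat_lit 11) (nat_lit 293)) (nd (nat_lit 317) (nat_lit 0) (cs (lf (nat_lit 6) (nat_lit 294)) (lf (nat_lit 0) (nat_lit 292))))))))))) (cs (nd (nat_lit 272) (nat_lit 0) (cs (lf (nat_lit 23) (nat_lit 271)) (nd (nat_lit 315) (nat_lit 0) (cs (lf (nat_lit 10) (nat_lit 293)) (nd (nat_lit 298) (nat_lit 0) (cs (lf (nat_lit 22) (nat_lit 272)) (rf (nat_lit 4)))))))) (nd (nat_lit 271) (nat_lit 0) (cs (lf (nat_lit 22) (nat_lit 271)) (nd (nat_lit 293) (nat_lit 0) (cs (lf (nat_lit 23) (nat_lit 270)) (nd (nat_lit 318) (nat_lit 0) (cs (lf (nat_lit 5) (nat_lit 293)) (rf (nat_lit 5))))))))))))) q89024 (by decide +kernel)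
def q89098 : Q := Q.p (nat_lit 0x100000400003000000000000000000000000000000000000000000000000000000000000000) (nat_lit 0x2000008000020000400000f8000380000a0000000000000000000000000000000000000000000000) (nat_lit 6)
theorem c89098 : QOK q89098 := cut [q81007, q81787, q88952, q89097] ⟨c81007, c81787, c88952, c89097, trivial⟩ (nd (nat_lit 230) (nat_lit 0) (cs (rf (nat_lit 0)) (cs (rf (nat_lit 1)) (cs (rf (nat_lit 2)) (rf (nat_lit 3)))))) q89098 (by decide +kernel)
def q89585 : Q := Q.p (nat_lit 0x80000200000800002000000000000000000000000000000000000000000000000000000000000000) (nat_lit 0x3de000770001de0000000004000010000000000000000000000000000000000000000000000000000000000) (nat_lit 11)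
theorem c89585 : QOK q89585 := cut [q2591, q82964, q2583] ⟨c2591, c82964, c2583, trivial⟩ (nd (nat_lit 318) (nat_lit 0) (cs (lf (nat_lit 41) (nat_lit 252)) (nd (nat_lit 317) (nat_lit 0) (cs (rf (nat_lit 0)) (cs (rf (nat_lit 1)) (nd (nat_lit 232) (nat_lit 0) (cs (rf (nat_lit 2)) (lf (nat_lit 34) (nat_lit 231))))))))) q89585 (by decide +kernel)
def q89612 : Q := Q.p (nat_lit 0x200000800003000000000000000000000000000000000000000000000000000000000000000) (nat_lit 0x140000700001c0000000000000004000014000000000000000000000000000000000000000000000000000000000) (nat_lit 6)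
theorem c89612 : QOK q89612 := cut [q89587] ⟨c89587, trivial⟩ (nd (nat_lit 319) (nat_lit 0) (cs (lf (nat_lit 47) (nat_lit 230)) (rf (nat_lit 0)))) q89612 (by decide +kernel)
def q89621 : Q := Q.p (nat_lit 0x200000800002000000000000000000000000000000000000000000000000000000000000000) (nat_lit 0xf40003d80007700000000018000060000100000000000000000000000000000000000000000000000) (nat_lit 10)
theorem c89621 : QOK q89621 := cut [q32034, q81211, q82063, q22522, q22523, q22533, q11631] ⟨c32034, c81211, c82063, c22522, c22523, c22533, c11631, trivial⟩ (nd (nat_lit 231) (nat_lit 0) (cs (rf (nat_lit 0)) (cs (rf (nat_lit 1)) (cs (rf (nat_lit 2)) (nd (nat_lit 298) (nat_lit 0) (cs (lf (nat_lit 29) (nat_lit 231)) (nd (nat_lit 299) (nat_lit 0) (cs (rf (nat_lit 3)) (cs (rf (nat_lit 4)) (cs (rf (nat_lit 5)) (nd (nat_lit 296) (nat_lit 0) (cs (lf (nat_lit 41) (nat_lit 230)) (nd (nat_lit 321) (nat_lit 0) (cs (lf (nat_lit 5) (nat_lit 296)) (nd (nat_lit 273) (nat_lit 0) (cs (lf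 (nat_lit 22) (nat_lit 273)) (nd (nat_lit 210) (nat_lit 0) (cs (lf (nat_lit 34) (nat_lit 209)) (rf (nat_lit 6)))))))))))))))))))) q89621 (by decide +kernel)
def q89622 : Q := Q.p (nat_lit 0x200000800003000000000000000000000000000000000000000000000000000000000000000) (nat_lit 0x300000c000070000180000500001400004000018000060000080000000000000000000000000000000000000000000000) (nat_lit 7)
theorem c89622 : QOK q89622 := cut [q88946, q88949, q89529] ⟨c88946, c88949, c89529, trivial⟩ (nd (nat_lit 319) (nat_lit 0) (cs (rf (nat_lit 0)) (cs (rf (nat_lit 1)) (rf (nat_lit 2))))) q89622 (by decide +kernel)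
def q89649 : Q := Q.p (nat_lit 0x600000800003000008000000000000000000000000000000000000000000000000000000000) (nat_lit 0x1e600039e001e600004000017800058000000000000000000000000000000000000000000000000000) (nat_lit 12)
theorem c89649 : QOK q89649 := cut [q22522, q89633, q11623, q89643] ⟨c22522, c89633, c11623, c89643, trivial⟩ (nd (nat_lit 299) (nat_lit 0) (cs (rf (nat_lit 0)) (cs (nd (nat_lit 208) (nat_lit 0) (cs (lf (nat_lit 46) (nat_lit 208)) (nd (nat_lit 210) (nat_lit 0) (cs (lf (nat_lit 34) (nat_lit 209)) (rf (nat_lit 1)))))) (cs (nd (nat_lit 208) (nat_lit 0) (cs (lf (nat_lit 46) (nat_lit 208)) (nd (nat_lit 210) (nat_lit 0) (cs (lf (nat_lit 34) (nat_lit 209)) (nd (nat_lit 296) (nat_lit 0) (cs (lf (nat_lit 41) (nat_lit 230)) (nd (nat_lit 322) (nat_lit 0) (cs (lf (nat_lit 4) (nat_lit 296)) (nd (nat_lit 300) (nat_lit 0) (cs (lf (nat_lit 5) (nat_lit 297)) (rf (nat_lit 2)))))))))))) (nd (nat_lit 296) (nat_lit 0) (cs (lf (nat_lit 41) (nat_lit 230)) (nd (nat_lit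 321) (nat_lit 0) (cs (lf (nat_lit 5) (nat_lit 296)) (nd (nat_lit 274) (nat_lit 0) (cs (lf (nat_lit 23) (nat_lit 273)) (nd (nat_lit 210) (nat_lit 0) (cs (lf (nat_lit 34) (nat_lit 209)) (nd (nat_lit 277) (nat_lit 0) (cs (lf (nat_lit 17) (nat_lit 274)) (rf (nat_lit 3)))))))))))))))) q89649 (by decide +kernel)
def q89654 : Q := Q.p (nat_lit 0x200000800003000000000000000000000000000000000000000000000000000000000000000) (nat_lit 0xa00003a0000e800077c000df80077f000440000d000030000040000000000000000000000000000000000000000000000) (nat_lit 12)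
theorem c89654 : QOK q89654 := cut [q89372, q89419, q89653] ⟨c89372, c89419, c89653, trivial⟩ (nd (nat_lit 296) (nat_lit 0) (cs (rf (nat_lit 0)) (cs (rf (nat_lit 1)) (rf (nat_lit 2))))) q89654 (by decide +kernel)
def q89672 : Q := Q.p (nat_lit 0x3800002000000000000000000000000000000000000000000000000000000000) (nat_lit 0x600001c00007c000400000400001c0000700001c0000000000000000000000000000000000000000) (nat_lit 8)
theorem c89672 : QOK q89672 := cut [q85421, q88302, q89671] ⟨c85421, c88302, c89671, trivial⟩ (nd (nat_lit 273) (nat_lit 0) (cs (rf (nat_lit 0)) (cs (rf (nat_lit 1)) (rf (nat_lit 2))))) q89672 (by decide +kernel)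
def q89684 : Q := Q.p (nat_lit 0x3800002000008000000000000000000000000000000000000000000000000000) (nat_lit 0x100000700001c00007c00000000058000740000d0000000000000000000000000000000000000000000000) (nat_lit 8)
theorem c89684 : QOK q89684 := cut [q82207, q89677, q89679, q89683] ⟨c82207, c89677, c89679, c89683, trivial⟩ (nd (nat_lit 273) (nat_lit 0) (cs (rf (nat_lit 0)) (cs (nd (nat_lit 184) (nat_lit 0) (cs (lf (nat_lit 46) (nat_lit 184)) (rf (nat_lit 1)))) (cs (rf (nat_lit 2)) (rf (nat_lit 3)))))) q89684 (by decide +kernel)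
def q89797 : Q := Q.p (nat_lit 0x800003800000000000000000000000000000000000000000000000000000000000000) (nat_lit 0x780007f8000fe00007c00046000160000380000e0000000000000000000000000000000000000000000000) (nat_lit 10)
theorem c89797 : QOK q89797 := cut [q82286, q79068, q83734, q88647, q15961, q88933, q89773, q89784, q88302, q89792, q88426] ⟨c82286, c79068, c83734, c88647, c15961, c88933, c89773, c89784, c88302, c89792, c88426, trivial⟩ (nd (nat_lit 274) (nat_lit 0) (cs (rf (nat_lit 0)) (cs (nd (nat_lit 230) (nat_lit 0) (cs (rf (nat_lit 1)) (cs (nd (nat_lit 249) (nat_lit 0) (cs (lf (nat_lit 1) (nat_lit 249)) (nd (nat_lit 208) (nat_lit 0) (cs (lf (nat_lit 24) (nat_lit 186)) (nd (nat_lit 187) (nat_lit 0) (cs (lf (nat_lit 34) (nat_lit 186)) (nd (nat_lit 207) (nat_lit 0) (cs (lf (nat_lit 47) (nat_lit 185)) (nd (nat_lit 296) (nat_lit 0) (cs (lf (nat_lit 46) (nat_lit 207)) (rf (nat_lit 2)))))))))))) (nd (nat_lit 250) (nat_lit 0) (cs (lf (nat_lit 0) (nat_lit 249)) (nd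 (nat_lit 296) (nat_lit 0) (cs (rf (nat_lit 2)) (cs (nd (nat_lit 297) (nat_lit 0) (cs (lf (nat_lit 42) (nat_lit 230)) (nd (nat_lit 229) (nat_lit 0) (cs (lf (nat_lit 47) (nat_lit 207)) (rf (nat_lit 3)))))) (nd (nat_lit 229) (nat_lit 0) (cs (lf (nat_lit 42) (nat_lit 229)) (lf (nat_lit 47) (nat_lit 207)))))))))))) (cs (nd (nat_lit 296) (nat_lit 0) (cs (rf (nat_lit 4)) (cs (nd (nat_lit 297) (nat_lit 0) (cs (rf (nat_lit 5)) (cs (nd (nat_lit 249) (nat_lit 0) (cs (lf (nat_lit 1) (nat_lit 249)) (rf (nat_lit 6)))) (nd (nat_lit 230) (nat_lit 0) (cs (lf (nat_lit 24) (nat_lit 208)) (nd (nat_lit 249) (nat_lit 0) (cs (lf (nat_lit 1) (nat_lit 249)) (nd (nat_lit 229) (nat_lit 0) (cs (lf (nat_lit 47) (nat_lit 207)) (nd (nat_lit 295) (nat_lit 0) (cs (lf (nat_lit 41) (nat_lit 229)) (nd (nat_lit 294) (nat_lit 0) (cs (lf (nat_lit 12) (nat_lit 271)) (nd (nat_lit 316) (nat_lit 0) (cs (lf (nat_lit 11) (nat_lit 293)) (lf (nat_lit 38) (nat_lit 228))))))))))))))))) (nd (nat_lit 249)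 (nat_lit 0) (cs (lf (nat_lit 1) (nat_lit 249)) (rf (nat_lit 7))))))) (cs (nd (nat_lit 273) (nat_lit 0) (cs (rf (nat_lit 8)) (rf (nat_lit 9)))) (nd (nat_lit 250) (nat_lit 0) (cs (lf (nat_lit 0) (nat_lit 249)) (nd (nat_lit 272) (nat_lit 0) (cs (lf (nat_lit 11) (nat_lit 249)) (nd (nat_lit 273) (nat_lit 0) (cs (lf (nat_lit 17) (nat_lit 250)) (rf (nat_lit 10))))))))))))) q89797 (by decide +kernel)
def q89827 : Q := Q.p (nat_lit 0x3800000000000000000000000000000000000000000000000000000000000000) (nat_lit 0x300000c0001fc0000600003c0000e0000380000a0000000000000000000000000000000000000000) (nat_lit 10)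
theorem c89827 : QOK q89827 := cut [q2065, q3764, q40524, q89826] ⟨c2065, c3764, c40524, c89826, trivial⟩ (nd (nat_lit 250) (nat_lit 0) (cs (rf (nat_lit 0)) (cs (rf (nat_lit 1)) (cs (rf (nat_lit 2)) (rf (nat_lit 3)))))) q89827 (by decide +kernel)
def q89844 : Q := Q.p (nat_lit 0x200003800000000000000000000000000000000000000000000000000000000000000) (nat_lit 0x60000180000400004000007c0001c0000700001c0000000000000000000000000000000000000000) (nat_lit 8)
theorem c89844 : QOK q89844 := cut [q82198, q82584, q89671] ⟨c82198, c82584, c89671, trivial⟩ (nd (nat_lit 229) (nat_lit 0) (cs (rf (nat_lit 0)) (cs (rf (nat_lit 1)) (rf (nat_lit 2))))) q89844 (by decide +kernel)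
def q89870 : Q := Q.p (nat_lit 0x3c00000000000000000000000000000000000000000000000000000000000000) (nat_lit 0x2000008000078000420001c000010000040000000000000000000000000000000000000000000000) (nat_lit 7)
theorem c89870 : QOK q89870 := cut [q89869] ⟨c89869, trivial⟩ (nd (nat_lit 231) (nat_lit 0) (cs (lf (nat_lit 17) (nat_lit 228)) (rf (nat_lit 0)))) q89870 (by decide +kernel)
def q89929 : Q := Q.p (nat_lit 0x380000c000000000000000000000000000000000000000000000000000000000) (nat_lit 0x400004600003800066000080000200000000000000000000000000000000000000000) (nat_lit 7)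
theorem c89929 : QOK q89929 := cut [q82183] ⟨c82183, trivial⟩ (nd (nat_lit 250) (nat_lit 0) (cs (lf (nat_lit 12) (nat_lit 227)) (rf (nat_lit 0)))) q89929 (by decide +kernel)
def q89969 : Q := Q.p (nat_lit 0x3800008000000000000000000000000000000000000000000000000000000000) (nat_lit 0xe000038000160000460000780007e0007f80007c0001000000000000000000000000000000000000) (nat_lit 11)
theorem c89969 : QOK q89969 := cut [q81837, q89933, q82378, q86677, q82300, q84998, q89946, q89954, q89959, q84417, q88869, q88848, q89961, q89966] ⟨c81837, c89933, c82378, c86677, c82300, c84998, c89946, c89954, c89959, c84417, c88869, c88848, c89961, c89966, trivial⟩ (nd (nat_lit 230) (nat_lit 0) (cs (nd (nat_lit 274) (nat_lit 0) (cs (rf (nat_lit 0)) (cs (nd (nat_lit 249) (nat_lit 0) (cs (lf (nat_lit 13) (nat_lit 227)) (rf (nat_lit 1)))) (nd (nat_lit 250) (nat_lit 0) (cs (lf (nat_lit 12) (nat_lit 227)) (nd (nat_lit 208) (nat_lit 0) (cs (rf (nat_lit 2)) (cs (rf (nat_lit 3)) (nd (nat_lit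 209) (nat_lit 0) (cs (rf (nat_lit 4)) (nd (nat_lit 273) (nat_lit 0) (cs (lf (nat_lit 41) (nat_lit 207)) (nd (nat_lit 228) (nat_lit 0) (cs (lf (nat_lit 23) (nat_lit 227)) (nd (nat_lit 206) (nat_lit 0) (cs (lf (nat_lit 24) (nat_lit 184)) (nd (nat_lit 207) (nat_lit 0) (cs (lf (nat_lit 0) (nat_lit 205)) (lf (nat_lit 47) (nat_lit 185)))))))))))))))))))) (cs (nd (nat_lit 208) (nat_lit 0) (cs (rf (nat_lit 2)) (cs (nd (nat_lit 209) (nat_lit 0) (cs (rf (nat_lit 4)) (cs (rf (nat_lit 5)) (nd (nat_lit 249) (nat_lit 0) (cs (lf (nat_lit 13) (nat_lit 227)) (nd (nat_lit 274) (nat_lit 0) (cs (lf (nat_lit 30) (nat_lit 208)) (rf (nat_lit 6))))))))) (nd (nat_lit 249) (nat_lit 0) (cs (lf (nat_lit 13) (nat_lit 227)) (rf (nat_lit 7))))))) (cs (rf (nat_lit 8)) (cs (nd (nat_lit 229) (nat_lit 0) (cs (rf (nat_lit 9)) (cs (rf (nat_lit 10)) (nd (nat_lit 208) (nat_lit 0) (cs (rf (nat_lit 11)) (cs (rf (nat_lit 7)) (nd (nat_lit 274) (nat_lit 0) (cs (rf (nat_lit 0)) (nd (nat_lit 273) (nat_lit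 0) (cs (lf (nat_lit 30) (nat_lit 207)) (rf (nat_lit 12)))))))))))) (nd (nat_lit 250) (nat_lit 0) (cs (lf (nat_lit 12) (nat_lit 227)) (nd (nat_lit 228) (nat_lit 0) (cs (lf (nat_lit 23) (nat_lit 227)) (rf (nat_lit 13))))))))))) q89969 (by decide +kernel)
def q89975 : Q := Q.p (nat_lit 0x3800008000000000000000000000000000000000000000000000000000000000) (nat_lit 0x480003600004000077c000fe0000f00003c0000500000000000000000000000000000000000) (nat_lit 9)
theorem c89975 : QOK q89975 := cut [q82198, q88872, q88876, q89974] ⟨c82198, c88872, c88876, c89974, trivial⟩ (nd (nat_lit 229) (nat_lit 0) (cs (rf (nat_lit 0)) (cs (rf (nat_lit 1)) (cs (rf (nat_lit 2)) (rf (nat_lit 3)))))) q89975 (by decide +kernel)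
def q90043 : Q := Q.p (nat_lit 0x80000200002800000000000000000000000000000000000000000000000000000000000000) (nat_lit 0x40000180000700001f0001f800077000190000000000b00000c000010000000000000000000000000000000000000000000000) (nat_lit 11)
theorem c90043 : QOK q90043 := cut [q82544, q82547, q82548, q40641, q82549, q82562, q45025] ⟨c82544, c82547, c82548, c40641, c82549, c82562, c45025, trivial⟩ (nd (nat_lit 318) (nat_lit 0) (cs (rf (nat_lit 0)) (cs (rf (nat_lit 1)) (cs (rf (nat_lit 2)) (nd (nat_lit 317) (nat_lit 0) (cs (lf (nat_lit 29) (nat_lit 251)) (nd (nat_lit 294) (nat_lit 0) (cs (rf (nat_lit 3)) (cs (rf (nat_lit 4)) (cs (rf (nat_lit 5)) (nd (nat_lit 316) (nat_lit 0) (cs (lf (nat_lit 41) (nat_lit 250)) (nd (nat_lit 319) (nat_lit 0) (cs (lf (nat_lit 18) (nat_lit 294)) (nd (nat_lit 297) (nat_lit 0) (cs (lf (nat_lit 17) (nat_lit 294)) (nd (nat_lit 296) (nat_lit 0) (cs (lf (nat_lit 12) (nat_lit 293)) (rf (nat_lit 6)))))))))))))))))))) q90043 (by decide +kernel)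
def q90083 : Q := Q.p (nat_lit 0x80000200003800000000000000000000000000000000000000000000000000000000000000) (nat_lit 0x5e000170000de000000000300000c000010000000000000000000000000000000000000000000000) (nat_lit 9)
theorem c90083 : QOK q90083 := cut [q88797, q88800, q89908, q82616, q82620, q82623, q82624] ⟨c88797, c88800, c89908, c82616, c82620, c82623, c82624, trivial⟩ (nd (nat_lit 229) (nat_lit 0) (cs (rf (nat_lit 0)) (cs (rf (nat_lit 1)) (cs (rf (nat_lit 2)) (nd (nat_lit 294) (nat_lit 0) (cs (lf (nat_lit 41) (nat_lit 228)) (nd (nat_lit 293) (nat_lit 0) (cs (rf (nat_lit 3)) (cs (rf (nat_lit 4)) (cs (rf (nat_lit 5)) (rf (nat_lit 6)))))))))))) q90083 (by decide +kernel)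
def q90144 : Q := Q.p (nat_lit 0x3800000000000000000000000000000000000000000000000000000000000000) (nat_lit 0x400007c0000440003b800020000080000000000000000000000000000000000000000000000) (nat_lit 6)
theorem c90144 : QOK q90144 := cut [q90139, q15386, q82718, q90143] ⟨c90139, c15386, c82718, c90143, trivial⟩ (nd (nat_lit 276) (nat_lit 0) (cs (rf (nat_lit 0)) (cs (nd (nat_lit 275) (nat_lit 0) (cs (lf (nat_lit 0) (nat_lit 250)) (rf (nat_lit 1)))) (cs (nd (nat_lit 250) (nat_lit 0) (cs (lf (nat_lit 4) (nat_lit 250)) (rf (nat_lit 2)))) (rf (nat_lit 3)))))) q90144 (by decide +kernel)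
def q90221 : Q := Q.p (nat_lit 0x3800002000008000000000000000000000000000000000000000000000000000) (nat_lit 0x100000700001c00003c000000001dc0007780005e000040000000000000000000000000000000000000000) (nat_lit 12)
theorem c90221 : QOK q90221 := cut [q85301, q85316, q85373, q82197, q82581, q12231, q90014] ⟨c85301, c85316, c85373, c82197, c82581, c12231, c90014, trivial⟩ (nd (nat_lit 273) (nat_lit 0) (cs (rf (nat_lit 0)) (cs (rf (nat_lit 1)) (cs (rf (nat_lit 2)) (nd (nat_lit 228) (nat_lit 0) (cs (rf (nat_lit 3)) (cs (nd (nat_lit 206) (nat_lit 0) (cs (rf (nat_lit 4)) (nd (nat_lit 272) (nat_lit 0) (cs (lf (nat_lit 41) (nat_lit 206)) (nd (nat_lit 270) (nat_lit 0) (cs (lf (nat_lit 13) (nat_lit 248)) (nd (nat_lit 208) (nat_lit 0) (cs (lf (nat_lit 35) (nat_lit 185)) (rf (nat_lit 5)))))))))) (nd (nat_lit 227) (nat_lit 0) (cs (lf (nat_lit 0) (nat_lit 226)) (rf (nat_lit 6))))))))))) q90221 (by decide +kernel)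
def q90247 : Q := Q.p (nat_lit 0x3800000000000000000000000000000000000000000000000000000000000000) (nat_lit 0x300000c0001bc000060001fc0000e0000380000a0000000000000000000000000000000000000000) (nat_lit 10)
theorem c90247 : QOK q90247 := cut [q6264, q23543, q89826] ⟨c6264, c23543, c89826, trivial⟩ (nd (nat_lit 250) (nat_lit 0) (cs (rf (nat_lit 0)) (cs (rf (nat_lit 1)) (rf (nat_lit 2))))) q90247 (by decide +kernel)
def q90255 : Q := Q.p (nat_lit 0x3800000000000000000000000000000000000000000000000000000000000000) (nat_lit 0x60000380000460003fc000300000c0000000000000000000000000000000000000000000000) (nat_lit 7)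
theorem c90255 : QOK q90255 := cut [q85579, q90250, q90252] ⟨c85579, c90250, c90252, trivial⟩ (nd (nat_lit 228) (nat_lit 0) (cs (rf (nat_lit 0)) (cs (nd (nat_lit 250) (nat_lit 0) (cs (lf (nat_lit 23) (nat_lit 227)) (rf (nat_lit 1)))) (nd (nat_lit 254) (nat_lit 0) (cs (lf (nat_lit 22) (nat_lit 228)) (nd (nat_lit 232) (nat_lit 0) (cs (lf (nat_lit 17) (nat_lit 229)) (rf (nat_lit 2))))))))) q90255 (by decide +kernel)
def q90266 : Q := Q.p (nat_lit 0x3800006000000000000000000000000000000000000000000000000000000000) (nat_lit 0x600001c00007c000400000000000c0000700001c0000400000000000000000000000000000000000) (nat_lit 9)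
theorem c90266 : QOK q90266 := cut [q87151, q88302, q90202] ⟨c87151, c88302, c90202, trivial⟩ (nd (nat_lit 273) (nat_lit 0) (cs (rf (nat_lit 0)) (cs (rf (nat_lit 1)) (rf (nat_lit 2))))) q90266 (by decide +kernel)
def q90320 : Q := Q.p (nat_lit 0x3000006000000000000000000000000000000000000000000000000000000000) (nat_lit 0x1c0000780007c000008000798001ee0001a0000680000000000000000000000000000000000000000) (nat_lit 10)
theorem c90320 : QOK q90320 := cut [q84852, q87136, q90289, q90309] ⟨c84852, c87136, c90289, c90309, trivial⟩ (nd (nat_lit 231) (nat_lit 0) (cs (rf (nat_lit 0)) (cs (rf (nat_lit 1)) (cs (rf (nat_lit 2)) (rf (nat_lit 3)))))) q90320 (by decide +kernel)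
def q90342 : Q := Q.p (nat_lit 0x3000004000000000000000000000000000000000000000000000000000000000) (nat_lit 0x20000380000e0000380000f800048000020000380000e0000380000a00000000000000000000000000000000000) (nat_lit 12)
theorem c90342 : QOK q90342 := cut [q3991, q79029, q87165, q87166, q84156, q90325, q90331, q90334] ⟨c3991, c79029, c87165, c87166, c84156, c90325, c90331, c90334, trivial⟩ (nd (nat_lit 208) (nat_lit 0) (cs (rf (nat_lit 0)) (cs (rf (nat_lit 1)) (cs (rf (nat_lit 2)) (cs (rf (nat_lit 3)) (nd (nat_lit 274) (nat_lit 0) (cs (rf (nat_lit 4)) (cs (rf (nat_lit 5)) (cs (nd (nat_lit 187) (nat_lit 0) (cs (lf (nat_lit 34) (nat_lit 186)) (rf (nat_lit 6)))) (nd (nat_lit 187) (nat_lit 0) (cs (lf (nat_lit 34) (nat_lit 186)) (rf (nat_lit 7))))))))))))) q90342 (by decide +kernel)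
def q90346 : Q := Q.p (nat_lit 0x3800006000000000000000000000000000000000000000000000000000000000) (nat_lit 0xc0000b0000400000000001c0000f00003c0000a00000000000000000000000000000000000) (nat_lit 7)
theorem c90346 : QOK q90346 := cut [q79029, q88848, q90345] ⟨c79029, c88848, c90345, trivial⟩ (nd (nat_lit 208) (nat_lit 0) (cs (rf (nat_lit 0)) (cs (rf (nat_lit 1)) (rf (nat_lit 2))))) q90346 (by decide +kernel)
def q90442 : Q := Q.p (nat_lit 0x300000e000000000000000000000000000000000000000000000000000000000) (nat_lit 0x2000008000008000700000ec000100000400000000000000000000000000000000000000000) (nat_lit 6)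
theorem c90442 : QOK q90442 := cut [q87131, q90441] ⟨c87131, c90441, trivial⟩ (nd (nat_lit 232) (nat_lit 0) (cs (rf (nat_lit 0)) (rf (nat_lit 1)))) q90442 (by decide +kernel)
def q90501 : Q := Q.p (nat_lit 0x3000004000030000000000000000000000000000000000000000000000000000) (nat_lit 0x600007c0000480007bc000cf00033c000080000200000000000000000000000000000000000) (nat_lit 9)
theorem c90501 : QOK q90501 := cut [q1411, q119, q90494, q13362, q87523, q10794] ⟨c1411, c119, c90494, c13362, c87523, c10794, trivial⟩ (nd (nat_lit 207) (nat_lit 0) (cs (rf (nat_lit 0)) (cs (nd (nat_lit 231) (nat_lit 0) (cs (rf (nat_lit 1)) (nd (nat_lit 275) (nat_lit 0) (cs (lf (nat_lit 42) (nat_lit 208)) (nd (nat_lit 188) (nat_lit 0) (cs (lf (nat_lit 34) (nat_lit 187)) (nd (nat_lit 276) (nat_lit 0) (cs (lf (nat_lit 29) (nat_lit 209)) (rf (nat_lit 2)))))))))) (nd (nat_lit 229) (nat_lit 0) (cs (rf (nat_lit 3)) (cs (rf (nat_lit 4)) (nd (nat_lit 163) (nat_lit 0) (cs (lf (nat_lit 25) (nat_lit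 163)) (rf (nat_lit 5)))))))))) q90501 (by decide +kernel)
def q90522 : Q := Q.p (nat_lit 0x3000004000010000000000000000000000000000000000000000000000000000) (nat_lit 0x20000380000e0000780007f80004800008000020000080000000000000000000000000000000000000000000000) (nat_lit 10)
theorem c90522 : QOK q90522 := cut [q90334, q90488, q90519, q90521] ⟨c90334, c90488, c90519, c90521, trivial⟩ (nd (nat_lit 274) (nat_lit 0) (cs (rf (nat_lit 0)) (cs (rf (nat_lit 1)) (cs (rf (nat_lit 2)) (rf (nat_lit 3)))))) q90522 (by decide +kernel)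
def q90536 : Q := Q.p (nat_lit 0x400003000004000010000000000000000000000000000000000000000000000000000) (nat_lit 0x1de0007b8000400000a0001e80001a0000000000000000000000000000000000000000000000) (nat_lit 13)
theorem c90536 : QOK q90536 := cut [q90531] ⟨c90531, trivial⟩ (nd (nat_lit 185) (nat_lit 0) (cs (lf (nat_lit 46) (nat_lit 185)) (nd (nat_lit 273) (nat_lit 0) (cs (lf (nat_lit 41) (nat_lit 207)) (nd (nat_lit 272) (nat_lit 0) (cs (lf (nat_lit 12) (nat_lit 249)) (nd (nat_lit 275) (nat_lit 0) (cs (lf (nat_lit 17) (nat_lit 250)) (nd (nat_lit 293) (nat_lit 0) (cs (lf (nat_lit 10) (nat_lit 271)) (rf (nat_lit 0)))))))))))) q90536 (by decide +kernel)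
def q90558 : Q := Q.p (nat_lit 0x400003000004000010000000000000000000000000000000000000000000000000000) (nat_lit 0x10000040000180000b8000080000a0000280000a0000000000000000000000000000000000000000000000) (nat_lit 8)
theorem c90558 : QOK q90558 := cut [q4052] ⟨c4052, trivial⟩ (nd (nat_lit 273) (nat_lit 0) (cs (lf (nat_lit 41) (nat_lit 207)) (nd (nat_lit 271) (nat_lit 0) (cs (lf (nat_lit 13) (nat_lit 249)) (nd (nat_lit 207) (nat_lit 0) (cs (lf (nat_lit 47) (nat_lit 185)) (rf (nat_lit 0)))))))) q90558 (by decide +kernel)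
def q90633 : Q := Q.p (nat_lit 0x800003000000000000000000000000000000000000000000000000000000000000000) (nat_lit 0x7c0001f0000fc00077c0004e00037c00044000100000000000000000000000000000000000000000000000) (nat_lit 9)
theorem c90633 : QOK q90633 := cut [q2091, q89735, q88302, q89798, q90621, q90630, q90632] ⟨c2091, c89735, c88302, c89798, c90621, c90630, c90632, trivial⟩ (nd (nat_lit 251) (nat_lit 0) (cs (rf (nat_lit 0)) (cs (rf (nat_lit 1)) (cs (nd (nat_lit 273) (nat_lit 0) (cs (rf (nat_lit 2)) (cs (rf (nat_lit 3)) (cs (rf (nat_lit 4)) (rf (nat_lit 5)))))) (rf (nat_lit 6)))))) q90633 (by decide +kernel)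
def q90669 : Q := Q.p (nat_lit 0x300000800003000000000000000000000000000000000000000000000000000000000000000) (nat_lit 0x4000000000040000000000c0000600001c0000700000400000000000000000000000000000000000) (nat_lit 7)
theorem c90669 : QOK q90669 := cut [q90603] ⟨c90603, trivial⟩ (nd (nat_lit 231) (nat_lit 0) (cs (lf (nat_lit 41) (nat_lit 230)) (rf (nat_lit 0)))) q90669 (by decide +kernel)
def q90707 : Q := Q.p (nat_lit 0x800003000000000000000000000000000000000000000000000000000000000000000) (nat_lit 0x140000700001c0000780007400000c0007c000060000180000000000000000000000000000000000000000000000) (nat_lit 8)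
theorem c90707 : QOK q90707 := cut [q89626, q90572, q90674, q90702, q90706] ⟨c89626, c90572, c90674, c90702, c90706, trivial⟩ (nd (nat_lit 297) (nat_lit 0) (cs (rf (nat_lit 0)) (cs (rf (nat_lit 1)) (cs (rf (nat_lit 2)) (cs (rf (nat_lit 3)) (rf (nat_lit 4))))))) q90707 (by decide +kernel)
def q90735 : Q := Q.p (nat_lit 0x800003000000000000000000000000000000000000000000000000000000000000000) (nat_lit 0x780003f0000fe00077c0004e0003bc0006c000100000000000000000000000000000000000000000000000) (nat_lit 13)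
theorem c90735 : QOK q90735 := cut [q2091, q89735, q89928, q88302, q89798, q4050, q15961, q90710, q90720, q90721, q89815, q90729, q90731] ⟨c2091, c89735, c89928, c88302, c89798, c4050, c15961, c90710, c90720, c90721, c89815, c90729, c90731, trivial⟩ (nd (nat_lit 251) (nat_lit 0) (cs (rf (nat_lit 0)) (cs (rf (nat_lit 1)) (cs (rf (nat_lit 2)) (nd (nat_lit 273) (nat_lit 0) (cs (rf (nat_lit 3)) (cs (rf (nat_lit 4)) (cs (nd (nat_lit 274) (nat_lit 0) (cs (nd (nat_lit 296) (nat_lit 0) (cs (rf (nat_lit 5)) (cs (rf (nat_lit 6)) (nd (nat_lit 229) (nat_lit 0) (cs (lf (nat_lit 24) (nat_lit 207)) (nd (nat_lit 209) (nat_lit 0) (cs (lf (nat_lit 37) (nat_lit 208)) (rf (nat_lit 7))))))))) (cs (rf (nat_lit 8)) (rf (nat_lit 9))))) (nd (nat_lit 274) (nat_lit 0) (cs (rf (nat_lit 10)) (cs (rf (nat_lit 9)) (cs (rf (nat_lit 11)) (nd (nat_lit 271) (nat_lit 0) (cs (lf (nat_lit 13) (nat_lit 249)) (rf (nat_lit 12)))))))))))))))) q90735 (by decide +kernel)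
def q90756 : Q := Q.p (nat_lit 0x700000800003000000000000000000000000000000000000000000000000000000000000000) (nat_lit 0xe200018c000f780000000006000018000000000000000000000000000000000000000000000000000) (nat_lit 6)
theorem c90756 : QOK q90756 := cut [q89030, q89033, q89455] ⟨c89030, c89033, c89455, trivial⟩ (nd (nat_lit 274) (nat_lit 0) (cs (rf (nat_lit 0)) (cs (rf (nat_lit 1)) (rf (nat_lit 2))))) q90756 (by decide +kernel)
def q90777 : Q := Q.p (nat_lit 0x3800002000000000000000000000000000000000000000000000000000000000) (nat_lit 0xc0000fc0000000005c0001c0003f00003c0000500000000000000000000000000000000000) (nat_lit 10)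
theorem c90777 : QOK q90777 := cut [q5482, q11484, q80450, q89688, q11856, q85373] ⟨c5482, c11484, c80450, c89688, c11856, c85373, trivial⟩ (nd (nat_lit 207) (nat_lit 0) (cs (rf (nat_lit 0)) (cs (rf (nat_lit 1)) (cs (rf (nat_lit 2)) (cs (rf (nat_lit 3)) (nd (nat_lit 273) (nat_lit 0) (cs (rf (nat_lit 4)) (rf (nat_lit 5))))))))) q90777 (by decide +kernel)
def q90903 : Q := Q.p (nat_lit 0x800003000008000020000000000000000000000000000000000000000000000000000) (nat_lit 0x40000700001c0000200000400000000014000050000140000000000000000000000000000000000000000000000) (nat_lit 8)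
theorem c90903 : QOK q90903 := cut [q90702] ⟨c90702, trivial⟩ (nd (nat_lit 210) (nat_lit 0) (cs (lf (nat_lit 35) (nat_lit 187)) (nd (nat_lit 186) (nat_lit 0) (cs (lf (nat_lit 46) (nat_lit 186)) (nd (nat_lit 297) (nat_lit 0) (cs (lf (nat_lit 34) (nat_lit 209)) (rf (nat_lit 0)))))))) q90903 (by decide +kernel)
def q90909 : Q := Q.p (nat_lit 0x200003800000000000000000000000000000000000000000000000000000000000000) (nat_lit 0x400001c0000f00000f000058000000000780001c000070000000000000000000000000000000000000000000000) (nat_lit 9)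
theorem c90909 : QOK q90909 := cut [q80583, q90036, q85426, q88800, q89845] ⟨c80583, c90036, c85426, c88800, c89845, trivial⟩ (nd (nat_lit 295) (nat_lit 0) (cs (rf (nat_lit 0)) (cs (rf (nat_lit 1)) (nd (nat_lit 229) (nat_lit 0) (cs (rf (nat_lit 2)) (cs (rf (nat_lit 3)) (rf (nat_lit 4)))))))) q90909 (by decide +kernel)
def q90911 : Q := Q.p (nat_lit 0x200003800008000000000000000000000000000000000000000000000000000000000) (nat_lit 0x20000080000400004000037c000dc0001300004c0000000000000000000000000000000000000000) (nat_lit 8)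
theorem c90911 : QOK q90911 := cut [q82198, q82584, q85430, q88829] ⟨c82198, c82584, c85430, c88829, trivial⟩ (nd (nat_lit 229) (nat_lit 0) (cs (rf (nat_lit 0)) (cs (rf (nat_lit 1)) (nd (nat_lit 230) (nat_lit 0) (cs (rf (nat_lit 2)) (rf (nat_lit 3))))))) q90911 (by decide +kernel)
def q90993 : Q := Q.p (nat_lit 0x2000008000060000000000000000000000000000000000000000000000000000) (nat_lit 0x800000000077c0019e000e7c000100000400000000000000000000000000000000000) (nat_lit 9)
theorem c90993 : QOK q90993 := cut [q1563, q85116, q90992] ⟨c1563, c85116, c90992, trivial⟩ (nd (nat_lit 208) (nat_lit 0) (cs (rf (nat_lit 0)) (cs (rf (nat_lit 1)) (rf (nat_lit 2))))) q90993 (by decide +kernel)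
def q91031 : Q := Q.p (nat_lit 0x3000008000030000000000000000000000000000000000000000000000000000) (nat_lit 0x500003c00000c00000000040000140000000000000000000000000000000000000000000000) (nat_lit 6)
theorem c91031 : QOK q91031 := cut [q91030] ⟨c91030, trivial⟩ (nd (nat_lit 275) (nat_lit 0) (cs (lf (nat_lit 47) (nat_lit 186)) (rf (nat_lit 0)))) q91031 (by decide +kernel)
def q91043 : Q := Q.p (nat_lit 0x3000008000000000000000000000000000000000000000000000000000000000) (nat_lit 0x100000500007fc0004e00075c000300001c0000700001000000000000000000000000000000000000) (nat_lit 7)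
theorem c91043 : QOK q91043 := cut [q82275, q89695, q91042] ⟨c82275, c89695, c91042, trivial⟩ (nd (nat_lit 251) (nat_lit 0) (cs (rf (nat_lit 0)) (cs (rf (nat_lit 1)) (rf (nat_lit 2))))) q91043 (by decide +kernel)
def q91044 : Q := Q.p (nat_lit 0x2000008000030000000000000000000000000000000000000000000000000000) (nat_lit 0x800000000077c001ce000f3c000400001000000000000000000000000000000000000) (nat_lit 9)
theorem c91044 : QOK q91044 := cut [q7463, q7464, q90992] ⟨c7463, c7464, c90992, trivial⟩ (nd (nat_lit 210) (nat_lit 0) (cs (rf (nat_lit 0)) (cs (rf (nat_lit 1)) (rf (nat_lit 2))))) q91044 (by decide +kernel)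
def q91056 : Q := Q.p (nat_lit 0x3000008000030000000000000000000000000000000000000000000000000000) (nat_lit 0x180000780000e000140000ce000078000180000000000000000000000000000000000000000) (nat_lit 8)
theorem c91056 : QOK q91056 := cut [q11001, q11004, q11007, q91025] ⟨c11001, c11004, c11007, c91025, trivial⟩ (nd (nat_lit 230) (nat_lit 0) (cs (rf (nat_lit 0)) (cs (rf (nat_lit 1)) (cs (rf (nat_lit 2)) (rf (nat_lit 3)))))) q91056 (by decide +kernel)
def q91083 : Q := Q.p (nat_lit 0x1800007800000000000000000000000000000000000000000000000000000000000000) (nat_lit 0xc0000300000c000000000000000380000e0000380000000000000000000000000000000000000000000000) (nat_lit 8)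
theorem c91083 : QOK q91083 := cut [q91082] ⟨c91082, trivial⟩ (nd (nat_lit 232) (nat_lit 0) (cs (lf (nat_lit 17) (nat_lit 229)) (rf (nat_lit 0)))) q91083 (by decide +kernel)
def q91110 : Q := Q.p (nat_lit 0x800003000000000000000000000000000000000000000000000000000000000000000) (nat_lit 0x40000700001c0001f80007780004c000780000600001c0000700001400000000000000000000000000000000000) (nat_lit 8)
theorem c91110 : QOK q91110 := cut [q88742, q88915, q91098, q91100, q91101, q90635, q90638, q84370, q90797, q82301, q86315, q88775, q91107] ⟨c88742, c88915, c91098, c91100, c91101, c90635, c90638, c84370, c90797, c82301, c86315, c88775, c91107, trivial⟩ (nd (nat_lit 276) (nat_lit 0) (cs (rf (nat_lit 0)) (cs (rf (nat_lit 1)) (cs (nd (nat_lit 274) (nat_lit 0) (cs (rf (nat_lit 2)) (cs (rf (nat_lit 3)) (rf (nat_lit 4))))) (nd (nat_lit 231) (nat_lit 0) (cs (rf (nat_lit 5)) (cs (rf (nat_lit 6)) (cs (nd (nat_lit 297) (nat_lit 0) (cs (rf (nat_lit 7)) (rf (nat_lit 8)))) (cs (nd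 (nat_lit 209) (nat_lit 0) (cs (rf (nat_lit 9)) (cs (rf (nat_lit 10)) (rf (nat_lit 11))))) (nd (nat_lit 250) (nat_lit 0) (cs (lf (nat_lit 1) (nat_lit 250)) (rf (nat_lit 12))))))))))))) q91110 (by decide +kernel)
def q91112 : Q := Q.p (nat_lit 0x800003000000000000000000000000000000000000000000000000000000000000000) (nat_lit 0x40000700001c0000600001400004c0007c000070000140000000000000000000000000000000000000000000000) (nat_lit 6)
theorem c91112 : QOK q91112 := cut [q88933, q89530, q91111] ⟨c88933, c89530, c91111, trivial⟩ (nd (nat_lit 297) (nat_lit 0) (cs (rf (nat_lit 0)) (cs (rf (nat_lit 1)) (rf (nat_lit 2))))) q91112 (by decide +kernel)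
def q91114 : Q := Q.p (nat_lit 0x300000800003000000000000000000000000000000000000000000000000000000000000000) (nat_lit 0x120000cc000370000000000e000038000000000000000000000000000000000000000000000000000) (nat_lit 6)
theorem c91114 : QOK q91114 := cut [q86434, q89455] ⟨c86434, c89455, trivial⟩ (nd (nat_lit 274) (nat_lit 0) (cs (rf (nat_lit 0)) (rf (nat_lit 1)))) q91114 (by decide +kernel)
def q91143 : Q := Q.p (nat_lit 0x380001a000000000000000000000000000000000000000000000000000000000) (nat_lit 0x1800006000038000040000010000c0000300000c00000000000000000000000000000000000000000) (nat_lit 8)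
theorem c91143 : QOK q91143 := cut [q88782] ⟨c88782, trivial⟩ (nd (nat_lit 254) (nat_lit 0) (cs (lf (nat_lit 23) (nat_lit 228)) (rf (nat_lit 0)))) q91143 (by decide +kernel)
def q91163 : Q := Q.p (nat_lit 0x3000008000020000000000000000000000000000000000000000000000000000) (nat_lit 0x1f00007c00004c00070000040000100000000000000000000000000000000000000000000000) (nat_lit 8)
theorem c91163 : QOK q91163 := cut [q88739, q88743, q88758, q88812] ⟨c88739, c88743, c88758, c88812, trivial⟩ (nd (nat_lit 275) (nat_lit 0) (cs (rf (nat_lit 0)) (cs (rf (nat_lit 1)) (cs (rf (nat_lit 2)) (rf (nat_lit 3)))))) q91163 (by decide +kernel)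
def q91176 : Q := Q.p (nat_lit 0x3000008000000000000000000000000000000000000000000000000000000000) (nat_lit 0x100001c0000780007800004c000778003fc0001c0000700000400000000000000000000000000000000000) (nat_lit 8)
theorem c91176 : QOK q91176 := cut [q86313, q86631, q12221, q88863, q91168, q91171, q87016, q88743, q90602, q91174] ⟨c86313, c86631, c12221, c88863, c91168, c91171, c87016, c88743, c90602, c91174, trivial⟩ (nd (nat_lit 232) (nat_lit 0) (cs (rf (nat_lit 0)) (cs (rf (nat_lit 1)) (cs (nd (nat_lit 230) (nat_lit 0) (cs (nd (nat_lit 210) (nat_lit 0) (cs (rf (nat_lit 2)) (rf (nat_lit 3)))) (cs (rf (nat_lit 4)) (rf (nat_lit 5))))) (nd (nat_lit 275) (nat_lit 0) (cs (rf (nat_lit 6)) (cs (nd (nat_lit 209) (nat_lit 0) (cs (rf (nat_lit 7)) (rf (nat_lit 8)))) (rf (nat_lit 9))))))))) q91176 (by decide +kernel)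
def q91203 : Q := Q.p (nat_lit 0x3000008000000000000000000000000000000000000000000000000000000000) (nat_lit 0x100000700007c00004e00077c000300001c0000700001000000000000000000000000000000000000) (nat_lit 7)
theorem c91203 : QOK q91203 := cut [q82275, q82278, q91042, q91142] ⟨c82275, c82278, c91042, c91142, trivial⟩ (nd (nat_lit 251) (nat_lit 0) (cs (rf (nat_lit 0)) (cs (rf (nat_lit 1)) (cs (rf (nat_lit 2)) (rf (nat_lit 3)))))) q91203 (by decide +kernel)
def q91282 : Q := Q.p (nat_lit 0x3000008000000000000000000000000000000000000000000000000000000000) (nat_lit 0x4000035c0004e00077c000ff000ff8000ff0001500000000000000000000000000000000000) (nat_lit 13)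
theorem c91282 : QOK q91282 := cut [q82300, q88751, q91268, q86313, q86631, q4090, q82299, q84587, q91270, q91271, q91276] ⟨c82300, c88751, c91268, c86313, c86631, c4090, c82299, c84587, c91270, c91271, c91276, trivial⟩ (nd (nat_lit 209) (nat_lit 0) (cs (rf (nat_lit 0)) (cs (rf (nat_lit 1)) (cs (rf (nat_lit 2)) (nd (nat_lit 232) (nat_lit 0) (cs (rf (nat_lit 3)) (cs (rf (nat_lit 4)) (nd (nat_lit 187) (nat_lit 0) (cs (rf (nat_lit 5)) (cs (rf (nat_lit 6)) (nd (nat_lit 186) (nat_lit 0) (cs (lf (nat_lit 47) (nat_lit 164)) (nd (nat_lit 185) (nat_lit 0) (cs (rf (nat_lit 7)) (cs (rf (nat_lit 8)) (cs (nd (nat_lit 188) (nat_lit 0) (cs (lf (nat_lit 35) (nat_lit 165)) (nd (nat_lit 254) (nat_lit 0) (cs (lf (nat_lit 29) (nat_lit 187)) (nd (nat_lit 162) (nat_lit 0) (cs (lf (nat_lit 22) (nat_lit 162)) (nd (nat_lit 206) (nat_lit 0) (cs (lf (nat_lit 10) (nat_lit 184)) (rf (nat_lit 9)))))))))) (nd (nat_lit 166) (nat_lit 0) (cs (lf (nat_lit 34) (nat_lit 165)) (rf (nat_lit 10))))))))))))))))))))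 q91282 (by decide +kernel)
def q91295 : Q := Q.p (nat_lit 0x3000008000000000000000000000000000000000000000000000000000000000) (nat_lit 0x40000700001c0000740007d80004e0000780007e0001f8000700001400000000000000000000000000000000000) (nat_lit 15)
theorem c91295 : QOK q91295 := cut [q82300, q82309, q88756, q88771, q84964, q88743, q91283] ⟨c82300, c82309, c88756, c88771, c84964, c88743, c91283, trivial⟩ (nd (nat_lit 209) (nat_lit 0) (cs (rf (nat_lit 0)) (cs (rf (nat_lit 1)) (cs (rf (nat_lit 2)) (cs (rf (nat_lit 3)) (nd (nat_lit 275) (nat_lit 0) (cs (rf (nat_lit 4)) (cs (rf (nat_lit 5)) (nd (nat_lit 274) (nat_lit 0) (cs (lf (nat_lit 41) (nat_lit 208)) (nd (nat_lit 188) (nat_lit 0) (cs (lf (nat_lit 34) (nat_lit 187)) (nd (nat_lit 208) (nat_lit 0) (cs (lf (nat_lit 47) (nat_lit 186)) (nd (nat_lit 230) (nat_lit 0) (cs (lf (nat_lit 42) (nat_lit 208)) (nd (nat_lit 207) (nat_lit 0) (cs (lf (nat_lit 47) (nat_lit 185)) (nd (nat_lit 206) (nat_lit 0) (cs (lf (nat_lit 0) (nat_lit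 205)) (nd (nat_lit 183) (nat_lit 0) (cs (lf (nat_lit 22) (nat_lit 183)) (nd (nat_lit 228) (nat_lit 0) (cs (lf (nat_lit 11) (nat_lit 205)) (nd (nat_lit 229) (nat_lit 0) (cs (lf (nat_lit 5) (nat_lit 228)) (nd (nat_lit 250) (nat_lit 0) (cs (lf (nat_lit 11) (nat_lit 227)) (rf (nat_lit 6)))))))))))))))))))))))))))))) q91295 (by decide +kernel)
def q91302 : Q := Q.p (nat_lit 0x3000008000000000000000000000000000000000000000000000000000000000) (nat_lit 0x1c0000700003dc0004e00077c0007c0000f00003c0000500000000000000000000000000000000000) (nat_lit 10)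
theorem c91302 : QOK q91302 := cut [q82309, q88775, q91187, q91268, q88927, q91298, q91300] ⟨c82309, c88775, c91187, c91268, c88927, c91298, c91300, trivial⟩ (nd (nat_lit 209) (nat_lit 0) (cs (rf (nat_lit 0)) (cs (rf (nat_lit 1)) (cs (rf (nat_lit 2)) (cs (rf (nat_lit 3)) (nd (nat_lit 186) (nat_lit 0) (cs (rf (nat_lit 4)) (cs (rf (nat_lit 5)) (rf (nat_lit 6)))))))))) q91302 (by decide +kernel)
def q91441 : Q := Q.p (nat_lit 0x3800008000000000000000000000000000000000000000000000000000000000) (nat_lit 0x40000700001e0001f80003f000000000778000f80001a0000000000000000000000000000000000000000000000) (nat_lit 10)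
theorem c91441 : QOK q91441 := cut [q80881, q81837, q91409, q88898, q91380, q91431, q91440] ⟨c80881, c81837, c91409, c88898, c91380, c91431, c91440, trivial⟩ (nd (nat_lit 274) (nat_lit 0) (cs (rf (nat_lit 0)) (cs (rf (nat_lit 1)) (cs (rf (nat_lit 2)) (cs (nd (nat_lit 275) (nat_lit 0) (cs (rf (nat_lit 3)) (cs (rf (nat_lit 4)) (rf (nat_lit 5))))) (rf (nat_lit 6))))))) q91441 (by decide +kernel)
def q91494 : Q := Q.p (nat_lit 0x3000004000000000000000000000000000000000000000000000000000000000) (nat_lit 0x80000380000f8000400000b80007c0003e0000380000a00000000000000000000000000000000000) (nat_lit 9)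
theorem c91494 : QOK q91494 := cut [q6259, q79066, q90525, q91492] ⟨c6259, c79066, c90525, c91492, trivial⟩ (nd (nat_lit 208) (nat_lit 0) (cs (rf (nat_lit 0)) (cs (rf (nat_lit 1)) (cs (rf (nat_lit 2)) (rf (nat_lit 3)))))) q91494 (by decide +kernel)
def q91515 : Q := Q.p (nat_lit 0x3000006000000000000000000000000000000000000000000000000000000000) (nat_lit 0x1000004000008000798001ee0001a0000680000000000000000000000000000000000000000) (nat_lit 8)
theorem c91515 : QOK q91515 := cut [q84852, q87953, q90289] ⟨c84852, c87953, c90289, trivial⟩ (nd (nat_lit 231) (nat_lit 0) (cs (rf (nat_lit 0)) (cs (rf (nat_lit 1)) (rf (nat_lit 2))))) q91515 (by decide +kernel)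
def q91554 : Q := Q.p (nat_lit 0x3000004000010000000000000000000000000000000000000000000000000000) (nat_lit 0x3c0004e0003bc000000000c0000300000800000000000000000000000000000000000) (nat_lit 7)
theorem c91554 : QOK q91554 := cut [q6271, q89876, q91553] ⟨c6271, c89876, c91553, trivial⟩ (nd (nat_lit 251) (nat_lit 0) (cs (rf (nat_lit 0)) (cs (rf (nat_lit 1)) (rf (nat_lit 2))))) q91554 (by decide +kernel)
def q91589 : Q := Q.p (nat_lit 0x3800000000000000000000000000000000000000000000000000000000000000) (nat_lit 0x40000100000e7000478003ff00008000020000000000000000000000000000000000000000000000) (nat_lit 9)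
theorem c91589 : QOK q91589 := cut [q89874, q44423, q56446, q91585, q83659] ⟨c89874, c44423, c56446, c91585, c83659, trivial⟩ (nd (nat_lit 250) (nat_lit 0) (cs (rf (nat_lit 0)) (cs (nd (nat_lit 274) (nat_lit 0) (cs (rf (nat_lit 1)) (cs (nd (nat_lit 249) (nat_lit 0) (cs (lf (nat_lit 5) (nat_lit 249)) (nd (nat_lit 248) (nat_lit 0) (cs (lf (nat_lit 4) (nat_lit 248)) (rf (nat_lit 2)))))) (rf (nat_lit 3))))) (nd (nat_lit 231) (nat_lit 0) (cs (lf (nat_lit 17) (nat_lit 228)) (nd (nat_lit 249) (nat_lit 0) (cs (lf (nat_lit 16) (nat_lit 227)) (rf (nat_lit 4))))))))) q91589 (by decide +kernel)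
def q91591 : Q := Q.p (nat_lit 0x800003000008000000000000000000000000000000000000000000000000000000000) (nat_lit 0x40000700001c00006000004000000000040000700001c0000700001400000000000000000000000000000000000) (nat_lit 8)
theorem c91591 : QOK q91591 := cut [q82300, q82301, q84964, q90602] ⟨c82300, c82301, c84964, c90602, trivial⟩ (nd (nat_lit 209) (nat_lit 0) (cs (rf (nat_lit 0)) (cs (rf (nat_lit 1)) (cs (rf (nat_lit 2)) (rf (nat_lit 3)))))) q91591 (by decide +kernel)
def q91655 : Q := Q.p (nat_lit 0xc00003800000000000000000000000000000000000000000000000000000000000000) (nat_lit 0x40000180004600003800008000020000000000000000000000000000000000000000000000) (nat_lit 6)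
theorem c91655 : QOK q91655 := cut [q90807] ⟨c90807, trivial⟩ (nd (nat_lit 250) (nat_lit 0) (cs (lf (nat_lit 0) (nat_lit 249)) (rf (nat_lit 0)))) q91655 (by decide +kernel)
def q91660 : Q := Q.p (nat_lit 0xe00003000000000000000000000000000000000000000000000000000000000000000) (nat_lit 0x40000120000cc0003000000e00007c00014000010000000000000000000000000000000000000000000000) (nat_lit 7)
theorem c91660 : QOK q91660 := cut [q2091, q14769, q89807] ⟨c2091, c14769, c89807, trivial⟩ (nd (nat_lit 251) (nat_lit 0) (cs (rf (nat_lit 0)) (cs (rf (nat_lit 1)) (rf (nat_lit 2))))) q91660 (by decide +kernel)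
def q91664 : Q := Q.p (nat_lit 0xe00003000000000000000000000000000000000000000000000000000000000000000) (nat_lit 0xe0001180000e00001800004000010000000000000000000000000000000000000000000000) (nat_lit 7)
theorem c91664 : QOK q91664 := cut [q14899] ⟨c14899, trivial⟩ (nd (nat_lit 272) (nat_lit 0) (cs (lf (nat_lit 12) (nat_lit 249)) (nd (nat_lit 293) (nat_lit 0) (cs (lf (nat_lit 10) (nat_lit 271)) (rf (nat_lit 0)))))) q91664 (by decide +kernel)
def q91685 : Q := Q.p (nat_lit 0x400003000000000000000000000000000000000000000000000000000000000000000) (nat_lit 0x380000e0000380001800004e0000f8000380000e0000000000000000000000000000000000000000000000) (nat_lit 8)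
theorem c91685 : QOK q91685 := cut [q80649, q81014, q91621, q80653, q89096, q91682] ⟨c80649, c81014, c91621, c80653, c89096, c91682, trivial⟩ (nd (nat_lit 296) (nat_lit 0) (cs (rf (nat_lit 0)) (cs (rf (nat_lit 1)) (cs (rf (nat_lit 2)) (nd (nat_lit 230) (nat_lit 0) (cs (rf (nat_lit 3)) (cs (rf (nat_lit 4)) (nd (nat_lit 295) (nat_lit 0) (cs (lf (nat_lit 41) (nat_lit 229)) (rf (nat_lit 5))))))))))) q91685 (by decide +kernel)
def q91777 : Q := Q.p (nat_lit 0x100000400003000000000000000000000000000000000000000000000000000000000000000) (nat_lit 0x40000000003bc0004e00003c00008000020000000000000000000000000000000000000000000000) (nat_lit 7)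
theorem c91777 : QOK q91777 := cut [q40802, q89691, q89695] ⟨c40802, c89691, c89695, trivial⟩ (nd (nat_lit 251) (nat_lit 0) (cs (rf (nat_lit 0)) (cs (rf (nat_lit 1)) (rf (nat_lit 2))))) q91777 (by decide +kernel)
def q91788 : Q := Q.p (nat_lit 0x600003000000000000000000000000000000000000000000000000000000000000000) (nat_lit 0x80000680001980000e00005800014000010000000000000000000000000000000000000000000000) (nat_lit 7)
theorem c91788 : QOK q91788 := cut [q14899, q88426] ⟨c14899, c88426, trivial⟩ (nd (nat_lit 272) (nat_lit 0) (cs (lf (nat_lit 12) (nat_lit 249)) (nd (nat_lit 275) (nat_lit 0) (cs (rf (nat_lit 0)) (rf (nat_lit 1)))))) q91788 (by decide +kernel)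
def q91813 : Q := Q.p (nat_lit 0x400003000000000000000000000000000000000000000000000000000000000000000) (nat_lit 0xa00003a0000f8000ff8001fc000fb8000480000c0000380000e0000000000000000000000000000000000000000000000) (nat_lit 12)
theorem c91813 : QOK q91813 := cut [q80649, q81820, q91805, q42165, q91618, q88744] ⟨c80649, c81820, c91805, c42165, c91618, c88744, trivial⟩ (nd (nat_lit 296) (nat_lit 0) (cs (rf (nat_lit 0)) (cs (rf (nat_lit 1)) (cs (rf (nat_lit 2)) (nd (nat_lit 318) (nat_lit 0) (cs (rf (nat_lit 3)) (cs (rf (nat_lit 4)) (nd (nat_lit 275) (nat_lit 0) (cs (lf (nat_lit 30) (nat_lit 252)) (nd (nat_lit 319) (nat_lit 0) (cs (lf (nat_lit 29) (nat_lit 252)) (nd (nat_lit 230) (nat_lit 0) (cs (lf (nat_lit 43) (nat_lit 230)) (nd (nat_lit 208) (nat_lit 0) (cs (lf (nat_lit 24) (nat_lit 186)) (nd (nat_lit 185) (nat_lit 0) (cs (lf (nat_lit 46) (nat_lit 185)) (nd (nat_lit 187) (nat_lit 0) (cs (lf (nat_lit 34) (nat_lit 186)) (rf (nat_lit 5))))))))))))))))))))) q91813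 (by decide +kernel)
def q91832 : Q := Q.p (nat_lit 0x400003000000000000000000000000000000000000000000000000000000000000000) (nat_lit 0xa0000380000f8000ff8001fc000fb80000e0000e0000380000c0000000000000000000000000000000000000000000000) (nat_lit 12)
theorem c91832 : QOK q91832 := cut [q80649, q81014, q91621, q91805] ⟨c80649, c81014, c91621, c91805, trivial⟩ (nd (nat_lit 296) (nat_lit 0) (cs (rf (nat_lit 0)) (cs (rf (nat_lit 1)) (cs (rf (nat_lit 2)) (rf (nat_lit 3)))))) q91832 (by decide +kernel)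
def q91834 : Q := Q.p (nat_lit 0x400003000000000000000000000000000000000000000000000000000000000000000) (nat_lit 0xa0000380000f8000ff8001fc000fb8000480000e000030000080000000000000000000000000000000000000000000000) (nat_lit 12)
theorem c91834 : QOK q91834 := cut [q80649, q91673, q91805] ⟨c80649, c91673, c91805, trivial⟩ (nd (nat_lit 296) (nat_lit 0) (cs (rf (nat_lit 0)) (cs (rf (nat_lit 1)) (rf (nat_lit 2))))) q91834 (by decide +kernel)
def q91948 : Q := Q.p (nat_lit 0x300000c000000000000000000000000000000000000000000000000000000000) (nat_lit 0x1f0000fc0001f80000e000738001ce0001f00005c0000000000000000000000000000000000000000) (nat_lit 15)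
theorem c91948 : QOK q91948 := cut [q90289, q91912, q90273, q85305, q87807, q91940, q91947] ⟨c90289, c91912, c90273, c85305, c87807, c91940, c91947, trivial⟩ (nd (nat_lit 229) (nat_lit 0) (cs (rf (nat_lit 0)) (cs (rf (nat_lit 1)) (cs (nd (nat_lit 251) (nat_lit 0) (cs (rf (nat_lit 2)) (cs (nd (nat_lit 250) (nat_lit 0) (cs (lf (nat_lit 12) (nat_lit 227)) (nd (nat_lit 275) (nat_lit 0) (cs (lf (nat_lit 5) (nat_lit 250)) (nd (nat_lit 297) (nat_lit 0) (cs (lf (nat_lit 42) (nat_lit 230)) (nd (nat_lit 271) (nat_lit 0) (cs (lf (nat_lit 10) (nat_lit 249)) (nd (nat_lit 296) (nat_lit 0) (cs (lf (nat_lit 41) (nat_lit 230)) (nd (nat_lit 207) (nat_lit 0) (cs (lf (nat_lit 43) (nat_lit 207)) (nd (nat_lit 185) (nat_lit 0) (cs (lf (nat_lit 24) (nat_lit 163)) (nd (nat_lit 298) (nat_lit 0) (cs (lf (nat_lit 29) (nat_lit 231)) (nd (nat_lit 186) (nat_lit 0) (cs (lf (nat_lit 35) (nat_lit 163)) (rf (nat_lit 3)))))))))))))))))))) (cs (nd (nat_lit 250) (nat_lit 0) (cs (lf (nat_lit 12)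 (nat_lit 227)) (nd (nat_lit 227) (nat_lit 0) (cs (lf (nat_lit 1) (nat_lit 227)) (nd (nat_lit 275) (nat_lit 0) (cs (lf (nat_lit 5) (nat_lit 250)) (nd (nat_lit 272) (nat_lit 0) (cs (lf (nat_lit 11) (nat_lit 249)) (nd (nat_lit 207) (nat_lit 0) (cs (lf (nat_lit 36) (nat_lit 184)) (nd (nat_lit 294) (nat_lit 0) (cs (lf (nat_lit 30) (nat_lit 228)) (nd (nat_lit 296) (nat_lit 0) (cs (lf (nat_lit 43) (nat_lit 207)) (rf (nat_lit 4)))))))))))))))) (cs (nd (nat_lit 227) (nat_lit 0) (cs (lf (nat_lit 1) (nat_lit 227)) (nd (nat_lit 250) (nat_lit 0) (cs (lf (nat_lit 12) (nat_lit 227)) (nd (nat_lit 272) (nat_lit 0) (cs (lf (nat_lit 11) (nat_lit 249)) (nd (nat_lit 294) (nat_lit 0) (cs (lf (nat_lit 30) (nat_lit 228)) (nd (nat_lit 275) (nat_lit 0) (cs (lf (nat_lit 5) (nat_lit 250)) (nd (nat_lit 297) (nat_lit 0) (cs (lf (nat_lit 42) (nat_lit 230)) (nd (nat_lit 296) (nat_lit 0) (cs (lf (nat_lit 41) (nat_lit 230)) (nd (nat_lit 298) (nat_lit 0) (cs (lf (nat_lit 29) (nat_lit 231))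 (nd (nat_lit 273) (nat_lit 0) (cs (lf (nat_lit 2) (nat_lit 272)) (lf (nat_lit 21) (nat_lit 272)))))))))))))))))))) (nd (nat_lit 249) (nat_lit 0) (cs (lf (nat_lit 13) (nat_lit 227)) (rf (nat_lit 5))))))))) (rf (nat_lit 6)))))) q91948 (by decide +kernel)
def q92011 : Q := Q.p (nat_lit 0x300000c000010000000000000000000000000000000000000000000000000000) (nat_lit 0x18000078000000001000006e0007a0000600000800000000000000000000000000000000000) (nat_lit 7)
theorem c92011 : QOK q92011 := cut [q10803, q11001, q84998] ⟨c10803, c11001, c84998, trivial⟩ (nd (nat_lit 209) (nat_lit 0) (cs (rf (nat_lit 0)) (cs (rf (nat_lit 1)) (rf (nat_lit 2))))) q92011 (by decide +kernel)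
def q92018 : Q := Q.p (nat_lit 0x300000c000000000000000000000000000000000000000000000000000000000) (nat_lit 0x300000c0000300000c000738001fe0001700005c0000000000000000000000000000000000000000) (nat_lit 13)
theorem c92018 : QOK q92018 := cut [q87131, q89468, q4233, q91239, q87971] ⟨c87131, c89468, c4233, c91239, c87971, trivial⟩ (nd (nat_lit 232) (nat_lit 0) (cs (rf (nat_lit 0)) (cs (rf (nat_lit 1)) (nd (nat_lit 229) (nat_lit 0) (cs (rf (nat_lit 2)) (cs (rf (nat_lit 3)) (nd (nat_lit 251) (nat_lit 0) (cs (lf (nat_lit 11) (nat_lit 228)) (rf (nat_lit 4)))))))))) q92018 (by decide +kernel)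
def q92102 : Q := Q.p (nat_lit 0x3000008000020000080000000000000000000000000000000000000000000000) (nat_lit 0x100001c0000700001800000000004000040000100000400000000000000000000000000000000000000000) (nat_lit 7)
theorem c92102 : QOK q92102 := cut [q92101] ⟨c92101, trivial⟩ (nd (nat_lit 188) (nat_lit 0) (cs (lf (nat_lit 35) (nat_lit 165)) (rf (nat_lit 0)))) q92102 (by decide +kernel)
def q92154 : Q := Q.p (nat_lit 0x3800006000000000000000000000000000000000000000000000000000000000) (nat_lit 0xc0000300001c000046000380000ec000120000480000000000000000000000000000000000000000) (nat_lit 7)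
theorem c92154 : QOK q92154 := cut [q88829, q88865, q92152] ⟨c88829, c88865, c92152, trivial⟩ (nd (nat_lit 231) (nat_lit 0) (cs (rf (nat_lit 0)) (cs (rf (nat_lit 1)) (nd (nat_lit 250) (nat_lit 0) (cs (lf (nat_lit 12) (nat_lit 227)) (rf (nat_lit 2))))))) q92154 (by decide +kernel)
def q92156 : Q := Q.p (nat_lit 0x3c00006000000000000000000000000000000000000000000000000000000000) (nat_lit 0xc0000300001d80000000018000028000000000000000000000000000000000000000000000000000) (nat_lit 7)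
theorem c92156 : QOK q92156 := cut [q92155] ⟨c92155, trivial⟩ (nd (nat_lit 231) (nat_lit 0) (cs (lf (nat_lit 6) (nat_lit 228)) (rf (nat_lit 0)))) q92156 (by decide +kernel)
def q92208 : Q := Q.p (nat_lit 0x3000004000000000000000000000000000000000000000000000000000000000) (nat_lit 0x320001d80004e0001b8001fe0007f80007e0000a80000000000000000000000000000000000) (nat_lit 12)
theorem c92208 : QOK q92208 := cut [q6259, q79029, q79066, q90525, q10803, q87238, q84998, q85212, q87559, q86536, q88159, q3386, q17162, q3383, q92198, q91998, q92206] ⟨c6259, c79029, c79066, c90525, c10803, c87238, c84998, c85212, c87559, c86536, c88159, c3386, c17162, c3383, c92198, c91998, c92206, trivial⟩ (nd (nat_lit 208) (nat_lit 0) (cs (rf (nat_lit 0)) (cs (rf (nat_lit 1)) (cs (rf (nat_lit 2)) (cs (rf (nat_lit 3)) (nd (nat_lit 209) (nat_lit 0) (cs (rf (nat_lit 4)) (cs (rf (nat_lit 5)) (cs (nd (nat_lit 231) (nat_lit 0) (cs (rf (nat_lit 6)) (cs (rf (nat_lit 7)) (nd (nat_lit 228) (nat_lit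 0) (cs (rf (nat_lit 8)) (cs (nd (nat_lit 206) (nat_lit 0) (cs (nd (nat_lit 207) (nat_lit 0) (cs (lf (nat_lit 11) (nat_lit 205)) (lf (nat_lit 0) (nat_lit 205)))) (cs (nd (nat_lit 250) (nat_lit 0) (cs (rf (nat_lit 9)) (cs (rf (nat_lit 10)) (nd (nat_lit 184) (nat_lit 0) (cs (rf (nat_lit 11)) (cs (nd (nat_lit 271) (nat_lit 0) (cs (lf (nat_lit 40) (nat_lit 183)) (nd (nat_lit 165) (nat_lit 0) (cs (lf (nat_lit 37) (nat_lit 164)) (rf (nat_lit 12)))))) (nd (nat_lit 165) (nat_lit 0) (cs (lf (nat_lit 37) (nat_lit 164)) (nd (nat_lit 161) (nat_lit 0) (cs (lf (nat_lit 46) (nat_lit 161)) (nd (nat_lit 162) (nat_lit 0) (cs (lf (nat_lit 47) (nat_lit 139)) (rf (nat_lit 13)))))))))))))) (cs (nd (nat_lit 207) (nat_lit 0) (cs (lf (nat_lit 5) (nat_lit 206)) (lf (nat_lit 0) (nat_lit 205)))) (rf (nat_lit 14)))))) (nd (nat_lit 165) (nat_lit 0) (cs (lf (nat_lit 37) (nat_lit 164)) (nd (nat_lit 229) (nat_lit 0) (cs (lf (nat_lit 5) (nat_lit 228)) (nd (nat_lit 205) (nat_lit 0) (cs (lf (nat_lit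 22) (nat_lit 205)) (nd (nat_lit 275) (nat_lit 0) (cs (lf (nat_lit 42) (nat_lit 208)) (rf (nat_lit 15)))))))))))))))) (rf (nat_lit 16))))))))))) q92208 (by decide +kernel)
def q92234 : Q := Q.p (nat_lit 0x3000004000000000000000000000000000000000000000000000000000000000) (nat_lit 0x2c0001f80004e0007b8001fe0001e0000780000a00000000000000000000000000000000000) (nat_lit 14)
theorem c92234 : QOK q92234 := cut [q3991, q6259, q6561, q90265, q1411, q6938, q84623, q88025, q87559, q92217, q91283, q84417, q90275, q91947, q90512] ⟨c3991, c6259, c6561, c90265, c1411, c6938, c84623, c88025, c87559, c92217, c91283, c84417, c90275, c91947, c90512, trivial⟩ (nd (nat_lit 208) (nat_lit 0) (cs (rf (nat_lit 0)) (cs (rf (nat_lit 1)) (cs (rf (nat_lit 2)) (cs (rf (nat_lit 3)) (nd (nat_lit 207) (nat_lit 0) (cs (rf (nat_lit 4)) (cs (nd (nat_lit 231) (nat_lit 0) (cs (rf (nat_lit 5)) (cs (rf (nat_lit 6)) (rf (nat_lit 7))))) (cs (nd (nat_lit 231) (nat_lit 0) (cs (rf (nat_lit 6)) (cs (nd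 (nat_lit 228) (nat_lit 0) (cs (rf (nat_lit 8)) (cs (nd (nat_lit 275) (nat_lit 0) (cs (lf (nat_lit 42) (nat_lit 208)) (nd (nat_lit 206) (nat_lit 0) (cs (lf (nat_lit 0) (nat_lit 205)) (nd (nat_lit 209) (nat_lit 0) (cs (lf (nat_lit 11) (nat_lit 205)) (rf (nat_lit 9)))))))) (nd (nat_lit 205) (nat_lit 0) (cs (lf (nat_lit 1) (nat_lit 205)) (nd (nat_lit 229) (nat_lit 0) (cs (lf (nat_lit 5) (nat_lit 228)) (nd (nat_lit 250) (nat_lit 0) (cs (lf (nat_lit 11) (nat_lit 227)) (nd (nat_lit 163) (nat_lit 0) (cs (lf (nat_lit 25) (nat_lit 163)) (nd (nat_lit 209) (nat_lit 0) (cs (lf (nat_lit 6) (nat_lit 206)) (nd (nat_lit 165) (nat_lit 0) (cs (lf (nat_lit 37) (nat_lit 164)) (nd (nat_lit 275) (nat_lit 0) (cs (lf (nat_lit 42) (nat_lit 208)) (rf (nat_lit 10))))))))))))))))))) (nd (nat_lit 229) (nat_lit 0) (cs (rf (nat_lit 11)) (cs (rf (nat_lit 12)) (rf (nat_lit 13)))))))) (nd (nat_lit 274) (nat_lit 0) (cs (lf (nat_lit 47) (nat_lit 185)) (nd (nat_lit 187) (nat_lit 0) (cs (lf (nat_lit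 34) (nat_lit 186)) (rf (nat_lit 14))))))))))))))) q92234 (by decide +kernel)
def q92246 : Q := Q.p (nat_lit 0x7000000000000000000000000000000000000000000000000000000000000000) (nat_lit 0x80000200001fc0018e00073800000000000000000000000000000000000000000000000000000000) (nat_lit 9)
theorem c92246 : QOK q92246 := cut [q81729, q92239, q92240, q92245] ⟨c81729, c92239, c92240, c92245, trivial⟩ (nd (nat_lit 251) (nat_lit 0) (cs (rf (nat_lit 0)) (cs (rf (nat_lit 1)) (cs (rf (nat_lit 2)) (rf (nat_lit 3)))))) q92246 (by decide +kernel)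
def q92265 : Q := Q.p (nat_lit 0x7000002000000000000000000000000000000000000000000000000000000000) (nat_lit 0x1dc000380000e4000000000000000000000000000000000000000000000000000000000) (nat_lit 7)
theorem c92265 : QOK q92265 := cut [q80460] ⟨c80460, trivial⟩ (nd (nat_lit 255) (nat_lit 0) (cs (lf (nat_lit 22) (nat_lit 229)) (rf (nat_lit 0)))) q92265 (by decide +kernel)
def q92271 : Q := Q.p (nat_lit 0x800007000010000000000000000000000000000000000000000000000000000000000) (nat_lit 0x1c0000700001700038c0000c000030000040000000000000000000000000000000000000000000000) (nat_lit 6)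
theorem c92271 : QOK q92271 := cut [q81707, q81711, q82063] ⟨c81707, c81711, c82063, trivial⟩ (nd (nat_lit 231) (nat_lit 0) (cs (rf (nat_lit 0)) (cs (rf (nat_lit 1)) (nd (nat_lit 297) (nat_lit 0) (cs (lf (nat_lit 30) (nat_lit 231)) (rf (nat_lit 2))))))) q92271 (by decide +kernel)
def q92330 : Q := Q.p (nat_lit 0x700001e000000000000000000000000000000000000000000000000000000000) (nat_lit 0x14000000000000000ec000380000e00000000000000000000000000000000000000000) (nat_lit 7)
theorem c92330 : QOK q92330 := cut [q80237] ⟨c80237, trivial⟩ (nd (nat_lit 206) (nat_lit 0) (cs (lf (nat_lit 22) (nat_lit 206)) (rf (nat_lit 0)))) q92330 (by decide +kernel)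
def q92570 : Q := Q.p (nat_lit 0x10000000000200003800000000000000000000000000000000000000000000000000000000000000) (nat_lit 0x80003e0000ff0007f8007ff001ef80077f0009f00042c0000300000000000000000000000000000000000000000000000000000000) (nat_lit 16)
theorem c92570 : QOK q92570 := cut [q55069, q92460, q92467, q47155, q62970, q59019, q92464, q14174, q92495, q92565, q92564] ⟨c55069, c92460, c92467, c47155, c62970, c59019, c92464, c14174, c92495, c92565, c92564, trivial⟩ (nd (nat_lit 272) (nat_lit 0) (cs (lf (nat_lit 6) (nat_lit 250)) (nd (nat_lit 271) (nat_lit 0) (cs (lf (nat_lit 12) (nat_lit 248)) (nd (nat_lit 338) (nat_lit 0) (cs (lf (nat_lit 32) (nat_lit 250)) (nd (nat_lit 315) (nat_lit 0) (cs (nd (nat_lit 293) (nat_lit 0) (cs (lf (nat_lit 24) (nat_lit 249)) (rf (nat_lit 0)))) (cs (nd (nat_lit 314) (nat_lit 0) (cs (rf (nat_lit 1)) (cs (rf (nat_lit 2)) (cs (nd (nat_lit 313) (nat_lit 0) (cs (rf (nat_lit 3)) (cs (nd (nat_lit 293) (nat_lit 0) (cs (lf (nat_lit 24)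 (nat_lit 249)) (nd (nat_lit 334) (nat_lit 0) (cs (lf (nat_lit 10) (nat_lit 312)) (nd (nat_lit 312) (nat_lit 0) (cs (lf (nat_lit 11) (nat_lit 311)) (nd (nat_lit 311) (nat_lit 0) (cs (rf (nat_lit 4)) (lf (nat_lit 16) (nat_lit 289)))))))))) (cs (nd (nat_lit 293) (nat_lit 0) (cs (lf (nat_lit 24) (nat_lit 249)) (nd (nat_lit 360) (nat_lit 0) (cs (lf (nat_lit 42) (nat_lit 293)) (nd (nat_lit 334) (nat_lit 0) (cs (lf (nat_lit 10) (nat_lit 312)) (nd (nat_lit 312) (nat_lit 0) (cs (lf (nat_lit 11) (nat_lit 311)) (nd (nat_lit 292) (nat_lit 0) (cs (lf (nat_lit 12) (nat_lit 289)) (rf (nat_lit 5)))))))))))) (cs (nd (nat_lit 293) (nat_lit 0) (cs (lf (nat_lit 24) (nat_lit 249)) (nd (nat_lit 360) (nat_lit 0) (cs (lf (nat_lit 42) (nat_lit 293)) (nd (nat_lit 290) (nat_lit 0) (cs (lf (nat_lit 22) (nat_lit 290)) (nd (nat_lit 312) (nat_lit 0) (cs (lf (nat_lit 23) (nat_lit 289)) (nd (nat_lit 311) (nat_lit 0) (cs (lf (nat_lit 16) (nat_lit 289)) (nd (nat_lit 333) (nat_lit 0) (cs (lf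 (nat_lit 11) (nat_lit 310)) (lf (nat_lit 10) (nat_lit 311)))))))))))))) (cs (nd (nat_lit 293) (nat_lit 0) (cs (lf (nat_lit 24) (nat_lit 249)) (nd (nat_lit 360) (nat_lit 0) (cs (lf (nat_lit 42) (nat_lit 293)) (nd (nat_lit 290) (nat_lit 0) (cs (lf (nat_lit 22) (nat_lit 290)) (nd (nat_lit 312) (nat_lit 0) (cs (lf (nat_lit 23) (nat_lit 289)) (nd (nat_lit 292) (nat_lit 0) (cs (lf (nat_lit 12) (nat_lit 289)) (nd (nat_lit 317) (nat_lit 0) (cs (lf (nat_lit 18) (nat_lit 292)) (rf (nat_lit 6)))))))))))))) (nd (nat_lit 335) (nat_lit 0) (cs (lf (nat_lit 11) (nat_lit 312)) (nd (nat_lit 249) (nat_lit 0) (cs (lf (nat_lit 26) (nat_lit 249)) (nd (nat_lit 317) (nat_lit 0) (cs (rf (nat_lit 7)) (lf (nat_lit 10) (nat_lit 313)))))))))))))) (rf (nat_lit 8)))))) (cs (rf (nat_lit 9)) (nd (nat_lit 314) (nat_lit 0) (cs (nd (nat_lit 249) (nat_lit 0) (cs (lf (nat_lit 26) (nat_lit 249)) (rf (nat_lit 1)))) (cs (rf (nat_lit 2)) (cs (rf (nat_lit 8)) (rf (nat_lit 10)))))))))))))))) q92570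 (by decide +kernel)
def q92588 : Q := Q.p (nat_lit 0x200003800000000000000000000000000000000000000000000000000000000000000) (nat_lit 0x400001c0000700001c000040000c000033c0001c000070000140000000000000000000000000000000000000000) (nat_lit 8)
theorem c92588 : QOK q92588 := cut [q82584, q82592, q90032, q92586] ⟨c82584, c82592, c90032, c92586, trivial⟩ (nd (nat_lit 229) (nat_lit 0) (cs (rf (nat_lit 0)) (cs (rf (nat_lit 1)) (cs (rf (nat_lit 2)) (nd (nat_lit 254) (nat_lit 0) (cs (lf (nat_lit 23) (nat_lit 228)) (rf (nat_lit 3)))))))) q92588 (by decide +kernel)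
def q92599 : Q := Q.p (nat_lit 0x3c00000000000000000000000000000000000000000000000000000000000000) (nat_lit 0xf80003e0001f8000000001b80000e0000380000e0000280000000000000000000000000000000000) (nat_lit 14)
theorem c92599 : QOK q92599 := cut [q2074, q2514, q40708, q40534] ⟨c2074, c2514, c40708, c40534, trivial⟩ (nd (nat_lit 228) (nat_lit 0) (cs (lf (nat_lit 23) (nat_lit 227)) (nd (nat_lit 206) (nat_lit 0) (cs (rf (nat_lit 0)) (cs (rf (nat_lit 1)) (cs (rf (nat_lit 2)) (nd (nat_lit 272) (nat_lit 0) (cs (lf (nat_lit 11) (nat_lit 249)) (nd (nat_lit 275) (nat_lit 0) (cs (lf (nat_lit 5) (nat_lit 250)) (nd (nat_lit 183) (nat_lit 0) (cs (lf (nat_lit 46) (nat_lit 183)) (nd (nat_lit 185) (nat_lit 0) (cs (lf (nat_lit 34) (nat_lit 184)) (nd (nat_lit 295) (nat_lit 0) (cs (lf (nat_lit 28) (nat_lit 206)) (rf (nat_lit 3)))))))))))))))))) q92599 (by decide +kernel)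
def q92658 : Q := Q.p (nat_lit 0x3800000000000000000000000000000000000000000000000000000000000000) (nat_lit 0xc0000380001e0001c600037c000ff0003f00003c0000500000000000000000000000000000000000) (nat_lit 15)
theorem c92658 : QOK q92658 := cut [q82198, q84257, q5482, q11484, q80450, q11487, q25656, q5304, q89703, q92619, q82235, q79079, q6858, q5481, q11483, q85444, q420, q89688, q1832, q92647, q90351, q92648, q5015, q92654] ⟨c82198, c84257, c5482, c11484, c80450, c11487, c25656, c5304, c89703, c92619, c82235, c79079, c6858, c5481, c11483, c85444, c420, c89688, c1832, c92647, c90351, c92648, c5015, c92654, trivial⟩ (nd (nat_lit 229) (nat_lit 0) (cs (rf (nat_lit 0)) (cs (rf (nat_lit 1)) (cs (nd (nat_lit 207) (nat_lit 0) (cs (rf (nat_lit 2)) (cs (rf (nat_lit 3)) (cs (rf (nat_lit 4)) (cs (nd (nat_lit 274) (nat_lit 0) (cs (rf (nat_lit 5)) (cs (rf (nat_lit 6)) (nd (nat_lit 275) (nat_lit 0) (cs (rf (nat_lit 7)) (cs (nd (nat_lit 208) (nat_lit 0) (cs (rf (nat_lit 8))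 (cs (nd (nat_lit 273) (nat_lit 0) (cs (lf (nat_lit 35) (nat_lit 185)) (nd (nat_lit 184) (nat_lit 0) (cs (lf (nat_lit 46) (nat_lit 184)) (rf (nat_lit 9)))))) (nd (nat_lit 230) (nat_lit 0) (cs (lf (nat_lit 29) (nat_lit 208)) (nd (nat_lit 254) (nat_lit 0) (cs (lf (nat_lit 18) (nat_lit 229)) (nd (nat_lit 232) (nat_lit 0) (cs (lf (nat_lit 17) (nat_lit 229)) (rf (nat_lit 10))))))))))) (nd (nat_lit 254) (nat_lit 0) (cs (rf (nat_lit 11)) (cs (nd (nat_lit 249) (nat_lit 0) (cs (lf (nat_lit 1) (nat_lit 249)) (nd (nat_lit 232) (nat_lit 0) (cs (lf (nat_lit 17) (nat_lit 229)) (nd (nat_lit 297) (nat_lit 0) (cs (lf (nat_lit 30) (nat_lit 231)) (nd (nat_lit 208) (nat_lit 0) (cs (lf (nat_lit 25) (nat_lit 208)) (nd (nat_lit 186) (nat_lit 0) (cs (lf (nat_lit 30) (nat_lit 185)) (nd (nat_lit 142) (nat_lit 0) (cs (lf (nat_lit 37) (nat_lit 141)) (nd (nat_lit 188) (nat_lit 0) (cs (lf (nat_lit 37) (nat_lit 187)) (nd (nat_lit 187) (nat_lit 0) (cs (lf (nat_lit 6) (nat_lit 185)) (rf (nat_lit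 12)))))))))))))))))) (nd (nat_lit 255) (nat_lit 0) (cs (lf (nat_lit 6) (nat_lit 252)) (lf (nat_lit 22) (nat_lit 229))))))))))))) (nd (nat_lit 185) (nat_lit 0) (cs (rf (nat_lit 13)) (cs (rf (nat_lit 14)) (cs (rf (nat_lit 15)) (nd (nat_lit 162) (nat_lit 0) (cs (lf (nat_lit 46) (nat_lit 162)) (nd (nat_lit 186) (nat_lit 0) (cs (lf (nat_lit 35) (nat_lit 163)) (nd (nat_lit 208) (nat_lit 0) (cs (lf (nat_lit 30) (nat_lit 185)) (nd (nat_lit 230) (nat_lit 0) (cs (lf (nat_lit 29) (nat_lit 186)) (nd (nat_lit 254) (nat_lit 0) (cs (lf (nat_lit 18) (nat_lit 229)) (nd (nat_lit 232) (nat_lit 0) (cs (rf (nat_lit 16)) (lf (nat_lit 17) (nat_lit 229))))))))))))))))))))))) (nd (nat_lit 207) (nat_lit 0) (cs (rf (nat_lit 2)) (cs (rf (nat_lit 3)) (cs (rf (nat_lit 4)) (cs (rf (nat_lit 17)) (nd (nat_lit 208) (nat_lit 0) (cs (rf (nat_lit 18)) (cs (rf (nat_lit 19)) (cs (nd (nat_lit 230) (nat_lit 0) (cs (rf (nat_lit 20)) (cs (nd (nat_lit 227) (nat_lit 0) (cs (lf (nat_lit 1) (nat_lit 227))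 (rf (nat_lit 21)))) (nd (nat_lit 274) (nat_lit 0) (cs (lf (nat_lit 42) (nat_lit 207)) (nd (nat_lit 164) (nat_lit 0) (cs (lf (nat_lit 37) (nat_lit 163)) (rf (nat_lit 22))))))))) (nd (nat_lit 230) (nat_lit 0) (cs (rf (nat_lit 21)) (rf (nat_lit 23))))))))))))))))) q92658 (by decide +kernel)
def q92677 : Q := Q.p (nat_lit 0x80000200001800002000000000000000000000000000000000000000000000000000000000) (nat_lit 0x5000014000000000000000400001c0000700001c0000400000000000000000000000000000000000) (nat_lit 8)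
theorem c92677 : QOK q92677 := cut [q80585, q88617, q92672] ⟨c80585, c88617, c92672, trivial⟩ (nd (nat_lit 207) (nat_lit 0) (cs (rf (nat_lit 0)) (cs (rf (nat_lit 1)) (cs (nd (nat_lit 296) (nat_lit 0) (cs (lf (nat_lit 29) (nat_lit 229)) (rf (nat_lit 2)))) (nd (nat_lit 184) (nat_lit 0) (cs (lf (nat_lit 46) (nat_lit 184)) (nd (nat_lit 185) (nat_lit 0) (cs (lf (nat_lit 47) (nat_lit 162)) (nd (nat_lit 230) (nat_lit 0) (cs (lf (nat_lit 24) (nat_lit 163)) (lf (nat_lit 35) (nat_lit 207)))))))))))) q92677 (by decide +kernel)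
def q92712 : Q := Q.p (nat_lit 0x300000c000000000000000000000000000000000000000000000000000000000) (nat_lit 0x1000004000040000738001dc000020000080000000000000000000000000000000000000000) (nat_lit 6)
theorem c92712 : QOK q92712 := cut [q84417, q92711] ⟨c84417, c92711, trivial⟩ (nd (nat_lit 229) (nat_lit 0) (cs (rf (nat_lit 0)) (rf (nat_lit 1)))) q92712 (by decide +kernel)
def q92724 : Q := Q.p (nat_lit 0x300000c000010000000000000000000000000000000000000000000000000000) (nat_lit 0xe0000380000f0000c000000000008000020000000000000000000000000000000000000000000000) (nat_lit 6)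
theorem c92724 : QOK q92724 := cut [q57679, q84411, q92723] ⟨c57679, c84411, c92723, trivial⟩ (nd (nat_lit 274) (nat_lit 0) (cs (rf (nat_lit 0)) (cs (rf (nat_lit 1)) (rf (nat_lit 2))))) q92724 (by decide +kernel)
def q92728 : Q := Q.p (nat_lit 0x300000c000000000000000000000000000000000000000000000000000000000) (nat_lit 0x80001c6000738001ce000100000400000000000000000000000000000000000000000) (nat_lit 8)
theorem c92728 : QOK q92728 := cut [q84417, q84429, q92727] ⟨c84417, c84429, c92727, trivial⟩ (nd (nat_lit 229) (nat_lit 0) (cs (rf (nat_lit 0)) (cs (rf (nat_lit 1)) (rf (nat_lit 2))))) q92728 (by decide +kernel)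
def q92730 : Q := Q.p (nat_lit 0xc0000300000c000000000000000000000000000000000000000000000000000000000) (nat_lit 0x180001e00001300000000010000040000000000000000000000000000000000000000000000000000) (nat_lit 6)
theorem c92730 : QOK q92730 := cut [q92729] ⟨c92729, trivial⟩ (nd (nat_lit 297) (nat_lit 0) (cs (lf (nat_lit 42) (nat_lit 230)) (rf (nat_lit 0)))) q92730 (by decide +kernel)
def q92761 : Q := Q.p (nat_lit 0x40000300000c000000000000000000000000000000000000000000000000000000000) (nat_lit 0x1c0000f00000b00000000010000050000000000000000000000000000000000000000000000000000) (nat_lit 7)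
theorem c92761 : QOK q92761 := cut [q92760] ⟨c92760, trivial⟩ (nd (nat_lit 296) (nat_lit 0) (cs (lf (nat_lit 30) (nat_lit 230)) (rf (nat_lit 0)))) q92761 (by decide +kernel)
def q92783 : Q := Q.p (nat_lit 0x800003000008000020000000000000000000000000000000000000000000000000000) (nat_lit 0x300001f0001f0000170000c000010000010000040000000000000000000000000000000000000000000000) (nat_lit 11)
theorem c92783 : QOK q92783 := cut [q92781] ⟨c92781, trivial⟩ (nd (nat_lit 274) (nat_lit 0) (cs (lf (nat_lit 41) (nat_lit 208)) (nd (nat_lit 186) (nat_lit 0) (cs (lf (nat_lit 46) (nat_lit 186)) (rf (nat_lit 0)))))) q92783 (by decide +kernel)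
def q92799 : Q := Q.p (nat_lit 0x300000c000020000000000000000000000000000000000000000000000000000) (nat_lit 0x6000018000000000020001d8000178000180000200000000000000000000000000000000000) (nat_lit 6)
theorem c92799 : QOK q92799 := cut [q79066, q85001, q92798] ⟨c79066, c85001, c92798, trivial⟩ (nd (nat_lit 208) (nat_lit 0) (cs (rf (nat_lit 0)) (cs (rf (nat_lit 1)) (rf (nat_lit 2))))) q92799 (by decide +kernel)
def q92811 : Q := Q.p (nat_lit 0x200000c000030000000000000000000000000000000000000000000000000000) (nat_lit 0x6000018000000000700001ce000138000000000000000000000000000000000000000000000) (nat_lit 9)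
theorem c92811 : QOK q92811 := cut [q92810] ⟨c92810, trivial⟩ (nd (nat_lit 275) (nat_lit 0) (cs (lf (nat_lit 42) (nat_lit 208)) (rf (nat_lit 0)))) q92811 (by decide +kernel)
def q92854 : Q := Q.p (nat_lit 0x300000c000000000000000000000000000000000000000000000000000000000) (nat_lit 0x100001c6000738001fe0003f0000fc0000000000000000000000000000000000000000) (nat_lit 13)
theorem c92854 : QOK q92854 := cut [q84417, q84429, q84418, q92726, q87008] ⟨c84417, c84429, c84418, c92726, c87008, trivial⟩ (nd (nat_lit 229) (nat_lit 0) (cs (rf (nat_lit 0)) (cs (rf (nat_lit 1)) (nd (nat_lit 232) (nat_lit 0) (cs (rf (nat_lit 2)) (cs (rf (nat_lit 3)) (nd (nat_lit 254) (nat_lit 0) (cs (lf (nat_lit 5) (nat_lit 229)) (nd (nat_lit 210) (nat_lit 0) (cs (lf (nat_lit 17) (nat_lit 207)) (nd (nat_lit 188) (nat_lit 0) (cs (lf (nat_lit 36) (nat_lit 165)) (nd (nat_lit 206) (nat_lit 0) (cs (lf (nat_lit 22) (nat_lit 206)) (nd (nat_lit 167) (nat_lit 0) (cs (lf (nat_lit 34) (nat_lit 166)) (nd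 (nat_lit 187) (nat_lit 0) (cs (lf (nat_lit 47) (nat_lit 165)) (nd (nat_lit 209) (nat_lit 0) (cs (lf (nat_lit 42) (nat_lit 187)) (rf (nat_lit 4)))))))))))))))))))))) q92854 (by decide +kernel)
def q92903 : Q := Q.p (nat_lit 0x300000c000000000000000000000000000000000000000000000000000000000) (nat_lit 0x198001c60007380003f0007f8000ff0000000000000000000000000000000000000000) (nat_lit 14)
theorem c92903 : QOK q92903 := cut [q79028, q92863, q92864, q84417, q19272, q85172, q58036, q92876, q92878, q92879, q39098, q92874, q92882, q92896, q92897, q92898, q92902] ⟨c79028, c92863, c92864, c84417, c19272, c85172, c58036, c92876, c92878, c92879, c39098, c92874, c92882, c92896, c92897, c92898, c92902, trivial⟩ (nd (nat_lit 187) (nat_lit 0) (cs (nd (nat_lit 254) (nat_lit 0) (cs (rf (nat_lit 0)) (cs (rf (nat_lit 1)) (nd (nat_lit 209) (nat_lit 0) (cs (lf (nat_lit 29) (nat_lit 187)) (nd (nat_lit 188) (nat_lit 0) (cs (lf (nat_lit 35) (nat_lit 165)) (nd (nat_lit 255) (nat_lit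 0) (cs (lf (nat_lit 18) (nat_lit 230)) (rf (nat_lit 2))))))))))) (cs (nd (nat_lit 229) (nat_lit 0) (cs (rf (nat_lit 3)) (nd (nat_lit 185) (nat_lit 0) (cs (nd (nat_lit 163) (nat_lit 0) (cs (lf (nat_lit 26) (nat_lit 163)) (nd (nat_lit 186) (nat_lit 0) (cs (rf (nat_lit 4)) (lf (nat_lit 44) (nat_lit 163)))))) (cs (nd (nat_lit 207) (nat_lit 0) (cs (lf (nat_lit 24) (nat_lit 163)) (rf (nat_lit 5)))) (cs (nd (nat_lit 186) (nat_lit 0) (cs (nd (nat_lit 184) (nat_lit 0) (cs (rf (nat_lit 6)) (rf (nat_lit 7)))) (cs (rf (nat_lit 8)) (rf (nat_lit 9))))) (cs (nd (nat_lit 186) (nat_lit 0) (cs (rf (nat_lit 8)) (cs (rf (nat_lit 9)) (nd (nat_lit 184) (nat_lit 0) (cs (rf (nat_lit 10)) (cs (rf (nat_lit 6)) (cs (rf (nat_lit 11)) (nd (nat_lit 205) (nat_lit 0) (cs (lf (nat_lit 10) (nat_lit 183)) (rf (nat_lit 12))))))))))) (nd (nat_lit 207) (nat_lit 0) (cs (lf (nat_lit 24) (nat_lit 163)) (nd (nat_lit 206) (nat_lit 0) (cs (lf (nat_lit 18) (nat_lit 206)) (nd (nat_lit 205) (nat_lit 0)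 (cs (lf (nat_lit 0) (nat_lit 204)) (nd (nat_lit 186) (nat_lit 0) (cs (lf (nat_lit 6) (nat_lit 184)) (lf (nat_lit 9) (nat_lit 183))))))))))))))))) (cs (rf (nat_lit 13)) (cs (rf (nat_lit 14)) (cs (nd (nat_lit 209) (nat_lit 0) (cs (lf (nat_lit 36) (nat_lit 164)) (nd (nat_lit 254) (nat_lit 0) (cs (lf (nat_lit 29) (nat_lit 187)) (nd (nat_lit 255) (nat_lit 0) (cs (lf (nat_lit 18) (nat_lit 230)) (rf (nat_lit 15)))))))) (rf (nat_lit 16)))))))) q92903 (by decide +kernel)
def q92919 : Q := Q.p (nat_lit 0x40000300000c000010000000000000000000000000000000000000000000000000000) (nat_lit 0x8000038000c00001000002e0000a0000000000000000000000000000000000000000000000) (nat_lit 7)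
theorem c92919 : QOK q92919 := cut [q84996] ⟨c84996, trivial⟩ (nd (nat_lit 209) (nat_lit 0) (cs (lf (nat_lit 36) (nat_lit 186)) (rf (nat_lit 0)))) q92919 (by decide +kernel)
def q92941 : Q := Q.p (nat_lit 0x300000c000020000000000000000000000000000000000000000000000000000) (nat_lit 0xdc0007f8000780000000000000000000000000000000000000000) (nat_lit 7)
theorem c92941 : QOK q92941 := cut [q84998, q85001, q92827, q90405] ⟨c84998, c85001, c92827, c90405, trivial⟩ (nd (nat_lit 208) (nat_lit 0) (cs (rf (nat_lit 0)) (cs (rf (nat_lit 1)) (cs (nd (nat_lit 187) (nat_lit 0) (cs (lf (nat_lit 36) (nat_lit 164)) (rf (nat_lit 2)))) (nd (nat_lit 187) (nat_lit 0) (cs (lf (nat_lit 36) (nat_lit 164)) (nd (nat_lit 186) (nat_lit 0) (cs (lf (nat_lit 24) (nat_lit 164)) (rf (nat_lit 3)))))))))) q92941 (by decide +kernel)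
def q93004 : Q := Q.p (nat_lit 0x3000008000030000000000000000000000000000000000000000000000000000) (nat_lit 0x40000180000780000000037c001ce00077c000580000000000000000000000000000000000000000) (nat_lit 12)
theorem c93004 : QOK q93004 := cut [q119, q2938, q92998, q85001, q87526, q88128] ⟨c119, c2938, c92998, c85001, c87526, c88128, trivial⟩ (nd (nat_lit 207) (nat_lit 0) (cs (rf (nat_lit 0)) (cs (rf (nat_lit 1)) (cs (rf (nat_lit 2)) (nd (nat_lit 230) (nat_lit 0) (cs (rf (nat_lit 3)) (cs (rf (nat_lit 4)) (nd (nat_lit 206) (nat_lit 0) (cs (lf (nat_lit 0) (nat_lit 205)) (nd (nat_lit 274) (nat_lit 0) (cs (lf (nat_lit 30) (nat_lit 208)) (nd (nat_lit 273) (nat_lit 0) (cs (lf (nat_lit 41) (nat_lit 207)) (nd (nat_lit 271) (nat_lit 0) (cs (lf (nat_lit 13) (nat_lit 249)) (rf (nat_lit 5))))))))))))))))) q93004 (by decide +kernel)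
def q93139 : Q := Q.p (nat_lit 0x7000008000000000000000000000000000000000000000000000000000000000) (nat_lit 0x4000010001ce000780003f0000020000080000000000000000000000000000000000000000000000) (nat_lit 9)
theorem c93139 : QOK q93139 := cut [q80881, q92260, q93137] ⟨c80881, c92260, c93137, trivial⟩ (nd (nat_lit 274) (nat_lit 0) (cs (rf (nat_lit 0)) (cs (rf (nat_lit 1)) (nd (nat_lit 187) (nat_lit 0) (cs (lf (nat_lit 37) (nat_lit 186)) (rf (nat_lit 2))))))) q93139 (by decide +kernel)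
def q93156 : Q := Q.p (nat_lit 0x7000008000020000000000000000000000000000000000000000000000000000) (nat_lit 0x18000060001d8000380000f70003c0000700001800004000000000000000000000000000000000000) (nat_lit 10)
theorem c93156 : QOK q93156 := cut [q92800, q93032, q93151, q93152] ⟨c92800, c93032, c93151, c93152, trivial⟩ (nd (nat_lit 275) (nat_lit 0) (cs (nd (nat_lit 298) (nat_lit 0) (cs (lf (nat_lit 28) (nat_lit 209)) (nd (nat_lit 297) (nat_lit 0) (cs (lf (nat_lit 29) (nat_lit 231)) (nd (nat_lit 230) (nat_lit 0) (cs (lf (nat_lit 42) (nat_lit 230)) (rf (nat_lit 0)))))))) (cs (nd (nat_lit 210) (nat_lit 0) (cs (lf (nat_lit 35) (nat_lit 187)) (nd (nat_lit 297) (nat_lit 0) (cs (lf (nat_lit 34) (nat_lit 209)) (rf (nat_lit 1)))))) (cs (rf (nat_lit 2)) (nd (nat_lit 276) (nat_lit 0) (cs (lf (nat_lit 29) (nat_lit 209)) (nd (nat_lit 210) (nat_lit 0) (cs (lf (nat_lit 35) (nat_lit 187)) (nd (nat_lit 232) (nat_lit 0) (cs (lf (nat_lit 30) (nat_lit 209)) (rf (nat_lit 3))))))))))))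 q93156 (by decide +kernel)
def q93173 : Q := Q.p (nat_lit 0x3000008000070000000000000000000000000000000000000000000000000000) (nat_lit 0x6000018000060000000007600018e000038000000000000000000000000000000000000000000000) (nat_lit 7)
theorem c93173 : QOK q93173 := cut [q756, q85148, q92713] ⟨c756, c85148, c92713, trivial⟩ (nd (nat_lit 230) (nat_lit 0) (cs (rf (nat_lit 0)) (cs (rf (nat_lit 1)) (rf (nat_lit 2))))) q93173 (by decide +kernel)
def q93239 : Q := Q.p (nat_lit 0x3000008000000000000000000000000000000000000000000000000000000000) (nat_lit 0x1c00007e0001f8001c0001f7000ffe001fb8000e00003000000000000000000000000000000000000) (nat_lit 14)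
theorem c93239 : QOK q93239 := cut [q82300, q91187, q92707, q93179, q7464, q93183, q84304, q84315, q84555, q90969, q85123, q85124, q85128, q93185, q93195, q85135, q93201, q84327, q85179, q82279, q84411, q85148, q93211, q93215, q93229, q93232, q93235] ⟨c82300, c91187, c92707, c93179, c7464, c93183, c84304, c84315, c84555, c90969, c85123, c85124, c85128, c93185, c93195, c85135, c93201, c84327, c85179, c82279, c84411, c85148, c93211, c93215, c93229, c93232, c93235, trivial⟩ (nd (nat_lit 209) (nat_lit 0) (cs (rf (nat_lit 0)) (cs (rf (nat_lit 1)) (cs (rf (nat_lit 2)) (cs (rf (nat_lit 3)) (nd (nat_lit 210) (nat_lit 0) (cs (rf (nat_lit 4)) (cs (rf (nat_lit 5)) (cs (nd (nat_lit 211) (nat_lit 0) (cs (rf (nat_lit 6)) (cs (rf (nat_lit 7)) (cs (rf (nat_lit 8)) (cs (rf (nat_lit 9)) (nd (nat_lit 233) (nat_lit 0) (cs (rf (nat_lit 10)) (cs (rf (nat_lit 11)) (cs (nd (nat_lit 232) (nat_lit 0) (cs (rf (nat_lit 12)) (cs (nd (nat_lit 208) (nat_lit 0) (cs (lf (nat_lit 0) (nat_lit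 207)) (nd (nat_lit 230) (nat_lit 0) (cs (lf (nat_lit 12) (nat_lit 207)) (nd (nat_lit 166) (nat_lit 0) (cs (lf (nat_lit 37) (nat_lit 165)) (nd (nat_lit 255) (nat_lit 0) (cs (lf (nat_lit 5) (nat_lit 230)) (rf (nat_lit 13)))))))))) (cs (rf (nat_lit 14)) (cs (nd (nat_lit 229) (nat_lit 0) (cs (lf (nat_lit 13) (nat_lit 207)) (nd (nat_lit 208) (nat_lit 0) (cs (lf (nat_lit 0) (nat_lit 207)) (nd (nat_lit 166) (nat_lit 0) (cs (lf (nat_lit 37) (nat_lit 165)) (rf (nat_lit 15)))))))) (rf (nat_lit 16))))))) (nd (nat_lit 232) (nat_lit 0) (cs (lf (nat_lit 6) (nat_lit 230)) (rf (nat_lit 14))))))))))))) (nd (nat_lit 230) (nat_lit 0) (cs (rf (nat_lit 17)) (cs (rf (nat_lit 18)) (cs (nd (nat_lit 274) (nat_lit 0) (cs (rf (nat_lit 19)) (nd (nat_lit 208) (nat_lit 0) (cs (rf (nat_lit 20)) (cs (rf (nat_lit 21)) (rf (nat_lit 22))))))) (nd (nat_lit 232) (nat_lit 0) (cs (nd (nat_lit 274) (nat_lit 0) (cs (lf (nat_lit 30) (nat_lit 208)) (nd (nat_lit 275) (nat_lit 0) (cs (lf (nat_lit 30)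 (nat_lit 209)) (nd (nat_lit 276) (nat_lit 0) (cs (lf (nat_lit 29) (nat_lit 209)) (nd (nat_lit 233) (nat_lit 0) (cs (lf (nat_lit 6) (nat_lit 230)) (nd (nat_lit 207) (nat_lit 0) (cs (lf (nat_lit 22) (nat_lit 207)) (nd (nat_lit 255) (nat_lit 0) (cs (lf (nat_lit 5) (nat_lit 230)) (rf (nat_lit 23)))))))))))))) (cs (rf (nat_lit 24)) (cs (rf (nat_lit 25)) (rf (nat_lit 26))))))))))))))))))) q93239 (by decide +kernel)
def q93273 : Q := Q.p (nat_lit 0x3000008000000000000000000000000000000000000000000000000000000000) (nat_lit 0x200001c00007c001df0003c0000d600007e0001e0000700001400000000000000000000000000000000000) (nat_lit 12)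
theorem c93273 : QOK q93273 := cut [q82309, q92707, q92710, q17544, q82279, q93140, q93259, q93265, q92704, q92993, q93264, q93268] ⟨c82309, c92707, c92710, c17544, c82279, c93140, c93259, c93265, c92704, c92993, c93264, c93268, trivial⟩ (nd (nat_lit 209) (nat_lit 0) (cs (rf (nat_lit 0)) (cs (rf (nat_lit 1)) (cs (rf (nat_lit 2)) (nd (nat_lit 274) (nat_lit 0) (cs (rf (nat_lit 3)) (cs (rf (nat_lit 4)) (nd (nat_lit 254) (nat_lit 0) (cs (rf (nat_lit 5)) (cs (rf (nat_lit 6)) (cs (rf (nat_lit 7)) (nd (nat_lit 275) (nat_lit 0) (cs (rf (nat_lit 8)) (cs (rf (nat_lit 9)) (cs (rf (nat_lit 10)) (nd (nat_lit 276) (nat_lit 0) (cs (lf (nat_lit 29) (nat_lit 209)) (rf (nat_lit 11))))))))))))))))))) q93273 (by decide +kernel)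
def q93385 : Q := Q.p (nat_lit 0x7800002000000000010000000000000000000000000000000000000000000000) (nat_lit 0x80000200001b000082000f8c001fb8003ee000ff8002fe0001f00007c00005000000000000000000) (nat_lit 15)
theorem c93385 : QOK q93385 := cut [q81677, q79123, q79160, q79913, q79868, q32619, q4771, q17609, q82595, q93352, q92450, q92451, q19013, q79139, q38878, q83505, q40052] ⟨c81677, c79123, c79160, c79913, c79868, c32619, c4771, c17609, c82595, c93352, c92450, c92451, c19013, c79139, c38878, c83505, c40052, trivial⟩ (nd (nat_lit 232) (nat_lit 0) (cs (rf (nat_lit 0)) (nd (nat_lit 210) (nat_lit 0) (cs (rf (nat_lit 1)) (cs (rf (nat_lit 2)) (cs (rf (nat_lit 3)) (cs (nd (nat_lit 185) (nat_lit 0) (cs (nd (nat_lit 207) (nat_lit 0) (cs (lf (nat_lit 47) (nat_lit 162)) (nd (nat_lit 164) (nat_lit 0) (cs (lf (nat_lit 34) (nat_lit 163)) (nd (nat_lit 209) (nat_lit 0) (cs (nd (nat_lit 142) (nat_lit 0) (cs (lf (nat_lit 33) (nat_lit 141)) (rf (nat_lit 4)))) (lf (nat_lit 20)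 (nat_lit 184)))))))) (cs (nd (nat_lit 186) (nat_lit 0) (cs (nd (nat_lit 272) (nat_lit 0) (cs (lf (nat_lit 10) (nat_lit 250)) (nd (nat_lit 164) (nat_lit 0) (cs (rf (nat_lit 5)) (lf (nat_lit 32) (nat_lit 163)))))) (cs (nd (nat_lit 209) (nat_lit 0) (cs (lf (nat_lit 3) (nat_lit 184)) (nd (nat_lit 208) (nat_lit 0) (cs (lf (nat_lit 0) (nat_lit 183)) (lf (nat_lit 21) (nat_lit 184)))))) (cs (nd (nat_lit 187) (nat_lit 0) (cs (lf (nat_lit 4) (nat_lit 184)) (nd (nat_lit 165) (nat_lit 0) (cs (lf (nat_lit 17) (nat_lit 162)) (nd (nat_lit 183) (nat_lit 0) (cs (lf (nat_lit 16) (nat_lit 161)) (nd (nat_lit 272) (nat_lit 0) (cs (rf (nat_lit 6)) (lf (nat_lit 10) (nat_lit 250)))))))))) (nd (nat_lit 272) (nat_lit 0) (cs (lf (nat_lit 10) (nat_lit 250)) (nd (nat_lit 164) (nat_lit 0) (cs (lf (nat_lit 32) (nat_lit 163)) (nd (nat_lit 209) (nat_lit 0) (cs (lf (nat_lit 3) (nat_lit 184)) (nd (nat_lit 208) (nat_lit 0) (cs (lf (nat_lit 18) (nat_lit 185)) (rf (nat_lit 7)))))))))))))) (cs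 (nd (nat_lit 272) (nat_lit 0) (cs (lf (nat_lit 10) (nat_lit 250)) (nd (nat_lit 207) (nat_lit 0) (cs (lf (nat_lit 47) (nat_lit 162)) (nd (nat_lit 209) (nat_lit 0) (cs (rf (nat_lit 4)) (lf (nat_lit 20) (nat_lit 184)))))))) (cs (nd (nat_lit 273) (nat_lit 0) (cs (lf (nat_lit 11) (nat_lit 250)) (nd (nat_lit 207) (nat_lit 0) (cs (lf (nat_lit 47) (nat_lit 162)) (rf (nat_lit 8)))))) (cs (rf (nat_lit 9)) (nd (nat_lit 162) (nat_lit 0) (cs (lf (nat_lit 44) (nat_lit 162)) (nd (nat_lit 297) (nat_lit 0) (cs (rf (nat_lit 10)) (cs (rf (nat_lit 11)) (nd (nat_lit 161) (nat_lit 0) (cs (nd (nat_lit 186) (nat_lit 0) (cs (lf (nat_lit 18) (nat_lit 161)) (rf (nat_lit 12)))) (cs (nd (nat_lit 272) (nat_lit 0) (cs (lf (nat_lit 10) (nat_lit 250)) (nd (nat_lit 187) (nat_lit 0) (cs (lf (nat_lit 19) (nat_lit 161)) (rf (nat_lit 13)))))) (nd (nat_lit 160) (nat_lit 0) (cs (lf (nat_lit 0) (nat_lit 159)) (nd (nat_lit 163) (nat_lit 0) (cs (rf (nat_lit 14)) (cs (nd (nat_lit 138) (nat_lit 0) (cs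 (lf (nat_lit 23) (nat_lit 137)) (nd (nat_lit 141) (nat_lit 0) (cs (lf (nat_lit 17) (nat_lit 138)) (nd (nat_lit 119) (nat_lit 0) (cs (lf (nat_lit 36) (nat_lit 96)) (nd (nat_lit 118) (nat_lit 0) (cs (lf (nat_lit 47) (nat_lit 96)) (nd (nat_lit 120) (nat_lit 0) (cs (lf (nat_lit 35) (nat_lit 97)) (nd (nat_lit 139) (nat_lit 0) (cs (lf (nat_lit 9) (nat_lit 116)) (lf (nat_lit 14) (nat_lit 116)))))))))))))) (cs (nd (nat_lit 272) (nat_lit 0) (cs (lf (nat_lit 10) (nat_lit 250)) (nd (nat_lit 141) (nat_lit 0) (cs (lf (nat_lit 17) (nat_lit 138)) (nd (nat_lit 182) (nat_lit 0) (cs (lf (nat_lit 11) (nat_lit 159)) (nd (nat_lit 183) (nat_lit 0) (cs (lf (nat_lit 17) (nat_lit 160)) (rf (nat_lit 15)))))))))) (nd (nat_lit 141) (nat_lit 0) (cs (lf (nat_lit 17) (nat_lit 138)) (nd (nat_lit 97) (nat_lit 0) (cs (lf (nat_lit 37) (nat_lit 96)) (nd (nat_lit 138) (nat_lit 0) (cs (lf (nat_lit 23) (nat_lit 137)) (rf (nat_lit 16)))))))))))))))))))))))))))) (nd (nat_lit 272) (nat_lit 0) (cs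 (lf (nat_lit 10) (nat_lit 250)) (nd (nat_lit 188) (nat_lit 0) (cs (lf (nat_lit 41) (nat_lit 187)) (nd (nat_lit 167) (nat_lit 0) (cs (lf (nat_lit 34) (nat_lit 166)) (nd (nat_lit 187) (nat_lit 0) (cs (lf (nat_lit 47) (nat_lit 165)) (nd (nat_lit 209) (nat_lit 0) (cs (lf (nat_lit 42) (nat_lit 187)) (nd (nat_lit 185) (nat_lit 0) (cs (nd (nat_lit 207) (nat_lit 0) (cs (lf (nat_lit 47) (nat_lit 162)) (lf (nat_lit 20) (nat_lit 184)))) (lf (nat_lit 2) (nat_lit 184))))))))))))))))))))) q93385 (by decide +kernel)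
def q93479 : Q := Q.p (nat_lit 0x3800002000000000010000000000000000000000000000000000000000000000) (nat_lit 0x4200009c00077f001ef800fff0001e0000f80003e00000800000000000000000) (nat_lit 15)
theorem c93479 : QOK q93479 := cut [q5275, q93437, q93389, q93434, q93395, q93393, q8023, q27029, q86068, q93473, q93400] ⟨c5275, c93437, c93389, c93434, c93395, c93393, c8023, c27029, c86068, c93473, c93400, trivial⟩ (nd (nat_lit 228) (nat_lit 0) (cs (lf (nat_lit 18) (nat_lit 228)) (nd (nat_lit 227) (nat_lit 0) (cs (lf (nat_lit 0) (nat_lit 226)) (nd (nat_lit 162) (nat_lit 0) (cs (lf (nat_lit 26) (nat_lit 162)) (nd (nat_lit 183) (nat_lit 0) (cs (nd (nat_lit 205) (nat_lit 0) (cs (lf (nat_lit 30) (nat_lit 161)) (rf (nat_lit 0)))) (cs (rf (nat_lit 1)) (cs (nd (nat_lit 182) (nat_lit 0) (cs (rf (nat_lit 2)) (cs (rf (nat_lit 3)) (cs (nd (nat_lit 185) (nat_lit 0) (cs (rf (nat_lit 4)) (cs (nd (nat_lit 203) (nat_lit 0) (cs (lf (nat_lit 10) (nat_lit 181)) (nd (nat_lit 160) (nat_lit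 0) (cs (lf (nat_lit 23) (nat_lit 159)) (nd (nat_lit 186) (nat_lit 0) (cs (lf (nat_lit 22) (nat_lit 160)) (nd (nat_lit 164) (nat_lit 0) (cs (lf (nat_lit 17) (nat_lit 161)) (rf (nat_lit 5)))))))))) (cs (nd (nat_lit 203) (nat_lit 0) (cs (lf (nat_lit 10) (nat_lit 181)) (nd (nat_lit 160) (nat_lit 0) (cs (lf (nat_lit 23) (nat_lit 159)) (nd (nat_lit 186) (nat_lit 0) (cs (lf (nat_lit 22) (nat_lit 160)) (nd (nat_lit 209) (nat_lit 0) (cs (lf (nat_lit 4) (nat_lit 183)) (nd (nat_lit 187) (nat_lit 0) (cs (lf (nat_lit 5) (nat_lit 184)) (nd (nat_lit 188) (nat_lit 0) (cs (lf (nat_lit 22) (nat_lit 162)) (rf (nat_lit 6)))))))))))))) (nd (nat_lit 160) (nat_lit 0) (cs (lf (nat_lit 23) (nat_lit 159)) (nd (nat_lit 138) (nat_lit 0) (cs (nd (nat_lit 163) (nat_lit 0) (cs (lf (nat_lit 17) (nat_lit 160)) (nd (nat_lit 137) (nat_lit 0) (cs (nd (nat_lit 204) (nat_lit 0) (cs (lf (nat_lit 11) (nat_lit 181)) (lf (nat_lit 47) (nat_lit 115)))) (lf (nat_lit 20) (nat_lit 137)))))) (cs (nd (nat_lit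 204) (nat_lit 0) (cs (lf (nat_lit 11) (nat_lit 181)) (rf (nat_lit 7)))) (cs (nd (nat_lit 204) (nat_lit 0) (cs (lf (nat_lit 11) (nat_lit 181)) (nd (nat_lit 163) (nat_lit 0) (cs (lf (nat_lit 17) (nat_lit 160)) (nd (nat_lit 117) (nat_lit 0) (cs (lf (nat_lit 34) (nat_lit 116)) (nd (nat_lit 116) (nat_lit 0) (cs (lf (nat_lit 35) (nat_lit 94)) (rf (nat_lit 8)))))))))) (nd (nat_lit 163) (nat_lit 0) (cs (lf (nat_lit 17) (nat_lit 160)) (nd (nat_lit 137) (nat_lit 0) (cs (lf (nat_lit 20) (nat_lit 137)) (nd (nat_lit 140) (nat_lit 0) (cs (nd (nat_lit 118) (nat_lit 0) (cs (lf (nat_lit 24) (nat_lit 96)) (nd (nat_lit 117) (nat_lit 0) (cs (lf (nat_lit 47) (nat_lit 95)) (nd (nat_lit 119) (nat_lit 0) (cs (lf (nat_lit 35) (nat_lit 96)) (lf (nat_lit 9) (nat_lit 115)))))))) (lf (nat_lit 2) (nat_lit 137)))))))))))))))))) (rf (nat_lit 9)))))) (nd (nat_lit 182) (nat_lit 0) (cs (rf (nat_lit 2)) (cs (rf (nat_lit 10)) (cs (rf (nat_lit 3)) (rf (nat_lit 9)))))))))))))))) q93479 (by decide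 +kernel)
def q93494 : Q := Q.p (nat_lit 0x3800002000008000000000000000000000000000000000000000000000000000) (nat_lit 0x100000700001c00003c000000000df0001780005f000000000000000000000000000000000000000000000) (nat_lit 10)
theorem c93494 : QOK q93494 := cut [q85301, q85316, q85373, q85365, q85368, q41673, q3211] ⟨c85301, c85316, c85373, c85365, c85368, c41673, c3211, trivial⟩ (nd (nat_lit 273) (nat_lit 0) (cs (rf (nat_lit 0)) (cs (rf (nat_lit 1)) (cs (rf (nat_lit 2)) (nd (nat_lit 206) (nat_lit 0) (cs (lf (nat_lit 47) (nat_lit 184)) (nd (nat_lit 205) (nat_lit 0) (cs (rf (nat_lit 3)) (cs (rf (nat_lit 4)) (cs (nd (nat_lit 204) (nat_lit 0) (cs (lf (nat_lit 5) (nat_lit 204)) (rf (nat_lit 5)))) (nd (nat_lit 272) (nat_lit 0) (cs (lf (nat_lit 41) (nat_lit 206)) (nd (nat_lit 208) (nat_lit 0) (cs (lf (nat_lit 35) (nat_lit 185)) (nd (nat_lit 270) (nat_lit 0) (cs (rf (nat_lit 6)) (lf (nat_lit 13) (nat_lit 248)))))))))))))))))) q93494 (by decide +kernel)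
def q93498 : Q := Q.p (nat_lit 0x3000002000018000000000000000000000000000000000000000000000000000) (nat_lit 0x80000000007df003e7800f8e000700001c00005000000000000000000000000000000) (nat_lit 10)
theorem c93498 : QOK q93498 := cut [q918, q13362, q85402, q85383, q85393, q85395, q1075, q3211, q85385, q85388, q917, q10360] ⟨c918, c13362, c85402, c85383, c85393, c85395, c1075, c3211, c85385, c85388, c917, c10360, trivial⟩ (nd (nat_lit 209) (nat_lit 0) (cs (rf (nat_lit 0)) (cs (rf (nat_lit 1)) (cs (rf (nat_lit 2)) (cs (nd (nat_lit 206) (nat_lit 0) (cs (rf (nat_lit 3)) (cs (rf (nat_lit 4)) (cs (rf (nat_lit 5)) (nd (nat_lit 205) (nat_lit 0) (cs (rf (nat_lit 6)) (cs (rf (nat_lit 7)) (cs (rf (nat_lit 8)) (rf (nat_lit 9)))))))))) (nd (nat_lit 210) (nat_lit 0) (cs (rf (nat_lit 10)) (rf (nat_lit 11))))))))) q93498 (by decide +kernel)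
def q93525 : Q := Q.p (nat_lit 0x3800000000000000000000000000000000000000000000000000000000000000) (nat_lit 0x1c0000f00007c0001b8000460003e00001c000070000000000000000000000000000000000000000000000) (nat_lit 12)
theorem c93525 : QOK q93525 := cut [q89927, q90250, q93524] ⟨c89927, c90250, c93524, trivial⟩ (nd (nat_lit 250) (nat_lit 0) (cs (rf (nat_lit 0)) (cs (rf (nat_lit 1)) (rf (nat_lit 2))))) q93525 (by decide +kernel)
def q93526 : Q := Q.p (nat_lit 0x3800000000000000000000000000000000000000000000000000000000000000) (nat_lit 0x300002c0001bc000060001fc0001e0000780000a0000000000000000000000000000000000000000) (nat_lit 10)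
theorem c93526 : QOK q93526 := cut [q2065, q89826, q90250] ⟨c2065, c89826, c90250, trivial⟩ (nd (nat_lit 250) (nat_lit 0) (cs (rf (nat_lit 0)) (cs (rf (nat_lit 1)) (rf (nat_lit 2))))) q93526 (by decide +kernel)
def q93539 : Q := Q.p (nat_lit 0x3800000000000000000000000000000000000000000000000000000000000000) (nat_lit 0x2000018e000478003fe00010000040000000000000000000000000000000000000000000000) (nat_lit 8)
theorem c93539 : QOK q93539 := cut [q89874, q90250, q2063, q11143, q85564] ⟨c89874, c90250, c2063, c11143, c85564, trivial⟩ (nd (nat_lit 250) (nat_lit 0) (cs (rf (nat_lit 0)) (cs (rf (nat_lit 1)) (nd (nat_lit 249) (nat_lit 0) (cs (rf (nat_lit 2)) (cs (rf (nat_lit 3)) (nd (nat_lit 275) (nat_lit 0) (cs (lf (nat_lit 5) (nat_lit 250)) (rf (nat_lit 4)))))))))) q93539 (by decide +kernel)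
def q93601 : Q := Q.p (nat_lit 0x300001c000000000000000000000000000000000000000000000000000000000) (nat_lit 0x200000c00000e000038000ce000120000480000000000000000000000000000000000000000) (nat_lit 8)
theorem c93601 : QOK q93601 := cut [q91239, q93599, q93600] ⟨c91239, c93599, c93600, trivial⟩ (nd (nat_lit 229) (nat_lit 0) (cs (rf (nat_lit 0)) (cs (rf (nat_lit 1)) (rf (nat_lit 2))))) q93601 (by decide +kernel)
def q93641 : Q := Q.p (nat_lit 0x300000e000000000000000000000000000000000000000000000000000000000) (nat_lit 0x10000040000780000e000300000cc000120000480000000000000000000000000000000000000000) (nat_lit 7)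
theorem c93641 : QOK q93641 := cut [q426, q88829, q93630] ⟨c426, c88829, c93630, trivial⟩ (nd (nat_lit 251) (nat_lit 0) (cs (rf (nat_lit 0)) (cs (rf (nat_lit 1)) (rf (nat_lit 2))))) q93641 (by decide +kernel)
def q93643 : Q := Q.p (nat_lit 0x300000e000000000000000000000000000000000000000000000000000000000) (nat_lit 0x40000180000e0001180000e000020000000000000000000000000000000000000000000000) (nat_lit 7)
theorem c93643 : QOK q93643 := cut [q93642] ⟨c93642, trivial⟩ (nd (nat_lit 228) (nat_lit 0) (cs (lf (nat_lit 0) (nat_lit 227)) (rf (nat_lit 0)))) q93643 (by decide +kernel)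
def q93654 : Q := Q.p (nat_lit 0x380000e000000000000000000000000000000000000000000000000000000000) (nat_lit 0xc0000300001d80000600001800028000000000000000000000000000000000000000000000000000) (nat_lit 8)
theorem c93654 : QOK q93654 := cut [q92155] ⟨c92155, trivial⟩ (nd (nat_lit 227) (nat_lit 0) (cs (lf (nat_lit 1) (nat_lit 227)) (nd (nat_lit 250) (nat_lit 0) (cs (lf (nat_lit 12) (nat_lit 227)) (rf (nat_lit 0)))))) q93654 (by decide +kernel)
def q93662 : Q := Q.p (nat_lit 0x380000e000000000000000000000000000000000000000000000000000000000) (nat_lit 0x1e0001fe0001f80000600001800020000000000000000000000000000000000000000000000000000) (nat_lit 12)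
theorem c93662 : QOK q93662 := cut [q93658] ⟨c93658, trivial⟩ (nd (nat_lit 250) (nat_lit 0) (cs (lf (nat_lit 12) (nat_lit 227)) (nd (nat_lit 275) (nat_lit 0) (cs (lf (nat_lit 5) (nat_lit 250)) (nd (nat_lit 227) (nat_lit 0) (cs (lf (nat_lit 1) (nat_lit 227)) (nd (nat_lit 271) (nat_lit 0) (cs (lf (nat_lit 10) (nat_lit 249)) (rf (nat_lit 0)))))))))) q93662 (by decide +kernel)
def q93669 : Q := Q.p (nat_lit 0x300000e000000000000000000000000000000000000000000000000000000000) (nat_lit 0x1e0001fe0001f80000e00011800026000000000000000000000000000000000000000000000000000) (nat_lit 14)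
theorem c93669 : QOK q93669 := cut [q93658] ⟨c93658, trivial⟩ (nd (nat_lit 228) (nat_lit 0) (cs (lf (nat_lit 0) (nat_lit 227)) (nd (nat_lit 205) (nat_lit 0) (cs (lf (nat_lit 22) (nat_lit 205)) (nd (nat_lit 250) (nat_lit 0) (cs (lf (nat_lit 11) (nat_lit 227)) (nd (nat_lit 251) (nat_lit 0) (cs (lf (nat_lit 17) (nat_lit 228)) (nd (nat_lit 271) (nat_lit 0) (cs (lf (nat_lit 10) (nat_lit 249)) (nd (nat_lit 275) (nat_lit 0) (cs (lf (nat_lit 5) (nat_lit 250)) (rf (nat_lit 0)))))))))))))) q93669 (by decide +kernel)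
def q93695 : Q := Q.p (nat_lit 0x300000c000000000000000000000000000000000000000000000000000000000) (nat_lit 0x300000c0000300018e000738001de0001700005c0000000000000000000000000000000000000000) (nat_lit 13)
theorem c93695 : QOK q93695 := cut [q87131, q93595, q93694] ⟨c87131, c93595, c93694, trivial⟩ (nd (nat_lit 232) (nat_lit 0) (cs (rf (nat_lit 0)) (cs (rf (nat_lit 1)) (rf (nat_lit 2))))) q93695 (by decide +kernel)
def q93698 : Q := Q.p (nat_lit 0x380000e000000000000000000000000000000000000000000000000000000000) (nat_lit 0x200001980000600001800010000040000000000000000000000000000000000000000000000) (nat_lit 6)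
theorem c93698 : QOK q93698 := cut [q93697] ⟨c93697, trivial⟩ (nd (nat_lit 227) (nat_lit 0) (cs (lf (nat_lit 1) (nat_lit 227)) (rf (nat_lit 0)))) q93698 (by decide +kernel)
def q93702 : Q := Q.p (nat_lit 0x300000e000000000000000000000000000000000000000000000000000000000) (nat_lit 0x800018e00071800198000040000100000000000000000000000000000000000000000) (nat_lit 9)
theorem c93702 : QOK q93702 := cut [q92719] ⟨c92719, trivial⟩ (nd (nat_lit 228) (nat_lit 0) (cs (lf (nat_lit 0) (nat_lit 227)) (nd (nat_lit 250) (nat_lit 0) (cs (lf (nat_lit 11) (nat_lit 227)) (nd (nat_lit 232) (nat_lit 0) (cs (lf (nat_lit 13) (nat_lit 228)) (rf (nat_lit 0)))))))) q93702 (by decide +kernel)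
def q93717 : Q := Q.p (nat_lit 0x400003000004000010000000000000000000000000000000000000000000000000000) (nat_lit 0x20000080000000001be001ef0001be000000000000000000000000000000000000000000000) (nat_lit 10)
theorem c93717 : QOK q93717 := cut [q1156, q87705, q93713, q93715] ⟨c1156, c87705, c93713, c93715, trivial⟩ (nd (nat_lit 207) (nat_lit 0) (cs (lf (nat_lit 47) (nat_lit 185)) (nd (nat_lit 206) (nat_lit 0) (cs (rf (nat_lit 0)) (cs (rf (nat_lit 1)) (cs (rf (nat_lit 2)) (rf (nat_lit 3)))))))) q93717 (by decide +kernel)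
def q93759 : Q := Q.p (nat_lit 0x300000c000010000000000000000000000000000000000000000000000000000) (nat_lit 0x18000078000000001000006e0007a0000600001000000000000000000000000000000000000) (nat_lit 7)
theorem c93759 : QOK q93759 := cut [q11001, q82300, q84998] ⟨c11001, c82300, c84998, trivial⟩ (nd (nat_lit 209) (nat_lit 0) (cs (rf (nat_lit 0)) (cs (rf (nat_lit 1)) (rf (nat_lit 2))))) q93759 (by decide +kernel)
def q93813 : Q := Q.p (nat_lit 0x300000c000000000000000000000000000000000000000000000000000000000) (nat_lit 0xe000078000078000000003200003e0000e0000300000000000000000000000000000000000000000) (nat_lit 7)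
theorem c93813 : QOK q93813 := cut [q79097, q85044, q22271, q92920] ⟨c79097, c85044, c22271, c92920, trivial⟩ (nd (nat_lit 274) (nat_lit 0) (cs (rf (nat_lit 0)) (cs (rf (nat_lit 1)) (nd (nat_lit 208) (nat_lit 0) (cs (rf (nat_lit 2)) (rf (nat_lit 3))))))) q93813 (by decide +kernel)
def q93831 : Q := Q.p (nat_lit 0x3000004000010000000000000000000000000000000000000000000000000000) (nat_lit 0x20000180000e0000fe0001f80000e0001b80000e000038000000000000000000000000000000000000000000000) (nat_lit 13)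
theorem c93831 : QOK q93831 := cut [q93555, q93682, q22218, q93825, q93830] ⟨c93555, c93682, c22218, c93825, c93830, trivial⟩ (nd (nat_lit 274) (nat_lit 0) (cs (rf (nat_lit 0)) (cs (rf (nat_lit 1)) (cs (nd (nat_lit 275) (nat_lit 0) (cs (lf (nat_lit 29) (nat_lit 208)) (nd (nat_lit 185) (nat_lit 0) (cs (lf (nat_lit 46) (nat_lit 185)) (nd (nat_lit 273) (nat_lit 0) (cs (lf (nat_lit 41) (nat_lit 207)) (nd (nat_lit 272) (nat_lit 0) (cs (lf (nat_lit 12) (nat_lit 249)) (nd (nat_lit 250) (nat_lit 0) (cs (lf (nat_lit 23) (nat_lit 249)) (nd (nat_lit 293) (nat_lit 0) (cs (lf (nat_lit 10) (nat_lit 271)) (nd (nat_lit 251) (nat_lit 0) (cs (lf (nat_lit 5) (nat_lit 250)) (nd (nat_lit 231) (nat_lit 0) (cs (lf (nat_lit 17) (nat_lit 228)) (rf (nat_lit 2)))))))))))))))))) (cs (rf (nat_lit 3)) (rf (nat_lit 4))))))) q93831 (by decide +kernel)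
def q93874 : Q := Q.p (nat_lit 0x3000004000000000000000000000000000000000000000000000000000000000) (nat_lit 0x6e0001f80000e0007bf001ff8003ff000380000a00000000000000000000000000000000000) (nat_lit 15)
theorem c93874 : QOK q93874 := cut [q6259, q79029, q79066, q93563, q1411, q85717, q93835, q93851, q93857, q1156, q4006, q4032, q88084, q93863, q88088, q93868, q3988, q84623, q80169, q92798] ⟨c6259, c79029, c79066, c93563, c1411, c85717, c93835, c93851, c93857, c1156, c4006, c4032, c88084, c93863, c88088, c93868, c3988, c84623, c80169, c92798, trivial⟩ (nd (nat_lit 208) (nat_lit 0) (cs (rf (nat_lit 0)) (cs (rf (nat_lit 1)) (cs (rf (nat_lit 2)) (cs (rf (nat_lit 3)) (nd (nat_lit 207) (nat_lit 0) (cs (rf (nat_lit 4)) (cs (nd (nat_lit 206) (nat_lit 0) (cs (rf (nat_lit 5)) (cs (rf (nat_lit 6)) (cs (nd (nat_lit 274) (nat_lit 0) (cs (lf (nat_lit 47) (nat_lit 185)) (nd (nat_lit 209) (nat_lit 0) (cs (lf (nat_lit 35) (nat_lit 186)) (nd (nat_lit 275) (nat_lit 0) (cs (lf (nat_lit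 29) (nat_lit 208)) (nd (nat_lit 273) (nat_lit 0) (cs (lf (nat_lit 41) (nat_lit 207)) (nd (nat_lit 183) (nat_lit 0) (cs (lf (nat_lit 22) (nat_lit 183)) (nd (nat_lit 272) (nat_lit 0) (cs (lf (nat_lit 12) (nat_lit 249)) (nd (nat_lit 227) (nat_lit 0) (cs (lf (nat_lit 10) (nat_lit 205)) (nd (nat_lit 293) (nat_lit 0) (cs (lf (nat_lit 10) (nat_lit 271)) (nd (nat_lit 250) (nat_lit 0) (cs (lf (nat_lit 23) (nat_lit 249)) (nd (nat_lit 231) (nat_lit 0) (cs (lf (nat_lit 5) (nat_lit 206)) (nd (nat_lit 276) (nat_lit 0) (cs (lf (nat_lit 29) (nat_lit 209)) (lf (nat_lit 22) (nat_lit 250)))))))))))))))))))))))) (cs (rf (nat_lit 7)) (rf (nat_lit 8))))))) (cs (nd (nat_lit 206) (nat_lit 0) (cs (rf (nat_lit 9)) (cs (rf (nat_lit 10)) (cs (rf (nat_lit 11)) (cs (rf (nat_lit 5)) (nd (nat_lit 209) (nat_lit 0) (cs (rf (nat_lit 12)) (cs (rf (nat_lit 13)) (cs (nd (nat_lit 227) (nat_lit 0) (cs (lf (nat_lit 10) (nat_lit 205)) (rf (nat_lit 14)))) (rf (nat_lit 15))))))))))) (nd (nat_lit 231)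 (nat_lit 0) (cs (rf (nat_lit 16)) (cs (rf (nat_lit 17)) (nd (nat_lit 209) (nat_lit 0) (cs (rf (nat_lit 18)) (rf (nat_lit 19)))))))))))))))) q93874 (by decide +kernel)
def q93881 : Q := Q.p (nat_lit 0x3000004000010000000000000000000000000000000000000000000000000000) (nat_lit 0x80000300000e0000fe0001f80000e0000b8001e0000180000000000000000000000000000000000000000000000) (nat_lit 10)
theorem c93881 : QOK q93881 := cut [q79048, q42162, q93682, q93728, q93879] ⟨c79048, c42162, c93682, c93728, c93879, trivial⟩ (nd (nat_lit 274) (nat_lit 0) (cs (rf (nat_lit 0)) (cs (nd (nat_lit 295) (nat_lit 0) (cs (lf (nat_lit 40) (nat_lit 207)) (nd (nat_lit 187) (nat_lit 0) (cs (lf (nat_lit 34) (nat_lit 186)) (nd (nat_lit 296) (nat_lit 0) (cs (lf (nat_lit 41) (nat_lit 229)) (nd (nat_lit 318) (nat_lit 0) (cs (lf (nat_lit 35) (nat_lit 230)) (nd (nat_lit 229) (nat_lit 0) (cs (lf (nat_lit 46) (nat_lit 229)) (nd (nat_lit 227) (nat_lit 0) (cs (lf (nat_lit 1) (nat_lit 227)) (rf (nat_lit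 1)))))))))))))) (cs (rf (nat_lit 2)) (cs (nd (nat_lit 275) (nat_lit 0) (cs (lf (nat_lit 29) (nat_lit 208)) (rf (nat_lit 3)))) (nd (nat_lit 275) (nat_lit 0) (cs (lf (nat_lit 29) (nat_lit 208)) (rf (nat_lit 4))))))))) q93881 (by decide +kernel)
def q93912 : Q := Q.p (nat_lit 0x3000004000000000000000000000000000000000000000000000000000000000) (nat_lit 0x40000700001c00008e000fb8001ff0007f8000780001a00000000000000000000000000000000000) (nat_lit 13)
theorem c93912 : QOK q93912 := cut [q6259, q79029, q79066, q10803, q87238, q10925, q22490, q87239, q87497, q93895, q7464, q84998, q93897, q92798, q92937, q93908, q93911] ⟨c6259, c79029, c79066, c10803, c87238, c10925, c22490, c87239, c87497, c93895, c7464, c84998, c93897, c92798, c92937, c93908, c93911, trivial⟩ (nd (nat_lit 208) (nat_lit 0) (cs (rf (nat_lit 0)) (cs (rf (nat_lit 1)) (cs (rf (nat_lit 2)) (cs (nd (nat_lit 209) (nat_lit 0) (cs (rf (nat_lit 3)) (cs (rf (nat_lit 4)) (cs (nd (nat_lit 210) (nat_lit 0) (cs (rf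 (nat_lit 5)) (cs (rf (nat_lit 6)) (cs (rf (nat_lit 7)) (cs (rf (nat_lit 8)) (cs (rf (nat_lit 9)) (nd (nat_lit 231) (nat_lit 0) (cs (rf (nat_lit 10)) (cs (rf (nat_lit 11)) (nd (nat_lit 165) (nat_lit 0) (cs (lf (nat_lit 37) (nat_lit 164)) (nd (nat_lit 229) (nat_lit 0) (cs (lf (nat_lit 12) (nat_lit 206)) (nd (nat_lit 275) (nat_lit 0) (cs (lf (nat_lit 42) (nat_lit 208)) (nd (nat_lit 276) (nat_lit 0) (cs (lf (nat_lit 29) (nat_lit 209)) (nd (nat_lit 251) (nat_lit 0) (cs (lf (nat_lit 0) (nat_lit 250)) (rf (nat_lit 12))))))))))))))))))))) (nd (nat_lit 231) (nat_lit 0) (cs (rf (nat_lit 13)) (cs (rf (nat_lit 14)) (rf (nat_lit 15))))))))) (rf (nat_lit 16))))))) q93912 (by decide +kernel)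
def q93976 : Q := Q.p (nat_lit 0x3800000000000000000000000000000000000000000000000000000000000000) (nat_lit 0x380000e00007c000060001fc0003e0001be000620001000000000000000000000000000000000000) (nat_lit 17)
theorem c93976 : QOK q93976 := cut [q2065, q6264, q23543, q93975] ⟨c2065, c6264, c23543, c93975, trivial⟩ (nd (nat_lit 250) (nat_lit 0) (cs (rf (nat_lit 0)) (cs (rf (nat_lit 1)) (cs (rf (nat_lit 2)) (rf (nat_lit 3)))))) q93976 (by decide +kernel)
def q94042 : Q := Q.p (nat_lit 0x3800000000000000000000000000000000000000000000000000000000000000) (nat_lit 0x400001c0000700001c000168000c60007fe000ff8001fe0007c0001500000000000000000000000000000000000) (nat_lit 16)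
theorem c94042 : QOK q94042 := cut [q82198, q84257, q82275, q82278, q5482, q11484, q80450, q82300, q92795, q93996, q4090, q80750, q82299, q94012, q82274, q82277, q82197, q84256, q85321, q94017, q94031, q94038] ⟨c82198, c84257, c82275, c82278, c5482, c11484, c80450, c82300, c92795, c93996, c4090, c80750, c82299, c94012, c82274, c82277, c82197, c84256, c85321, c94017, c94031, c94038, trivial⟩ (nd (nat_lit 229) (nat_lit 0) (cs (rf (nat_lit 0)) (cs (rf (nat_lit 1)) (cs (nd (nat_lit 231) (nat_lit 0) (cs (rf (nat_lit 2)) (cs (rf (nat_lit 3)) (cs (nd (nat_lit 207) (nat_lit 0) (cs (rf (nat_lit 4)) (cs (rf (nat_lit 5)) (cs (rf (nat_lit 6)) (cs (nd (nat_lit 209) (nat_lit 0) (cs (rf (nat_lit 7)) (cs (rf (nat_lit 8)) (cs (rf (nat_lit 9)) (nd (nat_lit 187) (nat_lit 0) (cs (rf (nat_lit 10)) (cs (rf (nat_lit 11)) (cs (rf (nat_lit 12)) (nd (nat_lit 164) (nat_lit 0) (cs (lf (nat_lit 46) (nat_lit 164)) (nd (nat_lit 254) (nat_lit 0) (cs (lf (nat_lit 29) (nat_lit 187)) (nd (nat_lit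 230) (nat_lit 0) (cs (lf (nat_lit 18) (nat_lit 229)) (nd (nat_lit 249) (nat_lit 0) (cs (lf (nat_lit 13) (nat_lit 227)) (nd (nat_lit 188) (nat_lit 0) (cs (lf (nat_lit 35) (nat_lit 165)) (nd (nat_lit 206) (nat_lit 0) (cs (lf (nat_lit 14) (nat_lit 184)) (nd (nat_lit 184) (nat_lit 0) (cs (lf (nat_lit 42) (nat_lit 184)) (nd (nat_lit 162) (nat_lit 0) (cs (lf (nat_lit 24) (nat_lit 140)) (nd (nat_lit 205) (nat_lit 0) (cs (lf (nat_lit 0) (nat_lit 204)) (nd (nat_lit 227) (nat_lit 0) (cs (lf (nat_lit 30) (nat_lit 183)) (lf (nat_lit 33) (nat_lit 161)))))))))))))))))))))))))))))) (rf (nat_lit 13))))))) (nd (nat_lit 232) (nat_lit 0) (cs (rf (nat_lit 14)) (cs (rf (nat_lit 15)) (nd (nat_lit 207) (nat_lit 0) (cs (rf (nat_lit 4)) (cs (rf (nat_lit 5)) (cs (rf (nat_lit 6)) (cs (rf (nat_lit 9)) (rf (nat_lit 13)))))))))))))) (cs (nd (nat_lit 207) (nat_lit 0) (cs (rf (nat_lit 4)) (cs (rf (nat_lit 5)) (cs (rf (nat_lit 6)) (cs (rf (nat_lit 13)) (nd (nat_lit 228) (nat_lit 0) (cs (rf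 (nat_lit 16)) (cs (rf (nat_lit 17)) (cs (nd (nat_lit 206) (nat_lit 0) (cs (rf (nat_lit 18)) (cs (nd (nat_lit 231) (nat_lit 0) (cs (rf (nat_lit 2)) (cs (nd (nat_lit 162) (nat_lit 0) (cs (lf (nat_lit 25) (nat_lit 162)) (nd (nat_lit 232) (nat_lit 0) (cs (lf (nat_lit 12) (nat_lit 228)) (nd (nat_lit 233) (nat_lit 0) (cs (lf (nat_lit 6) (nat_lit 230)) (nd (nat_lit 209) (nat_lit 0) (cs (lf (nat_lit 2) (nat_lit 206)) (rf (nat_lit 19)))))))))) (nd (nat_lit 205) (nat_lit 0) (cs (lf (nat_lit 19) (nat_lit 205)) (nd (nat_lit 204) (nat_lit 0) (cs (lf (nat_lit 0) (nat_lit 203)) (nd (nat_lit 162) (nat_lit 0) (cs (lf (nat_lit 25) (nat_lit 162)) (nd (nat_lit 225) (nat_lit 0) (cs (lf (nat_lit 10) (nat_lit 203)) (nd (nat_lit 182) (nat_lit 0) (cs (lf (nat_lit 23) (nat_lit 181)) (nd (nat_lit 208) (nat_lit 0) (cs (lf (nat_lit 22) (nat_lit 182)) (nd (nat_lit 209) (nat_lit 0) (cs (lf (nat_lit 6) (nat_lit 206)) (nd (nat_lit 187) (nat_lit 0) (cs (lf (nat_lit 41) (nat_lit 186)) (lf (nat_lit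 16) (nat_lit 183))))))))))))))))))))) (nd (nat_lit 273) (nat_lit 0) (cs (lf (nat_lit 42) (nat_lit 206)) (nd (nat_lit 274) (nat_lit 0) (cs (lf (nat_lit 29) (nat_lit 207)) (rf (nat_lit 20))))))))) (nd (nat_lit 227) (nat_lit 0) (cs (lf (nat_lit 3) (nat_lit 227)) (lf (nat_lit 21) (nat_lit 227))))))))))))) (nd (nat_lit 254) (nat_lit 0) (cs (lf (nat_lit 23) (nat_lit 228)) (nd (nat_lit 232) (nat_lit 0) (cs (lf (nat_lit 17) (nat_lit 229)) (nd (nat_lit 231) (nat_lit 0) (cs (lf (nat_lit 12) (nat_lit 228)) (rf (nat_lit 21))))))))))))) q94042 (by decide +kernel)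
def q94046 : Q := Q.p (nat_lit 0x3800000000000000000000000000000000000000000000000000000000000000) (nat_lit 0x800003e000c70000fe00010000040000000000000000000000000000000000000000000000) (nat_lit 9)
theorem c94046 : QOK q94046 := cut [q2065, q85540, q85544, q85549, q85555, q94045] ⟨c2065, c85540, c85544, c85549, c85555, c94045, trivial⟩ (nd (nat_lit 250) (nat_lit 0) (cs (rf (nat_lit 0)) (cs (rf (nat_lit 1)) (cs (rf (nat_lit 2)) (cs (rf (nat_lit 3)) (cs (rf (nat_lit 4)) (rf (nat_lit 5)))))))) q94046 (by decide +kernel)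
def q94051 : Q := Q.p (nat_lit 0x400003000004000010000000000000000000000000000000000000000000000000000) (nat_lit 0x280000b0000c0000000000280000a0000000000000000000000000000000000000000000000) (nat_lit 6)
theorem c94051 : QOK q94051 := cut [q94050] ⟨c94050, trivial⟩ (nd (nat_lit 185) (nat_lit 0) (cs (lf (nat_lit 46) (nat_lit 185)) (rf (nat_lit 0)))) q94051 (by decide +kernel)
def q94102 : Q := Q.p (nat_lit 0x3000004000000000000000000000000000000000000000000000000000000000) (nat_lit 0x1c0000780001b0001c8000fb8001fe0007f8000f80003a00000000000000000000000000000000000) (nat_lit 13)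
theorem c94102 : QOK q94102 := cut [q79028, q81409, q93689, q81477, q94063, q92843, q93045, q79066, q57683, q92807, q93029, q85001, q81648, q94081, q79997, q79118, q94087, q79128, q79913, q94091, q92845, q94097, q94098] ⟨c79028, c81409, c93689, c81477, c94063, c92843, c93045, c79066, c57683, c92807, c93029, c85001, c81648, c94081, c79997, c79118, c94087, c79128, c79913, c94091, c92845, c94097, c94098, trivial⟩ (nd (nat_lit 254) (nat_lit 0) (cs (rf (nat_lit 0)) (cs (rf (nat_lit 1)) (cs (nd (nat_lit 231) (nat_lit 0) (cs (rf (nat_lit 2)) (cs (nd (nat_lit 275) (nat_lit 0) (cs (rf (nat_lit 3)) (cs (nd (nat_lit 255) (nat_lit 0) (cs (lf (nat_lit 18) (nat_lit 230)) (nd (nat_lit 233) (nat_lit 0) (cs (lf (nat_lit 17) (nat_lit 230)) (nd (nat_lit 297) (nat_lit 0) (cs (lf (nat_lit 42) (nat_lit 230)) (nd (nat_lit 296) (nat_lit 0) (cs (lf (nat_lit 41) (nat_lit 230)) (rf (nat_lit 4)))))))))) (nd (nat_lit 255) (nat_lit 0) (cs (lf (nat_lit 18) (nat_lit 230)) (nd (nat_lit 209)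 (nat_lit 0) (cs (rf (nat_lit 5)) (cs (rf (nat_lit 6)) (nd (nat_lit 208) (nat_lit 0) (cs (rf (nat_lit 7)) (nd (nat_lit 276) (nat_lit 0) (cs (lf (nat_lit 29) (nat_lit 209)) (nd (nat_lit 233) (nat_lit 0) (cs (lf (nat_lit 17) (nat_lit 230)) (nd (nat_lit 211) (nat_lit 0) (cs (rf (nat_lit 8)) (lf (nat_lit 36) (nat_lit 188)))))))))))))))))) (cs (nd (nat_lit 209) (nat_lit 0) (cs (rf (nat_lit 9)) (cs (rf (nat_lit 10)) (nd (nat_lit 208) (nat_lit 0) (cs (rf (nat_lit 7)) (cs (rf (nat_lit 11)) (nd (nat_lit 255) (nat_lit 0) (cs (lf (nat_lit 18) (nat_lit 230)) (nd (nat_lit 275) (nat_lit 0) (cs (lf (nat_lit 42) (nat_lit 208)) (rf (nat_lit 12)))))))))))) (cs (rf (nat_lit 13)) (nd (nat_lit 255) (nat_lit 0) (cs (lf (nat_lit 18) (nat_lit 230)) (nd (nat_lit 233) (nat_lit 0) (cs (lf (nat_lit 17) (nat_lit 230)) (nd (nat_lit 232) (nat_lit 0) (cs (lf (nat_lit 11) (nat_lit 229)) (rf (nat_lit 14))))))))))))) (nd (nat_lit 232) (nat_lit 0) (cs (rf (nat_lit 15)) (cs (rf (nat_lit 16)) (cs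 (nd (nat_lit 210) (nat_lit 0) (cs (rf (nat_lit 17)) (cs (rf (nat_lit 18)) (rf (nat_lit 19))))) (nd (nat_lit 231) (nat_lit 0) (cs (rf (nat_lit 20)) (cs (rf (nat_lit 2)) (cs (rf (nat_lit 21)) (nd (nat_lit 228) (nat_lit 0) (cs (lf (nat_lit 1) (nat_lit 228)) (rf (nat_lit 22)))))))))))))))) q94102 (by decide +kernel)
def q94113 : Q := Q.p (nat_lit 0x3000004000000000000000000000000000000000000000000000000000000000) (nat_lit 0x80000300000e0000780001f0000c8000780001f80007e0000380000a00000000000000000000000000000000000) (nat_lit 13)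
theorem c94113 : QOK q94113 := cut [q6259, q79029, q79066, q93563, q79048, q93682, q93741, q94050, q93206] ⟨c6259, c79029, c79066, c93563, c79048, c93682, c93741, c94050, c93206, trivial⟩ (nd (nat_lit 208) (nat_lit 0) (cs (rf (nat_lit 0)) (cs (rf (nat_lit 1)) (cs (rf (nat_lit 2)) (cs (rf (nat_lit 3)) (nd (nat_lit 274) (nat_lit 0) (cs (rf (nat_lit 4)) (cs (rf (nat_lit 5)) (cs (rf (nat_lit 6)) (cs (rf (nat_lit 7)) (nd (nat_lit 185) (nat_lit 0) (cs (lf (nat_lit 46) (nat_lit 185)) (nd (nat_lit 275) (nat_lit 0) (cs (lf (nat_lit 29) (nat_lit 208)) (nd (nat_lit 209) (nat_lit 0) (cs (lf (nat_lit 35) (nat_lit 186)) (nd (nat_lit 231) (nat_lit 0) (cs (lf (nat_lit 30) (nat_lit 208)) (nd (nat_lit 276) (nat_lit 0) (cs (lf (nat_lit 29) (nat_lit 209)) (nd (nat_lit 210) (nat_lit 0) (cs (lf (nat_lit 35) (nat_lit 187)) (nd (nat_lit 211) (nat_lit 0) (cs (lf (nat_lit 6) (nat_lit 208)) (nd (nat_lit 189) (nat_lit 0) (cs (lf (nat_lit 17) (nat_lit 186)) (nd (nat_lit 233) (nat_lit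 0) (cs (lf (nat_lit 5) (nat_lit 208)) (rf (nat_lit 8)))))))))))))))))))))))))))))) q94113 (by decide +kernel)
def q94115 : Q := Q.p (nat_lit 0x3000006000000000000000000000000000000000000000000000000000000000) (nat_lit 0x1000004000008000798001fe0000a0000280000000000000000000000000000000000000000) (nat_lit 6)
theorem c94115 : QOK q94115 := cut [q84852, q87953, q92711] ⟨c84852, c87953, c92711, trivial⟩ (nd (nat_lit 231) (nat_lit 0) (cs (rf (nat_lit 0)) (cs (rf (nat_lit 1)) (rf (nat_lit 2))))) q94115 (by decide +kernel)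
def q94173 : Q := Q.p (nat_lit 0x800003000000000000000000000000000000000000000000000000000000000000000) (nat_lit 0x40000700001c0000700001000004c0007c000070000040000000000000000000000000000000000000000000000) (nat_lit 7)
theorem c94173 : QOK q94173 := cut [q88941, q94161, q94168, q94172] ⟨c88941, c94161, c94168, c94172, trivial⟩ (nd (nat_lit 297) (nat_lit 0) (cs (rf (nat_lit 0)) (cs (rf (nat_lit 1)) (cs (rf (nat_lit 2)) (rf (nat_lit 3)))))) q94173 (by decide +kernel)
def q94222 : Q := Q.p (nat_lit 0x800007800008000000000000000000000000000000000000000000000000000000000) (nat_lit 0x4000013000000001d40003f0001ff0000700001400000000000000000000000000000000000) (nat_lit 9)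
theorem c94222 : QOK q94222 := cut [q92793, q93029, q93255, q90969, q80833, q94218] ⟨c92793, c93029, c93255, c90969, c80833, c94218, trivial⟩ (nd (nat_lit 209) (nat_lit 0) (cs (rf (nat_lit 0)) (cs (rf (nat_lit 1)) (cs (rf (nat_lit 2)) (nd (nat_lit 210) (nat_lit 0) (cs (lf (nat_lit 35) (nat_lit 187)) (nd (nat_lit 276) (nat_lit 0) (cs (lf (nat_lit 29) (nat_lit 209)) (nd (nat_lit 211) (nat_lit 0) (cs (rf (nat_lit 3)) (cs (nd (nat_lit 272) (nat_lit 0) (cs (lf (nat_lit 10) (nat_lit 250)) (rf (nat_lit 4)))) (rf (nat_lit 5))))))))))))) q94222 (by decide +kernel)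
def q94260 : Q := Q.p (nat_lit 0x800007000008000000000000000000000000000000000000000000000000000000000) (nat_lit 0x5000014000000001d40003f0001fc0000700001400000000000000000000000000000000000) (nat_lit 11)
theorem c94260 : QOK q94260 := cut [q82309, q92707, q92710, q81645, q84969, q94218] ⟨c82309, c92707, c92710, c81645, c84969, c94218, trivial⟩ (nd (nat_lit 209) (nat_lit 0) (cs (rf (nat_lit 0)) (cs (rf (nat_lit 1)) (cs (rf (nat_lit 2)) (nd (nat_lit 208) (nat_lit 0) (cs (lf (nat_lit 47) (nat_lit 186)) (nd (nat_lit 210) (nat_lit 0) (cs (lf (nat_lit 35) (nat_lit 187)) (nd (nat_lit 276) (nat_lit 0) (cs (lf (nat_lit 29) (nat_lit 209)) (nd (nat_lit 211) (nat_lit 0) (cs (rf (nat_lit 3)) (cs (rf (nat_lit 4)) (rf (nat_lit 5))))))))))))))) q94260 (by decide +kernel)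
def q94343 : Q := Q.p (nat_lit 0x100000c00003000000000000000000000000000000000000000000000000000000000000000) (nat_lit 0x700003c00002c0000000004000014000000000000000000000000000000000000000000000000000000000) (nat_lit 7)
theorem c94343 : QOK q94343 := cut [q94342] ⟨c94342, trivial⟩ (nd (nat_lit 318) (nat_lit 0) (cs (lf (nat_lit 30) (nat_lit 252)) (rf (nat_lit 0)))) q94343 (by decide +kernel)
def q94356 : Q := Q.p (nat_lit 0x100000c00003000000000000000000000000000000000000000000000000000000000000000) (nat_lit 0x1f80007f8000ec0001000004000010000000000000000000000000000000000000000000000000000000000) (nat_lit 11)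
theorem c94356 : QOK q94356 := cut [q25883, q89773, q94355] ⟨c25883, c89773, c94355, trivial⟩ (nd (nat_lit 297) (nat_lit 0) (cs (rf (nat_lit 0)) (cs (rf (nat_lit 1)) (cs (nd (nat_lit 318) (nat_lit 0) (cs (lf (nat_lit 30) (nat_lit 252)) (nd (nat_lit 317) (nat_lit 0) (cs (lf (nat_lit 41) (nat_lit 251)) (nd (nat_lit 315) (nat_lit 0) (cs (lf (nat_lit 13) (nat_lit 293)) (nd (nat_lit 298) (nat_lit 0) (cs (lf (nat_lit 6) (nat_lit 295)) (nd (nat_lit 319) (nat_lit 0) (cs (lf (nat_lit 42) (nat_lit 252)) (nd (nat_lit 320) (nat_lit 0) (cs (lf (nat_lit 29) (nat_lit 253)) (nd (nat_lit 321) (nat_lit 0) (cs (lf (nat_lit 18) (nat_lit 296)) (nd (nat_lit 343) (nat_lit 0) (cs (lf (nat_lit 5) (nat_lit 318)) (nd (nat_lit 254) (nat_lit 0) (cs (lf (nat_lit 35) (nat_lit 231)) (lf (nat_lit 25) (nat_lit 254)))))))))))))))))))) (rf (nat_lit 2)))))) q94356 (by decide +kernel)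
def q94384 : Q := Q.p (nat_lit 0x300000c00003000000000000000000000000000000000000000000000000000000000000000) (nat_lit 0x200004e0000380004000004000010000000000000000000000000000000000000000000000000000) (nat_lit 6)
theorem c94384 : QOK q94384 := cut [q89423] ⟨c89423, trivial⟩ (nd (nat_lit 230) (nat_lit 0) (cs (lf (nat_lit 24) (nat_lit 208)) (rf (nat_lit 0)))) q94384 (by decide +kernel)
def q94392 : Q := Q.p (nat_lit 0x100000c00003000000000000000000000000000000000000000000000000000000000000000) (nat_lit 0x780007f8000ec000030000c000010000000000000000000000000000000000000000000000000000000000) (nat_lit 9)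
theorem c94392 : QOK q94392 := cut [q25883, q89773, q94355, q84339] ⟨c25883, c89773, c94355, c84339, trivial⟩ (nd (nat_lit 297) (nat_lit 0) (cs (rf (nat_lit 0)) (cs (rf (nat_lit 1)) (cs (rf (nat_lit 2)) (nd (nat_lit 318) (nat_lit 0) (cs (lf (nat_lit 30) (nat_lit 252)) (nd (nat_lit 317) (nat_lit 0) (cs (lf (nat_lit 41) (nat_lit 251)) (nd (nat_lit 315) (nat_lit 0) (cs (lf (nat_lit 13) (nat_lit 293)) (nd (nat_lit 298) (nat_lit 0) (cs (lf (nat_lit 6) (nat_lit 295)) (nd (nat_lit 273) (nat_lit 0) (cs (lf (nat_lit 0) (nat_lit 272)) (nd (nat_lit 319) (nat_lit 0) (cs (lf (nat_lit 42) (nat_lit 252)) (rf (nat_lit 3)))))))))))))))))) q94392 (by decide +kernel)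
def q94429 : Q := Q.p (nat_lit 0x800003000000000000000000000000000000000000000000000000000000000000000) (nat_lit 0x18000778001ff000178001ce000fc0000700001c0000400000000000000000000000000000000000000000) (nat_lit 15)
theorem c94429 : QOK q94429 := cut [q94370, q22293, q94337, q79068, q87998, q80651, q94410, q84408, q79079, q84049, q94412, q94416, q24703, q87016, q94159, q94424] ⟨c94370, c22293, c94337, c79068, c87998, c80651, c94410, c84408, c79079, c84049, c94412, c94416, c24703, c87016, c94159, c94424, trivial⟩ (nd (nat_lit 274) (nat_lit 0) (cs (rf (nat_lit 0)) (cs (nd (nat_lit 296) (nat_lit 0) (cs (rf (nat_lit 1)) (cs (rf (nat_lit 2)) (nd (nat_lit 230) (nat_lit 0) (cs (rf (nat_lit 3)) (cs (nd (nat_lit 231) (nat_lit 0) (cs (lf (nat_lit 36) (nat_lit 208)) (nd (nat_lit 295) (nat_lit 0) (cs (lf (nat_lit 41) (nat_lit 229)) (nd (nat_lit 294) (nat_lit 0) (cs (lf (nat_lit 12) (nat_lit 271)) (nd (nat_lit 297) (nat_lit 0) (cs (lf (nat_lit 17) (nat_lit 272)) (nd (nat_lit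 271) (nat_lit 0) (cs (lf (nat_lit 22) (nat_lit 271)) (nd (nat_lit 298) (nat_lit 0) (cs (lf (nat_lit 29) (nat_lit 231)) (nd (nat_lit 299) (nat_lit 0) (cs (lf (nat_lit 18) (nat_lit 274)) (nd (nat_lit 321) (nat_lit 0) (cs (lf (nat_lit 5) (nat_lit 296)) (nd (nat_lit 315) (nat_lit 0) (cs (lf (nat_lit 10) (nat_lit 293)) (rf (nat_lit 4)))))))))))))))))))) (nd (nat_lit 295) (nat_lit 0) (cs (lf (nat_lit 41) (nat_lit 229)) (nd (nat_lit 208) (nat_lit 0) (cs (lf (nat_lit 24) (nat_lit 186)) (rf (nat_lit 5)))))))))))) (cs (rf (nat_lit 6)) (cs (nd (nat_lit 273) (nat_lit 0) (cs (rf (nat_lit 7)) (cs (nd (nat_lit 254) (nat_lit 0) (cs (rf (nat_lit 8)) (nd (nat_lit 295) (nat_lit 0) (cs (rf (nat_lit 9)) (nd (nat_lit 276) (nat_lit 0) (cs (lf (nat_lit 11) (nat_lit 272)) (rf (nat_lit 10)))))))) (nd (nat_lit 272) (nat_lit 0) (cs (lf (nat_lit 12) (nat_lit 249)) (nd (nat_lit 249) (nat_lit 0) (cs (lf (nat_lit 22) (nat_lit 249)) (nd (nat_lit 297) (nat_lit 0) (cs (lf (nat_lit 5) (nat_lit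 272)) (nd (nat_lit 230) (nat_lit 0) (cs (lf (nat_lit 24) (nat_lit 208)) (nd (nat_lit 294) (nat_lit 0) (cs (lf (nat_lit 11) (nat_lit 271)) (nd (nat_lit 295) (nat_lit 0) (cs (lf (nat_lit 6) (nat_lit 272)) (rf (nat_lit 11))))))))))))))))) (nd (nat_lit 231) (nat_lit 0) (cs (rf (nat_lit 12)) (nd (nat_lit 232) (nat_lit 0) (cs (rf (nat_lit 13)) (cs (rf (nat_lit 14)) (nd (nat_lit 210) (nat_lit 0) (cs (lf (nat_lit 30) (nat_lit 209)) (nd (nat_lit 166) (nat_lit 0) (cs (lf (nat_lit 37) (nat_lit 165)) (rf (nat_lit 15)))))))))))))))) q94429 (by decide +kernel)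
def q94441 : Q := Q.p (nat_lit 0x800003000000000000000000000000000000000000000000000000000000000000000) (nat_lit 0x500001c0000700001c000070000140000080007c000070000140000000000000000000000000000000000000000000000) (nat_lit 8)
theorem c94441 : QOK q94441 := cut [q88933, q88941, q82063, q94432, q94433, q90094, q94438, q32035] ⟨c88933, c88941, c82063, c94432, c94433, c90094, c94438, c32035, trivial⟩ (nd (nat_lit 297) (nat_lit 0) (cs (rf (nat_lit 0)) (cs (rf (nat_lit 1)) (cs (nd (nat_lit 231) (nat_lit 0) (cs (rf (nat_lit 2)) (cs (rf (nat_lit 3)) (rf (nat_lit 4))))) (nd (nat_lit 319) (nat_lit 0) (cs (rf (nat_lit 5)) (cs (rf (nat_lit 6)) (nd (nat_lit 318) (nat_lit 0) (cs (lf (nat_lit 41) (nat_lit 252)) (rf (nat_lit 7))))))))))) q94441 (by decide +kernel)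
def q94445 : Q := Q.p (nat_lit 0x800003000000000000000000000000000000000000000000000000000000000000000) (nat_lit 0x40000700001c0000700001400004c0007c000060000080000000000000000000000000000000000000000000000) (nat_lit 7)
theorem c94445 : QOK q94445 := cut [q94168, q82063, q94160, q94443, q94444] ⟨c94168, c82063, c94160, c94443, c94444, trivial⟩ (nd (nat_lit 297) (nat_lit 0) (cs (rf (nat_lit 0)) (cs (nd (nat_lit 231) (nat_lit 0) (cs (rf (nat_lit 1)) (rf (nat_lit 2)))) (cs (rf (nat_lit 3)) (rf (nat_lit 4)))))) q94445 (by decide +kernel)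
def q94538 : Q := Q.p (nat_lit 0x800003000000000000000000000000000000000000000000000000000000000000000) (nat_lit 0x500001c0000700001c0000600001400004c0007c000070000040000000000000000000000000000000000000000000000) (nat_lit 7)
theorem c94538 : QOK q94538 := cut [q88933, q94161, q94537] ⟨c88933, c94161, c94537, trivial⟩ (nd (nat_lit 297) (nat_lit 0) (cs (rf (nat_lit 0)) (cs (rf (nat_lit 1)) (rf (nat_lit 2))))) q94538 (by decide +kernel)
def q94617 : Q := Q.p (nat_lit 0x800003000000000000000000000000000000000000000000000000000000000000000) (nat_lit 0x180004e000138001d5c007ce003f7c000ff0003fc0003e0000b80000000000000000000000000000000000) (nat_lit 14)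
theorem c94617 : QOK q94617 := cut [q79112, q83723, q22353, q94555, q94584, q81409, q94587, q81663, q92618, q3763, q94594, q79029, q79199, q94612] ⟨c79112, c83723, c22353, c94555, c94584, c81409, c94587, c81663, c92618, c3763, c94594, c79029, c79199, c94612, trivial⟩ (nd (nat_lit 230) (nat_lit 0) (cs (rf (nat_lit 0)) (cs (nd (nat_lit 208) (nat_lit 0) (cs (lf (nat_lit 24) (nat_lit 186)) (nd (nat_lit 229) (nat_lit 0) (cs (rf (nat_lit 1)) (cs (nd (nat_lit 254) (nat_lit 0) (cs (lf (nat_lit 18) (nat_lit 229)) (nd (nat_lit 274) (nat_lit 0) (cs (rf (nat_lit 2)) (nd (nat_lit 209) (nat_lit 0) (cs (lf (nat_lit 35) (nat_lit 186)) (nd (nat_lit 210) (nat_lit 0) (cs (lf (nat_lit 6) (nat_lit 207)) (nd (nat_lit 232) (nat_lit 0) (cs (lf (nat_lit 36) (nat_lit 187)) (rf (nat_lit 3)))))))))))) (rf (nat_lit 4))))))) (cs (nd (nat_lit 254) (nat_lit 0) (cs (rf (nat_lit 5)) (cs (rf (nat_lit 6)) (cs (nd (nat_lit 251) (nat_lit 0) (cs (rf (nat_lit 7)) (cs (rf (nat_lit 8)) (nd (nat_lit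 297) (nat_lit 0) (cs (lf (nat_lit 42) (nat_lit 230)) (nd (nat_lit 232) (nat_lit 0) (cs (lf (nat_lit 17) (nat_lit 229)) (nd (nat_lit 188) (nat_lit 0) (cs (lf (nat_lit 37) (nat_lit 187)) (nd (nat_lit 228) (nat_lit 0) (cs (lf (nat_lit 22) (nat_lit 228)) (nd (nat_lit 250) (nat_lit 0) (cs (lf (nat_lit 23) (nat_lit 227)) (rf (nat_lit 9))))))))))))))) (nd (nat_lit 297) (nat_lit 0) (cs (lf (nat_lit 42) (nat_lit 230)) (nd (nat_lit 255) (nat_lit 0) (cs (lf (nat_lit 23) (nat_lit 229)) (nd (nat_lit 233) (nat_lit 0) (cs (lf (nat_lit 17) (nat_lit 230)) (nd (nat_lit 256) (nat_lit 0) (cs (lf (nat_lit 11) (nat_lit 252)) (nd (nat_lit 278) (nat_lit 0) (cs (lf (nat_lit 5) (nat_lit 253)) (nd (nat_lit 300) (nat_lit 0) (cs (lf (nat_lit 42) (nat_lit 233)) (rf (nat_lit 10)))))))))))))))))) (nd (nat_lit 208) (nat_lit 0) (cs (rf (nat_lit 11)) (nd (nat_lit 254) (nat_lit 0) (cs (rf (nat_lit 5)) (cs (rf (nat_lit 6)) (cs (nd (nat_lit 232) (nat_lit 0) (cs (rf (nat_lit 12)) (cs (nd (nat_lit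 233) (nat_lit 0) (cs (lf (nat_lit 12) (nat_lit 229)) (nd (nat_lit 234) (nat_lit 0) (cs (lf (nat_lit 6) (nat_lit 231)) (nd (nat_lit 210) (nat_lit 0) (cs (lf (nat_lit 36) (nat_lit 187)) (nd (nat_lit 209) (nat_lit 0) (cs (lf (nat_lit 0) (nat_lit 207)) (lf (nat_lit 3) (nat_lit 208)))))))))) (nd (nat_lit 297) (nat_lit 0) (cs (lf (nat_lit 42) (nat_lit 230)) (nd (nat_lit 251) (nat_lit 0) (cs (lf (nat_lit 17) (nat_lit 229)) (nd (nat_lit 228) (nat_lit 0) (cs (lf (nat_lit 22) (nat_lit 228)) (nd (nat_lit 250) (nat_lit 0) (cs (lf (nat_lit 5) (nat_lit 250)) (lf (nat_lit 23) (nat_lit 227))))))))))))) (nd (nat_lit 297) (nat_lit 0) (cs (lf (nat_lit 42) (nat_lit 230)) (nd (nat_lit 255) (nat_lit 0) (cs (lf (nat_lit 23) (nat_lit 229)) (rf (nat_lit 13)))))))))))))))) q94617 (by decide +kernel)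
def q94701 : Q := Q.p (nat_lit 0x800003000000000000000000000000000000000000000000000000000000000000000) (nat_lit 0x500001c0000700007e0001fe0001400004c0007f800058000040000000000000000000000000000000000000000000000) (nat_lit 12)
theorem c94701 : QOK q94701 := cut [q88933, q94168, q94537, q94160, q94432, q94699] ⟨c88933, c94168, c94537, c94160, c94432, c94699, trivial⟩ (nd (nat_lit 297) (nat_lit 0) (cs (rf (nat_lit 0)) (cs (rf (nat_lit 1)) (cs (rf (nat_lit 2)) (nd (nat_lit 231) (nat_lit 0) (cs (rf (nat_lit 3)) (cs (rf (nat_lit 4)) (rf (nat_lit 5))))))))) q94701 (by decide +kernel)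
def q94712 : Q := Q.p (nat_lit 0x3800000000000000000000000000000000000000000000000000000000000000) (nat_lit 0x40000700001c000070000c00007700000c0000700001c0000400000000000000000000000000000000000) (nat_lit 11)
theorem c94712 : QOK q94712 := cut [q92239, q92660, q86699, q86708, q86710, q86701, q94710] ⟨c92239, c92660, c86699, c86708, c86710, c86701, c94710, trivial⟩ (nd (nat_lit 254) (nat_lit 0) (cs (rf (nat_lit 0)) (cs (rf (nat_lit 1)) (cs (nd (nat_lit 229) (nat_lit 0) (cs (lf (nat_lit 23) (nat_lit 228)) (nd (nat_lit 296) (nat_lit 0) (cs (rf (nat_lit 2)) (cs (rf (nat_lit 3)) (cs (nd (nat_lit 232) (nat_lit 0) (cs (lf (nat_lit 17) (nat_lit 229)) (rf (nat_lit 4)))) (nd (nat_lit 232) (nat_lit 0) (cs (lf (nat_lit 17) (nat_lit 229)) (nd (nat_lit 273) (nat_lit 0) (cs (lf (nat_lit 11) (nat_lit 250)) (rf (nat_lit 5)))))))))))) (nd (nat_lit 273) (nat_lit 0) (cs (lf (nat_lit 11) (nat_lit 250)) (rf (nat_lit 6)))))))) q94712 (by decide +kernel)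
def q94719 : Q := Q.p (nat_lit 0x3000008000000000000000000000000000000000000000000000000000000000) (nat_lit 0x300001f0001f00001f0000c8000f00001fc000fc0000700001400000000000000000000000000000000000) (nat_lit 13)
theorem c94719 : QOK q94719 := cut [q82301, q92707, q92792, q92793, q91882, q92785, q92789, q94464, q94716] ⟨c82301, c92707, c92792, c92793, c91882, c92785, c92789, c94464, c94716, trivial⟩ (nd (nat_lit 209) (nat_lit 0) (cs (rf (nat_lit 0)) (cs (rf (nat_lit 1)) (cs (rf (nat_lit 2)) (cs (rf (nat_lit 3)) (nd (nat_lit 275) (nat_lit 0) (cs (rf (nat_lit 4)) (cs (rf (nat_lit 5)) (cs (rf (nat_lit 6)) (nd (nat_lit 254) (nat_lit 0) (cs (nd (nat_lit 210) (nat_lit 0) (cs (lf (nat_lit 35) (nat_lit 187)) (rf (nat_lit 7)))) (rf (nat_lit 8))))))))))))) q94719 (by decide +kernel)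
def q94789 : Q := Q.p (nat_lit 0x3000018000000000000000000000000000000000000000000000000000000000) (nat_lit 0x20000080001c0000660003fc000140000500000000000000000000000000000000000000000) (nat_lit 7)
theorem c94789 : QOK q94789 := cut [q92719, q92721, q12207, q12221, q84455] ⟨c92719, c92721, c12207, c12221, c84455, trivial⟩ (nd (nat_lit 230) (nat_lit 0) (cs (rf (nat_lit 0)) (cs (nd (nat_lit 233) (nat_lit 0) (cs (lf (nat_lit 6) (nat_lit 230)) (rf (nat_lit 1)))) (nd (nat_lit 210) (nat_lit 0) (cs (rf (nat_lit 2)) (cs (rf (nat_lit 3)) (nd (nat_lit 211) (nat_lit 0) (cs (lf (nat_lit 12) (nat_lit 207)) (nd (nat_lit 212) (nat_lit 0) (cs (lf (nat_lit 6) (nat_lit 209)) (rf (nat_lit 4)))))))))))) q94789 (by decide +kernel)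
def q94808 : Q := Q.p (nat_lit 0x600003800008000000000000000000000000000000000000000000000000000000000) (nat_lit 0x500001c0000f00001f00001c0000000002000008000020000000000000000000000000000000000000000000000) (nat_lit 7)
theorem c94808 : QOK q94808 := cut [q82682, q92695, q94801, q94805] ⟨c82682, c92695, c94801, c94805, trivial⟩ (nd (nat_lit 295) (nat_lit 0) (cs (rf (nat_lit 0)) (cs (rf (nat_lit 1)) (cs (rf (nat_lit 2)) (nd (nat_lit 271) (nat_lit 0) (cs (lf (nat_lit 13) (nat_lit 249)) (nd (nat_lit 296) (nat_lit 0) (cs (lf (nat_lit 30) (nat_lit 230)) (rf (nat_lit 3)))))))))) q94808 (by decide +kernel)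
def q94847 : Q := Q.p (nat_lit 0x3000008000020000000000000000000000000000000000000000000000000000) (nat_lit 0x100001c000070001df0003cc000f60003c0000700001800004000000000000000000000000000000000000) (nat_lit 11)
theorem c94847 : QOK q94847 := cut [q86315, q93010, q93151, q94716, q94843] ⟨c86315, c93010, c93151, c94716, c94843, trivial⟩ (nd (nat_lit 275) (nat_lit 0) (cs (rf (nat_lit 0)) (cs (rf (nat_lit 1)) (nd (nat_lit 254) (nat_lit 0) (cs (rf (nat_lit 2)) (cs (rf (nat_lit 3)) (nd (nat_lit 274) (nat_lit 0) (cs (lf (nat_lit 41) (nat_lit 208)) (nd (nat_lit 272) (nat_lit 0) (cs (lf (nat_lit 13) (nat_lit 250)) (rf (nat_lit 4)))))))))))) q94847 (by decide +kernel)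
def q94943 : Q := Q.p (nat_lit 0x3000008000000000000000000000000000000000000000000000000000000000) (nat_lit 0x380001f0001fc0001f8000cc000340003fc0003c0000700001400000000000000000000000000000000000) (nat_lit 13)
theorem c94943 : QOK q94943 := cut [q82309, q92707, q92710, q91882, q92785, q92789, q87022, q94840, q81696, q94936] ⟨c82309, c92707, c92710, c91882, c92785, c92789, c87022, c94840, c81696, c94936, trivial⟩ (nd (nat_lit 209) (nat_lit 0) (cs (rf (nat_lit 0)) (cs (rf (nat_lit 1)) (cs (rf (nat_lit 2)) (nd (nat_lit 275) (nat_lit 0) (cs (rf (nat_lit 3)) (cs (rf (nat_lit 4)) (cs (rf (nat_lit 5)) (nd (nat_lit 273) (nat_lit 0) (cs (rf (nat_lit 6)) (cs (nd (nat_lit 186) (nat_lit 0) (cs (lf (nat_lit 46) (nat_lit 186)) (nd (nat_lit 210) (nat_lit 0) (cs (lf (nat_lit 35) (nat_lit 187)) (nd (nat_lit 276) (nat_lit 0) (cs (lf (nat_lit 29) (nat_lit 209)) (nd (nat_lit 251) (nat_lit 0) (cs (lf (nat_lit 0) (nat_lit 250)) (nd (nat_lit 254) (nat_lit 0) (cs (lf (nat_lit 11)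 (nat_lit 250)) (rf (nat_lit 7)))))))))))) (cs (nd (nat_lit 274) (nat_lit 0) (cs (lf (nat_lit 41) (nat_lit 208)) (nd (nat_lit 254) (nat_lit 0) (cs (lf (nat_lit 6) (nat_lit 251)) (nd (nat_lit 276) (nat_lit 0) (cs (lf (nat_lit 29) (nat_lit 209)) (nd (nat_lit 250) (nat_lit 0) (cs (lf (nat_lit 22) (nat_lit 250)) (rf (nat_lit 8)))))))))) (nd (nat_lit 274) (nat_lit 0) (cs (lf (nat_lit 41) (nat_lit 208)) (nd (nat_lit 271) (nat_lit 0) (cs (lf (nat_lit 13) (nat_lit 249)) (nd (nat_lit 186) (nat_lit 0) (cs (lf (nat_lit 46) (nat_lit 186)) (nd (nat_lit 188) (nat_lit 0) (cs (lf (nat_lit 34) (nat_lit 187)) (rf (nat_lit 9)))))))))))))))))))))) q94943 (by decide +kernel)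
def q94959 : Q := Q.p (nat_lit 0x400003000000000000000000000000000000000000000000000000000000000000000) (nat_lit 0x80000380000e000038000080000c80000f8000380000c0000000000000000000000000000000000000000000000) (nat_lit 7)
theorem c94959 : QOK q94959 := cut [q46633, q81014, q94957, q94958] ⟨c46633, c81014, c94957, c94958, trivial⟩ (nd (nat_lit 296) (nat_lit 0) (cs (rf (nat_lit 0)) (cs (rf (nat_lit 1)) (cs (rf (nat_lit 2)) (rf (nat_lit 3)))))) q94959 (by decide +kernel)
def q94989 : Q := Q.p (nat_lit 0x700003000000000000000000000000000000000000000000000000000000000000000) (nat_lit 0x4000090000660001800000e00006000010000000000000000000000000000000000000000000000000000) (nat_lit 6)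
theorem c94989 : QOK q94989 := cut [q88426, q93549] ⟨c88426, c93549, trivial⟩ (nd (nat_lit 275) (nat_lit 0) (cs (rf (nat_lit 0)) (rf (nat_lit 1)))) q94989 (by decide +kernel)
def q95062 : Q := Q.p (nat_lit 0x600003000000000000000000000000000000000000000000000000000000000000000) (nat_lit 0x50003ff0007fc001ff000180000cf0000bc0002c0000b0000000000000000000000000000000000000000000000) (nat_lit 17)
theorem c95062 : QOK q95062 := cut [q83686, q83612, q5304, q14764, q94292, q94301, q94412, q14782, q45849, q86432, q45437, q24867, q95029, q83989, q94474, q82682, q83647, q92695, q83637, q91737, q89854, q82666, q95060] ⟨c83686, c83612, c5304, c14764, c94292, c94301, c94412, c14782, c45849, c86432, c45437, c24867, c95029, c83989, c94474, c82682, c83647, c92695, c83637, c91737, c89854, c82666, c95060, trivial⟩ (nd (nat_lit 251) (nat_lit 0) (cs (rf (nat_lit 0)) (cs (nd (nat_lit 254) (nat_lit 0) (cs (lf (nat_lit 6) (nat_lit 251)) (nd (nat_lit 228) (nat_lit 0) (cs (lf (nat_lit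 22) (nat_lit 228)) (nd (nat_lit 250) (nat_lit 0) (cs (lf (nat_lit 23) (nat_lit 227)) (rf (nat_lit 1)))))))) (cs (nd (nat_lit 275) (nat_lit 0) (cs (rf (nat_lit 2)) (cs (nd (nat_lit 295) (nat_lit 0) (cs (rf (nat_lit 3)) (cs (rf (nat_lit 4)) (cs (rf (nat_lit 5)) (nd (nat_lit 254) (nat_lit 0) (cs (lf (nat_lit 6) (nat_lit 251)) (nd (nat_lit 276) (nat_lit 0) (cs (lf (nat_lit 11) (nat_lit 272)) (nd (nat_lit 317) (nat_lit 0) (cs (lf (nat_lit 30) (nat_lit 251)) (nd (nat_lit 318) (nat_lit 0) (cs (lf (nat_lit 29) (nat_lit 251)) (nd (nat_lit 316) (nat_lit 0) (cs (lf (nat_lit 41) (nat_lit 250)) (rf (nat_lit 6)))))))))))))))) (nd (nat_lit 250) (nat_lit 0) (cs (rf (nat_lit 1)) (nd (nat_lit 317) (nat_lit 0) (cs (rf (nat_lit 7)) (cs (nd (nat_lit 319) (nat_lit 0) (cs (nd (nat_lit 227) (nat_lit 0) (cs (lf (nat_lit 22) (nat_lit 227)) (nd (nat_lit 297) (nat_lit 0) (cs (lf (nat_lit 42) (nat_lit 252)) (rf (nat_lit 8)))))) (cs (nd (nat_lit 254) (nat_lit 0) (cs (lf (nat_lit 6) (nat_lit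 251)) (nd (nat_lit 227) (nat_lit 0) (cs (lf (nat_lit 22) (nat_lit 227)) (nd (nat_lit 297) (nat_lit 0) (cs (lf (nat_lit 42) (nat_lit 252)) (rf (nat_lit 9)))))))) (cs (nd (nat_lit 318) (nat_lit 0) (cs (rf (nat_lit 10)) (cs (nd (nat_lit 254) (nat_lit 0) (cs (lf (nat_lit 6) (nat_lit 251)) (nd (nat_lit 227) (nat_lit 0) (cs (lf (nat_lit 22) (nat_lit 227)) (nd (nat_lit 297) (nat_lit 0) (cs (lf (nat_lit 41) (nat_lit 252)) (nd (nat_lit 320) (nat_lit 0) (cs (lf (nat_lit 29) (nat_lit 253)) (nd (nat_lit 298) (nat_lit 0) (cs (lf (nat_lit 24) (nat_lit 231)) (lf (nat_lit 12) (nat_lit 294)))))))))))) (nd (nat_lit 296) (nat_lit 0) (cs (lf (nat_lit 42) (nat_lit 251)) (lf (nat_lit 41) (nat_lit 251))))))) (cs (nd (nat_lit 318) (nat_lit 0) (cs (rf (nat_lit 11)) (cs (rf (nat_lit 10)) (rf (nat_lit 12))))) (cs (nd (nat_lit 227) (nat_lit 0) (cs (lf (nat_lit 22) (nat_lit 227)) (nd (nat_lit 254) (nat_lit 0) (cs (lf (nat_lit 6) (nat_lit 251)) (nd (nat_lit 297) (nat_lit 0) (cs (lf (nat_lit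 42) (nat_lit 252)) (nd (nat_lit 320) (nat_lit 0) (cs (lf (nat_lit 29) (nat_lit 253)) (nd (nat_lit 298) (nat_lit 0) (cs (lf (nat_lit 24) (nat_lit 231)) (nd (nat_lit 318) (nat_lit 0) (cs (lf (nat_lit 41) (nat_lit 252)) (lf (nat_lit 12) (nat_lit 294)))))))))))))) (nd (nat_lit 227) (nat_lit 0) (cs (lf (nat_lit 22) (nat_lit 227)) (nd (nat_lit 254) (nat_lit 0) (cs (lf (nat_lit 6) (nat_lit 251)) (nd (nat_lit 297) (nat_lit 0) (cs (lf (nat_lit 42) (nat_lit 252)) (nd (nat_lit 318) (nat_lit 0) (cs (lf (nat_lit 41) (nat_lit 252)) (nd (nat_lit 296) (nat_lit 0) (cs (lf (nat_lit 41) (nat_lit 251)) (rf (nat_lit 13)))))))))))))))))) (nd (nat_lit 254) (nat_lit 0) (cs (lf (nat_lit 6) (nat_lit 251)) (nd (nat_lit 295) (nat_lit 0) (cs (lf (nat_lit 30) (nat_lit 251)) (nd (nat_lit 318) (nat_lit 0) (cs (lf (nat_lit 29) (nat_lit 251)) (rf (nat_lit 14)))))))))))))))) (cs (nd (nat_lit 295) (nat_lit 0) (cs (rf (nat_lit 15)) (cs (rf (nat_lit 16)) (cs (rf (nat_lit 17)) (cs (nd (nat_lit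 296) (nat_lit 0) (cs (rf (nat_lit 18)) (nd (nat_lit 254) (nat_lit 0) (cs (lf (nat_lit 6) (nat_lit 251)) (rf (nat_lit 19)))))) (nd (nat_lit 254) (nat_lit 0) (cs (lf (nat_lit 6) (nat_lit 251)) (nd (nat_lit 317) (nat_lit 0) (cs (lf (nat_lit 30) (nat_lit 251)) (nd (nat_lit 316) (nat_lit 0) (cs (lf (nat_lit 41) (nat_lit 250)) (nd (nat_lit 318) (nat_lit 0) (cs (lf (nat_lit 29) (nat_lit 251)) (rf (nat_lit 20))))))))))))))) (nd (nat_lit 296) (nat_lit 0) (cs (rf (nat_lit 21)) (cs (rf (nat_lit 18)) (rf (nat_lit 22)))))))))) q95062 (by decide +kernel)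
def q95098 : Q := Q.p (nat_lit 0x400003000000000000000000000000000000000000000000000000000000000000000) (nat_lit 0x380000e000078000038000c80000f800038000080000000000000000000000000000000000000000000000) (nat_lit 8)
theorem c95098 : QOK q95098 := cut [q81014, q84222, q91672] ⟨c81014, c84222, c91672, trivial⟩ (nd (nat_lit 296) (nat_lit 0) (cs (rf (nat_lit 0)) (cs (rf (nat_lit 1)) (rf (nat_lit 2))))) q95098 (by decide +kernel)
def q95100 : Q := Q.p (nat_lit 0x100000400003000000000000000000000000000000000000000000000000000000000000000) (nat_lit 0xa0000680000b8000400000f800038000080000000000000000000000000000000000000000000000) (nat_lit 7)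
theorem c95100 : QOK q95100 := cut [q80653, q84221, q94952, q89097] ⟨c80653, c84221, c94952, c89097, trivial⟩ (nd (nat_lit 230) (nat_lit 0) (cs (rf (nat_lit 0)) (cs (rf (nat_lit 1)) (cs (rf (nat_lit 2)) (nd (nat_lit 297) (nat_lit 0) (cs (lf (nat_lit 29) (nat_lit 230)) (rf (nat_lit 3)))))))) q95100 (by decide +kernel)
def q95139 : Q := Q.p (nat_lit 0x400003000000000000000000000000000000000000000000000000000000000000000) (nat_lit 0x500001e0000780003fc000ff0001be000c80000c0000300000c0000000000000000000000000000000000000000000000) (nat_lit 13)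
theorem c95139 : QOK q95139 := cut [q46633, q81014, q95101, q86011, q95109, q92386, q86595, q95113, q45023, q95122, q95124, q92739, q85713, q95135, q81804] ⟨c46633, c81014, c95101, c86011, c95109, c92386, c86595, c95113, c45023, c95122, c95124, c92739, c85713, c95135, c81804, trivial⟩ (nd (nat_lit 296) (nat_lit 0) (cs (rf (nat_lit 0)) (cs (rf (nat_lit 1)) (cs (rf (nat_lit 2)) (nd (nat_lit 295) (nat_lit 0) (cs (nd (nat_lit 230) (nat_lit 0) (cs (lf (nat_lit 41) (nat_lit 229)) (nd (nat_lit 209) (nat_lit 0) (cs (lf (nat_lit 34) (nat_lit 208)) (nd (nat_lit 208) (nat_lit 0) (cs (lf (nat_lit 35) (nat_lit 186)) (lf (nat_lit 40) (nat_lit 207)))))))) (cs (nd (nat_lit 230) (nat_lit 0) (cs (lf (nat_lit 41) (nat_lit 229)) (rf (nat_lit 3)))) (cs (nd (nat_lit 294) (nat_lit 0) (cs (rf (nat_lit 4)) (cs (nd (nat_lit 297) (nat_lit 0) (cs (rf (nat_lit 5)) (nd (nat_lit 316) (nat_lit 0) (cs (lf (nat_lit 11) (nat_lit 293)) (nd (nat_lit 317) (nat_lit 0) (cs (lf (nat_lit 6) (nat_lit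 294)) (rf (nat_lit 6)))))))) (cs (nd (nat_lit 271) (nat_lit 0) (cs (rf (nat_lit 7)) (cs (nd (nat_lit 293) (nat_lit 0) (cs (lf (nat_lit 23) (nat_lit 270)) (nd (nat_lit 273) (nat_lit 0) (cs (lf (nat_lit 12) (nat_lit 270)) (nd (nat_lit 317) (nat_lit 0) (cs (lf (nat_lit 30) (nat_lit 251)) (nd (nat_lit 254) (nat_lit 0) (cs (lf (nat_lit 6) (nat_lit 251)) (nd (nat_lit 315) (nat_lit 0) (cs (lf (nat_lit 11) (nat_lit 292)) (nd (nat_lit 297) (nat_lit 0) (cs (lf (nat_lit 10) (nat_lit 293)) (nd (nat_lit 298) (nat_lit 0) (cs (lf (nat_lit 18) (nat_lit 273)) (rf (nat_lit 8)))))))))))))))) (cs (rf (nat_lit 9)) (rf (nat_lit 10)))))) (nd (nat_lit 275) (nat_lit 0) (cs (lf (nat_lit 12) (nat_lit 271)) (rf (nat_lit 11)))))))) (cs (nd (nat_lit 273) (nat_lit 0) (cs (rf (nat_lit 12)) (cs (nd (nat_lit 254) (nat_lit 0) (cs (lf (nat_lit 6) (nat_lit 251)) (nd (nat_lit 230) (nat_lit 0) (cs (lf (nat_lit 36) (nat_lit 207)) (nd (nat_lit 231) (nat_lit 0) (cs (lf (nat_lit 35) (nat_lit 208))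 (nd (nat_lit 297) (nat_lit 0) (cs (lf (nat_lit 29) (nat_lit 230)) (nd (nat_lit 298) (nat_lit 0) (cs (lf (nat_lit 18) (nat_lit 273)) (nd (nat_lit 320) (nat_lit 0) (cs (lf (nat_lit 26) (nat_lit 231)) (lf (nat_lit 44) (nat_lit 231)))))))))))))) (rf (nat_lit 13))))) (nd (nat_lit 230) (nat_lit 0) (cs (lf (nat_lit 41) (nat_lit 229)) (rf (nat_lit 14))))))))))))) q95139 (by decide +kernel)
def q95157 : Q := Q.p (nat_lit 0x400003000000000000000000000000000000000000000000000000000000000000000) (nat_lit 0x80000300000c0000300000b8000c80000f800038000080000000000000000000000000000000000000000000000) (nat_lit 6)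
theorem c95157 : QOK q95157 := cut [q46633, q81014, q94958, q42162, q91669, q94955] ⟨c46633, c81014, c94958, c42162, c91669, c94955, trivial⟩ (nd (nat_lit 296) (nat_lit 0) (cs (rf (nat_lit 0)) (cs (rf (nat_lit 1)) (cs (rf (nat_lit 2)) (nd (nat_lit 318) (nat_lit 0) (cs (rf (nat_lit 3)) (cs (rf (nat_lit 4)) (rf (nat_lit 5))))))))) q95157 (by decide +kernel)
def q95171 : Q := Q.p (nat_lit 0x400003000000000000000000000000000000000000000000000000000000000000000) (nat_lit 0x80000380001fc0007e0001bc0000e0000f80003e0000c0000000000000000000000000000000000000000000000) (nat_lit 15)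
theorem c95171 : QOK q95171 := cut [q46633, q81014, q94957, q95170] ⟨c46633, c81014, c94957, c95170, trivial⟩ (nd (nat_lit 296) (nat_lit 0) (cs (rf (nat_lit 0)) (cs (rf (nat_lit 1)) (cs (rf (nat_lit 2)) (rf (nat_lit 3)))))) q95171 (by decide +kernel)
def q95210 : Q := Q.p (nat_lit 0x7000004000000000000000000000000000000000000000000000000000000000) (nat_lit 0x20000180000700001e00018c000780003e00003c0000f00000400000000000000000000000000000000000) (nat_lit 10)
theorem c95210 : QOK q95210 := cut [q86774, q94081, q82309, q92816, q92994, q93588, q94843] ⟨c86774, c94081, c82309, c92816, c92994, c93588, c94843, trivial⟩ (nd (nat_lit 231) (nat_lit 0) (cs (rf (nat_lit 0)) (cs (rf (nat_lit 1)) (nd (nat_lit 209) (nat_lit 0) (cs (rf (nat_lit 2)) (cs (rf (nat_lit 3)) (nd (nat_lit 275) (nat_lit 0) (cs (rf (nat_lit 4)) (cs (rf (nat_lit 5)) (rf (nat_lit 6))))))))))) q95210 (by decide +kernel)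
def q95214 : Q := Q.p (nat_lit 0x7800004000000000000000000000000000000000000000000000000000000000) (nat_lit 0x1ce0000700003e00000000000000000000000000000000000000000000000000000000) (nat_lit 7)
theorem c95214 : QOK q95214 := cut [q41784, q79022] ⟨c41784, c79022, trivial⟩ (nd (nat_lit 250) (nat_lit 0) (cs (rf (nat_lit 0)) (cs (rf (nat_lit 1)) (nd (nat_lit 275) (nat_lit 0) (cs (lf (nat_lit 5) (nat_lit 250)) (nd (nat_lit 249) (nat_lit 0) (cs (lf (nat_lit 4) (nat_lit 249)) (nd (nat_lit 229) (nat_lit 0) (cs (lf (nat_lit 12) (nat_lit 226)) (lf (nat_lit 23) (nat_lit 228))))))))))) q95214 (by decide +kernel)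
def q95236 : Q := Q.p (nat_lit 0x3000004000000000000000000000000000000000000000000000000000000000) (nat_lit 0x80000300000e0000780001e0000ce000f9c001fe0001fc000380000a00000000000000000000000000000000000) (nat_lit 14)
theorem c95236 : QOK q95236 := cut [q6259, q79029, q79066, q93563, q79048, q93682, q93737, q93741, q79118, q94555, q11133] ⟨c6259, c79029, c79066, c93563, c79048, c93682, c93737, c93741, c79118, c94555, c11133, trivial⟩ (nd (nat_lit 208) (nat_lit 0) (cs (rf (nat_lit 0)) (cs (rf (nat_lit 1)) (cs (rf (nat_lit 2)) (cs (rf (nat_lit 3)) (nd (nat_lit 274) (nat_lit 0) (cs (rf (nat_lit 4)) (cs (rf (nat_lit 5)) (cs (rf (nat_lit 6)) (cs (rf (nat_lit 7)) (nd (nat_lit 232) (nat_lit 0) (cs (nd (nat_lit 273) (nat_lit 0) (cs (lf (nat_lit 41) (nat_lit 207)) (nd (nat_lit 185) (nat_lit 0) (cs (lf (nat_lit 46) (nat_lit 185)) (nd (nat_lit 254) (nat_lit 0) (cs (rf (nat_lit 8)) (lf (nat_lit 6) (nat_lit 251)))))))) (cs (nd (nat_lit 275) (nat_lit 0) (cs (lf (nat_lit 29)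 (nat_lit 208)) (nd (nat_lit 187) (nat_lit 0) (cs (lf (nat_lit 34) (nat_lit 186)) (nd (nat_lit 273) (nat_lit 0) (cs (lf (nat_lit 41) (nat_lit 207)) (nd (nat_lit 254) (nat_lit 0) (cs (lf (nat_lit 6) (nat_lit 251)) (nd (nat_lit 188) (nat_lit 0) (cs (lf (nat_lit 37) (nat_lit 187)) (rf (nat_lit 9)))))))))))) (cs (nd (nat_lit 209) (nat_lit 0) (cs (lf (nat_lit 35) (nat_lit 186)) (nd (nat_lit 273) (nat_lit 0) (cs (lf (nat_lit 41) (nat_lit 207)) (nd (nat_lit 254) (nat_lit 0) (cs (lf (nat_lit 6) (nat_lit 251)) (nd (nat_lit 275) (nat_lit 0) (cs (lf (nat_lit 29) (nat_lit 208)) (nd (nat_lit 188) (nat_lit 0) (cs (lf (nat_lit 37) (nat_lit 187)) (nd (nat_lit 207) (nat_lit 0) (cs (lf (nat_lit 47) (nat_lit 185)) (rf (nat_lit 10)))))))))))))) (nd (nat_lit 209) (nat_lit 0) (cs (lf (nat_lit 35) (nat_lit 186)) (nd (nat_lit 207) (nat_lit 0) (cs (lf (nat_lit 47) (nat_lit 185)) (nd (nat_lit 231) (nat_lit 0) (cs (lf (nat_lit 0) (nat_lit 206)) (lf (nat_lit 18) (nat_lit 207))))))))))))))))))))))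 q95236 (by decide +kernel)
def q95240 : Q := Q.p (nat_lit 0x3000004000010000000000000000000000000000000000000000000000000000) (nat_lit 0x60000180000ce000fb8001ee000380000e00002800000000000000000000000000000000000) (nat_lit 9)
theorem c95240 : QOK q95240 := cut [q83723, q94114, q95237, q84427, q87133, q91547] ⟨c83723, c94114, c95237, c84427, c87133, c91547, trivial⟩ (nd (nat_lit 229) (nat_lit 0) (cs (rf (nat_lit 0)) (cs (rf (nat_lit 1)) (cs (rf (nat_lit 2)) (nd (nat_lit 228) (nat_lit 0) (cs (lf (nat_lit 0) (nat_lit 227)) (nd (nat_lit 231) (nat_lit 0) (cs (rf (nat_lit 3)) (cs (rf (nat_lit 4)) (rf (nat_lit 5))))))))))) q95240 (by decide +kernel)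
def q95307 : Q := Q.p (nat_lit 0x3000004000010000000000000000000000000000000000000000000000000000) (nat_lit 0xa0000380001e0000ce000fbc0004f0001300000c0000000000000000000000000000000000000000) (nat_lit 13)
theorem c95307 : QOK q95307 := cut [q83723, q94114, q87228, q93682, q95277, q5304, q87790, q87146, q95306] ⟨c83723, c94114, c87228, c93682, c95277, c5304, c87790, c87146, c95306, trivial⟩ (nd (nat_lit 229) (nat_lit 0) (cs (rf (nat_lit 0)) (cs (rf (nat_lit 1)) (cs (nd (nat_lit 274) (nat_lit 0) (cs (rf (nat_lit 2)) (cs (rf (nat_lit 3)) (nd (nat_lit 232) (nat_lit 0) (cs (nd (nat_lit 273) (nat_lit 0) (cs (lf (nat_lit 41) (nat_lit 207)) (nd (nat_lit 254) (nat_lit 0) (cs (lf (nat_lit 6) (nat_lit 251)) (nd (nat_lit 251) (nat_lit 0) (cs (lf (nat_lit 17) (nat_lit 229)) (nd (nat_lit 185) (nat_lit 0) (cs (lf (nat_lit 25) (nat_lit 185)) (rf (nat_lit 4)))))))))) (cs (nd (nat_lit 275) (nat_lit 0) (cs (lf (nat_lit 29) (nat_lit 208)) (nd (nat_lit 254) (nat_lit 0) (cs (lf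 (nat_lit 18) (nat_lit 229)) (nd (nat_lit 188) (nat_lit 0) (cs (lf (nat_lit 37) (nat_lit 187)) (nd (nat_lit 273) (nat_lit 0) (cs (lf (nat_lit 41) (nat_lit 207)) (nd (nat_lit 207) (nat_lit 0) (cs (lf (nat_lit 47) (nat_lit 185)) (nd (nat_lit 206) (nat_lit 0) (cs (lf (nat_lit 19) (nat_lit 206)) (nd (nat_lit 204) (nat_lit 0) (cs (lf (nat_lit 1) (nat_lit 204)) (nd (nat_lit 251) (nat_lit 0) (cs (lf (nat_lit 47) (nat_lit 184)) (rf (nat_lit 5)))))))))))))))))) (cs (nd (nat_lit 207) (nat_lit 0) (cs (lf (nat_lit 47) (nat_lit 185)) (rf (nat_lit 6)))) (nd (nat_lit 275) (nat_lit 0) (cs (lf (nat_lit 29) (nat_lit 208)) (rf (nat_lit 7))))))))))) (rf (nat_lit 8)))))) q95307 (by decide +kernel)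
def q95383 : Q := Q.p (nat_lit 0x3000004000000000000000000000000000000000000000000000000000000000) (nat_lit 0x60000180000e0001c8000fb8001fe0003e0000f80002a00000000000000000000000000000000000) (nat_lit 11)
theorem c95383 : QOK q95383 := cut [q6259, q79029, q79066, q93563, q10803, q1178, q83723, q95237, q94114, q92713, q92727, q95376] ⟨c6259, c79029, c79066, c93563, c10803, c1178, c83723, c95237, c94114, c92713, c92727, c95376, trivial⟩ (nd (nat_lit 208) (nat_lit 0) (cs (rf (nat_lit 0)) (cs (rf (nat_lit 1)) (cs (rf (nat_lit 2)) (cs (rf (nat_lit 3)) (nd (nat_lit 209) (nat_lit 0) (cs (rf (nat_lit 4)) (cs (nd (nat_lit 274) (nat_lit 0) (cs (lf (nat_lit 35) (nat_lit 186)) (nd (nat_lit 273) (nat_lit 0) (cs (lf (nat_lit 41) (nat_lit 207)) (nd (nat_lit 254) (nat_lit 0) (cs (lf (nat_lit 6) (nat_lit 251)) (nd (nat_lit 207) (nat_lit 0) (cs (lf (nat_lit 47) (nat_lit 185)) (nd (nat_lit 229) (nat_lit 0) (cs (lf (nat_lit 42) (nat_lit 207)) (nd (nat_lit 228) (nat_lit 0) (cs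 (lf (nat_lit 6) (nat_lit 206)) (lf (nat_lit 21) (nat_lit 228)))))))))))))) (cs (nd (nat_lit 229) (nat_lit 0) (cs (rf (nat_lit 5)) (cs (rf (nat_lit 6)) (rf (nat_lit 7))))) (nd (nat_lit 229) (nat_lit 0) (cs (rf (nat_lit 5)) (cs (rf (nat_lit 8)) (nd (nat_lit 231) (nat_lit 0) (cs (rf (nat_lit 9)) (cs (rf (nat_lit 10)) (nd (nat_lit 210) (nat_lit 0) (cs (lf (nat_lit 6) (nat_lit 207)) (nd (nat_lit 188) (nat_lit 0) (cs (lf (nat_lit 30) (nat_lit 187)) (nd (nat_lit 207) (nat_lit 0) (cs (lf (nat_lit 17) (nat_lit 185)) (rf (nat_lit 11))))))))))))))))))))))) q95383 (by decide +kernel)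
def q95420 : Q := Q.p (nat_lit 0x600003800000000000000000000000000000000000000000000000000000000000000) (nat_lit 0x3ff0007f8001ff000180000c600035800040000100000000000000000000000000000000000000000000000) (nat_lit 15)
theorem c95420 : QOK q95420 := cut [q5304, q92619, q23056, q14783, q95029, q95409, q14481, q15131] ⟨c5304, c92619, c23056, c14783, c95029, c95409, c14481, c15131, trivial⟩ (nd (nat_lit 275) (nat_lit 0) (cs (rf (nat_lit 0)) (cs (rf (nat_lit 1)) (nd (nat_lit 318) (nat_lit 0) (cs (nd (nat_lit 249) (nat_lit 0) (cs (lf (nat_lit 1) (nat_lit 249)) (nd (nat_lit 254) (nat_lit 0) (cs (lf (nat_lit 6) (nat_lit 251)) (nd (nat_lit 232) (nat_lit 0) (cs (lf (nat_lit 17) (nat_lit 229)) (nd (nat_lit 188) (nat_lit 0) (cs (lf (nat_lit 37) (nat_lit 187)) (nd (nat_lit 319) (nat_lit 0) (cs (lf (nat_lit 31) (nat_lit 231)) (nd (nat_lit 296) (nat_lit 0) (cs (lf (nat_lit 29) (nat_lit 252)) (nd (nat_lit 317) (nat_lit 0) (cs (lf (nat_lit 41) (nat_lit 251)) (nd (nat_lit 295)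 (nat_lit 0) (cs (rf (nat_lit 2)) (lf (nat_lit 35) (nat_lit 229)))))))))))))))))) (cs (nd (nat_lit 317) (nat_lit 0) (cs (rf (nat_lit 3)) (nd (nat_lit 319) (nat_lit 0) (cs (rf (nat_lit 4)) (cs (nd (nat_lit 297) (nat_lit 0) (cs (lf (nat_lit 41) (nat_lit 252)) (lf (nat_lit 47) (nat_lit 230)))) (rf (nat_lit 5))))))) (cs (nd (nat_lit 296) (nat_lit 0) (cs (lf (nat_lit 30) (nat_lit 252)) (nd (nat_lit 317) (nat_lit 0) (cs (lf (nat_lit 41) (nat_lit 251)) (nd (nat_lit 295) (nat_lit 0) (cs (rf (nat_lit 6)) (lf (nat_lit 36) (nat_lit 229)))))))) (nd (nat_lit 254) (nat_lit 0) (cs (lf (nat_lit 6) (nat_lit 251)) (nd (nat_lit 232) (nat_lit 0) (cs (lf (nat_lit 17) (nat_lit 229)) (nd (nat_lit 188) (nat_lit 0) (cs (lf (nat_lit 37) (nat_lit 187)) (nd (nat_lit 319) (nat_lit 0) (cs (rf (nat_lit 7)) (lf (nat_lit 31) (nat_lit 231))))))))))))))))) q95420 (by decide +kernel)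
def q95429 : Q := Q.p (nat_lit 0x600003800000000000000000000000000000000000000000000000000000000000000) (nat_lit 0x500003c0000f00003f000180000c600036000018000000000000000000000000000000000000000000000000000) (nat_lit 10)
theorem c95429 : QOK q95429 := cut [q84049, q92695, q82666, q91737, q5304] ⟨c84049, c92695, c82666, c91737, c5304, trivial⟩ (nd (nat_lit 295) (nat_lit 0) (cs (rf (nat_lit 0)) (cs (rf (nat_lit 1)) (nd (nat_lit 296) (nat_lit 0) (cs (rf (nat_lit 2)) (cs (rf (nat_lit 3)) (nd (nat_lit 254) (nat_lit 0) (cs (lf (nat_lit 6) (nat_lit 251)) (nd (nat_lit 232) (nat_lit 0) (cs (lf (nat_lit 17) (nat_lit 229)) (nd (nat_lit 208) (nat_lit 0) (cs (lf (nat_lit 37) (nat_lit 207)) (nd (nat_lit 318) (nat_lit 0) (cs (lf (nat_lit 42) (nat_lit 251)) (nd (nat_lit 319) (nat_lit 0) (cs (lf (nat_lit 29) (nat_lit 252)) (nd (nat_lit 275) (nat_lit 0) (cs (rf (nat_lit 4)) (lf (nat_lit 31) (nat_lit 231)))))))))))))))))))) q95429 (by decide +kernel)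
def q95444 : Q := Q.p (nat_lit 0x100000600003000000000000000000000000000000000000000000000000000000000000000) (nat_lit 0x640001900006e0001980000e0000b800024000010000000000000000000000000000000000000000000000) (nat_lit 8)
theorem c95444 : QOK q95444 := cut [q93549, q91767, q14898] ⟨c93549, c91767, c14898, trivial⟩ (nd (nat_lit 272) (nat_lit 0) (cs (lf (nat_lit 12) (nat_lit 249)) (nd (nat_lit 275) (nat_lit 0) (cs (rf (nat_lit 0)) (cs (nd (nat_lit 209) (nat_lit 0) (cs (lf (nat_lit 37) (nat_lit 208)) (rf (nat_lit 1)))) (nd (nat_lit 250) (nat_lit 0) (cs (lf (nat_lit 23) (nat_lit 249)) (nd (nat_lit 209) (nat_lit 0) (cs (lf (nat_lit 37) (nat_lit 208)) (rf (nat_lit 2))))))))))) q95444 (by decide +kernel)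
def q95489 : Q := Q.p (nat_lit 0x3000004000030000000000000000000000000000000000000000000000000000) (nat_lit 0x280000f0000c0000000000080000a0000000000000000000000000000000000000000000000) (nat_lit 6)
theorem c95489 : QOK q95489 := cut [q94126] ⟨c94126, trivial⟩ (nd (nat_lit 274) (nat_lit 0) (cs (lf (nat_lit 35) (nat_lit 186)) (rf (nat_lit 0)))) q95489 (by decide +kernel)
def q95734 : Q := Q.p (nat_lit 0x7000010000000000000000000000000000000000000000000000000000000000) (nat_lit 0x500001c0003f0000ff0001f80000c0000f8003f00003e0000e00002800000000000000000000000000000000000) (nat_lit 15)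
theorem c95734 : QOK q95734 := cut [q79123, q79128, q79160, q79913, q79167, q79276, q80291, q83627, q94239, q81678, q81729, q88849, q94745, q92695, q82405, q82610, q81228, q82228, q79868, q90623] ⟨c79123, c79128, c79160, c79913, c79167, c79276, c80291, c83627, c94239, c81678, c81729, c88849, c94745, c92695, c82405, c82610, c81228, c82228, c79868, c90623, trivial⟩ (nd (nat_lit 210) (nat_lit 0) (cs (rf (nat_lit 0)) (cs (rf (nat_lit 1)) (cs (rf (nat_lit 2)) (cs (rf (nat_lit 3)) (nd (nat_lit 275) (nat_lit 0) (cs (rf (nat_lit 4)) (cs (rf (nat_lit 5)) (cs (rf (nat_lit 6)) (nd (nat_lit 231) (nat_lit 0) (cs (nd (nat_lit 209) (nat_lit 0) (cs (rf (nat_lit 7)) (rf (nat_lit 8)))) (cs (nd (nat_lit 251) (nat_lit 0) (cs (rf (nat_lit 9)) (cs (rf (nat_lit 10)) (nd (nat_lit 273) (nat_lit 0) (cs (lf (nat_lit 11) (nat_lit 250)) (nd (nat_lit 276) (nat_lit 0) (cs (rf (nat_lit 11)) (cs (rf (nat_lit 12)) (nd (nat_lit 295) (nat_lit 0) (cs (rf (nat_lit 13)) (cs (nd (nat_lit 187) (nat_lit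 0) (cs (lf (nat_lit 25) (nat_lit 187)) (nd (nat_lit 229) (nat_lit 0) (cs (lf (nat_lit 23) (nat_lit 228)) (nd (nat_lit 189) (nat_lit 0) (cs (lf (nat_lit 34) (nat_lit 188)) (rf (nat_lit 14)))))))) (cs (nd (nat_lit 229) (nat_lit 0) (cs (lf (nat_lit 23) (nat_lit 228)) (nd (nat_lit 187) (nat_lit 0) (cs (lf (nat_lit 46) (nat_lit 187)) (nd (nat_lit 318) (nat_lit 0) (cs (lf (nat_lit 28) (nat_lit 229)) (nd (nat_lit 189) (nat_lit 0) (cs (lf (nat_lit 34) (nat_lit 188)) (nd (nat_lit 317) (nat_lit 0) (cs (lf (nat_lit 29) (nat_lit 251)) (rf (nat_lit 15)))))))))))) (nd (nat_lit 274) (nat_lit 0) (cs (lf (nat_lit 11) (nat_lit 272)) (rf (nat_lit 16)))))))))))))))) (cs (nd (nat_lit 251) (nat_lit 0) (cs (lf (nat_lit 12) (nat_lit 228)) (nd (nat_lit 229) (nat_lit 0) (cs (lf (nat_lit 23) (nat_lit 228)) (nd (nat_lit 273) (nat_lit 0) (cs (lf (nat_lit 11) (nat_lit 250)) (nd (nat_lit 230) (nat_lit 0) (cs (lf (nat_lit 17) (nat_lit 207)) (rf (nat_lit 17)))))))))) (nd (nat_lit 209) (nat_lit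 0) (cs (rf (nat_lit 18)) (cs (rf (nat_lit 7)) (nd (nat_lit 274) (nat_lit 0) (cs (lf (nat_lit 41) (nat_lit 208)) (nd (nat_lit 273) (nat_lit 0) (cs (lf (nat_lit 12) (nat_lit 250)) (nd (nat_lit 186) (nat_lit 0) (cs (lf (nat_lit 46) (nat_lit 186)) (nd (nat_lit 251) (nat_lit 0) (cs (lf (nat_lit 12) (nat_lit 228)) (nd (nat_lit 228) (nat_lit 0) (cs (lf (nat_lit 22) (nat_lit 228)) (nd (nat_lit 276) (nat_lit 0) (cs (lf (nat_lit 29) (nat_lit 209)) (rf (nat_lit 19)))))))))))))))))))))))))))))) q95734 (by decide +kernel)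
def q95753 : Q := Q.p (nat_lit 0x200000400007000018000000000000000000000000000000000000000000000000000000000) (nat_lit 0x400001000018000000000640003c0000380000e00000000000000000000000000000000000000000) (nat_lit 9)
theorem c95753 : QOK q95753 := cut [q95752] ⟨c95752, trivial⟩ (nd (nat_lit 296) (nat_lit 0) (cs (lf (nat_lit 30) (nat_lit 230)) (rf (nat_lit 0)))) q95753 (by decide +kernel)
def q95801 : Q := Q.p (nat_lit 0x3000008000000000000000000000000000000000000000000000000000000000) (nat_lit 0x200001c0000760001f8000ce000e7c001fe000ff8000700001400000000000000000000000000000000000) (nat_lit 15)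
theorem c95801 : QOK q95801 := cut [q82300, q82309, q92710, q92795, q92785, q92991, q92994, q94655, q95778, q95786, q95788, q95798] ⟨c82300, c82309, c92710, c92795, c92785, c92991, c92994, c94655, c95778, c95786, c95788, c95798, trivial⟩ (nd (nat_lit 209) (nat_lit 0) (cs (rf (nat_lit 0)) (cs (rf (nat_lit 1)) (cs (rf (nat_lit 2)) (cs (rf (nat_lit 3)) (nd (nat_lit 275) (nat_lit 0) (cs (rf (nat_lit 4)) (cs (rf (nat_lit 5)) (cs (rf (nat_lit 6)) (cs (nd (nat_lit 229) (nat_lit 0) (cs (rf (nat_lit 7)) (cs (nd (nat_lit 274) (nat_lit 0) (cs (lf (nat_lit 41) (nat_lit 208)) (nd (nat_lit 188) (nat_lit 0) (cs (lf (nat_lit 34) (nat_lit 187)) (nd (nat_lit 276) (nat_lit 0) (cs (lf (nat_lit 29) (nat_lit 209)) (nd (nat_lit 251) (nat_lit 0) (cs (lf (nat_lit 0) (nat_lit 250)) (nd (nat_lit 185) (nat_lit 0) (cs (lf (nat_lit 25) (nat_lit 185)) (nd (nat_lit 254) (nat_lit 0) (cs (lf (nat_lit 23) (nat_lit 228)) (rf (nat_lit 8)))))))))))))) (cs (rf (nat_lit 9)) (nd (nat_lit 186) (nat_lit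 0) (cs (lf (nat_lit 46) (nat_lit 186)) (nd (nat_lit 274) (nat_lit 0) (cs (lf (nat_lit 41) (nat_lit 208)) (rf (nat_lit 10)))))))))) (nd (nat_lit 188) (nat_lit 0) (cs (lf (nat_lit 34) (nat_lit 187)) (rf (nat_lit 11)))))))))))))) q95801 (by decide +kernel)
def q95852 : Q := Q.p (nat_lit 0x3000008000000000000000000000000000000000000000000000000000000000) (nat_lit 0x300001f0001f0001df0003cc000d700007e0001fc000700001400000000000000000000000000000000000) (nat_lit 15)
theorem c95852 : QOK q95852 := cut [q82309, q92707, q92710, q17544, q82279, q91408, q92704, q92781, q92991, q93140, q93259, q93268, q2935] ⟨c82309, c92707, c92710, c17544, c82279, c91408, c92704, c92781, c92991, c93140, c93259, c93268, c2935, trivial⟩ (nd (nat_lit 209) (nat_lit 0) (cs (rf (nat_lit 0)) (cs (rf (nat_lit 1)) (cs (rf (nat_lit 2)) (nd (nat_lit 274) (nat_lit 0) (cs (rf (nat_lit 3)) (cs (rf (nat_lit 4)) (cs (rf (nat_lit 5)) (nd (nat_lit 275) (nat_lit 0) (cs (rf (nat_lit 6)) (cs (rf (nat_lit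 7)) (cs (rf (nat_lit 8)) (nd (nat_lit 254) (nat_lit 0) (cs (rf (nat_lit 9)) (cs (rf (nat_lit 10)) (cs (rf (nat_lit 11)) (nd (nat_lit 208) (nat_lit 0) (cs (lf (nat_lit 47) (nat_lit 186)) (nd (nat_lit 188) (nat_lit 0) (cs (lf (nat_lit 34) (nat_lit 187)) (nd (nat_lit 276) (nat_lit 0) (cs (lf (nat_lit 29) (nat_lit 209)) (nd (nat_lit 251) (nat_lit 0) (cs (lf (nat_lit 0) (nat_lit 250)) (nd (nat_lit 272) (nat_lit 0) (cs (lf (nat_lit 13) (nat_lit 250)) (nd (nat_lit 229) (nat_lit 0) (cs (lf (nat_lit 23) (nat_lit 228)) (nd (nat_lit 207) (nat_lit 0) (cs (rf (nat_lit 12)) (lf (nat_lit 24) (nat_lit 185)))))))))))))))))))))))))))))))) q95852 (by decide +kernel)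
def q95976 : Q := Q.p (nat_lit 0x800007800000000000000000000000000000000000000000000000000000000000000) (nat_lit 0x1d7000380000e3000000000000000000000000000000000000000000000000000000000) (nat_lit 8)
theorem c95976 : QOK q95976 := cut [q95974] ⟨c95974, trivial⟩ (nd (nat_lit 228) (nat_lit 0) (cs (lf (nat_lit 22) (nat_lit 228)) (nd (nat_lit 273) (nat_lit 0) (cs (lf (nat_lit 11) (nat_lit 250)) (rf (nat_lit 0)))))) q95976 (by decide +kernel)
def q96036 : Q := Q.p (nat_lit 0x380000c00003000000000000000000000000000000000000000000000000000000000000000) (nat_lit 0x18000460000380000e00001800006000000000000000000000000000000000000000000000000000) (nat_lit 8)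
theorem c96036 : QOK q96036 := cut [q15078] ⟨c15078, trivial⟩ (nd (nat_lit 294) (nat_lit 0) (cs (lf (nat_lit 12) (nat_lit 271)) (rf (nat_lit 0)))) q96036 (by decide +kernel)
def q96042 : Q := Q.p (nat_lit 0x300000c00003000000000000000000000000000000000000000000000000000000000000000) (nat_lit 0x200000e000000000c800007800018000000000000000000000000000000000000000000000000000) (nat_lit 7)
theorem c96042 : QOK q96042 := cut [q96041] ⟨c96041, trivial⟩ (nd (nat_lit 230) (nat_lit 0) (cs (lf (nat_lit 24) (nat_lit 208)) (rf (nat_lit 0)))) q96042 (by decide +kernel)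
def q96080 : Q := Q.p (nat_lit 0x7000004000010000000000000000000000000000000000000000000000000000) (nat_lit 0x380000f000000000030000e80000a0000000000000000000000000000000000000000000000) (nat_lit 6)
theorem c96080 : QOK q96080 := cut [q22313, q79044] ⟨c22313, c79044, trivial⟩ (nd (nat_lit 274) (nat_lit 0) (cs (rf (nat_lit 0)) (rf (nat_lit 1)))) q96080 (by decide +kernel)
def q96105 : Q := Q.p (nat_lit 0x7000000000000000000000000000000000000000000000000000000000000000) (nat_lit 0x500001c0000f00003c0000f80001f80000c001ff8003fc001ff0000f80002c00000000000000000000000000000000000) (nat_lit 14)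
theorem c96105 : QOK q96105 := cut [q79118, q81730, q79123, q79128, q79160, q92287, q79424, q7962, q11289, q80373, q92312, q92319, q79169, q79199, q81678, q81729, q81737, q94086, q93942, q88933, q94168, q94527, q80379, q81706, q82063, q92324] ⟨c79118, c81730, c79123, c79128, c79160, c92287, c79424, c7962, c11289, c80373, c92312, c92319, c79169, c79199, c81678, c81729, c81737, c94086, c93942, c88933, c94168, c94527, c80379, c81706, c82063, c92324, trivial⟩ (nd (nat_lit 232) (nat_lit 0) (cs (rf (nat_lit 0)) (cs (rf (nat_lit 1)) (cs (nd (nat_lit 210) (nat_lit 0) (cs (rf (nat_lit 2)) (cs (rf (nat_lit 3)) (cs (rf (nat_lit 4)) (cs (rf (nat_lit 5)) (nd (nat_lit 276) (nat_lit 0) (cs (nd (nat_lit 211) (nat_lit 0) (cs (lf (nat_lit 35) (nat_lit 188)) (nd (nat_lit 275) (nat_lit 0) (cs (lf (nat_lit 41) (nat_lit 209)) (rf (nat_lit 6)))))) (cs (nd (nat_lit 211) (nat_lit 0) (cs (lf (nat_lit 35) (nat_lit 188)) (nd (nat_lit 230) (nat_lit 0) (cs (nd (nat_lit 231) (nat_lit 0)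 (cs (lf (nat_lit 12) (nat_lit 207)) (nd (nat_lit 209) (nat_lit 0) (cs (lf (nat_lit 6) (nat_lit 208)) (lf (nat_lit 47) (nat_lit 187)))))) (cs (nd (nat_lit 275) (nat_lit 0) (cs (lf (nat_lit 41) (nat_lit 209)) (nd (nat_lit 209) (nat_lit 0) (cs (lf (nat_lit 47) (nat_lit 187)) (nd (nat_lit 208) (nat_lit 0) (cs (lf (nat_lit 11) (nat_lit 207)) (lf (nat_lit 24) (nat_lit 186)))))))) (cs (nd (nat_lit 275) (nat_lit 0) (cs (lf (nat_lit 41) (nat_lit 209)) (nd (nat_lit 186) (nat_lit 0) (cs (lf (nat_lit 25) (nat_lit 186)) (nd (nat_lit 231) (nat_lit 0) (cs (lf (nat_lit 12) (nat_lit 207)) (rf (nat_lit 7)))))))) (nd (nat_lit 275) (nat_lit 0) (cs (lf (nat_lit 41) (nat_lit 209)) (nd (nat_lit 186) (nat_lit 0) (cs (lf (nat_lit 25) (nat_lit 186)) (nd (nat_lit 209) (nat_lit 0) (cs (lf (nat_lit 47) (nat_lit 187)) (nd (nat_lit 212) (nat_lit 0) (cs (lf (nat_lit 10) (nat_lit 208)) (nd (nat_lit 191) (nat_lit 0) (cs (lf (nat_lit 16) (nat_lit 187)) (nd (nat_lit 235) (nat_lit 0) (cs (lf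 (nat_lit 4) (nat_lit 209)) (rf (nat_lit 8)))))))))))))))))))) (cs (nd (nat_lit 275) (nat_lit 0) (cs (lf (nat_lit 41) (nat_lit 209)) (rf (nat_lit 9)))) (cs (nd (nat_lit 189) (nat_lit 0) (cs (lf (nat_lit 34) (nat_lit 188)) (nd (nat_lit 209) (nat_lit 0) (cs (lf (nat_lit 47) (nat_lit 187)) (nd (nat_lit 231) (nat_lit 0) (cs (lf (nat_lit 42) (nat_lit 209)) (rf (nat_lit 10)))))))) (nd (nat_lit 189) (nat_lit 0) (cs (lf (nat_lit 34) (nat_lit 188)) (rf (nat_lit 11)))))))))))))) (nd (nat_lit 275) (nat_lit 0) (cs (rf (nat_lit 12)) (cs (rf (nat_lit 13)) (cs (nd (nat_lit 210) (nat_lit 0) (cs (rf (nat_lit 2)) (cs (rf (nat_lit 3)) (cs (rf (nat_lit 4)) (nd (nat_lit 251) (nat_lit 0) (cs (rf (nat_lit 14)) (cs (rf (nat_lit 15)) (nd (nat_lit 230) (nat_lit 0) (cs (rf (nat_lit 16)) (cs (rf (nat_lit 17)) (nd (nat_lit 208) (nat_lit 0) (cs (lf (nat_lit 24) (nat_lit 186)) (nd (nat_lit 273) (nat_lit 0) (cs (lf (nat_lit 11) (nat_lit 250)) (nd (nat_lit 274) (nat_lit 0) (cs (lf (nat_lit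 41) (nat_lit 207)) (nd (nat_lit 185) (nat_lit 0) (cs (lf (nat_lit 46) (nat_lit 185)) (nd (nat_lit 209) (nat_lit 0) (cs (lf (nat_lit 35) (nat_lit 186)) (nd (nat_lit 231) (nat_lit 0) (cs (lf (nat_lit 41) (nat_lit 208)) (rf (nat_lit 18)))))))))))))))))))))))) (nd (nat_lit 297) (nat_lit 0) (cs (rf (nat_lit 19)) (cs (rf (nat_lit 20)) (cs (rf (nat_lit 21)) (nd (nat_lit 231) (nat_lit 0) (cs (rf (nat_lit 22)) (cs (rf (nat_lit 23)) (cs (rf (nat_lit 24)) (rf (nat_lit 25)))))))))))))))))) q96105 (by decide +kernel)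
def q96154 : Q := Q.p (nat_lit 0x800002000018000060000000000000000000000000000000000000000000000000000) (nat_lit 0x40000100000400000700009c000670000000000000000000000000000000000000000000000) (nat_lit 8)
theorem c96154 : QOK q96154 := cut [q96153] ⟨c96153, trivial⟩ (nd (nat_lit 276) (nat_lit 0) (cs (lf (nat_lit 29) (nat_lit 209)) (rf (nat_lit 0)))) q96154 (by decide +kernel)
def q96354 : Q := Q.p (nat_lit 0x300000c000000000000000000000000000000000000000000000000000000000) (nat_lit 0x80001c6000738001ce000100000400000000000000000000000000000000000000000) (nat_lit 8)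
theorem c96354 : QOK q96354 := cut [q84417, q84429, q96353] ⟨c84417, c84429, c96353, trivial⟩ (nd (nat_lit 229) (nat_lit 0) (cs (rf (nat_lit 0)) (cs (rf (nat_lit 1)) (rf (nat_lit 2))))) q96354 (by decide +kernel)
def q96400 : Q := Q.p (nat_lit 0x7800008000000000000000000000000000000000000000000000000000000000) (nat_lit 0x100000500003700008000003000008000020000000000000000000000000000000000000000000000) (nat_lit 7)
theorem c96400 : QOK q96400 := cut [q96398] ⟨c96398, trivial⟩ (nd (nat_lit 276) (nat_lit 0) (cs (lf (nat_lit 5) (nat_lit 251)) (nd (nat_lit 298) (nat_lit 0) (cs (lf (nat_lit 42) (nat_lit 231)) (rf (nat_lit 0)))))) q96400 (by decide +kernel)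
def q96401 : Q := Q.p (nat_lit 0x3800008000000000000000000000000000000000000000000000000000000000) (nat_lit 0x180000700003f0000c0000330000c8000320000c00000000000000000000000000000000000000000) (nat_lit 10)
theorem c96401 : QOK q96401 := cut [q96341, q96345, q96398] ⟨c96341, c96345, c96398, trivial⟩ (nd (nat_lit 254) (nat_lit 0) (cs (rf (nat_lit 0)) (cs (rf (nat_lit 1)) (rf (nat_lit 2))))) q96401 (by decide +kernel)
def q96409 : Q := Q.p (nat_lit 0x300000c000000000000000000000000000000000000000000000000000000000) (nat_lit 0x100002400018e000738001dc000120000480000000000000000000000000000000000000000) (nat_lit 7)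
theorem c96409 : QOK q96409 := cut [q57663, q87131, q96408] ⟨c57663, c87131, c96408, trivial⟩ (nd (nat_lit 232) (nat_lit 0) (cs (rf (nat_lit 0)) (cs (rf (nat_lit 1)) (rf (nat_lit 2))))) q96409 (by decide +kernel)
def q96415 : Q := Q.p (nat_lit 0x300001c000000000000000000000000000000000000000000000000000000000) (nat_lit 0x200000800000e000038000de000160000580000000000000000000000000000000000000000) (nat_lit 9)
theorem c96415 : QOK q96415 := cut [q87908, q91239, q91949] ⟨c87908, c91239, c91949, trivial⟩ (nd (nat_lit 229) (nat_lit 0) (cs (rf (nat_lit 0)) (cs (rf (nat_lit 1)) (rf (nat_lit 2))))) q96415 (by decide +kernel)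
def q96497 : Q := Q.p (nat_lit 0x3800008000000000000000000000000000000000000000000000000000000000) (nat_lit 0x200000800077c001c6000e7c00004000010000000000000000000000000000000000000000000000) (nat_lit 12)
theorem c96497 : QOK q96497 := cut [q2623, q82296, q88801, q96443] ⟨c2623, c82296, c88801, c96443, trivial⟩ (nd (nat_lit 250) (nat_lit 0) (cs (rf (nat_lit 0)) (cs (rf (nat_lit 1)) (cs (rf (nat_lit 2)) (nd (nat_lit 271) (nat_lit 0) (cs (lf (nat_lit 10) (nat_lit 249)) (nd (nat_lit 228) (nat_lit 0) (cs (lf (nat_lit 23) (nat_lit 227)) (nd (nat_lit 254) (nat_lit 0) (cs (lf (nat_lit 22) (nat_lit 228)) (nd (nat_lit 277) (nat_lit 0) (cs (lf (nat_lit 4) (nat_lit 251)) (nd (nat_lit 255) (nat_lit 0) (cs (lf (nat_lit 5) (nat_lit 252)) (nd (nat_lit 273) (nat_lit 0) (cs (lf (nat_lit 10) (nat_lit 251)) (nd (nat_lit 295) (nat_lit 0) (cs (lf (nat_lit 42) (nat_lit 228)) (nd (nat_lit 184) (nat_lit 0) (cs (lf (nat_lit 25) (nat_lit 184)) (rf (nat_lit 3)))))))))))))))))))))) q96497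 (by decide +kernel)
def q96513 : Q := Q.p (nat_lit 0x1000007000000000000000000000000000000000000000000000000000000000000000) (nat_lit 0x100002700008800003000008000020000000000000000000000000000000000000000000000) (nat_lit 6)
theorem c96513 : QOK q96513 := cut [q96398] ⟨c96398, trivial⟩ (nd (nat_lit 251) (nat_lit 0) (cs (lf (nat_lit 5) (nat_lit 251)) (rf (nat_lit 0)))) q96513 (by decide +kernel)
def q96577 : Q := Q.p (nat_lit 0x3800008000000000000000000000000000000000000000000000000000000000) (nat_lit 0x18000060000ff0003c0000f40000c0000300000c00000000000000000000000000000000000000000) (nat_lit 10)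
theorem c96577 : QOK q96577 := cut [q96341, q96350, q96446, q96569, q96576] ⟨c96341, c96350, c96446, c96569, c96576, trivial⟩ (nd (nat_lit 254) (nat_lit 0) (cs (rf (nat_lit 0)) (cs (rf (nat_lit 1)) (cs (rf (nat_lit 2)) (cs (rf (nat_lit 3)) (rf (nat_lit 4))))))) q96577 (by decide +kernel)
def q96579 : Q := Q.p (nat_lit 0x3800008000000000000000000000000000000000000000000000000000000000) (nat_lit 0x200003b80004600005c00010000040000000000000000000000000000000000000000000000) (nat_lit 6)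
theorem c96579 : QOK q96579 := cut [q88801, q88807, q89756] ⟨c88801, c88807, c89756, trivial⟩ (nd (nat_lit 250) (nat_lit 0) (cs (rf (nat_lit 0)) (cs (rf (nat_lit 1)) (nd (nat_lit 227) (nat_lit 0) (cs (lf (nat_lit 22) (nat_lit 227)) (rf (nat_lit 2))))))) q96579 (by decide +kernel)
def q96603 : Q := Q.p (nat_lit 0x80000200003800008000000000000000000000000000000000000000000000000000000000) (nat_lit 0x1c00007000014000058000000000300000c000030000000000000000000000000000000000000000000000) (nat_lit 9)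
theorem c96603 : QOK q96603 := cut [q86846, q88792, q88794, q96602] ⟨c86846, c88792, c88794, c96602, trivial⟩ (nd (nat_lit 318) (nat_lit 0) (cs (rf (nat_lit 0)) (cs (rf (nat_lit 1)) (cs (rf (nat_lit 2)) (rf (nat_lit 3)))))) q96603 (by decide +kernel)
def q96608 : Q := Q.p (nat_lit 0x3800008000000000000000000000000000000000000000000000000000000000) (nat_lit 0x18000060000780003c0001f70000c0000300000c00000000000000000000000000000000000000000) (nat_lit 10)
theorem c96608 : QOK q96608 := cut [q96345, q96473, q96572, q96575] ⟨c96345, c96473, c96572, c96575, trivial⟩ (nd (nat_lit 254) (nat_lit 0) (cs (rf (nat_lit 0)) (cs (rf (nat_lit 1)) (cs (rf (nat_lit 2)) (rf (nat_lit 3)))))) q96608 (by decide +kernel)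
def q96618 : Q := Q.p (nat_lit 0x3800008000000000000000000000000000000000000000000000000000000000) (nat_lit 0x200007b8001c600006000010000040000000000000000000000000000000000000000000000) (nat_lit 6)
theorem c96618 : QOK q96618 := cut [q96610, q84925, q80544, q82293] ⟨c96610, c84925, c80544, c82293, trivial⟩ (nd (nat_lit 272) (nat_lit 0) (cs (rf (nat_lit 0)) (cs (nd (nat_lit 254) (nat_lit 0) (cs (lf (nat_lit 10) (nat_lit 250)) (nd (nat_lit 277) (nat_lit 0) (cs (lf (nat_lit 4) (nat_lit 251)) (nd (nat_lit 255) (nat_lit 0) (cs (lf (nat_lit 5) (nat_lit 252)) (rf (nat_lit 1)))))))) (cs (nd (nat_lit 250) (nat_lit 0) (cs (lf (nat_lit 11) (nat_lit 249)) (nd (nat_lit 254) (nat_lit 0) (cs (lf (nat_lit 10) (nat_lit 250)) (rf (nat_lit 2)))))) (nd (nat_lit 250) (nat_lit 0) (cs (lf (nat_lit 11) (nat_lit 249)) (nd (nat_lit 230) (nat_lit 0) (cs (lf (nat_lit 12) (nat_lit 227)) (rf (nat_lit 3)))))))))) q96618 (by decide +kernel)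
def q96646 : Q := Q.p (nat_lit 0x3800008000000000000000000000000000000000000000000000000000000000) (nat_lit 0x38001c600007c00000000000000000000000000000000000000000000000000000000) (nat_lit 6)
theorem c96646 : QOK q96646 := cut [q82296, q88801, q94045] ⟨c82296, c88801, c94045, trivial⟩ (nd (nat_lit 250) (nat_lit 0) (cs (rf (nat_lit 0)) (cs (rf (nat_lit 1)) (rf (nat_lit 2))))) q96646 (by decide +kernel)
def q96680 : Q := Q.p (nat_lit 0x2000008000020000000000000000000000000000000000000000000000000000) (nat_lit 0x14000770000ff0003dc00010000050000140000000000000000000000000000000000000000000000) (nat_lit 12)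
theorem c96680 : QOK q96680 := cut [q96655, q3443, q96676, q96679] ⟨c96655, c3443, c96676, c96679, trivial⟩ (nd (nat_lit 275) (nat_lit 0) (cs (rf (nat_lit 0)) (cs (nd (nat_lit 186) (nat_lit 0) (cs (rf (nat_lit 1)) (lf (nat_lit 46) (nat_lit 186)))) (cs (rf (nat_lit 2)) (rf (nat_lit 3)))))) q96680 (by decide +kernel)
def q96693 : Q := Q.p (nat_lit 0x2000008000020000000000000000000000000000000000000000000000000000) (nat_lit 0x14000050000100000df0003f8001ff0001400000000000000000000000000000000000) (nat_lit 12)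
theorem c96693 : QOK q96693 := cut [q1580, q88774, q92706, q84602, q91270, q84587] ⟨c1580, c88774, c92706, c84602, c91270, c84587, trivial⟩ (nd (nat_lit 187) (nat_lit 0) (cs (rf (nat_lit 0)) (cs (rf (nat_lit 1)) (cs (rf (nat_lit 2)) (nd (nat_lit 186) (nat_lit 0) (cs (lf (nat_lit 47) (nat_lit 164)) (nd (nat_lit 185) (nat_lit 0) (cs (rf (nat_lit 3)) (cs (rf (nat_lit 4)) (cs (nd (nat_lit 254) (nat_lit 0) (cs (lf (nat_lit 29) (nat_lit 187)) (rf (nat_lit 5)))) (nd (nat_lit 254) (nat_lit 0) (cs (lf (nat_lit 29) (nat_lit 187)) (nd (nat_lit 252) (nat_lit 0) (cs (lf (nat_lit 41) (nat_lit 186)) (nd (nat_lit 188) (nat_lit 0) (cs (lf (nat_lit 35) (nat_lit 165)) (nd (nat_lit 210) (nat_lit 0) (cs (lf (nat_lit 5) (nat_lit 185)) (nd (nat_lit 162) (nat_lit 0) (cs (lf (nat_lit 22) (nat_lit 162)) (nd (nat_lit 207) (nat_lit 0) (cs (lf (nat_lit 11) (nat_lit 184)) (nd (nat_lit 189) (nat_lit 0) (cs (lf (nat_lit 10) (nat_lit 185)) (nd (nat_lit 167) (nat_lit 0) (cs (lf (nat_lit 17)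 (nat_lit 164)) (lf (nat_lit 31) (nat_lit 166)))))))))))))))))))))))))))) q96693 (by decide +kernel)
def q96724 : Q := Q.p (nat_lit 0x2000008000020000000000000000000000000000000000000000000000000000) (nat_lit 0x10000040000100001de0007f00007e0001400000000000000000000000000000000000) (nat_lit 10)
theorem c96724 : QOK q96724 := cut [q1580, q88774, q92706, q96723] ⟨c1580, c88774, c92706, c96723, trivial⟩ (nd (nat_lit 187) (nat_lit 0) (cs (rf (nat_lit 0)) (cs (rf (nat_lit 1)) (cs (rf (nat_lit 2)) (rf (nat_lit 3)))))) q96724 (by decide +kernel)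
def q96730 : Q := Q.p (nat_lit 0x800002000008000020000000000000000000000000000000000000000000000000000) (nat_lit 0x40000180000600000000004000014000050000040000000000000000000000000000000000000000000000) (nat_lit 6)
theorem c96730 : QOK q96730 := cut [q96729] ⟨c96729, trivial⟩ (nd (nat_lit 208) (nat_lit 0) (cs (lf (nat_lit 47) (nat_lit 186)) (rf (nat_lit 0)))) q96730 (by decide +kernel)
def q96792 : Q := Q.p (nat_lit 0x380000c000000000000000000000000000000000000000000000000000000000) (nat_lit 0x40000730001c000070000020000080000000000000000000000000000000000000000000000) (nat_lit 6)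
theorem c96792 : QOK q96792 := cut [q96298, q96789] ⟨c96298, c96789, trivial⟩ (nd (nat_lit 254) (nat_lit 0) (cs (rf (nat_lit 0)) (cs (rf (nat_lit 1)) (nd (nat_lit 255) (nat_lit 0) (cs (lf (nat_lit 18) (nat_lit 230)) (nd (nat_lit 233) (nat_lit 0) (cs (lf (nat_lit 7) (nat_lit 229)) (lf (nat_lit 17) (nat_lit 230))))))))) q96792 (by decide +kernel)
def q96796 : Q := Q.p (nat_lit 0x700000c000000000000000000000000000000000000000000000000000000000) (nat_lit 0x1000018800070000198000200000800000000000000000000000000000000000000000) (nat_lit 7)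
theorem c96796 : QOK q96796 := cut [q96795] ⟨c96795, trivial⟩ (nd (nat_lit 255) (nat_lit 0) (cs (lf (nat_lit 18) (nat_lit 230)) (rf (nat_lit 0)))) q96796 (by decide +kernel)
def q96832 : Q := Q.p (nat_lit 0x200001e000000000000000000000000000000000000000000000000000000000) (nat_lit 0x100000c0000000000fc000f80000e00000000000000000000000000000000000000000) (nat_lit 9)
theorem c96832 : QOK q96832 := cut [q96821] ⟨c96821, trivial⟩ (nd (nat_lit 254) (nat_lit 0) (cs (lf (nat_lit 5) (nat_lit 229)) (nd (nat_lit 206) (nat_lit 0) (cs (lf (nat_lit 22) (nat_lit 206)) (nd (nat_lit 210) (nat_lit 0) (cs (lf (nat_lit 17) (nat_lit 207)) (rf (nat_lit 0)))))))) q96832 (by decide +kernel)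
def q96867 : Q := Q.p (nat_lit 0x300000c000000000000000000000000000000000000000000000000000000000) (nat_lit 0xe00003800007800000000038001fe0007f8000380000000000000000000000000000000000000000) (nat_lit 13)
theorem c96867 : QOK q96867 := cut [q79097, q89933, q86677, q92920, q96865] ⟨c79097, c89933, c86677, c92920, c96865, trivial⟩ (nd (nat_lit 274) (nat_lit 0) (cs (rf (nat_lit 0)) (cs (rf (nat_lit 1)) (nd (nat_lit 208) (nat_lit 0) (cs (rf (nat_lit 2)) (cs (rf (nat_lit 3)) (rf (nat_lit 4)))))))) q96867 (by decide +kernel)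
def q96915 : Q := Q.p (nat_lit 0x200000c000000000000000000000000000000000000000000000000000000000) (nat_lit 0x12000048000370003df000f38001df0000700001c0000700001400000000000000000000000000000) (nat_lit 14)
theorem c96915 : QOK q96915 := cut [q96758, q96769, q96836, q80199, q96828, q96880, q96903, q96914] ⟨c96758, c96769, c96836, c80199, c96828, c96880, c96903, c96914, trivial⟩ (nd (nat_lit 229) (nat_lit 0) (cs (rf (nat_lit 0)) (cs (rf (nat_lit 1)) (cs (rf (nat_lit 2)) (cs (nd (nat_lit 232) (nat_lit 0) (cs (rf (nat_lit 3)) (cs (rf (nat_lit 4)) (cs (nd (nat_lit 206) (nat_lit 0) (cs (lf (nat_lit 22) (nat_lit 206)) (rf (nat_lit 5)))) (rf (nat_lit 6)))))) (rf (nat_lit 7))))))) q96915 (by decide +kernel)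
def q96920 : Q := Q.p (nat_lit 0x300000c000000000000000000000000000000000000000000000000000000000) (nat_lit 0x300000c0002300018e000738001de0001700005c0000000000000000000000000000000000000000) (nat_lit 13)
theorem c96920 : QOK q96920 := cut [q57663, q87131, q87908, q91239, q9779, q87971] ⟨c57663, c87131, c87908, c91239, c9779, c87971, trivial⟩ (nd (nat_lit 232) (nat_lit 0) (cs (rf (nat_lit 0)) (cs (rf (nat_lit 1)) (nd (nat_lit 229) (nat_lit 0) (cs (rf (nat_lit 2)) (cs (rf (nat_lit 3)) (nd (nat_lit 251) (nat_lit 0) (cs (rf (nat_lit 4)) (rf (nat_lit 5)))))))))) q96920 (by decide +kernel)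
def q96952 : Q := Q.p (nat_lit 0x300000c000000000000000000000000000000000000000000000000000000000) (nat_lit 0x40000180002600018e000720003f0001ff0003fc0002000008000000000000000000000000000000) (nat_lit 13)
theorem c96952 : QOK q96952 := cut [q426, q96925, q87678, q57663, q87131, q86988, q93789, q93944, q381, q2976, q87207, q91963] ⟨c426, c96925, c87678, c57663, c87131, c86988, c93789, c93944, c381, c2976, c87207, c91963, trivial⟩ (nd (nat_lit 186) (nat_lit 0) (cs (nd (nat_lit 251) (nat_lit 0) (cs (rf (nat_lit 0)) (cs (nd (nat_lit 208) (nat_lit 0) (cs (lf (nat_lit 41) (nat_lit 185)) (nd (nat_lit 163) (nat_lit 0) (cs (lf (nat_lit 46) (nat_lit 163)) (nd (nat_lit 232) (nat_lit 0) (cs (lf (nat_lit 6) (nat_lit 229)) (nd (nat_lit 187) (nat_lit 0) (cs (lf (nat_lit 35) (nat_lit 164)) (nd (nat_lit 209) (nat_lit 0) (cs (lf (nat_lit 30) (nat_lit 186)) (rf (nat_lit 1)))))))))))) (nd (nat_lit 208) (nat_lit 0) (cs (lf (nat_lit 41) (nat_lit 185)) (nd (nat_lit 185) (nat_lit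 0) (cs (lf (nat_lit 47) (nat_lit 163)) (nd (nat_lit 249) (nat_lit 0) (cs (lf (nat_lit 13) (nat_lit 227)) (rf (nat_lit 2))))))))))) (cs (nd (nat_lit 232) (nat_lit 0) (cs (rf (nat_lit 3)) (cs (rf (nat_lit 4)) (nd (nat_lit 187) (nat_lit 0) (cs (rf (nat_lit 5)) (cs (rf (nat_lit 6)) (rf (nat_lit 7)))))))) (cs (nd (nat_lit 208) (nat_lit 0) (cs (lf (nat_lit 24) (nat_lit 164)) (nd (nat_lit 163) (nat_lit 0) (cs (lf (nat_lit 46) (nat_lit 163)) (nd (nat_lit 187) (nat_lit 0) (cs (lf (nat_lit 35) (nat_lit 164)) (nd (nat_lit 209) (nat_lit 0) (cs (lf (nat_lit 41) (nat_lit 186)) (nd (nat_lit 188) (nat_lit 0) (cs (lf (nat_lit 35) (nat_lit 165)) (nd (nat_lit 189) (nat_lit 0) (cs (lf (nat_lit 6) (nat_lit 186)) (nd (nat_lit 167) (nat_lit 0) (cs (lf (nat_lit 17) (nat_lit 164)) (nd (nat_lit 211) (nat_lit 0) (cs (rf (nat_lit 8)) (lf (nat_lit 5) (nat_lit 186)))))))))))))))))) (cs (nd (nat_lit 208) (nat_lit 0) (cs (lf (nat_lit 24) (nat_lit 164)) (rf (nat_lit 9)))) (cs (nd (nat_lit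 208) (nat_lit 0) (cs (lf (nat_lit 24) (nat_lit 164)) (nd (nat_lit 163) (nat_lit 0) (cs (lf (nat_lit 46) (nat_lit 163)) (nd (nat_lit 273) (nat_lit 0) (cs (lf (nat_lit 40) (nat_lit 185)) (nd (nat_lit 165) (nat_lit 0) (cs (lf (nat_lit 34) (nat_lit 164)) (nd (nat_lit 274) (nat_lit 0) (cs (lf (nat_lit 41) (nat_lit 207)) (rf (nat_lit 10)))))))))))) (nd (nat_lit 208) (nat_lit 0) (cs (lf (nat_lit 24) (nat_lit 164)) (rf (nat_lit 11)))))))))) q96952 (by decide +kernel)
def q96956 : Q := Q.p (nat_lit 0x300000c000000000000000000000000000000000000000000000000000000000) (nat_lit 0x100002600018e000738001fe0007c0000700000000000000000000000000000000000000000) (nat_lit 12)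
theorem c96956 : QOK q96956 := cut [q57663, q87131, q87908, q91239, q80169, q93801, q9779, q93807] ⟨c57663, c87131, c87908, c91239, c80169, c93801, c9779, c93807, trivial⟩ (nd (nat_lit 232) (nat_lit 0) (cs (rf (nat_lit 0)) (cs (rf (nat_lit 1)) (nd (nat_lit 229) (nat_lit 0) (cs (rf (nat_lit 2)) (cs (rf (nat_lit 3)) (nd (nat_lit 209) (nat_lit 0) (cs (rf (nat_lit 4)) (cs (rf (nat_lit 5)) (nd (nat_lit 251) (nat_lit 0) (cs (rf (nat_lit 6)) (rf (nat_lit 7))))))))))))) q96956 (by decide +kernel)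
def q96988 : Q := Q.p (nat_lit 0x200000c000000000000000000000000000000000000000000000000000000000) (nat_lit 0x40000340007df000f38001ef0003f0000f80000000000000000000000000000000000000000) (nat_lit 14)
theorem c96988 : QOK q96988 := cut [q96758, q96768, q96769, q96836, q96828, q96880, q96759, q96971, q96974, q96986] ⟨c96758, c96768, c96769, c96836, c96828, c96880, c96759, c96971, c96974, c96986, trivial⟩ (nd (nat_lit 229) (nat_lit 0) (cs (rf (nat_lit 0)) (cs (rf (nat_lit 1)) (cs (rf (nat_lit 2)) (cs (rf (nat_lit 3)) (nd (nat_lit 232) (nat_lit 0) (cs (rf (nat_lit 4)) (cs (rf (nat_lit 5)) (cs (nd (nat_lit 254) (nat_lit 0) (cs (rf (nat_lit 6)) (nd (nat_lit 207) (nat_lit 0) (cs (lf (nat_lit 23) (nat_lit 206)) (nd (nat_lit 210) (nat_lit 0) (cs (lf (nat_lit 17) (nat_lit 207)) (nd (nat_lit 188) (nat_lit 0) (cs (lf (nat_lit 36) (nat_lit 165)) (nd (nat_lit 250) (nat_lit 0) (cs (lf (nat_lit 10) (nat_lit 228)) (nd (nat_lit 167) (nat_lit 0) (cs (lf (nat_lit 34) (nat_lit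 166)) (nd (nat_lit 187) (nat_lit 0) (cs (lf (nat_lit 47) (nat_lit 165)) (nd (nat_lit 209) (nat_lit 0) (cs (lf (nat_lit 42) (nat_lit 187)) (nd (nat_lit 186) (nat_lit 0) (cs (lf (nat_lit 47) (nat_lit 164)) (nd (nat_lit 252) (nat_lit 0) (cs (lf (nat_lit 41) (nat_lit 186)) (nd (nat_lit 185) (nat_lit 0) (cs (lf (nat_lit 0) (nat_lit 184)) (lf (nat_lit 24) (nat_lit 163)))))))))))))))))))))))) (cs (nd (nat_lit 206) (nat_lit 0) (cs (lf (nat_lit 22) (nat_lit 206)) (rf (nat_lit 7)))) (cs (nd (nat_lit 206) (nat_lit 0) (cs (lf (nat_lit 22) (nat_lit 206)) (nd (nat_lit 250) (nat_lit 0) (cs (lf (nat_lit 10) (nat_lit 228)) (rf (nat_lit 8)))))) (rf (nat_lit 9))))))))))))) q96988 (by decide +kernel)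
def q96992 : Q := Q.p (nat_lit 0xe000004000000000000000000000000000000000000000000000000000000000) (nat_lit 0x7700001800062000000000000000000000000000000000000000000000000000000000) (nat_lit 6)
theorem c96992 : QOK q96992 := cut [q96991] ⟨c96991, trivial⟩ (nd (nat_lit 252) (nat_lit 0) (cs (lf (nat_lit 23) (nat_lit 229)) (rf (nat_lit 0)))) q96992 (by decide +kernel)
def q96995 : Q := Q.p (nat_lit 0x600001c000000000000000000000000000000000000000000000000000000000) (nat_lit 0x10000000000020003f0000fe0000e00000000000000000000000000000000000000000) (nat_lit 7)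
theorem c96995 : QOK q96995 := cut [q12221, q96537, q96821] ⟨c12221, c96537, c96821, trivial⟩ (nd (nat_lit 210) (nat_lit 0) (cs (rf (nat_lit 0)) (cs (rf (nat_lit 1)) (rf (nat_lit 2))))) q96995 (by decide +kernel)
def q97102 : Q := Q.p (nat_lit 0x200000e000000000000000000000000000000000000000000000000000000000) (nat_lit 0x40000300007dc000f00001f0000fc0000f00000000000000000000000000000000000000000) (nat_lit 10)
theorem c97102 : QOK q97102 := cut [q96825, q96971, q96974, q97101] ⟨c96825, c96971, c96974, c97101, trivial⟩ (nd (nat_lit 232) (nat_lit 0) (cs (rf (nat_lit 0)) (cs (rf (nat_lit 1)) (cs (rf (nat_lit 2)) (rf (nat_lit 3)))))) q97102 (by decide +kernel)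
def q97171 : Q := Q.p (nat_lit 0x200000c000000000000000000000000000000000000000000000000000000000) (nat_lit 0x400001c0000780005f000338000ff0003f0000fc0000700001400000000000000000000000000000) (nat_lit 13)
theorem c97171 : QOK q97171 := cut [q96764, q96768, q96769, q85172, q97126, q96885, q96899, q97024, q97065, q97071, q97074, q97132, q97169] ⟨c96764, c96768, c96769, c85172, c97126, c96885, c96899, c97024, c97065, c97071, c97074, c97132, c97169, trivial⟩ (nd (nat_lit 229) (nat_lit 0) (cs (rf (nat_lit 0)) (cs (rf (nat_lit 1)) (cs (rf (nat_lit 2)) (nd (nat_lit 207) (nat_lit 0) (cs (rf (nat_lit 3)) (cs (rf (nat_lit 4)) (cs (nd (nat_lit 185) (nat_lit 0) (cs (rf (nat_lit 5)) (cs (rf (nat_lit 6)) (cs (rf (nat_lit 7)) (cs (rf (nat_lit 8)) (nd (nat_lit 251) (nat_lit 0) (cs (rf (nat_lit 9)) (cs (rf (nat_lit 10)) (nd (nat_lit 162) (nat_lit 0) (cs (lf (nat_lit 46) (nat_lit 162)) (nd (nat_lit 252) (nat_lit 0) (cs (lf (nat_lit 29) (nat_lit 185)) (rf (nat_lit 11))))))))))))))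 (rf (nat_lit 12)))))))))) q97171 (by decide +kernel)
def q97183 : Q := Q.p (nat_lit 0x20000280000e000000000000000000000000000000000000000000000000000000000) (nat_lit 0x1100005400035c000d60000000003e0000f0000000000000000000000000000000000000000000000) (nat_lit 11)
theorem c97183 : QOK q97183 := cut [q87919, q88302, q89961] ⟨c87919, c88302, c89961, trivial⟩ (nd (nat_lit 252) (nat_lit 0) (cs (rf (nat_lit 0)) (cs (rf (nat_lit 1)) (nd (nat_lit 208) (nat_lit 0) (cs (lf (nat_lit 36) (nat_lit 185)) (nd (nat_lit 249) (nat_lit 0) (cs (lf (nat_lit 13) (nat_lit 227)) (nd (nat_lit 254) (nat_lit 0) (cs (lf (nat_lit 18) (nat_lit 229)) (nd (nat_lit 276) (nat_lit 0) (cs (lf (nat_lit 5) (nat_lit 251)) (nd (nat_lit 298) (nat_lit 0) (cs (lf (nat_lit 42) (nat_lit 231)) (nd (nat_lit 209) (nat_lit 0) (cs (lf (nat_lit 24) (nat_lit 187)) (nd (nat_lit 274) (nat_lit 0) (cs (lf (nat_lit 30) (nat_lit 208)) (rf (nat_lit 2))))))))))))))))))) q97183 (by decide +kernel)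
def q97241 : Q := Q.p (nat_lit 0x2000008000020000000000000000000000000000000000000000000000000000) (nat_lit 0x14000050000040001de0007f00007e0001400000000000000000000000000000000000) (nat_lit 10)
theorem c97241 : QOK q97241 := cut [q1568, q10519, q96723] ⟨c1568, c10519, c96723, trivial⟩ (nd (nat_lit 187) (nat_lit 0) (cs (rf (nat_lit 0)) (cs (rf (nat_lit 1)) (rf (nat_lit 2))))) q97241 (by decide +kernel)
def q97289 : Q := Q.p (nat_lit 0x2000008000020000100000000000000000000000000000000000000000000000) (nat_lit 0x100001c0000700001800001000004000050000000000000000000000000000000000000000000000000000) (nat_lit 7)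
theorem c97289 : QOK q97289 := cut [q97288] ⟨c97288, trivial⟩ (nd (nat_lit 275) (nat_lit 0) (cs (lf (nat_lit 34) (nat_lit 187)) (rf (nat_lit 0)))) q97289 (by decide +kernel)
def q97366 : Q := Q.p (nat_lit 0x2000018000000000000000000000000000000000000000000000000000000000) (nat_lit 0x500001c00007c0007f0003dc000e30003fc000740000400000000000000000000000000000000000000000) (nat_lit 13)
theorem c97366 : QOK q97366 := cut [q26315, q87016, q97317, q97320, q97321, q97323, q97331, q97333, q97337, q79994, q97339, q97344, q97347, q97348, q97351, q700, q94159, q97353, q97365] ⟨c26315, c87016, c97317, c97320, c97321, c97323, c97331, c97333, c97337, c79994, c97339, c97344, c97347, c97348, c97351, c700, c94159, c97353, c97365, trivial⟩ (nd (nat_lit 275) (nat_lit 0) (cs (rf (nat_lit 0)) (cs (rf (nat_lit 1)) (cs (nd (nat_lit 274) (nat_lit 0) (cs (rf (nat_lit 2)) (cs (nd (nat_lit 254) (nat_lit 0) (cs (rf (nat_lit 3)) (cs (nd (nat_lit 251) (nat_lit 0) (cs (rf (nat_lit 4)) (cs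 (nd (nat_lit 188) (nat_lit 0) (cs (lf (nat_lit 37) (nat_lit 187)) (nd (nat_lit 273) (nat_lit 0) (cs (lf (nat_lit 12) (nat_lit 250)) (nd (nat_lit 276) (nat_lit 0) (cs (lf (nat_lit 23) (nat_lit 250)) (nd (nat_lit 298) (nat_lit 0) (cs (lf (nat_lit 42) (nat_lit 231)) (nd (nat_lit 211) (nat_lit 0) (cs (lf (nat_lit 34) (nat_lit 210)) (rf (nat_lit 5)))))))))))) (cs (rf (nat_lit 6)) (rf (nat_lit 7)))))) (cs (rf (nat_lit 8)) (nd (nat_lit 233) (nat_lit 0) (cs (rf (nat_lit 9)) (cs (nd (nat_lit 255) (nat_lit 0) (cs (lf (nat_lit 6) (nat_lit 252)) (nd (nat_lit 252) (nat_lit 0) (cs (lf (nat_lit 12) (nat_lit 229)) (rf (nat_lit 10)))))) (rf (nat_lit 11))))))))) (cs (rf (nat_lit 12)) (nd (nat_lit 276) (nat_lit 0) (cs (nd (nat_lit 209) (nat_lit 0) (cs (lf (nat_lit 29) (nat_lit 209)) (rf (nat_lit 13)))) (cs (rf (nat_lit 14)) (nd (nat_lit 252) (nat_lit 0) (cs (rf (nat_lit 15)) (cs (rf (nat_lit 16)) (nd (nat_lit 233) (nat_lit 0) (cs (lf (nat_lit 6) (nat_lit 230)) (nd (nat_lit 277)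 (nat_lit 0) (cs (lf (nat_lit 18) (nat_lit 252)) (nd (nat_lit 255) (nat_lit 0) (cs (lf (nat_lit 17) (nat_lit 252)) (nd (nat_lit 254) (nat_lit 0) (cs (lf (nat_lit 12) (nat_lit 251)) (nd (nat_lit 210) (nat_lit 0) (cs (lf (nat_lit 24) (nat_lit 188)) (rf (nat_lit 17)))))))))))))))))))))) (rf (nat_lit 18)))))) q97366 (by decide +kernel)
def q97433 : Q := Q.p (nat_lit 0x2000018000000000000000000000000000000000000000000000000000000000) (nat_lit 0x500001e00007c0003f8001df000078003ff0003700005c0000700001400000000000000000000000000000) (nat_lit 16)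
theorem c97433 : QOK q97433 := cut [q26315, q87016, q97365, q12206, q85515, q12221, q97347, q96430, q3994, q85049, q97408, q97409, q97411, q97413, q91956, q91962, q97429, q96764, q96769, q96903, q97207] ⟨c26315, c87016, c97365, c12206, c85515, c12221, c97347, c96430, c3994, c85049, c97408, c97409, c97411, c97413, c91956, c91962, c97429, c96764, c96769, c96903, c97207, trivial⟩ (nd (nat_lit 275) (nat_lit 0) (cs (rf (nat_lit 0)) (cs (rf (nat_lit 1)) (cs (rf (nat_lit 2)) (nd (nat_lit 210) (nat_lit 0) (cs (rf (nat_lit 3)) (cs (rf (nat_lit 4)) (nd (nat_lit 230) (nat_lit 0) (cs (rf (nat_lit 5)) (cs (nd (nat_lit 274) (nat_lit 0) (cs (rf (nat_lit 6)) (cs (nd (nat_lit 209) (nat_lit 0) (cs (lf (nat_lit 41) (nat_lit 208)) (nd (nat_lit 211) (nat_lit 0) (cs (lf (nat_lit 6) (nat_lit 208)) (nd (nat_lit 276) (nat_lit 0) (cs (lf (nat_lit 29) (nat_lit 209)) (nd (nat_lit 186) (nat_lit 0) (cs (lf (nat_lit 46) (nat_lit 186)) (nd (nat_lit 254) (nat_lit 0) (cs (lf (nat_lit 35) (nat_lit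 188)) (nd (nat_lit 255) (nat_lit 0) (cs (lf (nat_lit 18) (nat_lit 230)) (lf (nat_lit 12) (nat_lit 251)))))))))))))) (cs (nd (nat_lit 252) (nat_lit 0) (cs (rf (nat_lit 7)) (cs (nd (nat_lit 208) (nat_lit 0) (cs (lf (nat_lit 24) (nat_lit 186)) (nd (nat_lit 207) (nat_lit 0) (cs (lf (nat_lit 47) (nat_lit 185)) (rf (nat_lit 8)))))) (nd (nat_lit 251) (nat_lit 0) (cs (lf (nat_lit 12) (nat_lit 228)) (nd (nat_lit 276) (nat_lit 0) (cs (lf (nat_lit 18) (nat_lit 251)) (nd (nat_lit 209) (nat_lit 0) (cs (lf (nat_lit 29) (nat_lit 209)) (nd (nat_lit 211) (nat_lit 0) (cs (lf (nat_lit 6) (nat_lit 208)) (nd (nat_lit 254) (nat_lit 0) (cs (lf (nat_lit 35) (nat_lit 188)) (rf (nat_lit 9))))))))))))))) (nd (nat_lit 273) (nat_lit 0) (cs (rf (nat_lit 10)) (cs (rf (nat_lit 11)) (cs (nd (nat_lit 276) (nat_lit 0) (cs (rf (nat_lit 12)) (cs (rf (nat_lit 13)) (cs (nd (nat_lit 250) (nat_lit 0) (cs (lf (nat_lit 22) (nat_lit 250)) (nd (nat_lit 295) (nat_lit 0) (cs (lf (nat_lit 11) (nat_lit 272))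 (nd (nat_lit 252) (nat_lit 0) (cs (lf (nat_lit 36) (nat_lit 207)) (nd (nat_lit 296) (nat_lit 0) (cs (lf (nat_lit 41) (nat_lit 229)) (lf (nat_lit 6) (nat_lit 273)))))))))) (nd (nat_lit 295) (nat_lit 0) (cs (lf (nat_lit 11) (nat_lit 272)) (nd (nat_lit 254) (nat_lit 0) (cs (lf (nat_lit 17) (nat_lit 251)) (nd (nat_lit 298) (nat_lit 0) (cs (lf (nat_lit 42) (nat_lit 231)) (nd (nat_lit 189) (nat_lit 0) (cs (lf (nat_lit 34) (nat_lit 188)) (nd (nat_lit 252) (nat_lit 0) (cs (lf (nat_lit 36) (nat_lit 207)) (nd (nat_lit 251) (nat_lit 0) (cs (lf (nat_lit 30) (nat_lit 229)) (lf (nat_lit 23) (nat_lit 250)))))))))))))))))) (nd (nat_lit 252) (nat_lit 0) (cs (rf (nat_lit 14)) (rf (nat_lit 15)))))))))))) (cs (rf (nat_lit 16)) (nd (nat_lit 229) (nat_lit 0) (cs (rf (nat_lit 17)) (cs (rf (nat_lit 18)) (cs (rf (nat_lit 19)) (rf (nat_lit 20))))))))))))))))) q97433 (by decide +kernel)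
def q97486 : Q := Q.p (nat_lit 0x2000018000000000000000000000000000000000000000000000000000000000) (nat_lit 0x500005c00017e000ff8007de000e40007f8000340000d00000000000000000000000000000000000000000) (nat_lit 13)
theorem c97486 : QOK q97486 := cut [q96982, q97307, q97308, q97314, q26315, q87016, q97365, q97472, q79384, q4198, q97478, q97480, q97482] ⟨c96982, c97307, c97308, c97314, c26315, c87016, c97365, c97472, c79384, c4198, c97478, c97480, c97482, trivial⟩ (nd (nat_lit 233) (nat_lit 0) (cs (rf (nat_lit 0)) (cs (rf (nat_lit 1)) (cs (rf (nat_lit 2)) (cs (rf (nat_lit 3)) (nd (nat_lit 275) (nat_lit 0) (cs (rf (nat_lit 4)) (cs (rf (nat_lit 5)) (cs (rf (nat_lit 6)) (nd (nat_lit 255) (nat_lit 0) (cs (rf (nat_lit 7)) (cs (nd (nat_lit 254) (nat_lit 0) (cs (rf (nat_lit 8)) (cs (nd (nat_lit 188) (nat_lit 0) (cs (lf (nat_lit 37) (nat_lit 187)) (nd (nat_lit 252) (nat_lit 0) (cs (lf (nat_lit 12) (nat_lit 229)) (nd (nat_lit 277) (nat_lit 0) (cs (lf (nat_lit 5) (nat_lit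 252)) (nd (nat_lit 274) (nat_lit 0) (cs (rf (nat_lit 9)) (lf (nat_lit 11) (nat_lit 251)))))))))) (rf (nat_lit 10))))) (cs (nd (nat_lit 230) (nat_lit 0) (cs (lf (nat_lit 5) (nat_lit 230)) (rf (nat_lit 11)))) (nd (nat_lit 230) (nat_lit 0) (cs (lf (nat_lit 5) (nat_lit 230)) (rf (nat_lit 12))))))))))))))))) q97486 (by decide +kernel)
def q97527 : Q := Q.p (nat_lit 0x2000018000000000000000000000000000000000000000000000000000000000) (nat_lit 0x500001c0000700003f8001de0006700007c000160000400000000000000000000000000000000000000000) (nat_lit 11)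
theorem c97527 : QOK q97527 := cut [q26315, q87016, q97365, q97317, q97347, q94159, q97515, q94894, q86631, q84408, q91956, q97329] ⟨c26315, c87016, c97365, c97317, c97347, c94159, c97515, c94894, c86631, c84408, c91956, c97329, trivial⟩ (nd (nat_lit 275) (nat_lit 0) (cs (rf (nat_lit 0)) (cs (rf (nat_lit 1)) (cs (rf (nat_lit 2)) (nd (nat_lit 274) (nat_lit 0) (cs (rf (nat_lit 3)) (cs (rf (nat_lit 4)) (cs (nd (nat_lit 252) (nat_lit 0) (cs (rf (nat_lit 5)) (cs (rf (nat_lit 6)) (nd (nat_lit 251) (nat_lit 0) (cs (lf (nat_lit 12) (nat_lit 228)) (nd (nat_lit 276) (nat_lit 0) (cs (lf (nat_lit 18) (nat_lit 251)) (nd (nat_lit 209) (nat_lit 0) (cs (lf (nat_lit 29) (nat_lit 209)) (nd (nat_lit 188) (nat_lit 0) (cs (lf (nat_lit 34) (nat_lit 187)) (rf (nat_lit 7))))))))))))) (nd (nat_lit 252) (nat_lit 0) (cs (rf (nat_lit 8)) (cs (rf (nat_lit 6)) (nd (nat_lit 273) (nat_lit 0) (cs (rf (nat_lit 9)) (cs (rf (nat_lit 10)) (nd (nat_lit 254) (nat_lit 0) (cs (lf (nat_lit 6) (nat_lit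 251)) (nd (nat_lit 188) (nat_lit 0) (cs (lf (nat_lit 37) (nat_lit 187)) (nd (nat_lit 251) (nat_lit 0) (cs (lf (nat_lit 12) (nat_lit 228)) (rf (nat_lit 11)))))))))))))))))))))) q97527 (by decide +kernel)
def q97532 : Q := Q.p (nat_lit 0x800002000008000000000000000000000000000000000000000000000000000000000) (nat_lit 0x40000700001c0000700001400001000014000060000100000000000000000000000000000000000000000000000) (nat_lit 7)
theorem c97532 : QOK q97532 := cut [q12650, q81211, q97531] ⟨c12650, c81211, c97531, trivial⟩ (nd (nat_lit 297) (nat_lit 0) (cs (rf (nat_lit 0)) (cs (rf (nat_lit 1)) (rf (nat_lit 2))))) q97532 (by decide +kernel)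
def q97578 : Q := Q.p (nat_lit 0x800002000008000000000000000000000000000000000000000000000000000000000) (nat_lit 0x580001600075c000f70003dc000f70000e0000380000400000000000000000000000000000000000000000) (nat_lit 14)
theorem c97578 : QOK q97578 := cut [q97351, q97533, q88915, q97534, q79289, q97535, q97541, q97544, q97550, q96299, q96346, q97540, q97556, q97561, q24868, q97347, q97575, q97576] ⟨c97351, c97533, c88915, c97534, c79289, c97535, c97541, c97544, c97550, c96299, c96346, c97540, c97556, c97561, c24868, c97347, c97575, c97576, trivial⟩ (nd (nat_lit 276) (nat_lit 0) (cs (rf (nat_lit 0)) (cs (rf (nat_lit 1)) (cs (nd (nat_lit 252) (nat_lit 0) (cs (rf (nat_lit 2)) (cs (nd (nat_lit 274) (nat_lit 0) (cs (rf (nat_lit 3)) (cs (nd (nat_lit 254) (nat_lit 0) (cs (rf (nat_lit 4)) (cs (nd (nat_lit 296) (nat_lit 0) (cs (lf (nat_lit 30) (nat_lit 230)) (nd (nat_lit 273) (nat_lit 0) (cs (lf (nat_lit 12) (nat_lit 250)) (nd (nat_lit 298) (nat_lit 0) (cs (lf (nat_lit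 42) (nat_lit 231)) (nd (nat_lit 295) (nat_lit 0) (cs (lf (nat_lit 11) (nat_lit 272)) (rf (nat_lit 5)))))))))) (rf (nat_lit 6))))) (nd (nat_lit 277) (nat_lit 0) (cs (lf (nat_lit 18) (nat_lit 252)) (nd (nat_lit 255) (nat_lit 0) (cs (lf (nat_lit 17) (nat_lit 252)) (nd (nat_lit 254) (nat_lit 0) (cs (lf (nat_lit 12) (nat_lit 251)) (rf (nat_lit 7))))))))))) (cs (rf (nat_lit 8)) (nd (nat_lit 254) (nat_lit 0) (cs (nd (nat_lit 255) (nat_lit 0) (cs (rf (nat_lit 9)) (cs (rf (nat_lit 10)) (rf (nat_lit 11))))) (cs (nd (nat_lit 251) (nat_lit 0) (cs (lf (nat_lit 0) (nat_lit 250)) (rf (nat_lit 12)))) (cs (nd (nat_lit 251) (nat_lit 0) (cs (lf (nat_lit 0) (nat_lit 250)) (nd (nat_lit 298) (nat_lit 0) (cs (lf (nat_lit 42) (nat_lit 231)) (rf (nat_lit 13)))))) (nd (nat_lit 298) (nat_lit 0) (cs (lf (nat_lit 42) (nat_lit 231)) (nd (nat_lit 251) (nat_lit 0) (cs (lf (nat_lit 0) (nat_lit 250)) (nd (nat_lit 232) (nat_lit 0) (cs (lf (nat_lit 17) (nat_lit 229)) (nd (nat_lit 188) (nat_lit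 0) (cs (lf (nat_lit 37) (nat_lit 187)) (nd (nat_lit 228) (nat_lit 0) (cs (lf (nat_lit 22) (nat_lit 228)) (nd (nat_lit 273) (nat_lit 0) (cs (lf (nat_lit 11) (nat_lit 250)) (nd (nat_lit 274) (nat_lit 0) (cs (lf (nat_lit 6) (nat_lit 251)) (nd (nat_lit 295) (nat_lit 0) (cs (lf (nat_lit 11) (nat_lit 272)) (nd (nat_lit 318) (nat_lit 0) (cs (rf (nat_lit 14)) (lf (nat_lit 31) (nat_lit 230)))))))))))))))))))))))))))) (nd (nat_lit 274) (nat_lit 0) (cs (rf (nat_lit 15)) (cs (rf (nat_lit 16)) (rf (nat_lit 17))))))))) q97578 (by decide +kernel)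
def q97588 : Q := Q.p (nat_lit 0x800002000008000000000000000000000000000000000000000000000000000000000) (nat_lit 0x40000700001c0000700000400005000014000060000100000000000000000000000000000000000000000000000) (nat_lit 7)
theorem c97588 : QOK q97588 := cut [q81211, q96728, q97531] ⟨c81211, c96728, c97531, trivial⟩ (nd (nat_lit 297) (nat_lit 0) (cs (rf (nat_lit 0)) (cs (rf (nat_lit 1)) (rf (nat_lit 2))))) q97588 (by decide +kernel)
def q97669 : Q := Q.p (nat_lit 0x800002000008000000000000000000000000000000000000000000000000000000000) (nat_lit 0x40000180000700005fc0017e000f78007dc000f70007cc000300000c00000000000000000000000000000000000000000) (nat_lit 18)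
theorem c97669 : QOK q97669 := cut [q87016, q97604, q96982, q97307, q97491, q97607, q97608, q97610, q97611, q86745, q97620, q80895, q79384, q79512, q97624, q97626, q97668] ⟨c87016, c97604, c96982, c97307, c97491, c97607, c97608, c97610, c97611, c86745, c97620, c80895, c79384, c79512, c97624, c97626, c97668, trivial⟩ (nd (nat_lit 232) (nat_lit 0) (cs (rf (nat_lit 0)) (cs (rf (nat_lit 1)) (cs (nd (nat_lit 233) (nat_lit 0) (cs (rf (nat_lit 2)) (cs (rf (nat_lit 3)) (cs (rf (nat_lit 4)) (cs (nd (nat_lit 255) (nat_lit 0) (cs (rf (nat_lit 5)) (cs (rf (nat_lit 6)) (cs (nd (nat_lit 254) (nat_lit 0) (cs (rf (nat_lit 7)) (cs (nd (nat_lit 230) (nat_lit 0) (cs (lf (nat_lit 0) (nat_lit 229)) (nd (nat_lit 252) (nat_lit 0) (cs (lf (nat_lit 12) (nat_lit 229)) (nd (nat_lit 188) (nat_lit 0) (cs (lf (nat_lit 37) (nat_lit 187)) (nd (nat_lit 277) (nat_lit 0) (cs (lf (nat_lit 5) (nat_lit 252)) (nd (nat_lit 274) (nat_lit 0) (cs (lf (nat_lit 11) (nat_lit 251)) (rf (nat_lit 8))))))))))))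 (cs (nd (nat_lit 188) (nat_lit 0) (cs (lf (nat_lit 37) (nat_lit 187)) (nd (nat_lit 230) (nat_lit 0) (cs (lf (nat_lit 0) (nat_lit 229)) (nd (nat_lit 251) (nat_lit 0) (cs (lf (nat_lit 13) (nat_lit 229)) (rf (nat_lit 9)))))))) (cs (rf (nat_lit 10)) (nd (nat_lit 251) (nat_lit 0) (cs (lf (nat_lit 13) (nat_lit 229)) (rf (nat_lit 11))))))))) (cs (nd (nat_lit 254) (nat_lit 0) (cs (rf (nat_lit 12)) (cs (rf (nat_lit 13)) (rf (nat_lit 10))))) (rf (nat_lit 14))))))) (rf (nat_lit 15))))))) (rf (nat_lit 16)))))) q97669 (by decide +kernel)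
def q97683 : Q := Q.p (nat_lit 0x800002000008000000000000000000000000000000000000000000000000000000000) (nat_lit 0x40000700001c0000600007400005c000140000600001c0000700000400000000000000000000000000000000000) (nat_lit 10)
theorem c97683 : QOK q97683 := cut [q97671, q97672, q97682] ⟨c97671, c97672, c97682, trivial⟩ (nd (nat_lit 210) (nat_lit 0) (cs (rf (nat_lit 0)) (cs (nd (nat_lit 209) (nat_lit 0) (cs (lf (nat_lit 35) (nat_lit 187)) (nd (nat_lit 276) (nat_lit 0) (cs (lf (nat_lit 29) (nat_lit 209)) (nd (nat_lit 187) (nat_lit 0) (cs (lf (nat_lit 28) (nat_lit 187)) (nd (nat_lit 252) (nat_lit 0) (cs (lf (nat_lit 41) (nat_lit 186)) (nd (nat_lit 277) (nat_lit 0) (cs (lf (nat_lit 18) (nat_lit 252)) (rf (nat_lit 1)))))))))))) (rf (nat_lit 2))))) q97683 (by decide +kernel)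
def q97706 : Q := Q.p (nat_lit 0x300001c000000000000000000000000000000000000000000000000000000000) (nat_lit 0x1c00006380000e000000000000000000000000000000000000000000000000000) (nat_lit 6)
theorem c97706 : QOK q97706 := cut [q97705] ⟨c97705, trivial⟩ (nd (nat_lit 233) (nat_lit 0) (cs (lf (nat_lit 6) (nat_lit 230)) (rf (nat_lit 0)))) q97706 (by decide +kernel)
def q97709 : Q := Q.p (nat_lit 0x10000080000100000c000000000000000000000000000000000000000000000000000000000) (nat_lit 0xa00002c0003400000000002000028000000000000000000000000000000000000000000000000000) (nat_lit 6)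
theorem c97709 : QOK q97709 := cut [q97708] ⟨c97708, trivial⟩ (nd (nat_lit 274) (nat_lit 0) (cs (lf (nat_lit 35) (nat_lit 208)) (rf (nat_lit 0)))) q97709 (by decide +kernel)
def q97807 : Q := Q.p (nat_lit 0x2000008000020000000000000000000000000000000000000000000000000000) (nat_lit 0x500001c0000700001c00005000014000010000180000600001000000000000000000000000000000000000) (nat_lit 7)
theorem c97807 : QOK q97807 := cut [q3443, q97288, q97798, q97804, q97806] ⟨c3443, c97288, c97798, c97804, c97806, trivial⟩ (nd (nat_lit 275) (nat_lit 0) (cs (rf (nat_lit 0)) (cs (rf (nat_lit 1)) (cs (nd (nat_lit 296) (nat_lit 0) (cs (lf (nat_lit 40) (nat_lit 208)) (nd (nat_lit 297) (nat_lit 0) (cs (lf (nat_lit 41) (nat_lit 230)) (rf (nat_lit 2)))))) (cs (rf (nat_lit 3)) (rf (nat_lit 4))))))) q97807 (by decide +kernel)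
def q97872 : Q := Q.p (nat_lit 0x800002000008000020000000000000000000000000000000000000000000000000000) (nat_lit 0x400007400005c00004000000000080000700001c00005000000000000000000000000000000) (nat_lit 10)
theorem c97872 : QOK q97872 := cut [q97868] ⟨c97868, trivial⟩ (nd (nat_lit 276) (nat_lit 0) (cs (lf (nat_lit 29) (nat_lit 209)) (nd (nat_lit 187) (nat_lit 0) (cs (lf (nat_lit 28) (nat_lit 187)) (nd (nat_lit 252) (nat_lit 0) (cs (lf (nat_lit 41) (nat_lit 186)) (nd (nat_lit 277) (nat_lit 0) (cs (lf (nat_lit 18) (nat_lit 252)) (rf (nat_lit 0)))))))))) q97872 (by decide +kernel)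

end Crest.Agent.H3.Snaky.CR
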