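import Crest.Agent.H3.Snaky.Cert
import Crest.Agent.H3.Snaky.CR.CR0
import Crest.Agent.H3.Snaky.CR.CR1
import Crest.Agent.H3.Snaky.CR.CR2
import Crest.Agent.H3.Snaky.CR.CR3
import Crest.Agent.H3.Snaky.CR.CR4
import Crest.Agent.H3.Snaky.CR.CR5
import Crest.Agent.H3.Snaky.CR.CR6
import Crest.Agent.H3.Snaky.CR.CR15
import Crest.Agent.H3.Snaky.CR.CR16
import Crest.Agent.H3.Snaky.CR.CR17
import Crest.Agent.H3.Snaky.CR.CR18
import Crest.Agent.H3.Snaky.CR.CR19
import Crest.Agent.H3.Snaky.CR.CR20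
import Crest.Agent.H3.Snaky.CR.CR21
import Crest.Agent.H3.Snaky.CR.CR22
import Crest.Agent.H3.Snaky.CR.CR23
import Crest.Agent.H3.Snaky.CR.CR24
import Crest.Agent.H3.Snaky.CR.CR25
import Crest.Agent.H3.Snaky.CR.CR27
import Crest.Agent.H3.Snaky.CR.CR29
import Crest.Agent.H3.Snaky.CR.CR30
import Crest.Agent.H3.Snaky.CR.CR33
import Crest.Agent.H3.Snaky.CR.CR34
import Crest.Agent.H3.Snaky.CR.CR35
import Crest.Agent.H3.Snaky.CR.CR36
import Crest.Agent.H3.Snaky.CR.CR37
import Crest.Agent.H3.Snaky.CR.CR38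
import Crest.Agent.H3.Snaky.CR.CR39
import Crest.Agent.H3.Snaky.CR.CR40
import Crest.Agent.H3.Snaky.CR.CR41
import Crest.Agent.H3.Snaky.CR.CR42
import Crest.Agent.H3.Snaky.CR.CR44
import Crest.Agent.H3.Snaky.CR.CR48
import Crest.Agent.H3.Snaky.CR.CR49
import Crest.Agent.H3.Snaky.CR.CR50
import Crest.Agent.H3.Snaky.CR.CR51
import Crest.Agent.H3.Snaky.CR.CR52
import Crest.Agent.H3.Snaky.CR.CR53
import Crest.Agent.H3.Snaky.CR.CR54
import Crest.Agent.H3.Snaky.CR.CR55
import Crest.Agent.H3.Snaky.CR.CR56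
import Crest.Agent.H3.Snaky.CR.CR57
import Crest.Agent.H3.Snaky.CR.CR59
import Crest.Agent.H3.Snaky.CR.CR60
import Crest.Agent.H3.Snaky.CR.CR61
import Crest.Agent.H3.Snaky.CR.CR62
import Crest.Agent.H3.Snaky.CR.CR63

set_option autoImplicit false
set_option maxRecDepth 100000

namespace Crest.Agent.H3.Snaky.CR

open T

def q97875 : Q := Q.p (nat_lit 0x800002000008000020000000000000000000000000000000000000000000000000000) (nat_lit 0x10000170001d000010000000000080000700001c00005000000000000000000000000000000) (nat_lit 10)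
theorem c97875 : QOK q97875 := cut [q80963] ⟨c80963, trivial⟩ (nd (nat_lit 274) (nat_lit 0) (cs (lf (nat_lit 41) (nat_lit 208)) (nd (nat_lit 187) (nat_lit 0) (cs (lf (nat_lit 40) (nat_lit 186)) (nd (nat_lit 254) (nat_lit 0) (cs (lf (nat_lit 29) (nat_lit 187)) (rf (nat_lit 0)))))))) q97875 (by decide +kernel)
def q97890 : Q := Q.p (nat_lit 0x200000c000060000000000000000000000000000000000000000000000000000) (nat_lit 0x380000f0001d80007000019e0000b8000000000000000000000000000000000000000000000) (nat_lit 10)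
theorem c97890 : QOK q97890 := cut [q1393, q97882, q97889] ⟨c1393, c97882, c97889, trivial⟩ (nd (nat_lit 208) (nat_lit 0) (cs (nd (nat_lit 211) (nat_lit 0) (cs (lf (nat_lit 6) (nat_lit 208)) (nd (nat_lit 233) (nat_lit 0) (cs (lf (nat_lit 5) (nat_lit 208)) (nd (nat_lit 207) (nat_lit 0) (cs (lf (nat_lit 4) (nat_lit 207)) (rf (nat_lit 0)))))))) (cs (rf (nat_lit 1)) (rf (nat_lit 2))))) q97890 (by decide +kernel)
def q97951 : Q := Q.p (nat_lit 0x800002000008000000000000000000000000000000000000000000000000000000000) (nat_lit 0x580001600075e000f78007df0003700003c0000f0000100000000000000000000000000000000000000000) (nat_lit 13)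
theorem c97951 : QOK q97951 := cut [q97347, q97917, q97408, q97409, q22710, q97411, q97413, q97535, q95631, q80025, q16956, q97945, q97351, q97576, q97949] ⟨c97347, c97917, c97408, c97409, c22710, c97411, c97413, c97535, c95631, c80025, c16956, c97945, c97351, c97576, c97949, trivial⟩ (nd (nat_lit 274) (nat_lit 0) (cs (rf (nat_lit 0)) (cs (nd (nat_lit 209) (nat_lit 0) (cs (lf (nat_lit 41) (nat_lit 208)) (rf (nat_lit 1)))) (cs (nd (nat_lit 273) (nat_lit 0) (cs (rf (nat_lit 2)) (cs (rf (nat_lit 3)) (cs (nd (nat_lit 276) (nat_lit 0) (cs (rf (nat_lit 4)) (cs (rf (nat_lit 5)) (cs (rf (nat_lit 6)) (cs (nd (nat_lit 252) (nat_lit 0) (cs (nd (nat_lit 295) (nat_lit 0) (cs (lf (nat_lit 11) (nat_lit 272)) (nd (nat_lit 296) (nat_lit 0) (cs (lf (nat_lit 30) (nat_lit 230)) (rf (nat_lit 7)))))) (cs (nd (nat_lit 296) (nat_lit 0) (cs (lf (nat_lit 30) (nat_lit 230)) (nd (nat_lit 254) (nat_lit 0) (cs (lf (nat_lit 17) (nat_lit 251)) (nd (nat_lit 251) (nat_lit 0) (cs (lf (nat_lit 0)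 (nat_lit 250)) (rf (nat_lit 8)))))))) (nd (nat_lit 294) (nat_lit 0) (cs (lf (nat_lit 10) (nat_lit 272)) (nd (nat_lit 254) (nat_lit 0) (cs (lf (nat_lit 6) (nat_lit 251)) (nd (nat_lit 298) (nat_lit 0) (cs (lf (nat_lit 42) (nat_lit 231)) (nd (nat_lit 251) (nat_lit 0) (cs (lf (nat_lit 23) (nat_lit 250)) (nd (nat_lit 229) (nat_lit 0) (cs (lf (nat_lit 23) (nat_lit 228)) (nd (nat_lit 232) (nat_lit 0) (cs (lf (nat_lit 17) (nat_lit 229)) (rf (nat_lit 9))))))))))))))))) (nd (nat_lit 250) (nat_lit 0) (cs (lf (nat_lit 22) (nat_lit 250)) (nd (nat_lit 295) (nat_lit 0) (cs (lf (nat_lit 11) (nat_lit 272)) (nd (nat_lit 277) (nat_lit 0) (cs (lf (nat_lit 10) (nat_lit 273)) (nd (nat_lit 278) (nat_lit 0) (cs (lf (nat_lit 23) (nat_lit 252)) (nd (nat_lit 300) (nat_lit 0) (cs (lf (nat_lit 5) (nat_lit 275)) (nd (nat_lit 279) (nat_lit 0) (cs (rf (nat_lit 10)) (lf (nat_lit 22) (nat_lit 253))))))))))))))))))) (rf (nat_lit 11)))))) (nd (nat_lit 276) (nat_lit 0) (cs (rf (nat_lit 12)) (cs (rf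 (nat_lit 13)) (rf (nat_lit 14))))))))) q97951 (by decide +kernel)
def q98013 : Q := Q.p (nat_lit 0x200000e000000000000000000000000000000000000000000000000000000000) (nat_lit 0x640001b00001f000018001ff0007f8001fc0000800002000000000000000000000000000000) (nat_lit 15)
theorem c98013 : QOK q98013 := cut [q97987, q97995, q22544, q96763, q98009, q98012] ⟨c97987, c97995, c22544, c96763, c98009, c98012, trivial⟩ (nd (nat_lit 208) (nat_lit 0) (cs (rf (nat_lit 0)) (cs (rf (nat_lit 1)) (cs (nd (nat_lit 186) (nat_lit 0) (cs (lf (nat_lit 24) (nat_lit 164)) (nd (nat_lit 228) (nat_lit 0) (cs (rf (nat_lit 2)) (cs (rf (nat_lit 3)) (rf (nat_lit 4))))))) (rf (nat_lit 5)))))) q98013 (by decide +kernel)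
def q98051 : Q := Q.p (nat_lit 0x200000c000000000000000000000000000000000000000000000000000000000) (nat_lit 0x280002a00039f000738001ff000140000500000000000000000000000000000000000000000) (nat_lit 8)
theorem c98051 : QOK q98051 := cut [q97987, q98012, q98038, q98039, q98041, q98040, q98049] ⟨c97987, c98012, c98038, c98039, c98041, c98040, c98049, trivial⟩ (nd (nat_lit 208) (nat_lit 0) (cs (rf (nat_lit 0)) (cs (rf (nat_lit 1)) (cs (nd (nat_lit 232) (nat_lit 0) (cs (rf (nat_lit 2)) (cs (rf (nat_lit 3)) (rf (nat_lit 4))))) (nd (nat_lit 232) (nat_lit 0) (cs (rf (nat_lit 3)) (cs (rf (nat_lit 5)) (rf (nat_lit 6))))))))) q98051 (by decide +kernel)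
def q98061 : Q := Q.p (nat_lit 0x200000c000000000000000000000000000000000000000000000000000000000) (nat_lit 0x200000a00075f000f38001ff000140000500000000000000000000000000000000000000000) (nat_lit 11)
theorem c98061 : QOK q98061 := cut [q96764, q96768, q96769, q80199, q97021, q97101, q90441] ⟨c96764, c96768, c96769, c80199, c97021, c97101, c90441, trivial⟩ (nd (nat_lit 229) (nat_lit 0) (cs (rf (nat_lit 0)) (cs (rf (nat_lit 1)) (cs (rf (nat_lit 2)) (nd (nat_lit 232) (nat_lit 0) (cs (rf (nat_lit 3)) (cs (rf (nat_lit 4)) (cs (rf (nat_lit 5)) (nd (nat_lit 250) (nat_lit 0) (cs (lf (nat_lit 10) (nat_lit 228)) (rf (nat_lit 6)))))))))))) q98061 (by decide +kernel)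
def q98071 : Q := Q.p (nat_lit 0x2000008000030000000000000000000000000000000000000000000000000000) (nat_lit 0x17c000cf80037e000500001400000000000000000000000000000000000) (nat_lit 9)
theorem c98071 : QOK q98071 := cut [q119, q2938, q96258, q2683, q96246] ⟨c119, c2938, c96258, c2683, c96246, trivial⟩ (nd (nat_lit 207) (nat_lit 0) (cs (rf (nat_lit 0)) (cs (rf (nat_lit 1)) (cs (rf (nat_lit 2)) (nd (nat_lit 210) (nat_lit 0) (cs (rf (nat_lit 3)) (rf (nat_lit 4)))))))) q98071 (by decide +kernel)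
def q98075 : Q := Q.p (nat_lit 0x2000008000020000040000000000000000000000000000000000000000000000) (nat_lit 0x400005000014000040000080000700001800004000000000000000000000000000000) (nat_lit 7)
theorem c98075 : QOK q98075 := cut [q98074] ⟨c98074, trivial⟩ (nd (nat_lit 187) (nat_lit 0) (cs (lf (nat_lit 47) (nat_lit 164)) (rf (nat_lit 0)))) q98075 (by decide +kernel)
def q98107 : Q := Q.p (nat_lit 0x200000e000010000000000000000000000000000000000000000000000000000) (nat_lit 0x10000040000360000de0000000002f0007fc0007c0000000000000000000000000000000000000000) (nat_lit 13)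
theorem c98107 : QOK q98107 := cut [q96783, q98097, q98105] ⟨c96783, c98097, c98105, trivial⟩ (nd (nat_lit 186) (nat_lit 0) (cs (lf (nat_lit 24) (nat_lit 164)) (nd (nat_lit 252) (nat_lit 0) (cs (rf (nat_lit 0)) (cs (nd (nat_lit 251) (nat_lit 0) (cs (lf (nat_lit 41) (nat_lit 185)) (nd (nat_lit 249) (nat_lit 0) (cs (lf (nat_lit 13) (nat_lit 227)) (rf (nat_lit 1)))))) (rf (nat_lit 2))))))) q98107 (by decide +kernel)
def q98133 : Q := Q.p (nat_lit 0x800002000008000000000000000000000000000000000000000000000000000000000) (nat_lit 0x100000700001c00003000014000050000140000300001c0000700001000000000000000000000000000000000000) (nat_lit 8)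
theorem c98133 : QOK q98133 := cut [q98125, q98126, q98132] ⟨c98125, c98126, c98132, trivial⟩ (nd (nat_lit 208) (nat_lit 0) (cs (rf (nat_lit 0)) (cs (rf (nat_lit 1)) (rf (nat_lit 2))))) q98133 (by decide +kernel)
def q98355 : Q := Q.p (nat_lit 0xe00002000008000000000000000000000000000000000000000000000000000000000) (nat_lit 0x400001e0000180005e00011800004000010000000000000000000000000000000000000000000000) (nat_lit 9)
theorem c98355 : QOK q98355 := cut [q98353] ⟨c98353, trivial⟩ (nd (nat_lit 272) (nat_lit 0) (cs (lf (nat_lit 17) (nat_lit 250)) (nd (nat_lit 252) (nat_lit 0) (cs (lf (nat_lit 12) (nat_lit 249)) (rf (nat_lit 0)))))) q98355 (by decide +kernel)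
def q98382 : Q := Q.p (nat_lit 0xe00003000000000000000000000000000000000000000000000000000000000000000) (nat_lit 0x100001dc000700000c000008000020000000000000000000000000000000000000000000000000000) (nat_lit 6)
theorem c98382 : QOK q98382 := cut [q1310, q98380, q2185] ⟨c1310, c98380, c2185, trivial⟩ (nd (nat_lit 276) (nat_lit 0) (cs (rf (nat_lit 0)) (cs (rf (nat_lit 1)) (nd (nat_lit 277) (nat_lit 0) (cs (lf (nat_lit 18) (nat_lit 252)) (rf (nat_lit 2))))))) q98382 (by decide +kernel)
def q98384 : Q := Q.p (nat_lit 0xe00003000000000000000000000000000000000000000000000000000000000000000) (nat_lit 0x1ce0007180000600000000000000000000000000000000000000000000000000000000000000) (nat_lit 7)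
theorem c98384 : QOK q98384 := cut [q44398] ⟨c44398, trivial⟩ (nd (nat_lit 272) (nat_lit 0) (cs (lf (nat_lit 12) (nat_lit 249)) (nd (nat_lit 249) (nat_lit 0) (cs (lf (nat_lit 22) (nat_lit 249)) (rf (nat_lit 0)))))) q98384 (by decide +kernel)
def q98464 : Q := Q.p (nat_lit 0xc00003000000000000000000000000000000000000000000000000000000000000000) (nat_lit 0x380000e00001e000320000000000e0000380000e0000000000000000000000000000000000000000000000) (nat_lit 8)
theorem c98464 : QOK q98464 := cut [q11506, q98392, q80993, q98394, q98462] ⟨c11506, c98392, c80993, c98394, c98462, trivial⟩ (nd (nat_lit 296) (nat_lit 0) (cs (rf (nat_lit 0)) (cs (rf (nat_lit 1)) (nd (nat_lit 230) (nat_lit 0) (cs (rf (nat_lit 2)) (cs (rf (nat_lit 3)) (rf (nat_lit 4)))))))) q98464 (by decide +kernel)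
def q98467 : Q := Q.p (nat_lit 0xc00003000000000000000000000000000000000000000000000000000000000000000) (nat_lit 0x380000e00001e000000000400000f8000380000e0000000000000000000000000000000000000000000000) (nat_lit 8)
theorem c98467 : QOK q98467 := cut [q11506, q98392, q98466] ⟨c11506, c98392, c98466, trivial⟩ (nd (nat_lit 296) (nat_lit 0) (cs (rf (nat_lit 0)) (cs (rf (nat_lit 1)) (rf (nat_lit 2))))) q98467 (by decide +kernel)
def q98468 : Q := Q.p (nat_lit 0xc00003000004000000000000000000000000000000000000000000000000000000000) (nat_lit 0x1000000000000000030000f80000e0000000000000000000000000000000000000000000000) (nat_lit 6)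
theorem c98468 : QOK q98468 := cut [q22313] ⟨c22313, trivial⟩ (nd (nat_lit 208) (nat_lit 0) (cs (lf (nat_lit 24) (nat_lit 186)) (rf (nat_lit 0)))) q98468 (by decide +kernel)
def q98471 : Q := Q.p (nat_lit 0xc00003000004000000000000000000000000000000000000000000000000000000000) (nat_lit 0x10000000000c00000b800018000060000000000000000000000000000000000000000000000) (nat_lit 6)
theorem c98471 : QOK q98471 := cut [q98470] ⟨c98470, trivial⟩ (nd (nat_lit 208) (nat_lit 0) (cs (lf (nat_lit 24) (nat_lit 186)) (rf (nat_lit 0)))) q98471 (by decide +kernel)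
def q98478 : Q := Q.p (nat_lit 0xc00003000004000000000000000000000000000000000000000000000000000000000) (nat_lit 0x1d0000700000000000a0001f00001c0000000000000000000000000000000000000000000000) (nat_lit 9)
theorem c98478 : QOK q98478 := cut [q90531] ⟨c90531, trivial⟩ (nd (nat_lit 208) (nat_lit 0) (cs (lf (nat_lit 24) (nat_lit 186)) (rf (nat_lit 0)))) q98478 (by decide +kernel)
def q98507 : Q := Q.p (nat_lit 0x800007800000000000000000000000000000000000000000000000000000000000000) (nat_lit 0xc0000300000c000033000000000380000e0000380000000000000000000000000000000000000000000000) (nat_lit 10)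
theorem c98507 : QOK q98507 := cut [q90596] ⟨c90596, trivial⟩ (nd (nat_lit 276) (nat_lit 0) (cs (lf (nat_lit 5) (nat_lit 251)) (rf (nat_lit 0)))) q98507 (by decide +kernel)
def q98541 : Q := Q.p (nat_lit 0x800003000000000000000000000000000000000000000000000000000000000000000) (nat_lit 0x48000120000dc00077c000ce00077c0005c0001700001c0000500000000000000000000000000000000000) (nat_lit 14)
theorem c98541 : QOK q98541 := cut [q1999, q2066, q2091, q98377, q98510, q98529, q98531, q79020, q98540] ⟨c1999, c2066, c2091, c98377, c98510, c98529, c98531, c79020, c98540, trivial⟩ (nd (nat_lit 251) (nat_lit 0) (cs (rf (nat_lit 0)) (cs (rf (nat_lit 1)) (cs (rf (nat_lit 2)) (cs (nd (nat_lit 254) (nat_lit 0) (cs (rf (nat_lit 3)) (cs (rf (nat_lit 4)) (cs (rf (nat_lit 5)) (cs (nd (nat_lit 276) (nat_lit 0) (cs (lf (nat_lit 5) (nat_lit 251)) (nd (nat_lit 232) (nat_lit 0) (cs (lf (nat_lit 17) (nat_lit 229)) (nd (nat_lit 188) (nat_lit 0) (cs (lf (nat_lit 37) (nat_lit 187)) (rf (nat_lit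 6)))))))) (nd (nat_lit 228) (nat_lit 0) (cs (lf (nat_lit 22) (nat_lit 228)) (nd (nat_lit 276) (nat_lit 0) (cs (lf (nat_lit 5) (nat_lit 251)) (rf (nat_lit 7))))))))))) (rf (nat_lit 8))))))) q98541 (by decide +kernel)
def q98575 : Q := Q.p (nat_lit 0xc00003000000000000000000000000000000000000000000000000000000000000000) (nat_lit 0x7c0001f00001e000038000ce0003780007e0001f8000000000000000000000000000000000000000000000) (nat_lit 14)
theorem c98575 : QOK q98575 := cut [q82286, q98543, q98547, q98558, q98562, q14769, q14907, q98565, q98570] ⟨c82286, c98543, c98547, c98558, c98562, c14769, c14907, c98565, c98570, trivial⟩ (nd (nat_lit 251) (nat_lit 0) (cs (rf (nat_lit 0)) (cs (rf (nat_lit 1)) (cs (rf (nat_lit 2)) (cs (rf (nat_lit 3)) (cs (rf (nat_lit 4)) (nd (nat_lit 273) (nat_lit 0) (cs (rf (nat_lit 5)) (cs (rf (nat_lit 6)) (cs (rf (nat_lit 7)) (nd (nat_lit 272) (nat_lit 0) (cs (lf (nat_lit 12) (nat_lit 249)) (nd (nat_lit 250) (nat_lit 0) (cs (lf (nat_lit 0) (nat_lit 249))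 (nd (nat_lit 293) (nat_lit 0) (cs (lf (nat_lit 10) (nat_lit 271)) (rf (nat_lit 8)))))))))))))))))) q98575 (by decide +kernel)
def q98643 : Q := Q.p (nat_lit 0xc00003400000000000000000000000000000000000000000000000000000000000000) (nat_lit 0x40000380003e0001f80001e000038000420000d8000360000c8000000000000000000000000000000000000000000000) (nat_lit 11)
theorem c98643 : QOK q98643 := cut [q11506, q25707, q88809, q86336, q86465, q14128, q86367, q14122, q23100, q98636, q98641] ⟨c11506, c25707, c88809, c86336, c86465, c14128, c86367, c14122, c23100, c98636, c98641, trivial⟩ (nd (nat_lit 296) (nat_lit 0) (cs (rf (nat_lit 0)) (cs (rf (nat_lit 1)) (nd (nat_lit 272) (nat_lit 0) (cs (rf (nat_lit 2)) (cs (nd (nat_lit 294) (nat_lit 0) (cs (rf (nat_lit 3)) (cs (nd (nat_lit 316) (nat_lit 0) (cs (nd (nat_lit 317) (nat_lit 0) (cs (lf (nat_lit 29) (nat_lit 250)) (rf (nat_lit 4)))) (nd (nat_lit 209) (nat_lit 0) (cs (lf (nat_lit 37) (nat_lit 208)) (rf (nat_lit 5)))))) (cs (nd (nat_lit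 316) (nat_lit 0) (cs (rf (nat_lit 5)) (cs (nd (nat_lit 209) (nat_lit 0) (cs (lf (nat_lit 37) (nat_lit 208)) (rf (nat_lit 6)))) (cs (nd (nat_lit 317) (nat_lit 0) (cs (lf (nat_lit 29) (nat_lit 250)) (nd (nat_lit 209) (nat_lit 0) (cs (lf (nat_lit 37) (nat_lit 208)) (nd (nat_lit 315) (nat_lit 0) (cs (lf (nat_lit 41) (nat_lit 249)) (nd (nat_lit 227) (nat_lit 0) (cs (lf (nat_lit 46) (nat_lit 227)) (rf (nat_lit 7)))))))))) (nd (nat_lit 209) (nat_lit 0) (cs (lf (nat_lit 37) (nat_lit 208)) (rf (nat_lit 8)))))))) (nd (nat_lit 209) (nat_lit 0) (cs (lf (nat_lit 37) (nat_lit 208)) (nd (nat_lit 295) (nat_lit 0) (cs (lf (nat_lit 12) (nat_lit 271)) (nd (nat_lit 230) (nat_lit 0) (cs (lf (nat_lit 41) (nat_lit 229)) (rf (nat_lit 9)))))))))))) (rf (nat_lit 10)))))))) q98643 (by decide +kernel)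
def q98697 : Q := Q.p (nat_lit 0xc00003000000000000000000000000000000000000000000000000000000000000000) (nat_lit 0x8000020001dc0007380000e00004000010000000000000000000000000000000000000000000000000000) (nat_lit 6)
theorem c98697 : QOK q98697 := cut [q1257, q98695, q98696] ⟨c1257, c98695, c98696, trivial⟩ (nd (nat_lit 276) (nat_lit 0) (cs (rf (nat_lit 0)) (cs (rf (nat_lit 1)) (rf (nat_lit 2))))) q98697 (by decide +kernel)
def q98732 : Q := Q.p (nat_lit 0xc0000300000c000000000000000000000000000000000000000000000000000000000) (nat_lit 0x400003000000c000000000700001c0000000000000000000000000000000000000000000000) (nat_lit 6)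
theorem c98732 : QOK q98732 := cut [q98731] ⟨c98731, trivial⟩ (nd (nat_lit 186) (nat_lit 0) (cs (lf (nat_lit 25) (nat_lit 186)) (rf (nat_lit 0)))) q98732 (by decide +kernel)
def q98743 : Q := Q.p (nat_lit 0x1800007800000000000000000000000000000000000000000000000000000000000000) (nat_lit 0x100000cc0000700008000008000020000000000000000000000000000000000000000000000000000) (nat_lit 6)
theorem c98743 : QOK q98743 := cut [q98742] ⟨c98742, trivial⟩ (nd (nat_lit 273) (nat_lit 0) (cs (lf (nat_lit 11) (nat_lit 250)) (rf (nat_lit 0)))) q98743 (by decide +kernel)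
def q98766 : Q := Q.p (nat_lit 0x200003800000000000000000000000000000000000000000000000000000000000000) (nat_lit 0x8000310000c000007000010000040000000000000000000000000000000000000000000000) (nat_lit 6)
theorem c98766 : QOK q98766 := cut [q98765] ⟨c98765, trivial⟩ (nd (nat_lit 254) (nat_lit 0) (cs (lf (nat_lit 11) (nat_lit 250)) (rf (nat_lit 0)))) q98766 (by decide +kernel)
def q98768 : Q := Q.p (nat_lit 0xa00003800000000000000000000000000000000000000000000000000000000000000) (nat_lit 0x100000cc000350000c000008000020000000000000000000000000000000000000000000000000000) (nat_lit 7)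
theorem c98768 : QOK q98768 := cut [q98742] ⟨c98742, trivial⟩ (nd (nat_lit 254) (nat_lit 0) (cs (lf (nat_lit 11) (nat_lit 250)) (nd (nat_lit 276) (nat_lit 0) (cs (lf (nat_lit 5) (nat_lit 251)) (rf (nat_lit 0)))))) q98768 (by decide +kernel)
def q98809 : Q := Q.p (nat_lit 0x800002000008000000000000000000000000000000000000000000000000000000000) (nat_lit 0x500001400004000037c000fe0007fc000500000000000000000000000000000000000000000) (nat_lit 12)
theorem c98809 : QOK q98809 := cut [q81901, q98317, q98359, q2938, q96150, q21994, q98806] ⟨c81901, c98317, c98359, c2938, c96150, c21994, c98806, trivial⟩ (nd (nat_lit 209) (nat_lit 0) (cs (rf (nat_lit 0)) (cs (rf (nat_lit 1)) (cs (rf (nat_lit 2)) (nd (nat_lit 208) (nat_lit 0) (cs (lf (nat_lit 47) (nat_lit 186)) (nd (nat_lit 207) (nat_lit 0) (cs (rf (nat_lit 3)) (cs (nd (nat_lit 210) (nat_lit 0) (cs (lf (nat_lit 35) (nat_lit 187)) (nd (nat_lit 274) (nat_lit 0) (cs (lf (nat_lit 41) (nat_lit 208)) (nd (nat_lit 184) (nat_lit 0)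 (cs (lf (nat_lit 22) (nat_lit 184)) (nd (nat_lit 232) (nat_lit 0) (cs (lf (nat_lit 5) (nat_lit 207)) (nd (nat_lit 276) (nat_lit 0) (cs (lf (nat_lit 29) (nat_lit 209)) (rf (nat_lit 4)))))))))))) (cs (nd (nat_lit 274) (nat_lit 0) (cs (lf (nat_lit 41) (nat_lit 208)) (rf (nat_lit 5)))) (rf (nat_lit 6)))))))))))) q98809 (by decide +kernel)
def q98846 : Q := Q.p (nat_lit 0x1e00006000000000000000000000000000000000000000000000000000000000000000) (nat_lit 0x60000180000e000000000000000300000c0000300000000000000000000000000000000000000000000000) (nat_lit 7)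
theorem c98846 : QOK q98846 := cut [q98845] ⟨c98845, trivial⟩ (nd (nat_lit 298) (nat_lit 0) (cs (lf (nat_lit 5) (nat_lit 273)) (rf (nat_lit 0)))) q98846 (by decide +kernel)
def q98857 : Q := Q.p (nat_lit 0xe00002000000000000000000000000000000000000000000000000000000000000000) (nat_lit 0x80000e60001180001f00004000010000000000000000000000000000000000000000000000000000) (nat_lit 6)
theorem c98857 : QOK q98857 := cut [q98852, q98854, q98856] ⟨c98852, c98854, c98856, trivial⟩ (nd (nat_lit 272) (nat_lit 0) (cs (rf (nat_lit 0)) (cs (nd (nat_lit 293) (nat_lit 0) (cs (lf (nat_lit 10) (nat_lit 271)) (rf (nat_lit 1)))) (rf (nat_lit 2))))) q98857 (by decide +kernel)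
def q98873 : Q := Q.p (nat_lit 0xc00003000004000000000000000000000000000000000000000000000000000000000) (nat_lit 0x380000e00003e000000000c800003800008000000000000000000000000000000000000000000000000000) (nat_lit 8)
theorem c98873 : QOK q98873 := cut [q83734, q98862, q96041] ⟨c83734, c98862, c96041, trivial⟩ (nd (nat_lit 296) (nat_lit 0) (cs (rf (nat_lit 0)) (cs (rf (nat_lit 1)) (nd (nat_lit 297) (nat_lit 0) (cs (lf (nat_lit 42) (nat_lit 230)) (rf (nat_lit 2))))))) q98873 (by decide +kernel)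
def q98944 : Q := Q.p (nat_lit 0xc00003800000000000000000000000000000000000000000000000000000000000000) (nat_lit 0x1780007f8001fe000700000c000073000000000000000000000000000000000000000000000000000000000) (nat_lit 12)
theorem c98944 : QOK q98944 := cut [q15961, q98893, q86717, q98740, q82282, q98897, q98920, q98923, q81218, q22047] ⟨c15961, c98893, c86717, c98740, c82282, c98897, c98920, c98923, c81218, c22047, trivial⟩ (nd (nat_lit 297) (nat_lit 0) (cs (nd (nat_lit 296) (nat_lit 0) (cs (rf (nat_lit 0)) (rf (nat_lit 1)))) (cs (nd (nat_lit 254) (nat_lit 0) (cs (rf (nat_lit 2)) (cs (rf (nat_lit 3)) (nd (nat_lit 320) (nat_lit 0) (cs (rf (nat_lit 4)) (cs (nd (nat_lit 228) (nat_lit 0) (cs (lf (nat_lit 22) (nat_lit 228)) (rf (nat_lit 5)))) (nd (nat_lit 228) (nat_lit 0) (cs (lf (nat_lit 22) (nat_lit 228)) (nd (nat_lit 277) (nat_lit 0) (cs (lf (nat_lit 4) (nat_lit 251)) (nd (nat_lit 255) (nat_lit 0) (cs (lf (nat_lit 5) (nat_lit 252)) (nd (nat_lit 233) (nat_lit 0) (cs (lf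 (nat_lit 17) (nat_lit 230)) (nd (nat_lit 299) (nat_lit 0) (cs (lf (nat_lit 40) (nat_lit 232)) (nd (nat_lit 300) (nat_lit 0) (cs (lf (nat_lit 29) (nat_lit 233)) (nd (nat_lit 319) (nat_lit 0) (cs (lf (nat_lit 42) (nat_lit 252)) (nd (nat_lit 318) (nat_lit 0) (cs (lf (nat_lit 41) (nat_lit 252)) (lf (nat_lit 15) (nat_lit 296)))))))))))))))))))))))) (cs (nd (nat_lit 254) (nat_lit 0) (cs (rf (nat_lit 2)) (cs (rf (nat_lit 3)) (nd (nat_lit 320) (nat_lit 0) (cs (rf (nat_lit 4)) (cs (rf (nat_lit 5)) (nd (nat_lit 319) (nat_lit 0) (cs (lf (nat_lit 42) (nat_lit 252)) (nd (nat_lit 228) (nat_lit 0) (cs (lf (nat_lit 22) (nat_lit 228)) (nd (nat_lit 277) (nat_lit 0) (cs (lf (nat_lit 19) (nat_lit 251)) (nd (nat_lit 255) (nat_lit 0) (cs (lf (nat_lit 5) (nat_lit 252)) (nd (nat_lit 233) (nat_lit 0) (cs (lf (nat_lit 17) (nat_lit 230)) (nd (nat_lit 299) (nat_lit 0) (cs (lf (nat_lit 40) (nat_lit 232)) (nd (nat_lit 322) (nat_lit 0) (cs (lf (nat_lit 28) (nat_lit 233)) (nd (nat_lit 321) (nat_lit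 0) (cs (lf (nat_lit 23) (nat_lit 296)) (lf (nat_lit 29) (nat_lit 255)))))))))))))))))))))))) (cs (nd (nat_lit 296) (nat_lit 0) (cs (rf (nat_lit 1)) (cs (rf (nat_lit 6)) (cs (nd (nat_lit 318) (nat_lit 0) (cs (lf (nat_lit 30) (nat_lit 252)) (nd (nat_lit 319) (nat_lit 0) (cs (lf (nat_lit 29) (nat_lit 252)) (nd (nat_lit 232) (nat_lit 0) (cs (lf (nat_lit 34) (nat_lit 231)) (nd (nat_lit 276) (nat_lit 0) (cs (lf (nat_lit 18) (nat_lit 251)) (rf (nat_lit 7)))))))))) (nd (nat_lit 318) (nat_lit 0) (cs (lf (nat_lit 30) (nat_lit 252)) (nd (nat_lit 319) (nat_lit 0) (cs (lf (nat_lit 42) (nat_lit 252)) (nd (nat_lit 232) (nat_lit 0) (cs (lf (nat_lit 34) (nat_lit 231)) (nd (nat_lit 276) (nat_lit 0) (cs (lf (nat_lit 18) (nat_lit 251)) (nd (nat_lit 320) (nat_lit 0) (cs (lf (nat_lit 29) (nat_lit 253)) (rf (nat_lit 8)))))))))))))))) (cs (nd (nat_lit 319) (nat_lit 0) (cs (lf (nat_lit 42) (nat_lit 252)) (nd (nat_lit 232) (nat_lit 0) (cs (lf (nat_lit 34) (nat_lit 231)) (nd (nat_lit 320)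 (nat_lit 0) (cs (lf (nat_lit 29) (nat_lit 253)) (nd (nat_lit 318) (nat_lit 0) (cs (lf (nat_lit 41) (nat_lit 252)) (nd (nat_lit 296) (nat_lit 0) (cs (lf (nat_lit 47) (nat_lit 229)) (rf (nat_lit 9)))))))))))) (nd (nat_lit 319) (nat_lit 0) (cs (lf (nat_lit 42) (nat_lit 252)) (nd (nat_lit 232) (nat_lit 0) (cs (lf (nat_lit 34) (nat_lit 231)) (nd (nat_lit 276) (nat_lit 0) (cs (lf (nat_lit 18) (nat_lit 251)) (nd (nat_lit 318) (nat_lit 0) (cs (lf (nat_lit 41) (nat_lit 252)) (nd (nat_lit 296) (nat_lit 0) (cs (lf (nat_lit 47) (nat_lit 229)) (rf (nat_lit 7)))))))))))))))))) q98944 (by decide +kernel)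
def q98946 : Q := Q.p (nat_lit 0xc00003000004000000000000000000000000000000000000000000000000000000000) (nat_lit 0x380000e00003c0003000000000002000008000000000000000000000000000000000000000000000000000) (nat_lit 6)
theorem c98946 : QOK q98946 := cut [q83734, q98860, q98862] ⟨c83734, c98860, c98862, trivial⟩ (nd (nat_lit 296) (nat_lit 0) (cs (rf (nat_lit 0)) (cs (rf (nat_lit 1)) (rf (nat_lit 2))))) q98946 (by decide +kernel)
def q98954 : Q := Q.p (nat_lit 0x100000c00003000000000000000000000000000000000000000000000000000000000000000) (nat_lit 0x780007f8001ec0000000004000010000000000000000000000000000000000000000000000000000000000) (nat_lit 9)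
theorem c98954 : QOK q98954 := cut [q25883, q89773, q98920, q94340] ⟨c25883, c89773, c98920, c94340, trivial⟩ (nd (nat_lit 297) (nat_lit 0) (cs (rf (nat_lit 0)) (cs (rf (nat_lit 1)) (cs (rf (nat_lit 2)) (nd (nat_lit 318) (nat_lit 0) (cs (lf (nat_lit 30) (nat_lit 252)) (nd (nat_lit 317) (nat_lit 0) (cs (lf (nat_lit 41) (nat_lit 251)) (nd (nat_lit 315) (nat_lit 0) (cs (lf (nat_lit 13) (nat_lit 293)) (nd (nat_lit 319) (nat_lit 0) (cs (lf (nat_lit 42) (nat_lit 252)) (rf (nat_lit 3)))))))))))))) q98954 (by decide +kernel)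
def q99005 : Q := Q.p (nat_lit 0x1e00002000000000000000000000000000000000000000000000000000000000000000) (nat_lit 0x20000fc0003f0000dc000000000dc0000700001c000050000000000000000000000000000000000000000000000) (nat_lit 12)
theorem c99005 : QOK q99005 := cut [q11700, q99001, q99003] ⟨c11700, c99001, c99003, trivial⟩ (nd (nat_lit 295) (nat_lit 0) (cs (lf (nat_lit 11) (nat_lit 272)) (nd (nat_lit 317) (nat_lit 0) (cs (nd (nat_lit 298) (nat_lit 0) (cs (lf (nat_lit 5) (nat_lit 273)) (nd (nat_lit 320) (nat_lit 0) (cs (lf (nat_lit 42) (nat_lit 253)) (nd (nat_lit 254) (nat_lit 0) (cs (lf (nat_lit 17) (nat_lit 251)) (nd (nat_lit 319) (nat_lit 0) (cs (lf (nat_lit 41) (nat_lit 253)) (nd (nat_lit 321) (nat_lit 0) (cs (lf (nat_lit 29) (nat_lit 254)) (nd (nat_lit 296) (nat_lit 0) (cs (rf (nat_lit 0)) (lf (nat_lit 21) (nat_lit 295)))))))))))))) (cs (rf (nat_lit 1)) (rf (nat_lit 2))))))) q99005 (by decide +kernel)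
def q99022 : Q := Q.p (nat_lit 0xe00002000000000000000000000000000000000000000000000000000000000000000) (nat_lit 0x1cf0007180001f00000000000000000000000000000000000000000000000000000000000000) (nat_lit 8)
theorem c99022 : QOK q99022 := cut [q12673, q98852, q99019, q15635] ⟨c12673, c98852, c99019, c15635, trivial⟩ (nd (nat_lit 272) (nat_lit 0) (cs (rf (nat_lit 0)) (cs (rf (nat_lit 1)) (cs (rf (nat_lit 2)) (nd (nat_lit 294) (nat_lit 0) (cs (lf (nat_lit 11) (nat_lit 271)) (nd (nat_lit 249) (nat_lit 0) (cs (lf (nat_lit 22) (nat_lit 249)) (rf (nat_lit 3)))))))))) q99022 (by decide +kernel)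
def q99038 : Q := Q.p (nat_lit 0x300000c00003000004000000000000000000000000000000000000000000000000000000000) (nat_lit 0x380004e0000380000e0000380000e000000000000000000000000000000000000000000000000000) (nat_lit 10)
theorem c99038 : QOK q99038 := cut [q84077] ⟨c84077, trivial⟩ (nd (nat_lit 207) (nat_lit 0) (cs (lf (nat_lit 46) (nat_lit 207)) (nd (nat_lit 295) (nat_lit 0) (cs (lf (nat_lit 41) (nat_lit 229)) (nd (nat_lit 294) (nat_lit 0) (cs (lf (nat_lit 12) (nat_lit 271)) (rf (nat_lit 0)))))))) q99038 (by decide +kernel)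
def q99094 : Q := Q.p (nat_lit 0xc00007000000000000000000000000000000000000000000000000000000000000000) (nat_lit 0x80000200001e00007000000c00030000040000100000000000000000000000000000000000000000000000) (nat_lit 6)
theorem c99094 : QOK q99094 := cut [q1257, q99092, q99093] ⟨c1257, c99092, c99093, trivial⟩ (nd (nat_lit 276) (nat_lit 0) (cs (rf (nat_lit 0)) (cs (rf (nat_lit 1)) (rf (nat_lit 2))))) q99094 (by decide +kernel)
def q99101 : Q := Q.p (nat_lit 0xe00002000000000000000000000000000000000000000000000000000000000000000) (nat_lit 0x60000180007fc000f00000d0000300000c0000300000000000000000000000000000000000000000000000) (nat_lit 10)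
theorem c99101 : QOK q99101 := cut [q98831, q98839, q98844, q99008] ⟨c98831, c98839, c98844, c99008, trivial⟩ (nd (nat_lit 276) (nat_lit 0) (cs (rf (nat_lit 0)) (cs (rf (nat_lit 1)) (cs (rf (nat_lit 2)) (rf (nat_lit 3)))))) q99101 (by decide +kernel)
def q99103 : Q := Q.p (nat_lit 0xe00002000000000000000000000000000000000000000000000000000000000000000) (nat_lit 0x80000ee0001180001700004000010000000000000000000000000000000000000000000000000000) (nat_lit 6)
theorem c99103 : QOK q99103 := cut [q98852, q98856, q12944] ⟨c98852, c98856, c12944, trivial⟩ (nd (nat_lit 272) (nat_lit 0) (cs (rf (nat_lit 0)) (cs (rf (nat_lit 1)) (nd (nat_lit 249) (nat_lit 0) (cs (lf (nat_lit 22) (nat_lit 249)) (rf (nat_lit 2))))))) q99103 (by decide +kernel)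
def q99108 : Q := Q.p (nat_lit 0x1c00003000000000000000000000000000000000000000000000000000000000000000) (nat_lit 0x180000600001e0000380000e0000300000c000030000000000000000000000000000000000000000000000) (nat_lit 9)
theorem c99108 : QOK q99108 := cut [q2180, q12665, q5304, q22344] ⟨c2180, c12665, c5304, c22344, trivial⟩ (nd (nat_lit 273) (nat_lit 0) (cs (rf (nat_lit 0)) (cs (rf (nat_lit 1)) (nd (nat_lit 251) (nat_lit 0) (cs (rf (nat_lit 2)) (rf (nat_lit 3))))))) q99108 (by decide +kernel)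
def q99139 : Q := Q.p (nat_lit 0xd00003000004000000000000000000000000000000000000000000000000000000000) (nat_lit 0x88000360001080000e0000380000e0000380000a0000000000000000000000000000000000000000) (nat_lit 9)
theorem c99139 : QOK q99139 := cut [q14973, q14974, q41224, q99127, q99134, q5390] ⟨c14973, c14974, c41224, c99127, c99134, c5390, trivial⟩ (nd (nat_lit 250) (nat_lit 0) (cs (rf (nat_lit 0)) (cs (rf (nat_lit 1)) (nd (nat_lit 228) (nat_lit 0) (cs (nd (nat_lit 227) (nat_lit 0) (cs (lf (nat_lit 2) (nat_lit 227)) (rf (nat_lit 2)))) (cs (nd (nat_lit 206) (nat_lit 0) (cs (nd (nat_lit 297) (nat_lit 0) (cs (lf (nat_lit 42) (nat_lit 230)) (rf (nat_lit 3)))) (nd (nat_lit 207) (nat_lit 0) (cs (lf (nat_lit 35) (nat_lit 184)) (nd (nat_lit 229) (nat_lit 0) (cs (lf (nat_lit 42) (nat_lit 207)) (lf (nat_lit 30) (nat_lit 206)))))))) (cs (rf (nat_lit 4)) (nd (nat_lit 297) (nat_lit 0) (cs (lf (nat_lit 42) (nat_lit 230)) (nd (nat_lit 229) (nat_lit 0) (cs (lf (nat_lit 0) (nat_lit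 227)) (nd (nat_lit 207) (nat_lit 0) (cs (lf (nat_lit 42) (nat_lit 207)) (rf (nat_lit 5))))))))))))))) q99139 (by decide +kernel)
def q99144 : Q := Q.p (nat_lit 0xd00003000000000000000000000000000000000000000000000000000000000000000) (nat_lit 0x160001280000e0000780007e0001f8000000000000000000000000000000000000000000000) (nat_lit 13)
theorem c99144 : QOK q99144 := cut [q98570] ⟨c98570, trivial⟩ (nd (nat_lit 273) (nat_lit 0) (cs (lf (nat_lit 12) (nat_lit 249)) (nd (nat_lit 293) (nat_lit 0) (cs (lf (nat_lit 10) (nat_lit 271)) (nd (nat_lit 250) (nat_lit 0) (cs (lf (nat_lit 23) (nat_lit 249)) (nd (nat_lit 251) (nat_lit 0) (cs (lf (nat_lit 18) (nat_lit 250)) (rf (nat_lit 0)))))))))) q99144 (by decide +kernel)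
def q99179 : Q := Q.p (nat_lit 0xe00002000000000000000000000000000000000000000000000000000000000000000) (nat_lit 0xe0000380001e0000f00000dc000330000c0000300000000000000000000000000000000000000000000000) (nat_lit 11)
theorem c99179 : QOK q99179 := cut [q15634, q98836, q99008, q99178] ⟨c15634, c98836, c99008, c99178, trivial⟩ (nd (nat_lit 276) (nat_lit 0) (cs (rf (nat_lit 0)) (cs (rf (nat_lit 1)) (cs (rf (nat_lit 2)) (rf (nat_lit 3)))))) q99179 (by decide +kernel)
def q99185 : Q := Q.p (nat_lit 0xe00002000000000000000000000000000000000000000000000000000000000000000) (nat_lit 0x80001ee0007180001800004000010000000000000000000000000000000000000000000000000000) (nat_lit 6)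
theorem c99185 : QOK q99185 := cut [q15635, q98858, q23282, q14864] ⟨c15635, c98858, c23282, c14864, trivial⟩ (nd (nat_lit 294) (nat_lit 0) (cs (rf (nat_lit 0)) (cs (nd (nat_lit 272) (nat_lit 0) (cs (lf (nat_lit 11) (nat_lit 271)) (rf (nat_lit 1)))) (cs (nd (nat_lit 272) (nat_lit 0) (cs (lf (nat_lit 11) (nat_lit 271)) (rf (nat_lit 2)))) (nd (nat_lit 272) (nat_lit 0) (cs (lf (nat_lit 11) (nat_lit 271)) (nd (nat_lit 252) (nat_lit 0) (cs (lf (nat_lit 12) (nat_lit 249)) (rf (nat_lit 3)))))))))) q99185 (by decide +kernel)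
def q99193 : Q := Q.p (nat_lit 0xe00002800000000000000000000000000000000000000000000000000000000000000) (nat_lit 0x39c000f00000c400000000000000000000000000000000000000000000000000000000000000) (nat_lit 7)
theorem c99193 : QOK q99193 := cut [q98960] ⟨c98960, trivial⟩ (nd (nat_lit 276) (nat_lit 0) (cs (lf (nat_lit 23) (nat_lit 250)) (rf (nat_lit 0)))) q99193 (by decide +kernel)
def q99209 : Q := Q.p (nat_lit 0xe00002800000000000000000000000000000000000000000000000000000000000000) (nat_lit 0xc0000f00003e000000000d600037c0005c000170000140000000000000000000000000000000000000000) (nat_lit 12)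
theorem c99209 : QOK q99209 := cut [q99196, q99197, q14769, q82198, q99203, q91865, q99208] ⟨c99196, c99197, c14769, c82198, c99203, c91865, c99208, trivial⟩ (nd (nat_lit 229) (nat_lit 0) (cs (rf (nat_lit 0)) (cs (rf (nat_lit 1)) (cs (nd (nat_lit 252) (nat_lit 0) (cs (rf (nat_lit 2)) (cs (rf (nat_lit 3)) (rf (nat_lit 4))))) (cs (nd (nat_lit 252) (nat_lit 0) (cs (rf (nat_lit 2)) (cs (rf (nat_lit 3)) (rf (nat_lit 5))))) (rf (nat_lit 6))))))) q99209 (by decide +kernel)
def q99215 : Q := Q.p (nat_lit 0xe00002000000000000000000000000000000000000000000000000000000000000000) (nat_lit 0xe0007180001f00000000000000000000000000000000000000000000000000000000000000) (nat_lit 6)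
theorem c99215 : QOK q99215 := cut [q98852, q99019, q56049] ⟨c98852, c99019, c56049, trivial⟩ (nd (nat_lit 272) (nat_lit 0) (cs (rf (nat_lit 0)) (cs (rf (nat_lit 1)) (nd (nat_lit 294) (nat_lit 0) (cs (lf (nat_lit 11) (nat_lit 271)) (rf (nat_lit 2))))))) q99215 (by decide +kernel)
def q99237 : Q := Q.p (nat_lit 0x200000800002000008000000000000000000000000000000000000000000000000000000000) (nat_lit 0xde000f78003df000100000400000000000000000000000000000000000000000) (nat_lit 9)
theorem c99237 : QOK q99237 := cut [q98347] ⟨c98347, trivial⟩ (nd (nat_lit 230) (nat_lit 0) (cs (lf (nat_lit 47) (nat_lit 208)) (rf (nat_lit 0)))) q99237 (by decide +kernel)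
def q99247 : Q := Q.p (nat_lit 0x200000800002000000000000000000000000000000000000000000000000000000000000000) (nat_lit 0x140003fe0007f0001de0001000005000014000000000000000000000000000000000000000000000000000000000) (nat_lit 11)
theorem c99247 : QOK q99247 := cut [q98129, q99243, q99244, q99246] ⟨c98129, c99243, c99244, c99246, trivial⟩ (nd (nat_lit 319) (nat_lit 0) (cs (rf (nat_lit 0)) (cs (rf (nat_lit 1)) (cs (rf (nat_lit 2)) (rf (nat_lit 3)))))) q99247 (by decide +kernel)
def q99282 : Q := Q.p (nat_lit 0x200000800002000000000000000000000000000000000000000000000000000000000000000) (nat_lit 0x140003fe0007f0001de0000400005000014000000000000000000000000000000000000000000000000000000000) (nat_lit 11)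
theorem c99282 : QOK q99282 := cut [q2579, q99243, q99278, q99281] ⟨c2579, c99243, c99278, c99281, trivial⟩ (nd (nat_lit 319) (nat_lit 0) (cs (rf (nat_lit 0)) (cs (rf (nat_lit 1)) (cs (rf (nat_lit 2)) (rf (nat_lit 3)))))) q99282 (by decide +kernel)
def q99312 : Q := Q.p (nat_lit 0x800002000008000020000000000000000000000000000000000000000000000000000) (nat_lit 0x5000014000090000f78003dc000f78001000004000000000000000000000000000000000000) (nat_lit 11)
theorem c99312 : QOK q99312 := cut [q80837, q99308, q22156] ⟨c80837, c99308, c22156, trivial⟩ (nd (nat_lit 210) (nat_lit 0) (cs (lf (nat_lit 35) (nat_lit 187)) (nd (nat_lit 211) (nat_lit 0) (cs (rf (nat_lit 0)) (cs (rf (nat_lit 1)) (nd (nat_lit 208) (nat_lit 0) (cs (lf (nat_lit 47) (nat_lit 186)) (nd (nat_lit 274) (nat_lit 0) (cs (lf (nat_lit 41) (nat_lit 208)) (rf (nat_lit 2))))))))))) q99312 (by decide +kernel)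
def q99372 : Q := Q.p (nat_lit 0x800003000000000000000000000000000000000000000000000000000000000000000) (nat_lit 0x140000f0001ff0003fe001f70000c00007f8001d8000040000000000000000000000000000000000000000000000) (nat_lit 15)
theorem c99372 : QOK q99372 := cut [q88933, q99274, q79111, q88337, q90750, q11633, q99331, q99333, q89642, q90752, q79307, q99349, q11637, q99353, q99358, q99362, q99364, q95954, q99367] ⟨c88933, c99274, c79111, c88337, c90750, c11633, c99331, c99333, c89642, c90752, c79307, c99349, c11637, c99353, c99358, c99362, c99364, c95954, c99367, trivial⟩ (nd (nat_lit 297) (nat_lit 0) (cs (rf (nat_lit 0)) (cs (rf (nat_lit 1)) (nd (nat_lit 230) (nat_lit 0) (cs (rf (nat_lit 2)) (cs (rf (nat_lit 3)) (nd (nat_lit 298) (nat_lit 0) (cs (rf (nat_lit 4)) (cs (nd (nat_lit 299) (nat_lit 0) (cs (nd (nat_lit 231) (nat_lit 0) (cs (lf (nat_lit 29) (nat_lit 231)) (nd (nat_lit 296) (nat_lit 0) (cs (lf (nat_lit 41) (nat_lit 230)) (rf (nat_lit 5)))))) (cs (rf (nat_lit 6))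 (cs (nd (nat_lit 231) (nat_lit 0) (cs (lf (nat_lit 29) (nat_lit 231)) (nd (nat_lit 210) (nat_lit 0) (cs (lf (nat_lit 34) (nat_lit 209)) (nd (nat_lit 296) (nat_lit 0) (cs (lf (nat_lit 41) (nat_lit 230)) (rf (nat_lit 7)))))))) (nd (nat_lit 231) (nat_lit 0) (cs (lf (nat_lit 29) (nat_lit 231)) (nd (nat_lit 296) (nat_lit 0) (cs (lf (nat_lit 41) (nat_lit 230)) (nd (nat_lit 321) (nat_lit 0) (cs (lf (nat_lit 5) (nat_lit 296)) (nd (nat_lit 277) (nat_lit 0) (cs (lf (nat_lit 17) (nat_lit 274)) (nd (nat_lit 274) (nat_lit 0) (cs (lf (nat_lit 23) (nat_lit 273)) (nd (nat_lit 210) (nat_lit 0) (cs (lf (nat_lit 34) (nat_lit 209)) (rf (nat_lit 8)))))))))))))))))) (cs (nd (nat_lit 296) (nat_lit 0) (cs (rf (nat_lit 9)) (cs (nd (nat_lit 231) (nat_lit 0) (cs (lf (nat_lit 41) (nat_lit 230)) (nd (nat_lit 232) (nat_lit 0) (cs (lf (nat_lit 35) (nat_lit 209)) (nd (nat_lit 233) (nat_lit 0) (cs (lf (nat_lit 6) (nat_lit 230)) (nd (nat_lit 211) (nat_lit 0) (cs (lf (nat_lit 17) (nat_lit 208)) (nd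 (nat_lit 254) (nat_lit 0) (cs (rf (nat_lit 10)) (lf (nat_lit 31) (nat_lit 210)))))))))))) (rf (nat_lit 11))))) (nd (nat_lit 299) (nat_lit 0) (cs (rf (nat_lit 12)) (cs (rf (nat_lit 6)) (cs (nd (nat_lit 276) (nat_lit 0) (cs (rf (nat_lit 13)) (cs (rf (nat_lit 14)) (cs (rf (nat_lit 15)) (rf (nat_lit 16)))))) (nd (nat_lit 296) (nat_lit 0) (cs (rf (nat_lit 17)) (cs (rf (nat_lit 11)) (rf (nat_lit 18))))))))))))))))))) q99372 (by decide +kernel)
def q99373 : Q := Q.p (nat_lit 0x800003800000000000000000000000000000000000000000000000000000000000000) (nat_lit 0x28000330000c000037000050000140000000000000000000000000000000000000000000000) (nat_lit 6)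
theorem c99373 : QOK q99373 := cut [q98377, q98881] ⟨c98377, c98881, trivial⟩ (nd (nat_lit 254) (nat_lit 0) (cs (rf (nat_lit 0)) (rf (nat_lit 1)))) q99373 (by decide +kernel)
def q99399 : Q := Q.p (nat_lit 0x800003000000000000000000000000000000000000000000000000000000000000000) (nat_lit 0x140000780003f8000fe000078000c80007f800058000040000000000000000000000000000000000000000000000) (nat_lit 14)
theorem c99399 : QOK q99399 := cut [q88933, q99274, q79111, q88337, q90752, q94430, q94114, q99384, q99387, q83724, q83734] ⟨c88933, c99274, c79111, c88337, c90752, c94430, c94114, c99384, c99387, c83724, c83734, trivial⟩ (nd (nat_lit 297) (nat_lit 0) (cs (rf (nat_lit 0)) (cs (rf (nat_lit 1)) (nd (nat_lit 230) (nat_lit 0) (cs (rf (nat_lit 2)) (cs (rf (nat_lit 3)) (nd (nat_lit 296) (nat_lit 0) (cs (rf (nat_lit 4)) (cs (nd (nat_lit 231) (nat_lit 0) (cs (lf (nat_lit 41) (nat_lit 230)) (rf (nat_lit 5)))) (cs (nd (nat_lit 229) (nat_lit 0) (cs (rf (nat_lit 6)) (cs (nd (nat_lit 254)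 (nat_lit 0) (cs (lf (nat_lit 18) (nat_lit 229)) (nd (nat_lit 274) (nat_lit 0) (cs (lf (nat_lit 47) (nat_lit 207)) (rf (nat_lit 7)))))) (nd (nat_lit 227) (nat_lit 0) (cs (lf (nat_lit 1) (nat_lit 227)) (nd (nat_lit 274) (nat_lit 0) (cs (lf (nat_lit 47) (nat_lit 207)) (nd (nat_lit 295) (nat_lit 0) (cs (lf (nat_lit 41) (nat_lit 229)) (nd (nat_lit 294) (nat_lit 0) (cs (lf (nat_lit 12) (nat_lit 271)) (nd (nat_lit 271) (nat_lit 0) (cs (lf (nat_lit 22) (nat_lit 271)) (nd (nat_lit 316) (nat_lit 0) (cs (lf (nat_lit 11) (nat_lit 293)) (nd (nat_lit 273) (nat_lit 0) (cs (lf (nat_lit 37) (nat_lit 228)) (rf (nat_lit 8))))))))))))))))))) (nd (nat_lit 274) (nat_lit 0) (cs (rf (nat_lit 9)) (rf (nat_lit 10)))))))))))))) q99399 (by decide +kernel)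
def q99409 : Q := Q.p (nat_lit 0x200000800003000000000000000000000000000000000000000000000000000000000000000) (nat_lit 0x140000780001f0001d00000700000000008000000000000000000000000000000000000000000000000000000000) (nat_lit 7)
theorem c99409 : QOK q99409 := cut [q2579, q21972, q52519, q99408] ⟨c2579, c21972, c52519, c99408, trivial⟩ (nd (nat_lit 319) (nat_lit 0) (cs (rf (nat_lit 0)) (cs (rf (nat_lit 1)) (cs (nd (nat_lit 320) (nat_lit 0) (cs (lf (nat_lit 29) (nat_lit 253)) (nd (nat_lit 298) (nat_lit 0) (cs (lf (nat_lit 24) (nat_lit 231)) (nd (nat_lit 274) (nat_lit 0) (cs (lf (nat_lit 42) (nat_lit 252)) (rf (nat_lit 2)))))))) (rf (nat_lit 3)))))) q99409 (by decide +kernel)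
def q99463 : Q := Q.p (nat_lit 0xa00003800000000000000000000000000000000000000000000000000000000000000) (nat_lit 0x440001b0000ee000358000000000e000018000000000000000000000000000000000000000000000000000) (nat_lit 8)
theorem c99463 : QOK q99463 := cut [q14907, q89807, q88425] ⟨c14907, c89807, c88425, trivial⟩ (nd (nat_lit 274) (nat_lit 0) (cs (rf (nat_lit 0)) (cs (rf (nat_lit 1)) (nd (nat_lit 271) (nat_lit 0) (cs (lf (nat_lit 13) (nat_lit 249)) (nd (nat_lit 276) (nat_lit 0) (cs (lf (nat_lit 18) (nat_lit 251)) (nd (nat_lit 298) (nat_lit 0) (cs (lf (nat_lit 5) (nat_lit 273)) (nd (nat_lit 320) (nat_lit 0) (cs (lf (nat_lit 42) (nat_lit 253)) (nd (nat_lit 297) (nat_lit 0) (cs (lf (nat_lit 24) (nat_lit 231)) (rf (nat_lit 2))))))))))))))) q99463 (by decide +kernel)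
def q99513 : Q := Q.p (nat_lit 0x800003c00004000010000000000000000000000000000000000000000000000000000) (nat_lit 0x8000078000000007b8001ec0007b0000200000800000000000000000000000000000000000) (nat_lit 12)
theorem c99513 : QOK q99513 := cut [q88047, q140, q10803] ⟨c88047, c140, c10803, trivial⟩ (nd (nat_lit 209) (nat_lit 0) (cs (rf (nat_lit 0)) (cs (nd (nat_lit 187) (nat_lit 0) (cs (lf (nat_lit 30) (nat_lit 186)) (nd (nat_lit 231) (nat_lit 0) (cs (lf (nat_lit 17) (nat_lit 228)) (lf (nat_lit 36) (nat_lit 164)))))) (cs (nd (nat_lit 274) (nat_lit 0) (cs (lf (nat_lit 35) (nat_lit 186)) (nd (nat_lit 273) (nat_lit 0) (cs (lf (nat_lit 41) (nat_lit 207)) (nd (nat_lit 271) (nat_lit 0) (cs (lf (nat_lit 13) (nat_lit 249)) (nd (nat_lit 228) (nat_lit 0) (cs (lf (nat_lit 23) (nat_lit 227)) (nd (nat_lit 184) (nat_lit 0) (cs (lf (nat_lit 25) (nat_lit 184)) (nd (nat_lit 207) (nat_lit 0) (cs (rf (nat_lit 1)) (lf (nat_lit 47) (nat_lit 185)))))))))))))) (nd (nat_lit 227) (nat_lit 0)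 (cs (lf (nat_lit 22) (nat_lit 227)) (nd (nat_lit 271) (nat_lit 0) (cs (lf (nat_lit 10) (nat_lit 249)) (rf (nat_lit 2)))))))))) q99513 (by decide +kernel)
def q99564 : Q := Q.p (nat_lit 0x80000300000e000000000000000000000000000000000000000000000000000000000) (nat_lit 0x180000640000180000e0001180000e000020000000000000000000000000000000000000000000000) (nat_lit 9)
theorem c99564 : QOK q99564 := cut [q93642] ⟨c93642, trivial⟩ (nd (nat_lit 297) (nat_lit 0) (cs (lf (nat_lit 42) (nat_lit 230)) (nd (nat_lit 228) (nat_lit 0) (cs (lf (nat_lit 0) (nat_lit 227)) (nd (nat_lit 298) (nat_lit 0) (cs (lf (nat_lit 29) (nat_lit 231)) (rf (nat_lit 0)))))))) q99564 (by decide +kernel)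
def q99567 : Q := Q.p (nat_lit 0x80000300000c000000000000000000000000000000000000000000000000000000000) (nat_lit 0xcf000738001c6000100000000000000000000000000000000000000000000000) (nat_lit 8)
theorem c99567 : QOK q99567 := cut [q87648, q96758, q87131, q98320] ⟨c87648, c96758, c87131, c98320, trivial⟩ (nd (nat_lit 229) (nat_lit 0) (cs (rf (nat_lit 0)) (cs (rf (nat_lit 1)) (nd (nat_lit 232) (nat_lit 0) (cs (rf (nat_lit 2)) (rf (nat_lit 3))))))) q99567 (by decide +kernel)
def q99594 : Q := Q.p (nat_lit 0x80000200000c000000000000000000000000000000000000000000000000000000000) (nat_lit 0xdf00033e000df800140000500000000000000000000000000000000000000000) (nat_lit 9)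
theorem c99594 : QOK q99594 := cut [q96758, q96836, q98344, q99593] ⟨c96758, c96836, c98344, c99593, trivial⟩ (nd (nat_lit 229) (nat_lit 0) (cs (rf (nat_lit 0)) (cs (rf (nat_lit 1)) (cs (rf (nat_lit 2)) (rf (nat_lit 3)))))) q99594 (by decide +kernel)
def q99629 : Q := Q.p (nat_lit 0x800002000008000000000000000000000000000000000000000000000000000000000) (nat_lit 0x100000700001c00003000014000050000140000300001c0000700001000000000000000000000000000000000000) (nat_lit 8)
theorem c99629 : QOK q99629 := cut [q98125, q98126, q99625] ⟨c98125, c98126, c99625, trivial⟩ (nd (nat_lit 208) (nat_lit 0) (cs (rf (nat_lit 0)) (cs (rf (nat_lit 1)) (nd (nat_lit 297) (nat_lit 0) (cs (lf (nat_lit 46) (nat_lit 208)) (nd (nat_lit 318) (nat_lit 0) (cs (lf (nat_lit 40) (nat_lit 230)) (nd (nat_lit 319) (nat_lit 0) (cs (lf (nat_lit 41) (nat_lit 252)) (rf (nat_lit 2))))))))))) q99629 (by decide +kernel)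
def q99680 : Q := Q.p (nat_lit 0x200000800002000000000000000000000000000000000000000000000000000000000000000) (nat_lit 0x14000050001f70003d8001f700001000018000060000100000000000000000000000000000000000000000000000) (nat_lit 9)
theorem c99680 : QOK q99680 := cut [q90750, q99668, q11637, q99331, q99669, q11626, q84706, q28005, q90752, q99676, q99678] ⟨c90750, c99668, c11637, c99331, c99669, c11626, c84706, c28005, c90752, c99676, c99678, trivial⟩ (nd (nat_lit 298) (nat_lit 0) (cs (rf (nat_lit 0)) (cs (rf (nat_lit 1)) (cs (nd (nat_lit 299) (nat_lit 0) (cs (rf (nat_lit 2)) (cs (rf (nat_lit 3)) (cs (rf (nat_lit 4)) (nd (nat_lit 300) (nat_lit 0) (cs (rf (nat_lit 5)) (cs (rf (nat_lit 6)) (cs (nd (nat_lit 322) (nat_lit 0) (cs (lf (nat_lit 5) (nat_lit 297)) (rf (nat_lit 7)))) (nd (nat_lit 278) (nat_lit 0) (cs (lf (nat_lit 17) (nat_lit 275)) (nd (nat_lit 277) (nat_lit 0) (cs (lf (nat_lit 12) (nat_lit 274)) (nd (nat_lit 276) (nat_lit 0) (cs (lf (nat_lit 23) (nat_lit 252))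 (lf (nat_lit 5) (nat_lit 275)))))))))))))))) (nd (nat_lit 296) (nat_lit 0) (cs (rf (nat_lit 8)) (cs (rf (nat_lit 9)) (rf (nat_lit 10))))))))) q99680 (by decide +kernel)
def q99750 : Q := Q.p (nat_lit 0x200000800002000000000000000000000000000000000000000000000000000000000000000) (nat_lit 0x180000600007c00005c00014000050000180000700001c0000500000000000000000000000000000000000000000) (nat_lit 11)
theorem c99750 : QOK q99750 := cut [q98129, q21955, q99749] ⟨c98129, c21955, c99749, trivial⟩ (nd (nat_lit 319) (nat_lit 0) (cs (rf (nat_lit 0)) (cs (nd (nat_lit 232) (nat_lit 0) (cs (lf (nat_lit 34) (nat_lit 231)) (nd (nat_lit 231) (nat_lit 0) (cs (lf (nat_lit 35) (nat_lit 209)) (nd (nat_lit 296) (nat_lit 0) (cs (lf (nat_lit 41) (nat_lit 230)) (rf (nat_lit 1)))))))) (rf (nat_lit 2))))) q99750 (by decide +kernel)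
def q99820 : Q := Q.p (nat_lit 0x1800002000000000000000000000000000000000000000000000000000000000000000) (nat_lit 0x140000780001e00003e000670000dc0003f0000680001c0000300000400000000000000000000000000000000000) (nat_lit 12)
theorem c99820 : QOK q99820 := cut [q88742, q88915, q99681, q81196, q90752, q4090, q99795, q99799, q99092, q94715, q11506, q25707, q86717, q99261, q99818] ⟨c88742, c88915, c99681, c81196, c90752, c4090, c99795, c99799, c99092, c94715, c11506, c25707, c86717, c99261, c99818, trivial⟩ (nd (nat_lit 252) (nat_lit 0) (cs (rf (nat_lit 0)) (cs (rf (nat_lit 1)) (cs (nd (nat_lit 277) (nat_lit 0) (cs (lf (nat_lit 18) (nat_lit 252)) (nd (nat_lit 297) (nat_lit 0) (cs (rf (nat_lit 2)) (cs (nd (nat_lit 296) (nat_lit 0) (cs (rf (nat_lit 3)) (cs (rf (nat_lit 4)) (nd (nat_lit 231) (nat_lit 0) (cs (lf (nat_lit 41) (nat_lit 230)) (nd (nat_lit 210) (nat_lit 0) (cs (lf (nat_lit 34) (nat_lit 209)) (nd (nat_lit 209) (nat_lit 0) (cs (lf (nat_lit 35) (nat_lit 187)) (nd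 (nat_lit 294) (nat_lit 0) (cs (lf (nat_lit 13) (nat_lit 272)) (nd (nat_lit 187) (nat_lit 0) (cs (rf (nat_lit 5)) (lf (nat_lit 28) (nat_lit 187))))))))))))))) (cs (nd (nat_lit 319) (nat_lit 0) (cs (lf (nat_lit 47) (nat_lit 230)) (nd (nat_lit 320) (nat_lit 0) (cs (lf (nat_lit 29) (nat_lit 253)) (rf (nat_lit 6)))))) (nd (nat_lit 319) (nat_lit 0) (cs (lf (nat_lit 47) (nat_lit 230)) (rf (nat_lit 7)))))))))) (nd (nat_lit 254) (nat_lit 0) (cs (rf (nat_lit 8)) (cs (nd (nat_lit 274) (nat_lit 0) (cs (rf (nat_lit 9)) (cs (nd (nat_lit 296) (nat_lit 0) (cs (rf (nat_lit 10)) (cs (rf (nat_lit 11)) (nd (nat_lit 297) (nat_lit 0) (cs (rf (nat_lit 12)) (cs (rf (nat_lit 13)) (nd (nat_lit 209) (nat_lit 0) (cs (lf (nat_lit 37) (nat_lit 208)) (nd (nat_lit 210) (nat_lit 0) (cs (lf (nat_lit 37) (nat_lit 209)) (nd (nat_lit 295) (nat_lit 0) (cs (lf (nat_lit 12) (nat_lit 272)) (nd (nat_lit 230) (nat_lit 0) (cs (lf (nat_lit 41) (nat_lit 229)) (nd (nat_lit 229) (nat_lit 0) (cs (lf (nat_lit 47)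 (nat_lit 207)) (lf (nat_lit 18) (nat_lit 229)))))))))))))))))) (nd (nat_lit 273) (nat_lit 0) (cs (lf (nat_lit 12) (nat_lit 250)) (nd (nat_lit 295) (nat_lit 0) (cs (lf (nat_lit 11) (nat_lit 272)) (nd (nat_lit 317) (nat_lit 0) (cs (lf (nat_lit 30) (nat_lit 251)) (nd (nat_lit 296) (nat_lit 0) (cs (rf (nat_lit 10)) (lf (nat_lit 36) (nat_lit 229))))))))))))) (rf (nat_lit 14))))))))) q99820 (by decide +kernel)
def q99901 : Q := Q.p (nat_lit 0x800003800002000000000000000000000000000000000000000000000000000000000000000) (nat_lit 0x700001f0001f0000740000000000c0000380000c0000000000000000000000000000000000000000000000000000) (nat_lit 9)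
theorem c99901 : QOK q99901 := cut [q99873, q99877, q14270, q99899, q99900] ⟨c99873, c99877, c14270, c99899, c99900, trivial⟩ (nd (nat_lit 321) (nat_lit 0) (cs (rf (nat_lit 0)) (cs (nd (nat_lit 255) (nat_lit 0) (cs (rf (nat_lit 1)) (cs (nd (nat_lit 322) (nat_lit 0) (cs (lf (nat_lit 29) (nat_lit 255)) (nd (nat_lit 233) (nat_lit 0) (cs (lf (nat_lit 28) (nat_lit 233)) (rf (nat_lit 2)))))) (cs (nd (nat_lit 322) (nat_lit 0) (cs (lf (nat_lit 29) (nat_lit 255)) (nd (nat_lit 254) (nat_lit 0) (cs (lf (nat_lit 47) (nat_lit 232)) (nd (nat_lit 320) (nat_lit 0) (cs (lf (nat_lit 41) (nat_lit 254)) (nd (nat_lit 298) (nat_lit 0) (cs (lf (nat_lit 47) (nat_lit 231)) (nd (nat_lit 323) (nat_lit 0) (cs (lf (nat_lit 18) (nat_lit 298)) (nd (nat_lit 301) (nat_lit 0) (cs (lf (nat_lit 17) (nat_lit 298)) (lf (nat_lit 19) (nat_lit 275)))))))))))))) (nd (nat_lit 320) (nat_lit 0) (cs (lf (nat_lit 41) (nat_lit 254)) (nd (nat_lit 233) (nat_lit 0) (cs (lf (nat_lit 40) (nat_lit 232)) (nd (nat_lit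 232) (nat_lit 0) (cs (lf (nat_lit 47) (nat_lit 210)) (lf (nat_lit 46) (nat_lit 232)))))))))))) (cs (rf (nat_lit 3)) (rf (nat_lit 4)))))) q99901 (by decide +kernel)
def q99942 : Q := Q.p (nat_lit 0x1800002000000000000000000000000000000000000000000000000000000000000000) (nat_lit 0x140000f0000fc001ff8003e0000edc0003c0000e0000100000000000000000000000000000000000000000000000) (nat_lit 12)
theorem c99942 : QOK q99942 := cut [q99782, q99829, q15512, q99910, q80843, q99262, q99919, q99922, q99923, q99931, q99934, q99681, q99682, q99826] ⟨c99782, c99829, c15512, c99910, c80843, c99262, c99919, c99922, c99923, c99931, c99934, c99681, c99682, c99826, trivial⟩ (nd (nat_lit 277) (nat_lit 0) (cs (rf (nat_lit 0)) (cs (rf (nat_lit 1)) (cs (nd (nat_lit 298) (nat_lit 0) (cs (rf (nat_lit 2)) (cs (nd (nat_lit 297) (nat_lit 0) (cs (nd (nat_lit 231) (nat_lit 0) (cs (lf (nat_lit 24) (nat_lit 209)) (nd (nat_lit 232) (nat_lit 0) (cs (lf (nat_lit 35) (nat_lit 209)) (nd (nat_lit 254) (nat_lit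 0) (cs (lf (nat_lit 30) (nat_lit 231)) (nd (nat_lit 251) (nat_lit 0) (cs (lf (nat_lit 1) (nat_lit 251)) (rf (nat_lit 3)))))))))) (cs (nd (nat_lit 254) (nat_lit 0) (cs (rf (nat_lit 4)) (cs (rf (nat_lit 5)) (nd (nat_lit 295) (nat_lit 0) (cs (lf (nat_lit 13) (nat_lit 273)) (nd (nat_lit 251) (nat_lit 0) (cs (lf (nat_lit 1) (nat_lit 251)) (nd (nat_lit 232) (nat_lit 0) (cs (lf (nat_lit 36) (nat_lit 209)) (rf (nat_lit 3))))))))))) (nd (nat_lit 296) (nat_lit 0) (cs (lf (nat_lit 12) (nat_lit 273)) (rf (nat_lit 6))))))) (cs (rf (nat_lit 7)) (nd (nat_lit 320) (nat_lit 0) (cs (lf (nat_lit 42) (nat_lit 253)) (nd (nat_lit 254) (nat_lit 0) (cs (nd (nat_lit 233) (nat_lit 0) (cs (lf (nat_lit 34) (nat_lit 232)) (nd (nat_lit 232) (nat_lit 0) (cs (lf (nat_lit 35) (nat_lit 210)) (rf (nat_lit 8)))))) (cs (rf (nat_lit 9)) (nd (nat_lit 251) (nat_lit 0) (cs (lf (nat_lit 1) (nat_lit 251)) (rf (nat_lit 10))))))))))))) (nd (nat_lit 297) (nat_lit 0) (cs (rf (nat_lit 11)) (cs (rf (nat_lit 12))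 (nd (nat_lit 278) (nat_lit 0) (cs (lf (nat_lit 11) (nat_lit 274)) (nd (nat_lit 300) (nat_lit 0) (cs (lf (nat_lit 5) (nat_lit 275)) (rf (nat_lit 13))))))))))))) q99942 (by decide +kernel)
def q99948 : Q := Q.p (nat_lit 0x600001800002000000000000000000000000000000000000000000000000000000000000000) (nat_lit 0x300002f00019000006000040000300000c0000000000000000000000000000000000000000000000000000) (nat_lit 6)
theorem c99948 : QOK q99948 := cut [q80843, q99946, q99947] ⟨c80843, c99946, c99947, trivial⟩ (nd (nat_lit 254) (nat_lit 0) (cs (rf (nat_lit 0)) (cs (rf (nat_lit 1)) (rf (nat_lit 2))))) q99948 (by decide +kernel)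
def q99976 : Q := Q.p (nat_lit 0x400001800002000000000000000000000000000000000000000000000000000000000000000) (nat_lit 0xf0000ff0003b8000060000c0000300000c0000300000000000000000000000000000000000000000000000) (nat_lit 10)
theorem c99976 : QOK q99976 := cut [q98845, q99953, q80843, q99946, q99947, q99957, q99964, q99972, q99975] ⟨c98845, c99953, c80843, c99946, c99947, c99957, c99964, c99972, c99975, trivial⟩ (nd (nat_lit 254) (nat_lit 0) (cs (rf (nat_lit 0)) (cs (nd (nat_lit 320) (nat_lit 0) (cs (lf (nat_lit 42) (nat_lit 253)) (rf (nat_lit 1)))) (cs (nd (nat_lit 297) (nat_lit 0) (cs (rf (nat_lit 2)) (cs (rf (nat_lit 3)) (rf (nat_lit 4))))) (cs (nd (nat_lit 297) (nat_lit 0) (cs (rf (nat_lit 3)) (cs (nd (nat_lit 320) (nat_lit 0) (cs (lf (nat_lit 42) (nat_lit 253)) (nd (nat_lit 233) (nat_lit 0) (cs (lf (nat_lit 34) (nat_lit 232)) (nd (nat_lit 319) (nat_lit 0) (cs (lf (nat_lit 41) (nat_lit 253)) (nd (nat_lit 318) (nat_lit 0) (cs (lf (nat_lit 41) (nat_lit 252)) (nd (nat_lit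 316) (nat_lit 0) (cs (lf (nat_lit 13) (nat_lit 294)) (rf (nat_lit 5)))))))))))) (cs (nd (nat_lit 320) (nat_lit 0) (cs (lf (nat_lit 42) (nat_lit 253)) (nd (nat_lit 233) (nat_lit 0) (cs (lf (nat_lit 34) (nat_lit 232)) (nd (nat_lit 321) (nat_lit 0) (cs (lf (nat_lit 29) (nat_lit 254)) (nd (nat_lit 322) (nat_lit 0) (cs (lf (nat_lit 18) (nat_lit 297)) (nd (nat_lit 319) (nat_lit 0) (cs (lf (nat_lit 30) (nat_lit 253)) (rf (nat_lit 6)))))))))))) (rf (nat_lit 7)))))) (rf (nat_lit 8))))))) q99976 (by decide +kernel)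
def q100092 : Q := Q.p (nat_lit 0x3800002000000000000000000000000000000000000000000000000000000000000000) (nat_lit 0x700001f8001fe0003fc000070000dc000f00000c0000000000000000000000000000000000000000000000000000) (nat_lit 13)
theorem c100092 : QOK q100092 := cut [q99845, q99873, q99899, q99900, q99877, q100022, q100032, q81362, q99846, q99867, q100065, q100070, q100075, q100091] ⟨c99845, c99873, c99899, c99900, c99877, c100022, c100032, c81362, c99846, c99867, c100065, c100070, c100075, c100091, trivial⟩ (nd (nat_lit 299) (nat_lit 0) (cs (rf (nat_lit 0)) (cs (nd (nat_lit 321) (nat_lit 0) (cs (rf (nat_lit 1)) (cs (rf (nat_lit 2)) (cs (rf (nat_lit 3)) (nd (nat_lit 320) (nat_lit 0) (cs (nd (nat_lit 342) (nat_lit 0) (cs (lf (nat_lit 36) (nat_lit 254)) (lf (nat_lit 44) (nat_lit 253)))) (cs (nd (nat_lit 255) (nat_lit 0) (cs (lf (nat_lit 41) (nat_lit 254)) (rf (nat_lit 4)))) (cs (nd (nat_lit 298) (nat_lit 0) (cs (nd (nat_lit 255) (nat_lit 0) (cs (lf (nat_lit 36) (nat_lit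 232)) (nd (nat_lit 300) (nat_lit 0) (cs (lf (nat_lit 18) (nat_lit 275)) (nd (nat_lit 318) (nat_lit 0) (cs (lf (nat_lit 13) (nat_lit 296)) (rf (nat_lit 5)))))))) (cs (nd (nat_lit 255) (nat_lit 0) (cs (lf (nat_lit 36) (nat_lit 232)) (nd (nat_lit 232) (nat_lit 0) (cs (lf (nat_lit 25) (nat_lit 232)) (nd (nat_lit 300) (nat_lit 0) (cs (lf (nat_lit 18) (nat_lit 275)) (rf (nat_lit 5)))))))) (cs (nd (nat_lit 233) (nat_lit 0) (cs (lf (nat_lit 37) (nat_lit 232)) (rf (nat_lit 6)))) (nd (nat_lit 254) (nat_lit 0) (cs (lf (nat_lit 24) (nat_lit 232)) (nd (nat_lit 251) (nat_lit 0) (cs (lf (nat_lit 1) (nat_lit 251)) (nd (nat_lit 319) (nat_lit 0) (cs (lf (nat_lit 41) (nat_lit 253)) (nd (nat_lit 318) (nat_lit 0) (cs (lf (nat_lit 12) (nat_lit 295)) (nd (nat_lit 340) (nat_lit 0) (cs (lf (nat_lit 11) (nat_lit 317)) (lf (nat_lit 38) (nat_lit 252)))))))))))))))) (nd (nat_lit 298) (nat_lit 0) (cs (lf (nat_lit 42) (nat_lit 253)) (rf (nat_lit 6)))))))))))) (cs (nd (nat_lit 254) (nat_lit 0)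 (cs (rf (nat_lit 7)) (cs (rf (nat_lit 8)) (cs (nd (nat_lit 298) (nat_lit 0) (cs (rf (nat_lit 9)) (cs (nd (nat_lit 321) (nat_lit 0) (cs (lf (nat_lit 42) (nat_lit 254)) (nd (nat_lit 274) (nat_lit 0) (cs (lf (nat_lit 0) (nat_lit 273)) (nd (nat_lit 251) (nat_lit 0) (cs (lf (nat_lit 1) (nat_lit 251)) (nd (nat_lit 296) (nat_lit 0) (cs (lf (nat_lit 11) (nat_lit 273)) (nd (nat_lit 318) (nat_lit 0) (cs (lf (nat_lit 30) (nat_lit 252)) (nd (nat_lit 297) (nat_lit 0) (cs (lf (nat_lit 5) (nat_lit 296)) (lf (nat_lit 11) (nat_lit 295)))))))))))))) (cs (nd (nat_lit 320) (nat_lit 0) (cs (lf (nat_lit 42) (nat_lit 253)) (nd (nat_lit 233) (nat_lit 0) (cs (lf (nat_lit 37) (nat_lit 232)) (nd (nat_lit 251) (nat_lit 0) (cs (lf (nat_lit 1) (nat_lit 251)) (nd (nat_lit 319) (nat_lit 0) (cs (lf (nat_lit 41) (nat_lit 253)) (nd (nat_lit 318) (nat_lit 0) (cs (lf (nat_lit 12) (nat_lit 295)) (nd (nat_lit 297) (nat_lit 0) (cs (lf (nat_lit 41) (nat_lit 252)) (nd (nat_lit 296) (nat_lit 0) (cs (lf (nat_lit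 12) (nat_lit 273)) (nd (nat_lit 321) (nat_lit 0) (cs (lf (nat_lit 18) (nat_lit 296)) (lf (nat_lit 29) (nat_lit 254)))))))))))))))))) (cs (rf (nat_lit 10)) (nd (nat_lit 321) (nat_lit 0) (cs (lf (nat_lit 42) (nat_lit 254)) (nd (nat_lit 273) (nat_lit 0) (cs (lf (nat_lit 1) (nat_lit 273)) (nd (nat_lit 251) (nat_lit 0) (cs (lf (nat_lit 1) (nat_lit 251)) (rf (nat_lit 11))))))))))))) (nd (nat_lit 298) (nat_lit 0) (cs (rf (nat_lit 9)) (cs (nd (nat_lit 273) (nat_lit 0) (cs (lf (nat_lit 1) (nat_lit 273)) (nd (nat_lit 232) (nat_lit 0) (cs (lf (nat_lit 24) (nat_lit 210)) (nd (nat_lit 252) (nat_lit 0) (cs (lf (nat_lit 0) (nat_lit 251)) (nd (nat_lit 297) (nat_lit 0) (cs (lf (nat_lit 30) (nat_lit 231)) (nd (nat_lit 295) (nat_lit 0) (cs (lf (nat_lit 13) (nat_lit 273)) (rf (nat_lit 12)))))))))))) (cs (nd (nat_lit 251) (nat_lit 0) (cs (lf (nat_lit 1) (nat_lit 251)) (nd (nat_lit 320) (nat_lit 0) (cs (lf (nat_lit 42) (nat_lit 253)) (nd (nat_lit 233) (nat_lit 0) (cs (lf (nat_lit 37)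 (nat_lit 232)) (nd (nat_lit 232) (nat_lit 0) (cs (lf (nat_lit 35) (nat_lit 210)) (lf (nat_lit 24) (nat_lit 210)))))))))) (nd (nat_lit 320) (nat_lit 0) (cs (lf (nat_lit 42) (nat_lit 253)) (nd (nat_lit 251) (nat_lit 0) (cs (lf (nat_lit 1) (nat_lit 251)) (nd (nat_lit 319) (nat_lit 0) (cs (lf (nat_lit 41) (nat_lit 253)) (nd (nat_lit 232) (nat_lit 0) (cs (lf (nat_lit 31) (nat_lit 231)) (lf (nat_lit 24) (nat_lit 210)))))))))))))))))) (rf (nat_lit 13)))))) q100092 (by decide +kernel)
def q100120 : Q := Q.p (nat_lit 0x3800002000000000000000000000000000000000000000000000000000000000000000) (nat_lit 0x40000160000f80003e0000c70000c0000380000e0000300000400000000000000000000000000000000000000000) (nat_lit 12)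
theorem c100120 : QOK q100120 := cut [q15512, q99922, q100095, q87016, q26405, q100111, q98845, q100118] ⟨c15512, c99922, c100095, c87016, c26405, c100111, c98845, c100118, trivial⟩ (nd (nat_lit 298) (nat_lit 0) (cs (rf (nat_lit 0)) (cs (rf (nat_lit 1)) (cs (nd (nat_lit 300) (nat_lit 0) (cs (nd (nat_lit 209) (nat_lit 0) (cs (lf (nat_lit 25) (nat_lit 209)) (rf (nat_lit 2)))) (cs (nd (nat_lit 232) (nat_lit 0) (cs (nd (nat_lit 231) (nat_lit 0) (cs (lf (nat_lit 24) (nat_lit 209)) (rf (nat_lit 3)))) (cs (nd (nat_lit 299) (nat_lit 0) (cs (lf (nat_lit 0) (nat_lit 274)) (nd (nat_lit 231) (nat_lit 0) (cs (lf (nat_lit 24) (nat_lit 209)) (nd (nat_lit 297) (nat_lit 0) (cs (lf (nat_lit 35) (nat_lit 209)) (nd (nat_lit 278) (nat_lit 0) (cs (lf (nat_lit 6) (nat_lit 275)) (nd (nat_lit 322) (nat_lit 0) (cs (lf (nat_lit 5) (nat_lit 297)) (rf (nat_lit 4)))))))))))) (cs (nd (nat_lit 209) (nat_lit 0) (cs (lf (nat_lit 25) (nat_lit 209)) (nd (nat_lit 299) (nat_lit 0) (cs (lf (nat_lit 0)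 (nat_lit 274)) (nd (nat_lit 254) (nat_lit 0) (cs (lf (nat_lit 29) (nat_lit 232)) (nd (nat_lit 278) (nat_lit 0) (cs (lf (nat_lit 18) (nat_lit 253)) (nd (nat_lit 297) (nat_lit 0) (cs (lf (nat_lit 30) (nat_lit 231)) (nd (nat_lit 211) (nat_lit 0) (cs (lf (nat_lit 34) (nat_lit 210)) (nd (nat_lit 322) (nat_lit 0) (cs (lf (nat_lit 5) (nat_lit 297)) (nd (nat_lit 344) (nat_lit 0) (cs (lf (nat_lit 42) (nat_lit 277)) (lf (nat_lit 47) (nat_lit 255)))))))))))))))))) (nd (nat_lit 299) (nat_lit 0) (cs (lf (nat_lit 0) (nat_lit 274)) (rf (nat_lit 5)))))))) (nd (nat_lit 299) (nat_lit 0) (cs (lf (nat_lit 18) (nat_lit 275)) (lf (nat_lit 0) (nat_lit 274))))))) (nd (nat_lit 254) (nat_lit 0) (cs (rf (nat_lit 6)) (rf (nat_lit 7)))))))) q100120 (by decide +kernel)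
def q100226 : Q := Q.p (nat_lit 0x1800002000000000000000000000000000000000000000000000000000000000000000) (nat_lit 0x400001c0000f0001ff0003fc001e70000cf0003f8000bf000010000000000000000000000000000000000000000000000) (nat_lit 15)
theorem c100226 : QOK q100226 := cut [q15512, q99922, q100199, q23438, q99724, q100209, q100211, q100220] ⟨c15512, c99922, c100199, c23438, c99724, c100209, c100211, c100220, trivial⟩ (nd (nat_lit 298) (nat_lit 0) (cs (rf (nat_lit 0)) (cs (rf (nat_lit 1)) (cs (rf (nat_lit 2)) (cs (nd (nat_lit 231) (nat_lit 0) (cs (lf (nat_lit 24) (nat_lit 209)) (nd (nat_lit 320) (nat_lit 0) (cs (lf (nat_lit 27) (nat_lit 231)) (lf (nat_lit 45) (nat_lit 231)))))) (nd (nat_lit 319) (nat_lit 0) (cs (nd (nat_lit 320) (nat_lit 0) (cs (lf (nat_lit 42) (nat_lit 253)) (nd (nat_lit 254) (nat_lit 0) (cs (lf (nat_lit 41) (nat_lit 253)) (nd (nat_lit 233) (nat_lit 0) (cs (lf (nat_lit 34) (nat_lit 232)) (nd (nat_lit 321) (nat_lit 0) (cs (lf (nat_lit 29) (nat_lit 254))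 (nd (nat_lit 232) (nat_lit 0) (cs (lf (nat_lit 35) (nat_lit 210)) (lf (nat_lit 28) (nat_lit 232)))))))))))) (cs (nd (nat_lit 297) (nat_lit 0) (cs (rf (nat_lit 3)) (rf (nat_lit 4)))) (cs (nd (nat_lit 299) (nat_lit 0) (cs (rf (nat_lit 5)) (nd (nat_lit 320) (nat_lit 0) (cs (lf (nat_lit 42) (nat_lit 253)) (nd (nat_lit 318) (nat_lit 0) (cs (lf (nat_lit 12) (nat_lit 295)) (nd (nat_lit 297) (nat_lit 0) (cs (lf (nat_lit 41) (nat_lit 252)) (nd (nat_lit 254) (nat_lit 0) (cs (lf (nat_lit 36) (nat_lit 231)) (rf (nat_lit 6)))))))))))) (cs (nd (nat_lit 297) (nat_lit 0) (cs (rf (nat_lit 3)) (nd (nat_lit 341) (nat_lit 0) (cs (lf (nat_lit 30) (nat_lit 275)) (nd (nat_lit 342) (nat_lit 0) (cs (lf (nat_lit 29) (nat_lit 275)) (lf (nat_lit 43) (nat_lit 253)))))))) (nd (nat_lit 320) (nat_lit 0) (cs (lf (nat_lit 42) (nat_lit 253)) (nd (nat_lit 254) (nat_lit 0) (cs (lf (nat_lit 41) (nat_lit 253)) (nd (nat_lit 321) (nat_lit 0) (cs (lf (nat_lit 29) (nat_lit 254)) (nd (nat_lit 233) (nat_lit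 0) (cs (lf (nat_lit 34) (nat_lit 232)) (rf (nat_lit 7)))))))))))))))))))) q100226 (by decide +kernel)
def q100353 : Q := Q.p (nat_lit 0x1800002000000000000000000000000000000000000000000000000000000000000000) (nat_lit 0x380000f0000ff0003fc000e30000df0003f80003f0001e0000780001000000000000000000000000000000000000) (nat_lit 13)
theorem c100353 : QOK q100353 := cut [q88742, q88941, q90750, q99950, q99353, q99362, q99364, q100313, q100321, q97957, q100328, q92000, q96758, q96769, q88842, q100337, q88841, q100348, q99724, q99435] ⟨c88742, c88941, c90750, c99950, c99353, c99362, c99364, c100313, c100321, c97957, c100328, c92000, c96758, c96769, c88842, c100337, c88841, c100348, c99724, c99435, trivial⟩ (nd (nat_lit 252) (nat_lit 0) (cs (rf (nat_lit 0)) (cs (nd (nat_lit 297) (nat_lit 0) (cs (rf (nat_lit 1)) (cs (nd (nat_lit 298) (nat_lit 0) (cs (rf (nat_lit 2)) (cs (rf (nat_lit 3)) (nd (nat_lit 299) (nat_lit 0) (cs (rf (nat_lit 4)) (cs (rf (nat_lit 5)) (cs (rf (nat_lit 6))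 (nd (nat_lit 250) (nat_lit 0) (cs (lf (nat_lit 1) (nat_lit 250)) (nd (nat_lit 342) (nat_lit 0) (cs (lf (nat_lit 43) (nat_lit 253)) (nd (nat_lit 277) (nat_lit 0) (cs (lf (nat_lit 18) (nat_lit 252)) (nd (nat_lit 296) (nat_lit 0) (cs (lf (nat_lit 12) (nat_lit 273)) (nd (nat_lit 321) (nat_lit 0) (cs (lf (nat_lit 5) (nat_lit 296)) (nd (nat_lit 343) (nat_lit 0) (cs (lf (nat_lit 41) (nat_lit 276)) (lf (nat_lit 42) (nat_lit 276))))))))))))))))))))) (nd (nat_lit 277) (nat_lit 0) (cs (lf (nat_lit 18) (nat_lit 252)) (nd (nat_lit 250) (nat_lit 0) (cs (lf (nat_lit 1) (nat_lit 250)) (nd (nat_lit 319) (nat_lit 0) (cs (lf (nat_lit 47) (nat_lit 230)) (nd (nat_lit 318) (nat_lit 0) (cs (lf (nat_lit 41) (nat_lit 252)) (nd (nat_lit 342) (nat_lit 0) (cs (lf (nat_lit 28) (nat_lit 253)) (nd (nat_lit 341) (nat_lit 0) (cs (lf (nat_lit 29) (nat_lit 275)) (rf (nat_lit 7))))))))))))))))) (cs (nd (nat_lit 231) (nat_lit 0) (cs (rf (nat_lit 8)) (cs (nd (nat_lit 230) (nat_lit 0) (cs (rf (nat_lit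 9)) (cs (rf (nat_lit 10)) (nd (nat_lit 229) (nat_lit 0) (cs (rf (nat_lit 11)) (cs (rf (nat_lit 12)) (cs (rf (nat_lit 13)) (nd (nat_lit 186) (nat_lit 0) (cs (lf (nat_lit 25) (nat_lit 186)) (nd (nat_lit 254) (nat_lit 0) (cs (lf (nat_lit 18) (nat_lit 229)) (nd (nat_lit 187) (nat_lit 0) (cs (lf (nat_lit 25) (nat_lit 187)) (nd (nat_lit 251) (nat_lit 0) (cs (lf (nat_lit 0) (nat_lit 250)) (nd (nat_lit 232) (nat_lit 0) (cs (lf (nat_lit 17) (nat_lit 229)) (rf (nat_lit 14))))))))))))))))))) (cs (nd (nat_lit 250) (nat_lit 0) (cs (lf (nat_lit 1) (nat_lit 250)) (rf (nat_lit 15)))) (cs (nd (nat_lit 230) (nat_lit 0) (cs (rf (nat_lit 9)) (cs (rf (nat_lit 10)) (nd (nat_lit 229) (nat_lit 0) (cs (rf (nat_lit 11)) (cs (rf (nat_lit 12)) (cs (rf (nat_lit 13)) (nd (nat_lit 251) (nat_lit 0) (cs (lf (nat_lit 0) (nat_lit 250)) (nd (nat_lit 254) (nat_lit 0) (cs (lf (nat_lit 18) (nat_lit 229)) (nd (nat_lit 272) (nat_lit 0) (cs (lf (nat_lit 10) (nat_lit 250)) (nd (nat_lit 298) (nat_lit 0) (cs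 (lf (nat_lit 42) (nat_lit 231)) (nd (nat_lit 232) (nat_lit 0) (cs (lf (nat_lit 17) (nat_lit 229)) (nd (nat_lit 207) (nat_lit 0) (cs (lf (nat_lit 23) (nat_lit 206)) (nd (nat_lit 186) (nat_lit 0) (cs (lf (nat_lit 25) (nat_lit 186)) (rf (nat_lit 16))))))))))))))))))))))) (nd (nat_lit 250) (nat_lit 0) (cs (lf (nat_lit 1) (nat_lit 250)) (rf (nat_lit 17))))))))) (nd (nat_lit 297) (nat_lit 0) (cs (rf (nat_lit 1)) (cs (nd (nat_lit 319) (nat_lit 0) (cs (lf (nat_lit 47) (nat_lit 230)) (rf (nat_lit 18)))) (nd (nat_lit 298) (nat_lit 0) (cs (rf (nat_lit 2)) (cs (rf (nat_lit 19)) (rf (nat_lit 3)))))))))))) q100353 (by decide +kernel)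
def q100363 : Q := Q.p (nat_lit 0x1800003000008000000000000000000000000000000000000000000000000000000000) (nat_lit 0x320000cc00007c000ce00037c0001c000060000080000000000000000000000000000000000000000) (nat_lit 8)
theorem c100363 : QOK q100363 := cut [q2091, q24207, q98377, q98531, q100358, q100361] ⟨c2091, c24207, c98377, c98531, c100358, c100361, trivial⟩ (nd (nat_lit 251) (nat_lit 0) (cs (rf (nat_lit 0)) (cs (rf (nat_lit 1)) (nd (nat_lit 254) (nat_lit 0) (cs (rf (nat_lit 2)) (cs (rf (nat_lit 3)) (cs (rf (nat_lit 4)) (rf (nat_lit 5))))))))) q100363 (by decide +kernel)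
def q100384 : Q := Q.p (nat_lit 0x200001800002000008000000000000000000000000000000000000000000000000000000000) (nat_lit 0x40000f70003dc0000700004000000000000000000000000000000000000000000000000000000000000000) (nat_lit 9)
theorem c100384 : QOK q100384 := cut [q97350, q99987] ⟨c97350, c99987, trivial⟩ (nd (nat_lit 298) (nat_lit 0) (cs (rf (nat_lit 0)) (rf (nat_lit 1)))) q100384 (by decide +kernel)
def q100527 : Q := Q.p (nat_lit 0x1800002000000000000000000000000000000000000000000000000000000000000000) (nat_lit 0x200007c0001f0001fe000ffe001e70006ce0000a000028000000000000000000000000000000000000000000000000000) (nat_lit 11)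
theorem c100527 : QOK q100527 := cut [q15512, q99922, q100471, q99783, q100095, q15788, q96667, q16924, q15625, q96660, q98961, q100487, q100209, q100493, q17024, q100513, q100520] ⟨c15512, c99922, c100471, c99783, c100095, c15788, c96667, c16924, c15625, c96660, c98961, c100487, c100209, c100493, c17024, c100513, c100520, trivial⟩ (nd (nat_lit 298) (nat_lit 0) (cs (rf (nat_lit 0)) (cs (rf (nat_lit 1)) (cs (nd (nat_lit 274) (nat_lit 0) (cs (nd (nat_lit 209) (nat_lit 0) (cs (lf (nat_lit 25) (nat_lit 209)) (rf (nat_lit 2)))) (cs (nd (nat_lit 277) (nat_lit 0) (cs (rf (nat_lit 3)) (cs (nd (nat_lit 300) (nat_lit 0) (cs (lf (nat_lit 4) (nat_lit 274)) (rf (nat_lit 4)))) (nd (nat_lit 278) (nat_lit 0) (cs (rf (nat_lit 5)) (cs (rf (nat_lit 6)) (cs (nd (nat_lit 295) (nat_lit 0) (cs (lf (nat_lit 10) (nat_lit 273)) (nd (nat_lit 209) (nat_lit 0) (cs (lf (nat_lit 25) (nat_lit 209)) (nd (nat_lit 279) (nat_lit 0) (cs (lf (nat_lit 22) (nat_lit 253)) (nd (nat_lit 257) (nat_lit 0)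 (cs (lf (nat_lit 17) (nat_lit 254)) (rf (nat_lit 7)))))))))) (nd (nat_lit 295) (nat_lit 0) (cs (lf (nat_lit 10) (nat_lit 273)) (nd (nat_lit 299) (nat_lit 0) (cs (lf (nat_lit 5) (nat_lit 274)) (nd (nat_lit 279) (nat_lit 0) (cs (lf (nat_lit 6) (nat_lit 276)) (lf (nat_lit 22) (nat_lit 253))))))))))))))) (cs (nd (nat_lit 273) (nat_lit 0) (cs (rf (nat_lit 8)) (cs (rf (nat_lit 9)) (rf (nat_lit 10))))) (rf (nat_lit 11)))))) (nd (nat_lit 299) (nat_lit 0) (cs (rf (nat_lit 12)) (cs (nd (nat_lit 321) (nat_lit 0) (cs (nd (nat_lit 320) (nat_lit 0) (cs (lf (nat_lit 42) (nat_lit 253)) (nd (nat_lit 343) (nat_lit 0) (cs (lf (nat_lit 42) (nat_lit 276)) (lf (nat_lit 24) (nat_lit 254)))))) (cs (nd (nat_lit 273) (nat_lit 0) (cs (lf (nat_lit 1) (nat_lit 273)) (nd (nat_lit 343) (nat_lit 0) (cs (lf (nat_lit 42) (nat_lit 276)) (nd (nat_lit 277) (nat_lit 0) (cs (lf (nat_lit 47) (nat_lit 254)) (nd (nat_lit 342) (nat_lit 0) (cs (lf (nat_lit 41) (nat_lit 276)) (rf (nat_lit 13)))))))))) (cs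 (nd (nat_lit 296) (nat_lit 0) (cs (nd (nat_lit 320) (nat_lit 0) (cs (lf (nat_lit 42) (nat_lit 253)) (nd (nat_lit 297) (nat_lit 0) (cs (lf (nat_lit 5) (nat_lit 296)) (lf (nat_lit 0) (nat_lit 295)))))) (cs (nd (nat_lit 320) (nat_lit 0) (cs (lf (nat_lit 42) (nat_lit 253)) (nd (nat_lit 274) (nat_lit 0) (cs (lf (nat_lit 0) (nat_lit 273)) (nd (nat_lit 295) (nat_lit 0) (cs (lf (nat_lit 6) (nat_lit 273)) (nd (nat_lit 318) (nat_lit 0) (cs (lf (nat_lit 30) (nat_lit 252)) (lf (nat_lit 20) (nat_lit 295)))))))))) (nd (nat_lit 273) (nat_lit 0) (cs (lf (nat_lit 1) (nat_lit 273)) (nd (nat_lit 297) (nat_lit 0) (cs (lf (nat_lit 5) (nat_lit 296)) (nd (nat_lit 318) (nat_lit 0) (cs (lf (nat_lit 11) (nat_lit 295)) (rf (nat_lit 14))))))))))) (nd (nat_lit 273) (nat_lit 0) (cs (lf (nat_lit 1) (nat_lit 273)) (nd (nat_lit 343) (nat_lit 0) (cs (lf (nat_lit 42) (nat_lit 276)) (nd (nat_lit 254) (nat_lit 0) (cs (lf (nat_lit 27) (nat_lit 254)) (lf (nat_lit 45) (nat_lit 254)))))))))))) (nd (nat_lit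 319) (nat_lit 0) (cs (nd (nat_lit 300) (nat_lit 0) (cs (lf (nat_lit 18) (nat_lit 275)) (nd (nat_lit 297) (nat_lit 0) (cs (lf (nat_lit 11) (nat_lit 296)) (rf (nat_lit 15)))))) (cs (nd (nat_lit 300) (nat_lit 0) (cs (lf (nat_lit 18) (nat_lit 275)) (nd (nat_lit 320) (nat_lit 0) (cs (lf (nat_lit 42) (nat_lit 253)) (nd (nat_lit 318) (nat_lit 0) (cs (lf (nat_lit 12) (nat_lit 295)) (lf (nat_lit 15) (nat_lit 296)))))))) (cs (nd (nat_lit 320) (nat_lit 0) (cs (lf (nat_lit 42) (nat_lit 253)) (nd (nat_lit 317) (nat_lit 0) (cs (lf (nat_lit 13) (nat_lit 295)) (rf (nat_lit 16)))))) (nd (nat_lit 300) (nat_lit 0) (cs (lf (nat_lit 18) (nat_lit 275)) (nd (nat_lit 320) (nat_lit 0) (cs (lf (nat_lit 42) (nat_lit 253)) (rf (nat_lit 16))))))))))))))))) q100527 (by decide +kernel)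
def q100609 : Q := Q.p (nat_lit 0x3800002000000000000000000000000000000000000000000000000000000000000000) (nat_lit 0x40000740001f0001fd8001e6000078000df0002f8001ff0001f00005c0000000000000000000000000000000000000000) (nat_lit 17)
theorem c100609 : QOK q100609 := cut [q22169, q99772, q100121, q98356, q100461, q100444, q2614, q96836, q22544, q96757, q96835, q14273, q99891, q100595, q100493, q99892] ⟨c22169, c99772, c100121, c98356, c100461, c100444, c2614, c96836, c22544, c96757, c96835, c14273, c99891, c100595, c100493, c99892, trivial⟩ (nd (nat_lit 274) (nat_lit 0) (cs (rf (nat_lit 0)) (cs (rf (nat_lit 1)) (cs (rf (nat_lit 2)) (nd (nat_lit 299) (nat_lit 0) (cs (lf (nat_lit 5) (nat_lit 274)) (nd (nat_lit 321) (nat_lit 0) (cs (nd (nat_lit 343) (nat_lit 0) (cs (lf (nat_lit 47) (nat_lit 254)) (nd (nat_lit 298) (nat_lit 0) (cs (lf (nat_lit 42) (nat_lit 276)) (nd (nat_lit 342) (nat_lit 0) (cs (lf (nat_lit 41) (nat_lit 276)) (lf (nat_lit 43) (nat_lit 253)))))))) (cs (nd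 (nat_lit 231) (nat_lit 0) (cs (rf (nat_lit 3)) (cs (rf (nat_lit 4)) (nd (nat_lit 297) (nat_lit 0) (cs (rf (nat_lit 5)) (cs (nd (nat_lit 320) (nat_lit 0) (cs (lf (nat_lit 28) (nat_lit 231)) (nd (nat_lit 319) (nat_lit 0) (cs (lf (nat_lit 29) (nat_lit 253)) (nd (nat_lit 341) (nat_lit 0) (cs (rf (nat_lit 6)) (lf (nat_lit 35) (nat_lit 253)))))))) (nd (nat_lit 230) (nat_lit 0) (cs (lf (nat_lit 47) (nat_lit 208)) (nd (nat_lit 229) (nat_lit 0) (cs (rf (nat_lit 7)) (cs (nd (nat_lit 252) (nat_lit 0) (cs (lf (nat_lit 23) (nat_lit 251)) (nd (nat_lit 320) (nat_lit 0) (cs (lf (nat_lit 28) (nat_lit 231)) (nd (nat_lit 255) (nat_lit 0) (cs (lf (nat_lit 41) (nat_lit 254)) (lf (nat_lit 19) (nat_lit 229)))))))) (nd (nat_lit 228) (nat_lit 0) (cs (rf (nat_lit 8)) (cs (rf (nat_lit 9)) (cs (rf (nat_lit 10)) (nd (nat_lit 206) (nat_lit 0) (cs (lf (nat_lit 23) (nat_lit 205)) (nd (nat_lit 250) (nat_lit 0) (cs (lf (nat_lit 11) (nat_lit 227)) (nd (nat_lit 251) (nat_lit 0) (cs (lf (nat_lit 2)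 (nat_lit 250)) (nd (nat_lit 184) (nat_lit 0) (cs (lf (nat_lit 24) (nat_lit 162)) (nd (nat_lit 185) (nat_lit 0) (cs (lf (nat_lit 35) (nat_lit 162)) (nd (nat_lit 272) (nat_lit 0) (cs (lf (nat_lit 37) (nat_lit 184)) (nd (nat_lit 293) (nat_lit 0) (cs (lf (nat_lit 40) (nat_lit 205)) (nd (nat_lit 294) (nat_lit 0) (cs (lf (nat_lit 30) (nat_lit 228)) (lf (nat_lit 41) (nat_lit 227))))))))))))))))))))))))))))))))) (cs (nd (nat_lit 251) (nat_lit 0) (cs (lf (nat_lit 22) (nat_lit 251)) (nd (nat_lit 343) (nat_lit 0) (cs (lf (nat_lit 47) (nat_lit 254)) (nd (nat_lit 344) (nat_lit 0) (cs (lf (nat_lit 29) (nat_lit 277)) (nd (nat_lit 255) (nat_lit 0) (cs (lf (nat_lit 28) (nat_lit 255)) (rf (nat_lit 11)))))))))) (cs (nd (nat_lit 251) (nat_lit 0) (cs (lf (nat_lit 22) (nat_lit 251)) (nd (nat_lit 343) (nat_lit 0) (cs (lf (nat_lit 47) (nat_lit 254)) (rf (nat_lit 12)))))) (cs (nd (nat_lit 251) (nat_lit 0) (cs (lf (nat_lit 22) (nat_lit 251)) (nd (nat_lit 343) (nat_lit 0) (cs (lf (nat_lit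 47) (nat_lit 254)) (nd (nat_lit 342) (nat_lit 0) (cs (lf (nat_lit 41) (nat_lit 276)) (rf (nat_lit 13)))))))) (nd (nat_lit 342) (nat_lit 0) (cs (nd (nat_lit 320) (nat_lit 0) (cs (lf (nat_lit 36) (nat_lit 254)) (lf (nat_lit 44) (nat_lit 253)))) (cs (nd (nat_lit 251) (nat_lit 0) (cs (lf (nat_lit 22) (nat_lit 251)) (nd (nat_lit 343) (nat_lit 0) (cs (lf (nat_lit 41) (nat_lit 276)) (nd (nat_lit 298) (nat_lit 0) (cs (lf (nat_lit 42) (nat_lit 276)) (nd (nat_lit 209) (nat_lit 0) (cs (lf (nat_lit 25) (nat_lit 209)) (rf (nat_lit 14)))))))))) (cs (nd (nat_lit 343) (nat_lit 0) (cs (lf (nat_lit 41) (nat_lit 276)) (rf (nat_lit 13)))) (nd (nat_lit 343) (nat_lit 0) (cs (lf (nat_lit 41) (nat_lit 276)) (rf (nat_lit 15)))))))))))))))))))) q100609 (by decide +kernel)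
def q100639 : Q := Q.p (nat_lit 0x200000800003000000000000000000000000000000000000000000000000000000000000000) (nat_lit 0x300000c00007000018000040000140000400001c000040000000000000000000000000000000000000000000000000000) (nat_lit 9)
theorem c100639 : QOK q100639 := cut [q88946] ⟨c88946, trivial⟩ (nd (nat_lit 319) (nat_lit 0) (cs (lf (nat_lit 47) (nat_lit 230)) (nd (nat_lit 232) (nat_lit 0) (cs (lf (nat_lit 34) (nat_lit 231)) (nd (nat_lit 210) (nat_lit 0) (cs (lf (nat_lit 33) (nat_lit 209)) (rf (nat_lit 0)))))))) q100639 (by decide +kernel)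
def q100649 : Q := Q.p (nat_lit 0xc00003800004000010000000000000000000000000000000000000000000000000000) (nat_lit 0x40000100000d80003380000000003c0000f000030000000000000000000000000000000000000000000000) (nat_lit 11)
theorem c100649 : QOK q100649 := cut [q100647] ⟨c100647, trivial⟩ (nd (nat_lit 273) (nat_lit 0) (cs (lf (nat_lit 41) (nat_lit 207)) (nd (nat_lit 271) (nat_lit 0) (cs (lf (nat_lit 13) (nat_lit 249)) (rf (nat_lit 0)))))) q100649 (by decide +kernel)
def q100683 : Q := Q.p (nat_lit 0x800003000000000000000000000000000000000000000000000000000000000000000) (nat_lit 0x700001e000078000ef0003fe000778000400001f8000780001c0000100000000000000000000000000000000000000000) (nat_lit 13)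
theorem c100683 : QOK q100683 := cut [q88933, q88941, q100670, q90752, q99694, q11666, q11728, q94518, q11757, q86595, q79111, q88337, q91969, q87351, q100682] ⟨c88933, c88941, c100670, c90752, c99694, c11666, c11728, c94518, c11757, c86595, c79111, c88337, c91969, c87351, c100682, trivial⟩ (nd (nat_lit 297) (nat_lit 0) (cs (rf (nat_lit 0)) (cs (rf (nat_lit 1)) (cs (rf (nat_lit 2)) (cs (nd (nat_lit 296) (nat_lit 0) (cs (rf (nat_lit 3)) (cs (rf (nat_lit 4)) (cs (nd (nat_lit 295) (nat_lit 0) (cs (rf (nat_lit 5)) (cs (rf (nat_lit 6)) (cs (rf (nat_lit 7)) (nd (nat_lit 317) (nat_lit 0) (cs (nd (nat_lit 298) (nat_lit 0) (cs (lf (nat_lit 11) (nat_lit 294)) (rf (nat_lit 8)))) (nd (nat_lit 274) (nat_lit 0) (cs (lf (nat_lit 36) (nat_lit 229)) (rf (nat_lit 9)))))))))) (nd (nat_lit 230) (nat_lit 0) (cs (rf (nat_lit 10)) (cs (rf (nat_lit 11)) (nd (nat_lit 274) (nat_lit 0) (cs (rf (nat_lit 12)) (nd (nat_lit 231) (nat_lit 0) (cs (lf (nat_lit 36) (nat_lit 208)) (nd (nat_lit 210)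 (nat_lit 0) (cs (lf (nat_lit 34) (nat_lit 209)) (rf (nat_lit 13))))))))))))))) (rf (nat_lit 14))))))) q100683 (by decide +kernel)
def q100793 : Q := Q.p (nat_lit 0x800003000004000000000000000000000000000000000000000000000000000000000) (nat_lit 0x28000070000c0000000000380000e0000000000000000000000000000000000000000000000) (nat_lit 7)
theorem c100793 : QOK q100793 := cut [q100265] ⟨c100265, trivial⟩ (nd (nat_lit 208) (nat_lit 0) (cs (lf (nat_lit 24) (nat_lit 186)) (nd (nat_lit 274) (nat_lit 0) (cs (lf (nat_lit 29) (nat_lit 208)) (rf (nat_lit 0)))))) q100793 (by decide +kernel)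
def q100816 : Q := Q.p (nat_lit 0x800003800004000000000000000000000000000000000000000000000000000000000) (nat_lit 0x40000100000f80003780000000003c0003f0000f0000000000000000000000000000000000000000000000) (nat_lit 14)
theorem c100816 : QOK q100816 := cut [q100647] ⟨c100647, trivial⟩ (nd (nat_lit 208) (nat_lit 0) (cs (lf (nat_lit 24) (nat_lit 186)) (nd (nat_lit 274) (nat_lit 0) (cs (lf (nat_lit 29) (nat_lit 208)) (nd (nat_lit 273) (nat_lit 0) (cs (lf (nat_lit 41) (nat_lit 207)) (nd (nat_lit 271) (nat_lit 0) (cs (lf (nat_lit 13) (nat_lit 249)) (nd (nat_lit 187) (nat_lit 0) (cs (lf (nat_lit 34) (nat_lit 186)) (rf (nat_lit 0)))))))))))) q100816 (by decide +kernel)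
def q100846 : Q := Q.p (nat_lit 0x2000008000030000000000000000000000000000000000000000000000000000) (nat_lit 0x37c000cf80037e000500001400000000000000000000000000000000000) (nat_lit 9)
theorem c100846 : QOK q100846 := cut [q119, q2938, q96258, q100845] ⟨c119, c2938, c96258, c100845, trivial⟩ (nd (nat_lit 207) (nat_lit 0) (cs (rf (nat_lit 0)) (cs (rf (nat_lit 1)) (cs (rf (nat_lit 2)) (rf (nat_lit 3)))))) q100846 (by decide +kernel)
def q100919 : Q := Q.p (nat_lit 0x3000008000000000000000000000000000000000000000000000000000000000) (nat_lit 0xc0003f0000fc0003fc000ce00073c000c0000300000c00000000000000000000000000000000000000000) (nat_lit 13)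
theorem c100919 : QOK q100919 := cut [q82278, q96402, q96403, q96341, q100892, q92239, q100917] ⟨c82278, c96402, c96403, c96341, c100892, c92239, c100917, trivial⟩ (nd (nat_lit 251) (nat_lit 0) (cs (rf (nat_lit 0)) (cs (rf (nat_lit 1)) (cs (rf (nat_lit 2)) (nd (nat_lit 254) (nat_lit 0) (cs (rf (nat_lit 3)) (cs (rf (nat_lit 4)) (cs (nd (nat_lit 228) (nat_lit 0) (cs (lf (nat_lit 22) (nat_lit 228)) (rf (nat_lit 5)))) (rf (nat_lit 6)))))))))) q100919 (by decide +kernel)
def q100923 : Q := Q.p (nat_lit 0x380000c000000000000000000000000000000000000000000000000000000000) (nat_lit 0x10000048000330000c00000380001e000050000040000000000000000000000000000000000000000) (nat_lit 7)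
theorem c100923 : QOK q100923 := cut [q84417, q87928, q100922] ⟨c84417, c87928, c100922, trivial⟩ (nd (nat_lit 229) (nat_lit 0) (cs (rf (nat_lit 0)) (cs (rf (nat_lit 1)) (rf (nat_lit 2))))) q100923 (by decide +kernel)
def q100943 : Q := Q.p (nat_lit 0x380000c000000000000000000000000000000000000000000000000000000000) (nat_lit 0x100000c000038000060000380000e000030000040000000000000000000000000000000000000000) (nat_lit 7)
theorem c100943 : QOK q100943 := cut [q87919, q87928, q87931, q87934] ⟨c87919, c87928, c87931, c87934, trivial⟩ (nd (nat_lit 229) (nat_lit 0) (cs (rf (nat_lit 0)) (cs (rf (nat_lit 1)) (cs (rf (nat_lit 2)) (rf (nat_lit 3)))))) q100943 (by decide +kernel)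
def q100961 : Q := Q.p (nat_lit 0x300000c000000000000000000000000000000000000000000000000000000000) (nat_lit 0x160000580003f8001ce0006380000e0000300000c0000000000000000000000000000000000000000) (nat_lit 12)
theorem c100961 : QOK q100961 := cut [q81488, q100951, q100927, q100946, q100959] ⟨c81488, c100951, c100927, c100946, c100959, trivial⟩ (nd (nat_lit 254) (nat_lit 0) (cs (rf (nat_lit 0)) (cs (rf (nat_lit 1)) (nd (nat_lit 251) (nat_lit 0) (cs (rf (nat_lit 2)) (cs (rf (nat_lit 3)) (rf (nat_lit 4)))))))) q100961 (by decide +kernel)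
def q101019 : Q := Q.p (nat_lit 0x300000c000000000000000000000000000000000000000000000000000000000) (nat_lit 0xe00003e0001f80000e0000380001e0000f8000380000000000000000000000000000000000000000) (nat_lit 13)
theorem c101019 : QOK q101019 := cut [q79996, q84438, q57679, q92723, q85470, q96422] ⟨c79996, c84438, c57679, c92723, c85470, c96422, trivial⟩ (nd (nat_lit 208) (nat_lit 0) (cs (rf (nat_lit 0)) (cs (rf (nat_lit 1)) (nd (nat_lit 274) (nat_lit 0) (cs (rf (nat_lit 2)) (cs (rf (nat_lit 3)) (nd (nat_lit 275) (nat_lit 0) (cs (rf (nat_lit 4)) (rf (nat_lit 5)))))))))) q101019 (by decide +kernel)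
def q101048 : Q := Q.p (nat_lit 0x300000c000000000000000000000000000000000000000000000000000000000) (nat_lit 0x100002400018e000738001dc000120000480000000000000000000000000000000000000000) (nat_lit 7)
theorem c101048 : QOK q101048 := cut [q57663, q86631, q96408] ⟨c57663, c86631, c96408, trivial⟩ (nd (nat_lit 232) (nat_lit 0) (cs (rf (nat_lit 0)) (cs (rf (nat_lit 1)) (rf (nat_lit 2))))) q101048 (by decide +kernel)
def q101059 : Q := Q.p (nat_lit 0x7800018000000000000000000000000000000000000000000000000000000000) (nat_lit 0x180000600003b000000000000000c0000300000c00000000000000000000000000000000000000000) (nat_lit 8)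
theorem c101059 : QOK q101059 := cut [q88782] ⟨c88782, trivial⟩ (nd (nat_lit 272) (nat_lit 0) (cs (lf (nat_lit 10) (nat_lit 250)) (rf (nat_lit 0)))) q101059 (by decide +kernel)
def q101089 : Q := Q.p (nat_lit 0x7800008000000000000000000000000000000000000000000000000000000000) (nat_lit 0x80003f0000fc000370000000003700001c000070000140000000000000000000000000000000000000000) (nat_lit 12)
theorem c101089 : QOK q101089 := cut [q86851, q90622, q80588] ⟨c86851, c90622, c80588, trivial⟩ (nd (nat_lit 273) (nat_lit 0) (cs (lf (nat_lit 11) (nat_lit 250)) (nd (nat_lit 295) (nat_lit 0) (cs (rf (nat_lit 0)) (cs (nd (nat_lit 276) (nat_lit 0) (cs (lf (nat_lit 5) (nat_lit 251)) (nd (nat_lit 298) (nat_lit 0) (cs (lf (nat_lit 42) (nat_lit 231)) (nd (nat_lit 232) (nat_lit 0) (cs (lf (nat_lit 17) (nat_lit 229)) (nd (nat_lit 297) (nat_lit 0) (cs (lf (nat_lit 41) (nat_lit 231)) (nd (nat_lit 299) (nat_lit 0) (cs (lf (nat_lit 29) (nat_lit 232)) (nd (nat_lit 274) (nat_lit 0) (cs (lf (nat_lit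 21) (nat_lit 273)) (rf (nat_lit 1)))))))))))))) (nd (nat_lit 229) (nat_lit 0) (cs (lf (nat_lit 23) (nat_lit 228)) (nd (nat_lit 276) (nat_lit 0) (cs (lf (nat_lit 5) (nat_lit 251)) (nd (nat_lit 298) (nat_lit 0) (cs (lf (nat_lit 42) (nat_lit 231)) (rf (nat_lit 2))))))))))))) q101089 (by decide +kernel)
def q101100 : Q := Q.p (nat_lit 0x3800008000000000000000000000000000000000000000000000000000000000) (nat_lit 0x38001c600007c00000000000000000000000000000000000000000000000000000000) (nat_lit 6)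
theorem c101100 : QOK q101100 := cut [q82296, q88801, q88839] ⟨c82296, c88801, c88839, trivial⟩ (nd (nat_lit 250) (nat_lit 0) (cs (rf (nat_lit 0)) (cs (rf (nat_lit 1)) (rf (nat_lit 2))))) q101100 (by decide +kernel)
def q101133 : Q := Q.p (nat_lit 0x3800008000000000000000000000000000000000000000000000000000000000) (nat_lit 0x200003fc001c600006000010000040000000000000000000000000000000000000000000000) (nat_lit 7)
theorem c101133 : QOK q101133 := cut [q83680, q96610, q101130] ⟨c83680, c96610, c101130, trivial⟩ (nd (nat_lit 272) (nat_lit 0) (cs (rf (nat_lit 0)) (cs (rf (nat_lit 1)) (nd (nat_lit 254) (nat_lit 0) (cs (lf (nat_lit 10) (nat_lit 250)) (nd (nat_lit 276) (nat_lit 0) (cs (lf (nat_lit 5) (nat_lit 251)) (rf (nat_lit 2))))))))) q101133 (by decide +kernel)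
def q101135 : Q := Q.p (nat_lit 0x3000008000000000000000000000000000000000000000000000000000000000) (nat_lit 0x3c0003fc0003c0000ce00077c000dc000360000c80000000000000000000000000000000000000000) (nat_lit 15)
theorem c101135 : QOK q101135 := cut [q82275, q82278, q91142, q82274, q82277, q79254, q88782, q94038, q101120] ⟨c82275, c82278, c91142, c82274, c82277, c79254, c88782, c94038, c101120, trivial⟩ (nd (nat_lit 251) (nat_lit 0) (cs (rf (nat_lit 0)) (cs (rf (nat_lit 1)) (cs (rf (nat_lit 2)) (nd (nat_lit 232) (nat_lit 0) (cs (rf (nat_lit 3)) (cs (rf (nat_lit 4)) (nd (nat_lit 254) (nat_lit 0) (cs (rf (nat_lit 5)) (cs (rf (nat_lit 6)) (cs (nd (nat_lit 276) (nat_lit 0) (cs (lf (nat_lit 5) (nat_lit 251)) (nd (nat_lit 298) (nat_lit 0) (cs (lf (nat_lit 42) (nat_lit 231)) (nd (nat_lit 229) (nat_lit 0) (cs (lf (nat_lit 23) (nat_lit 228)) (nd (nat_lit 299) (nat_lit 0) (cs (lf (nat_lit 29) (nat_lit 232)) (rf (nat_lit 7)))))))))) (nd (nat_lit 229) (nat_lit 0) (cs (lf (nat_lit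 23) (nat_lit 228)) (nd (nat_lit 276) (nat_lit 0) (cs (lf (nat_lit 5) (nat_lit 251)) (nd (nat_lit 230) (nat_lit 0) (cs (lf (nat_lit 18) (nat_lit 229)) (nd (nat_lit 298) (nat_lit 0) (cs (lf (nat_lit 42) (nat_lit 231)) (nd (nat_lit 206) (nat_lit 0) (cs (lf (nat_lit 22) (nat_lit 206)) (nd (nat_lit 297) (nat_lit 0) (cs (lf (nat_lit 41) (nat_lit 231)) (nd (nat_lit 275) (nat_lit 0) (cs (lf (nat_lit 47) (nat_lit 208)) (rf (nat_lit 8))))))))))))))))))))))))))) q101135 (by decide +kernel)
def q101199 : Q := Q.p (nat_lit 0x380000a000000000000000000000000000000000000000000000000000000000) (nat_lit 0x3c0000f800000000358000de0001700005c0000500000000000000000000000000000000000) (nat_lit 12)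
theorem c101199 : QOK q101199 := cut [q5482, q11484, q96643, q87928, q96624, q96641, q96630] ⟨c5482, c11484, c96643, c87928, c96624, c96641, c96630, trivial⟩ (nd (nat_lit 207) (nat_lit 0) (cs (rf (nat_lit 0)) (cs (rf (nat_lit 1)) (cs (rf (nat_lit 2)) (cs (nd (nat_lit 230) (nat_lit 0) (cs (rf (nat_lit 3)) (cs (rf (nat_lit 4)) (rf (nat_lit 5))))) (nd (nat_lit 230) (nat_lit 0) (cs (rf (nat_lit 3)) (cs (rf (nat_lit 4)) (rf (nat_lit 6)))))))))) q101199 (by decide +kernel)
def q101216 : Q := Q.p (nat_lit 0x2000008000020000000000000000000000000000000000000000000000000000) (nat_lit 0x1400007e0003f0001de00010000050000140000000000000000000000000000000000000000000000) (nat_lit 10)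
theorem c101216 : QOK q101216 := cut [q717, q93264, q101213, q101214] ⟨c717, c93264, c101213, c101214, trivial⟩ (nd (nat_lit 275) (nat_lit 0) (cs (rf (nat_lit 0)) (cs (rf (nat_lit 1)) (cs (rf (nat_lit 2)) (nd (nat_lit 186) (nat_lit 0) (cs (lf (nat_lit 46) (nat_lit 186)) (rf (nat_lit 3)))))))) q101216 (by decide +kernel)
def q101231 : Q := Q.p (nat_lit 0x2000008000020000080000000000000000000000000000000000000000000000) (nat_lit 0x140001d0000700001df000778001df0000000000000000000000000000000000000000) (nat_lit 14)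
theorem c101231 : QOK q101231 := cut [q84587, q84602, q4698] ⟨c84587, c84602, c4698, trivial⟩ (nd (nat_lit 186) (nat_lit 0) (cs (lf (nat_lit 47) (nat_lit 164)) (nd (nat_lit 185) (nat_lit 0) (cs (rf (nat_lit 0)) (cs (rf (nat_lit 1)) (cs (nd (nat_lit 188) (nat_lit 0) (cs (lf (nat_lit 35) (nat_lit 165)) (nd (nat_lit 252) (nat_lit 0) (cs (lf (nat_lit 41) (nat_lit 186)) (nd (nat_lit 162) (nat_lit 0) (cs (lf (nat_lit 22) (nat_lit 162)) (nd (nat_lit 206) (nat_lit 0) (cs (lf (nat_lit 10) (nat_lit 184)) (nd (nat_lit 254) (nat_lit 0) (cs (lf (nat_lit 29) (nat_lit 187)) (nd (nat_lit 211) (nat_lit 0) (cs (lf (nat_lit 4) (nat_lit 185)) (nd (nat_lit 189) (nat_lit 0) (cs (lf (nat_lit 5) (nat_lit 186)) (nd (nat_lit 167) (nat_lit 0) (cs (lf (nat_lit 17) (nat_lit 164)) (nd (nat_lit 190) (nat_lit 0) (cs (lf (nat_lit 11) (nat_lit 186)) (nd (nat_lit 233) (nat_lit 0) (cs (lf (nat_lit 40) (nat_lit 166)) (nd (nat_lit 234) (nat_lit 0) (cs (lf (nat_lit 29) (nat_lit 167)) (lf (nat_lit 15)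 (nat_lit 230)))))))))))))))))))))))) (nd (nat_lit 188) (nat_lit 0) (cs (lf (nat_lit 35) (nat_lit 165)) (nd (nat_lit 252) (nat_lit 0) (cs (lf (nat_lit 41) (nat_lit 186)) (rf (nat_lit 2)))))))))))) q101231 (by decide +kernel)
def q101249 : Q := Q.p (nat_lit 0x3c0000000000000000000000000000000000000000000000) (nat_lit 0x1ce0000300018e0000000000000000000000000000000000000000) (nat_lit 7)
theorem c101249 : QOK q101249 := cut [q101248] ⟨c101248, trivial⟩ (nd (nat_lit 167) (nat_lit 0) (cs (lf (nat_lit 17) (nat_lit 164)) (rf (nat_lit 0)))) q101249 (by decide +kernel)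
def q101300 : Q := Q.p (nat_lit 0x600001e000000000000000000000000000000000000000000000000000000000) (nat_lit 0x300000c000030000000000000000e0000380000e00000000000000000000000000000000000000000) (nat_lit 8)
theorem c101300 : QOK q101300 := cut [q101299] ⟨c101299, trivial⟩ (nd (nat_lit 210) (nat_lit 0) (cs (lf (nat_lit 17) (nat_lit 207)) (rf (nat_lit 0)))) q101300 (by decide +kernel)
def q101311 : Q := Q.p (nat_lit 0x300000c000000000000000000000000000000000000000000000000000000000) (nat_lit 0xe000078000078000c8000000000380000e0000180000000000000000000000000000000000000000) (nat_lit 8)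
theorem c101311 : QOK q101311 := cut [q79097, q85044, q11003, q84624, q101309] ⟨c79097, c85044, c11003, c84624, c101309, trivial⟩ (nd (nat_lit 274) (nat_lit 0) (cs (rf (nat_lit 0)) (cs (rf (nat_lit 1)) (nd (nat_lit 208) (nat_lit 0) (cs (rf (nat_lit 2)) (cs (rf (nat_lit 3)) (rf (nat_lit 4)))))))) q101311 (by decide +kernel)
def q101319 : Q := Q.p (nat_lit 0x300000c000000000000000000000000000000000000000000000000000000000) (nat_lit 0x50000370001ce000700001e0000280000800000000000000000000000000000000000000000) (nat_lit 7)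
theorem c101319 : QOK q101319 := cut [q96798, q101315, q101318] ⟨c96798, c101315, c101318, trivial⟩ (nd (nat_lit 254) (nat_lit 0) (cs (rf (nat_lit 0)) (cs (rf (nat_lit 1)) (rf (nat_lit 2))))) q101319 (by decide +kernel)
def q101345 : Q := Q.p (nat_lit 0x380000c000000000000000000000000000000000000000000000000000000000) (nat_lit 0x130001c0000700001fc0007f8000780001000000000000000000000000000000000000) (nat_lit 10)
theorem c101345 : QOK q101345 := cut [q82378, q101325, q101326, q78834, q16048, q101342] ⟨c82378, c101325, c101326, c78834, c16048, c101342, trivial⟩ (nd (nat_lit 208) (nat_lit 0) (cs (rf (nat_lit 0)) (cs (nd (nat_lit 209) (nat_lit 0) (cs (rf (nat_lit 1)) (cs (nd (nat_lit 233) (nat_lit 0) (cs (lf (nat_lit 7) (nat_lit 229)) (nd (nat_lit 187) (nat_lit 0) (cs (lf (nat_lit 36) (nat_lit 164)) (rf (nat_lit 2)))))) (cs (nd (nat_lit 187) (nat_lit 0) (cs (lf (nat_lit 36) (nat_lit 164)) (nd (nat_lit 254) (nat_lit 0) (cs (lf (nat_lit 29) (nat_lit 187)) (nd (nat_lit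 272) (nat_lit 0) (cs (lf (nat_lit 10) (nat_lit 250)) (nd (nat_lit 255) (nat_lit 0) (cs (rf (nat_lit 3)) (lf (nat_lit 18) (nat_lit 230)))))))))) (nd (nat_lit 187) (nat_lit 0) (cs (lf (nat_lit 36) (nat_lit 164)) (nd (nat_lit 232) (nat_lit 0) (cs (lf (nat_lit 6) (nat_lit 229)) (nd (nat_lit 207) (nat_lit 0) (cs (lf (nat_lit 0) (nat_lit 206)) (nd (nat_lit 254) (nat_lit 0) (cs (lf (nat_lit 29) (nat_lit 187)) (nd (nat_lit 272) (nat_lit 0) (cs (rf (nat_lit 4)) (lf (nat_lit 10) (nat_lit 250)))))))))))))))) (nd (nat_lit 209) (nat_lit 0) (cs (rf (nat_lit 1)) (cs (nd (nat_lit 233) (nat_lit 0) (cs (lf (nat_lit 7) (nat_lit 229)) (nd (nat_lit 187) (nat_lit 0) (cs (lf (nat_lit 36) (nat_lit 164)) (nd (nat_lit 166) (nat_lit 0) (cs (lf (nat_lit 34) (nat_lit 165)) (rf (nat_lit 2)))))))) (nd (nat_lit 165) (nat_lit 0) (cs (lf (nat_lit 37) (nat_lit 164)) (rf (nat_lit 5)))))))))) q101345 (by decide +kernel)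
def q101374 : Q := Q.p (nat_lit 0x300000c000000000000000000000000000000000000000000000000000000000) (nat_lit 0x10000140001c8000700001fe0007f8000f80001000000000000000000000000000000000000) (nat_lit 13)
theorem c101374 : QOK q101374 := cut [q84993, q96868, q82300, q84998, q87241, q101349, q101342, q101358] ⟨c84993, c96868, c82300, c84998, c87241, c101349, c101342, c101358, trivial⟩ (nd (nat_lit 208) (nat_lit 0) (cs (rf (nat_lit 0)) (cs (rf (nat_lit 1)) (cs (nd (nat_lit 209) (nat_lit 0) (cs (rf (nat_lit 2)) (cs (rf (nat_lit 3)) (rf (nat_lit 4))))) (cs (nd (nat_lit 186) (nat_lit 0) (cs (lf (nat_lit 24) (nat_lit 164)) (nd (nat_lit 187) (nat_lit 0) (cs (lf (nat_lit 35) (nat_lit 164)) (nd (nat_lit 209) (nat_lit 0) (cs (lf (nat_lit 30) (nat_lit 186)) (nd (nat_lit 254) (nat_lit 0) (cs (lf (nat_lit 29) (nat_lit 187)) (nd (nat_lit 255) (nat_lit 0) (cs (lf (nat_lit 18) (nat_lit 230)) (nd (nat_lit 166) (nat_lit 0) (cs (lf (nat_lit 34) (nat_lit 165)) (rf (nat_lit 5))))))))))))))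 (cs (nd (nat_lit 209) (nat_lit 0) (cs (rf (nat_lit 3)) (cs (rf (nat_lit 6)) (nd (nat_lit 187) (nat_lit 0) (cs (lf (nat_lit 36) (nat_lit 164)) (nd (nat_lit 254) (nat_lit 0) (cs (lf (nat_lit 29) (nat_lit 187)) (nd (nat_lit 255) (nat_lit 0) (cs (lf (nat_lit 18) (nat_lit 230)) (nd (nat_lit 164) (nat_lit 0) (cs (lf (nat_lit 25) (nat_lit 164)) (nd (nat_lit 233) (nat_lit 0) (cs (lf (nat_lit 17) (nat_lit 230)) (nd (nat_lit 232) (nat_lit 0) (cs (lf (nat_lit 11) (nat_lit 229)) (rf (nat_lit 7))))))))))))))))) (nd (nat_lit 186) (nat_lit 0) (cs (lf (nat_lit 24) (nat_lit 164)) (nd (nat_lit 163) (nat_lit 0) (cs (lf (nat_lit 46) (nat_lit 163)) (nd (nat_lit 187) (nat_lit 0) (cs (lf (nat_lit 35) (nat_lit 164)) (nd (nat_lit 209) (nat_lit 0) (cs (lf (nat_lit 30) (nat_lit 186)) (nd (nat_lit 254) (nat_lit 0) (cs (lf (nat_lit 29) (nat_lit 187)) (nd (nat_lit 255) (nat_lit 0) (cs (lf (nat_lit 18) (nat_lit 230)) (nd (nat_lit 233) (nat_lit 0) (cs (lf (nat_lit 17) (nat_lit 230)) (nd (nat_lit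 232) (nat_lit 0) (cs (lf (nat_lit 12) (nat_lit 229)) (rf (nat_lit 7)))))))))))))))))))))))) q101374 (by decide +kernel)
def q101386 : Q := Q.p (nat_lit 0x200000c000000000000000000000000000000000000000000000000000000000) (nat_lit 0x300000c0000320001cf000338000ff0003d8000f00000c00000000000000000000000000000000000) (nat_lit 12)
theorem c101386 : QOK q101386 := cut [q96764, q96836, q96837, q96846, q80199, q101379, q101382] ⟨c96764, c96836, c96837, c96846, c80199, c101379, c101382, trivial⟩ (nd (nat_lit 229) (nat_lit 0) (cs (rf (nat_lit 0)) (cs (rf (nat_lit 1)) (cs (rf (nat_lit 2)) (cs (rf (nat_lit 3)) (nd (nat_lit 232) (nat_lit 0) (cs (rf (nat_lit 4)) (cs (rf (nat_lit 5)) (nd (nat_lit 210) (nat_lit 0) (cs (lf (nat_lit 17) (nat_lit 207)) (nd (nat_lit 166) (nat_lit 0) (cs (lf (nat_lit 37) (nat_lit 165)) (rf (nat_lit 6)))))))))))))) q101386 (by decide +kernel)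
def q101391 : Q := Q.p (nat_lit 0x300000c000000000000000000000000000000000000000000000000000000000) (nat_lit 0xe00007800007800008000038001fe0007f8000180000000000000000000000000000000000000000) (nat_lit 13)
theorem c101391 : QOK q101391 := cut [q79097, q85044, q11003, q84624, q96865] ⟨c79097, c85044, c11003, c84624, c96865, trivial⟩ (nd (nat_lit 274) (nat_lit 0) (cs (rf (nat_lit 0)) (cs (rf (nat_lit 1)) (nd (nat_lit 208) (nat_lit 0) (cs (rf (nat_lit 2)) (cs (rf (nat_lit 3)) (rf (nat_lit 4)))))))) q101391 (by decide +kernel)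
def q101439 : Q := Q.p (nat_lit 0x200000c000000000000000000000000000000000000000000000000000000000) (nat_lit 0x1200004c000370003df000f38001df0001700005c0000700001400000000000000000000000000000) (nat_lit 14)
theorem c101439 : QOK q101439 := cut [q96758, q96769, q96836, q80199, q96903, q101382, q101293, q101425, q101438] ⟨c96758, c96769, c96836, c80199, c96903, c101382, c101293, c101425, c101438, trivial⟩ (nd (nat_lit 229) (nat_lit 0) (cs (rf (nat_lit 0)) (cs (rf (nat_lit 1)) (cs (rf (nat_lit 2)) (cs (nd (nat_lit 232) (nat_lit 0) (cs (rf (nat_lit 3)) (cs (rf (nat_lit 4)) (cs (rf (nat_lit 5)) (cs (nd (nat_lit 254) (nat_lit 0) (cs (lf (nat_lit 5) (nat_lit 229)) (nd (nat_lit 210) (nat_lit 0) (cs (lf (nat_lit 17) (nat_lit 207)) (nd (nat_lit 166) (nat_lit 0) (cs (lf (nat_lit 37) (nat_lit 165)) (rf (nat_lit 6)))))))) (nd (nat_lit 206) (nat_lit 0) (cs (lf (nat_lit 22) (nat_lit 206)) (rf (nat_lit 7))))))))) (rf (nat_lit 8))))))) q101439 (by decide +kernel)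
def q101459 : Q := Q.p (nat_lit 0x200000c000000000000000000000000000000000000000000000000000000000) (nat_lit 0x300000c0000300007df000f38007ef000380000e00000000000000000000000000000000000000000) (nat_lit 12)
theorem c101459 : QOK q101459 := cut [q96758, q96768, q96769, q96836, q96986, q101379, q101447, q101456, q80220] ⟨c96758, c96768, c96769, c96836, c96986, c101379, c101447, c101456, c80220, trivial⟩ (nd (nat_lit 229) (nat_lit 0) (cs (rf (nat_lit 0)) (cs (rf (nat_lit 1)) (cs (rf (nat_lit 2)) (cs (rf (nat_lit 3)) (nd (nat_lit 232) (nat_lit 0) (cs (rf (nat_lit 4)) (cs (rf (nat_lit 5)) (cs (nd (nat_lit 206) (nat_lit 0) (cs (lf (nat_lit 22) (nat_lit 206)) (rf (nat_lit 6)))) (cs (rf (nat_lit 7)) (nd (nat_lit 254) (nat_lit 0) (cs (lf (nat_lit 5) (nat_lit 229)) (rf (nat_lit 8)))))))))))))) q101459 (by decide +kernel)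
def q101466 : Q := Q.p (nat_lit 0x300000d000000000000000000000000000000000000000000000000000000000) (nat_lit 0x100000e0000f80007e0000780000e000108000360000d8000320000000000000000000000000000000000000000) (nat_lit 11)
theorem c101466 : QOK q101466 := cut [q79097, q85044, q86536, q88159, q88155, q88156, q92023, q101463] ⟨c79097, c85044, c86536, c88159, c88155, c88156, c92023, c101463, trivial⟩ (nd (nat_lit 274) (nat_lit 0) (cs (rf (nat_lit 0)) (cs (rf (nat_lit 1)) (nd (nat_lit 250) (nat_lit 0) (cs (rf (nat_lit 2)) (cs (rf (nat_lit 3)) (nd (nat_lit 272) (nat_lit 0) (cs (rf (nat_lit 4)) (cs (rf (nat_lit 5)) (cs (rf (nat_lit 6)) (rf (nat_lit 7)))))))))))) q101466 (by decide +kernel)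
def q101484 : Q := Q.p (nat_lit 0x300000e000000000000000000000000000000000000000000000000000000000) (nat_lit 0x10000048000330000ce00010000010000040000000000000000000000000000000000000000000000) (nat_lit 7)
theorem c101484 : QOK q101484 := cut [q9779, q100922] ⟨c9779, c100922, trivial⟩ (nd (nat_lit 251) (nat_lit 0) (cs (rf (nat_lit 0)) (rf (nat_lit 1)))) q101484 (by decide +kernel)
def q101498 : Q := Q.p (nat_lit 0x200000e000000000000000000000000000000000000000000000000000000000) (nat_lit 0x300000c0000300007dc000f00007f00003c0000f00000000000000000000000000000000000000000) (nat_lit 11)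
theorem c101498 : QOK q101498 := cut [q97101, q101379, q101447, q97186, q101492, q80227] ⟨c97101, c101379, c101447, c97186, c101492, c80227, trivial⟩ (nd (nat_lit 232) (nat_lit 0) (cs (rf (nat_lit 0)) (cs (rf (nat_lit 1)) (cs (rf (nat_lit 2)) (cs (nd (nat_lit 254) (nat_lit 0) (cs (lf (nat_lit 5) (nat_lit 229)) (nd (nat_lit 251) (nat_lit 0) (cs (lf (nat_lit 11) (nat_lit 228)) (rf (nat_lit 3)))))) (cs (nd (nat_lit 210) (nat_lit 0) (cs (lf (nat_lit 17) (nat_lit 207)) (nd (nat_lit 166) (nat_lit 0) (cs (lf (nat_lit 37) (nat_lit 165)) (nd (nat_lit 251) (nat_lit 0) (cs (lf (nat_lit 11) (nat_lit 228)) (nd (nat_lit 233) (nat_lit 0) (cs (lf (nat_lit 10) (nat_lit 229)) (rf (nat_lit 4)))))))))) (nd (nat_lit 254) (nat_lit 0) (cs (lf (nat_lit 5) (nat_lit 229)) (rf (nat_lit 5)))))))))) q101498 (by decide +kernel)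
def q101550 : Q := Q.p (nat_lit 0x800002000008000000000000000000000000000000000000000000000000000000000) (nat_lit 0x50000ff8003fe0003780004600015000054000000000000000000000000000000000000000000000000000) (nat_lit 13)
theorem c101550 : QOK q101550 := cut [q84365, q98788, q101528, q14517, q22529, q101546, q101548] ⟨c84365, c98788, c101528, c14517, c22529, c101546, c101548, trivial⟩ (nd (nat_lit 297) (nat_lit 0) (cs (rf (nat_lit 0)) (cs (nd (nat_lit 296) (nat_lit 0) (cs (lf (nat_lit 41) (nat_lit 230)) (nd (nat_lit 295) (nat_lit 0) (cs (rf (nat_lit 1)) (cs (nd (nat_lit 276) (nat_lit 0) (cs (lf (nat_lit 12) (nat_lit 272)) (rf (nat_lit 2)))) (cs (nd (nat_lit 294) (nat_lit 0) (cs (lf (nat_lit 17) (nat_lit 272)) (nd (nat_lit 274) (nat_lit 0) (cs (lf (nat_lit 12) (nat_lit 271)) (nd (nat_lit 315) (nat_lit 0) (cs (lf (nat_lit 10) (nat_lit 293)) (nd (nat_lit 272) (nat_lit 0) (cs (lf (nat_lit 23) (nat_lit 271)) (nd (nat_lit 210) (nat_lit 0) (cs (lf (nat_lit 34) (nat_lit 209))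 (nd (nat_lit 273) (nat_lit 0) (cs (rf (nat_lit 3)) (lf (nat_lit 17) (nat_lit 250)))))))))))))) (nd (nat_lit 208) (nat_lit 0) (cs (lf (nat_lit 46) (nat_lit 208)) (nd (nat_lit 210) (nat_lit 0) (cs (lf (nat_lit 34) (nat_lit 209)) (nd (nat_lit 298) (nat_lit 0) (cs (lf (nat_lit 29) (nat_lit 231)) (nd (nat_lit 316) (nat_lit 0) (cs (lf (nat_lit 10) (nat_lit 294)) (nd (nat_lit 276) (nat_lit 0) (cs (lf (nat_lit 17) (nat_lit 273)) (nd (nat_lit 273) (nat_lit 0) (cs (lf (nat_lit 23) (nat_lit 272)) (nd (nat_lit 299) (nat_lit 0) (cs (lf (nat_lit 22) (nat_lit 273)) (rf (nat_lit 4)))))))))))))))))))))) (cs (rf (nat_lit 5)) (nd (nat_lit 208) (nat_lit 0) (cs (lf (nat_lit 46) (nat_lit 208)) (rf (nat_lit 6)))))))) q101550 (by decide +kernel)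
def q101557 : Q := Q.p (nat_lit 0x800002000008000000000000000000000000000000000000000000000000000000000) (nat_lit 0x500001400004000037c000fe0007fc000500000000000000000000000000000000000000000) (nat_lit 12)
theorem c101557 : QOK q101557 := cut [q81901, q98317, q98359, q2938, q21994, q98806, q101552] ⟨c81901, c98317, c98359, c2938, c21994, c98806, c101552, trivial⟩ (nd (nat_lit 209) (nat_lit 0) (cs (rf (nat_lit 0)) (cs (rf (nat_lit 1)) (cs (rf (nat_lit 2)) (nd (nat_lit 208) (nat_lit 0) (cs (lf (nat_lit 47) (nat_lit 186)) (nd (nat_lit 207) (nat_lit 0) (cs (rf (nat_lit 3)) (cs (rf (nat_lit 4)) (cs (rf (nat_lit 5)) (nd (nat_lit 276) (nat_lit 0) (cs (lf (nat_lit 29) (nat_lit 209)) (nd (nat_lit 274) (nat_lit 0) (cs (lf (nat_lit 41) (nat_lit 208)) (rf (nat_lit 6)))))))))))))))) q101557 (by decide +kernel)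
def q101563 : Q := Q.p (nat_lit 0x800002000008000000000000000000000000000000000000000000000000000000000) (nat_lit 0x400003000014000040000140000780007c0000700001400000000000000000000000000000000000) (nat_lit 7)
theorem c101563 : QOK q101563 := cut [q97786, q100886, q101214] ⟨c97786, c100886, c101214, trivial⟩ (nd (nat_lit 209) (nat_lit 0) (cs (rf (nat_lit 0)) (cs (rf (nat_lit 1)) (rf (nat_lit 2))))) q101563 (by decide +kernel)
def q101627 : Q := Q.p (nat_lit 0x200000c000000000000000000000000000000000000000000000000000000000) (nat_lit 0x500001c0000fe0003f8001de000700001fe000178000100000000000000000000000000000000000000000) (nat_lit 15)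
theorem c101627 : QOK q101627 := cut [q97957, q101564, q3983, q3985, q97347, q92810, q97408, q97409, q101592, q24874, q101610, q91955] ⟨c97957, c101564, c3983, c3985, c97347, c92810, c97408, c97409, c101592, c24874, c101610, c91955, trivial⟩ (nd (nat_lit 275) (nat_lit 0) (cs (rf (nat_lit 0)) (cs (rf (nat_lit 1)) (nd (nat_lit 208) (nat_lit 0) (cs (rf (nat_lit 2)) (cs (rf (nat_lit 3)) (nd (nat_lit 274) (nat_lit 0) (cs (rf (nat_lit 4)) (cs (nd (nat_lit 209) (nat_lit 0) (cs (lf (nat_lit 41) (nat_lit 208)) (rf (nat_lit 5)))) (cs (nd (nat_lit 273) (nat_lit 0) (cs (rf (nat_lit 6)) (cs (rf (nat_lit 7)) (cs (nd (nat_lit 252) (nat_lit 0) (cs (lf (nat_lit 41) (nat_lit 207)) (nd (nat_lit 254) (nat_lit 0) (cs (lf (nat_lit 6) (nat_lit 251)) (nd (nat_lit 207) (nat_lit 0) (cs (lf (nat_lit 47) (nat_lit 185)) (nd (nat_lit 205) (nat_lit 0) (cs (lf (nat_lit 1) (nat_lit 205)) (nd (nat_lit 232) (nat_lit 0) (cs (lf (nat_lit 18) (nat_lit 207)) (nd (nat_lit 188) (nat_lit 0) (cs (lf (nat_lit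 37) (nat_lit 187)) (nd (nat_lit 251) (nat_lit 0) (cs (lf (nat_lit 12) (nat_lit 228)) (nd (nat_lit 276) (nat_lit 0) (cs (lf (nat_lit 18) (nat_lit 251)) (rf (nat_lit 8)))))))))))))))))) (nd (nat_lit 252) (nat_lit 0) (cs (lf (nat_lit 41) (nat_lit 207)) (nd (nat_lit 271) (nat_lit 0) (cs (lf (nat_lit 13) (nat_lit 249)) (nd (nat_lit 207) (nat_lit 0) (cs (lf (nat_lit 47) (nat_lit 185)) (nd (nat_lit 205) (nat_lit 0) (cs (lf (nat_lit 1) (nat_lit 205)) (nd (nat_lit 232) (nat_lit 0) (cs (lf (nat_lit 18) (nat_lit 207)) (nd (nat_lit 251) (nat_lit 0) (cs (lf (nat_lit 12) (nat_lit 228)) (nd (nat_lit 276) (nat_lit 0) (cs (lf (nat_lit 18) (nat_lit 251)) (rf (nat_lit 9)))))))))))))))))))) (nd (nat_lit 273) (nat_lit 0) (cs (rf (nat_lit 6)) (cs (rf (nat_lit 7)) (cs (nd (nat_lit 252) (nat_lit 0) (cs (lf (nat_lit 41) (nat_lit 207)) (nd (nat_lit 254) (nat_lit 0) (cs (lf (nat_lit 6) (nat_lit 251)) (nd (nat_lit 296) (nat_lit 0) (cs (lf (nat_lit 30) (nat_lit 230)) (nd (nat_lit 207) (nat_lit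 0) (cs (lf (nat_lit 47) (nat_lit 185)) (nd (nat_lit 205) (nat_lit 0) (cs (lf (nat_lit 1) (nat_lit 205)) (nd (nat_lit 232) (nat_lit 0) (cs (lf (nat_lit 18) (nat_lit 207)) (nd (nat_lit 188) (nat_lit 0) (cs (lf (nat_lit 37) (nat_lit 187)) (nd (nat_lit 251) (nat_lit 0) (cs (lf (nat_lit 12) (nat_lit 228)) (rf (nat_lit 10)))))))))))))))))) (nd (nat_lit 252) (nat_lit 0) (cs (lf (nat_lit 41) (nat_lit 207)) (nd (nat_lit 185) (nat_lit 0) (cs (lf (nat_lit 46) (nat_lit 185)) (nd (nat_lit 272) (nat_lit 0) (cs (lf (nat_lit 12) (nat_lit 249)) (nd (nat_lit 296) (nat_lit 0) (cs (lf (nat_lit 30) (nat_lit 230)) (nd (nat_lit 293) (nat_lit 0) (cs (lf (nat_lit 10) (nat_lit 271)) (rf (nat_lit 11)))))))))))))))))))))))))) q101627 (by decide +kernel)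
def q101644 : Q := Q.p (nat_lit 0xc0000200000c000000000000000000000000000000000000000000000000000000000) (nat_lit 0x600001e000330000d000003800018000040000000000000000000000000000000000000000000000) (nat_lit 6)
theorem c101644 : QOK q101644 := cut [q84626, q91970, q87351] ⟨c84626, c91970, c87351, trivial⟩ (nd (nat_lit 252) (nat_lit 0) (cs (rf (nat_lit 0)) (cs (rf (nat_lit 1)) (nd (nat_lit 296) (nat_lit 0) (cs (lf (nat_lit 30) (nat_lit 230)) (nd (nat_lit 186) (nat_lit 0) (cs (lf (nat_lit 25) (nat_lit 186)) (rf (nat_lit 2))))))))) q101644 (by decide +kernel)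
def q101672 : Q := Q.p (nat_lit 0x200000e000000000000000000000000000000000000000000000000000000000) (nat_lit 0x80000280003d0000f00007fc000100000400000000000000000000000000000000000000000) (nat_lit 10)
theorem c101672 : QOK q101672 := cut [q97021, q101447, q101479, q84419] ⟨c97021, c101447, c101479, c84419, trivial⟩ (nd (nat_lit 232) (nat_lit 0) (cs (rf (nat_lit 0)) (cs (rf (nat_lit 1)) (cs (rf (nat_lit 2)) (nd (nat_lit 206) (nat_lit 0) (cs (lf (nat_lit 22) (nat_lit 206)) (rf (nat_lit 3)))))))) q101672 (by decide +kernel)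
def q101676 : Q := Q.p (nat_lit 0x280000e000000000000000000000000000000000000000000000000000000000) (nat_lit 0x10000048000370000d00003000001c000060000080000000000000000000000000000000000000000) (nat_lit 7)
theorem c101676 : QOK q101676 := cut [q87917, q100922] ⟨c87917, c100922, trivial⟩ (nd (nat_lit 252) (nat_lit 0) (cs (rf (nat_lit 0)) (rf (nat_lit 1)))) q101676 (by decide +kernel)
def q101710 : Q := Q.p (nat_lit 0x200000e000000000000000000000000000000000000000000000000000000000) (nat_lit 0x12000048000370001dc0003000003c0000700001c0000700001400000000000000000000000000000) (nat_lit 13)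
theorem c101710 : QOK q101710 := cut [q80199, q96903, q101382, q101662] ⟨c80199, c96903, c101382, c101662, trivial⟩ (nd (nat_lit 232) (nat_lit 0) (cs (rf (nat_lit 0)) (cs (rf (nat_lit 1)) (cs (rf (nat_lit 2)) (rf (nat_lit 3)))))) q101710 (by decide +kernel)
def q101723 : Q := Q.p (nat_lit 0xc00002000008000000000000000000000000000000000000000000000000000000000) (nat_lit 0x160001de000338001df0001700000c000020000000000000000000000000000000000000000000000) (nat_lit 9)
theorem c101723 : QOK q101723 := cut [q97408, q97409, q97945, q101207, q101609] ⟨c97408, c97409, c97945, c101207, c101609, trivial⟩ (nd (nat_lit 273) (nat_lit 0) (cs (rf (nat_lit 0)) (cs (rf (nat_lit 1)) (cs (rf (nat_lit 2)) (nd (nat_lit 276) (nat_lit 0) (cs (rf (nat_lit 3)) (cs (nd (nat_lit 294) (nat_lit 0) (cs (lf (nat_lit 10) (nat_lit 272)) (nd (nat_lit 299) (nat_lit 0) (cs (lf (nat_lit 4) (nat_lit 273)) (nd (nat_lit 251) (nat_lit 0) (cs (lf (nat_lit 23) (nat_lit 250)) (nd (nat_lit 277) (nat_lit 0)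 (cs (lf (nat_lit 5) (nat_lit 274)) (lf (nat_lit 22) (nat_lit 251)))))))))) (nd (nat_lit 254) (nat_lit 0) (cs (lf (nat_lit 17) (nat_lit 251)) (rf (nat_lit 4))))))))))) q101723 (by decide +kernel)
def q101751 : Q := Q.p (nat_lit 0x800002000008000000000000000000000000000000000000000000000000000000000) (nat_lit 0x40000700001c0000600001400005c000140000600001c0000700000400000000000000000000000000000000000) (nat_lit 9)
theorem c101751 : QOK q101751 := cut [q97671, q97682, q101749] ⟨c97671, c97682, c101749, trivial⟩ (nd (nat_lit 210) (nat_lit 0) (cs (rf (nat_lit 0)) (cs (rf (nat_lit 1)) (nd (nat_lit 209) (nat_lit 0) (cs (lf (nat_lit 35) (nat_lit 187)) (rf (nat_lit 2))))))) q101751 (by decide +kernel)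
def q101839 : Q := Q.p (nat_lit 0x800002000018000000000000000000000000000000000000000000000000000000000) (nat_lit 0xff0003fc000370003dc001e7000180000200000800000000000000000000000000000000000000000) (nat_lit 15)
theorem c101839 : QOK q101839 := cut [q86623, q86631, q94159, q79384, q93074, q28145, q101095, q101120] ⟨c86623, c86631, c94159, c79384, c93074, c28145, c101095, c101120, trivial⟩ (nd (nat_lit 252) (nat_lit 0) (cs (rf (nat_lit 0)) (cs (rf (nat_lit 1)) (cs (rf (nat_lit 2)) (cs (nd (nat_lit 233) (nat_lit 0) (cs (lf (nat_lit 6) (nat_lit 230)) (nd (nat_lit 254) (nat_lit 0) (cs (nd (nat_lit 255) (nat_lit 0) (cs (rf (nat_lit 3)) (rf (nat_lit 4)))) (cs (nd (nat_lit 297) (nat_lit 0) (cs (lf (nat_lit 30) (nat_lit 231)) (nd (nat_lit 296) (nat_lit 0) (cs (lf (nat_lit 41) (nat_lit 230)) (nd (nat_lit 298) (nat_lit 0) (cs (lf (nat_lit 29) (nat_lit 231)) (nd (nat_lit 276) (nat_lit 0) (cs (rf (nat_lit 5)) (lf (nat_lit 35) (nat_lit 210)))))))))) (nd (nat_lit 255) (nat_lit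 0) (cs (rf (nat_lit 3)) (cs (nd (nat_lit 297) (nat_lit 0) (cs (lf (nat_lit 30) (nat_lit 231)) (nd (nat_lit 229) (nat_lit 0) (cs (lf (nat_lit 22) (nat_lit 229)) (nd (nat_lit 274) (nat_lit 0) (cs (lf (nat_lit 11) (nat_lit 251)) (nd (nat_lit 296) (nat_lit 0) (cs (lf (nat_lit 30) (nat_lit 230)) (nd (nat_lit 298) (nat_lit 0) (cs (lf (nat_lit 29) (nat_lit 231)) (nd (nat_lit 299) (nat_lit 0) (cs (lf (nat_lit 18) (nat_lit 274)) (nd (nat_lit 321) (nat_lit 0) (cs (lf (nat_lit 5) (nat_lit 296)) (lf (nat_lit 44) (nat_lit 232)))))))))))))))) (nd (nat_lit 230) (nat_lit 0) (cs (lf (nat_lit 5) (nat_lit 230)) (lf (nat_lit 23) (nat_lit 229)))))))))))) (nd (nat_lit 251) (nat_lit 0) (cs (lf (nat_lit 12) (nat_lit 228)) (nd (nat_lit 254) (nat_lit 0) (cs (rf (nat_lit 6)) (cs (nd (nat_lit 228) (nat_lit 0) (cs (lf (nat_lit 22) (nat_lit 228)) (nd (nat_lit 276) (nat_lit 0) (cs (lf (nat_lit 5) (nat_lit 251)) (nd (nat_lit 298) (nat_lit 0) (cs (lf (nat_lit 42) (nat_lit 231)) (nd (nat_lit 297)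 (nat_lit 0) (cs (lf (nat_lit 30) (nat_lit 231)) (nd (nat_lit 299) (nat_lit 0) (cs (lf (nat_lit 29) (nat_lit 232)) (nd (nat_lit 300) (nat_lit 0) (cs (lf (nat_lit 18) (nat_lit 275)) (nd (nat_lit 322) (nat_lit 0) (cs (lf (nat_lit 5) (nat_lit 297)) (nd (nat_lit 273) (nat_lit 0) (cs (lf (nat_lit 11) (nat_lit 250)) (nd (nat_lit 296) (nat_lit 0) (cs (lf (nat_lit 41) (nat_lit 230)) (nd (nat_lit 295) (nat_lit 0) (cs (lf (nat_lit 12) (nat_lit 272)) (nd (nat_lit 317) (nat_lit 0) (cs (lf (nat_lit 11) (nat_lit 294)) (lf (nat_lit 35) (nat_lit 229)))))))))))))))))))))))) (nd (nat_lit 228) (nat_lit 0) (cs (lf (nat_lit 22) (nat_lit 228)) (nd (nat_lit 276) (nat_lit 0) (cs (lf (nat_lit 5) (nat_lit 251)) (nd (nat_lit 298) (nat_lit 0) (cs (lf (nat_lit 42) (nat_lit 231)) (nd (nat_lit 297) (nat_lit 0) (cs (lf (nat_lit 30) (nat_lit 231)) (rf (nat_lit 7)))))))))))))))))))) q101839 (by decide +kernel)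
def q101897 : Q := Q.p (nat_lit 0xc00006800018000040000000000000000000000000000000000000000000000000000) (nat_lit 0x13000310000e4000380000200000800000000000000000000000000000000000000000) (nat_lit 8)
theorem c101897 : QOK q101897 := cut [q101896] ⟨c101896, trivial⟩ (nd (nat_lit 272) (nat_lit 0) (cs (lf (nat_lit 13) (nat_lit 250)) (rf (nat_lit 0)))) q101897 (by decide +kernel)
def q101906 : Q := Q.p (nat_lit 0x200000800002000008000000000000000000000000000000000000000000000000000000000) (nat_lit 0x100001d000017000010000000000200001c0000700001400000000000000000000000000000000000) (nat_lit 10)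
theorem c101906 : QOK q101906 := cut [q97697] ⟨c97697, trivial⟩ (nd (nat_lit 298) (nat_lit 0) (cs (lf (nat_lit 29) (nat_lit 231)) (nd (nat_lit 209) (nat_lit 0) (cs (lf (nat_lit 28) (nat_lit 209)) (nd (nat_lit 274) (nat_lit 0) (cs (lf (nat_lit 41) (nat_lit 208)) (nd (nat_lit 299) (nat_lit 0) (cs (lf (nat_lit 18) (nat_lit 274)) (rf (nat_lit 0)))))))))) q101906 (by decide +kernel)
def q101964 : Q := Q.p (nat_lit 0x80000280000e000000000000000000000000000000000000000000000000000000000) (nat_lit 0x1100004c000338000d600000000018000060000000000000000000000000000000000000000000000) (nat_lit 7)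
theorem c101964 : QOK q101964 := cut [q12193, q87919, q100922] ⟨c12193, c87919, c100922, trivial⟩ (nd (nat_lit 252) (nat_lit 0) (cs (rf (nat_lit 0)) (cs (rf (nat_lit 1)) (rf (nat_lit 2))))) q101964 (by decide +kernel)
def q102028 : Q := Q.p (nat_lit 0x8000070000000000000000000000000000000000000000000000000000) (nat_lit 0x100000f780018c000e38000800002000000000000000000000000000000000000) (nat_lit 7)
theorem c102028 : QOK q102028 := cut [q8148, q22156, q84324] ⟨c8148, c22156, c84324, trivial⟩ (nd (nat_lit 211) (nat_lit 0) (cs (rf (nat_lit 0)) (cs (rf (nat_lit 1)) (rf (nat_lit 2))))) q102028 (by decide +kernel)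
def q102038 : Q := Q.p (nat_lit 0x2000008000020000000000000000000000000000000000000000000000000000) (nat_lit 0x100001c000070000180001d000017000050000180000700001c00001000000000000000000000000000000) (nat_lit 10)
theorem c102038 : QOK q102038 := cut [q97864, q97866, q102037] ⟨c97864, c97866, c102037, trivial⟩ (nd (nat_lit 188) (nat_lit 0) (cs (rf (nat_lit 0)) (cs (rf (nat_lit 1)) (rf (nat_lit 2))))) q102038 (by decide +kernel)
def q102091 : Q := Q.p (nat_lit 0x2000008000020000000000000000000000000000000000000000000000000000) (nat_lit 0x600003b0007de000f7c007de000efc001bc0000d00000000000000000000000000000000000) (nat_lit 13)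
theorem c102091 : QOK q102091 := cut [q1563, q1595, q10753, q79298, q119, q2935, q2938, q102039, q102041, q79193, q102042, q102046, q2006, q11066, q102052, q98090, q102059, q102066, q10107, q96246, q33, q9679, q22601, q101800, q84452, q102079, q102086] ⟨c1563, c1595, c10753, c79298, c119, c2935, c2938, c102039, c102041, c79193, c102042, c102046, c2006, c11066, c102052, c98090, c102059, c102066, c10107, c96246, c33, c9679, c22601, c101800, c84452, c102079, c102086, trivial⟩ (nd (nat_lit 208) (nat_lit 0) (cs (rf (nat_lit 0)) (cs (rf (nat_lit 1)) (cs (nd (nat_lit 232) (nat_lit 0) (cs (rf (nat_lit 2)) (cs (rf (nat_lit 3)) (cs (nd (nat_lit 207) (nat_lit 0) (cs (rf (nat_lit 4)) (cs (rf (nat_lit 5)) (cs (rf (nat_lit 6)) (nd (nat_lit 276) (nat_lit 0) (cs (rf (nat_lit 7)) (cs (rf (nat_lit 8)) (nd (nat_lit 254) (nat_lit 0) (cs (rf (nat_lit 9)) (nd (nat_lit 251) (nat_lit 0) (cs (rf (nat_lit 10)) (cs (nd (nat_lit 252) (nat_lit 0) (cs (lf (nat_lit 5) (nat_lit 251)) (rf (nat_lit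 11)))) (nd (nat_lit 229) (nat_lit 0) (cs (nd (nat_lit 185) (nat_lit 0) (cs (rf (nat_lit 12)) (cs (nd (nat_lit 250) (nat_lit 0) (cs (lf (nat_lit 41) (nat_lit 184)) (rf (nat_lit 13)))) (nd (nat_lit 250) (nat_lit 0) (cs (lf (nat_lit 41) (nat_lit 184)) (nd (nat_lit 228) (nat_lit 0) (cs (lf (nat_lit 36) (nat_lit 162)) (lf (nat_lit 6) (nat_lit 206))))))))) (cs (rf (nat_lit 14)) (nd (nat_lit 230) (nat_lit 0) (cs (lf (nat_lit 11) (nat_lit 228)) (lf (nat_lit 5) (nat_lit 229))))))))))))))))))) (nd (nat_lit 230) (nat_lit 0) (cs (rf (nat_lit 15)) (cs (nd (nat_lit 233) (nat_lit 0) (cs (lf (nat_lit 18) (nat_lit 208)) (nd (nat_lit 211) (nat_lit 0) (cs (lf (nat_lit 17) (nat_lit 208)) (nd (nat_lit 229) (nat_lit 0) (cs (lf (nat_lit 16) (nat_lit 207)) (rf (nat_lit 16)))))))) (nd (nat_lit 275) (nat_lit 0) (cs (lf (nat_lit 42) (nat_lit 208)) (nd (nat_lit 276) (nat_lit 0) (cs (lf (nat_lit 29) (nat_lit 209)) (nd (nat_lit 187) (nat_lit 0) (cs (lf (nat_lit 28) (nat_lit 187)) (nd (nat_lit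 143) (nat_lit 0) (cs (lf (nat_lit 37) (nat_lit 142)) (nd (nat_lit 233) (nat_lit 0) (cs (lf (nat_lit 18) (nat_lit 208)) (rf (nat_lit 17))))))))))))))))))) (nd (nat_lit 232) (nat_lit 0) (cs (rf (nat_lit 2)) (cs (rf (nat_lit 3)) (cs (nd (nat_lit 207) (nat_lit 0) (cs (rf (nat_lit 4)) (cs (rf (nat_lit 5)) (cs (rf (nat_lit 6)) (nd (nat_lit 210) (nat_lit 0) (cs (rf (nat_lit 18)) (cs (rf (nat_lit 19)) (cs (nd (nat_lit 228) (nat_lit 0) (cs (lf (nat_lit 10) (nat_lit 206)) (nd (nat_lit 185) (nat_lit 0) (cs (lf (nat_lit 23) (nat_lit 184)) (nd (nat_lit 186) (nat_lit 0) (cs (rf (nat_lit 20)) (lf (nat_lit 18) (nat_lit 185)))))))) (nd (nat_lit 186) (nat_lit 0) (cs (rf (nat_lit 20)) (rf (nat_lit 21)))))))))))) (nd (nat_lit 233) (nat_lit 0) (cs (rf (nat_lit 22)) (cs (rf (nat_lit 23)) (nd (nat_lit 230) (nat_lit 0) (cs (rf (nat_lit 24)) (cs (rf (nat_lit 17)) (cs (nd (nat_lit 164) (nat_lit 0) (cs (lf (nat_lit 25) (nat_lit 164)) (nd (nat_lit 252) (nat_lit 0) (cs (lf (nat_lit 11) (nat_lit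 229)) (nd (nat_lit 187) (nat_lit 0) (cs (lf (nat_lit 36) (nat_lit 164)) (nd (nat_lit 254) (nat_lit 0) (cs (lf (nat_lit 29) (nat_lit 187)) (nd (nat_lit 255) (nat_lit 0) (cs (lf (nat_lit 18) (nat_lit 230)) (rf (nat_lit 25)))))))))))) (nd (nat_lit 164) (nat_lit 0) (cs (lf (nat_lit 25) (nat_lit 164)) (rf (nat_lit 26))))))))))))))))))) q102091 (by decide +kernel)
def q102131 : Q := Q.p (nat_lit 0x2000008000020000000000000000000000000000000000000000000000000000) (nat_lit 0x100000c8000330001df000f78007df000ff0003fe0005400000000000000000000000000000000000) (nat_lit 13)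
theorem c102131 : QOK q102131 := cut [q80728, q80754, q80931, q101704, q102009, q97822, q102102, q96764, q96769, q79324, q101293, q102108, q101260, q101248, q85550, q101424] ⟨c80728, c80754, c80931, c101704, c102009, c97822, c102102, c96764, c96769, c79324, c101293, c102108, c101260, c101248, c85550, c101424, trivial⟩ (nd (nat_lit 254) (nat_lit 0) (cs (rf (nat_lit 0)) (cs (rf (nat_lit 1)) (cs (rf (nat_lit 2)) (cs (nd (nat_lit 230) (nat_lit 0) (cs (rf (nat_lit 3)) (cs (rf (nat_lit 4)) (cs (nd (nat_lit 255) (nat_lit 0) (cs (lf (nat_lit 18) (nat_lit 230)) (nd (nat_lit 233) (nat_lit 0) (cs (nd (nat_lit 234) (nat_lit 0) (cs (lf (nat_lit 12) (nat_lit 230)) (rf (nat_lit 5)))) (cs (nd (nat_lit 211) (nat_lit 0) (cs (nd (nat_lit 234) (nat_lit 0) (cs (lf (nat_lit 12) (nat_lit 230)) (nd (nat_lit 210) (nat_lit 0) (cs (lf (nat_lit 6) (nat_lit 208)) (lf (nat_lit 0) (nat_lit 208)))))) (rf (nat_lit 6)))) (nd (nat_lit 211) (nat_lit 0) (cs (rf (nat_lit 6)) (nd (nat_lit 212) (nat_lit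 0) (cs (lf (nat_lit 14) (nat_lit 208)) (lf (nat_lit 8) (nat_lit 208))))))))))) (nd (nat_lit 229) (nat_lit 0) (cs (rf (nat_lit 7)) (cs (rf (nat_lit 8)) (nd (nat_lit 232) (nat_lit 0) (cs (rf (nat_lit 9)) (cs (rf (nat_lit 10)) (nd (nat_lit 206) (nat_lit 0) (cs (lf (nat_lit 22) (nat_lit 206)) (nd (nat_lit 210) (nat_lit 0) (cs (lf (nat_lit 17) (nat_lit 207)) (nd (nat_lit 166) (nat_lit 0) (cs (lf (nat_lit 37) (nat_lit 165)) (nd (nat_lit 251) (nat_lit 0) (cs (lf (nat_lit 11) (nat_lit 228)) (nd (nat_lit 276) (nat_lit 0) (cs (lf (nat_lit 42) (nat_lit 209)) (rf (nat_lit 11)))))))))))))))))))))) (nd (nat_lit 230) (nat_lit 0) (cs (rf (nat_lit 3)) (cs (rf (nat_lit 4)) (cs (nd (nat_lit 187) (nat_lit 0) (cs (nd (nat_lit 188) (nat_lit 0) (cs (lf (nat_lit 35) (nat_lit 165)) (nd (nat_lit 189) (nat_lit 0) (cs (nd (nat_lit 190) (nat_lit 0) (cs (lf (nat_lit 11) (nat_lit 186)) (nd (nat_lit 168) (nat_lit 0) (cs (lf (nat_lit 17) (nat_lit 165)) (nd (nat_lit 213) (nat_lit 0) (cs (lf (nat_lit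 4) (nat_lit 187)) (nd (nat_lit 191) (nat_lit 0) (cs (lf (nat_lit 5) (nat_lit 188)) (lf (nat_lit 10) (nat_lit 187)))))))))) (cs (rf (nat_lit 12)) (nd (nat_lit 255) (nat_lit 0) (cs (lf (nat_lit 18) (nat_lit 230)) (nd (nat_lit 186) (nat_lit 0) (cs (lf (nat_lit 47) (nat_lit 164)) (rf (nat_lit 13))))))))))) (nd (nat_lit 165) (nat_lit 0) (cs (lf (nat_lit 41) (nat_lit 164)) (lf (nat_lit 28) (nat_lit 165)))))) (nd (nat_lit 229) (nat_lit 0) (cs (rf (nat_lit 7)) (cs (rf (nat_lit 8)) (nd (nat_lit 232) (nat_lit 0) (cs (nd (nat_lit 251) (nat_lit 0) (cs (lf (nat_lit 11) (nat_lit 228)) (nd (nat_lit 252) (nat_lit 0) (cs (lf (nat_lit 17) (nat_lit 229)) (rf (nat_lit 14)))))) (cs (rf (nat_lit 15)) (nd (nat_lit 207) (nat_lit 0) (cs (lf (nat_lit 23) (nat_lit 206)) (nd (nat_lit 210) (nat_lit 0) (cs (lf (nat_lit 17) (nat_lit 207)) (nd (nat_lit 188) (nat_lit 0) (cs (lf (nat_lit 36) (nat_lit 165)) (nd (nat_lit 189) (nat_lit 0) (cs (lf (nat_lit 35) (nat_lit 166)) (lf (nat_lit 13) (nat_lit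 185))))))))))))))))))))))))) q102131 (by decide +kernel)
def q102141 : Q := Q.p (nat_lit 0x200000c000010000000000000000000000000000000000000000000000000000) (nat_lit 0xa00001c000300000000000e0000380000000000000000000000000000000000000000) (nat_lit 7)
theorem c102141 : QOK q102141 := cut [q9696] ⟨c9696, trivial⟩ (nd (nat_lit 186) (nat_lit 0) (cs (lf (nat_lit 24) (nat_lit 164)) (rf (nat_lit 0)))) q102141 (by decide +kernel)
def q102276 : Q := Q.p (nat_lit 0x400003800008000000000000000000000000000000000000000000000000000000000) (nat_lit 0x1e0000fc0003b00000000036000058000020000000000000000000000000000000000000000000000) (nat_lit 9)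
theorem c102276 : QOK q102276 := cut [q81007, q92760] ⟨c81007, c92760, trivial⟩ (nd (nat_lit 296) (nat_lit 0) (cs (lf (nat_lit 30) (nat_lit 230)) (nd (nat_lit 230) (nat_lit 0) (cs (rf (nat_lit 0)) (cs (rf (nat_lit 1)) (nd (nat_lit 295) (nat_lit 0) (cs (lf (nat_lit 41) (nat_lit 229)) (nd (nat_lit 297) (nat_lit 0) (cs (lf (nat_lit 29) (nat_lit 230)) (nd (nat_lit 207) (nat_lit 0) (cs (lf (nat_lit 46) (nat_lit 207)) (nd (nat_lit 232) (nat_lit 0) (cs (lf (nat_lit 6) (nat_lit 229)) (nd (nat_lit 275) (nat_lit 0) (cs (lf (nat_lit 35) (nat_lit 209)) (nd (nat_lit 276) (nat_lit 0) (cs (lf (nat_lit 18) (nat_lit 251)) (lf (nat_lit 12) (nat_lit 272))))))))))))))))))) q102276 (by decide +kernel)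
def q102325 : Q := Q.p (nat_lit 0x2000038000000000000000000000000000000000000000000000000000) (nat_lit 0x8000310000c0000070000100000400000000000000000000000000000000000) (nat_lit 6)
theorem c102325 : QOK q102325 := cut [q78681] ⟨c78681, trivial⟩ (nd (nat_lit 210) (nat_lit 0) (cs (lf (nat_lit 11) (nat_lit 206)) (rf (nat_lit 0)))) q102325 (by decide +kernel)
def q102385 : Q := Q.p (nat_lit 0x800002000008000020000000000000000000000000000000000000000000000000000) (nat_lit 0x400001400005c00004000000000080000700001c00005000000000000000000000000000000) (nat_lit 9)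
theorem c102385 : QOK q102385 := cut [q97868] ⟨c97868, trivial⟩ (nd (nat_lit 276) (nat_lit 0) (cs (lf (nat_lit 29) (nat_lit 209)) (nd (nat_lit 187) (nat_lit 0) (cs (lf (nat_lit 28) (nat_lit 187)) (nd (nat_lit 252) (nat_lit 0) (cs (lf (nat_lit 41) (nat_lit 186)) (rf (nat_lit 0)))))))) q102385 (by decide +kernel)
def q102472 : Q := Q.p (nat_lit 0x2000018000000000000000000000000000000000000000000000000000000000) (nat_lit 0x300003e0007d8000e00007fc001ff0001f00001c00000000000000000000000000000000000) (nat_lit 14)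
theorem c102472 : QOK q102472 := cut [q96982, q97375, q97498, q88863, q90439, q97893, q102422, q97738, q102423, q102428, q102436, q93063, q92282, q100886, q102459, q1580, q88774, q92706] ⟨c96982, c97375, c97498, c88863, c90439, c97893, c102422, c97738, c102423, c102428, c102436, c93063, c92282, c100886, c102459, c1580, c88774, c92706, trivial⟩ (nd (nat_lit 233) (nat_lit 0) (cs (rf (nat_lit 0)) (cs (rf (nat_lit 1)) (cs (rf (nat_lit 2)) (cs (nd (nat_lit 210) (nat_lit 0) (cs (rf (nat_lit 3)) (cs (rf (nat_lit 4)) (cs (nd (nat_lit 209) (nat_lit 0) (cs (rf (nat_lit 5)) (cs (rf (nat_lit 6)) (nd (nat_lit 187) (nat_lit 0) (cs (rf (nat_lit 7)) (cs (nd (nat_lit 207) (nat_lit 0) (cs (lf (nat_lit 1) (nat_lit 207)) (nd (nat_lit 164) (nat_lit 0) (cs (lf (nat_lit 46) (nat_lit 164)) (nd (nat_lit 254) (nat_lit 0) (cs (lf (nat_lit 42) (nat_lit 187)) (rf (nat_lit 8)))))))) (nd (nat_lit 252) (nat_lit 0) (cs (lf (nat_lit 41) (nat_lit 186)) (rf (nat_lit 9)))))))))) (nd (nat_lit 188) (nat_lit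 0) (cs (lf (nat_lit 36) (nat_lit 165)) (nd (nat_lit 254) (nat_lit 0) (cs (nd (nat_lit 255) (nat_lit 0) (cs (lf (nat_lit 29) (nat_lit 188)) (nd (nat_lit 256) (nat_lit 0) (cs (lf (nat_lit 18) (nat_lit 231)) (nd (nat_lit 165) (nat_lit 0) (cs (lf (nat_lit 46) (nat_lit 165)) (rf (nat_lit 10)))))))) (cs (nd (nat_lit 255) (nat_lit 0) (cs (lf (nat_lit 29) (nat_lit 188)) (nd (nat_lit 256) (nat_lit 0) (cs (lf (nat_lit 18) (nat_lit 231)) (nd (nat_lit 251) (nat_lit 0) (cs (lf (nat_lit 13) (nat_lit 229)) (rf (nat_lit 10)))))))) (cs (nd (nat_lit 165) (nat_lit 0) (cs (lf (nat_lit 46) (nat_lit 165)) (nd (nat_lit 255) (nat_lit 0) (cs (lf (nat_lit 29) (nat_lit 188)) (nd (nat_lit 256) (nat_lit 0) (cs (lf (nat_lit 18) (nat_lit 231)) (nd (nat_lit 251) (nat_lit 0) (cs (lf (nat_lit 13) (nat_lit 229)) (rf (nat_lit 11)))))))))) (cs (nd (nat_lit 187) (nat_lit 0) (cs (lf (nat_lit 47) (nat_lit 165)) (nd (nat_lit 255) (nat_lit 0) (cs (lf (nat_lit 29) (nat_lit 188)) (nd (nat_lit 256) (nat_lit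 0) (cs (lf (nat_lit 18) (nat_lit 231)) (nd (nat_lit 252) (nat_lit 0) (cs (lf (nat_lit 12) (nat_lit 229)) (nd (nat_lit 274) (nat_lit 0) (cs (lf (nat_lit 37) (nat_lit 186)) (lf (nat_lit 11) (nat_lit 251)))))))))))) (nd (nat_lit 251) (nat_lit 0) (cs (lf (nat_lit 13) (nat_lit 229)) (nd (nat_lit 167) (nat_lit 0) (cs (lf (nat_lit 34) (nat_lit 166)) (nd (nat_lit 187) (nat_lit 0) (cs (lf (nat_lit 47) (nat_lit 165)) (nd (nat_lit 209) (nat_lit 0) (cs (lf (nat_lit 42) (nat_lit 187)) (rf (nat_lit 12))))))))))))))))))))) (nd (nat_lit 209) (nat_lit 0) (cs (rf (nat_lit 13)) (cs (rf (nat_lit 14)) (nd (nat_lit 187) (nat_lit 0) (cs (rf (nat_lit 15)) (cs (rf (nat_lit 16)) (cs (rf (nat_lit 17)) (nd (nat_lit 164) (nat_lit 0) (cs (lf (nat_lit 46) (nat_lit 164)) (nd (nat_lit 254) (nat_lit 0) (cs (lf (nat_lit 29) (nat_lit 187)) (nd (nat_lit 234) (nat_lit 0) (cs (lf (nat_lit 6) (nat_lit 231)) (nd (nat_lit 256) (nat_lit 0) (cs (lf (nat_lit 5) (nat_lit 231)) (nd (nat_lit 212) (nat_lit 0)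 (cs (lf (nat_lit 17) (nat_lit 209)) (nd (nat_lit 188) (nat_lit 0) (cs (lf (nat_lit 35) (nat_lit 165)) (nd (nat_lit 210) (nat_lit 0) (cs (lf (nat_lit 41) (nat_lit 187)) (nd (nat_lit 255) (nat_lit 0) (cs (lf (nat_lit 29) (nat_lit 188)) (nd (nat_lit 190) (nat_lit 0) (cs (lf (nat_lit 36) (nat_lit 167)) (nd (nat_lit 189) (nat_lit 0) (cs (lf (nat_lit 6) (nat_lit 187)) (lf (nat_lit 35) (nat_lit 166)))))))))))))))))))))))))))))))))) q102472 (by decide +kernel)
def q102509 : Q := Q.p (nat_lit 0x2000018000000000000000000000000000000000000000000000000000000000) (nat_lit 0xa00002a0003cf000e78003ff000160000500000000000000000000000000000000000000000) (nat_lit 10)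
theorem c102509 : QOK q102509 := cut [q88863, q90439, q12222, q101492, q101513, q97480, q97016, q7963, q102497, q12221, q102502, q102506] ⟨c88863, c90439, c12222, c101492, c101513, c97480, c97016, c7963, c102497, c12221, c102502, c102506, trivial⟩ (nd (nat_lit 210) (nat_lit 0) (cs (rf (nat_lit 0)) (cs (rf (nat_lit 1)) (cs (nd (nat_lit 230) (nat_lit 0) (cs (rf (nat_lit 2)) (cs (nd (nat_lit 233) (nat_lit 0) (cs (rf (nat_lit 3)) (cs (rf (nat_lit 4)) (cs (nd (nat_lit 275) (nat_lit 0) (cs (lf (nat_lit 30) (nat_lit 209)) (nd (nat_lit 255) (nat_lit 0) (cs (lf (nat_lit 5) (nat_lit 230)) (nd (nat_lit 277) (nat_lit 0) (cs (lf (nat_lit 42) (nat_lit 210)) (rf (nat_lit 5)))))))) (nd (nat_lit 207) (nat_lit 0) (cs (lf (nat_lit 22) (nat_lit 207)) (nd (nat_lit 212) (nat_lit 0) (cs (lf (nat_lit 16) (nat_lit 208)) (nd (nat_lit 275) (nat_lit 0) (cs (lf (nat_lit 30) (nat_lit 209)) (nd (nat_lit 234) (nat_lit 0) (cs (lf (nat_lit 17) (nat_lit 209)) (rf (nat_lit 6)))))))))))))) (cs (nd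 (nat_lit 275) (nat_lit 0) (cs (lf (nat_lit 30) (nat_lit 209)) (rf (nat_lit 7)))) (rf (nat_lit 8)))))) (nd (nat_lit 230) (nat_lit 0) (cs (rf (nat_lit 7)) (cs (rf (nat_lit 9)) (cs (rf (nat_lit 8)) (nd (nat_lit 233) (nat_lit 0) (cs (rf (nat_lit 4)) (cs (rf (nat_lit 10)) (rf (nat_lit 11))))))))))))) q102509 (by decide +kernel)
def q102638 : Q := Q.p (nat_lit 0x2000008000020000000000000000000000000000000000000000000000000000) (nat_lit 0x380002f0003df000f78003de000fb8000e80003800000000000000000000000000000000000) (nat_lit 16)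
theorem c102638 : QOK q102638 := cut [q7464, q9673, q84327, q85178, q85148, q97882, q97889, q97893, q97909, q96758, q96764, q97019, q97113, q82300, q102605, q102607, q102616, q87131, q93232, q96408, q207, q687, q86623, q86631, q94159, q95857, q95864, q102622, q102629, q96291] ⟨c7464, c9673, c84327, c85178, c85148, c97882, c97889, c97893, c97909, c96758, c96764, c97019, c97113, c82300, c102605, c102607, c102616, c87131, c93232, c96408, c207, c687, c86623, c86631, c94159, c95857, c95864, c102622, c102629, c96291, trivial⟩ (nd (nat_lit 210) (nat_lit 0) (cs (rf (nat_lit 0)) (cs (rf (nat_lit 1)) (cs (nd (nat_lit 230) (nat_lit 0) (cs (rf (nat_lit 2)) (cs (rf (nat_lit 3)) (cs (nd (nat_lit 208) (nat_lit 0) (cs (rf (nat_lit 4)) (cs (rf (nat_lit 5)) (rf (nat_lit 6))))) (nd (nat_lit 232) (nat_lit 0) (cs (rf (nat_lit 7)) (cs (rf (nat_lit 8)) (cs (nd (nat_lit 229) (nat_lit 0) (cs (rf (nat_lit 9)) (cs (rf (nat_lit 10)) (cs (rf (nat_lit 11)) (rf (nat_lit 12)))))) (nd (nat_lit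 229) (nat_lit 0) (cs (lf (nat_lit 12) (nat_lit 206)) (nd (nat_lit 275) (nat_lit 0) (cs (lf (nat_lit 30) (nat_lit 209)) (nd (nat_lit 274) (nat_lit 0) (cs (lf (nat_lit 41) (nat_lit 208)) (nd (nat_lit 254) (nat_lit 0) (cs (lf (nat_lit 5) (nat_lit 229)) (nd (nat_lit 165) (nat_lit 0) (cs (lf (nat_lit 25) (nat_lit 165)) (nd (nat_lit 273) (nat_lit 0) (cs (lf (nat_lit 12) (nat_lit 250)) (nd (nat_lit 251) (nat_lit 0) (cs (lf (nat_lit 11) (nat_lit 228)) (nd (nat_lit 207) (nat_lit 0) (cs (lf (nat_lit 23) (nat_lit 206)) (nd (nat_lit 208) (nat_lit 0) (cs (lf (nat_lit 5) (nat_lit 207)) (lf (nat_lit 30) (nat_lit 207)))))))))))))))))))))))))))) (nd (nat_lit 252) (nat_lit 0) (cs (rf (nat_lit 13)) (cs (rf (nat_lit 14)) (cs (rf (nat_lit 15)) (cs (nd (nat_lit 230) (nat_lit 0) (cs (rf (nat_lit 2)) (cs (rf (nat_lit 3)) (cs (rf (nat_lit 16)) (nd (nat_lit 232) (nat_lit 0) (cs (rf (nat_lit 17)) (cs (rf (nat_lit 18)) (rf (nat_lit 19))))))))) (nd (nat_lit 188) (nat_lit 0) (cs (rf (nat_lit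 20)) (cs (rf (nat_lit 21)) (nd (nat_lit 232) (nat_lit 0) (cs (rf (nat_lit 22)) (cs (rf (nat_lit 23)) (cs (rf (nat_lit 24)) (cs (nd (nat_lit 229) (nat_lit 0) (cs (rf (nat_lit 25)) (cs (rf (nat_lit 26)) (cs (nd (nat_lit 251) (nat_lit 0) (cs (lf (nat_lit 12) (nat_lit 228)) (nd (nat_lit 254) (nat_lit 0) (cs (lf (nat_lit 23) (nat_lit 228)) (nd (nat_lit 255) (nat_lit 0) (cs (lf (nat_lit 29) (nat_lit 188)) (nd (nat_lit 256) (nat_lit 0) (cs (lf (nat_lit 18) (nat_lit 231)) (nd (nat_lit 234) (nat_lit 0) (cs (lf (nat_lit 17) (nat_lit 231)) (rf (nat_lit 27)))))))))))) (rf (nat_lit 28)))))) (nd (nat_lit 230) (nat_lit 0) (cs (rf (nat_lit 18)) (cs (rf (nat_lit 29)) (nd (nat_lit 233) (nat_lit 0) (cs (lf (nat_lit 6) (nat_lit 230)) (nd (nat_lit 255) (nat_lit 0) (cs (lf (nat_lit 5) (nat_lit 230)) (nd (nat_lit 211) (nat_lit 0) (cs (lf (nat_lit 6) (nat_lit 208)) (lf (nat_lit 42) (nat_lit 188)))))))))))))))))))))))))))) q102638 (by decide +kernel)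
def q102739 : Q := Q.p (nat_lit 0x2000018000000000000000000000000000000000000000000000000000000000) (nat_lit 0x200004800039c000e60003fc000340000d00000000000000000000000000000000000000000) (nat_lit 9)
theorem c102739 : QOK q102739 := cut [q97307, q97375, q97376, q97382, q102535, q102738] ⟨c97307, c97375, c97376, c97382, c102535, c102738, trivial⟩ (nd (nat_lit 233) (nat_lit 0) (cs (rf (nat_lit 0)) (cs (rf (nat_lit 1)) (cs (rf (nat_lit 2)) (cs (rf (nat_lit 3)) (cs (rf (nat_lit 4)) (rf (nat_lit 5)))))))) q102739 (by decide +kernel)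
def q102765 : Q := Q.p (nat_lit 0x2000018000000000000000000000000000000000000000000000000000000000) (nat_lit 0x400001c0000700001c0000400002000007c0001c0000700000000000000000000000000000000000000000) (nat_lit 8)
theorem c102765 : QOK q102765 := cut [q26315, q87016, q102760, q97348, q98317, q94775] ⟨c26315, c87016, c102760, c97348, c98317, c94775, trivial⟩ (nd (nat_lit 275) (nat_lit 0) (cs (rf (nat_lit 0)) (cs (rf (nat_lit 1)) (cs (rf (nat_lit 2)) (nd (nat_lit 209) (nat_lit 0) (cs (rf (nat_lit 3)) (cs (rf (nat_lit 4)) (nd (nat_lit 274) (nat_lit 0) (cs (lf (nat_lit 41) (nat_lit 208)) (rf (nat_lit 5))))))))))) q102765 (by decide +kernel)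
def q102806 : Q := Q.p (nat_lit 0x1000006000010000040000000000000000000000000000000000000000000000000000) (nat_lit 0xa000068000018000000000a0000280000000000000000000000000000000000000000000000) (nat_lit 6)
theorem c102806 : QOK q102806 := cut [q79961] ⟨c79961, trivial⟩ (nd (nat_lit 187) (nat_lit 0) (cs (lf (nat_lit 46) (nat_lit 187)) (rf (nat_lit 0)))) q102806 (by decide +kernel)
def q102837 : Q := Q.p (nat_lit 0x6000010000040000000000000000000000000000000000000000000000000000) (nat_lit 0x280000e000078000018000200000a0000280000000000000000000000000000000000000000000000) (nat_lit 6)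
theorem c102837 : QOK q102837 := cut [q79961, q80348, q102832, q102835] ⟨c79961, c80348, c102832, c102835, trivial⟩ (nd (nat_lit 276) (nat_lit 0) (cs (rf (nat_lit 0)) (cs (rf (nat_lit 1)) (cs (nd (nat_lit 187) (nat_lit 0) (cs (lf (nat_lit 46) (nat_lit 187)) (rf (nat_lit 2)))) (nd (nat_lit 187) (nat_lit 0) (cs (lf (nat_lit 46) (nat_lit 187)) (rf (nat_lit 3)))))))) q102837 (by decide +kernel)
def q102862 : Q := Q.p (nat_lit 0x7000010000000000000000000000000000000000000000000000000000000000) (nat_lit 0x200000a00006e00018000066000050000140000000000000000000000000000000000000000000000) (nat_lit 9)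
theorem c102862 : QOK q102862 := cut [q102853, q79072, q102860] ⟨c102853, c79072, c102860, trivial⟩ (nd (nat_lit 255) (nat_lit 0) (cs (rf (nat_lit 0)) (cs (nd (nat_lit 277) (nat_lit 0) (cs (lf (nat_lit 5) (nat_lit 252)) (nd (nat_lit 299) (nat_lit 0) (cs (lf (nat_lit 42) (nat_lit 232)) (nd (nat_lit 230) (nat_lit 0) (cs (lf (nat_lit 23) (nat_lit 229)) (nd (nat_lit 188) (nat_lit 0) (cs (rf (nat_lit 1)) (lf (nat_lit 25) (nat_lit 188)))))))))) (nd (nat_lit 233) (nat_lit 0) (cs (lf (nat_lit 17) (nat_lit 230)) (rf (nat_lit 2))))))) q102862 (by decide +kernel)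
def q102873 : Q := Q.p (nat_lit 0x7000010000000000000000000000000000000000000000000000000000000000) (nat_lit 0x38000ef80018c000078000fc0001f0000180000400000000000000000000000000000000000) (nat_lit 12)
theorem c102873 : QOK q102873 := cut [q81719, q102865, q102866, q5482, q83968] ⟨c81719, c102865, c102866, c5482, c83968, trivial⟩ (nd (nat_lit 229) (nat_lit 0) (cs (rf (nat_lit 0)) (cs (rf (nat_lit 1)) (cs (rf (nat_lit 2)) (nd (nat_lit 251) (nat_lit 0) (cs (lf (nat_lit 23) (nat_lit 228)) (nd (nat_lit 207) (nat_lit 0) (cs (rf (nat_lit 3)) (cs (nd (nat_lit 273) (nat_lit 0) (cs (lf (nat_lit 11) (nat_lit 250)) (nd (nat_lit 274) (nat_lit 0) (cs (lf (nat_lit 29) (nat_lit 207)) (rf (nat_lit 4)))))) (nd (nat_lit 272) (nat_lit 0) (cs (lf (nat_lit 10) (nat_lit 250)) (nd (nat_lit 250) (nat_lit 0) (cs (lf (nat_lit 11) (nat_lit 249)) (lf (nat_lit 36) (nat_lit 184))))))))))))))) q102873 (by decide +kernel)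
def q102887 : Q := Q.p (nat_lit 0x7000000000000000000000000000000000000000000000000000000000000000) (nat_lit 0x80003b80008c00007800010000040000000000000000000000000000000000000000000000) (nat_lit 7)
theorem c102887 : QOK q102887 := cut [q79009, q79024, q81729, q102886] ⟨c79009, c79024, c81729, c102886, trivial⟩ (nd (nat_lit 251) (nat_lit 0) (cs (rf (nat_lit 0)) (cs (rf (nat_lit 1)) (cs (rf (nat_lit 2)) (rf (nat_lit 3)))))) q102887 (by decide +kernel)
def q102899 : Q := Q.p (nat_lit 0x6000010000000000000000000000000000000000000000000000000000000000) (nat_lit 0x600003e0000fc000ff000380000200000f0000f80000e00002800000000000000000000000000000000000) (nat_lit 12)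
theorem c102899 : QOK q102899 := cut [q79128, q102805, q102828, q102829, q102898] ⟨c79128, c102805, c102828, c102829, c102898, trivial⟩ (nd (nat_lit 210) (nat_lit 0) (cs (rf (nat_lit 0)) (cs (rf (nat_lit 1)) (cs (rf (nat_lit 2)) (cs (rf (nat_lit 3)) (rf (nat_lit 4))))))) q102899 (by decide +kernel)
def q102912 : Q := Q.p (nat_lit 0x1000007000010000040000000000000000000000000000000000000000000000000000) (nat_lit 0x1000007000088000078000b80002a0000000000000000000000000000000000000000000000) (nat_lit 6)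
theorem c102912 : QOK q102912 := cut [q102866, q102906] ⟨c102866, c102906, trivial⟩ (nd (nat_lit 229) (nat_lit 0) (cs (rf (nat_lit 0)) (cs (nd (nat_lit 211) (nat_lit 0) (cs (lf (nat_lit 35) (nat_lit 188)) (nd (nat_lit 209) (nat_lit 0) (cs (lf (nat_lit 47) (nat_lit 187)) (nd (nat_lit 228) (nat_lit 0) (cs (lf (nat_lit 21) (nat_lit 228)) (nd (nat_lit 230) (nat_lit 0) (cs (lf (nat_lit 0) (nat_lit 227)) (lf (nat_lit 9) (nat_lit 207)))))))))) (nd (nat_lit 230) (nat_lit 0) (cs (lf (nat_lit 18) (nat_lit 229)) (rf (nat_lit 1))))))) q102912 (by decide +kernel)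
def q103082 : Q := Q.p (nat_lit 0x6000010000000000000000000000000000000000000000000000000000000000) (nat_lit 0x80000380000e00001b80039c001e78007f8001fe0003e0000f80000a000000000000000000000000000000) (nat_lit 14)
theorem c103082 : QOK q103082 := cut [q79128, q79988, q102812, q81730, q92274, q103014, q103019, q103051, q103055, q103081] ⟨c79128, c79988, c102812, c81730, c92274, c103014, c103019, c103051, c103055, c103081, trivial⟩ (nd (nat_lit 210) (nat_lit 0) (cs (rf (nat_lit 0)) (cs (rf (nat_lit 1)) (cs (nd (nat_lit 233) (nat_lit 0) (cs (rf (nat_lit 2)) (cs (nd (nat_lit 252) (nat_lit 0) (cs (rf (nat_lit 3)) (nd (nat_lit 276) (nat_lit 0) (cs (rf (nat_lit 4)) (cs (nd (nat_lit 187) (nat_lit 0) (cs (lf (nat_lit 46) (nat_lit 187)) (rf (nat_lit 5)))) (nd (nat_lit 211) (nat_lit 0) (cs (lf (nat_lit 35) (nat_lit 188)) (rf (nat_lit 6))))))))) (cs (rf (nat_lit 7)) (rf (nat_lit 8)))))) (rf (nat_lit 9)))))) q103082 (by decide +kernel)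
def q103150 : Q := Q.p (nat_lit 0x2000018000000000000000000000000000000000000000000000000000000000) (nat_lit 0x500001c0000f80007f00039c0002200007c0001c0000500000000000000000000000000000000000000000) (nat_lit 12)
theorem c103150 : QOK q103150 := cut [q26315, q103131, q103133, q103149] ⟨c26315, c103131, c103133, c103149, trivial⟩ (nd (nat_lit 275) (nat_lit 0) (cs (rf (nat_lit 0)) (cs (rf (nat_lit 1)) (cs (rf (nat_lit 2)) (rf (nat_lit 3)))))) q103150 (by decide +kernel)
def q103253 : Q := Q.p (nat_lit 0x2000018000000000000000000000000000000000000000000000000000000000) (nat_lit 0x500001c0000f00003c00078e000e78007ff0007c0001f00005c00004000000000000000000000000000000) (nat_lit 14)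
theorem c103253 : QOK q103253 := cut [q26315, q101562, q103131, q97348, q1591, q80750, q10764, q16090, q103128, q103153, q22540, q91992, q22543, q93233, q7948, q103232, q79299] ⟨c26315, c101562, c103131, c97348, c1591, c80750, c10764, c16090, c103128, c103153, c22540, c91992, c22543, c93233, c7948, c103232, c79299, trivial⟩ (nd (nat_lit 275) (nat_lit 0) (cs (rf (nat_lit 0)) (cs (rf (nat_lit 1)) (cs (rf (nat_lit 2)) (nd (nat_lit 209) (nat_lit 0) (cs (rf (nat_lit 3)) (cs (nd (nat_lit 187) (nat_lit 0) (cs (rf (nat_lit 4)) (cs (rf (nat_lit 5)) (cs (nd (nat_lit 276) (nat_lit 0) (cs (lf (nat_lit 29) (nat_lit 209)) (nd (nat_lit 274) (nat_lit 0) (cs (lf (nat_lit 41) (nat_lit 208)) (rf (nat_lit 6)))))) (nd (nat_lit 210) (nat_lit 0) (cs (lf (nat_lit 35) (nat_lit 187)) (nd (nat_lit 276) (nat_lit 0) (cs (lf (nat_lit 29) (nat_lit 209)) (rf (nat_lit 7)))))))))) (cs (nd (nat_lit 233) (nat_lit 0) (cs (rf (nat_lit 8)) (cs (rf (nat_lit 9)) (cs (nd (nat_lit 230) (nat_lit 0) (cs (nd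 (nat_lit 229) (nat_lit 0) (cs (rf (nat_lit 10)) (cs (rf (nat_lit 11)) (cs (nd (nat_lit 274) (nat_lit 0) (cs (lf (nat_lit 41) (nat_lit 208)) (nd (nat_lit 211) (nat_lit 0) (cs (lf (nat_lit 17) (nat_lit 208)) (nd (nat_lit 250) (nat_lit 0) (cs (lf (nat_lit 10) (nat_lit 228)) (nd (nat_lit 228) (nat_lit 0) (cs (lf (nat_lit 11) (nat_lit 227)) (nd (nat_lit 227) (nat_lit 0) (cs (rf (nat_lit 12)) (lf (nat_lit 16) (nat_lit 205)))))))))))) (nd (nat_lit 250) (nat_lit 0) (cs (lf (nat_lit 10) (nat_lit 228)) (nd (nat_lit 228) (nat_lit 0) (cs (lf (nat_lit 11) (nat_lit 227)) (nd (nat_lit 208) (nat_lit 0) (cs (lf (nat_lit 12) (nat_lit 205)) (lf (nat_lit 23) (nat_lit 207)))))))))))) (cs (nd (nat_lit 207) (nat_lit 0) (cs (lf (nat_lit 22) (nat_lit 207)) (nd (nat_lit 274) (nat_lit 0) (cs (lf (nat_lit 41) (nat_lit 208)) (nd (nat_lit 210) (nat_lit 0) (cs (lf (nat_lit 35) (nat_lit 187)) (rf (nat_lit 13)))))))) (cs (nd (nat_lit 211) (nat_lit 0) (cs (lf (nat_lit 17) (nat_lit 208)) (nd (nat_lit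 274) (nat_lit 0) (cs (lf (nat_lit 41) (nat_lit 208)) (nd (nat_lit 207) (nat_lit 0) (cs (lf (nat_lit 22) (nat_lit 207)) (nd (nat_lit 255) (nat_lit 0) (cs (lf (nat_lit 5) (nat_lit 230)) (nd (nat_lit 188) (nat_lit 0) (cs (lf (nat_lit 34) (nat_lit 187)) (nd (nat_lit 166) (nat_lit 0) (cs (lf (nat_lit 33) (nat_lit 165)) (lf (nat_lit 45) (nat_lit 166)))))))))))))) (nd (nat_lit 210) (nat_lit 0) (cs (lf (nat_lit 35) (nat_lit 187)) (rf (nat_lit 14)))))))) (cs (nd (nat_lit 188) (nat_lit 0) (cs (lf (nat_lit 34) (nat_lit 187)) (nd (nat_lit 166) (nat_lit 0) (cs (lf (nat_lit 33) (nat_lit 165)) (nd (nat_lit 274) (nat_lit 0) (cs (lf (nat_lit 41) (nat_lit 208)) (nd (nat_lit 276) (nat_lit 0) (cs (lf (nat_lit 29) (nat_lit 209)) (rf (nat_lit 15)))))))))) (nd (nat_lit 188) (nat_lit 0) (cs (lf (nat_lit 34) (nat_lit 187)) (nd (nat_lit 166) (nat_lit 0) (cs (lf (nat_lit 33) (nat_lit 165)) (nd (nat_lit 274) (nat_lit 0) (cs (lf (nat_lit 41) (nat_lit 208)) (nd (nat_lit 276) (nat_lit 0) (cs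 (lf (nat_lit 29) (nat_lit 209)) (nd (nat_lit 234) (nat_lit 0) (cs (lf (nat_lit 23) (nat_lit 208)) (nd (nat_lit 212) (nat_lit 0) (cs (lf (nat_lit 17) (nat_lit 209)) (nd (nat_lit 256) (nat_lit 0) (cs (lf (nat_lit 5) (nat_lit 231)) (nd (nat_lit 255) (nat_lit 0) (cs (nd (nat_lit 190) (nat_lit 0) (cs (lf (nat_lit 36) (nat_lit 167)) (nd (nat_lit 189) (nat_lit 0) (cs (lf (nat_lit 47) (nat_lit 167)) (lf (nat_lit 44) (nat_lit 166)))))) (lf (nat_lit 15) (nat_lit 252))))))))))))))))))))))) (nd (nat_lit 274) (nat_lit 0) (cs (lf (nat_lit 41) (nat_lit 208)) (nd (nat_lit 276) (nat_lit 0) (cs (lf (nat_lit 29) (nat_lit 209)) (rf (nat_lit 16)))))))))))))) q103253 (by decide +kernel)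
def q103310 : Q := Q.p (nat_lit 0x2000018000000000000000000000000000000000000000000000000000000000) (nat_lit 0x500001c0000f80007f00079c000e70007ee001f00001c00007000000000000000000000000000000000000) (nat_lit 15)
theorem c103310 : QOK q103310 := cut [q103108, q103128, q103129, q26315, q103131, q103149, q12206, q7948, q10759, q103276, q103281, q88819, q86804, q93059, q84840] ⟨c103108, c103128, c103129, c26315, c103131, c103149, c12206, c7948, c10759, c103276, c103281, c88819, c86804, c93059, c84840, trivial⟩ (nd (nat_lit 233) (nat_lit 0) (cs (rf (nat_lit 0)) (cs (rf (nat_lit 1)) (cs (rf (nat_lit 2)) (nd (nat_lit 275) (nat_lit 0) (cs (rf (nat_lit 3)) (cs (rf (nat_lit 4)) (cs (rf (nat_lit 5)) (nd (nat_lit 210) (nat_lit 0) (cs (rf (nat_lit 6)) (cs (nd (nat_lit 230) (nat_lit 0) (cs (rf (nat_lit 7)) (cs (nd (nat_lit 252) (nat_lit 0) (cs (rf (nat_lit 8)) (nd (nat_lit 211) (nat_lit 0) (cs (lf (nat_lit 17) (nat_lit 208)) (rf (nat_lit 9)))))) (nd (nat_lit 255) (nat_lit 0)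 (cs (lf (nat_lit 5) (nat_lit 230)) (nd (nat_lit 277) (nat_lit 0) (cs (lf (nat_lit 42) (nat_lit 210)) (rf (nat_lit 10))))))))) (nd (nat_lit 211) (nat_lit 0) (cs (rf (nat_lit 11)) (cs (nd (nat_lit 166) (nat_lit 0) (cs (lf (nat_lit 37) (nat_lit 165)) (nd (nat_lit 230) (nat_lit 0) (cs (lf (nat_lit 12) (nat_lit 207)) (nd (nat_lit 252) (nat_lit 0) (cs (lf (nat_lit 11) (nat_lit 229)) (rf (nat_lit 9)))))))) (nd (nat_lit 189) (nat_lit 0) (cs (rf (nat_lit 12)) (cs (nd (nat_lit 212) (nat_lit 0) (cs (lf (nat_lit 6) (nat_lit 209)) (nd (nat_lit 167) (nat_lit 0) (cs (lf (nat_lit 36) (nat_lit 144)) (nd (nat_lit 144) (nat_lit 0) (cs (lf (nat_lit 46) (nat_lit 144)) (nd (nat_lit 168) (nat_lit 0) (cs (lf (nat_lit 35) (nat_lit 145)) (nd (nat_lit 255) (nat_lit 0) (cs (lf (nat_lit 34) (nat_lit 167)) (nd (nat_lit 256) (nat_lit 0) (cs (lf (nat_lit 29) (nat_lit 189)) (nd (nat_lit 257) (nat_lit 0) (cs (lf (nat_lit 18) (nat_lit 232)) (nd (nat_lit 277) (nat_lit 0) (cs (lf (nat_lit 42) (nat_lit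 210)) (nd (nat_lit 276) (nat_lit 0) (cs (lf (nat_lit 41) (nat_lit 210)) (lf (nat_lit 12) (nat_lit 252)))))))))))))))))))) (cs (nd (nat_lit 188) (nat_lit 0) (cs (lf (nat_lit 36) (nat_lit 165)) (nd (nat_lit 213) (nat_lit 0) (cs (lf (nat_lit 7) (nat_lit 209)) (nd (nat_lit 255) (nat_lit 0) (cs (lf (nat_lit 42) (nat_lit 188)) (nd (nat_lit 256) (nat_lit 0) (cs (lf (nat_lit 29) (nat_lit 189)) (nd (nat_lit 257) (nat_lit 0) (cs (lf (nat_lit 18) (nat_lit 232)) (rf (nat_lit 13)))))))))))) (nd (nat_lit 212) (nat_lit 0) (cs (lf (nat_lit 6) (nat_lit 209)) (nd (nat_lit 167) (nat_lit 0) (cs (lf (nat_lit 36) (nat_lit 144)) (nd (nat_lit 168) (nat_lit 0) (cs (lf (nat_lit 35) (nat_lit 145)) (nd (nat_lit 255) (nat_lit 0) (cs (lf (nat_lit 34) (nat_lit 167)) (rf (nat_lit 14)))))))))))))))))))))))))))) q103310 (by decide +kernel)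
def q103311 : Q := Q.p (nat_lit 0x2000018000000000000000000000000000000000000000000000000000000000) (nat_lit 0x500001c0000700001c0000100002400007c0001c0000500000000000000000000000000000000000000000) (nat_lit 7)
theorem c103311 : QOK q103311 := cut [q26315, q101562, q103131, q103133] ⟨c26315, c101562, c103131, c103133, trivial⟩ (nd (nat_lit 275) (nat_lit 0) (cs (rf (nat_lit 0)) (cs (rf (nat_lit 1)) (cs (rf (nat_lit 2)) (rf (nat_lit 3)))))) q103311 (by decide +kernel)
def q103340 : Q := Q.p (nat_lit 0x6000018000000000000000000000000000000000000000000000000000000000) (nat_lit 0xc0000700001c0000000006400003c0001c0000700000000000000000000000000000000000000000) (nat_lit 8)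
theorem c103340 : QOK q103340 := cut [q79193, q79287, q103339] ⟨c79193, c79287, c103339, trivial⟩ (nd (nat_lit 209) (nat_lit 0) (cs (rf (nat_lit 0)) (cs (rf (nat_lit 1)) (rf (nat_lit 2))))) q103340 (by decide +kernel)
def q103342 : Q := Q.p (nat_lit 0x6000018000000000000000000000000000000000000000000000000000000000) (nat_lit 0x2000048000780000e70007b8000240000900000000000000000000000000000000000000000) (nat_lit 8)
theorem c103342 : QOK q103342 := cut [q79307, q103341] ⟨c79307, c103341, trivial⟩ (nd (nat_lit 230) (nat_lit 0) (cs (rf (nat_lit 0)) (rf (nat_lit 1)))) q103342 (by decide +kernel)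
def q103344 : Q := Q.p (nat_lit 0x800006000018000000000000000000000000000000000000000000000000000000000) (nat_lit 0x5000016000180000000000300000c0000300000000000000000000000000000000000000000) (nat_lit 6)
theorem c103344 : QOK q103344 := cut [q79193, q94235, q103343] ⟨c79193, c94235, c103343, trivial⟩ (nd (nat_lit 209) (nat_lit 0) (cs (rf (nat_lit 0)) (cs (rf (nat_lit 1)) (rf (nat_lit 2))))) q103344 (by decide +kernel)
def q103352 : Q := Q.p (nat_lit 0x6000018000000000000000000000000000000000000000000000000000000000) (nat_lit 0x1000038c000e700039c000200000800000000000000000000000000000000000000000) (nat_lit 8)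
theorem c103352 : QOK q103352 := cut [q79307, q79326, q103351] ⟨c79307, c79326, c103351, trivial⟩ (nd (nat_lit 230) (nat_lit 0) (cs (rf (nat_lit 0)) (cs (rf (nat_lit 1)) (rf (nat_lit 2))))) q103352 (by decide +kernel)
def q103355 : Q := Q.p (nat_lit 0x6000018000020000000000000000000000000000000000000000000000000000) (nat_lit 0x1c0000700001e00018000000000010000040000000000000000000000000000000000000000000000) (nat_lit 6)
theorem c103355 : QOK q103355 := cut [q79297, q103343, q103354] ⟨c79297, c103343, c103354, trivial⟩ (nd (nat_lit 275) (nat_lit 0) (cs (rf (nat_lit 0)) (cs (rf (nat_lit 1)) (rf (nat_lit 2))))) q103355 (by decide +kernel)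
def q103421 : Q := Q.p (nat_lit 0x7000018000000000000000000000000000000000000000000000000000000000) (nat_lit 0x700008c0000700000c000020000080000000000000000000000000000000000000000) (nat_lit 7)
theorem c103421 : QOK q103421 := cut [q103419] ⟨c103419, trivial⟩ (nd (nat_lit 251) (nat_lit 0) (cs (lf (nat_lit 12) (nat_lit 228)) (nd (nat_lit 272) (nat_lit 0) (cs (lf (nat_lit 10) (nat_lit 250)) (rf (nat_lit 0)))))) q103421 (by decide +kernel)
def q103432 : Q := Q.p (nat_lit 0xf00000c000000000000000000000000000000000000000000000000000000000) (nat_lit 0xc0000300000e00000000000000018000060000180000000000000000000000000000000000000000) (nat_lit 7)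
theorem c103432 : QOK q103432 := cut [q103431] ⟨c103431, trivial⟩ (nd (nat_lit 274) (nat_lit 0) (cs (lf (nat_lit 11) (nat_lit 251)) (rf (nat_lit 0)))) q103432 (by decide +kernel)
def q103481 : Q := Q.p (nat_lit 0x6000018000000000000000000000000000000000000000000000000000000000) (nat_lit 0x180000700003c00019c0000700003c0000e0000280000000000000000000000000000000000000000) (nat_lit 9)
theorem c103481 : QOK q103481 := cut [q80207, q103473, q103480] ⟨c80207, c103473, c103480, trivial⟩ (nd (nat_lit 252) (nat_lit 0) (cs (rf (nat_lit 0)) (cs (rf (nat_lit 1)) (rf (nat_lit 2))))) q103481 (by decide +kernel)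
def q103517 : Q := Q.p (nat_lit 0x6000010000000000000000000000000000000000000000000000000000000000) (nat_lit 0x80003e0000f8001ef80079c003ef8001bc0002e0000b80000000000000000000000000000000000000000) (nat_lit 16)
theorem c103517 : QOK q103517 := cut [q81677, q81730, q102855, q102860, q102978, q80649, q86011, q103500, q80063, q103516] ⟨c81677, c81730, c102855, c102860, c102978, c80649, c86011, c103500, c80063, c103516, trivial⟩ (nd (nat_lit 252) (nat_lit 0) (cs (rf (nat_lit 0)) (cs (rf (nat_lit 1)) (cs (nd (nat_lit 255) (nat_lit 0) (cs (rf (nat_lit 2)) (cs (rf (nat_lit 3)) (cs (rf (nat_lit 4)) (cs (nd (nat_lit 274) (nat_lit 0) (cs (lf (nat_lit 11) (nat_lit 251)) (nd (nat_lit 296) (nat_lit 0) (cs (rf (nat_lit 5)) (cs (nd (nat_lit 230) (nat_lit 0) (cs (lf (nat_lit 23) (nat_lit 229)) (nd (nat_lit 277) (nat_lit 0) (cs (lf (nat_lit 5) (nat_lit 252)) (nd (nat_lit 299) (nat_lit 0) (cs (lf (nat_lit 42) (nat_lit 232)) (nd (nat_lit 297) (nat_lit 0) (cs (lf (nat_lit 29) (nat_lit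 230)) (nd (nat_lit 208) (nat_lit 0) (cs (lf (nat_lit 28) (nat_lit 208)) (nd (nat_lit 187) (nat_lit 0) (cs (lf (nat_lit 34) (nat_lit 186)) (nd (nat_lit 165) (nat_lit 0) (cs (lf (nat_lit 33) (nat_lit 164)) (nd (nat_lit 185) (nat_lit 0) (cs (lf (nat_lit 46) (nat_lit 185)) (nd (nat_lit 233) (nat_lit 0) (cs (lf (nat_lit 17) (nat_lit 230)) (nd (nat_lit 298) (nat_lit 0) (cs (lf (nat_lit 41) (nat_lit 232)) (nd (nat_lit 317) (nat_lit 0) (cs (lf (nat_lit 10) (nat_lit 295)) (lf (nat_lit 40) (nat_lit 229)))))))))))))))))))))))) (cs (nd (nat_lit 277) (nat_lit 0) (cs (lf (nat_lit 5) (nat_lit 252)) (nd (nat_lit 299) (nat_lit 0) (cs (lf (nat_lit 42) (nat_lit 232)) (nd (nat_lit 230) (nat_lit 0) (cs (lf (nat_lit 23) (nat_lit 229)) (nd (nat_lit 233) (nat_lit 0) (cs (lf (nat_lit 17) (nat_lit 230)) (nd (nat_lit 298) (nat_lit 0) (cs (lf (nat_lit 41) (nat_lit 232)) (rf (nat_lit 6)))))))))))) (nd (nat_lit 233) (nat_lit 0) (cs (lf (nat_lit 17) (nat_lit 230)) (nd (nat_lit 277) (nat_lit 0)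 (cs (lf (nat_lit 5) (nat_lit 252)) (nd (nat_lit 299) (nat_lit 0) (cs (lf (nat_lit 42) (nat_lit 232)) (nd (nat_lit 298) (nat_lit 0) (cs (lf (nat_lit 41) (nat_lit 232)) (nd (nat_lit 229) (nat_lit 0) (cs (lf (nat_lit 22) (nat_lit 229)) (rf (nat_lit 7)))))))))))))))))) (nd (nat_lit 233) (nat_lit 0) (cs (lf (nat_lit 17) (nat_lit 230)) (nd (nat_lit 277) (nat_lit 0) (cs (lf (nat_lit 5) (nat_lit 252)) (nd (nat_lit 299) (nat_lit 0) (cs (lf (nat_lit 42) (nat_lit 232)) (nd (nat_lit 230) (nat_lit 0) (cs (lf (nat_lit 23) (nat_lit 229)) (nd (nat_lit 298) (nat_lit 0) (cs (lf (nat_lit 41) (nat_lit 232)) (nd (nat_lit 231) (nat_lit 0) (cs (lf (nat_lit 5) (nat_lit 230)) (rf (nat_lit 8))))))))))))))))))) (rf (nat_lit 9)))))) q103517 (by decide +kernel)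
def q103608 : Q := Q.p (nat_lit 0x7000010000000000000000000000000000000000000000000000000000000000) (nat_lit 0x300000c0003f6000780003ee000180000600001800000000000000000000000000000000000000000) (nat_lit 11)
theorem c103608 : QOK q103608 := cut [q103590, q103603, q103606] ⟨c103590, c103603, c103606, trivial⟩ (nd (nat_lit 255) (nat_lit 0) (cs (rf (nat_lit 0)) (cs (nd (nat_lit 277) (nat_lit 0) (cs (lf (nat_lit 5) (nat_lit 252)) (nd (nat_lit 299) (nat_lit 0) (cs (lf (nat_lit 42) (nat_lit 232)) (nd (nat_lit 273) (nat_lit 0) (cs (lf (nat_lit 10) (nat_lit 251)) (nd (nat_lit 230) (nat_lit 0) (cs (lf (nat_lit 23) (nat_lit 229)) (nd (nat_lit 256) (nat_lit 0) (cs (lf (nat_lit 22) (nat_lit 230)) (nd (nat_lit 235) (nat_lit 0) (cs (lf (nat_lit 16) (nat_lit 231)) (nd (nat_lit 257) (nat_lit 0) (cs (lf (nat_lit 17) (nat_lit 232)) (nd (nat_lit 280) (nat_lit 0) (cs (lf (nat_lit 4) (nat_lit 254)) (nd (nat_lit 258) (nat_lit 0) (cs (lf (nat_lit 5) (nat_lit 255)) (lf (nat_lit 11) (nat_lit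 254)))))))))))))))))))) (cs (rf (nat_lit 1)) (nd (nat_lit 273) (nat_lit 0) (cs (lf (nat_lit 10) (nat_lit 251)) (rf (nat_lit 2)))))))) q103608 (by decide +kernel)
def q103611 : Q := Q.p (nat_lit 0x7000010000000000000000000000000000000000000000000000000000000000) (nat_lit 0x300000c0000fe000780003e8000180000600001800000000000000000000000000000000000000000) (nat_lit 10)
theorem c103611 : QOK q103611 := cut [q102864, q103590, q103603, q103610] ⟨c102864, c103590, c103603, c103610, trivial⟩ (nd (nat_lit 255) (nat_lit 0) (cs (rf (nat_lit 0)) (cs (rf (nat_lit 1)) (cs (rf (nat_lit 2)) (rf (nat_lit 3)))))) q103611 (by decide +kernel)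
def q103624 : Q := Q.p (nat_lit 0x6000010000000000000000000000000000000000000000000000000000000000) (nat_lit 0x2e0000f8000ff80079c003af80003c0000e0000080000000000000000000000000000000000000000) (nat_lit 11)
theorem c103624 : QOK q103624 := cut [q81730, q103516, q102860, q103603, q80649, q81014, q103623] ⟨c81730, c103516, c102860, c103603, c80649, c81014, c103623, trivial⟩ (nd (nat_lit 252) (nat_lit 0) (cs (rf (nat_lit 0)) (cs (rf (nat_lit 1)) (cs (nd (nat_lit 255) (nat_lit 0) (cs (rf (nat_lit 2)) (cs (rf (nat_lit 3)) (nd (nat_lit 274) (nat_lit 0) (cs (lf (nat_lit 11) (nat_lit 251)) (nd (nat_lit 296) (nat_lit 0) (cs (rf (nat_lit 4)) (cs (rf (nat_lit 5)) (nd (nat_lit 230) (nat_lit 0) (cs (lf (nat_lit 23) (nat_lit 229)) (nd (nat_lit 277) (nat_lit 0) (cs (lf (nat_lit 5) (nat_lit 252)) (nd (nat_lit 299) (nat_lit 0) (cs (lf (nat_lit 42) (nat_lit 232)) (nd (nat_lit 295) (nat_lit 0) (cs (lf (nat_lit 41) (nat_lit 229)) (nd (nat_lit 297) (nat_lit 0) (cs (lf (nat_lit 29) (nat_lit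 230)) (nd (nat_lit 276) (nat_lit 0) (cs (lf (nat_lit 15) (nat_lit 273)) (lf (nat_lit 8) (nat_lit 273)))))))))))))))))))))) (rf (nat_lit 6)))))) q103624 (by decide +kernel)
def q103657 : Q := Q.p (nat_lit 0x7000010000000000000000000000000000000000000000000000000000000000) (nat_lit 0x300000c0000f8000780003ee000180000600001800000000000000000000000000000000000000000) (nat_lit 10)
theorem c103657 : QOK q103657 := cut [q103603, q103606, q103636] ⟨c103603, c103606, c103636, trivial⟩ (nd (nat_lit 255) (nat_lit 0) (cs (rf (nat_lit 0)) (cs (rf (nat_lit 1)) (cs (rf (nat_lit 2)) (nd (nat_lit 277) (nat_lit 0) (cs (lf (nat_lit 5) (nat_lit 252)) (nd (nat_lit 299) (nat_lit 0) (cs (lf (nat_lit 42) (nat_lit 232)) (nd (nat_lit 230) (nat_lit 0) (cs (lf (nat_lit 23) (nat_lit 229)) (nd (nat_lit 256) (nat_lit 0) (cs (lf (nat_lit 22) (nat_lit 230)) (nd (nat_lit 235) (nat_lit 0) (cs (lf (nat_lit 16) (nat_lit 231)) (nd (nat_lit 257) (nat_lit 0) (cs (lf (nat_lit 17) (nat_lit 232)) (nd (nat_lit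 276) (nat_lit 0) (cs (lf (nat_lit 6) (nat_lit 254)) (lf (nat_lit 11) (nat_lit 253)))))))))))))))))))) q103657 (by decide +kernel)
def q103712 : Q := Q.p (nat_lit 0x6000010000000000000000000000000000000000000000000000000000000000) (nat_lit 0x180000780001f80039c000ef8003bc0002e0000b80000a00000000000000000000000000000000000) (nat_lit 14)
theorem c103712 : QOK q103712 := cut [q81677, q81730, q103516, q79028, q6259, q79029, q80216, q87185, q79044, q103681, q103690, q79072, q103351, q103479, q103644, q79997] ⟨c81677, c81730, c103516, c79028, c6259, c79029, c80216, c87185, c79044, c103681, c103690, c79072, c103351, c103479, c103644, c79997, trivial⟩ (nd (nat_lit 252) (nat_lit 0) (cs (rf (nat_lit 0)) (cs (rf (nat_lit 1)) (cs (rf (nat_lit 2)) (nd (nat_lit 230) (nat_lit 0) (cs (rf (nat_lit 3)) (cs (nd (nat_lit 208) (nat_lit 0) (cs (rf (nat_lit 4)) (cs (rf (nat_lit 5)) (cs (nd (nat_lit 231) (nat_lit 0) (cs (rf (nat_lit 6)) (cs (rf (nat_lit 7)) (nd (nat_lit 233) (nat_lit 0)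 (cs (lf (nat_lit 6) (nat_lit 230)) (nd (nat_lit 211) (nat_lit 0) (cs (lf (nat_lit 17) (nat_lit 208)) (nd (nat_lit 167) (nat_lit 0) (cs (lf (nat_lit 37) (nat_lit 166)) (nd (nat_lit 276) (nat_lit 0) (cs (lf (nat_lit 30) (nat_lit 210)) (nd (nat_lit 209) (nat_lit 0) (cs (lf (nat_lit 24) (nat_lit 187)) (nd (nat_lit 228) (nat_lit 0) (cs (lf (nat_lit 1) (nat_lit 228)) (nd (nat_lit 274) (nat_lit 0) (cs (lf (nat_lit 30) (nat_lit 208)) (rf (nat_lit 8))))))))))))))))))) (cs (nd (nat_lit 231) (nat_lit 0) (cs (rf (nat_lit 6)) (cs (rf (nat_lit 7)) (nd (nat_lit 186) (nat_lit 0) (cs (lf (nat_lit 24) (nat_lit 164)) (nd (nat_lit 228) (nat_lit 0) (cs (lf (nat_lit 1) (nat_lit 228)) (nd (nat_lit 163) (nat_lit 0) (cs (lf (nat_lit 46) (nat_lit 163)) (nd (nat_lit 233) (nat_lit 0) (cs (lf (nat_lit 6) (nat_lit 230)) (nd (nat_lit 211) (nat_lit 0) (cs (lf (nat_lit 17) (nat_lit 208)) (nd (nat_lit 167) (nat_lit 0) (cs (lf (nat_lit 37) (nat_lit 166)) (nd (nat_lit 276) (nat_lit 0) (cs (lf (nat_lit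 30) (nat_lit 210)) (rf (nat_lit 9))))))))))))))))))) (rf (nat_lit 10))))))) (cs (nd (nat_lit 255) (nat_lit 0) (cs (lf (nat_lit 23) (nat_lit 229)) (nd (nat_lit 233) (nat_lit 0) (cs (lf (nat_lit 17) (nat_lit 230)) (rf (nat_lit 11)))))) (nd (nat_lit 231) (nat_lit 0) (cs (rf (nat_lit 12)) (cs (rf (nat_lit 13)) (cs (rf (nat_lit 14)) (nd (nat_lit 233) (nat_lit 0) (cs (lf (nat_lit 6) (nat_lit 230)) (nd (nat_lit 255) (nat_lit 0) (cs (lf (nat_lit 5) (nat_lit 230)) (nd (nat_lit 211) (nat_lit 0) (cs (lf (nat_lit 17) (nat_lit 208)) (nd (nat_lit 167) (nat_lit 0) (cs (lf (nat_lit 37) (nat_lit 166)) (nd (nat_lit 273) (nat_lit 0) (cs (lf (nat_lit 10) (nat_lit 251)) (rf (nat_lit 15)))))))))))))))))))))))) q103712 (by decide +kernel)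
def q103763 : Q := Q.p (nat_lit 0x1000006000010000040000000000000000000000000000000000000000000000000000) (nat_lit 0xf0000ef0003000002800003c0000c0000000000000000000000000000000000000000000000) (nat_lit 11)
theorem c103763 : QOK q103763 := cut [q79778] ⟨c79778, trivial⟩ (nd (nat_lit 275) (nat_lit 0) (cs (lf (nat_lit 41) (nat_lit 209)) (nd (nat_lit 277) (nat_lit 0) (cs (lf (nat_lit 29) (nat_lit 210)) (nd (nat_lit 278) (nat_lit 0) (cs (lf (nat_lit 18) (nat_lit 253)) (nd (nat_lit 256) (nat_lit 0) (cs (lf (nat_lit 17) (nat_lit 253)) (rf (nat_lit 0)))))))))) q103763 (by decide +kernel)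
def q103772 : Q := Q.p (nat_lit 0x6000018000060000000000000000000000000000000000000000000000000000) (nat_lit 0xc0000f000000000004000380000200000000000000000000000000000000000000000000000) (nat_lit 6)
theorem c103772 : QOK q103772 := cut [q79609] ⟨c79609, trivial⟩ (nd (nat_lit 276) (nat_lit 0) (cs (lf (nat_lit 42) (nat_lit 209)) (rf (nat_lit 0)))) q103772 (by decide +kernel)
def q103787 : Q := Q.p (nat_lit 0x6000018000000000000000000000000000000000000000000000000000000000) (nat_lit 0x300000c0000f0000000000260003e0000380000e00000000000000000000000000000000000000000) (nat_lit 9)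
theorem c103787 : QOK q103787 := cut [q79181, q103781, q103786] ⟨c79181, c103781, c103786, trivial⟩ (nd (nat_lit 276) (nat_lit 0) (cs (rf (nat_lit 0)) (cs (rf (nat_lit 1)) (rf (nat_lit 2))))) q103787 (by decide +kernel)
def q103821 : Q := Q.p (nat_lit 0x6000018000000000000000000000000000000000000000000000000000000000) (nat_lit 0xc000030000180000e70003fc0001f0000700000000000000000000000000000000000000000) (nat_lit 11)
theorem c103821 : QOK q103821 := cut [q98254, q103812, q103820] ⟨c98254, c103812, c103820, trivial⟩ (nd (nat_lit 210) (nat_lit 0) (cs (rf (nat_lit 0)) (cs (rf (nat_lit 1)) (rf (nat_lit 2))))) q103821 (by decide +kernel)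
def q103854 : Q := Q.p (nat_lit 0x1800006000018000000000000000000000000000000000000000000000000000000000) (nat_lit 0x10000070000000006400003c0000c0000000000000000000000000000000000000000000000) (nat_lit 7)
theorem c103854 : QOK q103854 := cut [q79301] ⟨c79301, trivial⟩ (nd (nat_lit 209) (nat_lit 0) (cs (lf (nat_lit 24) (nat_lit 187)) (rf (nat_lit 0)))) q103854 (by decide +kernel)
def q103908 : Q := Q.p (nat_lit 0x1000006000010000040000000000000000000000000000000000000000000000000000) (nat_lit 0x700000e000180000080000300000c0000000000000000000000000000000000000000000000) (nat_lit 7)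
theorem c103908 : QOK q103908 := cut [q79728] ⟨c79728, trivial⟩ (nd (nat_lit 275) (nat_lit 0) (cs (lf (nat_lit 41) (nat_lit 209)) (rf (nat_lit 0)))) q103908 (by decide +kernel)
def q103914 : Q := Q.p (nat_lit 0x6000010000000000000000000000000000000000000000000000000000000000) (nat_lit 0x600003e0000fc000ff000380000200000c0000380000e00002800000000000000000000000000000000000) (nat_lit 11)
theorem c103914 : QOK q103914 := cut [q79128, q102829, q103912, q79127, q79882, q102824] ⟨c79128, c102829, c103912, c79127, c79882, c102824, trivial⟩ (nd (nat_lit 210) (nat_lit 0) (cs (rf (nat_lit 0)) (cs (rf (nat_lit 1)) (cs (rf (nat_lit 2)) (nd (nat_lit 188) (nat_lit 0) (cs (rf (nat_lit 3)) (cs (rf (nat_lit 4)) (rf (nat_lit 5))))))))) q103914 (by decide +kernel)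
def q103930 : Q := Q.p (nat_lit 0x6000010000000000000000000000000000000000000000000000000000000000) (nat_lit 0x8000060000380000c0000f8000080003e80007f8001f80000e00002800000000000000000000000000000000000) (nat_lit 11)
theorem c103930 : QOK q103930 := cut [q79128, q102805, q102828, q102829, q79753, q102832, q103901, q103922, q103928] ⟨c79128, c102805, c102828, c102829, c79753, c102832, c103901, c103922, c103928, trivial⟩ (nd (nat_lit 210) (nat_lit 0) (cs (rf (nat_lit 0)) (cs (rf (nat_lit 1)) (cs (rf (nat_lit 2)) (cs (rf (nat_lit 3)) (nd (nat_lit 276) (nat_lit 0) (cs (rf (nat_lit 4)) (cs (rf (nat_lit 5)) (cs (rf (nat_lit 6)) (cs (rf (nat_lit 7)) (rf (nat_lit 8)))))))))))) q103930 (by decide +kernel)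
def q103961 : Q := Q.p (nat_lit 0x6000010000000000000000000000000000000000000000000000000000000000) (nat_lit 0x600003e0000fc000ff000380000280000e0000300000c00002000000000000000000000000000000000000) (nat_lit 11)
theorem c103961 : QOK q103961 := cut [q79901, q79988, q102805, q103912] ⟨c79901, c79988, c102805, c103912, trivial⟩ (nd (nat_lit 210) (nat_lit 0) (cs (rf (nat_lit 0)) (cs (rf (nat_lit 1)) (cs (rf (nat_lit 2)) (rf (nat_lit 3)))))) q103961 (by decide +kernel)
def q103962 : Q := Q.p (nat_lit 0x6000010000040000000000000000000000000000000000000000000000000000) (nat_lit 0xc000030000180000ef0003bc0001f0000700000000000000000000000000000000000000000) (nat_lit 11)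
theorem c103962 : QOK q103962 := cut [q98254, q103812, q103820] ⟨c98254, c103812, c103820, trivial⟩ (nd (nat_lit 231) (nat_lit 0) (cs (rf (nat_lit 0)) (cs (rf (nat_lit 1)) (rf (nat_lit 2))))) q103962 (by decide +kernel)
def q104001 : Q := Q.p (nat_lit 0x6000018000000000000000000000000000000000000000000000000000000000) (nat_lit 0x200000800007700019c00006000040000100000000000000000000000000000000000000000000000) (nat_lit 6)
theorem c104001 : QOK q104001 := cut [q79626, q104000] ⟨c79626, c104000, trivial⟩ (nd (nat_lit 255) (nat_lit 0) (cs (rf (nat_lit 0)) (rf (nat_lit 1)))) q104001 (by decide +kernel)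
def q104003 : Q := Q.p (nat_lit 0x6000018000000000000000000000000000000000000000000000000000000000) (nat_lit 0x380000f0000f0000098000000000e00003f0000f00000000000000000000000000000000000000000) (nat_lit 9)
theorem c104003 : QOK q104003 := cut [q79181, q103807, q102810, q103776] ⟨c79181, c103807, c102810, c103776, trivial⟩ (nd (nat_lit 276) (nat_lit 0) (cs (rf (nat_lit 0)) (cs (rf (nat_lit 1)) (nd (nat_lit 210) (nat_lit 0) (cs (rf (nat_lit 2)) (rf (nat_lit 3))))))) q104003 (by decide +kernel)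
def q104052 : Q := Q.p (nat_lit 0x7000018000000000000000000000000000000000000000000000000000000000) (nat_lit 0x100000700008c00003000008000020000000000000000000000000000000000000000000000) (nat_lit 6)
theorem c104052 : QOK q104052 := cut [q96398] ⟨c96398, trivial⟩ (nd (nat_lit 251) (nat_lit 0) (cs (lf (nat_lit 12) (nat_lit 228)) (rf (nat_lit 0)))) q104052 (by decide +kernel)
def q104078 : Q := Q.p (nat_lit 0x2000018000000000000000000000000000000000000000000000000000000000) (nat_lit 0x400001c0000fe000ff0001de000000000f00003c0000700000000000000000000000000000000000000000) (nat_lit 14)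
theorem c104078 : QOK q104078 := cut [q26315, q87016, q102760, q94775, q96325, q98315, q101209, q97408, q104068] ⟨c26315, c87016, c102760, c94775, c96325, c98315, c101209, c97408, c104068, trivial⟩ (nd (nat_lit 275) (nat_lit 0) (cs (rf (nat_lit 0)) (cs (rf (nat_lit 1)) (cs (rf (nat_lit 2)) (nd (nat_lit 209) (nat_lit 0) (cs (rf (nat_lit 3)) (cs (rf (nat_lit 4)) (cs (rf (nat_lit 5)) (nd (nat_lit 274) (nat_lit 0) (cs (lf (nat_lit 41) (nat_lit 208)) (nd (nat_lit 273) (nat_lit 0) (cs (rf (nat_lit 6)) (cs (nd (nat_lit 186) (nat_lit 0) (cs (lf (nat_lit 46) (nat_lit 186)) (rf (nat_lit 7)))) (nd (nat_lit 276) (nat_lit 0) (cs (lf (nat_lit 29) (nat_lit 209)) (nd (nat_lit 294) (nat_lit 0) (cs (lf (nat_lit 10) (nat_lit 272)) (nd (nat_lit 250) (nat_lit 0) (cs (lf (nat_lit 22) (nat_lit 250)) (nd (nat_lit 186) (nat_lit 0) (cs (lf (nat_lit 46) (nat_lit 186)) (nd (nat_lit 210) (nat_lit 0) (cs (lf (nat_lit 35) (nat_lit 187)) (nd (nat_lit 254) (nat_lit 0) (cs (lf (nat_lit 17) (nat_lit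 251)) (rf (nat_lit 8))))))))))))))))))))))))))) q104078 (by decide +kernel)
def q104143 : Q := Q.p (nat_lit 0x2000018000000000000000000000000000000000000000000000000000000000) (nat_lit 0x500003e0000fe0007f8001df0000700007c0000e0000300000000000000000000000000000000000000000) (nat_lit 11)
theorem c104143 : QOK q104143 := cut [q102760, q103131, q99646, q101919, q97408, q103856, q104121, q22115, q22198, q22214, q97940, q103823, q86636, q2179, q101610, q88898, q104142] ⟨c102760, c103131, c99646, c101919, c97408, c103856, c104121, c22115, c22198, c22214, c97940, c103823, c86636, c2179, c101610, c88898, c104142, trivial⟩ (nd (nat_lit 275) (nat_lit 0) (cs (rf (nat_lit 0)) (cs (rf (nat_lit 1)) (cs (nd (nat_lit 274) (nat_lit 0) (cs (rf (nat_lit 2)) (cs (rf (nat_lit 3)) (cs (nd (nat_lit 273) (nat_lit 0) (cs (rf (nat_lit 4)) (cs (nd (nat_lit 276) (nat_lit 0) (cs (rf (nat_lit 5)) (rf (nat_lit 6)))) (nd (nat_lit 250) (nat_lit 0) (cs (rf (nat_lit 7)) (cs (rf (nat_lit 8)) (cs (rf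 (nat_lit 9)) (rf (nat_lit 10))))))))) (nd (nat_lit 252) (nat_lit 0) (cs (nd (nat_lit 209) (nat_lit 0) (cs (lf (nat_lit 36) (nat_lit 186)) (nd (nat_lit 276) (nat_lit 0) (cs (lf (nat_lit 29) (nat_lit 209)) (nd (nat_lit 277) (nat_lit 0) (cs (lf (nat_lit 18) (nat_lit 252)) (nd (nat_lit 186) (nat_lit 0) (cs (lf (nat_lit 46) (nat_lit 186)) (nd (nat_lit 255) (nat_lit 0) (cs (lf (nat_lit 17) (nat_lit 252)) (nd (nat_lit 254) (nat_lit 0) (cs (lf (nat_lit 12) (nat_lit 251)) (rf (nat_lit 11)))))))))))))) (cs (nd (nat_lit 250) (nat_lit 0) (cs (lf (nat_lit 13) (nat_lit 228)) (nd (nat_lit 209) (nat_lit 0) (cs (lf (nat_lit 36) (nat_lit 186)) (rf (nat_lit 12)))))) (cs (nd (nat_lit 273) (nat_lit 0) (cs (rf (nat_lit 4)) (cs (nd (nat_lit 250) (nat_lit 0) (cs (rf (nat_lit 13)) (lf (nat_lit 13) (nat_lit 228)))) (nd (nat_lit 254) (nat_lit 0) (cs (lf (nat_lit 6) (nat_lit 251)) (nd (nat_lit 251) (nat_lit 0) (cs (lf (nat_lit 12) (nat_lit 228)) (nd (nat_lit 228) (nat_lit 0) (cs (lf (nat_lit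 22) (nat_lit 228)) (rf (nat_lit 14))))))))))) (nd (nat_lit 251) (nat_lit 0) (cs (lf (nat_lit 12) (nat_lit 228)) (rf (nat_lit 15)))))))))))) (rf (nat_lit 16)))))) q104143 (by decide +kernel)
def q104348 : Q := Q.p (nat_lit 0x2000018000000000000000000000000000000000000000000000000000000000) (nat_lit 0x6000018000760007dc000e700077e0001e0000780000000000000000000000000000000000000000) (nat_lit 13)
theorem c104348 : QOK q104348 := cut [q102742, q103129, q104346, q104347] ⟨c102742, c103129, c104346, c104347, trivial⟩ (nd (nat_lit 233) (nat_lit 0) (cs (rf (nat_lit 0)) (cs (rf (nat_lit 1)) (cs (rf (nat_lit 2)) (rf (nat_lit 3)))))) q104348 (by decide +kernel)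
def q104368 : Q := Q.p (nat_lit 0x2000018000000000000000000000000000000000000000000000000000000000) (nat_lit 0x340000d0000f70007dc000e70007e0000780000c00000000000000000000000000000000000000000) (nat_lit 14)
theorem c104368 : QOK q104368 := cut [q102740, q102742, q103129, q97608, q104238, q104242, q104245, q104349, q104353, q97353, q104364, q80895, q104000, q104013] ⟨c102740, c102742, c103129, c97608, c104238, c104242, c104245, c104349, c104353, c97353, c104364, c80895, c104000, c104013, trivial⟩ (nd (nat_lit 233) (nat_lit 0) (cs (rf (nat_lit 0)) (cs (rf (nat_lit 1)) (cs (rf (nat_lit 2)) (nd (nat_lit 255) (nat_lit 0) (cs (rf (nat_lit 3)) (cs (rf (nat_lit 4)) (cs (nd (nat_lit 277) (nat_lit 0) (cs (rf (nat_lit 5)) (cs (nd (nat_lit 254) (nat_lit 0) (cs (rf (nat_lit 6)) (rf (nat_lit 7)))) (cs (nd (nat_lit 254) (nat_lit 0) (cs (rf (nat_lit 7)) (cs (nd (nat_lit 210) (nat_lit 0) (cs (lf (nat_lit 24) (nat_lit 188)) (rf (nat_lit 8)))) (nd (nat_lit 256) (nat_lit 0) (cs (lf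 (nat_lit 18) (nat_lit 231)) (nd (nat_lit 252) (nat_lit 0) (cs (lf (nat_lit 12) (nat_lit 229)) (nd (nat_lit 210) (nat_lit 0) (cs (lf (nat_lit 24) (nat_lit 188)) (nd (nat_lit 274) (nat_lit 0) (cs (lf (nat_lit 11) (nat_lit 251)) (nd (nat_lit 296) (nat_lit 0) (cs (lf (nat_lit 30) (nat_lit 230)) (nd (nat_lit 209) (nat_lit 0) (cs (lf (nat_lit 36) (nat_lit 186)) (nd (nat_lit 276) (nat_lit 0) (cs (lf (nat_lit 42) (nat_lit 209)) (rf (nat_lit 9))))))))))))))))))) (rf (nat_lit 10)))))) (nd (nat_lit 254) (nat_lit 0) (cs (rf (nat_lit 11)) (cs (rf (nat_lit 12)) (rf (nat_lit 13))))))))))))) q104368 (by decide +kernel)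
def q104402 : Q := Q.p (nat_lit 0x2000018000000000000000000000000000000000000000000000000000000000) (nat_lit 0x6000018000760007de001e7000efe0001e0000780000000000000000000000000000000000000000) (nat_lit 13)
theorem c104402 : QOK q104402 := cut [q103129, q104346, q97451, q104382, q104383, q87528, q104397, q104401] ⟨c103129, c104346, c97451, c104382, c104383, c87528, c104397, c104401, trivial⟩ (nd (nat_lit 233) (nat_lit 0) (cs (rf (nat_lit 0)) (cs (rf (nat_lit 1)) (cs (nd (nat_lit 230) (nat_lit 0) (cs (rf (nat_lit 2)) (cs (rf (nat_lit 3)) (cs (nd (nat_lit 207) (nat_lit 0) (cs (lf (nat_lit 22) (nat_lit 207)) (nd (nat_lit 229) (nat_lit 0) (cs (lf (nat_lit 23) (nat_lit 206)) (nd (nat_lit 210) (nat_lit 0) (cs (lf (nat_lit 17) (nat_lit 207)) (rf (nat_lit 4)))))))) (cs (nd (nat_lit 207) (nat_lit 0) (cs (lf (nat_lit 22) (nat_lit 207)) (nd (nat_lit 255) (nat_lit 0) (cs (lf (nat_lit 5) (nat_lit 230)) (nd (nat_lit 229) (nat_lit 0) (cs (lf (nat_lit 23) (nat_lit 206)) (nd (nat_lit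 210) (nat_lit 0) (cs (lf (nat_lit 17) (nat_lit 207)) (nd (nat_lit 228) (nat_lit 0) (cs (lf (nat_lit 16) (nat_lit 206)) (rf (nat_lit 5)))))))))))) (nd (nat_lit 207) (nat_lit 0) (cs (lf (nat_lit 22) (nat_lit 207)) (rf (nat_lit 6))))))))) (rf (nat_lit 7)))))) q104402 (by decide +kernel)
def q104412 : Q := Q.p (nat_lit 0x6000010000000000000000000000000000000000000000000000000000000000) (nat_lit 0x280000e000078000018000280001c00003e0000e00002800000000000000000000000000000000000) (nat_lit 7)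
theorem c104412 : QOK q104412 := cut [q79128, q79988, q104410, q104411] ⟨c79128, c79988, c104410, c104411, trivial⟩ (nd (nat_lit 210) (nat_lit 0) (cs (rf (nat_lit 0)) (cs (rf (nat_lit 1)) (cs (rf (nat_lit 2)) (rf (nat_lit 3)))))) q104412 (by decide +kernel)
def q104432 : Q := Q.p (nat_lit 0x6000010000000000000000000000000000000000000000000000000000000000) (nat_lit 0x80000280001f80019c000ef8001dc000360000c80000000000000000000000000000000000000000) (nat_lit 12)
theorem c104432 : QOK q104432 := cut [q81677, q81730, q103516, q79199, q102935, q103606, q80981, q82056, q102936, q104429] ⟨c81677, c81730, c103516, c79199, c102935, c103606, c80981, c82056, c102936, c104429, trivial⟩ (nd (nat_lit 252) (nat_lit 0) (cs (rf (nat_lit 0)) (cs (rf (nat_lit 1)) (cs (rf (nat_lit 2)) (nd (nat_lit 275) (nat_lit 0) (cs (rf (nat_lit 3)) (cs (nd (nat_lit 255) (nat_lit 0) (cs (rf (nat_lit 4)) (cs (rf (nat_lit 5)) (nd (nat_lit 233) (nat_lit 0) (cs (rf (nat_lit 6)) (nd (nat_lit 188) (nat_lit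 0) (cs (lf (nat_lit 37) (nat_lit 187)) (nd (nat_lit 273) (nat_lit 0) (cs (lf (nat_lit 10) (nat_lit 251)) (nd (nat_lit 230) (nat_lit 0) (cs (lf (nat_lit 23) (nat_lit 229)) (nd (nat_lit 208) (nat_lit 0) (cs (lf (nat_lit 24) (nat_lit 186)) (rf (nat_lit 7))))))))))))))) (nd (nat_lit 230) (nat_lit 0) (cs (rf (nat_lit 8)) (rf (nat_lit 9))))))))))) q104432 (by decide +kernel)
def q104435 : Q := Q.p (nat_lit 0x7000010000000000000000000000000000000000000000000000000000000000) (nat_lit 0x100000780008c0000b800008000020000000000000000000000000000000000000000000000) (nat_lit 6)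
theorem c104435 : QOK q104435 := cut [q80331, q96398, q104434] ⟨c80331, c96398, c104434, trivial⟩ (nd (nat_lit 251) (nat_lit 0) (cs (rf (nat_lit 0)) (cs (rf (nat_lit 1)) (rf (nat_lit 2))))) q104435 (by decide +kernel)
def q104455 : Q := Q.p (nat_lit 0x6000010000000000000000000000000000000000000000000000000000000000) (nat_lit 0x380000f0000f0000098003e80007f0001f80000e00002800000000000000000000000000000000000) (nat_lit 12)
theorem c104455 : QOK q104455 := cut [q102812, q102810, q103987, q81761, q80343, q104438, q103922, q90153, q88777, q104451, q104454] ⟨c102812, c102810, c103987, c81761, c80343, c104438, c103922, c90153, c88777, c104451, c104454, trivial⟩ (nd (nat_lit 233) (nat_lit 0) (cs (rf (nat_lit 0)) (cs (nd (nat_lit 276) (nat_lit 0) (cs (nd (nat_lit 210) (nat_lit 0) (cs (rf (nat_lit 1)) (rf (nat_lit 2)))) (cs (nd (nat_lit 251) (nat_lit 0) (cs (lf (nat_lit 13) (nat_lit 229)) (rf (nat_lit 3)))) (nd (nat_lit 298) (nat_lit 0) (cs (lf (nat_lit 35) (nat_lit 210))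 (rf (nat_lit 4))))))) (cs (nd (nat_lit 276) (nat_lit 0) (cs (rf (nat_lit 5)) (cs (nd (nat_lit 210) (nat_lit 0) (cs (rf (nat_lit 6)) (cs (rf (nat_lit 2)) (cs (nd (nat_lit 234) (nat_lit 0) (cs (lf (nat_lit 6) (nat_lit 231)) (nd (nat_lit 277) (nat_lit 0) (cs (lf (nat_lit 29) (nat_lit 210)) (nd (nat_lit 278) (nat_lit 0) (cs (lf (nat_lit 18) (nat_lit 253)) (nd (nat_lit 188) (nat_lit 0) (cs (lf (nat_lit 28) (nat_lit 188)) (rf (nat_lit 7)))))))))) (nd (nat_lit 277) (nat_lit 0) (cs (lf (nat_lit 29) (nat_lit 210)) (nd (nat_lit 278) (nat_lit 0) (cs (lf (nat_lit 18) (nat_lit 253)) (nd (nat_lit 188) (nat_lit 0) (cs (lf (nat_lit 28) (nat_lit 188)) (rf (nat_lit 8)))))))))))) (rf (nat_lit 9))))) (rf (nat_lit 10)))))) q104455 (by decide +kernel)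
def q104466 : Q := Q.p (nat_lit 0x6000010000000000000000000000000000000000000000000000000000000000) (nat_lit 0x80000380000f00001f00039c001e80007f8001fc0003e0000f80000a000000000000000000000000000000) (nat_lit 14)
theorem c104466 : QOK q104466 := cut [q79128, q79988, q103081, q102812, q103051, q103055, q92274, q103014, q79276, q80043] ⟨c79128, c79988, c103081, c102812, c103051, c103055, c92274, c103014, c79276, c80043, trivial⟩ (nd (nat_lit 210) (nat_lit 0) (cs (rf (nat_lit 0)) (cs (rf (nat_lit 1)) (cs (rf (nat_lit 2)) (nd (nat_lit 233) (nat_lit 0) (cs (rf (nat_lit 3)) (cs (rf (nat_lit 4)) (cs (rf (nat_lit 5)) (nd (nat_lit 276) (nat_lit 0) (cs (rf (nat_lit 6)) (cs (rf (nat_lit 7)) (nd (nat_lit 275) (nat_lit 0) (cs (rf (nat_lit 8)) (nd (nat_lit 251) (nat_lit 0) (cs (lf (nat_lit 13) (nat_lit 229)) (nd (nat_lit 189) (nat_lit 0) (cs (lf (nat_lit 34) (nat_lit 188)) (nd (nat_lit 209) (nat_lit 0) (cs (lf (nat_lit 47) (nat_lit 187)) (nd (nat_lit 208) (nat_lit 0) (cs (lf (nat_lit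 0) (nat_lit 207)) (nd (nat_lit 231) (nat_lit 0) (cs (lf (nat_lit 47) (nat_lit 186)) (rf (nat_lit 9))))))))))))))))))))))))) q104466 (by decide +kernel)
def q104487 : Q := Q.p (nat_lit 0x2000018000000000000000000000000000000000000000000000000000000000) (nat_lit 0x500001c0000700001c0000500006000007c0000c0000300000000000000000000000000000000000000000) (nat_lit 8)
theorem c104487 : QOK q104487 := cut [q102760, q103131, q94775, q96325, q98315, q10753, q102752] ⟨c102760, c103131, c94775, c96325, c98315, c10753, c102752, trivial⟩ (nd (nat_lit 275) (nat_lit 0) (cs (rf (nat_lit 0)) (cs (rf (nat_lit 1)) (cs (nd (nat_lit 209) (nat_lit 0) (cs (rf (nat_lit 2)) (cs (rf (nat_lit 3)) (cs (rf (nat_lit 4)) (nd (nat_lit 274) (nat_lit 0) (cs (lf (nat_lit 41) (nat_lit 208)) (nd (nat_lit 276) (nat_lit 0) (cs (lf (nat_lit 29) (nat_lit 209)) (nd (nat_lit 208) (nat_lit 0) (cs (lf (nat_lit 47) (nat_lit 186)) (rf (nat_lit 5)))))))))))) (cs (nd (nat_lit 297) (nat_lit 0) (cs (lf (nat_lit 35)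 (nat_lit 209)) (rf (nat_lit 6)))) (nd (nat_lit 297) (nat_lit 0) (cs (lf (nat_lit 35) (nat_lit 209)) (nd (nat_lit 296) (nat_lit 0) (cs (lf (nat_lit 41) (nat_lit 230)) (nd (nat_lit 209) (nat_lit 0) (cs (lf (nat_lit 40) (nat_lit 208)) (nd (nat_lit 186) (nat_lit 0) (cs (lf (nat_lit 46) (nat_lit 186)) (nd (nat_lit 187) (nat_lit 0) (cs (lf (nat_lit 47) (nat_lit 164)) (nd (nat_lit 254) (nat_lit 0) (cs (lf (nat_lit 30) (nat_lit 231)) (lf (nat_lit 24) (nat_lit 165))))))))))))))))))) q104487 (by decide +kernel)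
def q104517 : Q := Q.p (nat_lit 0x800002000018000000000000000000000000000000000000000000000000000000000) (nat_lit 0x40000300000d0000f60007dc003e40003e00006c0000700001c00004000000000000000000000000000000) (nat_lit 10)
theorem c104517 : QOK q104517 := cut [q97351, q10764, q86623, q80310, q104183, q104510, q104167, q88820] ⟨c97351, c10764, c86623, c80310, c104183, c104510, c104167, c88820, trivial⟩ (nd (nat_lit 276) (nat_lit 0) (cs (rf (nat_lit 0)) (cs (nd (nat_lit 209) (nat_lit 0) (cs (lf (nat_lit 29) (nat_lit 209)) (nd (nat_lit 274) (nat_lit 0) (cs (lf (nat_lit 41) (nat_lit 208)) (nd (nat_lit 187) (nat_lit 0) (cs (lf (nat_lit 40) (nat_lit 186)) (rf (nat_lit 1)))))))) (cs (nd (nat_lit 252) (nat_lit 0) (cs (rf (nat_lit 2)) (cs (nd (nat_lit 254) (nat_lit 0) (cs (rf (nat_lit 3)) (cs (rf (nat_lit 4)) (nd (nat_lit 298) (nat_lit 0) (cs (lf (nat_lit 42) (nat_lit 231)) (nd (nat_lit 277) (nat_lit 0) (cs (lf (nat_lit 18) (nat_lit 252)) (nd (nat_lit 299) (nat_lit 0) (cs (lf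 (nat_lit 29) (nat_lit 232)) (lf (nat_lit 24) (nat_lit 210))))))))))) (rf (nat_lit 5))))) (nd (nat_lit 252) (nat_lit 0) (cs (rf (nat_lit 2)) (cs (rf (nat_lit 5)) (nd (nat_lit 254) (nat_lit 0) (cs (rf (nat_lit 6)) (nd (nat_lit 233) (nat_lit 0) (cs (lf (nat_lit 6) (nat_lit 230)) (nd (nat_lit 277) (nat_lit 0) (cs (lf (nat_lit 18) (nat_lit 252)) (nd (nat_lit 210) (nat_lit 0) (cs (lf (nat_lit 29) (nat_lit 210)) (rf (nat_lit 7))))))))))))))))) q104517 (by decide +kernel)
def q104607 : Q := Q.p (nat_lit 0x2000018000000000000000000000000000000000000000000000000000000000) (nat_lit 0x1c0000700007c00005c0006700003c0003e0000700001400000000000000000000000000000000000) (nat_lit 10)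
theorem c104607 : QOK q104607 := cut [q94424, q104264, q104589, q104580, q104582, q104592, q104595, q80750, q97738, q104601, q82300] ⟨c94424, c104264, c104589, c104580, c104582, c104592, c104595, c80750, c97738, c104601, c82300, trivial⟩ (nd (nat_lit 252) (nat_lit 0) (cs (rf (nat_lit 0)) (cs (rf (nat_lit 1)) (cs (rf (nat_lit 2)) (nd (nat_lit 209) (nat_lit 0) (cs (rf (nat_lit 3)) (cs (nd (nat_lit 275) (nat_lit 0) (cs (rf (nat_lit 4)) (cs (rf (nat_lit 5)) (nd (nat_lit 250) (nat_lit 0) (cs (lf (nat_lit 13) (nat_lit 228)) (rf (nat_lit 6))))))) (cs (nd (nat_lit 187) (nat_lit 0) (cs (rf (nat_lit 7)) (cs (rf (nat_lit 8)) (nd (nat_lit 250) (nat_lit 0) (cs (lf (nat_lit 13) (nat_lit 228)) (nd (nat_lit 254) (nat_lit 0) (cs (lf (nat_lit 29) (nat_lit 187)) (rf (nat_lit 9))))))))) (nd (nat_lit 250) (nat_lit 0) (cs (lf (nat_lit 13) (nat_lit 228)) (rf (nat_lit 10)))))))))))) q104607 (by decide +kernel)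
def q104639 : Q := Q.p (nat_lit 0x2000018000000000000000000000000000000000000000000000000000000000) (nat_lit 0xa00006a0007cc000e70007fe000360000d00000000000000000000000000000000000000000) (nat_lit 10)
theorem c104639 : QOK q104639 := cut [q12207, q88863, q7963, q12222, q103341, q97428, q103279, q3985, q12221, q102502, q102506, q104575, q104383, q80199] ⟨c12207, c88863, c7963, c12222, c103341, c97428, c103279, c3985, c12221, c102502, c102506, c104575, c104383, c80199, trivial⟩ (nd (nat_lit 210) (nat_lit 0) (cs (rf (nat_lit 0)) (cs (rf (nat_lit 1)) (cs (nd (nat_lit 230) (nat_lit 0) (cs (rf (nat_lit 2)) (cs (rf (nat_lit 3)) (cs (rf (nat_lit 4)) (nd (nat_lit 229) (nat_lit 0) (cs (rf (nat_lit 5)) (cs (rf (nat_lit 6)) (nd (nat_lit 275) (nat_lit 0) (cs (lf (nat_lit 30) (nat_lit 209)) (nd (nat_lit 254) (nat_lit 0) (cs (lf (nat_lit 5) (nat_lit 229)) (nd (nat_lit 250) (nat_lit 0) (cs (lf (nat_lit 10) (nat_lit 228)) (nd (nat_lit 207) (nat_lit 0) (cs (lf (nat_lit 23) (nat_lit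 206)) (nd (nat_lit 208) (nat_lit 0) (cs (lf (nat_lit 18) (nat_lit 207)) (rf (nat_lit 7))))))))))))))))))) (nd (nat_lit 230) (nat_lit 0) (cs (rf (nat_lit 2)) (cs (rf (nat_lit 8)) (cs (nd (nat_lit 233) (nat_lit 0) (cs (rf (nat_lit 9)) (cs (rf (nat_lit 10)) (rf (nat_lit 11))))) (nd (nat_lit 229) (nat_lit 0) (cs (rf (nat_lit 6)) (cs (rf (nat_lit 12)) (nd (nat_lit 166) (nat_lit 0) (cs (lf (nat_lit 37) (nat_lit 165)) (nd (nat_lit 254) (nat_lit 0) (cs (lf (nat_lit 5) (nat_lit 229)) (rf (nat_lit 13))))))))))))))))) q104639 (by decide +kernel)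
def q104674 : Q := Q.p (nat_lit 0x800003000018000000000000000000000000000000000000000000000000000000000) (nat_lit 0x300000c8000370000cc0000700001c000060000080000000000000000000000000000000000000000) (nat_lit 7)
theorem c104674 : QOK q104674 := cut [q92326, q103419, q104669] ⟨c92326, c103419, c104669, trivial⟩ (nd (nat_lit 251) (nat_lit 0) (cs (lf (nat_lit 12) (nat_lit 228)) (nd (nat_lit 254) (nat_lit 0) (cs (rf (nat_lit 0)) (cs (rf (nat_lit 1)) (rf (nat_lit 2))))))) q104674 (by decide +kernel)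
def q104788 : Q := Q.p (nat_lit 0x1800006000010000000000000000000000000000000000000000000000000000000000) (nat_lit 0x2400009c0006700039c0000f000028000000000000000000000000000000000000000000000000000) (nat_lit 8)
theorem c104788 : QOK q104788 := cut [q80720, q103857, q96544, q102915, q81957] ⟨c80720, c103857, c96544, c102915, c81957, trivial⟩ (nd (nat_lit 274) (nat_lit 0) (cs (rf (nat_lit 0)) (cs (rf (nat_lit 1)) (nd (nat_lit 252) (nat_lit 0) (cs (rf (nat_lit 2)) (cs (rf (nat_lit 3)) (nd (nat_lit 255) (nat_lit 0) (cs (lf (nat_lit 6) (nat_lit 252)) (nd (nat_lit 277) (nat_lit 0) (cs (lf (nat_lit 5) (nat_lit 252)) (nd (nat_lit 299) (nat_lit 0) (cs (lf (nat_lit 42) (nat_lit 232)) (rf (nat_lit 4)))))))))))))) q104788 (by decide +kernel)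
def q104796 : Q := Q.p (nat_lit 0x800006000010000000000000000000000000000000000000000000000000000000000) (nat_lit 0x100001c000070000170001900000f000030000040000000000000000000000000000000000000000000000) (nat_lit 7)
theorem c104796 : QOK q104796 := cut [q81707, q103348, q97337, q97347] ⟨c81707, c103348, c97337, c97347, trivial⟩ (nd (nat_lit 231) (nat_lit 0) (cs (rf (nat_lit 0)) (cs (rf (nat_lit 1)) (nd (nat_lit 274) (nat_lit 0) (cs (rf (nat_lit 2)) (rf (nat_lit 3))))))) q104796 (by decide +kernel)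
def q104798 : Q := Q.p (nat_lit 0x6000010000000000000000000000000000000000000000000000000000000000) (nat_lit 0x380000e0000f8000098000280000e0000300000c00002000000000000000000000000000000000000) (nat_lit 9)
theorem c104798 : QOK q104798 := cut [q79901, q79988, q102805, q104411] ⟨c79901, c79988, c102805, c104411, trivial⟩ (nd (nat_lit 210) (nat_lit 0) (cs (rf (nat_lit 0)) (cs (rf (nat_lit 1)) (cs (rf (nat_lit 2)) (rf (nat_lit 3)))))) q104798 (by decide +kernel)
def q104805 : Q := Q.p (nat_lit 0x6000010000000000000000000000000000000000000000000000000000000000) (nat_lit 0x80000f0000fe000198000080000e0000380000e00002800000000000000000000000000000000000) (nat_lit 9)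
theorem c104805 : QOK q104805 := cut [q79128, q79988, q102958, q79961, q102810, q79290] ⟨c79128, c79988, c102958, c79961, c102810, c79290, trivial⟩ (nd (nat_lit 210) (nat_lit 0) (cs (rf (nat_lit 0)) (cs (rf (nat_lit 1)) (cs (rf (nat_lit 2)) (nd (nat_lit 276) (nat_lit 0) (cs (rf (nat_lit 3)) (cs (rf (nat_lit 4)) (nd (nat_lit 189) (nat_lit 0) (cs (lf (nat_lit 34) (nat_lit 188)) (nd (nat_lit 275) (nat_lit 0) (cs (lf (nat_lit 41) (nat_lit 209)) (nd (nat_lit 209) (nat_lit 0) (cs (lf (nat_lit 47) (nat_lit 187)) (nd (nat_lit 231) (nat_lit 0) (cs (lf (nat_lit 29) (nat_lit 209)) (rf (nat_lit 5))))))))))))))))) q104805 (by decide +kernel)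
def q104871 : Q := Q.p (nat_lit 0x6000010000000000000000000000000000000000000000000000000000000000) (nat_lit 0x100000c000078001ff80079c000ef8001e0000380000800000000000000000000000000000000000000000) (nat_lit 14)
theorem c104871 : QOK q104871 := cut [q81677, q81730, q103612, q102855, q103606, q103661, q103085, q103091, q81970] ⟨c81677, c81730, c103612, c102855, c103606, c103661, c103085, c103091, c81970, trivial⟩ (nd (nat_lit 252) (nat_lit 0) (cs (rf (nat_lit 0)) (cs (rf (nat_lit 1)) (cs (rf (nat_lit 2)) (nd (nat_lit 255) (nat_lit 0) (cs (rf (nat_lit 3)) (cs (rf (nat_lit 4)) (cs (rf (nat_lit 5)) (nd (nat_lit 276) (nat_lit 0) (cs (rf (nat_lit 6)) (cs (rf (nat_lit 7)) (nd (nat_lit 229) (nat_lit 0) (cs (lf (nat_lit 22) (nat_lit 229)) (nd (nat_lit 233) (nat_lit 0) (cs (lf (nat_lit 17) (nat_lit 230)) (nd (nat_lit 189) (nat_lit 0) (cs (lf (nat_lit 37) (nat_lit 188)) (nd (nat_lit 274) (nat_lit 0) (cs (lf (nat_lit 11) (nat_lit 251)) (nd (nat_lit 277) (nat_lit 0) (cs (lf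 (nat_lit 5) (nat_lit 252)) (nd (nat_lit 210) (nat_lit 0) (cs (lf (nat_lit 24) (nat_lit 188)) (nd (nat_lit 187) (nat_lit 0) (cs (lf (nat_lit 46) (nat_lit 187)) (nd (nat_lit 275) (nat_lit 0) (cs (lf (nat_lit 41) (nat_lit 209)) (rf (nat_lit 8))))))))))))))))))))))))))))) q104871 (by decide +kernel)
def q104917 : Q := Q.p (nat_lit 0x7000000000000000000000000000000000000000000000000000000000000000) (nat_lit 0x10000ef0001880000f800008000020000000000000000000000000000000000000000000000) (nat_lit 6)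
theorem c104917 : QOK q104917 := cut [q102865, q102866] ⟨c102865, c102866, trivial⟩ (nd (nat_lit 229) (nat_lit 0) (cs (rf (nat_lit 0)) (cs (rf (nat_lit 1)) (nd (nat_lit 228) (nat_lit 0) (cs (lf (nat_lit 21) (nat_lit 228)) (nd (nat_lit 230) (nat_lit 0) (cs (lf (nat_lit 0) (nat_lit 227)) (lf (nat_lit 3) (nat_lit 228))))))))) q104917 (by decide +kernel)
def q104937 : Q := Q.p (nat_lit 0x6000010000000000000000000000000000000000000000000000000000000000) (nat_lit 0x20000088001f780079c003ef80007c0007e0000f80000000000000000000000000000000000000000) (nat_lit 15)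
theorem c104937 : QOK q104937 := cut [q81677, q81730, q103516, q81028, q102978, q104935] ⟨c81677, c81730, c103516, c81028, c102978, c104935, trivial⟩ (nd (nat_lit 252) (nat_lit 0) (cs (rf (nat_lit 0)) (cs (rf (nat_lit 1)) (cs (rf (nat_lit 2)) (nd (nat_lit 255) (nat_lit 0) (cs (rf (nat_lit 3)) (cs (rf (nat_lit 4)) (rf (nat_lit 5))))))))) q104937 (by decide +kernel)
def q104963 : Q := Q.p (nat_lit 0x6000010000000000000000000000000000000000000000000000000000000000) (nat_lit 0x18000078001df80079c000ef80007c0001e0000380000a00000000000000000000000000000000000) (nat_lit 10)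
theorem c104963 : QOK q104963 := cut [q81677, q81730, q103516, q79028, q85969, q79199, q104429, q79029, q103690, q10803, q103967, q79043, q94098, q103479, q86774] ⟨c81677, c81730, c103516, c79028, c85969, c79199, c104429, c79029, c103690, c10803, c103967, c79043, c94098, c103479, c86774, trivial⟩ (nd (nat_lit 252) (nat_lit 0) (cs (rf (nat_lit 0)) (cs (rf (nat_lit 1)) (cs (rf (nat_lit 2)) (nd (nat_lit 230) (nat_lit 0) (cs (rf (nat_lit 3)) (cs (nd (nat_lit 255) (nat_lit 0) (cs (lf (nat_lit 23) (nat_lit 229)) (nd (nat_lit 233) (nat_lit 0) (cs (lf (nat_lit 17) (nat_lit 230)) (nd (nat_lit 274) (nat_lit 0) (cs (lf (nat_lit 11) (nat_lit 251)) (rf (nat_lit 4)))))))) (cs (nd (nat_lit 275) (nat_lit 0) (cs (rf (nat_lit 5)) (cs (rf (nat_lit 6)) (nd (nat_lit 208) (nat_lit 0) (cs (rf (nat_lit 7)) (cs (rf (nat_lit 8)) (nd (nat_lit 209) (nat_lit 0) (cs (rf (nat_lit 9)) (cs (nd (nat_lit 210) (nat_lit 0) (cs (lf (nat_lit 36) (nat_lit 187)) (rf (nat_lit 10)))) (nd (nat_lit 188) (nat_lit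 0) (cs (lf (nat_lit 37) (nat_lit 187)) (nd (nat_lit 274) (nat_lit 0) (cs (lf (nat_lit 35) (nat_lit 186)) (rf (nat_lit 11))))))))))))))) (nd (nat_lit 231) (nat_lit 0) (cs (rf (nat_lit 12)) (cs (rf (nat_lit 13)) (nd (nat_lit 233) (nat_lit 0) (cs (lf (nat_lit 6) (nat_lit 230)) (rf (nat_lit 14))))))))))))))) q104963 (by decide +kernel)
def q104968 : Q := Q.p (nat_lit 0x6000010000000000000000000000000000000000000000000000000000000000) (nat_lit 0xe0000f80000980002800007c000fc0000e00002800000000000000000000000000000000000) (nat_lit 8)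
theorem c104968 : QOK q104968 := cut [q79128, q102805, q102828, q104967] ⟨c79128, c102805, c102828, c104967, trivial⟩ (nd (nat_lit 210) (nat_lit 0) (cs (rf (nat_lit 0)) (cs (rf (nat_lit 1)) (cs (rf (nat_lit 2)) (rf (nat_lit 3)))))) q104968 (by decide +kernel)
def q105037 : Q := Q.p (nat_lit 0x6000010000000000000000000000000000000000000000000000000000000000) (nat_lit 0xa0000e8000798000ef0007fc0007e0000f80002800000000000000000000000000000000000) (nat_lit 13)
theorem c105037 : QOK q105037 := cut [q79128, q102805, q102829, q102812, q104454, q104873, q79626, q104353, q3985, q96507, q97306, q102534, q103002, q89463, q102740, q103767, q104376] ⟨c79128, c102805, c102829, c102812, c104454, c104873, c79626, c104353, c3985, c96507, c97306, c102534, c103002, c89463, c102740, c103767, c104376, trivial⟩ (nd (nat_lit 210) (nat_lit 0) (cs (rf (nat_lit 0)) (cs (rf (nat_lit 1)) (cs (rf (nat_lit 2)) (cs (nd (nat_lit 233) (nat_lit 0) (cs (rf (nat_lit 3)) (cs (rf (nat_lit 4)) (cs (nd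 (nat_lit 255) (nat_lit 0) (cs (rf (nat_lit 5)) (cs (nd (nat_lit 231) (nat_lit 0) (cs (rf (nat_lit 6)) (cs (nd (nat_lit 277) (nat_lit 0) (cs (lf (nat_lit 42) (nat_lit 210)) (nd (nat_lit 275) (nat_lit 0) (cs (lf (nat_lit 30) (nat_lit 209)) (rf (nat_lit 7)))))) (nd (nat_lit 230) (nat_lit 0) (cs (lf (nat_lit 0) (nat_lit 229)) (nd (nat_lit 277) (nat_lit 0) (cs (lf (nat_lit 42) (nat_lit 210)) (nd (nat_lit 208) (nat_lit 0) (cs (lf (nat_lit 23) (nat_lit 207)) (nd (nat_lit 275) (nat_lit 0) (cs (lf (nat_lit 30) (nat_lit 209)) (rf (nat_lit 8))))))))))))) (nd (nat_lit 252) (nat_lit 0) (cs (lf (nat_lit 12) (nat_lit 229)) (nd (nat_lit 230) (nat_lit 0) (cs (lf (nat_lit 23) (nat_lit 229)) (nd (nat_lit 231) (nat_lit 0) (cs (lf (nat_lit 18) (nat_lit 230)) (rf (nat_lit 9))))))))))) (nd (nat_lit 234) (nat_lit 0) (cs (lf (nat_lit 6) (nat_lit 231)) (nd (nat_lit 231) (nat_lit 0) (cs (rf (nat_lit 10)) (cs (rf (nat_lit 11)) (nd (nat_lit 212) (nat_lit 0) (cs (lf (nat_lit 17) (nat_lit 209))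 (nd (nat_lit 209) (nat_lit 0) (cs (lf (nat_lit 23) (nat_lit 208)) (nd (nat_lit 275) (nat_lit 0) (cs (lf (nat_lit 30) (nat_lit 209)) (nd (nat_lit 187) (nat_lit 0) (cs (lf (nat_lit 24) (nat_lit 165)) (nd (nat_lit 186) (nat_lit 0) (cs (lf (nat_lit 47) (nat_lit 164)) (lf (nat_lit 19) (nat_lit 186))))))))))))))))))))) (nd (nat_lit 233) (nat_lit 0) (cs (rf (nat_lit 3)) (cs (rf (nat_lit 4)) (cs (nd (nat_lit 255) (nat_lit 0) (cs (rf (nat_lit 12)) (cs (rf (nat_lit 5)) (nd (nat_lit 252) (nat_lit 0) (cs (lf (nat_lit 12) (nat_lit 229)) (nd (nat_lit 166) (nat_lit 0) (cs (nd (nat_lit 230) (nat_lit 0) (cs (lf (nat_lit 23) (nat_lit 229)) (nd (nat_lit 231) (nat_lit 0) (cs (lf (nat_lit 18) (nat_lit 230)) (nd (nat_lit 208) (nat_lit 0) (cs (lf (nat_lit 23) (nat_lit 207)) (nd (nat_lit 211) (nat_lit 0) (cs (lf (nat_lit 17) (nat_lit 208)) (nd (nat_lit 167) (nat_lit 0) (cs (lf (nat_lit 37) (nat_lit 166)) (rf (nat_lit 13)))))))))))) (lf (nat_lit 25) (nat_lit 166))))))))) (nd (nat_lit 231)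 (nat_lit 0) (cs (rf (nat_lit 14)) (cs (rf (nat_lit 15)) (cs (rf (nat_lit 16)) (nd (nat_lit 234) (nat_lit 0) (cs (lf (nat_lit 6) (nat_lit 231)) (nd (nat_lit 256) (nat_lit 0) (cs (lf (nat_lit 5) (nat_lit 231)) (nd (nat_lit 212) (nat_lit 0) (cs (lf (nat_lit 17) (nat_lit 209)) (nd (nat_lit 208) (nat_lit 0) (cs (lf (nat_lit 22) (nat_lit 208)) (nd (nat_lit 188) (nat_lit 0) (cs (lf (nat_lit 36) (nat_lit 165)) (nd (nat_lit 165) (nat_lit 0) (cs (lf (nat_lit 46) (nat_lit 165)) (nd (nat_lit 189) (nat_lit 0) (cs (lf (nat_lit 35) (nat_lit 166)) (nd (nat_lit 255) (nat_lit 0) (cs (lf (nat_lit 29) (nat_lit 188)) (nd (nat_lit 278) (nat_lit 0) (cs (lf (nat_lit 46) (nat_lit 189)) (lf (nat_lit 5) (nat_lit 253))))))))))))))))))))))))))))))))) q105037 (by decide +kernel)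
def q105120 : Q := Q.p (nat_lit 0x200001800002000008000000000000000000000000000000000000000000000000000) (nat_lit 0x100000700001c0000100000000004000014000050000000000000000000000000000000000000000000000) (nat_lit 7)
theorem c105120 : QOK q105120 := cut [q82211] ⟨c82211, trivial⟩ (nd (nat_lit 184) (nat_lit 0) (cs (lf (nat_lit 46) (nat_lit 184)) (rf (nat_lit 0)))) q105120 (by decide +kernel)
def q105168 : Q := Q.p (nat_lit 0x3800008000000000000000000000000000000000000000000000000000000000) (nat_lit 0x700003e000000000740000fc0001f0000780001400000000000000000000000000000000000) (nat_lit 10)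
theorem c105168 : QOK q105168 := cut [q82300, q82301, q82309, q105163, q105164, q105166] ⟨c82300, c82301, c82309, c105163, c105164, c105166, trivial⟩ (nd (nat_lit 209) (nat_lit 0) (cs (rf (nat_lit 0)) (cs (rf (nat_lit 1)) (cs (rf (nat_lit 2)) (cs (rf (nat_lit 3)) (nd (nat_lit 275) (nat_lit 0) (cs (rf (nat_lit 4)) (rf (nat_lit 5))))))))) q105168 (by decide +kernel)
def q105188 : Q := Q.p (nat_lit 0x3800000000000000000000000000000000000000000000000000000000000000) (nat_lit 0x200001bc000460003dc00010000040000000000000000000000000000000000000000000000) (nat_lit 7)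
theorem c105188 : QOK q105188 := cut [q2065, q89927, q105187] ⟨c2065, c89927, c105187, trivial⟩ (nd (nat_lit 250) (nat_lit 0) (cs (rf (nat_lit 0)) (cs (rf (nat_lit 1)) (rf (nat_lit 2))))) q105188 (by decide +kernel)
def q105202 : Q := Q.p (nat_lit 0x3800000000000000000000000000000000000000000000000000000000000000) (nat_lit 0x3fc0004600001c00000000000000000000000000000000000000000000000000000000) (nat_lit 6)
theorem c105202 : QOK q105202 := cut [q2065, q3764, q3765, q105201] ⟨c2065, c3764, c3765, c105201, trivial⟩ (nd (nat_lit 250) (nat_lit 0) (cs (rf (nat_lit 0)) (cs (rf (nat_lit 1)) (cs (rf (nat_lit 2)) (rf (nat_lit 3)))))) q105202 (by decide +kernel)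
def q105262 : Q := Q.p (nat_lit 0x100000c00003000000000000000000000000000000000000000000000000000000000000000) (nat_lit 0x200000e000300000400000f8000380000e0000000000000000000000000000000000000000000000) (nat_lit 8)
theorem c105262 : QOK q105262 := cut [q80993, q98394, q105261] ⟨c80993, c98394, c105261, trivial⟩ (nd (nat_lit 230) (nat_lit 0) (cs (rf (nat_lit 0)) (cs (rf (nat_lit 1)) (rf (nat_lit 2))))) q105262 (by decide +kernel)
def q105276 : Q := Q.p (nat_lit 0xc00003000004000000000000000000000000000000000000000000000000000000000) (nat_lit 0x40001d0000720001c00000b800068000180000000000000000000000000000000000000000000000) (nat_lit 9)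
theorem c105276 : QOK q105276 := cut [q24703, q98472, q105275] ⟨c24703, c98472, c105275, trivial⟩ (nd (nat_lit 231) (nat_lit 0) (cs (rf (nat_lit 0)) (cs (rf (nat_lit 1)) (rf (nat_lit 2))))) q105276 (by decide +kernel)
def q105291 : Q := Q.p (nat_lit 0xc00003000004000000000000000000000000000000000000000000000000000000000) (nat_lit 0x80000200001d0000720001c0000780000f80003e0000000000000000000000000000000000000000000000) (nat_lit 14)
theorem c105291 : QOK q105291 := cut [q105289] ⟨c105289, trivial⟩ (nd (nat_lit 208) (nat_lit 0) (cs (lf (nat_lit 24) (nat_lit 186)) (nd (nat_lit 185) (nat_lit 0) (cs (lf (nat_lit 46) (nat_lit 185)) (rf (nat_lit 0)))))) q105291 (by decide +kernel)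
def q105303 : Q := Q.p (nat_lit 0x100000c00003000004000000000000000000000000000000000000000000000000000000000) (nat_lit 0xa00006e0000380004000002000008000000000000000000000000000000000000000000000000000) (nat_lit 7)
theorem c105303 : QOK q105303 := cut [q105302] ⟨c105302, trivial⟩ (nd (nat_lit 297) (nat_lit 0) (cs (lf (nat_lit 42) (nat_lit 230)) (rf (nat_lit 0)))) q105303 (by decide +kernel)
def q105404 : Q := Q.p (nat_lit 0xc00003000000000000000000000000000000000000000000000000000000000000000) (nat_lit 0x700003c0003f0000ff0003f80003f000138000c60003800007c0001c0000000000000000000000000000000000000000000000) (nat_lit 17)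
theorem c105404 : QOK q105404 := cut [q24867, q84408, q13603, q41749, q55338, q23049, q25666, q13287, q12767, q86395, q105402] ⟨c24867, c84408, c13603, c41749, c55338, c23049, c25666, c13287, c12767, c86395, c105402, trivial⟩ (nd (nat_lit 318) (nat_lit 0) (cs (rf (nat_lit 0)) (cs (nd (nat_lit 273) (nat_lit 0) (cs (rf (nat_lit 1)) (cs (nd (nat_lit 272) (nat_lit 0) (cs (lf (nat_lit 12) (nat_lit 249)) (nd (nat_lit 249) (nat_lit 0) (cs (lf (nat_lit 22) (nat_lit 249)) (nd (nat_lit 294) (nat_lit 0) (cs (lf (nat_lit 11) (nat_lit 271)) (nd (nat_lit 295) (nat_lit 0) (cs (lf (nat_lit 6) (nat_lit 272)) (nd (nat_lit 317) (nat_lit 0) (cs (lf (nat_lit 30) (nat_lit 251)) (nd (nat_lit 319) (nat_lit 0) (cs (lf (nat_lit 18) (nat_lit 294)) (rf (nat_lit 2)))))))))))))) (nd (nat_lit 319) (nat_lit 0) (cs (rf (nat_lit 2)) (cs (nd (nat_lit 317) (nat_lit 0) (cs (nd (nat_lit 254) (nat_lit 0) (cs (lf (nat_lit 6) (nat_lit 251)) (nd (nat_lit 295) (nat_lit 0) (cs (lf (nat_lit 30) (nat_lit 251))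 (nd (nat_lit 294) (nat_lit 0) (cs (lf (nat_lit 18) (nat_lit 294)) (lf (nat_lit 6) (nat_lit 272)))))))) (cs (nd (nat_lit 316) (nat_lit 0) (cs (rf (nat_lit 3)) (nd (nat_lit 294) (nat_lit 0) (cs (lf (nat_lit 23) (nat_lit 293)) (nd (nat_lit 295) (nat_lit 0) (cs (lf (nat_lit 18) (nat_lit 294)) (lf (nat_lit 6) (nat_lit 272)))))))) (cs (nd (nat_lit 316) (nat_lit 0) (cs (rf (nat_lit 3)) (cs (nd (nat_lit 254) (nat_lit 0) (cs (rf (nat_lit 4)) (lf (nat_lit 6) (nat_lit 251)))) (cs (nd (nat_lit 342) (nat_lit 0) (cs (lf (nat_lit 4) (nat_lit 316)) (nd (nat_lit 254) (nat_lit 0) (cs (lf (nat_lit 6) (nat_lit 251)) (nd (nat_lit 320) (nat_lit 0) (cs (lf (nat_lit 5) (nat_lit 317)) (rf (nat_lit 5)))))))) (nd (nat_lit 254) (nat_lit 0) (cs (rf (nat_lit 6)) (lf (nat_lit 6) (nat_lit 251)))))))) (cs (nd (nat_lit 254) (nat_lit 0) (cs (lf (nat_lit 6) (nat_lit 251)) (nd (nat_lit 339) (nat_lit 0) (cs (lf (nat_lit 32) (nat_lit 251)) (nd (nat_lit 320) (nat_lit 0) (cs (lf (nat_lit 11) (nat_lit 316))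 (nd (nat_lit 342) (nat_lit 0) (cs (lf (nat_lit 5) (nat_lit 317)) (nd (nat_lit 341) (nat_lit 0) (cs (lf (nat_lit 0) (nat_lit 316)) (nd (nat_lit 340) (nat_lit 0) (cs (lf (nat_lit 17) (nat_lit 317)) (nd (nat_lit 361) (nat_lit 0) (cs (lf (nat_lit 11) (nat_lit 338)) (nd (nat_lit 364) (nat_lit 0) (cs (lf (nat_lit 5) (nat_lit 339)) (nd (nat_lit 383) (nat_lit 0) (cs (lf (nat_lit 30) (nat_lit 317)) (rf (nat_lit 7)))))))))))))))))))) (nd (nat_lit 254) (nat_lit 0) (cs (lf (nat_lit 6) (nat_lit 251)) (nd (nat_lit 295) (nat_lit 0) (cs (lf (nat_lit 30) (nat_lit 251)) (nd (nat_lit 294) (nat_lit 0) (cs (rf (nat_lit 8)) (lf (nat_lit 6) (nat_lit 272))))))))))))) (cs (nd (nat_lit 254) (nat_lit 0) (cs (lf (nat_lit 6) (nat_lit 251)) (nd (nat_lit 297) (nat_lit 0) (cs (lf (nat_lit 41) (nat_lit 252)) (lf (nat_lit 35) (nat_lit 231)))))) (nd (nat_lit 254) (nat_lit 0) (cs (lf (nat_lit 6) (nat_lit 251)) (rf (nat_lit 9))))))))))) (nd (nat_lit 231) (nat_lit 0) (cs (lf (nat_lit 31) (nat_lit 230))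 (rf (nat_lit 10))))))) q105404 (by decide +kernel)
def q105435 : Q := Q.p (nat_lit 0x800003000000000000000000000000000000000000000000000000000000000000000) (nat_lit 0x40000700001f8003fc000778000000001c0000700001c0000000000000000000000000000000000000000000000) (nat_lit 13)
theorem c105435 : QOK q105435 := cut [q88933, q88941, q88936, q105208, q11531, q105422, q28280, q80264, q21972, q89600, q99795, q105433] ⟨c88933, c88941, c88936, c105208, c11531, c105422, c28280, c80264, c21972, c89600, c99795, c105433, trivial⟩ (nd (nat_lit 297) (nat_lit 0) (cs (rf (nat_lit 0)) (cs (rf (nat_lit 1)) (cs (nd (nat_lit 231) (nat_lit 0) (cs (rf (nat_lit 2)) (cs (rf (nat_lit 3)) (nd (nat_lit 298) (nat_lit 0) (cs (lf (nat_lit 29) (nat_lit 231)) (nd (nat_lit 299) (nat_lit 0) (cs (rf (nat_lit 4)) (cs (rf (nat_lit 5)) (cs (nd (nat_lit 208) (nat_lit 0) (cs (lf (nat_lit 46) (nat_lit 208)) (nd (nat_lit 210) (nat_lit 0) (cs (lf (nat_lit 34) (nat_lit 209)) (nd (nat_lit 296) (nat_lit 0) (cs (lf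 (nat_lit 41) (nat_lit 230)) (rf (nat_lit 6)))))))) (nd (nat_lit 296) (nat_lit 0) (cs (lf (nat_lit 41) (nat_lit 230)) (nd (nat_lit 277) (nat_lit 0) (cs (lf (nat_lit 17) (nat_lit 274)) (nd (nat_lit 276) (nat_lit 0) (cs (lf (nat_lit 12) (nat_lit 273)) (rf (nat_lit 7))))))))))))))))) (nd (nat_lit 319) (nat_lit 0) (cs (rf (nat_lit 8)) (cs (rf (nat_lit 9)) (cs (rf (nat_lit 10)) (rf (nat_lit 11)))))))))) q105435 (by decide +kernel)
def q105445 : Q := Q.p (nat_lit 0x300000800003000004000000000000000000000000000000000000000000000000000000000) (nat_lit 0x120000ce000378000c00007b8001c8000000000000000000000000000000000000000000000000000) (nat_lit 11)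
theorem c105445 : QOK q105445 := cut [q89453, q105302, q80294] ⟨c89453, c105302, c80294, trivial⟩ (nd (nat_lit 274) (nat_lit 0) (cs (rf (nat_lit 0)) (cs (rf (nat_lit 1)) (nd (nat_lit 229) (nat_lit 0) (cs (lf (nat_lit 47) (nat_lit 207)) (nd (nat_lit 227) (nat_lit 0) (cs (lf (nat_lit 1) (nat_lit 227)) (nd (nat_lit 254) (nat_lit 0) (cs (lf (nat_lit 18) (nat_lit 229)) (nd (nat_lit 273) (nat_lit 0) (cs (lf (nat_lit 12) (nat_lit 250)) (nd (nat_lit 298) (nat_lit 0) (cs (lf (nat_lit 18) (nat_lit 273)) (nd (nat_lit 231) (nat_lit 0) (cs (lf (nat_lit 29) (nat_lit 231)) (nd (nat_lit 232) (nat_lit 0) (cs (lf (nat_lit 35) (nat_lit 209)) (rf (nat_lit 2))))))))))))))))))) q105445 (by decide +kernel)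
def q105497 : Q := Q.p (nat_lit 0x200000800003000000000000000000000000000000000000000000000000000000000000000) (nat_lit 0x300000c0000700001c0000500001400000000008000020000000000000000000000000000000000000000000000000000) (nat_lit 7)
theorem c105497 : QOK q105497 := cut [q21908, q21972, q88946, q94438] ⟨c21908, c21972, c88946, c94438, trivial⟩ (nd (nat_lit 319) (nat_lit 0) (cs (rf (nat_lit 0)) (cs (rf (nat_lit 1)) (cs (rf (nat_lit 2)) (rf (nat_lit 3)))))) q105497 (by decide +kernel)
def q105525 : Q := Q.p (nat_lit 0xe00003000000000000000000000000000000000000000000000000000000000000000) (nat_lit 0x40000120000cc0003000000e00007800014000010000000000000000000000000000000000000000000000) (nat_lit 7)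
theorem c105525 : QOK q105525 := cut [q5304, q14769, q89807] ⟨c5304, c14769, c89807, trivial⟩ (nd (nat_lit 251) (nat_lit 0) (cs (rf (nat_lit 0)) (cs (rf (nat_lit 1)) (rf (nat_lit 2))))) q105525 (by decide +kernel)
def q105530 : Q := Q.p (nat_lit 0xc00003000008000000000000000000000000000000000000000000000000000000000) (nat_lit 0x180001e0000000000080007600005e000060000000000000000000000000000000000000000000000) (nat_lit 7)
theorem c105530 : QOK q105530 := cut [q81477, q98479, q87998] ⟨c81477, c98479, c87998, trivial⟩ (nd (nat_lit 230) (nat_lit 0) (cs (rf (nat_lit 0)) (cs (rf (nat_lit 1)) (nd (nat_lit 297) (nat_lit 0) (cs (lf (nat_lit 42) (nat_lit 230)) (nd (nat_lit 298) (nat_lit 0) (cs (lf (nat_lit 29) (nat_lit 231)) (nd (nat_lit 299) (nat_lit 0) (cs (lf (nat_lit 18) (nat_lit 274)) (rf (nat_lit 2))))))))))) q105530 (by decide +kernel)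
def q105572 : Q := Q.p (nat_lit 0xe00003000008000000000000000000000000000000000000000000000000000000000) (nat_lit 0x600001e0001180000600001000004000000000000000000000000000000000000000000000000000) (nat_lit 7)
theorem c105572 : QOK q105572 := cut [q14708] ⟨c14708, trivial⟩ (nd (nat_lit 296) (nat_lit 0) (cs (lf (nat_lit 30) (nat_lit 230)) (rf (nat_lit 0)))) q105572 (by decide +kernel)
def q105575 : Q := Q.p (nat_lit 0xe00003000008000000000000000000000000000000000000000000000000000000000) (nat_lit 0x180000600001c0003000000e00013c00004000010000000000000000000000000000000000000000000000) (nat_lit 6)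
theorem c105575 : QOK q105575 := cut [q14769, q96402, q24869] ⟨c14769, c96402, c24869, trivial⟩ (nd (nat_lit 251) (nat_lit 0) (cs (rf (nat_lit 0)) (cs (rf (nat_lit 1)) (nd (nat_lit 318) (nat_lit 0) (cs (lf (nat_lit 31) (nat_lit 230)) (nd (nat_lit 276) (nat_lit 0) (cs (lf (nat_lit 18) (nat_lit 251)) (rf (nat_lit 2))))))))) q105575 (by decide +kernel)
def q105601 : Q := Q.p (nat_lit 0xc00003000000000000000000000000000000000000000000000000000000000000000) (nat_lit 0x20001de0007380018e00004000010000000000000000000000000000000000000000000000000000) (nat_lit 7)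
theorem c105601 : QOK q105601 := cut [q700, q2190, q2180, q12665, q105538] ⟨c700, c2190, c2180, c12665, c105538, trivial⟩ (nd (nat_lit 276) (nat_lit 0) (cs (rf (nat_lit 0)) (cs (rf (nat_lit 1)) (nd (nat_lit 273) (nat_lit 0) (cs (rf (nat_lit 2)) (cs (rf (nat_lit 3)) (rf (nat_lit 4)))))))) q105601 (by decide +kernel)
def q105624 : Q := Q.p (nat_lit 0x40000300000c000000000000000000000000000000000000000000000000000000000) (nat_lit 0x100000000000e000738001ce000020000080000000000000000000000000000000000000000) (nat_lit 8)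
theorem c105624 : QOK q105624 := cut [q87228, q87648, q85342] ⟨c87228, c87648, c85342, trivial⟩ (nd (nat_lit 229) (nat_lit 0) (cs (rf (nat_lit 0)) (cs (rf (nat_lit 1)) (nd (nat_lit 207) (nat_lit 0) (cs (lf (nat_lit 42) (nat_lit 207)) (nd (nat_lit 206) (nat_lit 0) (cs (lf (nat_lit 18) (nat_lit 206)) (rf (nat_lit 2))))))))) q105624 (by decide +kernel)
def q105764 : Q := Q.p (nat_lit 0x7800000000000000000000000000000000000000000000000000000000000000) (nat_lit 0xe0000380000e00003b0000000003b0000e0000380000c00002000000000000000000000000000000000000) (nat_lit 13)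
theorem c105764 : QOK q105764 := cut [q79123, q89993, q105753, q105757] ⟨c79123, c89993, c105753, c105757, trivial⟩ (nd (nat_lit 232) (nat_lit 0) (cs (lf (nat_lit 17) (nat_lit 229)) (nd (nat_lit 210) (nat_lit 0) (cs (rf (nat_lit 0)) (cs (rf (nat_lit 1)) (cs (rf (nat_lit 2)) (nd (nat_lit 276) (nat_lit 0) (cs (lf (nat_lit 5) (nat_lit 251)) (nd (nat_lit 189) (nat_lit 0) (cs (lf (nat_lit 34) (nat_lit 188)) (nd (nat_lit 167) (nat_lit 0) (cs (lf (nat_lit 33) (nat_lit 166)) (nd (nat_lit 272) (nat_lit 0) (cs (lf (nat_lit 10) (nat_lit 250)) (nd (nat_lit 228) (nat_lit 0) (cs (lf (nat_lit 22) (nat_lit 228)) (rf (nat_lit 3)))))))))))))))))) q105764 (by decide +kernel)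
def q105819 : Q := Q.p (nat_lit 0x7000000000000000000000000000000000000000000000000000000000000000) (nat_lit 0x1fc000388000f7000000000000000000000000000000000000000000000000000000000) (nat_lit 7)
theorem c105819 : QOK q105819 := cut [q80460, q80464, q98272] ⟨c80460, c80464, c98272, trivial⟩ (nd (nat_lit 255) (nat_lit 0) (cs (rf (nat_lit 0)) (cs (rf (nat_lit 1)) (rf (nat_lit 2))))) q105819 (by decide +kernel)
def q105849 : Q := Q.p (nat_lit 0x3800000000000000000000000000000000000000000000000000000000000000) (nat_lit 0xe0000380002e0001bc000060001fc0001e0000780000a0000000000000000000000000000000000000000) (nat_lit 13)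
theorem c105849 : QOK q105849 := cut [q2065, q23543, q105187, q25768, q41380, q40795] ⟨c2065, c23543, c105187, c25768, c41380, c40795, trivial⟩ (nd (nat_lit 250) (nat_lit 0) (cs (rf (nat_lit 0)) (cs (rf (nat_lit 1)) (cs (rf (nat_lit 2)) (nd (nat_lit 272) (nat_lit 0) (cs (lf (nat_lit 11) (nat_lit 249)) (nd (nat_lit 294) (nat_lit 0) (cs (rf (nat_lit 3)) (cs (rf (nat_lit 4)) (cs (nd (nat_lit 275) (nat_lit 0) (cs (lf (nat_lit 5) (nat_lit 250)) (nd (nat_lit 228) (nat_lit 0) (cs (lf (nat_lit 23) (nat_lit 227)) (nd (nat_lit 231) (nat_lit 0) (cs (lf (nat_lit 17) (nat_lit 228)) (nd (nat_lit 293) (nat_lit 0) (cs (lf (nat_lit 41) (nat_lit 227)) (nd (nat_lit 295) (nat_lit 0) (cs (lf (nat_lit 29) (nat_lit 228)) (rf (nat_lit 5)))))))))))) (nd (nat_lit 227) (nat_lit 0) (cs (lf (nat_lit 22) (nat_lit 227)) (nd (nat_lit 275) (nat_lit 0) (cs (lf (nat_lit 5) (nat_lit 250)) (nd (nat_lit 231) (nat_lit 0) (cs (lf (nat_lit 17) (nat_lit 228)) (nd (nat_lit 316) (nat_lit 0) (cs (lf (nat_lit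 35) (nat_lit 228)) (nd (nat_lit 315) (nat_lit 0) (cs (lf (nat_lit 41) (nat_lit 249)) (nd (nat_lit 317) (nat_lit 0) (cs (lf (nat_lit 29) (nat_lit 250)) (nd (nat_lit 273) (nat_lit 0) (cs (lf (nat_lit 30) (nat_lit 250)) (nd (nat_lit 230) (nat_lit 0) (cs (nd (nat_lit 208) (nat_lit 0) (cs (lf (nat_lit 42) (nat_lit 208)) (lf (nat_lit 36) (nat_lit 185)))) (lf (nat_lit 31) (nat_lit 229)))))))))))))))))))))))))))) q105849 (by decide +kernel)
def q105861 : Q := Q.p (nat_lit 0x7800008000000000000000000000000000000000000000000000000000000000) (nat_lit 0x400003300000000033000020000080000000000000000000000000000000000000000000000) (nat_lit 6)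
theorem c105861 : QOK q105861 := cut [q105860] ⟨c105860, trivial⟩ (nd (nat_lit 228) (nat_lit 0) (cs (lf (nat_lit 22) (nat_lit 228)) (rf (nat_lit 0)))) q105861 (by decide +kernel)
def q105884 : Q := Q.p (nat_lit 0x300000c000000000000000000000000000000000000000000000000000000000) (nat_lit 0xe000038000060000000003200003e0000e0000300000000000000000000000000000000000000000) (nat_lit 7)
theorem c105884 : QOK q105884 := cut [q79097, q92014, q105883] ⟨c79097, c92014, c105883, trivial⟩ (nd (nat_lit 274) (nat_lit 0) (cs (rf (nat_lit 0)) (cs (rf (nat_lit 1)) (rf (nat_lit 2))))) q105884 (by decide +kernel)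
def q105909 : Q := Q.p (nat_lit 0x300000c000000000000000000000000000000000000000000000000000000000) (nat_lit 0xe000078000378001c0000730001f00003e0000e00000000000000000000000000000000000000000) (nat_lit 11)
theorem c105909 : QOK q105909 := cut [q79097, q85044, q57663, q85050, q92958, q92963, q84629] ⟨c79097, c85044, c57663, c85050, c92958, c92963, c84629, trivial⟩ (nd (nat_lit 274) (nat_lit 0) (cs (rf (nat_lit 0)) (cs (rf (nat_lit 1)) (nd (nat_lit 232) (nat_lit 0) (cs (rf (nat_lit 2)) (cs (rf (nat_lit 3)) (cs (rf (nat_lit 4)) (cs (rf (nat_lit 5)) (nd (nat_lit 187) (nat_lit 0) (cs (lf (nat_lit 37) (nat_lit 186)) (rf (nat_lit 6)))))))))))) q105909 (by decide +kernel)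
def q105911 : Q := Q.p (nat_lit 0x300000e000000000000000000000000000000000000000000000000000000000) (nat_lit 0x10000040000780000e000700000cc000120000480000000000000000000000000000000000000000) (nat_lit 7)
theorem c105911 : QOK q105911 := cut [q82275, q87919, q88829] ⟨c82275, c87919, c88829, trivial⟩ (nd (nat_lit 251) (nat_lit 0) (cs (rf (nat_lit 0)) (cs (rf (nat_lit 1)) (rf (nat_lit 2))))) q105911 (by decide +kernel)
def q105924 : Q := Q.p (nat_lit 0x300000c000000000000000000000000000000000000000000000000000000000) (nat_lit 0xe000038000078000c8000000000380000e0000380000000000000000000000000000000000000000) (nat_lit 8)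
theorem c105924 : QOK q105924 := cut [q79097, q89933, q85040, q86677, q101309] ⟨c79097, c89933, c85040, c86677, c101309, trivial⟩ (nd (nat_lit 274) (nat_lit 0) (cs (rf (nat_lit 0)) (cs (rf (nat_lit 1)) (nd (nat_lit 208) (nat_lit 0) (cs (rf (nat_lit 2)) (cs (rf (nat_lit 3)) (rf (nat_lit 4)))))))) q105924 (by decide +kernel)
def q105925 : Q := Q.p (nat_lit 0x700000c000000000000000000000000000000000000000000000000000000000) (nat_lit 0x7700018800060000000000000000000000000000000000000000000000000000000000) (nat_lit 6)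
theorem c105925 : QOK q105925 := cut [q96991] ⟨c96991, trivial⟩ (nd (nat_lit 255) (nat_lit 0) (cs (lf (nat_lit 18) (nat_lit 230)) (rf (nat_lit 0)))) q105925 (by decide +kernel)
def q106035 : Q := Q.p (nat_lit 0x3000008000000000000000000000000000000000000000000000000000000000) (nat_lit 0x200004800037c0004e00077c000fe0001e0000680000000000000000000000000000000000000000) (nat_lit 10)
theorem c106035 : QOK q106035 := cut [q2624, q82275, q88302, q88834, q85505, q87096, q84852, q88829, q106030, q106034] ⟨c2624, c82275, c88302, c88834, c85505, c87096, c84852, c88829, c106030, c106034, trivial⟩ (nd (nat_lit 251) (nat_lit 0) (cs (rf (nat_lit 0)) (cs (rf (nat_lit 1)) (cs (nd (nat_lit 273) (nat_lit 0) (cs (rf (nat_lit 2)) (cs (rf (nat_lit 3)) (nd (nat_lit 230) (nat_lit 0) (cs (rf (nat_lit 4)) (cs (rf (nat_lit 5)) (nd (nat_lit 229) (nat_lit 0) (cs (rf (nat_lit 6)) (cs (rf (nat_lit 7)) (rf (nat_lit 8))))))))))) (rf (nat_lit 9)))))) q106035 (by decide +kernel)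
def q106059 : Q := Q.p (nat_lit 0x3000008000000000000000000000000000000000000000000000000000000000) (nat_lit 0x200000d0000f40003cc000778001fe0001f0000780001400000000000000000000000000000000000) (nat_lit 14)
theorem c106059 : QOK q106059 := cut [q82300, q82301, q82309, q105982, q86313, q106016, q105961, q92800, q105986, q84443, q106047, q22241, q97705, q102651] ⟨c82300, c82301, c82309, c105982, c86313, c106016, c105961, c92800, c105986, c84443, c106047, c22241, c97705, c102651, trivial⟩ (nd (nat_lit 209) (nat_lit 0) (cs (rf (nat_lit 0)) (cs (rf (nat_lit 1)) (cs (rf (nat_lit 2)) (cs (rf (nat_lit 3)) (nd (nat_lit 232) (nat_lit 0) (cs (rf (nat_lit 4)) (cs (rf (nat_lit 5)) (cs (nd (nat_lit 254) (nat_lit 0) (cs (rf (nat_lit 6)) (cs (nd (nat_lit 230) (nat_lit 0) (cs (rf (nat_lit 7)) (cs (nd (nat_lit 276) (nat_lit 0) (cs (lf (nat_lit 42) (nat_lit 209)) (nd (nat_lit 274) (nat_lit 0) (cs (lf (nat_lit 30) (nat_lit 208)) (nd (nat_lit 255) (nat_lit 0) (cs (lf (nat_lit 18) (nat_lit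 230)) (rf (nat_lit 8)))))))) (nd (nat_lit 229) (nat_lit 0) (cs (lf (nat_lit 0) (nat_lit 228)) (nd (nat_lit 276) (nat_lit 0) (cs (lf (nat_lit 42) (nat_lit 209)) (nd (nat_lit 207) (nat_lit 0) (cs (lf (nat_lit 23) (nat_lit 206)) (nd (nat_lit 210) (nat_lit 0) (cs (lf (nat_lit 17) (nat_lit 207)) (nd (nat_lit 277) (nat_lit 0) (cs (lf (nat_lit 29) (nat_lit 210)) (nd (nat_lit 278) (nat_lit 0) (cs (lf (nat_lit 18) (nat_lit 253)) (nd (nat_lit 166) (nat_lit 0) (cs (lf (nat_lit 37) (nat_lit 165)) (rf (nat_lit 9))))))))))))))))))) (nd (nat_lit 251) (nat_lit 0) (cs (lf (nat_lit 12) (nat_lit 228)) (nd (nat_lit 229) (nat_lit 0) (cs (lf (nat_lit 23) (nat_lit 228)) (nd (nat_lit 230) (nat_lit 0) (cs (lf (nat_lit 18) (nat_lit 229)) (nd (nat_lit 274) (nat_lit 0) (cs (lf (nat_lit 30) (nat_lit 208)) (rf (nat_lit 10))))))))))))) (nd (nat_lit 233) (nat_lit 0) (cs (lf (nat_lit 6) (nat_lit 230)) (nd (nat_lit 230) (nat_lit 0) (cs (rf (nat_lit 11)) (cs (rf (nat_lit 12)) (nd (nat_lit 211) (nat_lit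 0) (cs (lf (nat_lit 17) (nat_lit 208)) (nd (nat_lit 208) (nat_lit 0) (cs (lf (nat_lit 23) (nat_lit 207)) (nd (nat_lit 274) (nat_lit 0) (cs (lf (nat_lit 30) (nat_lit 208)) (rf (nat_lit 13)))))))))))))))))))))) q106059 (by decide +kernel)
def q106060 : Q := Q.p (nat_lit 0x380000a000000000000000000000000000000000000000000000000000000000) (nat_lit 0x4000000000358000ee0001a0000680000000000000000000000000000000000000000) (nat_lit 7)
theorem c106060 : QOK q106060 := cut [q84852, q88829, q106030] ⟨c84852, c88829, c106030, trivial⟩ (nd (nat_lit 230) (nat_lit 0) (cs (rf (nat_lit 0)) (cs (rf (nat_lit 1)) (rf (nat_lit 2))))) q106060 (by decide +kernel)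
def q106098 : Q := Q.p (nat_lit 0x7000004000000000000000000000000000000000000000000000000000000000) (nat_lit 0x60000980003f000008000fb8003ec0003f0000ec0002800000000000000000000000000000000000) (nat_lit 12)
theorem c106098 : QOK q106098 := cut [q79026, q81406, q79118, q106076, q79123, q106084, q106086, q106079, q79128, q94057] ⟨c79026, c81406, c79118, c106076, c79123, c106084, c106086, c106079, c79128, c94057, trivial⟩ (nd (nat_lit 229) (nat_lit 0) (cs (rf (nat_lit 0)) (cs (rf (nat_lit 1)) (nd (nat_lit 232) (nat_lit 0) (cs (rf (nat_lit 2)) (cs (nd (nat_lit 251) (nat_lit 0) (cs (lf (nat_lit 17) (nat_lit 229)) (rf (nat_lit 3)))) (cs (nd (nat_lit 210) (nat_lit 0) (cs (rf (nat_lit 4)) (cs (rf (nat_lit 5)) (cs (rf (nat_lit 6)) (nd (nat_lit 211) (nat_lit 0) (cs (lf (nat_lit 14) (nat_lit 207)) (nd (nat_lit 188) (nat_lit 0) (cs (lf (nat_lit 41) (nat_lit 187)) (nd (nat_lit 187) (nat_lit 0) (cs (lf (nat_lit 47) (nat_lit 165)) (nd (nat_lit 185) (nat_lit 0) (cs (lf (nat_lit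 1) (nat_lit 185)) (nd (nat_lit 163) (nat_lit 0) (cs (lf (nat_lit 26) (nat_lit 163)) (nd (nat_lit 212) (nat_lit 0) (cs (lf (nat_lit 18) (nat_lit 187)) (rf (nat_lit 7)))))))))))))))))) (nd (nat_lit 210) (nat_lit 0) (cs (rf (nat_lit 8)) (cs (rf (nat_lit 9)) (nd (nat_lit 188) (nat_lit 0) (cs (lf (nat_lit 41) (nat_lit 187)) (nd (nat_lit 231) (nat_lit 0) (cs (lf (nat_lit 36) (nat_lit 165)) (lf (nat_lit 17) (nat_lit 207)))))))))))))))) q106098 (by decide +kernel)
def q106135 : Q := Q.p (nat_lit 0x7000004000000000000000000000000000000000000000000000000000000000) (nat_lit 0x1000004000078000188000f80001a0000280000800000000000000000000000000000000000000000) (nat_lit 7)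
theorem c106135 : QOK q106135 := cut [q105822, q106131, q106133, q93927] ⟨c105822, c106131, c106133, c93927, trivial⟩ (nd (nat_lit 255) (nat_lit 0) (cs (rf (nat_lit 0)) (cs (rf (nat_lit 1)) (cs (rf (nat_lit 2)) (nd (nat_lit 277) (nat_lit 0) (cs (lf (nat_lit 5) (nat_lit 252)) (rf (nat_lit 3)))))))) q106135 (by decide +kernel)
def q106170 : Q := Q.p (nat_lit 0x7000004000000000000000000000000000000000000000000000000000000000) (nat_lit 0x80000200000c0000080001b8000fc0007e0000380000a00000000000000000000000000000000000) (nat_lit 9)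
theorem c106170 : QOK q106170 := cut [q79029, q79066, q106156, q106169] ⟨c79029, c79066, c106156, c106169, trivial⟩ (nd (nat_lit 208) (nat_lit 0) (cs (rf (nat_lit 0)) (cs (rf (nat_lit 1)) (cs (rf (nat_lit 2)) (rf (nat_lit 3)))))) q106170 (by decide +kernel)
def q106217 : Q := Q.p (nat_lit 0x7000000000000000000000000000000000000000000000000000000000000000) (nat_lit 0x80000ef00018800070000040000100000000000000000000000000000000000000000000000) (nat_lit 6)
theorem c106217 : QOK q106217 := cut [q81054, q83704, q102864] ⟨c81054, c83704, c102864, trivial⟩ (nd (nat_lit 255) (nat_lit 0) (cs (rf (nat_lit 0)) (cs (rf (nat_lit 1)) (rf (nat_lit 2))))) q106217 (by decide +kernel)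
def q106244 : Q := Q.p (nat_lit 0x7000000000000000000000000000000000000000000000000000000000000000) (nat_lit 0xf00003f0000fc000fb80000c000fc0000e0000380000800000000000000000000000000000000000000000) (nat_lit 12)
theorem c106244 : QOK q106244 := cut [q81755, q106114, q81413, q90151, q106220, q106227, q106235, q106238, q81429, q81757, q106219, q79118, q81763, q106242] ⟨c81755, c106114, c81413, c90151, c106220, c106227, c106235, c106238, c81429, c81757, c106219, c79118, c81763, c106242, trivial⟩ (nd (nat_lit 276) (nat_lit 0) (cs (rf (nat_lit 0)) (cs (rf (nat_lit 1)) (cs (nd (nat_lit 298) (nat_lit 0) (cs (rf (nat_lit 2)) (cs (rf (nat_lit 3)) (cs (nd (nat_lit 319) (nat_lit 0) (cs (rf (nat_lit 4)) (cs (rf (nat_lit 5)) (cs (rf (nat_lit 6)) (rf (nat_lit 7)))))) (nd (nat_lit 232) (nat_lit 0) (cs (rf (nat_lit 8)) (cs (rf (nat_lit 9)) (rf (nat_lit 10))))))))) (nd (nat_lit 232) (nat_lit 0) (cs (rf (nat_lit 11)) (cs (rf (nat_lit 12)) (rf (nat_lit 13))))))))) q106244 (by decide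 +kernel)
def q106256 : Q := Q.p (nat_lit 0x7000000000000000000000000000000000000000000000000000000000000000) (nat_lit 0x10000040001ff00038c000ec0000a0000200000000000000000000000000000000000000000000000) (nat_lit 11)
theorem c106256 : QOK q106256 := cut [q80460, q102864, q106246, q106255] ⟨c80460, c102864, c106246, c106255, trivial⟩ (nd (nat_lit 255) (nat_lit 0) (cs (rf (nat_lit 0)) (cs (rf (nat_lit 1)) (cs (rf (nat_lit 2)) (rf (nat_lit 3)))))) q106256 (by decide +kernel)
def q106402 : Q := Q.p (nat_lit 0x7000000000000000000000000000000000000000000000000000000000000000) (nat_lit 0x400003f80008c00078000020000080000000000000000000000000000000000000000000000) (nat_lit 6)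
theorem c106402 : QOK q106402 := cut [q79009, q79020, q105203] ⟨c79009, c79020, c105203, trivial⟩ (nd (nat_lit 251) (nat_lit 0) (cs (rf (nat_lit 0)) (cs (rf (nat_lit 1)) (rf (nat_lit 2))))) q106402 (by decide +kernel)
def q106410 : Q := Q.p (nat_lit 0x80000200003800000000000000000000000000000000000000000000000000000000000000) (nat_lit 0x1c00007800074000058000000000b00000c000030000000000000000000000000000000000000000000000) (nat_lit 9)
theorem c106410 : QOK q106410 := cut [q82544, q96602, q106408, q106409] ⟨c82544, c96602, c106408, c106409, trivial⟩ (nd (nat_lit 318) (nat_lit 0) (cs (rf (nat_lit 0)) (cs (rf (nat_lit 1)) (cs (rf (nat_lit 2)) (rf (nat_lit 3)))))) q106410 (by decide +kernel)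
def q106413 : Q := Q.p (nat_lit 0x200003800000000000000000000000000000000000000000000000000000000000000) (nat_lit 0x10000060000180000400004000007c0001c000070000140000000000000000000000000000000000000000) (nat_lit 8)
theorem c106413 : QOK q106413 := cut [q82198, q82584, q106412] ⟨c82198, c82584, c106412, trivial⟩ (nd (nat_lit 229) (nat_lit 0) (cs (rf (nat_lit 0)) (cs (rf (nat_lit 1)) (rf (nat_lit 2))))) q106413 (by decide +kernel)
def q106421 : Q := Q.p (nat_lit 0x100003800000000000000000000000000000000000000000000000000000000000000) (nat_lit 0x1c8000070000ee00000000000000000000000000000000000000000000000000000000) (nat_lit 7)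
theorem c106421 : QOK q106421 := cut [q106420] ⟨c106420, trivial⟩ (nd (nat_lit 250) (nat_lit 0) (cs (lf (nat_lit 11) (nat_lit 249)) (rf (nat_lit 0)))) q106421 (by decide +kernel)
def q106506 : Q := Q.p (nat_lit 0x3800000000000000000000000000000000000000000000000000000000000000) (nat_lit 0x400001f0000fe0003e0000c70000fc0007f0001f00007c0000500000000000000000000000000000000000) (nat_lit 15)
theorem c106506 : QOK q106506 := cut [q82198, q84257, q83666, q91583, q106442, q106445, q106448, q106453, q2091, q106459, q106461, q95670, q99497, q106474, q87228, q106478, q106480, q82197, q84256, q106500, q106502] ⟨c82198, c84257, c83666, c91583, c106442, c106445, c106448, c106453, c2091, c106459, c106461, c95670, c99497, c106474, c87228, c106478, c106480, c82197, c84256, c106500, c106502, trivial⟩ (nd (nat_lit 229) (nat_lit 0) (cs (rf (nat_lit 0)) (cs (rf (nat_lit 1)) (cs (nd (nat_lit 274) (nat_lit 0) (cs (rf (nat_lit 2)) (cs (rf (nat_lit 3)) (cs (rf (nat_lit 4)) (nd (nat_lit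 230) (nat_lit 0) (cs (rf (nat_lit 5)) (cs (rf (nat_lit 6)) (rf (nat_lit 7))))))))) (nd (nat_lit 275) (nat_lit 0) (cs (rf (nat_lit 8)) (cs (rf (nat_lit 9)) (cs (rf (nat_lit 10)) (cs (nd (nat_lit 230) (nat_lit 0) (cs (rf (nat_lit 11)) (cs (rf (nat_lit 12)) (cs (rf (nat_lit 13)) (cs (nd (nat_lit 274) (nat_lit 0) (cs (rf (nat_lit 14)) (cs (rf (nat_lit 6)) (rf (nat_lit 15))))) (rf (nat_lit 16))))))) (nd (nat_lit 228) (nat_lit 0) (cs (rf (nat_lit 17)) (cs (rf (nat_lit 18)) (nd (nat_lit 230) (nat_lit 0) (cs (rf (nat_lit 11)) (cs (rf (nat_lit 12)) (cs (rf (nat_lit 16)) (cs (rf (nat_lit 19)) (rf (nat_lit 20))))))))))))))))))) q106506 (by decide +kernel)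
def q106563 : Q := Q.p (nat_lit 0x7000000000000000000000000000000000000000000000000000000000000000) (nat_lit 0xa0000380000f0000fc00000c000fb8001f80003e0000f00002800000000000000000000000000000000000) (nat_lit 12)
theorem c106563 : QOK q106563 := cut [q79118, q79165, q79123, q79128, q79145, q79160, q79149, q105757, q106554, q106559, q81991, q106114, q106242] ⟨c79118, c79165, c79123, c79128, c79145, c79160, c79149, c105757, c106554, c106559, c81991, c106114, c106242, trivial⟩ (nd (nat_lit 232) (nat_lit 0) (cs (rf (nat_lit 0)) (cs (rf (nat_lit 1)) (cs (nd (nat_lit 210) (nat_lit 0) (cs (rf (nat_lit 2)) (cs (rf (nat_lit 3)) (cs (rf (nat_lit 4)) (cs (rf (nat_lit 5)) (nd (nat_lit 276) (nat_lit 0) (cs (rf (nat_lit 6)) (cs (rf (nat_lit 7)) (cs (rf (nat_lit 8)) (rf (nat_lit 9))))))))))) (nd (nat_lit 276) (nat_lit 0) (cs (rf (nat_lit 10)) (cs (rf (nat_lit 11)) (rf (nat_lit 12))))))))) q106563 (by decide +kernel)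
def q106565 : Q := Q.p (nat_lit 0x800007000004000000000000000000000000000000000000000000000000000000000) (nat_lit 0xc0000300007400018e00018000060000180000600000000000000000000000000000000000000000) (nat_lit 11)
theorem c106565 : QOK q106565 := cut [q81382, q81385, q81394] ⟨c81382, c81385, c81394, trivial⟩ (nd (nat_lit 231) (nat_lit 0) (cs (rf (nat_lit 0)) (cs (rf (nat_lit 1)) (rf (nat_lit 2))))) q106565 (by decide +kernel)
def q106625 : Q := Q.p (nat_lit 0x3800002000000000000000000000000000000000000000000000000000000000) (nat_lit 0x100000600001800007c000c00003400001c000070000140000000000000000000000000000000000000000) (nat_lit 8)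
theorem c106625 : QOK q106625 := cut [q82231, q88302, q106412] ⟨c82231, c88302, c106412, trivial⟩ (nd (nat_lit 273) (nat_lit 0) (cs (rf (nat_lit 0)) (cs (rf (nat_lit 1)) (rf (nat_lit 2))))) q106625 (by decide +kernel)
def q106663 : Q := Q.p (nat_lit 0x3800000000000000000000000000000000000000000000000000000000000000) (nat_lit 0x7c0001f00007e0000fc001c60007e0001fe0001e0000780001400000000000000000000000000000000000) (nat_lit 18)
theorem c106663 : QOK q106663 := cut [q82275, q82278, q80881, q81837, q91409, q106635, q82295, q103431, q87069, q88302, q85505, q87096, q106645, q106647, q79097, q92014, q82274, q82277, q106646, q106656, q82300, q106653, q106658] ⟨c82275, c82278, c80881, c81837, c91409, c106635, c82295, c103431, c87069, c88302, c85505, c87096, c106645, c106647, c79097, c92014, c82274, c82277, c106646, c106656, c82300, c106653, c106658, trivial⟩ (nd (nat_lit 231) (nat_lit 0) (cs (rf (nat_lit 0)) (cs (rf (nat_lit 1)) (cs (nd (nat_lit 274) (nat_lit 0) (cs (rf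 (nat_lit 2)) (cs (rf (nat_lit 3)) (cs (rf (nat_lit 4)) (cs (rf (nat_lit 5)) (nd (nat_lit 230) (nat_lit 0) (cs (rf (nat_lit 6)) (rf (nat_lit 7))))))))) (nd (nat_lit 273) (nat_lit 0) (cs (rf (nat_lit 8)) (cs (rf (nat_lit 9)) (cs (nd (nat_lit 230) (nat_lit 0) (cs (rf (nat_lit 10)) (cs (rf (nat_lit 11)) (cs (rf (nat_lit 12)) (cs (rf (nat_lit 13)) (nd (nat_lit 274) (nat_lit 0) (cs (rf (nat_lit 14)) (cs (rf (nat_lit 15)) (rf (nat_lit 7)))))))))) (nd (nat_lit 232) (nat_lit 0) (cs (rf (nat_lit 16)) (cs (rf (nat_lit 17)) (nd (nat_lit 230) (nat_lit 0) (cs (rf (nat_lit 10)) (cs (rf (nat_lit 11)) (cs (rf (nat_lit 18)) (cs (rf (nat_lit 19)) (nd (nat_lit 209) (nat_lit 0) (cs (rf (nat_lit 20)) (cs (rf (nat_lit 21)) (rf (nat_lit 22))))))))))))))))))))) q106663 (by decide +kernel)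
def q106672 : Q := Q.p (nat_lit 0x3800008000030000000000000000000000000000000000000000000000000000) (nat_lit 0x380000f800000000360001ce000120000000000000000000000000000000000000000000000) (nat_lit 9)
theorem c106672 : QOK q106672 := cut [q11001, q106669, q106671] ⟨c11001, c106669, c106671, trivial⟩ (nd (nat_lit 230) (nat_lit 0) (cs (rf (nat_lit 0)) (cs (rf (nat_lit 1)) (rf (nat_lit 2))))) q106672 (by decide +kernel)
def q106691 : Q := Q.p (nat_lit 0x3000008000020000000000000000000000000000000000000000000000000000) (nat_lit 0x700003c00000c0003000005c000140000000000000000000000000000000000000000000000) (nat_lit 6)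
theorem c106691 : QOK q106691 := cut [q88739, q91882, q105531] ⟨c88739, c91882, c105531, trivial⟩ (nd (nat_lit 275) (nat_lit 0) (cs (rf (nat_lit 0)) (cs (rf (nat_lit 1)) (nd (nat_lit 274) (nat_lit 0) (cs (lf (nat_lit 41) (nat_lit 208)) (rf (nat_lit 2))))))) q106691 (by decide +kernel)
def q106727 : Q := Q.p (nat_lit 0x3000008000000000000000000000000000000000000000000000000000000000) (nat_lit 0x500001c0000780007f80004c000040000780001e0000700001400000000000000000000000000000000000) (nat_lit 10)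
theorem c106727 : QOK q106727 := cut [q82300, q82301, q82309, q88739, q105170, q104510, q88744, q4090, q92814] ⟨c82300, c82301, c82309, c88739, c105170, c104510, c88744, c4090, c92814, trivial⟩ (nd (nat_lit 209) (nat_lit 0) (cs (rf (nat_lit 0)) (cs (rf (nat_lit 1)) (cs (rf (nat_lit 2)) (cs (nd (nat_lit 275) (nat_lit 0) (cs (rf (nat_lit 3)) (cs (rf (nat_lit 4)) (cs (nd (nat_lit 186) (nat_lit 0) (cs (lf (nat_lit 46) (nat_lit 186)) (nd (nat_lit 188) (nat_lit 0) (cs (lf (nat_lit 34) (nat_lit 187)) (nd (nat_lit 276) (nat_lit 0) (cs (lf (nat_lit 29) (nat_lit 209)) (rf (nat_lit 5)))))))) (nd (nat_lit 274) (nat_lit 0) (cs (lf (nat_lit 41) (nat_lit 208)) (nd (nat_lit 188) (nat_lit 0) (cs (lf (nat_lit 34) (nat_lit 187)) (nd (nat_lit 208) (nat_lit 0) (cs (lf (nat_lit 47) (nat_lit 186)) (nd (nat_lit 230) (nat_lit 0) (cs (lf (nat_lit 42) (nat_lit 208)) (nd (nat_lit 185) (nat_lit 0) (cs (lf (nat_lit 46) (nat_lit 185)) (rf (nat_lit 6)))))))))))))))) (nd (nat_lit 187) (nat_lit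 0) (cs (rf (nat_lit 7)) (rf (nat_lit 8))))))))) q106727 (by decide +kernel)
def q106763 : Q := Q.p (nat_lit 0x180000600003000000000000000000000000000000000000000000000000000000000000000) (nat_lit 0x40000380000e4000398000000000c000030000000000000000000000000000000000000000000000000000) (nat_lit 9)
theorem c106763 : QOK q106763 := cut [q106762] ⟨c106762, trivial⟩ (nd (nat_lit 271) (nat_lit 0) (cs (lf (nat_lit 13) (nat_lit 249)) (rf (nat_lit 0)))) q106763 (by decide +kernel)
def q106782 : Q := Q.p (nat_lit 0x80000200003800000000000000000000000000000000000000000000000000000000000000) (nat_lit 0x1c0000f800077000058000000000a000018000060000100000000000000000000000000000000000000000) (nat_lit 8)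
theorem c106782 : QOK q106782 := cut [q88792, q106408, q83632, q106778, q106779] ⟨c88792, c106408, c83632, c106778, c106779, trivial⟩ (nd (nat_lit 318) (nat_lit 0) (cs (rf (nat_lit 0)) (cs (rf (nat_lit 1)) (cs (nd (nat_lit 317) (nat_lit 0) (cs (lf (nat_lit 29) (nat_lit 251)) (nd (nat_lit 274) (nat_lit 0) (cs (lf (nat_lit 30) (nat_lit 251)) (nd (nat_lit 271) (nat_lit 0) (cs (lf (nat_lit 13) (nat_lit 249)) (rf (nat_lit 2)))))))) (cs (rf (nat_lit 3)) (nd (nat_lit 317) (nat_lit 0) (cs (lf (nat_lit 29) (nat_lit 251)) (nd (nat_lit 229) (nat_lit 0) (cs (lf (nat_lit 28) (nat_lit 229)) (rf (nat_lit 4))))))))))) q106782 (by decide +kernel)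
def q106812 : Q := Q.p (nat_lit 0x3800000000000000000000000000000000000000000000000000000000000000) (nat_lit 0x8000020000fee001c7000fee00000000000000000000000000000000000000000000000000000000) (nat_lit 10)
theorem c106812 : QOK q106812 := cut [q81494, q81752, q105771, q106423] ⟨c81494, c81752, c105771, c106423, trivial⟩ (nd (nat_lit 254) (nat_lit 0) (cs (rf (nat_lit 0)) (cs (rf (nat_lit 1)) (cs (rf (nat_lit 2)) (rf (nat_lit 3)))))) q106812 (by decide +kernel)
def q106813 : Q := Q.p (nat_lit 0x3800000000000000000000000000000000000000000000000000000000000000) (nat_lit 0x7f8001c60001e000000000000000000000000000000000000000000000000000000000) (nat_lit 7)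
theorem c106813 : QOK q106813 := cut [q79009, q79231, q81492, q81494] ⟨c79009, c79231, c81492, c81494, trivial⟩ (nd (nat_lit 254) (nat_lit 0) (cs (rf (nat_lit 0)) (cs (rf (nat_lit 1)) (cs (rf (nat_lit 2)) (rf (nat_lit 3)))))) q106813 (by decide +kernel)
def q106935 : Q := Q.p (nat_lit 0x400001000007800008000000000000000000000000000000000000000000000000000000000) (nat_lit 0xc000070000bc0000f00000000007000018000020000000000000000000000000000000000000000000000) (nat_lit 9)
theorem c106935 : QOK q106935 := cut [q81453, q81459, q106934] ⟨c81453, c81459, c106934, trivial⟩ (nd (nat_lit 274) (nat_lit 0) (cs (rf (nat_lit 0)) (cs (rf (nat_lit 1)) (rf (nat_lit 2))))) q106935 (by decide +kernel)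
def q106967 : Q := Q.p (nat_lit 0x7000000000000000000000000000000000000000000000000000000000000000) (nat_lit 0x100000700008c0007b800008000020000000000000000000000000000000000000000000000) (nat_lit 6)
theorem c106967 : QOK q106967 := cut [q79020, q81085, q96398] ⟨c79020, c81085, c96398, trivial⟩ (nd (nat_lit 251) (nat_lit 0) (cs (rf (nat_lit 0)) (cs (rf (nat_lit 1)) (rf (nat_lit 2))))) q106967 (by decide +kernel)
def q106986 : Q := Q.p (nat_lit 0x7000010000040000000000000000000000000000000000000000000000000000) (nat_lit 0x700001f0000000006c0003b80002c0000200000800000000000000000000000000000000000) (nat_lit 10)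
theorem c106986 : QOK q106986 := cut [q79868, q103965, q95598, q79607, q106980, q95616, q83627] ⟨c79868, c103965, c95598, c79607, c106980, c95616, c83627, trivial⟩ (nd (nat_lit 209) (nat_lit 0) (cs (rf (nat_lit 0)) (cs (rf (nat_lit 1)) (cs (nd (nat_lit 231) (nat_lit 0) (cs (nd (nat_lit 233) (nat_lit 0) (cs (lf (nat_lit 6) (nat_lit 230)) (rf (nat_lit 2)))) (cs (nd (nat_lit 276) (nat_lit 0) (cs (lf (nat_lit 42) (nat_lit 209)) (nd (nat_lit 275) (nat_lit 0) (cs (lf (nat_lit 41) (nat_lit 209)) (nd (nat_lit 186) (nat_lit 0) (cs (lf (nat_lit 46) (nat_lit 186)) (nd (nat_lit 274) (nat_lit 0) (cs (lf (nat_lit 41) (nat_lit 208)) (nd (nat_lit 272) (nat_lit 0) (cs (lf (nat_lit 13) (nat_lit 250)) (rf (nat_lit 3)))))))))))) (cs (rf (nat_lit 4)) (nd (nat_lit 275) (nat_lit 0) (cs (lf (nat_lit 30) (nat_lit 209)) (nd (nat_lit 274) (nat_lit 0) (cs (lf (nat_lit 41) (nat_lit 208)) (nd (nat_lit 272) (nat_lit 0) (cs (lf (nat_lit 13) (nat_lit 250)) (rf (nat_lit 5)))))))))))) (nd (nat_lit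 231) (nat_lit 0) (cs (rf (nat_lit 6)) (rf (nat_lit 4)))))))) q106986 (by decide +kernel)
def q107022 : Q := Q.p (nat_lit 0xf00002000008000000000000000000000000000000000000000000000000000000000) (nat_lit 0x40001de0007080001000000000000000000000000000000000000000000000000000000000000000) (nat_lit 7)
theorem c107022 : QOK q107022 := cut [q44398] ⟨c44398, trivial⟩ (nd (nat_lit 252) (nat_lit 0) (cs (lf (nat_lit 12) (nat_lit 249)) (nd (nat_lit 296) (nat_lit 0) (cs (lf (nat_lit 30) (nat_lit 230)) (rf (nat_lit 0)))))) q107022 (by decide +kernel)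
def q107072 : Q := Q.p (nat_lit 0x300000c000000000000000000000000000000000000000000000000000000000) (nat_lit 0x60000180000e0000000003200001e000060000100000000000000000000000000000000000000000) (nat_lit 6)
theorem c107072 : QOK q107072 := cut [q79996, q92713] ⟨c79996, c92713, trivial⟩ (nd (nat_lit 208) (nat_lit 0) (cs (rf (nat_lit 0)) (rf (nat_lit 1)))) q107072 (by decide +kernel)
def q107079 : Q := Q.p (nat_lit 0x3000008000000000000000000000000000000000000000000000000000000000) (nat_lit 0xc0003f0000fc0003fc000ce00073c000c0000300000c00000000000000000000000000000000000000000) (nat_lit 13)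
theorem c107079 : QOK q107079 := cut [q82278, q96402, q96403, q96341, q100892, q100917, q79020] ⟨c82278, c96402, c96403, c96341, c100892, c100917, c79020, trivial⟩ (nd (nat_lit 251) (nat_lit 0) (cs (rf (nat_lit 0)) (cs (rf (nat_lit 1)) (cs (rf (nat_lit 2)) (nd (nat_lit 254) (nat_lit 0) (cs (rf (nat_lit 3)) (cs (rf (nat_lit 4)) (cs (rf (nat_lit 5)) (nd (nat_lit 228) (nat_lit 0) (cs (rf (nat_lit 6)) (lf (nat_lit 22) (nat_lit 228)))))))))))) q107079 (by decide +kernel)
def q107085 : Q := Q.p (nat_lit 0x300000c000000000000000000000000000000000000000000000000000000000) (nat_lit 0xe00003e0001f80000e0000380001e0000f8000380000000000000000000000000000000000000000) (nat_lit 13)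
theorem c107085 : QOK q107085 := cut [q79996, q84438, q57679, q92723, q22250] ⟨c79996, c84438, c57679, c92723, c22250, trivial⟩ (nd (nat_lit 208) (nat_lit 0) (cs (rf (nat_lit 0)) (cs (rf (nat_lit 1)) (nd (nat_lit 274) (nat_lit 0) (cs (rf (nat_lit 2)) (cs (rf (nat_lit 3)) (nd (nat_lit 275) (nat_lit 0) (cs (lf (nat_lit 42) (nat_lit 208)) (rf (nat_lit 4)))))))))) q107085 (by decide +kernel)
def q107139 : Q := Q.p (nat_lit 0x3800008000000000000000000000000000000000000000000000000000000000) (nat_lit 0x18000060000ff0001c0000740000c0000300000c00000000000000000000000000000000000000000) (nat_lit 10)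
theorem c107139 : QOK q107139 := cut [q79020, q96341, q105829, q107070] ⟨c79020, c96341, c105829, c107070, trivial⟩ (nd (nat_lit 254) (nat_lit 0) (cs (rf (nat_lit 0)) (cs (rf (nat_lit 1)) (cs (rf (nat_lit 2)) (rf (nat_lit 3)))))) q107139 (by decide +kernel)
def q107142 : Q := Q.p (nat_lit 0x3800008000000000000000000000000000000000000000000000000000000000) (nat_lit 0x380000e0000780000c0000770000c0000300000c00000000000000000000000000000000000000000) (nat_lit 11)
theorem c107142 : QOK q107142 := cut [q96575, q100892, q105829, q107141] ⟨c96575, c100892, c105829, c107141, trivial⟩ (nd (nat_lit 254) (nat_lit 0) (cs (rf (nat_lit 0)) (cs (rf (nat_lit 1)) (cs (rf (nat_lit 2)) (rf (nat_lit 3)))))) q107142 (by decide +kernel)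
def q107173 : Q := Q.p (nat_lit 0x200003800008000000000000000000000000000000000000000000000000000000000) (nat_lit 0x600001800004000040000778001dc0000700000c0000000000000000000000000000000000000000) (nat_lit 8)
theorem c107173 : QOK q107173 := cut [q85505, q87096, q90662, q100955, q92711] ⟨c85505, c87096, c90662, c100955, c92711, trivial⟩ (nd (nat_lit 230) (nat_lit 0) (cs (rf (nat_lit 0)) (cs (rf (nat_lit 1)) (cs (nd (nat_lit 229) (nat_lit 0) (cs (rf (nat_lit 2)) (rf (nat_lit 3)))) (nd (nat_lit 229) (nat_lit 0) (cs (rf (nat_lit 2)) (rf (nat_lit 4)))))))) q107173 (by decide +kernel)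
def q107199 : Q := Q.p (nat_lit 0x300000c000000000000000000000000000000000000000000000000000000000) (nat_lit 0xe000078000078000c8000000000300000c0000300000000000000000000000000000000000000000) (nat_lit 7)
theorem c107199 : QOK q107199 := cut [q79097, q85044, q85040, q85714] ⟨c79097, c85044, c85040, c85714, trivial⟩ (nd (nat_lit 274) (nat_lit 0) (cs (rf (nat_lit 0)) (cs (rf (nat_lit 1)) (nd (nat_lit 208) (nat_lit 0) (cs (rf (nat_lit 2)) (rf (nat_lit 3))))))) q107199 (by decide +kernel)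
def q107202 : Q := Q.p (nat_lit 0x300000c000000000000000000000000000000000000000000000000000000000) (nat_lit 0x180000780000c0003000007e0007e0000780000000000000000000000000000000000000000) (nat_lit 8)
theorem c107202 : QOK q107202 := cut [q11005, q92012, q96785, q11001, q84998, q107200] ⟨c11005, c92012, c96785, c11001, c84998, c107200, trivial⟩ (nd (nat_lit 208) (nat_lit 0) (cs (rf (nat_lit 0)) (cs (rf (nat_lit 1)) (cs (rf (nat_lit 2)) (nd (nat_lit 209) (nat_lit 0) (cs (rf (nat_lit 3)) (cs (rf (nat_lit 4)) (rf (nat_lit 5))))))))) q107202 (by decide +kernel)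
def q107205 : Q := Q.p (nat_lit 0x300000c000000000000000000000000000000000000000000000000000000000) (nat_lit 0x40000738001ce00071800020000080000000000000000000000000000000000000000000000) (nat_lit 8)
theorem c107205 : QOK q107205 := cut [q426, q96778, q96298, q96789, q101303] ⟨c426, c96778, c96298, c96789, c101303, trivial⟩ (nd (nat_lit 251) (nat_lit 0) (cs (rf (nat_lit 0)) (cs (rf (nat_lit 1)) (nd (nat_lit 254) (nat_lit 0) (cs (rf (nat_lit 2)) (cs (rf (nat_lit 3)) (rf (nat_lit 4)))))))) q107205 (by decide +kernel)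
def q107222 : Q := Q.p (nat_lit 0x700000c000000000000000000000000000000000000000000000000000000000) (nat_lit 0x8000060000188000700001d8000300000800000000000000000000000000000000000000000) (nat_lit 9)
theorem c107222 : QOK q107222 := cut [q107221] ⟨c107221, trivial⟩ (nd (nat_lit 255) (nat_lit 0) (cs (lf (nat_lit 18) (nat_lit 230)) (rf (nat_lit 0)))) q107222 (by decide +kernel)
def q107230 : Q := Q.p (nat_lit 0x200000e000000000000000000000000000000000000000000000000000000000) (nat_lit 0x4e00071800078000040000100000000000000000000000000000000000000000) (nat_lit 8)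
theorem c107230 : QOK q107230 := cut [q107229] ⟨c107229, trivial⟩ (nd (nat_lit 228) (nat_lit 0) (cs (lf (nat_lit 5) (nat_lit 228)) (rf (nat_lit 0)))) q107230 (by decide +kernel)
def q107236 : Q := Q.p (nat_lit 0x300000c000000000000000000000000000000000000000000000000000000000) (nat_lit 0xe00007800007800000000038001fe0007f8000380000000000000000000000000000000000000000) (nat_lit 13)
theorem c107236 : QOK q107236 := cut [q79097, q85044, q85040, q86677, q88132, q107200] ⟨c79097, c85044, c85040, c86677, c88132, c107200, trivial⟩ (nd (nat_lit 274) (nat_lit 0) (cs (rf (nat_lit 0)) (cs (rf (nat_lit 1)) (nd (nat_lit 208) (nat_lit 0) (cs (rf (nat_lit 2)) (cs (rf (nat_lit 3)) (nd (nat_lit 209) (nat_lit 0) (cs (rf (nat_lit 4)) (rf (nat_lit 5)))))))))) q107236 (by decide +kernel)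

end Crest.Agent.H3.Snaky.CR
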