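import Crest.Agent.H3.Snaky.Cert
import Crest.Agent.H3.Snaky.CR.CR0
import Crest.Agent.H3.Snaky.CR.CR1
import Crest.Agent.H3.Snaky.CR.CR2
import Crest.Agent.H3.Snaky.CR.CR3
import Crest.Agent.H3.Snaky.CR.CR4
import Crest.Agent.H3.Snaky.CR.CR5
import Crest.Agent.H3.Snaky.CR.CR6
import Crest.Agent.H3.Snaky.CR.CR7
import Crest.Agent.H3.Snaky.CR.CR9
import Crest.Agent.H3.Snaky.CR.CR10
import Crest.Agent.H3.Snaky.CR.CR12
import Crest.Agent.H3.Snaky.CR.CR14
import Crest.Agent.H3.Snaky.CR.CR15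
import Crest.Agent.H3.Snaky.CR.CR16
import Crest.Agent.H3.Snaky.CR.CR17
import Crest.Agent.H3.Snaky.CR.CR18
import Crest.Agent.H3.Snaky.CR.CR19
import Crest.Agent.H3.Snaky.CR.CR20
import Crest.Agent.H3.Snaky.CR.CR21
import Crest.Agent.H3.Snaky.CR.CR22
import Crest.Agent.H3.Snaky.CR.CR23
import Crest.Agent.H3.Snaky.CR.CR24
import Crest.Agent.H3.Snaky.CR.CR25
import Crest.Agent.H3.Snaky.CR.CR27
import Crest.Agent.H3.Snaky.CR.CR28
import Crest.Agent.H3.Snaky.CR.CR29
import Crest.Agent.H3.Snaky.CR.CR30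
import Crest.Agent.H3.Snaky.CR.CR33
import Crest.Agent.H3.Snaky.CR.CR34
import Crest.Agent.H3.Snaky.CR.CR35
import Crest.Agent.H3.Snaky.CR.CR36
import Crest.Agent.H3.Snaky.CR.CR37
import Crest.Agent.H3.Snaky.CR.CR38
import Crest.Agent.H3.Snaky.CR.CR39
import Crest.Agent.H3.Snaky.CR.CR40
import Crest.Agent.H3.Snaky.CR.CR41
import Crest.Agent.H3.Snaky.CR.CR42
import Crest.Agent.H3.Snaky.CR.CR43
import Crest.Agent.H3.Snaky.CR.CR44
import Crest.Agent.H3.Snaky.CR.CR45
import Crest.Agent.H3.Snaky.CR.CR48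
import Crest.Agent.H3.Snaky.CR.CR49
import Crest.Agent.H3.Snaky.CR.CR50
import Crest.Agent.H3.Snaky.CR.CR51
import Crest.Agent.H3.Snaky.CR.CR52
import Crest.Agent.H3.Snaky.CR.CR53
import Crest.Agent.H3.Snaky.CR.CR54
import Crest.Agent.H3.Snaky.CR.CR55
import Crest.Agent.H3.Snaky.CR.CR56
import Crest.Agent.H3.Snaky.CR.CR57
import Crest.Agent.H3.Snaky.CR.CR59
import Crest.Agent.H3.Snaky.CR.CR60
import Crest.Agent.H3.Snaky.CR.CR61
import Crest.Agent.H3.Snaky.CR.CR62
import Crest.Agent.H3.Snaky.CR.CR63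

set_option autoImplicit false
set_option maxRecDepth 100000

namespace Crest.Agent.H3.Snaky.CR

open T

def q107252 : Q := Q.p (nat_lit 0x200000c000000000000000000000000000000000000000000000000000000000) (nat_lit 0x12000048000370000df000f38001df0001700005c0000700001400000000000000000000000000000) (nat_lit 14)
theorem c107252 : QOK q107252 := cut [q96758, q96769, q96836, q80199, q96903, q98323, q80210, q107251] ⟨c96758, c96769, c96836, c80199, c96903, c98323, c80210, c107251, trivial⟩ (nd (nat_lit 229) (nat_lit 0) (cs (rf (nat_lit 0)) (cs (rf (nat_lit 1)) (cs (rf (nat_lit 2)) (cs (nd (nat_lit 232) (nat_lit 0) (cs (rf (nat_lit 3)) (cs (rf (nat_lit 4)) (cs (rf (nat_lit 5)) (nd (nat_lit 254) (nat_lit 0) (cs (lf (nat_lit 5) (nat_lit 229)) (nd (nat_lit 210) (nat_lit 0) (cs (lf (nat_lit 17) (nat_lit 207)) (nd (nat_lit 166) (nat_lit 0) (cs (lf (nat_lit 37) (nat_lit 165)) (rf (nat_lit 6)))))))))))) (rf (nat_lit 7))))))) q107252 (by decide +kernel)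
def q107258 : Q := Q.p (nat_lit 0x300000c000000000000000000000000000000000000000000000000000000000) (nat_lit 0xe000078000078000000003200003e0000e0000300000000000000000000000000000000000000000) (nat_lit 7)
theorem c107258 : QOK q107258 := cut [q79097, q85044, q85062] ⟨c79097, c85044, c85062, trivial⟩ (nd (nat_lit 274) (nat_lit 0) (cs (rf (nat_lit 0)) (cs (rf (nat_lit 1)) (rf (nat_lit 2))))) q107258 (by decide +kernel)
def q107305 : Q := Q.p (nat_lit 0x200000c000000000000000000000000000000000000000000000000000000000) (nat_lit 0x400001c0000780005f000338000ff0003f0000fc0000700001400000000000000000000000000000) (nat_lit 13)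
theorem c107305 : QOK q107305 := cut [q96758, q96769, q96836, q107186, q85172, q97126, q97169, q107303] ⟨c96758, c96769, c96836, c107186, c85172, c97126, c97169, c107303, trivial⟩ (nd (nat_lit 229) (nat_lit 0) (cs (rf (nat_lit 0)) (cs (rf (nat_lit 1)) (cs (rf (nat_lit 2)) (cs (rf (nat_lit 3)) (nd (nat_lit 207) (nat_lit 0) (cs (rf (nat_lit 4)) (cs (rf (nat_lit 5)) (cs (rf (nat_lit 6)) (rf (nat_lit 7))))))))))) q107305 (by decide +kernel)
def q107337 : Q := Q.p (nat_lit 0x2000008000020000000000000000000000000000000000000000000000000000) (nat_lit 0x140003fe0007f0001de00010000050000140000000000000000000000000000000000000000000000) (nat_lit 13)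
theorem c107337 : QOK q107337 := cut [q96655, q96679, q107335, q717] ⟨c96655, c96679, c107335, c717, trivial⟩ (nd (nat_lit 275) (nat_lit 0) (cs (rf (nat_lit 0)) (cs (rf (nat_lit 1)) (cs (rf (nat_lit 2)) (nd (nat_lit 186) (nat_lit 0) (cs (rf (nat_lit 3)) (lf (nat_lit 46) (nat_lit 186)))))))) q107337 (by decide +kernel)
def q107343 : Q := Q.p (nat_lit 0x2000008000020000000000000000000000000000000000000000000000000000) (nat_lit 0x300000c00005c000700000400001c0000700001c00004000000000000000000000000000000) (nat_lit 10)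
theorem c107343 : QOK q107343 := cut [q80731, q80750, q107340, q86828] ⟨c80731, c80750, c107340, c86828, trivial⟩ (nd (nat_lit 187) (nat_lit 0) (cs (rf (nat_lit 0)) (cs (rf (nat_lit 1)) (cs (nd (nat_lit 252) (nat_lit 0) (cs (lf (nat_lit 41) (nat_lit 186)) (rf (nat_lit 2)))) (nd (nat_lit 252) (nat_lit 0) (cs (lf (nat_lit 41) (nat_lit 186)) (rf (nat_lit 3)))))))) q107343 (by decide +kernel)
def q107365 : Q := Q.p (nat_lit 0x800002000008000020000000000000000000000000000000000000000000000000000) (nat_lit 0x50000740001c000077c001de00077c000000000000000000000000000000000000000000000) (nat_lit 14)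
theorem c107365 : QOK q107365 := cut [q2938, q78771, q98806] ⟨c2938, c78771, c98806, trivial⟩ (nd (nat_lit 208) (nat_lit 0) (cs (lf (nat_lit 47) (nat_lit 186)) (nd (nat_lit 207) (nat_lit 0) (cs (rf (nat_lit 0)) (cs (rf (nat_lit 1)) (cs (rf (nat_lit 2)) (nd (nat_lit 210) (nat_lit 0) (cs (lf (nat_lit 35) (nat_lit 187)) (nd (nat_lit 274) (nat_lit 0) (cs (lf (nat_lit 41) (nat_lit 208)) (nd (nat_lit 184) (nat_lit 0) (cs (lf (nat_lit 22) (nat_lit 184)) (nd (nat_lit 228) (nat_lit 0) (cs (lf (nat_lit 10) (nat_lit 206)) (nd (nat_lit 276) (nat_lit 0) (cs (lf (nat_lit 29) (nat_lit 209)) (nd (nat_lit 233) (nat_lit 0) (cs (lf (nat_lit 4) (nat_lit 207)) (nd (nat_lit 211) (nat_lit 0) (cs (lf (nat_lit 5) (nat_lit 208)) (nd (nat_lit 189) (nat_lit 0) (cs (lf (nat_lit 17) (nat_lit 186)) (nd (nat_lit 212) (nat_lit 0) (cs (lf (nat_lit 11) (nat_lit 208)) (nd (nat_lit 255) (nat_lit 0) (cs (lf (nat_lit 40) (nat_lit 188)) (nd (nat_lit 256) (nat_lit 0) (cs (lf (nat_lit 29) (nat_lit 189))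 (lf (nat_lit 15) (nat_lit 252)))))))))))))))))))))))))))))) q107365 (by decide +kernel)
def q107382 : Q := Q.p (nat_lit 0x800002000008000000000000000000000000000000000000000000000000000000000) (nat_lit 0x8000030000170001c0000160001f80007c0000700001400000000000000000000000000000000000) (nat_lit 11)
theorem c107382 : QOK q107382 := cut [q96737, q99649, q107347, q107371, q107381] ⟨c96737, c99649, c107347, c107371, c107381, trivial⟩ (nd (nat_lit 209) (nat_lit 0) (cs (rf (nat_lit 0)) (cs (rf (nat_lit 1)) (cs (rf (nat_lit 2)) (cs (nd (nat_lit 274) (nat_lit 0) (cs (lf (nat_lit 41) (nat_lit 208)) (rf (nat_lit 3)))) (rf (nat_lit 4))))))) q107382 (by decide +kernel)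
def q107465 : Q := Q.p (nat_lit 0x2000018000000000000000000000000000000000000000000000000000000000) (nat_lit 0x2000028000198001e60007fc000140000500000400000000000000000000000000000000000) (nat_lit 11)
theorem c107465 : QOK q107465 := cut [q102531, q22241, q97301, q102583, q102578, q102579, q107455, q104323, q97372] ⟨c102531, c22241, c97301, c102583, c102578, c102579, c107455, c104323, c97372, trivial⟩ (nd (nat_lit 233) (nat_lit 0) (cs (rf (nat_lit 0)) (cs (nd (nat_lit 230) (nat_lit 0) (cs (rf (nat_lit 1)) (cs (rf (nat_lit 2)) (rf (nat_lit 3))))) (cs (nd (nat_lit 208) (nat_lit 0) (cs (rf (nat_lit 4)) (cs (rf (nat_lit 5)) (nd (nat_lit 230) (nat_lit 0) (cs (lf (nat_lit 23) (nat_lit 207)) (rf (nat_lit 6))))))) (cs (nd (nat_lit 234) (nat_lit 0) (cs (lf (nat_lit 11) (nat_lit 230)) (nd (nat_lit 213) (nat_lit 0) (cs (lf (nat_lit 16) (nat_lit 209)) (nd (nat_lit 235) (nat_lit 0) (cs (lf (nat_lit 17) (nat_lit 210)) (nd (nat_lit 210) (nat_lit 0) (cs (lf (nat_lit 23) (nat_lit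 209)) (nd (nat_lit 275) (nat_lit 0) (cs (lf (nat_lit 30) (nat_lit 209)) (nd (nat_lit 211) (nat_lit 0) (cs (lf (nat_lit 18) (nat_lit 210)) (rf (nat_lit 7)))))))))))))) (nd (nat_lit 234) (nat_lit 0) (cs (lf (nat_lit 11) (nat_lit 230)) (rf (nat_lit 8))))))))) q107465 (by decide +kernel)
def q107490 : Q := Q.p (nat_lit 0x2000018000000000000000000000000000000000000000000000000000000000) (nat_lit 0x500001c0003fc000fe00015c000c70003fc000770000c00002000000000000000000000000000000000000) (nat_lit 18)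
theorem c107490 : QOK q107490 := cut [q87016, q107367, q12206, q85515, q15788, q107484, q104080, q104082, q99842, q96153] ⟨c87016, c107367, c12206, c85515, c15788, c107484, c104080, c104082, c99842, c96153, trivial⟩ (nd (nat_lit 275) (nat_lit 0) (cs (rf (nat_lit 0)) (cs (rf (nat_lit 1)) (nd (nat_lit 210) (nat_lit 0) (cs (rf (nat_lit 2)) (cs (rf (nat_lit 3)) (nd (nat_lit 276) (nat_lit 0) (cs (nd (nat_lit 209) (nat_lit 0) (cs (lf (nat_lit 29) (nat_lit 209)) (nd (nat_lit 274) (nat_lit 0) (cs (lf (nat_lit 41) (nat_lit 208)) (nd (nat_lit 208) (nat_lit 0) (cs (lf (nat_lit 47) (nat_lit 186)) (nd (nat_lit 207) (nat_lit 0) (cs (lf (nat_lit 0) (nat_lit 206)) (nd (nat_lit 184) (nat_lit 0) (cs (lf (nat_lit 22) (nat_lit 184)) (nd (nat_lit 229) (nat_lit 0) (cs (lf (nat_lit 11) (nat_lit 206)) (nd (nat_lit 211) (nat_lit 0) (cs (lf (nat_lit 10) (nat_lit 207)) (nd (nat_lit 189) (nat_lit 0) (cs (lf (nat_lit 17) (nat_lit 186)) (nd (nat_lit 145) (nat_lit 0) (cs (lf (nat_lit 37) (nat_lit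 144)) (nd (nat_lit 212) (nat_lit 0) (cs (lf (nat_lit 6) (nat_lit 209)) (nd (nat_lit 234) (nat_lit 0) (cs (lf (nat_lit 5) (nat_lit 209)) (nd (nat_lit 278) (nat_lit 0) (cs (lf (nat_lit 43) (nat_lit 189)) (nd (nat_lit 277) (nat_lit 0) (cs (lf (nat_lit 23) (nat_lit 252)) (rf (nat_lit 4)))))))))))))))))))))))))))) (cs (rf (nat_lit 5)) (cs (nd (nat_lit 277) (nat_lit 0) (cs (rf (nat_lit 6)) (cs (rf (nat_lit 7)) (nd (nat_lit 299) (nat_lit 0) (cs (lf (nat_lit 26) (nat_lit 210)) (rf (nat_lit 8))))))) (nd (nat_lit 209) (nat_lit 0) (cs (lf (nat_lit 29) (nat_lit 209)) (rf (nat_lit 9)))))))))))))) q107490 (by decide +kernel)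
def q107502 : Q := Q.p (nat_lit 0x2000018000000000000000000000000000000000000000000000000000000000) (nat_lit 0x500001c0000f00003e0001cc000270003fc000740001d00006000000000000000000000000000000000000) (nat_lit 12)
theorem c107502 : QOK q107502 := cut [q87016, q107367, q12206, q85515, q7963, q12221, q7962, q12220, q97434, q80199, q104383] ⟨c87016, c107367, c12206, c85515, c7963, c12221, c7962, c12220, c97434, c80199, c104383, trivial⟩ (nd (nat_lit 275) (nat_lit 0) (cs (rf (nat_lit 0)) (cs (rf (nat_lit 1)) (nd (nat_lit 210) (nat_lit 0) (cs (rf (nat_lit 2)) (cs (rf (nat_lit 3)) (nd (nat_lit 230) (nat_lit 0) (cs (rf (nat_lit 4)) (cs (rf (nat_lit 5)) (cs (nd (nat_lit 211) (nat_lit 0) (cs (rf (nat_lit 6)) (cs (rf (nat_lit 7)) (nd (nat_lit 233) (nat_lit 0) (cs (rf (nat_lit 8)) (nd (nat_lit 255) (nat_lit 0) (cs (lf (nat_lit 5) (nat_lit 230)) (nd (nat_lit 277) (nat_lit 0) (cs (lf (nat_lit 42) (nat_lit 210)) (nd (nat_lit 276) (nat_lit 0) (cs (lf (nat_lit 41) (nat_lit 210)) (nd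 (nat_lit 189) (nat_lit 0) (cs (lf (nat_lit 31) (nat_lit 188)) (nd (nat_lit 168) (nat_lit 0) (cs (lf (nat_lit 34) (nat_lit 167)) (nd (nat_lit 167) (nat_lit 0) (cs (lf (nat_lit 36) (nat_lit 144)) (lf (nat_lit 35) (nat_lit 145))))))))))))))))))) (nd (nat_lit 229) (nat_lit 0) (cs (rf (nat_lit 9)) (rf (nat_lit 10)))))))))))))) q107502 (by decide +kernel)
def q107566 : Q := Q.p (nat_lit 0x8000070000000000000000000000000000000000000000000000000000) (nat_lit 0x1f780038c000c38000000000000000000000000000000000000000000000) (nat_lit 7)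
theorem c107566 : QOK q107566 := cut [q8148, q22156, q96704] ⟨c8148, c22156, c96704, trivial⟩ (nd (nat_lit 211) (nat_lit 0) (cs (rf (nat_lit 0)) (cs (rf (nat_lit 1)) (rf (nat_lit 2))))) q107566 (by decide +kernel)
def q107594 : Q := Q.p (nat_lit 0x6000008000000000000000000000000000000000000000000000000000000000) (nat_lit 0x40000500007f00019e000678000e00003c0000700001400000000000000000000000000000000000) (nat_lit 11)
theorem c107594 : QOK q107594 := cut [q80754, q107403, q107577, q82279, q107578, q107581, q81834, q98272, q1568] ⟨c80754, c107403, c107577, c82279, c107578, c107581, c81834, c98272, c1568, trivial⟩ (nd (nat_lit 209) (nat_lit 0) (cs (rf (nat_lit 0)) (cs (rf (nat_lit 1)) (cs (nd (nat_lit 274) (nat_lit 0) (cs (rf (nat_lit 2)) (cs (nd (nat_lit 252) (nat_lit 0) (cs (rf (nat_lit 3)) (rf (nat_lit 4)))) (cs (rf (nat_lit 5)) (nd (nat_lit 255) (nat_lit 0) (cs (rf (nat_lit 6)) (cs (nd (nat_lit 252) (nat_lit 0) (cs (lf (nat_lit 11) (nat_lit 251)) (nd (nat_lit 233)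 (nat_lit 0) (cs (lf (nat_lit 17) (nat_lit 230)) (rf (nat_lit 7)))))) (nd (nat_lit 252) (nat_lit 0) (cs (lf (nat_lit 11) (nat_lit 251)) (nd (nat_lit 233) (nat_lit 0) (cs (lf (nat_lit 17) (nat_lit 230)) (nd (nat_lit 277) (nat_lit 0) (cs (lf (nat_lit 5) (nat_lit 252)) (nd (nat_lit 251) (nat_lit 0) (cs (lf (nat_lit 4) (nat_lit 251)) (nd (nat_lit 228) (nat_lit 0) (cs (lf (nat_lit 22) (nat_lit 228)) (nd (nat_lit 250) (nat_lit 0) (cs (lf (nat_lit 23) (nat_lit 227)) (nd (nat_lit 275) (nat_lit 0) (cs (lf (nat_lit 0) (nat_lit 249)) (lf (nat_lit 6) (nat_lit 252))))))))))))))))))))))) (nd (nat_lit 187) (nat_lit 0) (cs (rf (nat_lit 8)) (lf (nat_lit 29) (nat_lit 187)))))))) q107594 (by decide +kernel)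
def q107623 : Q := Q.p (nat_lit 0x6000008000000000000000000000000000000000000000000000000000000000) (nat_lit 0xd0000fe000198000f00003f8000fe0000f00001400000000000000000000000000000000000) (nat_lit 12)
theorem c107623 : QOK q107623 := cut [q80728, q80754, q80931, q98196, q7464, q98194, q97017, q103968, q102810, q107570, q104023] ⟨c80728, c80754, c80931, c98196, c7464, c98194, c97017, c103968, c102810, c107570, c104023, trivial⟩ (nd (nat_lit 209) (nat_lit 0) (cs (rf (nat_lit 0)) (cs (rf (nat_lit 1)) (cs (rf (nat_lit 2)) (cs (rf (nat_lit 3)) (nd (nat_lit 210) (nat_lit 0) (cs (rf (nat_lit 4)) (cs (rf (nat_lit 5)) (cs (nd (nat_lit 232) (nat_lit 0) (cs (nd (nat_lit 233) (nat_lit 0) (cs (rf (nat_lit 6)) (cs (nd (nat_lit 208) (nat_lit 0) (cs (lf (nat_lit 0) (nat_lit 207)) (nd (nat_lit 251) (nat_lit 0) (cs (lf (nat_lit 13) (nat_lit 229)) (nd (nat_lit 186) (nat_lit 0) (cs (lf (nat_lit 42) (nat_lit 186)) (nd (nat_lit 211) (nat_lit 0) (cs (lf (nat_lit 23) (nat_lit 185)) (rf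 (nat_lit 7)))))))))) (nd (nat_lit 208) (nat_lit 0) (cs (lf (nat_lit 18) (nat_lit 208)) (lf (nat_lit 0) (nat_lit 207))))))) (cs (nd (nat_lit 276) (nat_lit 0) (cs (lf (nat_lit 42) (nat_lit 209)) (nd (nat_lit 277) (nat_lit 0) (cs (lf (nat_lit 29) (nat_lit 210)) (nd (nat_lit 278) (nat_lit 0) (cs (lf (nat_lit 18) (nat_lit 253)) (nd (nat_lit 211) (nat_lit 0) (cs (lf (nat_lit 35) (nat_lit 188)) (nd (nat_lit 212) (nat_lit 0) (cs (lf (nat_lit 6) (nat_lit 209)) (nd (nat_lit 234) (nat_lit 0) (cs (lf (nat_lit 5) (nat_lit 209)) (nd (nat_lit 208) (nat_lit 0) (cs (lf (nat_lit 19) (nat_lit 208)) (nd (nat_lit 186) (nat_lit 0) (cs (lf (nat_lit 42) (nat_lit 186)) (lf (nat_lit 23) (nat_lit 185)))))))))))))))))) (nd (nat_lit 276) (nat_lit 0) (cs (lf (nat_lit 42) (nat_lit 209)) (rf (nat_lit 8))))))) (nd (nat_lit 232) (nat_lit 0) (cs (rf (nat_lit 9)) (cs (nd (nat_lit 276) (nat_lit 0) (cs (lf (nat_lit 42) (nat_lit 209)) (nd (nat_lit 189) (nat_lit 0) (cs (lf (nat_lit 34) (nat_lit 188)) (rf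 (nat_lit 8)))))) (cs (nd (nat_lit 188) (nat_lit 0) (cs (lf (nat_lit 36) (nat_lit 165)) (nd (nat_lit 255) (nat_lit 0) (cs (lf (nat_lit 29) (nat_lit 188)) (rf (nat_lit 10)))))) (nd (nat_lit 276) (nat_lit 0) (cs (lf (nat_lit 42) (nat_lit 209)) (nd (nat_lit 166) (nat_lit 0) (cs (lf (nat_lit 37) (nat_lit 165)) (nd (nat_lit 211) (nat_lit 0) (cs (lf (nat_lit 35) (nat_lit 188)) (nd (nat_lit 212) (nat_lit 0) (cs (lf (nat_lit 6) (nat_lit 209)) (nd (nat_lit 234) (nat_lit 0) (cs (lf (nat_lit 5) (nat_lit 209)) (nd (nat_lit 233) (nat_lit 0) (cs (lf (nat_lit 11) (nat_lit 230)) (lf (nat_lit 23) (nat_lit 208))))))))))))))))))))))))))) q107623 (by decide +kernel)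
def q107656 : Q := Q.p (nat_lit 0x6000008000030000000000000000000000000000000000000000000000000000) (nat_lit 0x4800012000018000f7c001ce00077c000500001400000000000000000000000000000000000) (nat_lit 10)
theorem c107656 : QOK q107656 := cut [q119, q2935, q2938, q15490, q1533, q108, q96233, q96245, q85066] ⟨c119, c2935, c2938, c15490, c1533, c108, c96233, c96245, c85066, trivial⟩ (nd (nat_lit 207) (nat_lit 0) (cs (rf (nat_lit 0)) (cs (rf (nat_lit 1)) (cs (rf (nat_lit 2)) (cs (nd (nat_lit 228) (nat_lit 0) (cs (rf (nat_lit 3)) (cs (nd (nat_lit 229) (nat_lit 0) (cs (lf (nat_lit 6) (nat_lit 206)) (lf (nat_lit 2) (nat_lit 228)))) (nd (nat_lit 206) (nat_lit 0) (cs (lf (nat_lit 11) (nat_lit 205)) (nd (nat_lit 183) (nat_lit 0) (cs (lf (nat_lit 22) (nat_lit 183)) (nd (nat_lit 182) (nat_lit 0) (cs (lf (nat_lit 21) (nat_lit 182)) (nd (nat_lit 229) (nat_lit 0) (cs (lf (nat_lit 6) (nat_lit 206)) (nd (nat_lit 251) (nat_lit 0) (cs (rf (nat_lit 4)) (lf (nat_lit 20) (nat_lit 228)))))))))))))))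 (nd (nat_lit 210) (nat_lit 0) (cs (rf (nat_lit 5)) (cs (rf (nat_lit 6)) (cs (nd (nat_lit 228) (nat_lit 0) (cs (lf (nat_lit 10) (nat_lit 206)) (nd (nat_lit 185) (nat_lit 0) (cs (lf (nat_lit 23) (nat_lit 184)) (nd (nat_lit 232) (nat_lit 0) (cs (lf (nat_lit 5) (nat_lit 207)) (nd (nat_lit 166) (nat_lit 0) (cs (lf (nat_lit 37) (nat_lit 165)) (nd (nat_lit 276) (nat_lit 0) (cs (lf (nat_lit 42) (nat_lit 209)) (rf (nat_lit 7)))))))))))) (cs (nd (nat_lit 184) (nat_lit 0) (cs (lf (nat_lit 22) (nat_lit 184)) (rf (nat_lit 8)))) (nd (nat_lit 232) (nat_lit 0) (cs (lf (nat_lit 5) (nat_lit 207)) (nd (nat_lit 276) (nat_lit 0) (cs (lf (nat_lit 42) (nat_lit 209)) (nd (nat_lit 211) (nat_lit 0) (cs (lf (nat_lit 35) (nat_lit 188)) (nd (nat_lit 229) (nat_lit 0) (cs (lf (nat_lit 11) (nat_lit 206)) (lf (nat_lit 13) (nat_lit 207)))))))))))))))))))) q107656 (by decide +kernel)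
def q107749 : Q := Q.p (nat_lit 0x3000008000020000000000000000000000000000000000000000000000000000) (nat_lit 0xa00003c0001f00007e0001c0000760000c0000300000000000000000000000000000000000000000000000) (nat_lit 13)
theorem c107749 : QOK q107749 := cut [q717, q96655, q17544, q105237, q107748] ⟨c717, c96655, c17544, c105237, c107748, trivial⟩ (nd (nat_lit 275) (nat_lit 0) (cs (rf (nat_lit 0)) (cs (rf (nat_lit 1)) (cs (nd (nat_lit 274) (nat_lit 0) (cs (rf (nat_lit 2)) (nd (nat_lit 188) (nat_lit 0) (cs (lf (nat_lit 34) (nat_lit 187)) (nd (nat_lit 276) (nat_lit 0) (cs (lf (nat_lit 29) (nat_lit 209)) (rf (nat_lit 3)))))))) (rf (nat_lit 4)))))) q107749 (by decide +kernel)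
def q107771 : Q := Q.p (nat_lit 0x3000008000000000000000000000000000000000000000000000000000000000) (nat_lit 0x14000050000ffc001ce000e7c000a80002a0000000000000000000000000000000000000000000000) (nat_lit 10)
theorem c107771 : QOK q107771 := cut [q80881, q82280, q96403, q107756, q79201, q107759, q93140, q107578, q79009, q80245, q79163] ⟨c80881, c82280, c96403, c107756, c79201, c107759, c93140, c107578, c79009, c80245, c79163, trivial⟩ (nd (nat_lit 274) (nat_lit 0) (cs (rf (nat_lit 0)) (cs (rf (nat_lit 1)) (cs (nd (nat_lit 254) (nat_lit 0) (cs (nd (nat_lit 251) (nat_lit 0) (cs (rf (nat_lit 2)) (cs (rf (nat_lit 3)) (nd (nat_lit 187) (nat_lit 0) (cs (lf (nat_lit 37) (nat_lit 186)) (rf (nat_lit 4))))))) (cs (rf (nat_lit 5)) (nd (nat_lit 187) (nat_lit 0) (cs (lf (nat_lit 37) (nat_lit 186)) (rf (nat_lit 6))))))) (nd (nat_lit 254) (nat_lit 0) (cs (rf (nat_lit 6)) (cs (rf (nat_lit 7)) (cs (rf (nat_lit 5)) (nd (nat_lit 251) (nat_lit 0) (cs (rf (nat_lit 8)) (cs (rf (nat_lit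 4)) (cs (nd (nat_lit 296) (nat_lit 0) (cs (lf (nat_lit 30) (nat_lit 230)) (nd (nat_lit 272) (nat_lit 0) (cs (lf (nat_lit 10) (nat_lit 250)) (nd (nat_lit 276) (nat_lit 0) (cs (lf (nat_lit 5) (nat_lit 251)) (nd (nat_lit 298) (nat_lit 0) (cs (lf (nat_lit 42) (nat_lit 231)) (nd (nat_lit 229) (nat_lit 0) (cs (lf (nat_lit 23) (nat_lit 228)) (rf (nat_lit 9)))))))))))) (nd (nat_lit 228) (nat_lit 0) (cs (lf (nat_lit 22) (nat_lit 228)) (nd (nat_lit 296) (nat_lit 0) (cs (lf (nat_lit 30) (nat_lit 230)) (rf (nat_lit 10)))))))))))))))))) q107771 (by decide +kernel)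
def q107772 : Q := Q.p (nat_lit 0x380000a000000000000000000000000000000000000000000000000000000000) (nat_lit 0x800006000000000358000ee0001b00006c0000000000000000000000000000000000000000) (nat_lit 7)
theorem c107772 : QOK q107772 := cut [q84852, q87928, q88829] ⟨c84852, c87928, c88829, trivial⟩ (nd (nat_lit 230) (nat_lit 0) (cs (rf (nat_lit 0)) (cs (rf (nat_lit 1)) (rf (nat_lit 2))))) q107772 (by decide +kernel)
def q107808 : Q := Q.p (nat_lit 0x80000600000c000000000000000000000000000000000000000000000000000000000) (nat_lit 0x380003e00003700001c000f30003ac000000000000000000000000000000000000000000000000000) (nat_lit 11)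
theorem c107808 : QOK q107808 := cut [q101985, q107793, q79763, q80265, q107805] ⟨c101985, c107793, c79763, c80265, c107805, trivial⟩ (nd (nat_lit 298) (nat_lit 0) (cs (nd (nat_lit 276) (nat_lit 0) (cs (lf (nat_lit 24) (nat_lit 209)) (lf (nat_lit 42) (nat_lit 231)))) (cs (nd (nat_lit 228) (nat_lit 0) (cs (lf (nat_lit 1) (nat_lit 228)) (nd (nat_lit 297) (nat_lit 0) (cs (lf (nat_lit 29) (nat_lit 231)) (rf (nat_lit 0)))))) (nd (nat_lit 251) (nat_lit 0) (cs (rf (nat_lit 1)) (cs (nd (nat_lit 276) (nat_lit 0) (cs (lf (nat_lit 24) (nat_lit 209)) (nd (nat_lit 229) (nat_lit 0) (cs (lf (nat_lit 0) (nat_lit 228)) (nd (nat_lit 232) (nat_lit 0) (cs (lf (nat_lit 11) (nat_lit 228)) (nd (nat_lit 211) (nat_lit 0) (cs (lf (nat_lit 34) (nat_lit 210)) (nd (nat_lit 297) (nat_lit 0) (cs (lf (nat_lit 41) (nat_lit 231)) (nd (nat_lit 206) (nat_lit 0) (cs (lf (nat_lit 22) (nat_lit 206)) (rf (nat_lit 2)))))))))))))) (cs (nd (nat_lit 276) (nat_lit 0) (cs (lf (nat_lit 24) (nat_lit 209)) (nd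 (nat_lit 252) (nat_lit 0) (cs (lf (nat_lit 5) (nat_lit 251)) (nd (nat_lit 272) (nat_lit 0) (cs (lf (nat_lit 10) (nat_lit 250)) (nd (nat_lit 297) (nat_lit 0) (cs (lf (nat_lit 42) (nat_lit 230)) (nd (nat_lit 232) (nat_lit 0) (cs (lf (nat_lit 6) (nat_lit 229)) (rf (nat_lit 3)))))))))))) (nd (nat_lit 276) (nat_lit 0) (cs (lf (nat_lit 24) (nat_lit 209)) (rf (nat_lit 4))))))))))) q107808 (by decide +kernel)
def q107862 : Q := Q.p (nat_lit 0x800002000008000000000000000000000000000000000000000000000000000000000) (nat_lit 0x300000c00007c00074000050000140000300001c0000700001400000000000000000000000000000000000) (nat_lit 11)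
theorem c107862 : QOK q107862 := cut [q97689, q101581, q107861] ⟨c97689, c101581, c107861, trivial⟩ (nd (nat_lit 297) (nat_lit 0) (cs (rf (nat_lit 0)) (cs (rf (nat_lit 1)) (rf (nat_lit 2))))) q107862 (by decide +kernel)
def q107883 : Q := Q.p (nat_lit 0x200000e000000000000000000000000000000000000000000000000000000000) (nat_lit 0x640001b00001f000018001ff0007f8001fc0000800002000000000000000000000000000000) (nat_lit 15)
theorem c107883 : QOK q107883 := cut [q3984, q97995, q98012, q22544, q96757, q96835, q98009] ⟨c3984, c97995, c98012, c22544, c96757, c96835, c98009, trivial⟩ (nd (nat_lit 208) (nat_lit 0) (cs (rf (nat_lit 0)) (cs (rf (nat_lit 1)) (cs (rf (nat_lit 2)) (nd (nat_lit 186) (nat_lit 0) (cs (lf (nat_lit 24) (nat_lit 164)) (nd (nat_lit 228) (nat_lit 0) (cs (rf (nat_lit 3)) (cs (rf (nat_lit 4)) (cs (rf (nat_lit 5)) (rf (nat_lit 6)))))))))))) q107883 (by decide +kernel)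
def q107899 : Q := Q.p (nat_lit 0x200000c000000000000000000000000000000000000000000000000000000000) (nat_lit 0x280002a00019f000738003ff000140000500000000000000000000000000000000000000000) (nat_lit 9)
theorem c107899 : QOK q107899 := cut [q3984, q98012, q7954, q98038, q98041, q7963, q12206, q98040, q98049, q22601, q107455] ⟨c3984, c98012, c7954, c98038, c98041, c7963, c12206, c98040, c98049, c22601, c107455, trivial⟩ (nd (nat_lit 208) (nat_lit 0) (cs (rf (nat_lit 0)) (cs (rf (nat_lit 1)) (cs (nd (nat_lit 232) (nat_lit 0) (cs (rf (nat_lit 2)) (cs (rf (nat_lit 3)) (cs (rf (nat_lit 4)) (nd (nat_lit 210) (nat_lit 0) (cs (rf (nat_lit 5)) (nd (nat_lit 275) (nat_lit 0) (cs (lf (nat_lit 42) (nat_lit 208)) (rf (nat_lit 6)))))))))) (nd (nat_lit 232) (nat_lit 0) (cs (rf (nat_lit 2)) (cs (rf (nat_lit 7)) (cs (rf (nat_lit 8)) (nd (nat_lit 233) (nat_lit 0) (cs (rf (nat_lit 9)) (rf (nat_lit 10)))))))))))) q107899 (by decide +kernel)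
def q107904 : Q := Q.p (nat_lit 0x200000c000000000000000000000000000000000000000000000000000000000) (nat_lit 0x48000330001df000f380003f0000c0000100000000000000000000000000000000000000000) (nat_lit 9)
theorem c107904 : QOK q107904 := cut [q96758, q96769, q96836, q97207, q80199, q96971, q97014, q96759, q79181, q107709] ⟨c96758, c96769, c96836, c97207, c80199, c96971, c97014, c96759, c79181, c107709, trivial⟩ (nd (nat_lit 229) (nat_lit 0) (cs (rf (nat_lit 0)) (cs (rf (nat_lit 1)) (cs (rf (nat_lit 2)) (cs (rf (nat_lit 3)) (nd (nat_lit 232) (nat_lit 0) (cs (rf (nat_lit 4)) (cs (rf (nat_lit 5)) (cs (rf (nat_lit 6)) (nd (nat_lit 254) (nat_lit 0) (cs (rf (nat_lit 7)) (nd (nat_lit 276) (nat_lit 0) (cs (rf (nat_lit 8)) (nd (nat_lit 251) (nat_lit 0) (cs (lf (nat_lit 11) (nat_lit 228)) (rf (nat_lit 9))))))))))))))))) q107904 (by decide +kernel)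
def q107908 : Q := Q.p (nat_lit 0x200000c000000000000000000000000000000000000000000000000000000000) (nat_lit 0x200000a00005f000f38001ff000140000500000000000000000000000000000000000000000) (nat_lit 9)
theorem c107908 : QOK q107908 := cut [q96758, q96769, q96836, q107186, q80199, q97021, q98323, q88864] ⟨c96758, c96769, c96836, c107186, c80199, c97021, c98323, c88864, trivial⟩ (nd (nat_lit 229) (nat_lit 0) (cs (rf (nat_lit 0)) (cs (rf (nat_lit 1)) (cs (rf (nat_lit 2)) (cs (rf (nat_lit 3)) (nd (nat_lit 232) (nat_lit 0) (cs (rf (nat_lit 4)) (cs (rf (nat_lit 5)) (cs (rf (nat_lit 6)) (nd (nat_lit 206) (nat_lit 0) (cs (lf (nat_lit 22) (nat_lit 206)) (nd (nat_lit 250) (nat_lit 0) (cs (lf (nat_lit 10) (nat_lit 228)) (rf (nat_lit 7))))))))))))))) q107908 (by decide +kernel)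
def q107914 : Q := Q.p (nat_lit 0x3000008000020000000000000000000000000000000000000000000000000000) (nat_lit 0x100001c0000700001800004000014000040000180000600001000000000000000000000000000000000000) (nat_lit 7)
theorem c107914 : QOK q107914 := cut [q92101, q97866, q102287] ⟨c92101, c97866, c102287, trivial⟩ (nd (nat_lit 188) (nat_lit 0) (cs (rf (nat_lit 0)) (cs (rf (nat_lit 1)) (rf (nat_lit 2))))) q107914 (by decide +kernel)
def q108129 : Q := Q.p (nat_lit 0x800002000008000000000000000000000000000000000000000000000000000000000) (nat_lit 0xc000030000020000df000f78003df000140000500000000000000000000000000000000000000000) (nat_lit 10)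
theorem c108129 : QOK q108129 := cut [q97957, q98121, q107893, q108128] ⟨c97957, c98121, c107893, c108128, trivial⟩ (nd (nat_lit 230) (nat_lit 0) (cs (rf (nat_lit 0)) (cs (rf (nat_lit 1)) (cs (rf (nat_lit 2)) (rf (nat_lit 3)))))) q108129 (by decide +kernel)
def q108185 : Q := Q.p (nat_lit 0x800002000008000000000000000000000000000000000000000000000000000000000) (nat_lit 0x300000c0003bf000f78001df000f70003e80007e0001f00001400000000000000000000000000000000000) (nat_lit 16)
theorem c108185 : QOK q108185 := cut [q108131, q80720, q101882, q108134, q108135, q97766, q101893, q108146, q108148, q107026, q108152, q108160, q97408, q97409, q97318, q97336, q93127, q11768, q108163, q108167, q108173, q108182, q108184] ⟨c108131, c80720, c101882, c108134, c108135, c97766, c101893, c108146, c108148, c107026, c108152, c108160, c97408, c97409, c97318, c97336, c93127, c11768, c108163, c108167, c108173, c108182, c108184, trivial⟩ (nd (nat_lit 274) (nat_lit 0) (cs (rf (nat_lit 0)) (cs (nd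 (nat_lit 254) (nat_lit 0) (cs (rf (nat_lit 1)) (cs (rf (nat_lit 2)) (cs (nd (nat_lit 210) (nat_lit 0) (cs (rf (nat_lit 3)) (cs (nd (nat_lit 251) (nat_lit 0) (cs (rf (nat_lit 4)) (cs (nd (nat_lit 232) (nat_lit 0) (cs (lf (nat_lit 30) (nat_lit 209)) (nd (nat_lit 273) (nat_lit 0) (cs (lf (nat_lit 12) (nat_lit 250)) (nd (nat_lit 276) (nat_lit 0) (cs (lf (nat_lit 23) (nat_lit 250)) (nd (nat_lit 277) (nat_lit 0) (cs (lf (nat_lit 29) (nat_lit 210)) (nd (nat_lit 278) (nat_lit 0) (cs (lf (nat_lit 18) (nat_lit 253)) (nd (nat_lit 300) (nat_lit 0) (cs (lf (nat_lit 5) (nat_lit 275)) (rf (nat_lit 5)))))))))))))) (cs (nd (nat_lit 272) (nat_lit 0) (cs (lf (nat_lit 13) (nat_lit 250)) (nd (nat_lit 232) (nat_lit 0) (cs (lf (nat_lit 30) (nat_lit 209)) (nd (nat_lit 233) (nat_lit 0) (cs (lf (nat_lit 13) (nat_lit 229)) (nd (nat_lit 234) (nat_lit 0) (cs (lf (nat_lit 6) (nat_lit 231)) (rf (nat_lit 6)))))))))) (rf (nat_lit 7)))))) (rf (nat_lit 8))))) (nd (nat_lit 252) (nat_lit 0) (cs (nd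 (nat_lit 187) (nat_lit 0) (cs (lf (nat_lit 37) (nat_lit 186)) (rf (nat_lit 9)))) (cs (rf (nat_lit 10)) (rf (nat_lit 11))))))))) (cs (nd (nat_lit 273) (nat_lit 0) (cs (rf (nat_lit 12)) (cs (rf (nat_lit 13)) (cs (nd (nat_lit 254) (nat_lit 0) (cs (rf (nat_lit 14)) (cs (rf (nat_lit 15)) (nd (nat_lit 297) (nat_lit 0) (cs (rf (nat_lit 16)) (cs (nd (nat_lit 251) (nat_lit 0) (cs (rf (nat_lit 17)) (cs (nd (nat_lit 210) (nat_lit 0) (cs (lf (nat_lit 34) (nat_lit 209)) (nd (nat_lit 296) (nat_lit 0) (cs (lf (nat_lit 41) (nat_lit 230)) (rf (nat_lit 18)))))) (nd (nat_lit 210) (nat_lit 0) (cs (lf (nat_lit 34) (nat_lit 209)) (nd (nat_lit 296) (nat_lit 0) (cs (lf (nat_lit 41) (nat_lit 230)) (rf (nat_lit 19))))))))) (rf (nat_lit 20)))))))) (rf (nat_lit 21)))))) (rf (nat_lit 22)))))) q108185 (by decide +kernel)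
def q108190 : Q := Q.p (nat_lit 0xe00002800000000000000000000000000000000000000000000000000000000000000) (nat_lit 0x39c000f00000c400000000000000000000000000000000000000000000000000000000000000) (nat_lit 7)
theorem c108190 : QOK q108190 := cut [q108189] ⟨c108189, trivial⟩ (nd (nat_lit 276) (nat_lit 0) (cs (lf (nat_lit 23) (nat_lit 250)) (rf (nat_lit 0)))) q108190 (by decide +kernel)
def q108207 : Q := Q.p (nat_lit 0x800002000008000020000000000000000000000000000000000000000000000000000) (nat_lit 0x140000700001c00002000000000010000170001d0000100000000000000000000000000000000000000000000000) (nat_lit 10)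
theorem c108207 : QOK q108207 := cut [q21931] ⟨c21931, trivial⟩ (nd (nat_lit 210) (nat_lit 0) (cs (lf (nat_lit 35) (nat_lit 187)) (nd (nat_lit 297) (nat_lit 0) (cs (lf (nat_lit 34) (nat_lit 209)) (nd (nat_lit 230) (nat_lit 0) (cs (lf (nat_lit 47) (nat_lit 208)) (nd (nat_lit 228) (nat_lit 0) (cs (lf (nat_lit 13) (nat_lit 206)) (nd (nat_lit 211) (nat_lit 0) (cs (lf (nat_lit 6) (nat_lit 208)) (rf (nat_lit 0)))))))))))) q108207 (by decide +kernel)
def q108394 : Q := Q.p (nat_lit 0xc00002000000000000000000000000000000000000000000000000000000000000000) (nat_lit 0x30000fc0003f0000ff000338001cf000300000c0000300000000000000000000000000000000000000000000000) (nat_lit 13)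
theorem c108394 : QOK q108394 := cut [q97409, q98972, q98987, q98831, q98836, q98970, q108391] ⟨c97409, c98972, c98987, c98831, c98836, c98970, c108391, trivial⟩ (nd (nat_lit 273) (nat_lit 0) (cs (rf (nat_lit 0)) (cs (rf (nat_lit 1)) (cs (rf (nat_lit 2)) (nd (nat_lit 276) (nat_lit 0) (cs (rf (nat_lit 3)) (cs (rf (nat_lit 4)) (cs (rf (nat_lit 5)) (nd (nat_lit 250) (nat_lit 0) (cs (lf (nat_lit 22) (nat_lit 250)) (rf (nat_lit 6)))))))))))) q108394 (by decide +kernel)
def q108397 : Q := Q.p (nat_lit 0xc00003000000000000000000000000000000000000000000000000000000000000000) (nat_lit 0x4000090000638001ce00077000048000120000000000000000000000000000000000000000000000) (nat_lit 7)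
theorem c108397 : QOK q108397 := cut [q79079, q86391, q108396] ⟨c79079, c86391, c108396, trivial⟩ (nd (nat_lit 254) (nat_lit 0) (cs (rf (nat_lit 0)) (cs (rf (nat_lit 1)) (rf (nat_lit 2))))) q108397 (by decide +kernel)
def q108405 : Q := Q.p (nat_lit 0xc00003000000000000000000000000000000000000000000000000000000000000000) (nat_lit 0x80000b0000638001ce00073800048000120000000000000000000000000000000000000000000000) (nat_lit 9)
theorem c108405 : QOK q108405 := cut [q79079, q86391, q108404] ⟨c79079, c86391, c108404, trivial⟩ (nd (nat_lit 254) (nat_lit 0) (cs (rf (nat_lit 0)) (cs (rf (nat_lit 1)) (rf (nat_lit 2))))) q108405 (by decide +kernel)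
def q108433 : Q := Q.p (nat_lit 0xe00002000000000000000000000000000000000000000000000000000000000000000) (nat_lit 0x8000020001df0007180039f00001000004000000000000000000000000000000000000000000000000000) (nat_lit 12)
theorem c108433 : QOK q108433 := cut [q12673, q98852, q99019, q54899] ⟨c12673, c98852, c99019, c54899, trivial⟩ (nd (nat_lit 272) (nat_lit 0) (cs (rf (nat_lit 0)) (cs (rf (nat_lit 1)) (cs (rf (nat_lit 2)) (nd (nat_lit 293) (nat_lit 0) (cs (lf (nat_lit 10) (nat_lit 271)) (nd (nat_lit 250) (nat_lit 0) (cs (lf (nat_lit 23) (nat_lit 249)) (nd (nat_lit 276) (nat_lit 0) (cs (lf (nat_lit 22) (nat_lit 250)) (nd (nat_lit 299) (nat_lit 0) (cs (lf (nat_lit 4) (nat_lit 273)) (nd (nat_lit 277) (nat_lit 0) (cs (lf (nat_lit 5) (nat_lit 274)) (nd (nat_lit 295) (nat_lit 0) (cs (lf (nat_lit 10) (nat_lit 273)) (nd (nat_lit 317) (nat_lit 0) (cs (lf (nat_lit 42) (nat_lit 250)) (nd (nat_lit 206) (nat_lit 0) (cs (lf (nat_lit 25) (nat_lit 206)) (rf (nat_lit 3))))))))))))))))))))))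 q108433 (by decide +kernel)
def q108452 : Q := Q.p (nat_lit 0xc00003000000000000000000000000000000000000000000000000000000000000000) (nat_lit 0x58000160001de0007380018e0000300000c000030000000000000000000000000000000000000000000000) (nat_lit 12)
theorem c108452 : QOK q108452 := cut [q2190, q104510, q2180, q12665, q108450] ⟨c2190, c104510, c2180, c12665, c108450, trivial⟩ (nd (nat_lit 276) (nat_lit 0) (cs (rf (nat_lit 0)) (cs (rf (nat_lit 1)) (nd (nat_lit 273) (nat_lit 0) (cs (rf (nat_lit 2)) (cs (rf (nat_lit 3)) (rf (nat_lit 4)))))))) q108452 (by decide +kernel)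
def q108560 : Q := Q.p (nat_lit 0x200000c00006000000000000000000000000000000000000000000000000000000000000000) (nat_lit 0xd0000f60001dc0007200001c000f70000d8000160000000000000000000000000000000000000000000000) (nat_lit 11)
theorem c108560 : QOK q108560 := cut [q88900, q108526, q15959, q108362, q97323, q108538, q79170, q108282, q108539, q55621] ⟨c88900, c108526, c15959, c108362, c97323, c108538, c79170, c108282, c108539, c55621, trivial⟩ (nd (nat_lit 276) (nat_lit 0) (cs (nd (nat_lit 298) (nat_lit 0) (cs (rf (nat_lit 0)) (cs (nd (nat_lit 320) (nat_lit 0) (cs (lf (nat_lit 42) (nat_lit 253)) (nd (nat_lit 232) (nat_lit 0) (cs (lf (nat_lit 36) (nat_lit 209)) (nd (nat_lit 233) (nat_lit 0) (cs (lf (nat_lit 35) (nat_lit 210)) (nd (nat_lit 251) (nat_lit 0) (cs (lf (nat_lit 13) (nat_lit 229)) (nd (nat_lit 273) (nat_lit 0) (cs (lf (nat_lit 23) (nat_lit 250)) (nd (nat_lit 234) (nat_lit 0) (cs (lf (nat_lit 6) (nat_lit 231)) (nd (nat_lit 295) (nat_lit 0) (cs (lf (nat_lit 11) (nat_lit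 272)) (nd (nat_lit 321) (nat_lit 0) (cs (lf (nat_lit 1) (nat_lit 295)) (lf (nat_lit 29) (nat_lit 254)))))))))))))))))) (nd (nat_lit 210) (nat_lit 0) (cs (lf (nat_lit 37) (nat_lit 209)) (nd (nat_lit 299) (nat_lit 0) (cs (lf (nat_lit 18) (nat_lit 274)) (rf (nat_lit 1))))))))) (cs (nd (nat_lit 251) (nat_lit 0) (cs (rf (nat_lit 2)) (cs (rf (nat_lit 3)) (nd (nat_lit 210) (nat_lit 0) (cs (lf (nat_lit 37) (nat_lit 209)) (nd (nat_lit 273) (nat_lit 0) (cs (lf (nat_lit 23) (nat_lit 250)) (rf (nat_lit 4))))))))) (cs (rf (nat_lit 5)) (cs (nd (nat_lit 252) (nat_lit 0) (cs (rf (nat_lit 6)) (cs (rf (nat_lit 7)) (nd (nat_lit 210) (nat_lit 0) (cs (lf (nat_lit 37) (nat_lit 209)) (nd (nat_lit 208) (nat_lit 0) (cs (lf (nat_lit 25) (nat_lit 208)) (nd (nat_lit 277) (nat_lit 0) (cs (lf (nat_lit 18) (nat_lit 252)) (nd (nat_lit 296) (nat_lit 0) (cs (lf (nat_lit 11) (nat_lit 273)) (nd (nat_lit 299) (nat_lit 0) (cs (lf (nat_lit 5) (nat_lit 274)) (nd (nat_lit 321) (nat_lit 0) (cs (lf (nat_lit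 42) (nat_lit 254)) (nd (nat_lit 318) (nat_lit 0) (cs (lf (nat_lit 30) (nat_lit 252)) (rf (nat_lit 8))))))))))))))))))) (cs (nd (nat_lit 252) (nat_lit 0) (cs (rf (nat_lit 6)) (cs (rf (nat_lit 7)) (nd (nat_lit 232) (nat_lit 0) (cs (lf (nat_lit 36) (nat_lit 209)) (nd (nat_lit 208) (nat_lit 0) (cs (lf (nat_lit 25) (nat_lit 208)) (nd (nat_lit 277) (nat_lit 0) (cs (lf (nat_lit 18) (nat_lit 252)) (nd (nat_lit 299) (nat_lit 0) (cs (lf (nat_lit 5) (nat_lit 274)) (nd (nat_lit 298) (nat_lit 0) (cs (lf (nat_lit 0) (nat_lit 273)) (lf (nat_lit 29) (nat_lit 232))))))))))))))) (nd (nat_lit 299) (nat_lit 0) (cs (rf (nat_lit 9)) (cs (nd (nat_lit 210) (nat_lit 0) (cs (lf (nat_lit 37) (nat_lit 209)) (nd (nat_lit 277) (nat_lit 0) (cs (lf (nat_lit 5) (nat_lit 274)) (nd (nat_lit 296) (nat_lit 0) (cs (lf (nat_lit 6) (nat_lit 274)) (lf (nat_lit 11) (nat_lit 273)))))))) (nd (nat_lit 210) (nat_lit 0) (cs (lf (nat_lit 37) (nat_lit 209)) (nd (nat_lit 298) (nat_lit 0) (cs (lf (nat_lit 0) (nat_lit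 273)) (nd (nat_lit 320) (nat_lit 0) (cs (lf (nat_lit 42) (nat_lit 253)) (nd (nat_lit 321) (nat_lit 0) (cs (lf (nat_lit 29) (nat_lit 254)) (nd (nat_lit 322) (nat_lit 0) (cs (lf (nat_lit 18) (nat_lit 297)) (lf (nat_lit 0) (nat_lit 296))))))))))))))))))))) q108560 (by decide +kernel)
def q108587 : Q := Q.p (nat_lit 0xe00002000000000000000000000000000000000000000000000000000000000000000) (nat_lit 0x60000180003fc000700001d0000300000c0000300000000000000000000000000000000000000000000000) (nat_lit 10)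
theorem c108587 : QOK q108587 := cut [q98831, q108361, q108391, q108421] ⟨c98831, c108361, c108391, c108421, trivial⟩ (nd (nat_lit 276) (nat_lit 0) (cs (rf (nat_lit 0)) (cs (rf (nat_lit 1)) (cs (rf (nat_lit 2)) (rf (nat_lit 3)))))) q108587 (by decide +kernel)
def q108590 : Q := Q.p (nat_lit 0xe00002000000000000000000000000000000000000000000000000000000000000000) (nat_lit 0xe0000380001e0000300001dc000300000c0000300000000000000000000000000000000000000000000000) (nat_lit 11)
theorem c108590 : QOK q108590 := cut [q98836, q108364, q108421, q108484] ⟨c98836, c108364, c108421, c108484, trivial⟩ (nd (nat_lit 276) (nat_lit 0) (cs (rf (nat_lit 0)) (cs (rf (nat_lit 1)) (cs (rf (nat_lit 2)) (nd (nat_lit 251) (nat_lit 0) (cs (lf (nat_lit 23) (nat_lit 250)) (rf (nat_lit 3)))))))) q108590 (by decide +kernel)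
def q108645 : Q := Q.p (nat_lit 0xc00002000000000000000000000000000000000000000000000000000000000000000) (nat_lit 0x700005f0003f8000fe0003380005f0000780001c000050000000000000000000000000000000000000000000000) (nat_lit 12)
theorem c108645 : QOK q108645 := cut [q98859, q98972, q108436, q108596, q108597, q108619, q108643] ⟨c98859, c98972, c108436, c108596, c108597, c108619, c108643, trivial⟩ (nd (nat_lit 273) (nat_lit 0) (cs (rf (nat_lit 0)) (cs (rf (nat_lit 1)) (cs (rf (nat_lit 2)) (nd (nat_lit 295) (nat_lit 0) (cs (rf (nat_lit 3)) (cs (nd (nat_lit 276) (nat_lit 0) (cs (lf (nat_lit 11) (nat_lit 272)) (nd (nat_lit 298) (nat_lit 0) (cs (lf (nat_lit 5) (nat_lit 273)) (nd (nat_lit 296) (nat_lit 0) (cs (lf (nat_lit 6) (nat_lit 273)) (nd (nat_lit 318) (nat_lit 0) (cs (lf (nat_lit 30) (nat_lit 252)) (rf (nat_lit 4)))))))))) (cs (rf (nat_lit 5)) (rf (nat_lit 6)))))))))) q108645 (by decide +kernel)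
def q108664 : Q := Q.p (nat_lit 0x80000e00002000000000000000000000000000000000000000000000000000000000000000) (nat_lit 0x1800006000010000100001de0007700001c000030000000000000000000000000000000000000000000000) (nat_lit 8)
theorem c108664 : QOK q108664 := cut [q98386, q15153, q108446, q108662, q108367] ⟨c98386, c15153, c108446, c108662, c108367, trivial⟩ (nd (nat_lit 252) (nat_lit 0) (cs (rf (nat_lit 0)) (cs (nd (nat_lit 251) (nat_lit 0) (cs (rf (nat_lit 1)) (rf (nat_lit 2)))) (cs (rf (nat_lit 3)) (nd (nat_lit 251) (nat_lit 0) (cs (rf (nat_lit 1)) (rf (nat_lit 4)))))))) q108664 (by decide +kernel)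
def q108685 : Q := Q.p (nat_lit 0xe00002800000000000000000000000000000000000000000000000000000000000000) (nat_lit 0xf00003e000000000d60003780005c000170000140000000000000000000000000000000000000000) (nat_lit 12)
theorem c108685 : QOK q108685 := cut [q99196, q99197, q99208, q14769, q84262, q99203] ⟨c99196, c99197, c99208, c14769, c84262, c99203, trivial⟩ (nd (nat_lit 229) (nat_lit 0) (cs (rf (nat_lit 0)) (cs (rf (nat_lit 1)) (cs (rf (nat_lit 2)) (cs (nd (nat_lit 252) (nat_lit 0) (cs (rf (nat_lit 3)) (cs (rf (nat_lit 4)) (rf (nat_lit 5))))) (nd (nat_lit 252) (nat_lit 0) (cs (rf (nat_lit 3)) (cs (rf (nat_lit 4)) (nd (nat_lit 207) (nat_lit 0) (cs (lf (nat_lit 24) (nat_lit 185)) (nd (nat_lit 249) (nat_lit 0) (cs (lf (nat_lit 1) (nat_lit 249)) (nd (nat_lit 184) (nat_lit 0) (cs (lf (nat_lit 46) (nat_lit 184)) (nd (nat_lit 254) (nat_lit 0) (cs (lf (nat_lit 6) (nat_lit 251)) (nd (nat_lit 232) (nat_lit 0) (cs (lf (nat_lit 17) (nat_lit 229)) (nd (nat_lit 188) (nat_lit 0) (cs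 (lf (nat_lit 37) (nat_lit 187)) (nd (nat_lit 297) (nat_lit 0) (cs (lf (nat_lit 30) (nat_lit 231)) (nd (nat_lit 208) (nat_lit 0) (cs (lf (nat_lit 35) (nat_lit 185)) (lf (nat_lit 25) (nat_lit 208)))))))))))))))))))))))))) q108685 (by decide +kernel)
def q108751 : Q := Q.p (nat_lit 0x800003800000000000000000000000000000000000000000000000000000000000000) (nat_lit 0x138001c60001e000010000040000000000000000000000000000000000000000000000) (nat_lit 8)
theorem c108751 : QOK q108751 := cut [q108750] ⟨c108750, trivial⟩ (nd (nat_lit 250) (nat_lit 0) (cs (lf (nat_lit 5) (nat_lit 250)) (rf (nat_lit 0)))) q108751 (by decide +kernel)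
def q108773 : Q := Q.p (nat_lit 0x800003000000000000000000000000000000000000000000000000000000000000000) (nat_lit 0x48000120000dc00037c003ce00077c0005c0001700001c0000500000000000000000000000000000000000) (nat_lit 14)
theorem c108773 : QOK q108773 := cut [q1999, q2066, q2091, q79020, q98377, q98529, q102914, q108772] ⟨c1999, c2066, c2091, c79020, c98377, c98529, c102914, c108772, trivial⟩ (nd (nat_lit 251) (nat_lit 0) (cs (rf (nat_lit 0)) (cs (rf (nat_lit 1)) (cs (rf (nat_lit 2)) (cs (nd (nat_lit 254) (nat_lit 0) (cs (rf (nat_lit 3)) (cs (rf (nat_lit 4)) (cs (rf (nat_lit 5)) (nd (nat_lit 276) (nat_lit 0) (cs (lf (nat_lit 5) (nat_lit 251)) (nd (nat_lit 232) (nat_lit 0) (cs (lf (nat_lit 17) (nat_lit 229)) (nd (nat_lit 188) (nat_lit 0) (cs (lf (nat_lit 37) (nat_lit 187)) (rf (nat_lit 6)))))))))))) (rf (nat_lit 7))))))) q108773 (by decide +kernel)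
def q108780 : Q := Q.p (nat_lit 0xc00003000000000000000000000000000000000000000000000000000000000000000) (nat_lit 0xc0000300008c000638001ce0007780005c000170000000000000000000000000000000000000000000000) (nat_lit 13)
theorem c108780 : QOK q108780 := cut [q79079, q86391, q108395, q108403, q87021, q98578] ⟨c79079, c86391, c108395, c108403, c87021, c98578, trivial⟩ (nd (nat_lit 254) (nat_lit 0) (cs (rf (nat_lit 0)) (cs (rf (nat_lit 1)) (nd (nat_lit 251) (nat_lit 0) (cs (rf (nat_lit 2)) (cs (rf (nat_lit 3)) (nd (nat_lit 273) (nat_lit 0) (cs (rf (nat_lit 4)) (rf (nat_lit 5)))))))))) q108780 (by decide +kernel)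
def q108819 : Q := Q.p (nat_lit 0xc00003000000000000000000000000000000000000000000000000000000000000000) (nat_lit 0x4000098000638001ce0007f8001f00001c0000000000000000000000000000000000000000000000) (nat_lit 12)
theorem c108819 : QOK q108819 := cut [q79079, q86391, q108395, q108403, q24703, q108809, q87021, q108815] ⟨c79079, c86391, c108395, c108403, c24703, c108809, c87021, c108815, trivial⟩ (nd (nat_lit 254) (nat_lit 0) (cs (rf (nat_lit 0)) (cs (rf (nat_lit 1)) (nd (nat_lit 251) (nat_lit 0) (cs (rf (nat_lit 2)) (cs (rf (nat_lit 3)) (nd (nat_lit 231) (nat_lit 0) (cs (rf (nat_lit 4)) (cs (rf (nat_lit 5)) (nd (nat_lit 273) (nat_lit 0) (cs (rf (nat_lit 6)) (rf (nat_lit 7))))))))))))) q108819 (by decide +kernel)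
def q108827 : Q := Q.p (nat_lit 0x1800003000000000000000000000000000000000000000000000000000000000000000) (nat_lit 0x1dc0006600018800000000000000000000000000000000000000000000000000000000000000) (nat_lit 7)
theorem c108827 : QOK q108827 := cut [q108826] ⟨c108826, trivial⟩ (nd (nat_lit 277) (nat_lit 0) (cs (lf (nat_lit 18) (nat_lit 252)) (rf (nat_lit 0)))) q108827 (by decide +kernel)
def q108832 : Q := Q.p (nat_lit 0x1800003000000000000000000000000000000000000000000000000000000000000000) (nat_lit 0xc0000300000c0000600003c8000fe0000e0000380000000000000000000000000000000000000000000000) (nat_lit 9)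
theorem c108832 : QOK q108832 := cut [q96544, q81677, q91082, q105259, q80538] ⟨c96544, c81677, c91082, c105259, c80538, trivial⟩ (nd (nat_lit 254) (nat_lit 0) (cs (rf (nat_lit 0)) (cs (nd (nat_lit 232) (nat_lit 0) (cs (rf (nat_lit 1)) (rf (nat_lit 2)))) (nd (nat_lit 255) (nat_lit 0) (cs (rf (nat_lit 3)) (nd (nat_lit 277) (nat_lit 0) (cs (lf (nat_lit 18) (nat_lit 252)) (nd (nat_lit 256) (nat_lit 0) (cs (rf (nat_lit 4)) (lf (nat_lit 6) (nat_lit 253))))))))))) q108832 (by decide +kernel)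
def q108844 : Q := Q.p (nat_lit 0x1800007000000000000000000000000000000000000000000000000000000000000000) (nat_lit 0xc0000300000c000000000008000f80000e0000380000000000000000000000000000000000000000000000) (nat_lit 8)
theorem c108844 : QOK q108844 := cut [q79118, q91082, q79422] ⟨c79118, c91082, c79422, trivial⟩ (nd (nat_lit 232) (nat_lit 0) (cs (rf (nat_lit 0)) (cs (rf (nat_lit 1)) (nd (nat_lit 233) (nat_lit 0) (cs (lf (nat_lit 12) (nat_lit 229)) (nd (nat_lit 234) (nat_lit 0) (cs (lf (nat_lit 6) (nat_lit 231)) (nd (nat_lit 298) (nat_lit 0) (cs (lf (nat_lit 35) (nat_lit 210)) (rf (nat_lit 2))))))))))) q108844 (by decide +kernel)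
def q108892 : Q := Q.p (nat_lit 0x800003800002000000000000000000000000000000000000000000000000000000000) (nat_lit 0x40000160000dc0003780004000004000018000020000000000000000000000000000000000000000000000) (nat_lit 8)
theorem c108892 : QOK q108892 := cut [q80246, q98559, q87021, q89807] ⟨c80246, c98559, c87021, c89807, trivial⟩ (nd (nat_lit 274) (nat_lit 0) (cs (rf (nat_lit 0)) (cs (rf (nat_lit 1)) (nd (nat_lit 273) (nat_lit 0) (cs (rf (nat_lit 2)) (rf (nat_lit 3))))))) q108892 (by decide +kernel)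
def q108922 : Q := Q.p (nat_lit 0xa00003800000000000000000000000000000000000000000000000000000000000000) (nat_lit 0x40000120000dc000340000c000007000018000020000000000000000000000000000000000000000000000) (nat_lit 7)
theorem c108922 : QOK q108922 := cut [q83686, q89807] ⟨c83686, c89807, trivial⟩ (nd (nat_lit 274) (nat_lit 0) (cs (rf (nat_lit 0)) (rf (nat_lit 1)))) q108922 (by decide +kernel)
def q108968 : Q := Q.p (nat_lit 0x800003800000000000000000000000000000000000000000000000000000000000000) (nat_lit 0x100000700001e00017c000c00003fc000fc0003f00001c0000500000000000000000000000000000000000) (nat_lit 12)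
theorem c108968 : QOK q108968 := cut [q82198, q93916, q5482, q11484, q80450, q108893, q11856, q82211, q82212, q108939, q81736, q15375, q88842, q101138] ⟨c82198, c93916, c5482, c11484, c80450, c108893, c11856, c82211, c82212, c108939, c81736, c15375, c88842, c101138, trivial⟩ (nd (nat_lit 229) (nat_lit 0) (cs (rf (nat_lit 0)) (cs (nd (nat_lit 254) (nat_lit 0) (cs (lf (nat_lit 23) (nat_lit 228)) (nd (nat_lit 232) (nat_lit 0) (cs (lf (nat_lit 17) (nat_lit 229)) (nd (nat_lit 188) (nat_lit 0) (cs (lf (nat_lit 37) (nat_lit 187)) (rf (nat_lit 1)))))))) (cs (nd (nat_lit 207) (nat_lit 0) (cs (rf (nat_lit 2)) (cs (rf (nat_lit 3)) (cs (rf (nat_lit 4)) (cs (rf (nat_lit 5)) (nd (nat_lit 273) (nat_lit 0) (cs (rf (nat_lit 6)) (cs (rf (nat_lit 7)) (nd (nat_lit 184) (nat_lit 0) (cs (lf (nat_lit 46) (nat_lit 184)) (nd (nat_lit 274) (nat_lit 0) (cs (lf (nat_lit 29) (nat_lit 207)) (nd (nat_lit 208) (nat_lit 0) (cs (lf (nat_lit 35) (nat_lit 185)) (nd (nat_lit 230) (nat_lit 0) (cs (lf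 (nat_lit 41) (nat_lit 207)) (nd (nat_lit 227) (nat_lit 0) (cs (lf (nat_lit 1) (nat_lit 227)) (rf (nat_lit 8)))))))))))))))))))) (nd (nat_lit 230) (nat_lit 0) (cs (nd (nat_lit 254) (nat_lit 0) (cs (lf (nat_lit 18) (nat_lit 229)) (nd (nat_lit 232) (nat_lit 0) (cs (lf (nat_lit 17) (nat_lit 229)) (nd (nat_lit 188) (nat_lit 0) (cs (lf (nat_lit 37) (nat_lit 187)) (nd (nat_lit 273) (nat_lit 0) (cs (lf (nat_lit 11) (nat_lit 250)) (rf (nat_lit 9)))))))))) (cs (nd (nat_lit 186) (nat_lit 0) (cs (lf (nat_lit 25) (nat_lit 186)) (nd (nat_lit 254) (nat_lit 0) (cs (lf (nat_lit 18) (nat_lit 229)) (nd (nat_lit 232) (nat_lit 0) (cs (lf (nat_lit 17) (nat_lit 229)) (nd (nat_lit 210) (nat_lit 0) (cs (lf (nat_lit 36) (nat_lit 187)) (rf (nat_lit 10)))))))))) (cs (nd (nat_lit 207) (nat_lit 0) (cs (rf (nat_lit 4)) (cs (rf (nat_lit 5)) (nd (nat_lit 208) (nat_lit 0) (cs (lf (nat_lit 24) (nat_lit 186)) (nd (nat_lit 274) (nat_lit 0) (cs (lf (nat_lit 42) (nat_lit 207)) (nd (nat_lit 187) (nat_lit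 0) (cs (lf (nat_lit 34) (nat_lit 186)) (nd (nat_lit 273) (nat_lit 0) (cs (lf (nat_lit 41) (nat_lit 207)) (rf (nat_lit 11))))))))))))) (cs (nd (nat_lit 186) (nat_lit 0) (cs (lf (nat_lit 25) (nat_lit 186)) (nd (nat_lit 254) (nat_lit 0) (cs (lf (nat_lit 18) (nat_lit 229)) (nd (nat_lit 232) (nat_lit 0) (cs (lf (nat_lit 17) (nat_lit 229)) (nd (nat_lit 272) (nat_lit 0) (cs (lf (nat_lit 10) (nat_lit 250)) (nd (nat_lit 210) (nat_lit 0) (cs (lf (nat_lit 36) (nat_lit 187)) (nd (nat_lit 231) (nat_lit 0) (cs (lf (nat_lit 17) (nat_lit 207)) (rf (nat_lit 12)))))))))))))) (nd (nat_lit 186) (nat_lit 0) (cs (lf (nat_lit 25) (nat_lit 186)) (nd (nat_lit 254) (nat_lit 0) (cs (lf (nat_lit 18) (nat_lit 229)) (nd (nat_lit 232) (nat_lit 0) (cs (lf (nat_lit 17) (nat_lit 229)) (nd (nat_lit 188) (nat_lit 0) (cs (lf (nat_lit 37) (nat_lit 187)) (nd (nat_lit 273) (nat_lit 0) (cs (lf (nat_lit 11) (nat_lit 250)) (nd (nat_lit 295) (nat_lit 0) (cs (lf (nat_lit 30) (nat_lit 229)) (nd (nat_lit 296)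 (nat_lit 0) (cs (lf (nat_lit 29) (nat_lit 229)) (nd (nat_lit 294) (nat_lit 0) (cs (lf (nat_lit 41) (nat_lit 228)) (rf (nat_lit 13))))))))))))))))))))))))))) q108968 (by decide +kernel)
def q109002 : Q := Q.p (nat_lit 0x800002000008000000000000000000000000000000000000000000000000000000000) (nat_lit 0xc000030000170001c0000100000700001c0000700001000000000000000000000000000000000000) (nat_lit 10)
theorem c109002 : QOK q109002 := cut [q96737, q96741, q108989, q109001] ⟨c96737, c96741, c108989, c109001, trivial⟩ (nd (nat_lit 209) (nat_lit 0) (cs (rf (nat_lit 0)) (cs (rf (nat_lit 1)) (cs (rf (nat_lit 2)) (rf (nat_lit 3)))))) q109002 (by decide +kernel)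
def q109006 : Q := Q.p (nat_lit 0x800002000008000000000000000000000000000000000000000000000000000000000) (nat_lit 0x6000010000040000060001f00001c0000500000000000000000000000000000000000000000) (nat_lit 7)
theorem c109006 : QOK q109006 := cut [q94775, q98317, q108989, q109005] ⟨c94775, c98317, c108989, c109005, trivial⟩ (nd (nat_lit 209) (nat_lit 0) (cs (rf (nat_lit 0)) (cs (rf (nat_lit 1)) (cs (rf (nat_lit 2)) (rf (nat_lit 3)))))) q109006 (by decide +kernel)
def q109008 : Q := Q.p (nat_lit 0x200000800002000000000000000000000000000000000000000000000000000000000000000) (nat_lit 0x140003fe0007f0001de0003000005c00014000000000000000000000000000000000000000000000000000000000) (nat_lit 11)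
theorem c109008 : QOK q109008 := cut [q2579, q99243, q108327] ⟨c2579, c99243, c108327, trivial⟩ (nd (nat_lit 319) (nat_lit 0) (cs (rf (nat_lit 0)) (cs (rf (nat_lit 1)) (rf (nat_lit 2))))) q109008 (by decide +kernel)
def q109023 : Q := Q.p (nat_lit 0x200000800002000000000000000000000000000000000000000000000000000000000000000) (nat_lit 0x140001d0000700001df0007f8001ff000140000000000000000000000000000000000000000000000) (nat_lit 15)
theorem c109023 : QOK q109023 := cut [q32034, q88936, q89353, q109022] ⟨c32034, c88936, c89353, c109022, trivial⟩ (nd (nat_lit 231) (nat_lit 0) (cs (rf (nat_lit 0)) (cs (rf (nat_lit 1)) (cs (rf (nat_lit 2)) (rf (nat_lit 3)))))) q109023 (by decide +kernel)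
def q109050 : Q := Q.p (nat_lit 0x200000800002000000000000000000000000000000000000000000000000000000000000000) (nat_lit 0x14000050000240007de000ff0003fe000540001000000000000000000000000000000000000000000) (nat_lit 12)
theorem c109050 : QOK q109050 := cut [q79736, q81211, q89353, q109033, q109038, q109045, q97095] ⟨c79736, c81211, c89353, c109033, c109038, c109045, c97095, trivial⟩ (nd (nat_lit 231) (nat_lit 0) (cs (rf (nat_lit 0)) (cs (rf (nat_lit 1)) (cs (rf (nat_lit 2)) (nd (nat_lit 232) (nat_lit 0) (cs (lf (nat_lit 35) (nat_lit 209)) (nd (nat_lit 233) (nat_lit 0) (cs (rf (nat_lit 3)) (cs (nd (nat_lit 230) (nat_lit 0) (cs (lf (nat_lit 47) (nat_lit 208)) (nd (nat_lit 296) (nat_lit 0) (cs (lf (nat_lit 41) (nat_lit 230)) (rf (nat_lit 4)))))) (cs (rf (nat_lit 5)) (nd (nat_lit 234) (nat_lit 0) (cs (lf (nat_lit 11) (nat_lit 230)) (nd (nat_lit 208) (nat_lit 0) (cs (lf (nat_lit 46) (nat_lit 208)) (rf (nat_lit 6)))))))))))))))) q109050 (by decide +kernel)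
def q109146 : Q := Q.p (nat_lit 0x800006000000000000000000000000000000000000000000000000000000000000000) (nat_lit 0x80000a000066000798001ff000050000140000100000000000000000000000000000000000000000) (nat_lit 11)
theorem c109146 : QOK q109146 := cut [q86390, q98248, q105778, q109131, q80765, q97957, q85129, q80542, q81880] ⟨c86390, c98248, c105778, c109131, c80765, c97957, c85129, c80542, c81880, trivial⟩ (nd (nat_lit 255) (nat_lit 0) (cs (nd (nat_lit 252) (nat_lit 0) (cs (rf (nat_lit 0)) (cs (rf (nat_lit 1)) (rf (nat_lit 2))))) (cs (nd (nat_lit 230) (nat_lit 0) (cs (nd (nat_lit 252) (nat_lit 0) (cs (lf (nat_lit 23) (nat_lit 229)) (rf (nat_lit 3)))) (cs (nd (nat_lit 231) (nat_lit 0) (cs (lf (nat_lit 18) (nat_lit 230)) (rf (nat_lit 4)))) (nd (nat_lit 231) (nat_lit 0) (cs (lf (nat_lit 18) (nat_lit 230)) (rf (nat_lit 5))))))) (cs (nd (nat_lit 256) (nat_lit 0) (cs (lf (nat_lit 11) (nat_lit 252)) (nd (nat_lit 235) (nat_lit 0) (cs (lf (nat_lit 16) (nat_lit 231)) (nd (nat_lit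 257) (nat_lit 0) (cs (lf (nat_lit 17) (nat_lit 232)) (nd (nat_lit 232) (nat_lit 0) (cs (lf (nat_lit 23) (nat_lit 231)) (nd (nat_lit 297) (nat_lit 0) (cs (lf (nat_lit 30) (nat_lit 231)) (nd (nat_lit 233) (nat_lit 0) (cs (lf (nat_lit 18) (nat_lit 232)) (nd (nat_lit 252) (nat_lit 0) (cs (lf (nat_lit 12) (nat_lit 229)) (nd (nat_lit 210) (nat_lit 0) (cs (lf (nat_lit 36) (nat_lit 187)) (rf (nat_lit 6)))))))))))))))))) (cs (nd (nat_lit 256) (nat_lit 0) (cs (lf (nat_lit 11) (nat_lit 252)) (rf (nat_lit 7)))) (nd (nat_lit 256) (nat_lit 0) (cs (lf (nat_lit 11) (nat_lit 252)) (rf (nat_lit 8))))))))) q109146 (by decide +kernel)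
def q109184 : Q := Q.p (nat_lit 0x800006000000000000000000000000000000000000000000000000000000000000000) (nat_lit 0x14000070000ff0003f80005700031c000ff0001dc000300000800000000000000000000000000000000000000000) (nat_lit 18)
theorem c109184 : QOK q109184 := cut [q81192, q109024, q79198, q86322, q22528, q109170, q109161, q109167, q109179] ⟨c81192, c109024, c79198, c86322, c22528, c109170, c109161, c109167, c109179, trivial⟩ (nd (nat_lit 297) (nat_lit 0) (cs (rf (nat_lit 0)) (cs (rf (nat_lit 1)) (nd (nat_lit 232) (nat_lit 0) (cs (rf (nat_lit 2)) (cs (rf (nat_lit 3)) (nd (nat_lit 298) (nat_lit 0) (cs (nd (nat_lit 231) (nat_lit 0) (cs (lf (nat_lit 29) (nat_lit 231)) (nd (nat_lit 296) (nat_lit 0) (cs (lf (nat_lit 41) (nat_lit 230)) (nd (nat_lit 230) (nat_lit 0) (cs (lf (nat_lit 47) (nat_lit 208)) (nd (nat_lit 229) (nat_lit 0) (cs (lf (nat_lit 0) (nat_lit 228)) (nd (nat_lit 206) (nat_lit 0) (cs (lf (nat_lit 22) (nat_lit 206)) (nd (nat_lit 251) (nat_lit 0) (cs (lf (nat_lit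 11) (nat_lit 228)) (nd (nat_lit 233) (nat_lit 0) (cs (lf (nat_lit 10) (nat_lit 229)) (nd (nat_lit 211) (nat_lit 0) (cs (lf (nat_lit 17) (nat_lit 208)) (nd (nat_lit 167) (nat_lit 0) (cs (lf (nat_lit 37) (nat_lit 166)) (nd (nat_lit 234) (nat_lit 0) (cs (lf (nat_lit 6) (nat_lit 231)) (nd (nat_lit 256) (nat_lit 0) (cs (lf (nat_lit 5) (nat_lit 231)) (nd (nat_lit 300) (nat_lit 0) (cs (nd (nat_lit 299) (nat_lit 0) (cs (lf (nat_lit 23) (nat_lit 274)) (rf (nat_lit 4)))) (lf (nat_lit 43) (nat_lit 211)))))))))))))))))))))))))) (cs (rf (nat_lit 5)) (cs (nd (nat_lit 299) (nat_lit 0) (cs (rf (nat_lit 6)) (cs (rf (nat_lit 7)) (nd (nat_lit 321) (nat_lit 0) (cs (lf (nat_lit 26) (nat_lit 232)) (nd (nat_lit 296) (nat_lit 0) (cs (lf (nat_lit 5) (nat_lit 296)) (nd (nat_lit 317) (nat_lit 0) (cs (lf (nat_lit 10) (nat_lit 295)) (nd (nat_lit 295) (nat_lit 0) (cs (lf (nat_lit 4) (nat_lit 295)) (lf (nat_lit 11) (nat_lit 294))))))))))))) (nd (nat_lit 231) (nat_lit 0) (cs (lf (nat_lit 29) (nat_lit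 231)) (nd (nat_lit 230) (nat_lit 0) (cs (lf (nat_lit 47) (nat_lit 208)) (rf (nat_lit 8)))))))))))))))) q109184 (by decide +kernel)
def q109197 : Q := Q.p (nat_lit 0x800006000000000000000000000000000000000000000000000000000000000000000) (nat_lit 0x140000700003c0000f80007300009c000ff0001d0000740001800000000000000000000000000000000000000000) (nat_lit 12)
theorem c109197 : QOK q109197 := cut [q81192, q109024, q79198, q86322, q79118, q81677, q79116, q80981, q88337, q81678, q98377] ⟨c81192, c109024, c79198, c86322, c79118, c81677, c79116, c80981, c88337, c81678, c98377, trivial⟩ (nd (nat_lit 297) (nat_lit 0) (cs (rf (nat_lit 0)) (cs (rf (nat_lit 1)) (nd (nat_lit 232) (nat_lit 0) (cs (rf (nat_lit 2)) (cs (rf (nat_lit 3)) (nd (nat_lit 252) (nat_lit 0) (cs (rf (nat_lit 4)) (cs (rf (nat_lit 5)) (cs (nd (nat_lit 233) (nat_lit 0) (cs (rf (nat_lit 6)) (cs (rf (nat_lit 7)) (nd (nat_lit 255) (nat_lit 0) (cs (nd (nat_lit 277) (nat_lit 0) (cs (lf (nat_lit 5) (nat_lit 252)) (nd (nat_lit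 299) (nat_lit 0) (cs (lf (nat_lit 42) (nat_lit 232)) (nd (nat_lit 298) (nat_lit 0) (cs (lf (nat_lit 41) (nat_lit 232)) (nd (nat_lit 211) (nat_lit 0) (cs (lf (nat_lit 31) (nat_lit 210)) (nd (nat_lit 190) (nat_lit 0) (cs (lf (nat_lit 34) (nat_lit 189)) (nd (nat_lit 189) (nat_lit 0) (cs (lf (nat_lit 35) (nat_lit 167)) (lf (nat_lit 36) (nat_lit 166)))))))))))))) (nd (nat_lit 230) (nat_lit 0) (cs (lf (nat_lit 23) (nat_lit 229)) (rf (nat_lit 8))))))))) (nd (nat_lit 251) (nat_lit 0) (cs (rf (nat_lit 9)) (rf (nat_lit 10)))))))))))))) q109197 (by decide +kernel)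
def q109248 : Q := Q.p (nat_lit 0x800006000000000000000000000000000000000000000000000000000000000000000) (nat_lit 0x140000f0000fc0003f800017000398000ff0000d0000100000000000000000000000000000000000000000000000) (nat_lit 11)
theorem c109248 : QOK q109248 := cut [q81192, q109024, q90750, q99972, q109092, q109236, q99970, q79198, q86322, q109170, q80735] ⟨c81192, c109024, c90750, c99972, c109092, c109236, c99970, c79198, c86322, c109170, c80735, trivial⟩ (nd (nat_lit 297) (nat_lit 0) (cs (rf (nat_lit 0)) (cs (rf (nat_lit 1)) (nd (nat_lit 298) (nat_lit 0) (cs (rf (nat_lit 2)) (cs (nd (nat_lit 276) (nat_lit 0) (cs (rf (nat_lit 3)) (cs (rf (nat_lit 4)) (cs (nd (nat_lit 320) (nat_lit 0) (cs (lf (nat_lit 42) (nat_lit 253)) (nd (nat_lit 210) (nat_lit 0) (cs (lf (nat_lit 37) (nat_lit 209)) (rf (nat_lit 5)))))) (nd (nat_lit 210) (nat_lit 0) (cs (lf (nat_lit 37) (nat_lit 209)) (nd (nat_lit 320) (nat_lit 0) (cs (lf (nat_lit 42) (nat_lit 253)) (rf (nat_lit 6)))))))))) (cs (nd (nat_lit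 232) (nat_lit 0) (cs (rf (nat_lit 7)) (cs (rf (nat_lit 8)) (rf (nat_lit 9))))) (nd (nat_lit 231) (nat_lit 0) (cs (lf (nat_lit 29) (nat_lit 231)) (nd (nat_lit 296) (nat_lit 0) (cs (lf (nat_lit 41) (nat_lit 230)) (nd (nat_lit 210) (nat_lit 0) (cs (lf (nat_lit 34) (nat_lit 209)) (nd (nat_lit 230) (nat_lit 0) (cs (lf (nat_lit 47) (nat_lit 208)) (rf (nat_lit 10))))))))))))))))) q109248 (by decide +kernel)
def q109273 : Q := Q.p (nat_lit 0x800002000018000000000000000000000000000000000000000000000000000000000) (nat_lit 0x20000000007de000e700031e000040000100000000000000000000000000000000000000000) (nat_lit 8)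
theorem c109273 : QOK q109273 := cut [q97957, q109271, q109272] ⟨c97957, c109271, c109272, trivial⟩ (nd (nat_lit 230) (nat_lit 0) (cs (rf (nat_lit 0)) (cs (rf (nat_lit 1)) (rf (nat_lit 2))))) q109273 (by decide +kernel)
def q109279 : Q := Q.p (nat_lit 0x1800002000018000000000000000000000000000000000000000000000000000000000) (nat_lit 0x300003c000060000058000e00000c0000300000000000000000000000000000000000000000000000) (nat_lit 7)
theorem c109279 : QOK q109279 := cut [q104749, q107538, q109276, q109278] ⟨c104749, c107538, c109276, c109278, trivial⟩ (nd (nat_lit 254) (nat_lit 0) (cs (rf (nat_lit 0)) (cs (rf (nat_lit 1)) (cs (rf (nat_lit 2)) (rf (nat_lit 3)))))) q109279 (by decide +kernel)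
def q109280 : Q := Q.p (nat_lit 0x1800002000018000000000000000000000000000000000000000000000000000000000) (nat_lit 0x140000780006000000000004000050000000000000000000000000000000000000000000000000000) (nat_lit 6)
theorem c109280 : QOK q109280 := cut [q100457] ⟨c100457, trivial⟩ (nd (nat_lit 297) (nat_lit 0) (cs (lf (nat_lit 35) (nat_lit 209)) (rf (nat_lit 0)))) q109280 (by decide +kernel)
def q109373 : Q := Q.p (nat_lit 0x1800006000008000000000000000000000000000000000000000000000000000000000) (nat_lit 0x300003e000000000010000f00000c0000100000000000000000000000000000000000000000000000) (nat_lit 7)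
theorem c109373 : QOK q109373 := cut [q81878, q109276] ⟨c81878, c109276, trivial⟩ (nd (nat_lit 232) (nat_lit 0) (cs (rf (nat_lit 0)) (rf (nat_lit 1)))) q109373 (by decide +kernel)
def q109446 : Q := Q.p (nat_lit 0x1800003800008000000000000000000000000000000000000000000000000000000000) (nat_lit 0x120000cc000070003c000007000010000040000000000000000000000000000000000000000000000) (nat_lit 8)
theorem c109446 : QOK q109446 := cut [q98377, q102914, q109439] ⟨c98377, c102914, c109439, trivial⟩ (nd (nat_lit 254) (nat_lit 0) (cs (rf (nat_lit 0)) (cs (rf (nat_lit 1)) (cs (nd (nat_lit 273) (nat_lit 0) (cs (lf (nat_lit 11) (nat_lit 250)) (nd (nat_lit 228) (nat_lit 0) (cs (lf (nat_lit 22) (nat_lit 228)) (nd (nat_lit 298) (nat_lit 0) (cs (lf (nat_lit 42) (nat_lit 231)) (rf (nat_lit 2)))))))) (nd (nat_lit 298) (nat_lit 0) (cs (lf (nat_lit 42) (nat_lit 231)) (nd (nat_lit 273) (nat_lit 0) (cs (lf (nat_lit 11) (nat_lit 250)) (nd (nat_lit 274) (nat_lit 0) (cs (lf (nat_lit 5) (nat_lit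 273)) (lf (nat_lit 6) (nat_lit 251)))))))))))) q109446 (by decide +kernel)
def q109454 : Q := Q.p (nat_lit 0xc00002000008000000000000000000000000000000000000000000000000000000000) (nat_lit 0x40000700001c00006000000000010000100000700001c0000500000000000000000000000000000000000000000) (nat_lit 8)
theorem c109454 : QOK q109454 := cut [q96324, q108989, q109452] ⟨c96324, c108989, c109452, trivial⟩ (nd (nat_lit 209) (nat_lit 0) (cs (rf (nat_lit 0)) (cs (rf (nat_lit 1)) (nd (nat_lit 210) (nat_lit 0) (cs (lf (nat_lit 35) (nat_lit 187)) (rf (nat_lit 2))))))) q109454 (by decide +kernel)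
def q109517 : Q := Q.p (nat_lit 0xc00002000000000000000000000000000000000000000000000000000000000000000) (nat_lit 0x50000140003ff0007380039f0002a0000a8000000000000000000000000000000000000000000000000000) (nat_lit 10)
theorem c109517 : QOK q109517 := cut [q15829, q15996, q98987, q15625, q109503, q14626, q109285, q12991, q23267] ⟨c15829, c15996, c98987, c15625, c109503, c14626, c109285, c12991, c23267, trivial⟩ (nd (nat_lit 296) (nat_lit 0) (cs (rf (nat_lit 0)) (cs (rf (nat_lit 1)) (cs (nd (nat_lit 276) (nat_lit 0) (cs (nd (nat_lit 273) (nat_lit 0) (cs (rf (nat_lit 2)) (cs (nd (nat_lit 298) (nat_lit 0) (cs (lf (nat_lit 5) (nat_lit 273)) (nd (nat_lit 320) (nat_lit 0) (cs (lf (nat_lit 42) (nat_lit 253)) (nd (nat_lit 231) (nat_lit 0) (cs (lf (nat_lit 36) (nat_lit 208)) (lf (nat_lit 27) (nat_lit 231)))))))) (nd (nat_lit 209) (nat_lit 0) (cs (lf (nat_lit 37) (nat_lit 208)) (rf (nat_lit 3))))))) (cs (rf (nat_lit 4)) (nd (nat_lit 209) (nat_lit 0) (cs (lf (nat_lit 37) (nat_lit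 208)) (rf (nat_lit 5))))))) (nd (nat_lit 276) (nat_lit 0) (cs (rf (nat_lit 5)) (cs (rf (nat_lit 6)) (cs (rf (nat_lit 4)) (nd (nat_lit 273) (nat_lit 0) (cs (rf (nat_lit 7)) (cs (rf (nat_lit 3)) (cs (nd (nat_lit 318) (nat_lit 0) (cs (lf (nat_lit 30) (nat_lit 252)) (nd (nat_lit 294) (nat_lit 0) (cs (lf (nat_lit 10) (nat_lit 272)) (nd (nat_lit 298) (nat_lit 0) (cs (lf (nat_lit 5) (nat_lit 273)) (nd (nat_lit 320) (nat_lit 0) (cs (lf (nat_lit 42) (nat_lit 253)) (nd (nat_lit 251) (nat_lit 0) (cs (lf (nat_lit 23) (nat_lit 250)) (rf (nat_lit 8)))))))))))) (nd (nat_lit 250) (nat_lit 0) (cs (lf (nat_lit 22) (nat_lit 250)) (nd (nat_lit 318) (nat_lit 0) (cs (lf (nat_lit 30) (nat_lit 252)) (nd (nat_lit 298) (nat_lit 0) (cs (lf (nat_lit 5) (nat_lit 273)) (nd (nat_lit 272) (nat_lit 0) (cs (lf (nat_lit 23) (nat_lit 249)) (lf (nat_lit 4) (nat_lit 272)))))))))))))))))))))) q109517 (by decide +kernel)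
def q109527 : Q := Q.p (nat_lit 0x300000800002000000000000000000000000000000000000000000000000000000000000000) (nat_lit 0x10000040000f38001cc000778000000000c000030000040000000000000000000000000000000000000000000000) (nat_lit 7)
theorem c109527 : QOK q109527 := cut [q90750, q109525, q109526] ⟨c90750, c109525, c109526, trivial⟩ (nd (nat_lit 298) (nat_lit 0) (cs (rf (nat_lit 0)) (cs (rf (nat_lit 1)) (rf (nat_lit 2))))) q109527 (by decide +kernel)
def q109583 : Q := Q.p (nat_lit 0x200000800002000000000000000000000000000000000000000000000000000000000000000) (nat_lit 0x400001c0000700000c000050000140000500000c0000700001c0000400000000000000000000000000000000000000000) (nat_lit 8)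
theorem c109583 : QOK q109583 := cut [q109576, q109582] ⟨c109576, c109582, trivial⟩ (nd (nat_lit 230) (nat_lit 0) (cs (nd (nat_lit 208) (nat_lit 0) (cs (lf (nat_lit 45) (nat_lit 208)) (nd (nat_lit 252) (nat_lit 0) (cs (lf (nat_lit 42) (nat_lit 230)) (lf (nat_lit 24) (nat_lit 186)))))) (cs (nd (nat_lit 231) (nat_lit 0) (cs (lf (nat_lit 47) (nat_lit 208)) (rf (nat_lit 0)))) (rf (nat_lit 1))))) q109583 (by decide +kernel)
def q109592 : Q := Q.p (nat_lit 0x200000a00003800000000000000000000000000000000000000000000000000000000000000) (nat_lit 0x44000130000ce0003580000000006000018000000000000000000000000000000000000000000000000000) (nat_lit 7)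
theorem c109592 : QOK q109592 := cut [q14470, q14907, q89807] ⟨c14470, c14907, c89807, trivial⟩ (nd (nat_lit 274) (nat_lit 0) (cs (rf (nat_lit 0)) (cs (rf (nat_lit 1)) (rf (nat_lit 2))))) q109592 (by decide +kernel)
def q109609 : Q := Q.p (nat_lit 0x200001800003000000000000000000000000000000000000000000000000000000000000000) (nat_lit 0x340001f80007f8001de00005c0004e00003c00000000000000000000000000000000000000000000000000000000) (nat_lit 13)
theorem c109609 : QOK q109609 := cut [q1999, q2066, q2579, q99799, q14913, q109603, q109606] ⟨c1999, c2066, c2579, c99799, c14913, c109603, c109606, trivial⟩ (nd (nat_lit 251) (nat_lit 0) (cs (rf (nat_lit 0)) (cs (rf (nat_lit 1)) (nd (nat_lit 319) (nat_lit 0) (cs (rf (nat_lit 2)) (cs (rf (nat_lit 3)) (nd (nat_lit 296) (nat_lit 0) (cs (rf (nat_lit 4)) (cs (rf (nat_lit 5)) (rf (nat_lit 6))))))))))) q109609 (by decide +kernel)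
def q109622 : Q := Q.p (nat_lit 0x200000800002000000000000000000000000000000000000000000000000000000000000000) (nat_lit 0xc0000300001f0001d0000140000500000c0000700001c0000500000000000000000000000000000000000000000) (nat_lit 11)
theorem c109622 : QOK q109622 := cut [q99280, q99765, q100513] ⟨c99280, c99765, c100513, trivial⟩ (nd (nat_lit 319) (nat_lit 0) (cs (rf (nat_lit 0)) (cs (rf (nat_lit 1)) (nd (nat_lit 230) (nat_lit 0) (cs (lf (nat_lit 46) (nat_lit 230)) (nd (nat_lit 231) (nat_lit 0) (cs (lf (nat_lit 47) (nat_lit 208)) (nd (nat_lit 298) (nat_lit 0) (cs (lf (nat_lit 29) (nat_lit 231)) (nd (nat_lit 276) (nat_lit 0) (cs (lf (nat_lit 24) (nat_lit 209)) (rf (nat_lit 2))))))))))))) q109622 (by decide +kernel)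
def q109632 : Q := Q.p (nat_lit 0x80000380000c000000000000000000000000000000000000000000000000000000000) (nat_lit 0x19000064000078000060000380006e0000a0000200000000000000000000000000000000000000000) (nat_lit 8)
theorem c109632 : QOK q109632 := cut [q87919, q82179] ⟨c87919, c82179, trivial⟩ (nd (nat_lit 229) (nat_lit 0) (cs (rf (nat_lit 0)) (nd (nat_lit 228) (nat_lit 0) (cs (lf (nat_lit 0) (nat_lit 227)) (nd (nat_lit 297) (nat_lit 0) (cs (lf (nat_lit 42) (nat_lit 230)) (nd (nat_lit 205) (nat_lit 0) (cs (lf (nat_lit 22) (nat_lit 205)) (nd (nat_lit 298) (nat_lit 0) (cs (lf (nat_lit 29) (nat_lit 231)) (rf (nat_lit 1)))))))))))) q109632 (by decide +kernel)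
def q109654 : Q := Q.p (nat_lit 0x800003000000000000000000000000000000000000000000000000000000000000000) (nat_lit 0x2800037c001ce00077c00050000140000000000000000000000000000000000000000000000) (nat_lit 9)
theorem c109654 : QOK q109654 := cut [q1999, q2066, q2091, q108772, q79020, q98377, q89738] ⟨c1999, c2066, c2091, c108772, c79020, c98377, c89738, trivial⟩ (nd (nat_lit 251) (nat_lit 0) (cs (rf (nat_lit 0)) (cs (rf (nat_lit 1)) (cs (rf (nat_lit 2)) (cs (rf (nat_lit 3)) (nd (nat_lit 254) (nat_lit 0) (cs (rf (nat_lit 4)) (cs (rf (nat_lit 5)) (nd (nat_lit 228) (nat_lit 0) (cs (lf (nat_lit 22) (nat_lit 228)) (rf (nat_lit 6)))))))))))) q109654 (by decide +kernel)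
def q109663 : Q := Q.p (nat_lit 0x800003000000000000000000000000000000000000000000000000000000000000000) (nat_lit 0xa0000a800067c001ce000ffc00050000140000000000000000000000000000000000000000000000) (nat_lit 9)
theorem c109663 : QOK q109663 := cut [q79078, q79112, q81409, q106785, q108923, q81677, q86322, q79028, q81355, q109131, q81733, q92604] ⟨c79078, c79112, c81409, c106785, c108923, c81677, c86322, c79028, c81355, c109131, c81733, c92604, trivial⟩ (nd (nat_lit 230) (nat_lit 0) (cs (rf (nat_lit 0)) (cs (rf (nat_lit 1)) (cs (nd (nat_lit 254) (nat_lit 0) (cs (rf (nat_lit 2)) (cs (nd (nat_lit 251) (nat_lit 0) (cs (rf (nat_lit 3)) (rf (nat_lit 4)))) (cs (nd (nat_lit 232) (nat_lit 0) (cs (rf (nat_lit 5)) (nd (nat_lit 297) (nat_lit 0) (cs (lf (nat_lit 42) (nat_lit 230)) (rf (nat_lit 6)))))) (nd (nat_lit 297) (nat_lit 0) (cs (lf (nat_lit 42) (nat_lit 230)) (rf (nat_lit 7)))))))) (nd (nat_lit 254) (nat_lit 0) (cs (rf (nat_lit 7)) (cs (rf (nat_lit 2)) (cs (nd (nat_lit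 255) (nat_lit 0) (cs (rf (nat_lit 8)) (rf (nat_lit 9)))) (nd (nat_lit 251) (nat_lit 0) (cs (rf (nat_lit 10)) (rf (nat_lit 11)))))))))))) q109663 (by decide +kernel)
def q109668 : Q := Q.p (nat_lit 0x800003000000000000000000000000000000000000000000000000000000000000000) (nat_lit 0x120000cc00077c003ce0000fc00030000040000000000000000000000000000000000000000000000) (nat_lit 9)
theorem c109668 : QOK q109668 := cut [q1999, q2066, q2091, q108923, q98377, q108825, q108864, q88741, q94411, q109439] ⟨c1999, c2066, c2091, c108923, c98377, c108825, c108864, c88741, c94411, c109439, trivial⟩ (nd (nat_lit 251) (nat_lit 0) (cs (rf (nat_lit 0)) (cs (rf (nat_lit 1)) (cs (rf (nat_lit 2)) (cs (rf (nat_lit 3)) (nd (nat_lit 254) (nat_lit 0) (cs (rf (nat_lit 4)) (cs (rf (nat_lit 5)) (cs (rf (nat_lit 6)) (nd (nat_lit 276) (nat_lit 0) (cs (rf (nat_lit 7)) (nd (nat_lit 298) (nat_lit 0) (cs (rf (nat_lit 8)) (nd (nat_lit 273) (nat_lit 0) (cs (lf (nat_lit 11) (nat_lit 250)) (rf (nat_lit 9)))))))))))))))))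 q109668 (by decide +kernel)
def q109672 : Q := Q.p (nat_lit 0x800003000000000000000000000000000000000000000000000000000000000000000) (nat_lit 0x800002800017c003ce0007fc00050000140000000000000000000000000000000000000000000000) (nat_lit 9)
theorem c109672 : QOK q109672 := cut [q1999, q2066, q2091, q108693, q79020, q94688, q98377, q92618] ⟨c1999, c2066, c2091, c108693, c79020, c94688, c98377, c92618, trivial⟩ (nd (nat_lit 251) (nat_lit 0) (cs (rf (nat_lit 0)) (cs (rf (nat_lit 1)) (cs (rf (nat_lit 2)) (cs (rf (nat_lit 3)) (nd (nat_lit 254) (nat_lit 0) (cs (rf (nat_lit 4)) (cs (rf (nat_lit 5)) (cs (rf (nat_lit 6)) (nd (nat_lit 228) (nat_lit 0) (cs (lf (nat_lit 22) (nat_lit 228)) (nd (nat_lit 272) (nat_lit 0) (cs (lf (nat_lit 10) (nat_lit 250)) (rf (nat_lit 7))))))))))))))) q109672 (by decide +kernel)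
def q109688 : Q := Q.p (nat_lit 0xc00002000008000000000000000000000000000000000000000000000000000000000) (nat_lit 0x40000700001c0000600001000005000010000060000180000400000000000000000000000000000000000000000) (nat_lit 7)
theorem c109688 : QOK q109688 := cut [q97671, q109452, q96313] ⟨c97671, c109452, c96313, trivial⟩ (nd (nat_lit 210) (nat_lit 0) (cs (rf (nat_lit 0)) (cs (rf (nat_lit 1)) (nd (nat_lit 209) (nat_lit 0) (cs (lf (nat_lit 35) (nat_lit 187)) (rf (nat_lit 2))))))) q109688 (by decide +kernel)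
def q109694 : Q := Q.p (nat_lit 0x200000800002000008000000000000000000000000000000000000000000000000000000000) (nat_lit 0x10000060000180000000001000005000014000010000000000000000000000000000000000000000000000000000) (nat_lit 6)
theorem c109694 : QOK q109694 := cut [q109693] ⟨c109693, trivial⟩ (nd (nat_lit 230) (nat_lit 0) (cs (lf (nat_lit 47) (nat_lit 208)) (rf (nat_lit 0)))) q109694 (by decide +kernel)
def q109708 : Q := Q.p (nat_lit 0x80000600000c000000000000000000000000000000000000000000000000000000000) (nat_lit 0x380001e000076000198000700001a0000280000a00000000000000000000000000000000000000000) (nat_lit 12)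
theorem c109708 : QOK q109708 := cut [q90300, q101314, q107817] ⟨c90300, c101314, c107817, trivial⟩ (nd (nat_lit 252) (nat_lit 0) (cs (rf (nat_lit 0)) (cs (rf (nat_lit 1)) (rf (nat_lit 2))))) q109708 (by decide +kernel)
def q109763 : Q := Q.p (nat_lit 0x20000080000600000e000000000000000000000000000000000000000000000000000000000) (nat_lit 0x80000760001de000778000100001000000f000000000000000000000000000000000000000000000000000) (nat_lit 11)
theorem c109763 : QOK q109763 := cut [q91959, q107845, q107848] ⟨c91959, c107845, c107848, trivial⟩ (nd (nat_lit 274) (nat_lit 0) (cs (rf (nat_lit 0)) (cs (rf (nat_lit 1)) (rf (nat_lit 2))))) q109763 (by decide +kernel)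
def q109789 : Q := Q.p (nat_lit 0x800002000008000000000000000000000000000000000000000000000000000000000) (nat_lit 0xc000030000000007df000f7e003df800140000500000000000000000000000000000000000000000) (nat_lit 9)
theorem c109789 : QOK q109789 := cut [q97957, q98121, q96758, q96836, q99593, q109761, q87016, q97958, q109272] ⟨c97957, c98121, c96758, c96836, c99593, c109761, c87016, c97958, c109272, trivial⟩ (nd (nat_lit 230) (nat_lit 0) (cs (rf (nat_lit 0)) (cs (rf (nat_lit 1)) (cs (nd (nat_lit 229) (nat_lit 0) (cs (rf (nat_lit 2)) (cs (rf (nat_lit 3)) (cs (rf (nat_lit 4)) (rf (nat_lit 5)))))) (nd (nat_lit 232) (nat_lit 0) (cs (rf (nat_lit 6)) (cs (rf (nat_lit 7)) (rf (nat_lit 8))))))))) q109789 (by decide +kernel)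
def q109829 : Q := Q.p (nat_lit 0xe00002800008000000000000000000000000000000000000000000000000000000000) (nat_lit 0x6000018000000001d60007780000c000030000000000000000000000000000000000000000000000) (nat_lit 6)
theorem c109829 : QOK q109829 := cut [q14769, q99631, q108367] ⟨c14769, c99631, c108367, trivial⟩ (nd (nat_lit 252) (nat_lit 0) (cs (rf (nat_lit 0)) (cs (rf (nat_lit 1)) (rf (nat_lit 2))))) q109829 (by decide +kernel)
def q109861 : Q := Q.p (nat_lit 0x200000800003000000000000000000000000000000000000000000000000000000000000000) (nat_lit 0x800000000037c003ce000f3c00040000100000000000000000000000000000000000000000000000) (nat_lit 8)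
theorem c109861 : QOK q109861 := cut [q81192, q109859, q2066, q2091, q108263, q108923] ⟨c81192, c109859, c2066, c2091, c108263, c108923, trivial⟩ (nd (nat_lit 254) (nat_lit 0) (cs (rf (nat_lit 0)) (cs (rf (nat_lit 1)) (nd (nat_lit 251) (nat_lit 0) (cs (rf (nat_lit 2)) (cs (rf (nat_lit 3)) (cs (nd (nat_lit 276) (nat_lit 0) (cs (lf (nat_lit 5) (nat_lit 251)) (rf (nat_lit 4)))) (rf (nat_lit 5))))))))) q109861 (by decide +kernel)
def q109914 : Q := Q.p (nat_lit 0x200000800002000000000000000000000000000000000000000000000000000000000000000) (nat_lit 0xc000030000efc003de00077c003dc000fa0001f80007c0000500000000000000000000000000000000000000000) (nat_lit 16)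
theorem c109914 : QOK q109914 := cut [q99694, q105048, q108302, q104758, q80981, q109880, q109885, q108306, q96326, q66783, q11666, q11728, q99736, q11665, q11727, q99722, q99724, q17013, q95562] ⟨c99694, c105048, c108302, c104758, c80981, c109880, c109885, c108306, c96326, c66783, c11666, c11728, c99736, c11665, c11727, c99722, c99724, c17013, c95562, trivial⟩ (nd (nat_lit 296) (nat_lit 0) (cs (rf (nat_lit 0)) (cs (nd (nat_lit 276) (nat_lit 0) (cs (rf (nat_lit 1)) (cs (rf (nat_lit 2)) (cs (nd (nat_lit 232) (nat_lit 0) (cs (nd (nat_lit 294) (nat_lit 0) (cs (lf (nat_lit 13) (nat_lit 272)) (nd (nat_lit 231) (nat_lit 0) (cs (lf (nat_lit 35) (nat_lit 209)) (nd (nat_lit 209) (nat_lit 0) (cs (lf (nat_lit 29) (nat_lit 209)) (lf (nat_lit 40) (nat_lit 208)))))))) (cs (nd (nat_lit 273) (nat_lit 0) (cs (nd (nat_lit 254) (nat_lit 0) (cs (lf (nat_lit 30) (nat_lit 231)) (rf (nat_lit 3)))) (cs (nd (nat_lit 254) (nat_lit 0) (cs (lf (nat_lit 30) (nat_lit 231)) (nd (nat_lit 295) (nat_lit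 0) (cs (lf (nat_lit 12) (nat_lit 272)) (nd (nat_lit 298) (nat_lit 0) (cs (lf (nat_lit 23) (nat_lit 272)) (nd (nat_lit 299) (nat_lit 0) (cs (lf (nat_lit 29) (nat_lit 232)) (nd (nat_lit 300) (nat_lit 0) (cs (lf (nat_lit 18) (nat_lit 275)) (nd (nat_lit 322) (nat_lit 0) (cs (lf (nat_lit 5) (nat_lit 297)) (nd (nat_lit 316) (nat_lit 0) (cs (lf (nat_lit 10) (nat_lit 294)) (nd (nat_lit 209) (nat_lit 0) (cs (lf (nat_lit 25) (nat_lit 209)) (nd (nat_lit 233) (nat_lit 0) (cs (lf (nat_lit 35) (nat_lit 210)) (nd (nat_lit 252) (nat_lit 0) (cs (lf (nat_lit 12) (nat_lit 229)) (rf (nat_lit 4)))))))))))))))))))))) (cs (nd (nat_lit 294) (nat_lit 0) (cs (lf (nat_lit 13) (nat_lit 272)) (nd (nat_lit 254) (nat_lit 0) (cs (lf (nat_lit 30) (nat_lit 231)) (nd (nat_lit 255) (nat_lit 0) (cs (lf (nat_lit 13) (nat_lit 251)) (rf (nat_lit 5)))))))) (nd (nat_lit 295) (nat_lit 0) (cs (lf (nat_lit 12) (nat_lit 272)) (rf (nat_lit 6)))))))) (nd (nat_lit 254) (nat_lit 0) (cs (lf (nat_lit 30) (nat_lit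 231)) (lf (nat_lit 36) (nat_lit 209))))))) (nd (nat_lit 274) (nat_lit 0) (cs (nd (nat_lit 209) (nat_lit 0) (cs (lf (nat_lit 37) (nat_lit 208)) (nd (nat_lit 277) (nat_lit 0) (cs (lf (nat_lit 6) (nat_lit 274)) (rf (nat_lit 7)))))) (cs (nd (nat_lit 231) (nat_lit 0) (cs (lf (nat_lit 36) (nat_lit 208)) (nd (nat_lit 232) (nat_lit 0) (cs (lf (nat_lit 35) (nat_lit 209)) (rf (nat_lit 8)))))) (nd (nat_lit 277) (nat_lit 0) (cs (lf (nat_lit 6) (nat_lit 274)) (nd (nat_lit 299) (nat_lit 0) (cs (lf (nat_lit 5) (nat_lit 274)) (nd (nat_lit 252) (nat_lit 0) (cs (lf (nat_lit 23) (nat_lit 251)) (nd (nat_lit 319) (nat_lit 0) (cs (lf (nat_lit 42) (nat_lit 252)) (nd (nat_lit 232) (nat_lit 0) (cs (lf (nat_lit 34) (nat_lit 231)) (nd (nat_lit 255) (nat_lit 0) (cs (lf (nat_lit 17) (nat_lit 252)) (nd (nat_lit 233) (nat_lit 0) (cs (lf (nat_lit 47) (nat_lit 210)) (nd (nat_lit 211) (nat_lit 0) (cs (lf (nat_lit 41) (nat_lit 210)) (rf (nat_lit 9))))))))))))))))))))))))) (cs (nd (nat_lit 295) (nat_lit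 0) (cs (rf (nat_lit 10)) (cs (rf (nat_lit 11)) (cs (rf (nat_lit 12)) (nd (nat_lit 276) (nat_lit 0) (cs (rf (nat_lit 13)) (cs (rf (nat_lit 14)) (nd (nat_lit 319) (nat_lit 0) (cs (rf (nat_lit 15)) (cs (rf (nat_lit 16)) (nd (nat_lit 273) (nat_lit 0) (cs (rf (nat_lit 6)) (cs (nd (nat_lit 232) (nat_lit 0) (cs (lf (nat_lit 34) (nat_lit 231)) (nd (nat_lit 318) (nat_lit 0) (cs (lf (nat_lit 41) (nat_lit 252)) (nd (nat_lit 229) (nat_lit 0) (cs (rf (nat_lit 17)) (lf (nat_lit 25) (nat_lit 229)))))))) (nd (nat_lit 232) (nat_lit 0) (cs (lf (nat_lit 34) (nat_lit 231)) (nd (nat_lit 318) (nat_lit 0) (cs (lf (nat_lit 41) (nat_lit 252)) (nd (nat_lit 251) (nat_lit 0) (cs (lf (nat_lit 24) (nat_lit 229)) (nd (nat_lit 250) (nat_lit 0) (cs (lf (nat_lit 20) (nat_lit 250)) (lf (nat_lit 2) (nat_lit 250))))))))))))))))))))))) (nd (nat_lit 231) (nat_lit 0) (cs (lf (nat_lit 41) (nat_lit 230)) (rf (nat_lit 18)))))))) q109914 (by decide +kernel)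
def q110051 : Q := Q.p (nat_lit 0x3000004000000000000000000000000000000000000000000000000000000000) (nat_lit 0xa0000380000f8000c00000200003e0003e0000380000e00003000008000000000000000000000000) (nat_lit 10)
theorem c110051 : QOK q110051 := cut [q5353, q79029, q110041, q110050] ⟨c5353, c79029, c110041, c110050, trivial⟩ (nd (nat_lit 208) (nat_lit 0) (cs (rf (nat_lit 0)) (cs (rf (nat_lit 1)) (cs (rf (nat_lit 2)) (rf (nat_lit 3)))))) q110051 (by decide +kernel)
def q110056 : Q := Q.p (nat_lit 0x300000c000000000000000000000000000000000000000000000000000000000) (nat_lit 0x80001c6000738001ce000100000400000000000000000000000000000000000000000) (nat_lit 8)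
theorem c110056 : QOK q110056 := cut [q84417, q84429, q84418, q84419, q110054] ⟨c84417, c84429, c84418, c84419, c110054, trivial⟩ (nd (nat_lit 229) (nat_lit 0) (cs (rf (nat_lit 0)) (cs (rf (nat_lit 1)) (nd (nat_lit 232) (nat_lit 0) (cs (rf (nat_lit 2)) (cs (rf (nat_lit 3)) (rf (nat_lit 4)))))))) q110056 (by decide +kernel)
def q110064 : Q := Q.p (nat_lit 0x300000c000000000000000000000000000000000000000000000000000000000) (nat_lit 0x150001c6000738001ee0003a0000e80000000000000000000000000000000000000000) (nat_lit 10)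
theorem c110064 : QOK q110064 := cut [q84417, q105905, q84418, q105890, q110054] ⟨c84417, c105905, c84418, c105890, c110054, trivial⟩ (nd (nat_lit 229) (nat_lit 0) (cs (rf (nat_lit 0)) (cs (rf (nat_lit 1)) (nd (nat_lit 232) (nat_lit 0) (cs (rf (nat_lit 2)) (cs (rf (nat_lit 3)) (rf (nat_lit 4)))))))) q110064 (by decide +kernel)
def q110071 : Q := Q.p (nat_lit 0x300000c000020000000000000000000000000000000000000000000000000000) (nat_lit 0x800002c0001f00007e0001c0000700000c0000300000000000000000000000000000000000000000000000) (nat_lit 12)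
theorem c110071 : QOK q110071 := cut [q93588, q110053, q82279, q110069] ⟨c93588, c110053, c82279, c110069, trivial⟩ (nd (nat_lit 275) (nat_lit 0) (cs (rf (nat_lit 0)) (cs (rf (nat_lit 1)) (nd (nat_lit 274) (nat_lit 0) (cs (rf (nat_lit 2)) (rf (nat_lit 3))))))) q110071 (by decide +kernel)
def q110097 : Q := Q.p (nat_lit 0x300000c000000000000000000000000000000000000000000000000000000000) (nat_lit 0x1c0000780007d0001c6000738001ae0000a0000280000000000000000000000000000000000000000) (nat_lit 12)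
theorem c110097 : QOK q110097 := cut [q84417, q84909, q90292, q110082, q85018, q108718, q90300, q80294] ⟨c84417, c84909, c90292, c110082, c85018, c108718, c90300, c80294, trivial⟩ (nd (nat_lit 229) (nat_lit 0) (cs (rf (nat_lit 0)) (cs (rf (nat_lit 1)) (nd (nat_lit 275) (nat_lit 0) (cs (rf (nat_lit 2)) (cs (nd (nat_lit 254) (nat_lit 0) (cs (lf (nat_lit 18) (nat_lit 229)) (rf (nat_lit 3)))) (cs (nd (nat_lit 274) (nat_lit 0) (cs (rf (nat_lit 4)) (nd (nat_lit 255) (nat_lit 0) (cs (lf (nat_lit 19) (nat_lit 229)) (nd (nat_lit 209) (nat_lit 0) (cs (lf (nat_lit 36) (nat_lit 186)) (nd (nat_lit 276) (nat_lit 0) (cs (lf (nat_lit 29) (nat_lit 209)) (rf (nat_lit 5)))))))))) (cs (nd (nat_lit 254) (nat_lit 0) (cs (lf (nat_lit 18) (nat_lit 229)) (rf (nat_lit 6)))) (nd (nat_lit 254) (nat_lit 0) (cs (lf (nat_lit 18) (nat_lit 229)) (nd (nat_lit 297) (nat_lit 0) (cs (lf (nat_lit 42) (nat_lit 230)) (nd (nat_lit 298) (nat_lit 0) (cs (lf (nat_lit 29) (nat_lit 231)) (nd (nat_lit 296) (nat_lit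 0) (cs (lf (nat_lit 41) (nat_lit 230)) (nd (nat_lit 207) (nat_lit 0) (cs (lf (nat_lit 43) (nat_lit 207)) (nd (nat_lit 163) (nat_lit 0) (cs (lf (nat_lit 25) (nat_lit 163)) (nd (nat_lit 232) (nat_lit 0) (cs (lf (nat_lit 23) (nat_lit 206)) (rf (nat_lit 7)))))))))))))))))))))))) q110097 (by decide +kernel)
def q110100 : Q := Q.p (nat_lit 0x300000c000000000000000000000000000000000000000000000000000000000) (nat_lit 0xc0001f00007c000000000130001e00001c0000700000400000000000000000000000000000000000) (nat_lit 10)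
theorem c110100 : QOK q110100 := cut [q82309, q87940, q110099] ⟨c82309, c87940, c110099, trivial⟩ (nd (nat_lit 209) (nat_lit 0) (cs (rf (nat_lit 0)) (cs (rf (nat_lit 1)) (rf (nat_lit 2))))) q110100 (by decide +kernel)
def q110112 : Q := Q.p (nat_lit 0x300000c000000000000000000000000000000000000000000000000000000000) (nat_lit 0x1c00007800078000000000700001fe0001f8000700000000000000000000000000000000000000000) (nat_lit 12)
theorem c110112 : QOK q110112 := cut [q81477, q110082, q90372, q92843, q79996, q110109] ⟨c81477, c110082, c90372, c92843, c79996, c110109, trivial⟩ (nd (nat_lit 275) (nat_lit 0) (cs (rf (nat_lit 0)) (cs (rf (nat_lit 1)) (nd (nat_lit 209) (nat_lit 0) (cs (rf (nat_lit 2)) (cs (rf (nat_lit 3)) (nd (nat_lit 208) (nat_lit 0) (cs (rf (nat_lit 4)) (rf (nat_lit 5)))))))))) q110112 (by decide +kernel)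
def q110114 : Q := Q.p (nat_lit 0x300000c000000000000000000000000000000000000000000000000000000000) (nat_lit 0x110001c6000738001fe0003f0000fc0000000000000000000000000000000000000000) (nat_lit 13)
theorem c110114 : QOK q110114 := cut [q84417, q105905, q84418, q105901, q110054] ⟨c84417, c105905, c84418, c105901, c110054, trivial⟩ (nd (nat_lit 229) (nat_lit 0) (cs (rf (nat_lit 0)) (cs (rf (nat_lit 1)) (nd (nat_lit 232) (nat_lit 0) (cs (rf (nat_lit 2)) (cs (rf (nat_lit 3)) (rf (nat_lit 4)))))))) q110114 (by decide +kernel)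
def q110142 : Q := Q.p (nat_lit 0x300000c000000000000000000000000000000000000000000000000000000000) (nat_lit 0x798001c60007380003f0007f8000ff0000000000000000000000000000000000000000) (nat_lit 14)
theorem c110142 : QOK q110142 := cut [q92896, q92897, q92902, q79028, q92863, q92864, q84417, q84909, q92878, q92879, q19272, q92876, q58036, q19728, q92882, q92873, q8622, q92898] ⟨c92896, c92897, c92902, c79028, c92863, c92864, c84417, c84909, c92878, c92879, c19272, c92876, c58036, c19728, c92882, c92873, c8622, c92898, trivial⟩ (nd (nat_lit 187) (nat_lit 0) (cs (rf (nat_lit 0)) (cs (rf (nat_lit 1)) (cs (rf (nat_lit 2)) (cs (nd (nat_lit 254) (nat_lit 0) (cs (rf (nat_lit 3)) (cs (rf (nat_lit 4)) (nd (nat_lit 209) (nat_lit 0) (cs (lf (nat_lit 29) (nat_lit 187)) (nd (nat_lit 188) (nat_lit 0) (cs (lf (nat_lit 35) (nat_lit 165)) (nd (nat_lit 255) (nat_lit 0) (cs (lf (nat_lit 18) (nat_lit 230)) (nd (nat_lit 277) (nat_lit 0) (cs (lf (nat_lit 5) (nat_lit 252)) (rf (nat_lit 5)))))))))))))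 (cs (nd (nat_lit 229) (nat_lit 0) (cs (rf (nat_lit 6)) (cs (rf (nat_lit 7)) (nd (nat_lit 186) (nat_lit 0) (cs (rf (nat_lit 8)) (cs (rf (nat_lit 9)) (nd (nat_lit 185) (nat_lit 0) (cs (nd (nat_lit 163) (nat_lit 0) (cs (lf (nat_lit 26) (nat_lit 163)) (rf (nat_lit 10)))) (cs (nd (nat_lit 184) (nat_lit 0) (cs (rf (nat_lit 11)) (nd (nat_lit 254) (nat_lit 0) (cs (rf (nat_lit 12)) (lf (nat_lit 18) (nat_lit 229)))))) (cs (nd (nat_lit 184) (nat_lit 0) (cs (rf (nat_lit 12)) (cs (nd (nat_lit 254) (nat_lit 0) (cs (rf (nat_lit 13)) (lf (nat_lit 18) (nat_lit 229)))) (cs (nd (nat_lit 205) (nat_lit 0) (cs (lf (nat_lit 10) (nat_lit 183)) (nd (nat_lit 254) (nat_lit 0) (cs (lf (nat_lit 18) (nat_lit 229)) (rf (nat_lit 14)))))) (nd (nat_lit 161) (nat_lit 0) (cs (lf (nat_lit 22) (nat_lit 161)) (nd (nat_lit 254) (nat_lit 0) (cs (lf (nat_lit 18) (nat_lit 229)) (rf (nat_lit 15)))))))))) (cs (nd (nat_lit 254) (nat_lit 0) (cs (lf (nat_lit 18) (nat_lit 229)) (nd (nat_lit 207) (nat_lit 0) (cs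 (lf (nat_lit 24) (nat_lit 163)) (nd (nat_lit 206) (nat_lit 0) (cs (lf (nat_lit 18) (nat_lit 206)) (nd (nat_lit 205) (nat_lit 0) (cs (lf (nat_lit 0) (nat_lit 204)) (lf (nat_lit 9) (nat_lit 183)))))))))) (nd (nat_lit 254) (nat_lit 0) (cs (lf (nat_lit 18) (nat_lit 229)) (nd (nat_lit 163) (nat_lit 0) (cs (rf (nat_lit 16)) (lf (nat_lit 26) (nat_lit 163))))))))))))))))) (nd (nat_lit 209) (nat_lit 0) (cs (lf (nat_lit 36) (nat_lit 164)) (nd (nat_lit 254) (nat_lit 0) (cs (lf (nat_lit 29) (nat_lit 187)) (nd (nat_lit 255) (nat_lit 0) (cs (lf (nat_lit 18) (nat_lit 230)) (nd (nat_lit 277) (nat_lit 0) (cs (lf (nat_lit 5) (nat_lit 252)) (rf (nat_lit 17)))))))))))))))) q110142 (by decide +kernel)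
def q110162 : Q := Q.p (nat_lit 0x40000300000c000000000000000000000000000000000000000000000000000000000) (nat_lit 0x8000038000000003200003e0000e0000380000000000000000000000000000000000000000) (nat_lit 8)
theorem c110162 : QOK q110162 := cut [q85040, q86677, q22273] ⟨c85040, c86677, c22273, trivial⟩ (nd (nat_lit 208) (nat_lit 0) (cs (rf (nat_lit 0)) (cs (rf (nat_lit 1)) (nd (nat_lit 187) (nat_lit 0) (cs (lf (nat_lit 37) (nat_lit 186)) (rf (nat_lit 2))))))) q110162 (by decide +kernel)
def q110185 : Q := Q.p (nat_lit 0x3000004000000000000000000000000000000000000000000000000000000000) (nat_lit 0x200000e0000380000f8000000001be001ff0003fe000380000e00003000008000000000000000000000000) (nat_lit 12)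
theorem c110185 : QOK q110185 := cut [q6259, q79066, q110050, q79048, q84155, q110040, q93713, q110175, q110180, q4032] ⟨c6259, c79066, c110050, c79048, c84155, c110040, c93713, c110175, c110180, c4032, trivial⟩ (nd (nat_lit 208) (nat_lit 0) (cs (rf (nat_lit 0)) (cs (rf (nat_lit 1)) (cs (rf (nat_lit 2)) (nd (nat_lit 274) (nat_lit 0) (cs (rf (nat_lit 3)) (cs (rf (nat_lit 4)) (cs (rf (nat_lit 5)) (nd (nat_lit 207) (nat_lit 0) (cs (lf (nat_lit 47) (nat_lit 185)) (nd (nat_lit 206) (nat_lit 0) (cs (rf (nat_lit 6)) (cs (nd (nat_lit 275) (nat_lit 0) (cs (lf (nat_lit 29) (nat_lit 208)) (rf (nat_lit 7)))) (cs (rf (nat_lit 8)) (nd (nat_lit 273) (nat_lit 0) (cs (lf (nat_lit 41) (nat_lit 207)) (rf (nat_lit 9)))))))))))))))))) q110185 (by decide +kernel)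
def q110187 : Q := Q.p (nat_lit 0x3000004000010000020000000000000000000000000000000000000000000000) (nat_lit 0x200000e0000380000600000000008000008000000000000000000000000000000000000000000000000000) (nat_lit 6)
theorem c110187 : QOK q110187 := cut [q110186] ⟨c110186, trivial⟩ (nd (nat_lit 274) (nat_lit 0) (cs (lf (nat_lit 46) (nat_lit 185)) (rf (nat_lit 0)))) q110187 (by decide +kernel)
def q110193 : Q := Q.p (nat_lit 0x1c00007000004000000000000000000000000000000000000000000000000000000000) (nat_lit 0x100000400000000018000070000090000240000000000000000000000000000000000000000000000) (nat_lit 6)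
theorem c110193 : QOK q110193 := cut [q97541] ⟨c97541, trivial⟩ (nd (nat_lit 186) (nat_lit 0) (cs (lf (nat_lit 25) (nat_lit 186)) (rf (nat_lit 0)))) q110193 (by decide +kernel)
def q110237 : Q := Q.p (nat_lit 0x600001000004000000000000000000000000000000000000000000000000000000000) (nat_lit 0x1800000000000000030000f80000a0000000000000000000000000000000000000000000000) (nat_lit 6)
theorem c110237 : QOK q110237 := cut [q22313] ⟨c22313, trivial⟩ (nd (nat_lit 208) (nat_lit 0) (cs (lf (nat_lit 41) (nat_lit 207)) (rf (nat_lit 0)))) q110237 (by decide +kernel)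
def q110256 : Q := Q.p (nat_lit 0x800007000004000000000000000000000000000000000000000000000000000000000) (nat_lit 0x1c00007000014000000000780001e0000180000200000000000000000000000000000000000000000) (nat_lit 8)
theorem c110256 : QOK q110256 := cut [q81384, q90299, q110254] ⟨c81384, c90299, c110254, trivial⟩ (nd (nat_lit 297) (nat_lit 0) (cs (lf (nat_lit 42) (nat_lit 230)) (nd (nat_lit 231) (nat_lit 0) (cs (rf (nat_lit 0)) (cs (rf (nat_lit 1)) (rf (nat_lit 2))))))) q110256 (by decide +kernel)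
def q110267 : Q := Q.p (nat_lit 0x7000004000000000000000000000000000000000000000000000000000000000) (nat_lit 0x80000380000e000038000ee00018000068000030000080000000000000000000000000000000000000000000000) (nat_lit 7)
theorem c110267 : QOK q110267 := cut [q83707, q81315, q110266] ⟨c83707, c81315, c110266, trivial⟩ (nd (nat_lit 274) (nat_lit 0) (cs (rf (nat_lit 0)) (cs (nd (nat_lit 255) (nat_lit 0) (cs (lf (nat_lit 11) (nat_lit 251)) (nd (nat_lit 233) (nat_lit 0) (cs (lf (nat_lit 17) (nat_lit 230)) (nd (nat_lit 277) (nat_lit 0) (cs (lf (nat_lit 5) (nat_lit 252)) (rf (nat_lit 1)))))))) (rf (nat_lit 2))))) q110267 (by decide +kernel)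
def q110281 : Q := Q.p (nat_lit 0x800007000004000000000000000000000000000000000000000000000000000000000) (nat_lit 0x1c00007800074000000000780001e0000100000000000000000000000000000000000000000000000) (nat_lit 8)
theorem c110281 : QOK q110281 := cut [q12650, q110081, q110254, q11580] ⟨c12650, c110081, c110254, c11580, trivial⟩ (nd (nat_lit 297) (nat_lit 0) (cs (lf (nat_lit 42) (nat_lit 230)) (nd (nat_lit 231) (nat_lit 0) (cs (rf (nat_lit 0)) (cs (rf (nat_lit 1)) (cs (rf (nat_lit 2)) (nd (nat_lit 296) (nat_lit 0) (cs (lf (nat_lit 41) (nat_lit 230)) (nd (nat_lit 209) (nat_lit 0) (cs (rf (nat_lit 3)) (lf (nat_lit 31) (nat_lit 208)))))))))))) q110281 (by decide +kernel)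
def q110305 : Q := Q.p (nat_lit 0x3000004000000000000000000000000000000000000000000000000000000000) (nat_lit 0x80000680007f0000c60003b8001fe0007f8000780000a00000000000000000000000000000000000) (nat_lit 14)
theorem c110305 : QOK q110305 := cut [q6259, q79029, q79066, q1411, q95471, q3988, q84623, q92803, q110104, q95364, q87699, q110292, q110299, q110304] ⟨c6259, c79029, c79066, c1411, c95471, c3988, c84623, c92803, c110104, c95364, c87699, c110292, c110299, c110304, trivial⟩ (nd (nat_lit 208) (nat_lit 0) (cs (rf (nat_lit 0)) (cs (rf (nat_lit 1)) (cs (rf (nat_lit 2)) (cs (nd (nat_lit 207) (nat_lit 0) (cs (rf (nat_lit 3)) (cs (rf (nat_lit 4)) (cs (nd (nat_lit 231) (nat_lit 0) (cs (rf (nat_lit 5)) (cs (rf (nat_lit 6)) (cs (nd (nat_lit 209) (nat_lit 0) (cs (rf (nat_lit 7)) (cs (rf (nat_lit 8)) (cs (nd (nat_lit 205) (nat_lit 0) (cs (lf (nat_lit 1) (nat_lit 205)) (rf (nat_lit 9)))) (nd (nat_lit 165) (nat_lit 0) (cs (lf (nat_lit 37) (nat_lit 164)) (nd (nat_lit 275) (nat_lit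 0) (cs (lf (nat_lit 42) (nat_lit 208)) (nd (nat_lit 188) (nat_lit 0) (cs (lf (nat_lit 34) (nat_lit 187)) (nd (nat_lit 206) (nat_lit 0) (cs (lf (nat_lit 0) (nat_lit 205)) (nd (nat_lit 183) (nat_lit 0) (cs (lf (nat_lit 22) (nat_lit 183)) (nd (nat_lit 228) (nat_lit 0) (cs (lf (nat_lit 11) (nat_lit 205)) (rf (nat_lit 10)))))))))))))))))) (nd (nat_lit 209) (nat_lit 0) (cs (rf (nat_lit 7)) (cs (rf (nat_lit 9)) (cs (rf (nat_lit 8)) (nd (nat_lit 232) (nat_lit 0) (cs (lf (nat_lit 18) (nat_lit 207)) (rf (nat_lit 11)))))))))))) (rf (nat_lit 12)))))) (rf (nat_lit 13))))))) q110305 (by decide +kernel)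
def q110306 : Q := Q.p (nat_lit 0x400003000004000010000000000000000000000000000000000000000000000000000) (nat_lit 0x80000200001f00007a0001c0000780000e0000380000000000000000000000000000000000000000000000) (nat_lit 13)
theorem c110306 : QOK q110306 := cut [q105289] ⟨c105289, trivial⟩ (nd (nat_lit 275) (nat_lit 0) (cs (lf (nat_lit 29) (nat_lit 208)) (rf (nat_lit 0)))) q110306 (by decide +kernel)
def q110312 : Q := Q.p (nat_lit 0x800007000004000000000000000000000000000000000000000000000000000000000) (nat_lit 0x60001de000770000000001b0000700001c0000000000000000000000000000000000000000000000) (nat_lit 10)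
theorem c110312 : QOK q110312 := cut [q79080, q79097, q95656, q110244, q79057] ⟨c79080, c79097, c95656, c110244, c79057, trivial⟩ (nd (nat_lit 274) (nat_lit 0) (cs (rf (nat_lit 0)) (cs (nd (nat_lit 231) (nat_lit 0) (cs (rf (nat_lit 1)) (cs (rf (nat_lit 2)) (rf (nat_lit 3))))) (nd (nat_lit 208) (nat_lit 0) (cs (lf (nat_lit 24) (nat_lit 186)) (rf (nat_lit 4))))))) q110312 (by decide +kernel)
def q110316 : Q := Q.p (nat_lit 0x3000004000030000000000000000000000000000000000000000000000000000) (nat_lit 0x60000780000c00000b0001c0000180000600000000000000000000000000000000000000000) (nat_lit 7)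
theorem c110316 : QOK q110316 := cut [q92803, q95364, q110104, q110292] ⟨c92803, c95364, c110104, c110292, trivial⟩ (nd (nat_lit 231) (nat_lit 0) (cs (rf (nat_lit 0)) (cs (rf (nat_lit 1)) (cs (rf (nat_lit 2)) (rf (nat_lit 3)))))) q110316 (by decide +kernel)
def q110332 : Q := Q.p (nat_lit 0x200000800003000000000000000000000000000000000000000000000000000000000000000) (nat_lit 0x100000700001c0000500001400000000018000060000180000000000000000000000000000000000000000000000) (nat_lit 7)
theorem c110332 : QOK q110332 := cut [q32035, q110327, q11580] ⟨c32035, c110327, c11580, trivial⟩ (nd (nat_lit 318) (nat_lit 0) (cs (rf (nat_lit 0)) (cs (rf (nat_lit 1)) (nd (nat_lit 319) (nat_lit 0) (cs (lf (nat_lit 41) (nat_lit 252)) (nd (nat_lit 231) (nat_lit 0) (cs (lf (nat_lit 40) (nat_lit 230)) (nd (nat_lit 274) (nat_lit 0) (cs (lf (nat_lit 42) (nat_lit 252)) (nd (nat_lit 209) (nat_lit 0) (cs (lf (nat_lit 36) (nat_lit 186)) (rf (nat_lit 2))))))))))))) q110332 (by decide +kernel)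
def q110342 : Q := Q.p (nat_lit 0x800003000000000000000000000000000000000000000000000000000000000000000) (nat_lit 0x140003fe0007f0001fe000700000080007c000070000140000000000000000000000000000000000000000000000) (nat_lit 12)
theorem c110342 : QOK q110342 := cut [q88941, q90950, q94433, q110081, q110333, q16741, q32035, q17024, q2583, q2591, q14399] ⟨c88941, c90950, c94433, c110081, c110333, c16741, c32035, c17024, c2583, c2591, c14399, trivial⟩ (nd (nat_lit 297) (nat_lit 0) (cs (rf (nat_lit 0)) (cs (rf (nat_lit 1)) (cs (nd (nat_lit 231) (nat_lit 0) (cs (rf (nat_lit 2)) (cs (rf (nat_lit 3)) (rf (nat_lit 4))))) (nd (nat_lit 318) (nat_lit 0) (cs (rf (nat_lit 5)) (cs (rf (nat_lit 6)) (cs (nd (nat_lit 296) (nat_lit 0) (cs (lf (nat_lit 36) (nat_lit 230)) (rf (nat_lit 7)))) (nd (nat_lit 319) (nat_lit 0) (cs (lf (nat_lit 41) (nat_lit 252)) (nd (nat_lit 317) (nat_lit 0) (cs (rf (nat_lit 8)) (cs (rf (nat_lit 9)) (nd (nat_lit 320) (nat_lit 0) (cs (lf (nat_lit 29) (nat_lit 253))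 (nd (nat_lit 294) (nat_lit 0) (cs (lf (nat_lit 22) (nat_lit 294)) (nd (nat_lit 338) (nat_lit 0) (cs (lf (nat_lit 10) (nat_lit 316)) (rf (nat_lit 10))))))))))))))))))))) q110342 (by decide +kernel)
def q110345 : Q := Q.p (nat_lit 0x100000c00003000000000000000000000000000000000000000000000000000000000000000) (nat_lit 0x380000e0000080000000000800006000008000000000000000000000000000000000000000000000000000) (nat_lit 6)
theorem c110345 : QOK q110345 := cut [q25411] ⟨c25411, trivial⟩ (nd (nat_lit 318) (nat_lit 0) (cs (lf (nat_lit 30) (nat_lit 252)) (rf (nat_lit 0)))) q110345 (by decide +kernel)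
def q110355 : Q := Q.p (nat_lit 0xc00003000000000000000000000000000000000000000000000000000000000000000) (nat_lit 0x8000020001de0007380018e00004000010000000000000000000000000000000000000000000000000000) (nat_lit 7)
theorem c110355 : QOK q110355 := cut [q700, q2190, q108441] ⟨c700, c2190, c108441, trivial⟩ (nd (nat_lit 276) (nat_lit 0) (cs (rf (nat_lit 0)) (cs (rf (nat_lit 1)) (rf (nat_lit 2))))) q110355 (by decide +kernel)
def q110358 : Q := Q.p (nat_lit 0xc00003000000000000000000000000000000000000000000000000000000000000000) (nat_lit 0x58000160001de0007380018e0000300000c000030000000000000000000000000000000000000000000000) (nat_lit 12)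
theorem c110358 : QOK q110358 := cut [q700, q2190, q110357] ⟨c700, c2190, c110357, trivial⟩ (nd (nat_lit 276) (nat_lit 0) (cs (rf (nat_lit 0)) (cs (rf (nat_lit 1)) (rf (nat_lit 2))))) q110358 (by decide +kernel)
def q110431 : Q := Q.p (nat_lit 0x800003800000000000000000000000000000000000000000000000000000000000000) (nat_lit 0x140000700001c000060000140000000003c0000700001c0000100000000000000000000000000000000000000000) (nat_lit 10)
theorem c110431 : QOK q110431 := cut [q88933, q90950, q110428, q12650, q88936, q94433, q109625] ⟨c88933, c90950, c110428, c12650, c88936, c94433, c109625, trivial⟩ (nd (nat_lit 297) (nat_lit 0) (cs (rf (nat_lit 0)) (cs (rf (nat_lit 1)) (cs (rf (nat_lit 2)) (nd (nat_lit 231) (nat_lit 0) (cs (rf (nat_lit 3)) (cs (rf (nat_lit 4)) (cs (rf (nat_lit 5)) (nd (nat_lit 298) (nat_lit 0) (cs (lf (nat_lit 29) (nat_lit 231)) (rf (nat_lit 6)))))))))))) q110431 (by decide +kernel)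
def q110466 : Q := Q.p (nat_lit 0x800003800004000000000000000000000000000000000000000000000000000000000) (nat_lit 0x20000d8000378000000000b0000f80000e0000380000a00000000000000000000000000000000000) (nat_lit 8)
theorem c110466 : QOK q110466 := cut [q6259, q79029, q79066, q22313, q100653, q110042] ⟨c6259, c79029, c79066, c22313, c100653, c110042, trivial⟩ (nd (nat_lit 208) (nat_lit 0) (cs (rf (nat_lit 0)) (cs (rf (nat_lit 1)) (cs (rf (nat_lit 2)) (nd (nat_lit 274) (nat_lit 0) (cs (rf (nat_lit 3)) (cs (rf (nat_lit 4)) (rf (nat_lit 5))))))))) q110466 (by decide +kernel)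
def q110483 : Q := Q.p (nat_lit 0x800003800000000000000000000000000000000000000000000000000000000000000) (nat_lit 0x38000078000060007e00007e0001f8000700001400000000000000000000000000000000000) (nat_lit 13)
theorem c110483 : QOK q110483 := cut [q82275, q106743, q82300, q82301, q82309, q105166, q81901, q110012] ⟨c82275, c106743, c82300, c82301, c82309, c105166, c81901, c110012, trivial⟩ (nd (nat_lit 231) (nat_lit 0) (cs (rf (nat_lit 0)) (cs (rf (nat_lit 1)) (cs (nd (nat_lit 209) (nat_lit 0) (cs (rf (nat_lit 2)) (cs (rf (nat_lit 3)) (cs (rf (nat_lit 4)) (rf (nat_lit 5)))))) (nd (nat_lit 209) (nat_lit 0) (cs (rf (nat_lit 6)) (cs (rf (nat_lit 2)) (cs (rf (nat_lit 4)) (nd (nat_lit 274) (nat_lit 0) (cs (lf (nat_lit 41) (nat_lit 208)) (nd (nat_lit 249) (nat_lit 0) (cs (lf (nat_lit 1) (nat_lit 249)) (rf (nat_lit 7)))))))))))))) q110483 (by decide +kernel)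
def q110486 : Q := Q.p (nat_lit 0x800003000000000000000000000000000000000000000000000000000000000000000) (nat_lit 0x140000700001c000070000040000080007c0000700001c0000100000000000000000000000000000000000000000) (nat_lit 10)
theorem c110486 : QOK q110486 := cut [q88941, q90950, q110428, q79189, q81211, q94433, q110333] ⟨c88941, c90950, c110428, c79189, c81211, c94433, c110333, trivial⟩ (nd (nat_lit 297) (nat_lit 0) (cs (rf (nat_lit 0)) (cs (rf (nat_lit 1)) (cs (rf (nat_lit 2)) (nd (nat_lit 231) (nat_lit 0) (cs (rf (nat_lit 3)) (cs (rf (nat_lit 4)) (cs (rf (nat_lit 5)) (rf (nat_lit 6)))))))))) q110486 (by decide +kernel)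
def q110510 : Q := Q.p (nat_lit 0x7800000000000000000000000000000000000000000000000000000000000000) (nat_lit 0xe0000380000e00003b0000000003b0000e0000380000c00002000000000000000000000000000000000000) (nat_lit 13)
theorem c110510 : QOK q110510 := cut [q79123, q89993, q105753, q110503] ⟨c79123, c89993, c105753, c110503, trivial⟩ (nd (nat_lit 232) (nat_lit 0) (cs (lf (nat_lit 17) (nat_lit 229)) (nd (nat_lit 210) (nat_lit 0) (cs (rf (nat_lit 0)) (cs (rf (nat_lit 1)) (cs (rf (nat_lit 2)) (nd (nat_lit 276) (nat_lit 0) (cs (lf (nat_lit 5) (nat_lit 251)) (nd (nat_lit 189) (nat_lit 0) (cs (lf (nat_lit 34) (nat_lit 188)) (nd (nat_lit 167) (nat_lit 0) (cs (lf (nat_lit 33) (nat_lit 166)) (nd (nat_lit 272) (nat_lit 0) (cs (lf (nat_lit 10) (nat_lit 250)) (nd (nat_lit 228) (nat_lit 0) (cs (lf (nat_lit 22) (nat_lit 228)) (rf (nat_lit 3)))))))))))))))))) q110510 (by decide +kernel)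
def q110529 : Q := Q.p (nat_lit 0x7000000000000000000000000000000000000000000000000000000000000000) (nat_lit 0x1c0000700001c0000fe000180000f60001c0000700001800004000000000000000000000000000000000000) (nat_lit 14)
theorem c110529 : QOK q110529 := cut [q102864, q110525, q110526, q110527] ⟨c102864, c110525, c110526, c110527, trivial⟩ (nd (nat_lit 255) (nat_lit 0) (cs (rf (nat_lit 0)) (cs (rf (nat_lit 1)) (cs (rf (nat_lit 2)) (nd (nat_lit 229) (nat_lit 0) (cs (lf (nat_lit 22) (nat_lit 229)) (rf (nat_lit 3)))))))) q110529 (by decide +kernel)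
def q110534 : Q := Q.p (nat_lit 0x7000000000000000000000000000000000000000000000000000000000000000) (nat_lit 0x80000200001fc0018e00073800000000000000000000000000000000000000000000000000000000) (nat_lit 9)
theorem c110534 : QOK q110534 := cut [q79020, q79201, q92240, q92245] ⟨c79020, c79201, c92240, c92245, trivial⟩ (nd (nat_lit 251) (nat_lit 0) (cs (rf (nat_lit 0)) (cs (rf (nat_lit 1)) (cs (rf (nat_lit 2)) (rf (nat_lit 3)))))) q110534 (by decide +kernel)
def q110567 : Q := Q.p (nat_lit 0x7000004000000000000000000000000000000000000000000000000000000000) (nat_lit 0x10000040000f8000188000f80001a0000280000800000000000000000000000000000000000000000) (nat_lit 7)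
theorem c110567 : QOK q110567 := cut [q105822, q106131, q106133, q107554] ⟨c105822, c106131, c106133, c107554, trivial⟩ (nd (nat_lit 255) (nat_lit 0) (cs (rf (nat_lit 0)) (cs (rf (nat_lit 1)) (cs (rf (nat_lit 2)) (rf (nat_lit 3)))))) q110567 (by decide +kernel)
def q110584 : Q := Q.p (nat_lit 0x7000004000000000000000000000000000000000000000000000000000000000) (nat_lit 0x80000200001c0000080001b8000fc0007e0000780000a00000000000000000000000000000000000) (nat_lit 10)
theorem c110584 : QOK q110584 := cut [q79029, q79041, q79066, q106169] ⟨c79029, c79041, c79066, c106169, trivial⟩ (nd (nat_lit 208) (nat_lit 0) (cs (rf (nat_lit 0)) (cs (rf (nat_lit 1)) (cs (rf (nat_lit 2)) (rf (nat_lit 3)))))) q110584 (by decide +kernel)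
def q110668 : Q := Q.p (nat_lit 0x800003000000000000000000000000000000000000000000000000000000000000000) (nat_lit 0x140000f80003f0001fe000f78003cc000f40000d0000300000000000000000000000000000000000000000000000) (nat_lit 13)
theorem c110668 : QOK q110668 := cut [q90950, q88742, q104510, q108282, q110639, q79079, q97541, q15058, q110655, q13449, q110066, q81961, q105247, q110667] ⟨c90950, c88742, c104510, c108282, c110639, c79079, c97541, c15058, c110655, c13449, c110066, c81961, c105247, c110667, trivial⟩ (nd (nat_lit 297) (nat_lit 0) (cs (rf (nat_lit 0)) (cs (nd (nat_lit 276) (nat_lit 0) (cs (rf (nat_lit 1)) (cs (rf (nat_lit 2)) (cs (nd (nat_lit 254) (nat_lit 0) (cs (rf (nat_lit 3)) (cs (rf (nat_lit 4)) (cs (nd (nat_lit 274) (nat_lit 0) (cs (rf (nat_lit 5)) (cs (rf (nat_lit 6)) (nd (nat_lit 210) (nat_lit 0) (cs (lf (nat_lit 37) (nat_lit 209)) (nd (nat_lit 273) (nat_lit 0) (cs (lf (nat_lit 12) (nat_lit 250)) (nd (nat_lit 208) (nat_lit 0) (cs (lf (nat_lit 25) (nat_lit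 208)) (nd (nat_lit 295) (nat_lit 0) (cs (lf (nat_lit 11) (nat_lit 272)) (nd (nat_lit 317) (nat_lit 0) (cs (lf (nat_lit 30) (nat_lit 251)) (nd (nat_lit 298) (nat_lit 0) (cs (lf (nat_lit 5) (nat_lit 273)) (nd (nat_lit 296) (nat_lit 0) (cs (lf (nat_lit 11) (nat_lit 294)) (rf (nat_lit 7))))))))))))))))))) (rf (nat_lit 8)))))) (nd (nat_lit 277) (nat_lit 0) (cs (lf (nat_lit 18) (nat_lit 252)) (nd (nat_lit 274) (nat_lit 0) (cs (rf (nat_lit 9)) (cs (rf (nat_lit 10)) (cs (nd (nat_lit 208) (nat_lit 0) (cs (lf (nat_lit 25) (nat_lit 208)) (nd (nat_lit 255) (nat_lit 0) (cs (lf (nat_lit 17) (nat_lit 252)) (nd (nat_lit 299) (nat_lit 0) (cs (lf (nat_lit 5) (nat_lit 274)) (nd (nat_lit 296) (nat_lit 0) (cs (lf (nat_lit 11) (nat_lit 273)) (rf (nat_lit 11)))))))))) (nd (nat_lit 295) (nat_lit 0) (cs (lf (nat_lit 10) (nat_lit 273)) (nd (nat_lit 273) (nat_lit 0) (cs (lf (nat_lit 11) (nat_lit 272)) (rf (nat_lit 12)))))))))))))))) (rf (nat_lit 13))))) q110668 (by decide +kernel)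
def q110737 : Q := Q.p (nat_lit 0x3800000000000000000000000000000000000000000000000000000000000000) (nat_lit 0x80000780001f0000fe0003e0000c70000fc0007f0001f00007c0000500000000000000000000000000000000000) (nat_lit 15)
theorem c110737 : QOK q110737 := cut [q82198, q84257, q80246, q98559, q106442, q106445, q106453, q110266, q110729, q2091, q106459, q106461, q79078, q79112, q95670, q106474, q106448, q106478, q82197, q84256, q106500, q106502] ⟨c82198, c84257, c80246, c98559, c106442, c106445, c106453, c110266, c110729, c2091, c106459, c106461, c79078, c79112, c95670, c106474, c106448, c106478, c82197, c84256, c106500, c106502, trivial⟩ (nd (nat_lit 229) (nat_lit 0) (cs (rf (nat_lit 0)) (cs (rf (nat_lit 1)) (cs (nd (nat_lit 274) (nat_lit 0) (cs (rf (nat_lit 2)) (cs (rf (nat_lit 3)) (cs (rf (nat_lit 4)) (nd (nat_lit 230) (nat_lit 0) (cs (rf (nat_lit 5)) (cs (rf (nat_lit 6)) (cs (rf (nat_lit 7)) (rf (nat_lit 8)))))))))) (nd (nat_lit 275) (nat_lit 0) (cs (rf (nat_lit 9))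 (cs (rf (nat_lit 10)) (cs (rf (nat_lit 11)) (cs (nd (nat_lit 230) (nat_lit 0) (cs (rf (nat_lit 12)) (cs (rf (nat_lit 13)) (cs (rf (nat_lit 14)) (cs (rf (nat_lit 15)) (nd (nat_lit 274) (nat_lit 0) (cs (rf (nat_lit 2)) (cs (rf (nat_lit 16)) (rf (nat_lit 17)))))))))) (nd (nat_lit 228) (nat_lit 0) (cs (rf (nat_lit 18)) (cs (rf (nat_lit 19)) (nd (nat_lit 230) (nat_lit 0) (cs (rf (nat_lit 12)) (cs (rf (nat_lit 13)) (cs (rf (nat_lit 14)) (cs (rf (nat_lit 20)) (rf (nat_lit 21))))))))))))))))))) q110737 (by decide +kernel)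
def q110759 : Q := Q.p (nat_lit 0x800003800004000000000000000000000000000000000000000000000000000000000) (nat_lit 0x800003c0000f00001e000078000060000b8000f80000e0000380000a00000000000000000000000000000000000) (nat_lit 10)
theorem c110759 : QOK q110759 := cut [q6259, q79029, q79066, q22313, q110232, q52664] ⟨c6259, c79029, c79066, c22313, c110232, c52664, trivial⟩ (nd (nat_lit 208) (nat_lit 0) (cs (rf (nat_lit 0)) (cs (rf (nat_lit 1)) (cs (rf (nat_lit 2)) (nd (nat_lit 274) (nat_lit 0) (cs (rf (nat_lit 3)) (cs (rf (nat_lit 4)) (nd (nat_lit 185) (nat_lit 0) (cs (lf (nat_lit 46) (nat_lit 185)) (nd (nat_lit 250) (nat_lit 0) (cs (lf (nat_lit 0) (nat_lit 249)) (nd (nat_lit 273) (nat_lit 0) (cs (lf (nat_lit 41) (nat_lit 207)) (nd (nat_lit 272) (nat_lit 0) (cs (lf (nat_lit 12) (nat_lit 249)) (nd (nat_lit 227) (nat_lit 0) (cs (lf (nat_lit 22) (nat_lit 227)) (rf (nat_lit 5))))))))))))))))))) q110759 (by decide +kernel)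
def q110764 : Q := Q.p (nat_lit 0x7000010000000000000000000000000000000000000000000000000000000000) (nat_lit 0xa0000380000f0000fc000000000680001f80003e0000f00002800000000000000000000000000000000000) (nat_lit 11)
theorem c110764 : QOK q110764 := cut [q79123, q79128, q79145, q110560, q106552, q106559, q110503] ⟨c79123, c79128, c79145, c110560, c106552, c106559, c110503, trivial⟩ (nd (nat_lit 210) (nat_lit 0) (cs (rf (nat_lit 0)) (cs (rf (nat_lit 1)) (cs (rf (nat_lit 2)) (cs (rf (nat_lit 3)) (nd (nat_lit 276) (nat_lit 0) (cs (rf (nat_lit 4)) (cs (rf (nat_lit 5)) (rf (nat_lit 6)))))))))) q110764 (by decide +kernel)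
def q110771 : Q := Q.p (nat_lit 0x7000004000000000000000000000000000000000000000000000000000000000) (nat_lit 0x800002c0001f00007c00018e000180000780001e0000600000800000000000000000000000000000000000) (nat_lit 11)
theorem c110771 : QOK q110771 := cut [q79078, q79112, q81379, q81382, q81390] ⟨c79078, c79112, c81379, c81382, c81390, trivial⟩ (nd (nat_lit 275) (nat_lit 0) (cs (rf (nat_lit 0)) (cs (rf (nat_lit 1)) (cs (rf (nat_lit 2)) (nd (nat_lit 231) (nat_lit 0) (cs (rf (nat_lit 3)) (rf (nat_lit 4)))))))) q110771 (by decide +kernel)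
def q110793 : Q := Q.p (nat_lit 0xf000014000010000000000000000000000000000000000000000000000000000) (nat_lit 0x300000c00007400000000068000188000620001880000200000000000000000000000000000000000) (nat_lit 11)
theorem c110793 : QOK q110793 := cut [q80975] ⟨c80975, trivial⟩ (nd (nat_lit 277) (nat_lit 0) (cs (lf (nat_lit 5) (nat_lit 252)) (nd (nat_lit 233) (nat_lit 0) (cs (lf (nat_lit 17) (nat_lit 230)) (nd (nat_lit 207) (nat_lit 0) (cs (lf (nat_lit 20) (nat_lit 207)) (nd (nat_lit 185) (nat_lit 0) (cs (lf (nat_lit 42) (nat_lit 185)) (nd (nat_lit 141) (nat_lit 0) (cs (lf (nat_lit 25) (nat_lit 141)) (rf (nat_lit 0)))))))))))) q110793 (by decide +kernel)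
def q110812 : Q := Q.p (nat_lit 0x3800000000000000000000000000000000000000000000000000000000000000) (nat_lit 0xfdc001c6000fe000000000000000000000000000000000000000000000000000000000) (nat_lit 7)
theorem c110812 : QOK q110812 := cut [q81716, q105829, q106423, q106817, q23543] ⟨c81716, c105829, c106423, c106817, c23543, trivial⟩ (nd (nat_lit 254) (nat_lit 0) (cs (rf (nat_lit 0)) (cs (rf (nat_lit 1)) (cs (rf (nat_lit 2)) (cs (rf (nat_lit 3)) (nd (nat_lit 276) (nat_lit 0) (cs (lf (nat_lit 5) (nat_lit 251)) (nd (nat_lit 250) (nat_lit 0) (cs (rf (nat_lit 4)) (lf (nat_lit 4) (nat_lit 250))))))))))) q110812 (by decide +kernel)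
def q110814 : Q := Q.p (nat_lit 0x180000200003800000000000000000000000000000000000000000000000000000000000000) (nat_lit 0x40000390000e70003dc000000000e000038000000000000000000000000000000000000000000000000000) (nat_lit 9)
theorem c110814 : QOK q110814 := cut [q106760, q106762, q95135] ⟨c106760, c106762, c95135, trivial⟩ (nd (nat_lit 274) (nat_lit 0) (cs (rf (nat_lit 0)) (cs (rf (nat_lit 1)) (nd (nat_lit 207) (nat_lit 0) (cs (lf (nat_lit 25) (nat_lit 207)) (rf (nat_lit 2))))))) q110814 (by decide +kernel)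
def q110862 : Q := Q.p (nat_lit 0x3800000000000000000000000000000000000000000000000000000000000000) (nat_lit 0x7c0001f00007e000ef8003c60007e0001fe0001f8000780001400000000000000000000000000000000000) (nat_lit 18)
theorem c110862 : QOK q110862 := cut [q82275, q82278, q80881, q82280, q91409, q106635, q82292, q82295, q110018, q87069, q87098, q85505, q89866, q106645, q106647, q79097, q110853, q82274, q82277, q106646, q106656, q82300, q92807, q106658, q86861] ⟨c82275, c82278, c80881, c82280, c91409, c106635, c82292, c82295, c110018, c87069, c87098, c85505, c89866, c106645, c106647, c79097, c110853, c82274, c82277, c106646, c106656, c82300, c92807, c106658, c86861, trivial⟩ (nd (nat_lit 231) (nat_lit 0) (cs (rf (nat_lit 0)) (cs (rf (nat_lit 1)) (cs (nd (nat_lit 274) (nat_lit 0) (cs (rf (nat_lit 2)) (cs (rf (nat_lit 3)) (cs (rf (nat_lit 4)) (cs (rf (nat_lit 5)) (nd (nat_lit 230) (nat_lit 0) (cs (rf (nat_lit 6)) (cs (rf (nat_lit 7)) (rf (nat_lit 8)))))))))) (nd (nat_lit 273)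 (nat_lit 0) (cs (rf (nat_lit 9)) (cs (rf (nat_lit 10)) (cs (nd (nat_lit 230) (nat_lit 0) (cs (rf (nat_lit 11)) (cs (rf (nat_lit 12)) (cs (rf (nat_lit 13)) (cs (rf (nat_lit 14)) (nd (nat_lit 274) (nat_lit 0) (cs (rf (nat_lit 15)) (cs (rf (nat_lit 6)) (rf (nat_lit 16)))))))))) (cs (nd (nat_lit 232) (nat_lit 0) (cs (rf (nat_lit 17)) (cs (rf (nat_lit 18)) (nd (nat_lit 230) (nat_lit 0) (cs (rf (nat_lit 11)) (cs (rf (nat_lit 19)) (cs (rf (nat_lit 20)) (nd (nat_lit 209) (nat_lit 0) (cs (rf (nat_lit 21)) (cs (rf (nat_lit 22)) (rf (nat_lit 23)))))))))))) (nd (nat_lit 254) (nat_lit 0) (cs (lf (nat_lit 11) (nat_lit 250)) (nd (nat_lit 232) (nat_lit 0) (cs (lf (nat_lit 17) (nat_lit 229)) (rf (nat_lit 24))))))))))))))) q110862 (by decide +kernel)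
def q110888 : Q := Q.p (nat_lit 0x400003000004000010000000000000000000000000000000000000000000000000000) (nat_lit 0x700003800000c00008000060000180000000000000000000000000000000000000000000000) (nat_lit 7)
theorem c110888 : QOK q110888 := cut [q22337] ⟨c22337, trivial⟩ (nd (nat_lit 275) (nat_lit 0) (cs (lf (nat_lit 29) (nat_lit 208)) (rf (nat_lit 0)))) q110888 (by decide +kernel)
def q110937 : Q := Q.p (nat_lit 0x3000004000000000000000000000000000000000000000000000000000000000) (nat_lit 0x1f00007c00037c001cf0001b8000ff0003f8000ff0000500000000000000000000000000000000000) (nat_lit 15)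
theorem c110937 : QOK q110937 := cut [q83712, q94114, q85551, q110866, q1058, q20203, q19272, q81488, q80201, q19728, q92882, q92874, q103681, q5482, q80450, q1832, q1327, q110920, q91510, q94123, q90474, q11307, q87798, q87228] ⟨c83712, c94114, c85551, c110866, c1058, c20203, c19272, c81488, c80201, c19728, c92882, c92874, c103681, c5482, c80450, c1832, c1327, c110920, c91510, c94123, c90474, c11307, c87798, c87228, trivial⟩ (nd (nat_lit 229) (nat_lit 0) (cs (rf (nat_lit 0)) (cs (rf (nat_lit 1)) (cs (nd (nat_lit 251) (nat_lit 0) (cs (rf (nat_lit 2)) (cs (rf (nat_lit 3)) (cs (nd (nat_lit 250) (nat_lit 0) (cs (rf (nat_lit 4)) (cs (nd (nat_lit 254) (nat_lit 0) (cs (rf (nat_lit 5)) (lf (nat_lit 18) (nat_lit 229)))) (nd (nat_lit 231) (nat_lit 0) (cs (lf (nat_lit 6) (nat_lit 228)) (nd (nat_lit 185) (nat_lit 0) (cs (nd (nat_lit 207) (nat_lit 0) (cs (lf (nat_lit 41) (nat_lit 184)) (lf (nat_lit 24) (nat_lit 163)))) (cs (nd (nat_lit 186) (nat_lit 0) (cs (nd (nat_lit 208)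 (nat_lit 0) (cs (lf (nat_lit 47) (nat_lit 163)) (lf (nat_lit 36) (nat_lit 163)))) (cs (nd (nat_lit 163) (nat_lit 0) (cs (lf (nat_lit 44) (nat_lit 163)) (nd (nat_lit 271) (nat_lit 0) (cs (lf (nat_lit 10) (nat_lit 249)) (nd (nat_lit 254) (nat_lit 0) (cs (lf (nat_lit 18) (nat_lit 229)) (nd (nat_lit 276) (nat_lit 0) (cs (lf (nat_lit 5) (nat_lit 251)) (nd (nat_lit 298) (nat_lit 0) (cs (lf (nat_lit 42) (nat_lit 231)) (nd (nat_lit 187) (nat_lit 0) (cs (rf (nat_lit 6)) (lf (nat_lit 25) (nat_lit 187)))))))))))))) (cs (nd (nat_lit 254) (nat_lit 0) (cs (rf (nat_lit 7)) (nd (nat_lit 187) (nat_lit 0) (cs (rf (nat_lit 8)) (nd (nat_lit 184) (nat_lit 0) (cs (rf (nat_lit 9)) (cs (rf (nat_lit 10)) (nd (nat_lit 271) (nat_lit 0) (cs (lf (nat_lit 10) (nat_lit 249)) (rf (nat_lit 11))))))))))) (nd (nat_lit 271) (nat_lit 0) (cs (lf (nat_lit 10) (nat_lit 249)) (nd (nat_lit 254) (nat_lit 0) (cs (lf (nat_lit 18) (nat_lit 229)) (nd (nat_lit 208) (nat_lit 0) (cs (lf (nat_lit 36) (nat_lit 163))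 (nd (nat_lit 276) (nat_lit 0) (cs (lf (nat_lit 5) (nat_lit 251)) (rf (nat_lit 12)))))))))))))) (cs (nd (nat_lit 207) (nat_lit 0) (cs (lf (nat_lit 29) (nat_lit 185)) (lf (nat_lit 41) (nat_lit 184)))) (nd (nat_lit 207) (nat_lit 0) (cs (lf (nat_lit 29) (nat_lit 185)) (lf (nat_lit 24) (nat_lit 163))))))))))))) (nd (nat_lit 207) (nat_lit 0) (cs (rf (nat_lit 13)) (cs (rf (nat_lit 14)) (cs (nd (nat_lit 208) (nat_lit 0) (cs (rf (nat_lit 15)) (cs (nd (nat_lit 254) (nat_lit 0) (cs (lf (nat_lit 18) (nat_lit 229)) (nd (nat_lit 273) (nat_lit 0) (cs (lf (nat_lit 30) (nat_lit 207)) (nd (nat_lit 274) (nat_lit 0) (cs (lf (nat_lit 29) (nat_lit 207)) (nd (nat_lit 276) (nat_lit 0) (cs (lf (nat_lit 5) (nat_lit 251)) (nd (nat_lit 187) (nat_lit 0) (cs (lf (nat_lit 34) (nat_lit 186)) (rf (nat_lit 16)))))))))))) (rf (nat_lit 17))))) (nd (nat_lit 185) (nat_lit 0) (cs (lf (nat_lit 24) (nat_lit 163)) (nd (nat_lit 254) (nat_lit 0) (cs (lf (nat_lit 18) (nat_lit 229)) (nd (nat_lit 276) (nat_lit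 0) (cs (lf (nat_lit 5) (nat_lit 251)) (rf (nat_lit 18)))))))))))))))) (nd (nat_lit 274) (nat_lit 0) (cs (rf (nat_lit 19)) (cs (nd (nat_lit 208) (nat_lit 0) (cs (rf (nat_lit 20)) (cs (nd (nat_lit 227) (nat_lit 0) (cs (lf (nat_lit 1) (nat_lit 227)) (nd (nat_lit 187) (nat_lit 0) (cs (lf (nat_lit 34) (nat_lit 186)) (nd (nat_lit 186) (nat_lit 0) (cs (lf (nat_lit 35) (nat_lit 164)) (rf (nat_lit 21)))))))) (nd (nat_lit 273) (nat_lit 0) (cs (lf (nat_lit 41) (nat_lit 207)) (nd (nat_lit 271) (nat_lit 0) (cs (lf (nat_lit 13) (nat_lit 249)) (nd (nat_lit 228) (nat_lit 0) (cs (lf (nat_lit 0) (nat_lit 227)) (nd (nat_lit 185) (nat_lit 0) (cs (lf (nat_lit 46) (nat_lit 185)) (rf (nat_lit 22))))))))))))) (nd (nat_lit 227) (nat_lit 0) (cs (lf (nat_lit 1) (nat_lit 227)) (rf (nat_lit 23))))))))))) q110937 (by decide +kernel)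
def q110985 : Q := Q.p (nat_lit 0x3800000000000000000000000000000000000000000000000000000000000000) (nat_lit 0xc000030001dee003c7000ffe00000000000000000000000000000000000000000000000000000000) (nat_lit 11)
theorem c110985 : QOK q110985 := cut [q81085, q81675, q81752, q92342] ⟨c81085, c81675, c81752, c92342, trivial⟩ (nd (nat_lit 254) (nat_lit 0) (cs (rf (nat_lit 0)) (cs (rf (nat_lit 1)) (cs (rf (nat_lit 2)) (rf (nat_lit 3)))))) q110985 (by decide +kernel)
def q111039 : Q := Q.p (nat_lit 0x200000000006000038000000000000000000000000000000000000000000000000000000000) (nat_lit 0x18000000000040003c0000380000e00000000000000000000000000000000000000000) (nat_lit 7)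
theorem c111039 : QOK q111039 := cut [q111038] ⟨c111038, trivial⟩ (nd (nat_lit 210) (nat_lit 0) (cs (lf (nat_lit 31) (nat_lit 209)) (rf (nat_lit 0)))) q111039 (by decide +kernel)
def q111086 : Q := Q.p (nat_lit 0x7000000000000000000000000000000000000000000000000000000000000000) (nat_lit 0xc000030001dee0038f000ffe00000000000000000000000000000000000000000000000000000000) (nat_lit 11)
theorem c111086 : QOK q111086 := cut [q81085, q81675, q81752, q92342] ⟨c81085, c81675, c81752, c92342, trivial⟩ (nd (nat_lit 251) (nat_lit 0) (cs (rf (nat_lit 0)) (cs (rf (nat_lit 1)) (cs (rf (nat_lit 2)) (rf (nat_lit 3)))))) q111086 (by decide +kernel)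
def q111104 : Q := Q.p (nat_lit 0x100000400007000000000000000000000000000000000000000000000000000000000000000) (nat_lit 0x380000f0000e80000b00000000016000018000060000000000000000000000000000000000000000000000) (nat_lit 9)
theorem c111104 : QOK q111104 := cut [q80998, q81321, q81327, q111103] ⟨c80998, c81321, c81327, c111103, trivial⟩ (nd (nat_lit 319) (nat_lit 0) (cs (rf (nat_lit 0)) (cs (rf (nat_lit 1)) (cs (rf (nat_lit 2)) (rf (nat_lit 3)))))) q111104 (by decide +kernel)
def q111136 : Q := Q.p (nat_lit 0x7800010000040000000000000000000000000000000000000000000000000000) (nat_lit 0x700003f0000000000f0000bc0002f0000000000000000000000000000000000000000000000) (nat_lit 12)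
theorem c111136 : QOK q111136 := cut [q81997] ⟨c81997, trivial⟩ (nd (nat_lit 276) (nat_lit 0) (cs (lf (nat_lit 5) (nat_lit 251)) (nd (nat_lit 275) (nat_lit 0) (cs (lf (nat_lit 41) (nat_lit 209)) (nd (nat_lit 189) (nat_lit 0) (cs (lf (nat_lit 34) (nat_lit 188)) (nd (nat_lit 228) (nat_lit 0) (cs (lf (nat_lit 22) (nat_lit 228)) (nd (nat_lit 272) (nat_lit 0) (cs (lf (nat_lit 10) (nat_lit 250)) (rf (nat_lit 0)))))))))))) q111136 (by decide +kernel)
def q111196 : Q := Q.p (nat_lit 0x1800006000000000000000000000000000000000000000000000000000000000000000) (nat_lit 0x1f00007c0003bc000e700038c00008000020000000000000000000000000000000000000000000000000000) (nat_lit 12)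
theorem c111196 : QOK q111196 := cut [q79289, q111182, q108186, q111193] ⟨c79289, c111182, c108186, c111193, trivial⟩ (nd (nat_lit 274) (nat_lit 0) (cs (rf (nat_lit 0)) (cs (rf (nat_lit 1)) (nd (nat_lit 277) (nat_lit 0) (cs (rf (nat_lit 2)) (cs (nd (nat_lit 299) (nat_lit 0) (cs (lf (nat_lit 5) (nat_lit 274)) (nd (nat_lit 321) (nat_lit 0) (cs (lf (nat_lit 42) (nat_lit 254)) (nd (nat_lit 255) (nat_lit 0) (cs (lf (nat_lit 17) (nat_lit 252)) (nd (nat_lit 320) (nat_lit 0) (cs (lf (nat_lit 41) (nat_lit 254)) (nd (nat_lit 296) (nat_lit 0) (cs (lf (nat_lit 11) (nat_lit 273)) (nd (nat_lit 322) (nat_lit 0) (cs (lf (nat_lit 29) (nat_lit 255)) (nd (nat_lit 209) (nat_lit 0) (cs (lf (nat_lit 37) (nat_lit 208)) (nd (nat_lit 319) (nat_lit 0) (cs (lf (nat_lit 22) (nat_lit 296)) (nd (nat_lit 340) (nat_lit 0) (cs (lf (nat_lit 31) (nat_lit 252)) (lf (nat_lit 10) (nat_lit 318)))))))))))))))))))) (nd (nat_lit 295) (nat_lit 0) (cs (lf (nat_lit 10) (nat_lit 273)) (rf (nat_lit 3))))))))))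 q111196 (by decide +kernel)
def q111223 : Q := Q.p (nat_lit 0x1800006000000000000000000000000000000000000000000000000000000000000000) (nat_lit 0x800002000039c000e700038c00010000000000000000000000000000000000000000000000000000000000) (nat_lit 8)
theorem c111223 : QOK q111223 := cut [q79289, q111182, q108186, q108735, q111193] ⟨c79289, c111182, c108186, c108735, c111193, trivial⟩ (nd (nat_lit 274) (nat_lit 0) (cs (rf (nat_lit 0)) (cs (rf (nat_lit 1)) (nd (nat_lit 277) (nat_lit 0) (cs (rf (nat_lit 2)) (cs (rf (nat_lit 3)) (rf (nat_lit 4)))))))) q111223 (by decide +kernel)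
def q111264 : Q := Q.p (nat_lit 0x1800006000000000000000000000000000000000000000000000000000000000000000) (nat_lit 0x700001c000078000600000000000e0001f00001c0000000000000000000000000000000000000000000000) (nat_lit 7)
theorem c111264 : QOK q111264 := cut [q101592, q111225, q111259, q111260, q99949] ⟨c101592, c111225, c111259, c111260, c99949, trivial⟩ (nd (nat_lit 231) (nat_lit 0) (cs (rf (nat_lit 0)) (cs (rf (nat_lit 1)) (nd (nat_lit 297) (nat_lit 0) (cs (rf (nat_lit 2)) (cs (rf (nat_lit 3)) (nd (nat_lit 298) (nat_lit 0) (cs (lf (nat_lit 42) (nat_lit 231)) (nd (nat_lit 208) (nat_lit 0) (cs (lf (nat_lit 46) (nat_lit 208)) (rf (nat_lit 4)))))))))))) q111264 (by decide +kernel)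
def q111273 : Q := Q.p (nat_lit 0x1800006000000000000000000000000000000000000000000000000000000000000000) (nat_lit 0xc0000300003dc000e700038c00060000180000600000000000000000000000000000000000000000000000) (nat_lit 11)
theorem c111273 : QOK q111273 := cut [q79289, q111182, q108186, q111193, q80551, q111270] ⟨c79289, c111182, c108186, c111193, c80551, c111270, trivial⟩ (nd (nat_lit 274) (nat_lit 0) (cs (rf (nat_lit 0)) (cs (rf (nat_lit 1)) (nd (nat_lit 277) (nat_lit 0) (cs (rf (nat_lit 2)) (cs (rf (nat_lit 3)) (nd (nat_lit 255) (nat_lit 0) (cs (rf (nat_lit 4)) (rf (nat_lit 5)))))))))) q111273 (by decide +kernel)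
def q111302 : Q := Q.p (nat_lit 0x1800006000000000000000000000000000000000000000000000000000000000000000) (nat_lit 0x180000640003fc000e700038c00008000020000000000000000000000000000000000000000000000000000) (nat_lit 10)
theorem c111302 : QOK q111302 := cut [q79289, q111182, q108186, q111193] ⟨c79289, c111182, c108186, c111193, trivial⟩ (nd (nat_lit 274) (nat_lit 0) (cs (rf (nat_lit 0)) (cs (rf (nat_lit 1)) (nd (nat_lit 277) (nat_lit 0) (cs (rf (nat_lit 2)) (cs (rf (nat_lit 3)) (nd (nat_lit 299) (nat_lit 0) (cs (lf (nat_lit 5) (nat_lit 274)) (nd (nat_lit 321) (nat_lit 0) (cs (lf (nat_lit 42) (nat_lit 254)) (nd (nat_lit 255) (nat_lit 0) (cs (lf (nat_lit 17) (nat_lit 252)) (nd (nat_lit 296) (nat_lit 0) (cs (lf (nat_lit 11) (nat_lit 273)) (nd (nat_lit 322) (nat_lit 0) (cs (lf (nat_lit 29) (nat_lit 255)) (nd (nat_lit 231) (nat_lit 0) (cs (lf (nat_lit 36) (nat_lit 208)) (nd (nat_lit 297) (nat_lit 0) (cs (lf (nat_lit 41) (nat_lit 230)) (lf (nat_lit 2) (nat_lit 296))))))))))))))))))))))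 q111302 (by decide +kernel)
def q111375 : Q := Q.p (nat_lit 0x1800006000000000000000000000000000000000000000000000000000000000000000) (nat_lit 0xe0000780007e0001fe0007f00007e0002700018c000700000f8000380000000000000000000000000000000000000000000000) (nat_lit 17)
theorem c111375 : QOK q111375 := cut [q79289, q111337, q41733, q41738, q13127, q2590, q43788, q14629, q111373] ⟨c79289, c111337, c41733, c41738, c13127, c2590, c43788, c14629, c111373, trivial⟩ (nd (nat_lit 319) (nat_lit 0) (cs (nd (nat_lit 297) (nat_lit 0) (cs (lf (nat_lit 35) (nat_lit 231)) (lf (nat_lit 30) (nat_lit 253)))) (cs (nd (nat_lit 274) (nat_lit 0) (cs (rf (nat_lit 0)) (cs (nd (nat_lit 273) (nat_lit 0) (cs (lf (nat_lit 12) (nat_lit 250)) (nd (nat_lit 250) (nat_lit 0) (cs (lf (nat_lit 22) (nat_lit 250)) (nd (nat_lit 295) (nat_lit 0) (cs (lf (nat_lit 11) (nat_lit 272)) (nd (nat_lit 296) (nat_lit 0) (cs (lf (nat_lit 6) (nat_lit 273)) (nd (nat_lit 318) (nat_lit 0) (cs (lf (nat_lit 30) (nat_lit 252))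 (nd (nat_lit 320) (nat_lit 0) (cs (lf (nat_lit 18) (nat_lit 295)) (rf (nat_lit 1)))))))))))))) (nd (nat_lit 320) (nat_lit 0) (cs (rf (nat_lit 1)) (cs (nd (nat_lit 318) (nat_lit 0) (cs (nd (nat_lit 255) (nat_lit 0) (cs (lf (nat_lit 6) (nat_lit 252)) (nd (nat_lit 296) (nat_lit 0) (cs (lf (nat_lit 30) (nat_lit 252)) (nd (nat_lit 295) (nat_lit 0) (cs (lf (nat_lit 6) (nat_lit 273)) (lf (nat_lit 18) (nat_lit 295)))))))) (cs (nd (nat_lit 317) (nat_lit 0) (cs (rf (nat_lit 2)) (nd (nat_lit 295) (nat_lit 0) (cs (lf (nat_lit 23) (nat_lit 294)) (nd (nat_lit 296) (nat_lit 0) (cs (lf (nat_lit 6) (nat_lit 273)) (lf (nat_lit 18) (nat_lit 295)))))))) (cs (nd (nat_lit 317) (nat_lit 0) (cs (rf (nat_lit 2)) (cs (nd (nat_lit 255) (nat_lit 0) (cs (rf (nat_lit 3)) (lf (nat_lit 6) (nat_lit 252)))) (cs (nd (nat_lit 343) (nat_lit 0) (cs (lf (nat_lit 4) (nat_lit 317)) (nd (nat_lit 255) (nat_lit 0) (cs (rf (nat_lit 4)) (lf (nat_lit 6) (nat_lit 252)))))) (nd (nat_lit 255) (nat_lit 0) (cs (rf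 (nat_lit 5)) (lf (nat_lit 6) (nat_lit 252)))))))) (cs (nd (nat_lit 255) (nat_lit 0) (cs (lf (nat_lit 6) (nat_lit 252)) (nd (nat_lit 340) (nat_lit 0) (cs (lf (nat_lit 32) (nat_lit 252)) (nd (nat_lit 321) (nat_lit 0) (cs (lf (nat_lit 11) (nat_lit 317)) (nd (nat_lit 343) (nat_lit 0) (cs (lf (nat_lit 5) (nat_lit 318)) (nd (nat_lit 342) (nat_lit 0) (cs (lf (nat_lit 0) (nat_lit 317)) (nd (nat_lit 341) (nat_lit 0) (cs (lf (nat_lit 17) (nat_lit 318)) (nd (nat_lit 362) (nat_lit 0) (cs (lf (nat_lit 11) (nat_lit 339)) (nd (nat_lit 365) (nat_lit 0) (cs (lf (nat_lit 5) (nat_lit 340)) (rf (nat_lit 6)))))))))))))))))) (nd (nat_lit 255) (nat_lit 0) (cs (lf (nat_lit 6) (nat_lit 252)) (nd (nat_lit 296) (nat_lit 0) (cs (lf (nat_lit 30) (nat_lit 252)) (nd (nat_lit 295) (nat_lit 0) (cs (lf (nat_lit 6) (nat_lit 273)) (rf (nat_lit 7))))))))))))) (cs (nd (nat_lit 255) (nat_lit 0) (cs (lf (nat_lit 6) (nat_lit 252)) (nd (nat_lit 298) (nat_lit 0) (cs (lf (nat_lit 41) (nat_lit 253)) (lf (nat_lit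 35) (nat_lit 232)))))) (nd (nat_lit 255) (nat_lit 0) (cs (lf (nat_lit 6) (nat_lit 252)) (nd (nat_lit 298) (nat_lit 0) (cs (lf (nat_lit 42) (nat_lit 253)) (lf (nat_lit 35) (nat_lit 232))))))))))))) (nd (nat_lit 232) (nat_lit 0) (cs (lf (nat_lit 31) (nat_lit 231)) (rf (nat_lit 8))))))) q111375 (by decide +kernel)
def q111455 : Q := Q.p (nat_lit 0x1000006000000000000000000000000000000000000000000000000000000000000000) (nat_lit 0x80000e00007f0003fc000ef000380000ff0003b8000080000000000000000000000000000000000000000000000) (nat_lit 15)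
theorem c111455 : QOK q111455 := cut [q90151, q111173, q80904, q81412, q111159, q99949, q111266, q89040, q16976, q109087, q111441, q111452] ⟨c90151, c111173, c80904, c81412, c111159, c99949, c111266, c89040, c16976, c109087, c111441, c111452, trivial⟩ (nd (nat_lit 298) (nat_lit 0) (cs (rf (nat_lit 0)) (cs (rf (nat_lit 1)) (nd (nat_lit 231) (nat_lit 0) (cs (rf (nat_lit 2)) (cs (rf (nat_lit 3)) (nd (nat_lit 297) (nat_lit 0) (cs (nd (nat_lit 232) (nat_lit 0) (cs (lf (nat_lit 41) (nat_lit 231)) (nd (nat_lit 299) (nat_lit 0) (cs (lf (nat_lit 29) (nat_lit 232)) (rf (nat_lit 4)))))) (cs (nd (nat_lit 275) (nat_lit 0) (cs (rf (nat_lit 5)) (cs (rf (nat_lit 6)) (nd (nat_lit 230) (nat_lit 0) (cs (lf (nat_lit 47) (nat_lit 208)) (nd (nat_lit 228) (nat_lit 0) (cs (lf (nat_lit 1) (nat_lit 228)) (nd (nat_lit 255) (nat_lit 0) (cs (lf (nat_lit 18) (nat_lit 230)) (nd (nat_lit 274) (nat_lit 0) (cs (lf (nat_lit 12) (nat_lit 251)) (nd (nat_lit 299) (nat_lit 0) (cs (lf (nat_lit 18) (nat_lit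 274)) (nd (nat_lit 232) (nat_lit 0) (cs (lf (nat_lit 29) (nat_lit 232)) (nd (nat_lit 233) (nat_lit 0) (cs (lf (nat_lit 35) (nat_lit 210)) (nd (nat_lit 234) (nat_lit 0) (cs (lf (nat_lit 6) (nat_lit 231)) (nd (nat_lit 212) (nat_lit 0) (cs (lf (nat_lit 17) (nat_lit 209)) (lf (nat_lit 31) (nat_lit 211))))))))))))))))))))))) (cs (nd (nat_lit 296) (nat_lit 0) (cs (rf (nat_lit 7)) (cs (nd (nat_lit 275) (nat_lit 0) (cs (lf (nat_lit 41) (nat_lit 230)) (rf (nat_lit 8)))) (cs (nd (nat_lit 275) (nat_lit 0) (cs (lf (nat_lit 41) (nat_lit 230)) (nd (nat_lit 208) (nat_lit 0) (cs (lf (nat_lit 46) (nat_lit 208)) (nd (nat_lit 295) (nat_lit 0) (cs (lf (nat_lit 12) (nat_lit 272)) (nd (nat_lit 319) (nat_lit 0) (cs (lf (nat_lit 30) (nat_lit 253)) (nd (nat_lit 316) (nat_lit 0) (cs (lf (nat_lit 10) (nat_lit 294)) (rf (nat_lit 9)))))))))))) (nd (nat_lit 275) (nat_lit 0) (cs (lf (nat_lit 41) (nat_lit 230)) (nd (nat_lit 277) (nat_lit 0) (cs (lf (nat_lit 6) (nat_lit 274)) (nd (nat_lit 319) (nat_lit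 0) (cs (lf (nat_lit 30) (nat_lit 253)) (nd (nat_lit 230) (nat_lit 0) (cs (lf (nat_lit 47) (nat_lit 208)) (nd (nat_lit 228) (nat_lit 0) (cs (lf (nat_lit 1) (nat_lit 228)) (nd (nat_lit 255) (nat_lit 0) (cs (lf (nat_lit 18) (nat_lit 230)) (nd (nat_lit 211) (nat_lit 0) (cs (lf (nat_lit 37) (nat_lit 210)) (rf (nat_lit 10)))))))))))))))))))) (rf (nat_lit 11)))))))))))) q111455 (by decide +kernel)
def q111514 : Q := Q.p (nat_lit 0x400001000006000000000000000000000000000000000000000000000000000000000000000) (nat_lit 0x2000008000020000380000ff0007fc000280000800000000000000000000000000000000000000000) (nat_lit 9)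
theorem c111514 : QOK q111514 := cut [q79744, q103780, q111513] ⟨c79744, c103780, c111513, trivial⟩ (nd (nat_lit 232) (nat_lit 0) (cs (rf (nat_lit 0)) (cs (rf (nat_lit 1)) (rf (nat_lit 2))))) q111514 (by decide +kernel)
def q111543 : Q := Q.p (nat_lit 0x400001000006000000000000000000000000000000000000000000000000000000000000000) (nat_lit 0x800002000008000380000ff0007fc000380000800000000000000000000000000000000000000000) (nat_lit 9)
theorem c111543 : QOK q111543 := cut [q81429, q111149, q111513] ⟨c81429, c111149, c111513, trivial⟩ (nd (nat_lit 232) (nat_lit 0) (cs (rf (nat_lit 0)) (cs (rf (nat_lit 1)) (rf (nat_lit 2))))) q111543 (by decide +kernel)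
def q111581 : Q := Q.p (nat_lit 0x200000800006000018000000000000000000000000000000000000000000000000000000000) (nat_lit 0x1c000e700039c000000000000000000000000000000000000000000000000000) (nat_lit 8)
theorem c111581 : QOK q111581 := cut [q111580] ⟨c111580, trivial⟩ (nd (nat_lit 230) (nat_lit 0) (cs (lf (nat_lit 47) (nat_lit 208)) (rf (nat_lit 0)))) q111581 (by decide +kernel)
def q111610 : Q := Q.p (nat_lit 0x1800006000000000000000000000000000000000000000000000000000000000000000) (nat_lit 0x80000340001dc0006700001c0000f000028000020000000000000000000000000000000000000000000000) (nat_lit 8)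
theorem c111610 : QOK q111610 := cut [q79170, q111599, q81957, q98379, q111605, q83685] ⟨c79170, c111599, c81957, c98379, c111605, c83685, trivial⟩ (nd (nat_lit 274) (nat_lit 0) (cs (nd (nat_lit 252) (nat_lit 0) (cs (rf (nat_lit 0)) (cs (rf (nat_lit 1)) (nd (nat_lit 277) (nat_lit 0) (cs (lf (nat_lit 18) (nat_lit 252)) (nd (nat_lit 299) (nat_lit 0) (cs (lf (nat_lit 5) (nat_lit 274)) (nd (nat_lit 321) (nat_lit 0) (cs (lf (nat_lit 42) (nat_lit 254)) (rf (nat_lit 2))))))))))) (cs (nd (nat_lit 273) (nat_lit 0) (cs (lf (nat_lit 12) (nat_lit 250)) (rf (nat_lit 3)))) (cs (rf (nat_lit 4)) (nd (nat_lit 273) (nat_lit 0) (cs (lf (nat_lit 12) (nat_lit 250)) (nd (nat_lit 294) (nat_lit 0) (cs (lf (nat_lit 10) (nat_lit 272)) (nd (nat_lit 251) (nat_lit 0) (cs (lf (nat_lit 23) (nat_lit 250)) (nd (nat_lit 252) (nat_lit 0) (cs (lf (nat_lit 5) (nat_lit 251)) (rf (nat_lit 5)))))))))))))) q111610 (by decide +kernel)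
def q111630 : Q := Q.p (nat_lit 0x1800006000010000000000000000000000000000000000000000000000000000000000) (nat_lit 0x1000004000000000010000ec0000bc0000c0000000000000000000000000000000000000000000000) (nat_lit 6)
theorem c111630 : QOK q111630 := cut [q79181, q111239, q100002] ⟨c79181, c111239, c100002, trivial⟩ (nd (nat_lit 231) (nat_lit 0) (cs (rf (nat_lit 0)) (cs (rf (nat_lit 1)) (nd (nat_lit 298) (nat_lit 0) (cs (lf (nat_lit 42) (nat_lit 231)) (rf (nat_lit 2))))))) q111630 (by decide +kernel)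
def q111631 : Q := Q.p (nat_lit 0x1800006000010000000000000000000000000000000000000000000000000000000000) (nat_lit 0x50000070000000002800007c0001c0000000000000000000000000000000000000000000000) (nat_lit 8)
theorem c111631 : QOK q111631 := cut [q79778] ⟨c79778, trivial⟩ (nd (nat_lit 210) (nat_lit 0) (cs (lf (nat_lit 36) (nat_lit 187)) (rf (nat_lit 0)))) q111631 (by decide +kernel)
def q111638 : Q := Q.p (nat_lit 0x1800006000010000000000000000000000000000000000000000000000000000000000) (nat_lit 0x1c0002700001c0006f0003fc0003f0000000000000000000000000000000000000000000000) (nat_lit 13)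
theorem c111638 : QOK q111638 := cut [q111239, q111253, q80010, q80355] ⟨c111239, c111253, c80010, c80355, trivial⟩ (nd (nat_lit 231) (nat_lit 0) (cs (rf (nat_lit 0)) (cs (rf (nat_lit 1)) (cs (nd (nat_lit 188) (nat_lit 0) (cs (lf (nat_lit 37) (nat_lit 187)) (nd (nat_lit 209) (nat_lit 0) (cs (lf (nat_lit 24) (nat_lit 187)) (rf (nat_lit 2)))))) (nd (nat_lit 209) (nat_lit 0) (cs (lf (nat_lit 24) (nat_lit 187)) (nd (nat_lit 186) (nat_lit 0) (cs (lf (nat_lit 46) (nat_lit 186)) (nd (nat_lit 274) (nat_lit 0) (cs (lf (nat_lit 41) (nat_lit 208)) (nd (nat_lit 188) (nat_lit 0) (cs (lf (nat_lit 37) (nat_lit 187)) (rf (nat_lit 3)))))))))))))) q111638 (by decide +kernel)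
def q111673 : Q := Q.p (nat_lit 0x800006000000000000000000000000000000000000000000000000000000000000000) (nat_lit 0x80000f00003c0003fc000f700031c000f78001f80003e0000000000000000000000000000000000000000000000) (nat_lit 11)
theorem c111673 : QOK q111673 := cut [q111593, q90020, q111373, q79422, q79765, q80313, q111319, q111452, q111647, q111658, q80008, q103857, q79165, q111599, q14939, q98838, q83685] ⟨c111593, c90020, c111373, c79422, c79765, c80313, c111319, c111452, c111647, c111658, c80008, c103857, c79165, c111599, c14939, c98838, c83685, trivial⟩ (nd (nat_lit 276) (nat_lit 0) (cs (rf (nat_lit 0)) (cs (nd (nat_lit 232) (nat_lit 0) (cs (rf (nat_lit 1)) (cs (rf (nat_lit 2)) (nd (nat_lit 298) (nat_lit 0) (cs (rf (nat_lit 3)) (cs (rf (nat_lit 4)) (rf (nat_lit 5)))))))) (cs (nd (nat_lit 232) (nat_lit 0) (cs (rf (nat_lit 1)) (cs (rf (nat_lit 6)) (nd (nat_lit 298) (nat_lit 0) (cs (rf (nat_lit 3)) (cs (rf (nat_lit 5)) (nd (nat_lit 297) (nat_lit 0) (cs (rf (nat_lit 7))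 (nd (nat_lit 299) (nat_lit 0) (cs (lf (nat_lit 29) (nat_lit 232)) (rf (nat_lit 8)))))))))))) (cs (rf (nat_lit 9)) (nd (nat_lit 232) (nat_lit 0) (cs (rf (nat_lit 1)) (cs (rf (nat_lit 2)) (nd (nat_lit 274) (nat_lit 0) (cs (rf (nat_lit 10)) (cs (nd (nat_lit 297) (nat_lit 0) (cs (lf (nat_lit 30) (nat_lit 231)) (rf (nat_lit 11)))) (cs (nd (nat_lit 252) (nat_lit 0) (cs (rf (nat_lit 12)) (cs (rf (nat_lit 13)) (nd (nat_lit 319) (nat_lit 0) (cs (lf (nat_lit 31) (nat_lit 231)) (nd (nat_lit 277) (nat_lit 0) (cs (lf (nat_lit 18) (nat_lit 252)) (nd (nat_lit 296) (nat_lit 0) (cs (lf (nat_lit 11) (nat_lit 273)) (rf (nat_lit 14))))))))))) (cs (nd (nat_lit 297) (nat_lit 0) (cs (lf (nat_lit 30) (nat_lit 231)) (nd (nat_lit 273) (nat_lit 0) (cs (lf (nat_lit 12) (nat_lit 250)) (rf (nat_lit 15)))))) (nd (nat_lit 273) (nat_lit 0) (cs (lf (nat_lit 12) (nat_lit 250)) (nd (nat_lit 297) (nat_lit 0) (cs (lf (nat_lit 30) (nat_lit 231)) (nd (nat_lit 294) (nat_lit 0) (cs (lf (nat_lit 10) (nat_lit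 272)) (nd (nat_lit 251) (nat_lit 0) (cs (lf (nat_lit 23) (nat_lit 250)) (nd (nat_lit 252) (nat_lit 0) (cs (lf (nat_lit 17) (nat_lit 229)) (rf (nat_lit 16))))))))))))))))))))))))) q111673 (by decide +kernel)
def q111722 : Q := Q.p (nat_lit 0x1a00006000000000000000000000000000000000000000000000000000000000000000) (nat_lit 0x1100006c0002100001c0000f0001fc0001f0000140000000000000000000000000000000000000000) (nat_lit 10)
theorem c111722 : QOK q111722 := cut [q101592, q111225, q104984, q107805, q10970, q111707, q80446, q82595, q12654, q12953] ⟨c101592, c111225, c104984, c107805, c10970, c111707, c80446, c82595, c12654, c12953, trivial⟩ (nd (nat_lit 231) (nat_lit 0) (cs (rf (nat_lit 0)) (cs (rf (nat_lit 1)) (nd (nat_lit 251) (nat_lit 0) (cs (rf (nat_lit 2)) (cs (rf (nat_lit 3)) (nd (nat_lit 229) (nat_lit 0) (cs (nd (nat_lit 228) (nat_lit 0) (cs (lf (nat_lit 2) (nat_lit 228)) (nd (nat_lit 206) (nat_lit 0) (cs (lf (nat_lit 42) (nat_lit 206)) (rf (nat_lit 4)))))) (cs (nd (nat_lit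 207) (nat_lit 0) (cs (nd (nat_lit 298) (nat_lit 0) (cs (lf (nat_lit 42) (nat_lit 231)) (rf (nat_lit 5)))) (nd (nat_lit 208) (nat_lit 0) (cs (lf (nat_lit 35) (nat_lit 185)) (nd (nat_lit 230) (nat_lit 0) (cs (lf (nat_lit 42) (nat_lit 208)) (lf (nat_lit 30) (nat_lit 207)))))))) (cs (nd (nat_lit 207) (nat_lit 0) (cs (rf (nat_lit 6)) (cs (nd (nat_lit 272) (nat_lit 0) (cs (lf (nat_lit 41) (nat_lit 206)) (nd (nat_lit 185) (nat_lit 0) (cs (lf (nat_lit 40) (nat_lit 184)) (rf (nat_lit 7)))))) (cs (rf (nat_lit 5)) (nd (nat_lit 298) (nat_lit 0) (cs (lf (nat_lit 42) (nat_lit 231)) (nd (nat_lit 186) (nat_lit 0) (cs (lf (nat_lit 34) (nat_lit 185)) (nd (nat_lit 294) (nat_lit 0) (cs (lf (nat_lit 40) (nat_lit 206)) (nd (nat_lit 295) (nat_lit 0) (cs (rf (nat_lit 8)) (lf (nat_lit 41) (nat_lit 228)))))))))))))) (nd (nat_lit 298) (nat_lit 0) (cs (lf (nat_lit 42) (nat_lit 231)) (nd (nat_lit 230) (nat_lit 0) (cs (lf (nat_lit 0) (nat_lit 228)) (nd (nat_lit 208) (nat_lit 0) (cs (lf (nat_lit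 42) (nat_lit 208)) (rf (nat_lit 9)))))))))))))))))) q111722 (by decide +kernel)
def q111788 : Q := Q.p (nat_lit 0x800006000018000000000000000000000000000000000000000000000000000000000) (nat_lit 0x200000000001c000e700039c000040000100000000000000000000000000000000000000000) (nat_lit 8)
theorem c111788 : QOK q111788 := cut [q97957, q111580, q80002] ⟨c97957, c111580, c80002, trivial⟩ (nd (nat_lit 230) (nat_lit 0) (cs (rf (nat_lit 0)) (cs (rf (nat_lit 1)) (nd (nat_lit 208) (nat_lit 0) (cs (lf (nat_lit 42) (nat_lit 208)) (nd (nat_lit 207) (nat_lit 0) (cs (lf (nat_lit 18) (nat_lit 207)) (rf (nat_lit 2))))))))) q111788 (by decide +kernel)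
def q111870 : Q := Q.p (nat_lit 0x800006000000000000000000000000000000000000000000000000000000000000000) (nat_lit 0x140000f00007f8001fe000f7c0001c0001f0000380000c0000000000000000000000000000000000000000000000) (nat_lit 12)
theorem c111870 : QOK q111870 := cut [q81239, q111587, q111778, q89653, q94505, q11666, q11728, q109085, q89321, q111826, q111829, q107846, q14329, q53956, q111847, q111868] ⟨c81239, c111587, c111778, c89653, c94505, c11666, c11728, c109085, c89321, c111826, c111829, c107846, c14329, c53956, c111847, c111868, trivial⟩ (nd (nat_lit 297) (nat_lit 0) (cs (rf (nat_lit 0)) (cs (rf (nat_lit 1)) (cs (rf (nat_lit 2)) (cs (nd (nat_lit 296) (nat_lit 0) (cs (rf (nat_lit 3)) (cs (rf (nat_lit 4)) (cs (nd (nat_lit 295) (nat_lit 0) (cs (rf (nat_lit 5)) (cs (rf (nat_lit 6)) (cs (rf (nat_lit 7)) (nd (nat_lit 298) (nat_lit 0) (cs (nd (nat_lit 317) (nat_lit 0) (cs (lf (nat_lit 11) (nat_lit 294)) (nd (nat_lit 272) (nat_lit 0) (cs (lf (nat_lit 22) (nat_lit 272)) (nd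 (nat_lit 299) (nat_lit 0) (cs (lf (nat_lit 10) (nat_lit 295)) (rf (nat_lit 8)))))))) (rf (nat_lit 9)))))))) (nd (nat_lit 274) (nat_lit 0) (cs (nd (nat_lit 231) (nat_lit 0) (cs (lf (nat_lit 36) (nat_lit 208)) (nd (nat_lit 208) (nat_lit 0) (cs (lf (nat_lit 46) (nat_lit 208)) (rf (nat_lit 10)))))) (cs (nd (nat_lit 272) (nat_lit 0) (cs (lf (nat_lit 13) (nat_lit 250)) (nd (nat_lit 231) (nat_lit 0) (cs (lf (nat_lit 36) (nat_lit 208)) (nd (nat_lit 230) (nat_lit 0) (cs (lf (nat_lit 47) (nat_lit 208)) (nd (nat_lit 229) (nat_lit 0) (cs (lf (nat_lit 0) (nat_lit 228)) (rf (nat_lit 11)))))))))) (cs (nd (nat_lit 295) (nat_lit 0) (cs (rf (nat_lit 5)) (cs (nd (nat_lit 272) (nat_lit 0) (cs (rf (nat_lit 12)) (lf (nat_lit 13) (nat_lit 250)))) (nd (nat_lit 276) (nat_lit 0) (cs (lf (nat_lit 6) (nat_lit 273)) (nd (nat_lit 273) (nat_lit 0) (cs (lf (nat_lit 12) (nat_lit 250)) (nd (nat_lit 250) (nat_lit 0) (cs (lf (nat_lit 22) (nat_lit 250)) (rf (nat_lit 13))))))))))) (nd (nat_lit 272) (nat_lit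 0) (cs (lf (nat_lit 13) (nat_lit 250)) (rf (nat_lit 14)))))))))))) (nd (nat_lit 319) (nat_lit 0) (cs (lf (nat_lit 35) (nat_lit 231)) (rf (nat_lit 15))))))))) q111870 (by decide +kernel)
def q111900 : Q := Q.p (nat_lit 0x800006000000000000000000000000000000000000000000000000000000000000000) (nat_lit 0x140000f00007e0003fc000f7000318000f80001e0000100000000000000000000000000000000000000000000000) (nat_lit 14)
theorem c111900 : QOK q111900 := cut [q81192, q111577, q90750, q99668, q109167, q111882, q108525, q28781, q108526, q111810, q99950, q111530, q111593, q111899] ⟨c81192, c111577, c90750, c99668, c109167, c111882, c108525, c28781, c108526, c111810, c99950, c111530, c111593, c111899, trivial⟩ (nd (nat_lit 297) (nat_lit 0) (cs (rf (nat_lit 0)) (cs (rf (nat_lit 1)) (cs (nd (nat_lit 298) (nat_lit 0) (cs (rf (nat_lit 2)) (cs (rf (nat_lit 3)) (cs (nd (nat_lit 299) (nat_lit 0) (cs (rf (nat_lit 4)) (cs (nd (nat_lit 274) (nat_lit 0) (cs (lf (nat_lit 18) (nat_lit 274)) (nd (nat_lit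 273) (nat_lit 0) (cs (lf (nat_lit 3) (nat_lit 273)) (lf (nat_lit 12) (nat_lit 250)))))) (cs (nd (nat_lit 276) (nat_lit 0) (cs (rf (nat_lit 5)) (cs (nd (nat_lit 320) (nat_lit 0) (cs (lf (nat_lit 42) (nat_lit 253)) (nd (nat_lit 300) (nat_lit 0) (cs (lf (nat_lit 18) (nat_lit 275)) (rf (nat_lit 6)))))) (nd (nat_lit 300) (nat_lit 0) (cs (lf (nat_lit 18) (nat_lit 275)) (nd (nat_lit 210) (nat_lit 0) (cs (rf (nat_lit 7)) (lf (nat_lit 37) (nat_lit 209))))))))) (nd (nat_lit 276) (nat_lit 0) (cs (rf (nat_lit 5)) (cs (nd (nat_lit 273) (nat_lit 0) (cs (lf (nat_lit 1) (nat_lit 273)) (rf (nat_lit 8)))) (nd (nat_lit 320) (nat_lit 0) (cs (lf (nat_lit 42) (nat_lit 253)) (nd (nat_lit 274) (nat_lit 0) (cs (lf (nat_lit 0) (nat_lit 273)) (nd (nat_lit 232) (nat_lit 0) (cs (lf (nat_lit 36) (nat_lit 209)) (nd (nat_lit 233) (nat_lit 0) (cs (lf (nat_lit 35) (nat_lit 210)) (nd (nat_lit 234) (nat_lit 0) (cs (lf (nat_lit 6) (nat_lit 231)) (nd (nat_lit 252) (nat_lit 0) (cs (lf (nat_lit 12) (nat_lit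 229)) (rf (nat_lit 9))))))))))))))))))))) (nd (nat_lit 276) (nat_lit 0) (cs (rf (nat_lit 10)) (cs (rf (nat_lit 11)) (rf (nat_lit 12))))))))) (rf (nat_lit 13)))))) q111900 (by decide +kernel)
def q111926 : Q := Q.p (nat_lit 0xf000000000000000000000000000000000000000000000000000000000000000) (nat_lit 0x1c0000700001c000076000000000760001c0000700001800004000000000000000000000000000000000000) (nat_lit 13)
theorem c111926 : QOK q111926 := cut [q80393, q80415, q80398, q111919] ⟨c80393, c80415, c80398, c111919, trivial⟩ (nd (nat_lit 233) (nat_lit 0) (cs (lf (nat_lit 17) (nat_lit 230)) (nd (nat_lit 211) (nat_lit 0) (cs (rf (nat_lit 0)) (cs (rf (nat_lit 1)) (cs (nd (nat_lit 273) (nat_lit 0) (cs (lf (nat_lit 10) (nat_lit 251)) (nd (nat_lit 277) (nat_lit 0) (cs (lf (nat_lit 5) (nat_lit 252)) (nd (nat_lit 276) (nat_lit 0) (cs (lf (nat_lit 41) (nat_lit 210)) (nd (nat_lit 190) (nat_lit 0) (cs (lf (nat_lit 34) (nat_lit 189)) (nd (nat_lit 229) (nat_lit 0) (cs (lf (nat_lit 22) (nat_lit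 229)) (rf (nat_lit 2)))))))))))) (nd (nat_lit 277) (nat_lit 0) (cs (lf (nat_lit 5) (nat_lit 252)) (nd (nat_lit 190) (nat_lit 0) (cs (lf (nat_lit 34) (nat_lit 189)) (nd (nat_lit 168) (nat_lit 0) (cs (lf (nat_lit 33) (nat_lit 167)) (nd (nat_lit 273) (nat_lit 0) (cs (lf (nat_lit 10) (nat_lit 251)) (nd (nat_lit 229) (nat_lit 0) (cs (lf (nat_lit 22) (nat_lit 229)) (rf (nat_lit 3)))))))))))))))))) q111926 (by decide +kernel)
def q112010 : Q := Q.p (nat_lit 0x6000008000000000000000000000000000000000000000000000000000000000) (nat_lit 0x2c0001b0001fe000390001f70007d8000fe0003d8000d000000000000000000000000000000000000) (nat_lit 13)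
theorem c112010 : QOK q112010 := cut [q80819, q111943, q111961, q80765, q80766, q80811, q103431, q80393, q80901, q111992, q81154, q85794] ⟨c80819, c111943, c111961, c80765, c80766, c80811, c103431, c80393, c80901, c111992, c81154, c85794, trivial⟩ (nd (nat_lit 255) (nat_lit 0) (cs (rf (nat_lit 0)) (cs (rf (nat_lit 1)) (cs (rf (nat_lit 2)) (nd (nat_lit 230) (nat_lit 0) (cs (rf (nat_lit 3)) (cs (rf (nat_lit 4)) (nd (nat_lit 233) (nat_lit 0) (cs (rf (nat_lit 5)) (cs (nd (nat_lit 252) (nat_lit 0) (cs (lf (nat_lit 17) (nat_lit 230)) (nd (nat_lit 274) (nat_lit 0) (cs (lf (nat_lit 11) (nat_lit 251)) (nd (nat_lit 277) (nat_lit 0) (cs (lf (nat_lit 5) (nat_lit 252)) (rf (nat_lit 6)))))))) (cs (nd (nat_lit 211) (nat_lit 0) (cs (rf (nat_lit 7)) (cs (rf (nat_lit 8)) (cs (nd (nat_lit 189) (nat_lit 0) (cs (lf (nat_lit 41) (nat_lit 188)) (nd (nat_lit 168) (nat_lit 0) (cs (lf (nat_lit 34) (nat_lit 167)) (nd (nat_lit 146) (nat_lit 0) (cs (lf (nat_lit 33) (nat_lit 145)) (nd (nat_lit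 188) (nat_lit 0) (cs (lf (nat_lit 47) (nat_lit 166)) (rf (nat_lit 9)))))))))) (nd (nat_lit 212) (nat_lit 0) (cs (lf (nat_lit 14) (nat_lit 208)) (nd (nat_lit 189) (nat_lit 0) (cs (lf (nat_lit 41) (nat_lit 188)) (nd (nat_lit 188) (nat_lit 0) (cs (lf (nat_lit 47) (nat_lit 166)) (nd (nat_lit 186) (nat_lit 0) (cs (lf (nat_lit 1) (nat_lit 186)) (nd (nat_lit 164) (nat_lit 0) (cs (lf (nat_lit 26) (nat_lit 164)) (nd (nat_lit 213) (nat_lit 0) (cs (lf (nat_lit 18) (nat_lit 188)) (rf (nat_lit 9)))))))))))))))))) (nd (nat_lit 211) (nat_lit 0) (cs (rf (nat_lit 10)) (cs (nd (nat_lit 212) (nat_lit 0) (cs (lf (nat_lit 14) (nat_lit 208)) (rf (nat_lit 11)))) (nd (nat_lit 189) (nat_lit 0) (cs (lf (nat_lit 41) (nat_lit 188)) (nd (nat_lit 232) (nat_lit 0) (cs (lf (nat_lit 17) (nat_lit 208)) (lf (nat_lit 36) (nat_lit 166)))))))))))))))))))) q112010 (by decide +kernel)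
def q112065 : Q := Q.p (nat_lit 0x6000008000000000000000000000000000000000000000000000000000000000) (nat_lit 0x40001b0001ee000390001f70003f80007e0001f80002000000000000000000000000000000000000) (nat_lit 14)
theorem c112065 : QOK q112065 := cut [q80872, q111983, q80811, q80885, q80874, q80878, q79123, q104551, q80899, q112030, q112033, q79461] ⟨c80872, c111983, c80811, c80885, c80874, c80878, c79123, c104551, c80899, c112030, c112033, c79461, trivial⟩ (nd (nat_lit 255) (nat_lit 0) (cs (rf (nat_lit 0)) (cs (rf (nat_lit 1)) (nd (nat_lit 233) (nat_lit 0) (cs (rf (nat_lit 2)) (cs (rf (nat_lit 3)) (cs (nd (nat_lit 232) (nat_lit 0) (cs (rf (nat_lit 4)) (cs (rf (nat_lit 5)) (cs (nd (nat_lit 210) (nat_lit 0) (cs (rf (nat_lit 6)) (cs (rf (nat_lit 7)) (nd (nat_lit 188) (nat_lit 0) (cs (lf (nat_lit 29) (nat_lit 188)) (lf (nat_lit 24) (nat_lit 166))))))) (nd (nat_lit 230) (nat_lit 0) (cs (lf (nat_lit 0) (nat_lit 229)) (nd (nat_lit 211) (nat_lit 0) (cs (lf (nat_lit 17) (nat_lit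 208)) (nd (nat_lit 208) (nat_lit 0) (cs (lf (nat_lit 23) (nat_lit 207)) (nd (nat_lit 164) (nat_lit 0) (cs (lf (nat_lit 25) (nat_lit 164)) (nd (nat_lit 275) (nat_lit 0) (cs (lf (nat_lit 42) (nat_lit 208)) (nd (nat_lit 210) (nat_lit 0) (cs (lf (nat_lit 36) (nat_lit 187)) (nd (nat_lit 277) (nat_lit 0) (cs (lf (nat_lit 42) (nat_lit 210)) (rf (nat_lit 8)))))))))))))))))))) (nd (nat_lit 232) (nat_lit 0) (cs (rf (nat_lit 4)) (cs (rf (nat_lit 9)) (cs (rf (nat_lit 10)) (nd (nat_lit 234) (nat_lit 0) (cs (lf (nat_lit 6) (nat_lit 231)) (nd (nat_lit 212) (nat_lit 0) (cs (lf (nat_lit 17) (nat_lit 209)) (nd (nat_lit 168) (nat_lit 0) (cs (lf (nat_lit 37) (nat_lit 167)) (nd (nat_lit 277) (nat_lit 0) (cs (lf (nat_lit 30) (nat_lit 211)) (nd (nat_lit 188) (nat_lit 0) (cs (lf (nat_lit 25) (nat_lit 188)) (nd (nat_lit 209) (nat_lit 0) (cs (rf (nat_lit 11)) (lf (nat_lit 23) (nat_lit 208))))))))))))))))))))))))) q112065 (by decide +kernel)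
def q112084 : Q := Q.p (nat_lit 0xe000008000000000000000000000000000000000000000000000000000000000) (nat_lit 0x1000004000038000010000370001f0000fc0000f00001400000000000000000000000000000000000) (nat_lit 10)
theorem c112084 : QOK q112084 := cut [q80754, q80923, q80931, q112083] ⟨c80754, c80923, c80931, c112083, trivial⟩ (nd (nat_lit 209) (nat_lit 0) (cs (rf (nat_lit 0)) (cs (rf (nat_lit 1)) (cs (rf (nat_lit 2)) (rf (nat_lit 3)))))) q112084 (by decide +kernel)
def q112107 : Q := Q.p (nat_lit 0x6000008000000000000000000000000000000000000000000000000000000000) (nat_lit 0x340001f0001fe000390001f70003e0000780001e00002800000000000000000000000000000000000) (nat_lit 15)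
theorem c112107 : QOK q112107 := cut [q80819, q80872, q112045, q80811, q80885, q112075, q112072, q111462, q112030, q112087, q79123, q111473] ⟨c80819, c80872, c112045, c80811, c80885, c112075, c112072, c111462, c112030, c112087, c79123, c111473, trivial⟩ (nd (nat_lit 255) (nat_lit 0) (cs (rf (nat_lit 0)) (cs (rf (nat_lit 1)) (cs (rf (nat_lit 2)) (nd (nat_lit 233) (nat_lit 0) (cs (rf (nat_lit 3)) (cs (rf (nat_lit 4)) (cs (rf (nat_lit 5)) (nd (nat_lit 276) (nat_lit 0) (cs (rf (nat_lit 6)) (cs (nd (nat_lit 232) (nat_lit 0) (cs (rf (nat_lit 7)) (cs (rf (nat_lit 8)) (cs (nd (nat_lit 209) (nat_lit 0) (cs (lf (nat_lit 24) (nat_lit 187)) (nd (nat_lit 229) (nat_lit 0) (cs (lf (nat_lit 1) (nat_lit 229)) (nd (nat_lit 234) (nat_lit 0) (cs (lf (nat_lit 6) (nat_lit 231)) (nd (nat_lit 212) (nat_lit 0) (cs (lf (nat_lit 17) (nat_lit 209)) (nd (nat_lit 168) (nat_lit 0) (cs (lf (nat_lit 37) (nat_lit 167)) (nd (nat_lit 277) (nat_lit 0) (cs (lf (nat_lit 30) (nat_lit 211)) (nd (nat_lit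 278) (nat_lit 0) (cs (lf (nat_lit 18) (nat_lit 253)) (nd (nat_lit 210) (nat_lit 0) (cs (lf (nat_lit 24) (nat_lit 188)) (rf (nat_lit 9)))))))))))))))))) (nd (nat_lit 210) (nat_lit 0) (cs (rf (nat_lit 10)) (cs (rf (nat_lit 11)) (nd (nat_lit 234) (nat_lit 0) (cs (lf (nat_lit 6) (nat_lit 231)) (nd (nat_lit 189) (nat_lit 0) (cs (lf (nat_lit 34) (nat_lit 188)) (nd (nat_lit 209) (nat_lit 0) (cs (lf (nat_lit 47) (nat_lit 187)) (nd (nat_lit 277) (nat_lit 0) (cs (lf (nat_lit 42) (nat_lit 210)) (nd (nat_lit 278) (nat_lit 0) (cs (lf (nat_lit 18) (nat_lit 253)) (rf (nat_lit 9))))))))))))))))))) (nd (nat_lit 298) (nat_lit 0) (cs (lf (nat_lit 42) (nat_lit 231)) (nd (nat_lit 211) (nat_lit 0) (cs (lf (nat_lit 39) (nat_lit 210)) (lf (nat_lit 33) (nat_lit 210))))))))))))))))) q112107 (by decide +kernel)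
def q112127 : Q := Q.p (nat_lit 0x6000008000000000000000000000000000000000000000000000000000000000) (nat_lit 0x340001d0001fe000390001f70003f8000700001800000000000000000000000000000000000000000) (nat_lit 13)
theorem c112127 : QOK q112127 := cut [q80819, q80872, q112045, q80811, q80765, q80766, q80902, q81149, q112110, q80895, q112033, q81498, q93142] ⟨c80819, c80872, c112045, c80811, c80765, c80766, c80902, c81149, c112110, c80895, c112033, c81498, c93142, trivial⟩ (nd (nat_lit 255) (nat_lit 0) (cs (rf (nat_lit 0)) (cs (rf (nat_lit 1)) (cs (rf (nat_lit 2)) (nd (nat_lit 233) (nat_lit 0) (cs (rf (nat_lit 3)) (cs (nd (nat_lit 230) (nat_lit 0) (cs (rf (nat_lit 4)) (cs (rf (nat_lit 5)) (nd (nat_lit 276) (nat_lit 0) (cs (rf (nat_lit 6)) (cs (rf (nat_lit 7)) (nd (nat_lit 298) (nat_lit 0) (cs (lf (nat_lit 30) (nat_lit 232)) (rf (nat_lit 8)))))))))) (cs (nd (nat_lit 232) (nat_lit 0) (cs (rf (nat_lit 9)) (cs (rf (nat_lit 10)) (nd (nat_lit 234) (nat_lit 0) (cs (lf (nat_lit 6)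 (nat_lit 231)) (nd (nat_lit 212) (nat_lit 0) (cs (lf (nat_lit 17) (nat_lit 209)) (nd (nat_lit 168) (nat_lit 0) (cs (lf (nat_lit 37) (nat_lit 167)) (nd (nat_lit 277) (nat_lit 0) (cs (lf (nat_lit 30) (nat_lit 211)) (nd (nat_lit 188) (nat_lit 0) (cs (lf (nat_lit 25) (nat_lit 188)) (nd (nat_lit 209) (nat_lit 0) (cs (lf (nat_lit 23) (nat_lit 208)) (nd (nat_lit 276) (nat_lit 0) (cs (lf (nat_lit 42) (nat_lit 209)) (nd (nat_lit 211) (nat_lit 0) (cs (lf (nat_lit 36) (nat_lit 188)) (rf (nat_lit 11))))))))))))))))))))) (nd (nat_lit 252) (nat_lit 0) (cs (lf (nat_lit 17) (nat_lit 230)) (nd (nat_lit 230) (nat_lit 0) (cs (lf (nat_lit 23) (nat_lit 229)) (nd (nat_lit 277) (nat_lit 0) (cs (lf (nat_lit 5) (nat_lit 252)) (rf (nat_lit 12)))))))))))))))) q112127 (by decide +kernel)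
def q112147 : Q := Q.p (nat_lit 0xe000000000000000000000000000000000000000000000000000000000000000) (nat_lit 0x1e00007e0001f8001f7000018001f80001c0000700001000000000000000000000000000000000000000000) (nat_lit 12)
theorem c112147 : QOK q112147 := cut [q80763, q81055, q80777, q80805, q80786, q81058, q112137, q112140, q81057, q81945, q80801, q80811, q80814, q112145] ⟨c80763, c81055, c80777, c80805, c80786, c81058, c112137, c112140, c81057, c81945, c80801, c80811, c80814, c112145, trivial⟩ (nd (nat_lit 277) (nat_lit 0) (cs (rf (nat_lit 0)) (cs (rf (nat_lit 1)) (cs (nd (nat_lit 299) (nat_lit 0) (cs (rf (nat_lit 2)) (cs (rf (nat_lit 3)) (cs (nd (nat_lit 320) (nat_lit 0) (cs (rf (nat_lit 4)) (cs (rf (nat_lit 5)) (cs (rf (nat_lit 6)) (rf (nat_lit 7)))))) (nd (nat_lit 233) (nat_lit 0) (cs (rf (nat_lit 8)) (cs (rf (nat_lit 9)) (nd (nat_lit 298) (nat_lit 0) (cs (lf (nat_lit 41) (nat_lit 232)) (rf (nat_lit 10))))))))))) (nd (nat_lit 233) (nat_lit 0) (cs (rf (nat_lit 11)) (cs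 (rf (nat_lit 12)) (rf (nat_lit 13))))))))) q112147 (by decide +kernel)
def q112195 : Q := Q.p (nat_lit 0xe000000000000000000000000000000000000000000000000000000000000000) (nat_lit 0x140001f00007c0003f8007fe000f00007f80003f8000f80000e00002800000000000000000000000000000000000) (nat_lit 12)
theorem c112195 : QOK q112195 := cut [q81180, q81284, q81285, q81192, q111577, q111899, q90750, q99668, q99947, q99950, q111310, q99363, q79199, q86323, q81253, q80761, q112168, q112172, q111207, q81245, q79123, q79128, q79160, q79753, q81593, q79265] ⟨c81180, c81284, c81285, c81192, c111577, c111899, c90750, c99668, c99947, c99950, c111310, c99363, c79199, c86323, c81253, c80761, c112168, c112172, c111207, c81245, c79123, c79128, c79160, c79753, c81593, c79265, trivial⟩ (nd (nat_lit 275) (nat_lit 0) (cs (rf (nat_lit 0)) (cs (rf (nat_lit 1)) (cs (nd (nat_lit 256) (nat_lit 0) (cs (lf (nat_lit 11) (nat_lit 252)) (nd (nat_lit 278) (nat_lit 0) (cs (lf (nat_lit 5) (nat_lit 253)) (nd (nat_lit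 235) (nat_lit 0) (cs (lf (nat_lit 16) (nat_lit 231)) (nd (nat_lit 257) (nat_lit 0) (cs (lf (nat_lit 17) (nat_lit 232)) (nd (nat_lit 232) (nat_lit 0) (cs (lf (nat_lit 23) (nat_lit 231)) (nd (nat_lit 300) (nat_lit 0) (cs (lf (nat_lit 30) (nat_lit 234)) (rf (nat_lit 2)))))))))))))) (cs (nd (nat_lit 297) (nat_lit 0) (cs (rf (nat_lit 3)) (cs (rf (nat_lit 4)) (cs (rf (nat_lit 5)) (nd (nat_lit 298) (nat_lit 0) (cs (rf (nat_lit 6)) (cs (rf (nat_lit 7)) (cs (nd (nat_lit 276) (nat_lit 0) (cs (rf (nat_lit 8)) (rf (nat_lit 9)))) (nd (nat_lit 276) (nat_lit 0) (cs (rf (nat_lit 8)) (cs (rf (nat_lit 10)) (nd (nat_lit 320) (nat_lit 0) (cs (lf (nat_lit 42) (nat_lit 253)) (nd (nat_lit 321) (nat_lit 0) (cs (lf (nat_lit 29) (nat_lit 254)) (nd (nat_lit 296) (nat_lit 0) (cs (lf (nat_lit 0) (nat_lit 295)) (nd (nat_lit 278) (nat_lit 0) (cs (lf (nat_lit 7) (nat_lit 274)) (nd (nat_lit 299) (nat_lit 0) (cs (lf (nat_lit 5) (nat_lit 296)) (rf (nat_lit 11))))))))))))))))))))))) (nd (nat_lit 232)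 (nat_lit 0) (cs (rf (nat_lit 12)) (cs (rf (nat_lit 13)) (cs (nd (nat_lit 297) (nat_lit 0) (cs (lf (nat_lit 30) (nat_lit 231)) (nd (nat_lit 278) (nat_lit 0) (cs (nd (nat_lit 256) (nat_lit 0) (cs (lf (nat_lit 5) (nat_lit 253)) (rf (nat_lit 14)))) (cs (nd (nat_lit 277) (nat_lit 0) (cs (rf (nat_lit 15)) (cs (nd (nat_lit 279) (nat_lit 0) (cs (lf (nat_lit 18) (nat_lit 254)) (nd (nat_lit 299) (nat_lit 0) (cs (lf (nat_lit 42) (nat_lit 232)) (nd (nat_lit 298) (nat_lit 0) (cs (lf (nat_lit 12) (nat_lit 274)) (lf (nat_lit 15) (nat_lit 275)))))))) (rf (nat_lit 16))))) (cs (nd (nat_lit 256) (nat_lit 0) (cs (lf (nat_lit 5) (nat_lit 253)) (rf (nat_lit 17)))) (nd (nat_lit 256) (nat_lit 0) (cs (rf (nat_lit 14)) (cs (rf (nat_lit 17)) (nd (nat_lit 277) (nat_lit 0) (cs (rf (nat_lit 18)) (cs (rf (nat_lit 16)) (nd (nat_lit 234) (nat_lit 0) (cs (lf (nat_lit 17) (nat_lit 231)) (nd (nat_lit 190) (nat_lit 0) (cs (lf (nat_lit 37) (nat_lit 189)) (rf (nat_lit 19)))))))))))))))))) (nd (nat_lit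 210) (nat_lit 0) (cs (rf (nat_lit 20)) (cs (rf (nat_lit 21)) (cs (rf (nat_lit 22)) (nd (nat_lit 276) (nat_lit 0) (cs (rf (nat_lit 23)) (cs (rf (nat_lit 24)) (cs (nd (nat_lit 256) (nat_lit 0) (cs (lf (nat_lit 6) (nat_lit 253)) (nd (nat_lit 278) (nat_lit 0) (cs (lf (nat_lit 5) (nat_lit 253)) (nd (nat_lit 234) (nat_lit 0) (cs (lf (nat_lit 17) (nat_lit 231)) (nd (nat_lit 277) (nat_lit 0) (cs (lf (nat_lit 29) (nat_lit 210)) (nd (nat_lit 212) (nat_lit 0) (cs (lf (nat_lit 36) (nat_lit 189)) (nd (nat_lit 213) (nat_lit 0) (cs (lf (nat_lit 35) (nat_lit 190)) (nd (nat_lit 211) (nat_lit 0) (cs (lf (nat_lit 11) (nat_lit 209)) (lf (nat_lit 47) (nat_lit 189)))))))))))))))) (nd (nat_lit 256) (nat_lit 0) (cs (lf (nat_lit 6) (nat_lit 253)) (nd (nat_lit 278) (nat_lit 0) (cs (lf (nat_lit 5) (nat_lit 253)) (nd (nat_lit 234) (nat_lit 0) (cs (lf (nat_lit 17) (nat_lit 231)) (nd (nat_lit 187) (nat_lit 0) (cs (lf (nat_lit 46) (nat_lit 187)) (nd (nat_lit 277) (nat_lit 0) (cs (lf (nat_lit 29)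 (nat_lit 210)) (rf (nat_lit 25))))))))))))))))))))))))))))) q112195 (by decide +kernel)
def q112240 : Q := Q.p (nat_lit 0x80000e000000000000000000000000000000000000000000000000000000000000000) (nat_lit 0x3c0000f800030000318000f80007f80007c0001300000000000000000000000000000000000000000) (nat_lit 12)
theorem c112240 : QOK q112240 := cut [q79199, q86323, q104895, q81253, q80863, q112203, q109880, q111373, q112225, q81980, q101776] ⟨c79199, c86323, c104895, c81253, c80863, c112203, c109880, c111373, c112225, c81980, c101776, trivial⟩ (nd (nat_lit 232) (nat_lit 0) (cs (rf (nat_lit 0)) (cs (rf (nat_lit 1)) (cs (nd (nat_lit 234) (nat_lit 0) (cs (rf (nat_lit 2)) (cs (nd (nat_lit 297) (nat_lit 0) (cs (lf (nat_lit 30) (nat_lit 231)) (nd (nat_lit 256) (nat_lit 0) (cs (lf (nat_lit 17) (nat_lit 231)) (rf (nat_lit 3)))))) (nd (nat_lit 231) (nat_lit 0) (cs (nd (nat_lit 233) (nat_lit 0) (cs (lf (nat_lit 12) (nat_lit 230)) (nd (nat_lit 256) (nat_lit 0) (cs (lf (nat_lit 5) (nat_lit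 231)) (nd (nat_lit 208) (nat_lit 0) (cs (lf (nat_lit 22) (nat_lit 208)) (rf (nat_lit 4)))))))) (cs (nd (nat_lit 256) (nat_lit 0) (cs (lf (nat_lit 18) (nat_lit 231)) (rf (nat_lit 5)))) (nd (nat_lit 297) (nat_lit 0) (cs (lf (nat_lit 30) (nat_lit 231)) (nd (nat_lit 298) (nat_lit 0) (cs (lf (nat_lit 29) (nat_lit 231)) (nd (nat_lit 296) (nat_lit 0) (cs (lf (nat_lit 41) (nat_lit 230)) (nd (nat_lit 233) (nat_lit 0) (cs (lf (nat_lit 11) (nat_lit 230)) (nd (nat_lit 212) (nat_lit 0) (cs (lf (nat_lit 17) (nat_lit 209)) (nd (nat_lit 168) (nat_lit 0) (cs (lf (nat_lit 37) (nat_lit 167)) (nd (nat_lit 277) (nat_lit 0) (cs (lf (nat_lit 30) (nat_lit 211)) (nd (nat_lit 276) (nat_lit 0) (cs (lf (nat_lit 36) (nat_lit 210)) (lf (nat_lit 12) (nat_lit 273)))))))))))))))))))))))) (nd (nat_lit 276) (nat_lit 0) (cs (rf (nat_lit 6)) (cs (rf (nat_lit 7)) (cs (nd (nat_lit 210) (nat_lit 0) (cs (lf (nat_lit 36) (nat_lit 187)) (nd (nat_lit 256) (nat_lit 0) (cs (lf (nat_lit 6) (nat_lit 253)) (nd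 (nat_lit 234) (nat_lit 0) (cs (lf (nat_lit 17) (nat_lit 231)) (nd (nat_lit 277) (nat_lit 0) (cs (lf (nat_lit 29) (nat_lit 210)) (nd (nat_lit 212) (nat_lit 0) (cs (lf (nat_lit 36) (nat_lit 189)) (nd (nat_lit 251) (nat_lit 0) (cs (lf (nat_lit 1) (nat_lit 251)) (nd (nat_lit 211) (nat_lit 0) (cs (lf (nat_lit 35) (nat_lit 188)) (nd (nat_lit 209) (nat_lit 0) (cs (lf (nat_lit 47) (nat_lit 187)) (nd (nat_lit 231) (nat_lit 0) (cs (lf (nat_lit 6) (nat_lit 209)) (lf (nat_lit 29) (nat_lit 209)))))))))))))))))))) (cs (nd (nat_lit 256) (nat_lit 0) (cs (lf (nat_lit 6) (nat_lit 253)) (nd (nat_lit 234) (nat_lit 0) (cs (lf (nat_lit 17) (nat_lit 231)) (nd (nat_lit 233) (nat_lit 0) (cs (lf (nat_lit 12) (nat_lit 230)) (nd (nat_lit 189) (nat_lit 0) (cs (lf (nat_lit 37) (nat_lit 188)) (nd (nat_lit 210) (nat_lit 0) (cs (lf (nat_lit 36) (nat_lit 187)) (nd (nat_lit 277) (nat_lit 0) (cs (lf (nat_lit 42) (nat_lit 210)) (nd (nat_lit 190) (nat_lit 0) (cs (lf (nat_lit 37) (nat_lit 189)) (rf (nat_lit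 8)))))))))))))))) (cs (nd (nat_lit 210) (nat_lit 0) (cs (lf (nat_lit 36) (nat_lit 187)) (nd (nat_lit 256) (nat_lit 0) (cs (lf (nat_lit 6) (nat_lit 253)) (nd (nat_lit 277) (nat_lit 0) (cs (lf (nat_lit 29) (nat_lit 210)) (rf (nat_lit 9)))))))) (nd (nat_lit 256) (nat_lit 0) (cs (lf (nat_lit 6) (nat_lit 253)) (nd (nat_lit 234) (nat_lit 0) (cs (lf (nat_lit 17) (nat_lit 231)) (nd (nat_lit 233) (nat_lit 0) (cs (lf (nat_lit 12) (nat_lit 230)) (rf (nat_lit 10)))))))))))))))))) q112240 (by decide +kernel)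
def q112360 : Q := Q.p (nat_lit 0x1000007000000000000000000000000000000000000000000000000000000000000000) (nat_lit 0x60000180000e00003c0001f80006e0000000001c000060000080000000000000000000000000000000000000000000000) (nat_lit 9)
theorem c112360 : QOK q112360 := cut [q81413, q90151, q111537, q106906, q111452, q99950, q106909, q111530, q99261] ⟨c81413, c90151, c111537, c106906, c111452, c99950, c106909, c111530, c99261, trivial⟩ (nd (nat_lit 298) (nat_lit 0) (cs (rf (nat_lit 0)) (cs (rf (nat_lit 1)) (cs (rf (nat_lit 2)) (nd (nat_lit 297) (nat_lit 0) (cs (rf (nat_lit 3)) (cs (rf (nat_lit 4)) (cs (nd (nat_lit 275) (nat_lit 0) (cs (rf (nat_lit 5)) (cs (rf (nat_lit 6)) (rf (nat_lit 7))))) (nd (nat_lit 275) (nat_lit 0) (cs (rf (nat_lit 8)) (rf (nat_lit 5)))))))))))) q112360 (by decide +kernel)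
def q112383 : Q := Q.p (nat_lit 0xe000000000000000000000000000000000000000000000000000000000000000) (nat_lit 0x140000700001e0001f8000018001f70003f00007c0001e00005000000000000000000000000000000000000) (nat_lit 12)
theorem c112383 : QOK q112383 := cut [q80811, q81497, q80393, q81154, q81176, q81499, q81503, q81509, q111919, q112380, q80763, q81512, q112145] ⟨c80811, c81497, c80393, c81154, c81176, c81499, c81503, c81509, c111919, c112380, c80763, c81512, c112145, trivial⟩ (nd (nat_lit 233) (nat_lit 0) (cs (rf (nat_lit 0)) (cs (rf (nat_lit 1)) (cs (nd (nat_lit 211) (nat_lit 0) (cs (rf (nat_lit 2)) (cs (rf (nat_lit 3)) (cs (rf (nat_lit 4)) (cs (nd (nat_lit 277) (nat_lit 0) (cs (rf (nat_lit 5)) (cs (rf (nat_lit 6)) (cs (rf (nat_lit 7)) (rf (nat_lit 8)))))) (rf (nat_lit 9))))))) (nd (nat_lit 277) (nat_lit 0) (cs (rf (nat_lit 10)) (cs (rf (nat_lit 11)) (rf (nat_lit 12))))))))) q112383 (by decide +kernel)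
def q112514 : Q := Q.p (nat_lit 0x6000010000000000000000000000000000000000000000000000000000000000) (nat_lit 0xd80007700009c000ef8001fc0003e0000f80001000000000000000000000000000000000000) (nat_lit 13)
theorem c112514 : QOK q112514 := cut [q79118, q81677, q79028, q106147, q80169, q80728, q105986, q112462, q79342, q94097, q112508, q80206, q112511, q112513] ⟨c79118, c81677, c79028, c106147, c80169, c80728, c105986, c112462, c79342, c94097, c112508, c80206, c112511, c112513, trivial⟩ (nd (nat_lit 252) (nat_lit 0) (cs (rf (nat_lit 0)) (cs (rf (nat_lit 1)) (cs (nd (nat_lit 230) (nat_lit 0) (cs (rf (nat_lit 2)) (cs (nd (nat_lit 231) (nat_lit 0) (cs (rf (nat_lit 3)) (cs (nd (nat_lit 209) (nat_lit 0) (cs (rf (nat_lit 4)) (cs (rf (nat_lit 5)) (nd (nat_lit 276) (nat_lit 0) (cs (lf (nat_lit 42) (nat_lit 209)) (nd (nat_lit 274) (nat_lit 0) (cs (lf (nat_lit 30) (nat_lit 208)) (nd (nat_lit 255) (nat_lit 0) (cs (lf (nat_lit 11) (nat_lit 251)) (rf (nat_lit 6))))))))))) (cs (nd (nat_lit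 233) (nat_lit 0) (cs (lf (nat_lit 6) (nat_lit 230)) (nd (nat_lit 211) (nat_lit 0) (cs (lf (nat_lit 17) (nat_lit 208)) (nd (nat_lit 167) (nat_lit 0) (cs (lf (nat_lit 37) (nat_lit 166)) (nd (nat_lit 208) (nat_lit 0) (cs (lf (nat_lit 23) (nat_lit 207)) (nd (nat_lit 186) (nat_lit 0) (cs (lf (nat_lit 24) (nat_lit 164)) (nd (nat_lit 163) (nat_lit 0) (cs (lf (nat_lit 46) (nat_lit 163)) (nd (nat_lit 187) (nat_lit 0) (cs (lf (nat_lit 35) (nat_lit 164)) (nd (nat_lit 274) (nat_lit 0) (cs (lf (nat_lit 37) (nat_lit 186)) (rf (nat_lit 7)))))))))))))))))) (nd (nat_lit 233) (nat_lit 0) (cs (lf (nat_lit 6) (nat_lit 230)) (nd (nat_lit 211) (nat_lit 0) (cs (lf (nat_lit 17) (nat_lit 208)) (nd (nat_lit 276) (nat_lit 0) (cs (lf (nat_lit 30) (nat_lit 210)) (rf (nat_lit 8)))))))))))) (cs (nd (nat_lit 231) (nat_lit 0) (cs (rf (nat_lit 9)) (cs (rf (nat_lit 3)) (cs (rf (nat_lit 10)) (nd (nat_lit 228) (nat_lit 0) (cs (lf (nat_lit 1) (nat_lit 228)) (rf (nat_lit 11)))))))) (rf (nat_lit 12))))))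 (rf (nat_lit 13)))))) q112514 (by decide +kernel)
def q112526 : Q := Q.p (nat_lit 0x6000010000000000000000000000000000000000000000000000000000000000) (nat_lit 0xa0000380000f0000ff000098000080000f00003c0000e00002800000000000000000000000000000000000) (nat_lit 10)
theorem c112526 : QOK q112526 := cut [q79123, q79128, q79160, q79282, q79961, q105757, q79787] ⟨c79123, c79128, c79160, c79282, c79961, c105757, c79787, trivial⟩ (nd (nat_lit 210) (nat_lit 0) (cs (rf (nat_lit 0)) (cs (rf (nat_lit 1)) (cs (rf (nat_lit 2)) (cs (rf (nat_lit 3)) (nd (nat_lit 276) (nat_lit 0) (cs (rf (nat_lit 4)) (cs (rf (nat_lit 5)) (cs (nd (nat_lit 187) (nat_lit 0) (cs (lf (nat_lit 46) (nat_lit 187)) (nd (nat_lit 189) (nat_lit 0) (cs (lf (nat_lit 34) (nat_lit 188)) (nd (nat_lit 277) (nat_lit 0) (cs (lf (nat_lit 29) (nat_lit 210)) (nd (nat_lit 278) (nat_lit 0) (cs (lf (nat_lit 18) (nat_lit 253)) (nd (nat_lit 252) (nat_lit 0) (cs (lf (nat_lit 21) (nat_lit 252)) (lf (nat_lit 0) (nat_lit 251))))))))))))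 (nd (nat_lit 275) (nat_lit 0) (cs (lf (nat_lit 41) (nat_lit 209)) (nd (nat_lit 189) (nat_lit 0) (cs (lf (nat_lit 34) (nat_lit 188)) (nd (nat_lit 209) (nat_lit 0) (cs (lf (nat_lit 47) (nat_lit 187)) (nd (nat_lit 231) (nat_lit 0) (cs (lf (nat_lit 42) (nat_lit 209)) (nd (nat_lit 186) (nat_lit 0) (cs (lf (nat_lit 46) (nat_lit 186)) (rf (nat_lit 6))))))))))))))))))))) q112526 (by decide +kernel)
def q112564 : Q := Q.p (nat_lit 0x300000c00006000000000000000000000000000000000000000000000000000000000000000) (nat_lit 0x80000700001c80007300000000018000060000000000000000000000000000000000000000000000000000) (nat_lit 9)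
theorem c112564 : QOK q112564 := cut [q112563] ⟨c112563, trivial⟩ (nd (nat_lit 272) (nat_lit 0) (cs (lf (nat_lit 13) (nat_lit 250)) (rf (nat_lit 0)))) q112564 (by decide +kernel)
def q112567 : Q := Q.p (nat_lit 0x300000c00007000000000000000000000000000000000000000000000000000000000000000) (nat_lit 0x600007800004c0000300000000008000020000000000000000000000000000000000000000000000000000) (nat_lit 7)
theorem c112567 : QOK q112567 := cut [q14914] ⟨c14914, trivial⟩ (nd (nat_lit 209) (nat_lit 0) (cs (lf (nat_lit 37) (nat_lit 208)) (nd (nat_lit 272) (nat_lit 0) (cs (rf (nat_lit 0)) (lf (nat_lit 13) (nat_lit 250)))))) q112567 (by decide +kernel)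
def q112789 : Q := Q.p (nat_lit 0x800002000008000000000000000000000000000000000000000000000000000000000) (nat_lit 0x400007000014000050000040000700001c0000500000000000000000000000000000000000000000) (nat_lit 7)
theorem c112789 : QOK q112789 := cut [q98317, q98360, q100882] ⟨c98317, c98360, c100882, trivial⟩ (nd (nat_lit 209) (nat_lit 0) (cs (rf (nat_lit 0)) (cs (rf (nat_lit 1)) (rf (nat_lit 2))))) q112789 (by decide +kernel)
def q112791 : Q := Q.p (nat_lit 0x800002000008000000000000000000000000000000000000000000000000000000000) (nat_lit 0x6000010000040000060001f00001c0000500000000000000000000000000000000000000000) (nat_lit 7)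
theorem c112791 : QOK q112791 := cut [q81901, q98317, q98359, q109005] ⟨c81901, c98317, c98359, c109005, trivial⟩ (nd (nat_lit 209) (nat_lit 0) (cs (rf (nat_lit 0)) (cs (rf (nat_lit 1)) (cs (rf (nat_lit 2)) (rf (nat_lit 3)))))) q112791 (by decide +kernel)
def q112808 : Q := Q.p (nat_lit 0xc00003000000000000000000000000000000000000000000000000000000000000000) (nat_lit 0x4000010000100001ce00077000008000020000000000000000000000000000000000000000000000) (nat_lit 6)
theorem c112808 : QOK q112808 := cut [q5304, q108367] ⟨c5304, c108367, trivial⟩ (nd (nat_lit 251) (nat_lit 0) (cs (rf (nat_lit 0)) (rf (nat_lit 1)))) q112808 (by decide +kernel)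
def q112839 : Q := Q.p (nat_lit 0xc00003000000000000000000000000000000000000000000000000000000000000000) (nat_lit 0x4000090000638001ce00077000048000120000000000000000000000000000000000000000000000) (nat_lit 7)
theorem c112839 : QOK q112839 := cut [q80720, q86391, q108396] ⟨c80720, c86391, c108396, trivial⟩ (nd (nat_lit 254) (nat_lit 0) (cs (rf (nat_lit 0)) (cs (rf (nat_lit 1)) (rf (nat_lit 2))))) q112839 (by decide +kernel)
def q112862 : Q := Q.p (nat_lit 0xc00003000000000000000000000000000000000000000000000000000000000000000) (nat_lit 0x58000160001de0007380018e0000300000c000030000000000000000000000000000000000000000000000) (nat_lit 12)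
theorem c112862 : QOK q112862 := cut [q1257, q2190, q110357] ⟨c1257, c2190, c110357, trivial⟩ (nd (nat_lit 276) (nat_lit 0) (cs (rf (nat_lit 0)) (cs (rf (nat_lit 1)) (rf (nat_lit 2))))) q112862 (by decide +kernel)
def q112879 : Q := Q.p (nat_lit 0xe00002000000000000000000000000000000000000000000000000000000000000000) (nat_lit 0x8000020001df0007180039f00001000004000000000000000000000000000000000000000000000000000) (nat_lit 12)
theorem c112879 : QOK q112879 := cut [q12673, q98852, q99019, q14653] ⟨c12673, c98852, c99019, c14653, trivial⟩ (nd (nat_lit 272) (nat_lit 0) (cs (rf (nat_lit 0)) (cs (rf (nat_lit 1)) (cs (rf (nat_lit 2)) (nd (nat_lit 293) (nat_lit 0) (cs (lf (nat_lit 10) (nat_lit 271)) (nd (nat_lit 250) (nat_lit 0) (cs (lf (nat_lit 23) (nat_lit 249)) (nd (nat_lit 276) (nat_lit 0) (cs (lf (nat_lit 22) (nat_lit 250)) (nd (nat_lit 299) (nat_lit 0) (cs (lf (nat_lit 4) (nat_lit 273)) (nd (nat_lit 277) (nat_lit 0) (cs (lf (nat_lit 5) (nat_lit 274)) (nd (nat_lit 295)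 (nat_lit 0) (cs (lf (nat_lit 10) (nat_lit 273)) (nd (nat_lit 317) (nat_lit 0) (cs (lf (nat_lit 42) (nat_lit 250)) (nd (nat_lit 206) (nat_lit 0) (cs (rf (nat_lit 3)) (lf (nat_lit 25) (nat_lit 206)))))))))))))))))))))) q112879 (by decide +kernel)
def q112887 : Q := Q.p (nat_lit 0xe00002000000000000000000000000000000000000000000000000000000000000000) (nat_lit 0x200000800007c0007e0007fc000f00003d0000340000d0000300000000000000000000000000000000000000000000000) (nat_lit 14)
theorem c112887 : QOK q112887 := cut [q98831, q98839, q12828, q112868] ⟨c98831, c98839, c12828, c112868, trivial⟩ (nd (nat_lit 276) (nat_lit 0) (cs (rf (nat_lit 0)) (cs (rf (nat_lit 1)) (cs (nd (nat_lit 298) (nat_lit 0) (cs (lf (nat_lit 5) (nat_lit 273)) (nd (nat_lit 320) (nat_lit 0) (cs (lf (nat_lit 42) (nat_lit 253)) (nd (nat_lit 295) (nat_lit 0) (cs (lf (nat_lit 11) (nat_lit 272)) (nd (nat_lit 277) (nat_lit 0) (cs (lf (nat_lit 10) (nat_lit 273)) (nd (nat_lit 252) (nat_lit 0) (cs (lf (nat_lit 18)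 (nat_lit 252)) (nd (nat_lit 339) (nat_lit 0) (cs (lf (nat_lit 31) (nat_lit 251)) (nd (nat_lit 230) (nat_lit 0) (cs (lf (nat_lit 36) (nat_lit 207)) (nd (nat_lit 319) (nat_lit 0) (cs (lf (nat_lit 43) (nat_lit 230)) (nd (nat_lit 341) (nat_lit 0) (cs (lf (nat_lit 36) (nat_lit 253)) (nd (nat_lit 363) (nat_lit 0) (cs (lf (nat_lit 30) (nat_lit 297)) (nd (nat_lit 340) (nat_lit 0) (cs (lf (nat_lit 12) (nat_lit 316)) (nd (nat_lit 321) (nat_lit 0) (cs (lf (nat_lit 6) (nat_lit 318)) (lf (nat_lit 9) (nat_lit 317)))))))))))))))))))))))))) (cs (nd (nat_lit 298) (nat_lit 0) (cs (lf (nat_lit 5) (nat_lit 273)) (nd (nat_lit 320) (nat_lit 0) (cs (lf (nat_lit 42) (nat_lit 253)) (nd (nat_lit 295) (nat_lit 0) (cs (lf (nat_lit 11) (nat_lit 272)) (nd (nat_lit 277) (nat_lit 0) (cs (lf (nat_lit 10) (nat_lit 273)) (rf (nat_lit 2)))))))))) (rf (nat_lit 3))))))) q112887 (by decide +kernel)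
def q112925 : Q := Q.p (nat_lit 0xe00002000000000000000000000000000000000000000000000000000000000000000) (nat_lit 0xe0000380003f0000f00003dc000330000c0000300000000000000000000000000000000000000000000000) (nat_lit 11)
theorem c112925 : QOK q112925 := cut [q98836, q99178, q112882] ⟨c98836, c99178, c112882, trivial⟩ (nd (nat_lit 276) (nat_lit 0) (cs (rf (nat_lit 0)) (cs (rf (nat_lit 1)) (cs (rf (nat_lit 2)) (cs (nd (nat_lit 298) (nat_lit 0) (cs (lf (nat_lit 5) (nat_lit 273)) (nd (nat_lit 320) (nat_lit 0) (cs (lf (nat_lit 42) (nat_lit 253)) (nd (nat_lit 251) (nat_lit 0) (cs (lf (nat_lit 23) (nat_lit 250)) (nd (nat_lit 277) (nat_lit 0) (cs (lf (nat_lit 22) (nat_lit 251)) (nd (nat_lit 256) (nat_lit 0) (cs (lf (nat_lit 16) (nat_lit 252)) (nd (nat_lit 278) (nat_lit 0) (cs (lf (nat_lit 17) (nat_lit 253)) (nd (nat_lit 297) (nat_lit 0) (cs (lf (nat_lit 6) (nat_lit 275)) (lf (nat_lit 11) (nat_lit 274)))))))))))))))) (nd (nat_lit 250) (nat_lit 0) (cs (lf (nat_lit 22) (nat_lit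 250)) (nd (nat_lit 299) (nat_lit 0) (cs (lf (nat_lit 4) (nat_lit 273)) (nd (nat_lit 277) (nat_lit 0) (cs (lf (nat_lit 5) (nat_lit 274)) (nd (nat_lit 278) (nat_lit 0) (cs (lf (nat_lit 23) (nat_lit 252)) (nd (nat_lit 254) (nat_lit 0) (cs (lf (nat_lit 18) (nat_lit 253)) (nd (nat_lit 232) (nat_lit 0) (cs (lf (nat_lit 24) (nat_lit 210)) (nd (nat_lit 297) (nat_lit 0) (cs (lf (nat_lit 11) (nat_lit 274)) (lf (nat_lit 30) (nat_lit 231))))))))))))))))))))) q112925 (by decide +kernel)
def q112955 : Q := Q.p (nat_lit 0xc00003000000000000000000000000000000000000000000000000000000000000000) (nat_lit 0x380001e00001e000320000000000e000038000060000000000000000000000000000000000000000000000) (nat_lit 8)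
theorem c112955 : QOK q112955 := cut [q11506, q25707, q91675, q98462, q105226] ⟨c11506, c25707, c91675, c98462, c105226, trivial⟩ (nd (nat_lit 296) (nat_lit 0) (cs (rf (nat_lit 0)) (cs (rf (nat_lit 1)) (nd (nat_lit 230) (nat_lit 0) (cs (rf (nat_lit 2)) (cs (rf (nat_lit 3)) (rf (nat_lit 4)))))))) q112955 (by decide +kernel)
def q112956 : Q := Q.p (nat_lit 0xc00003000004000000000000000000000000000000000000000000000000000000000) (nat_lit 0x600001e000000000400001b8001e8000180000400000000000000000000000000000000000000000) (nat_lit 7)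
theorem c112956 : QOK q112956 := cut [q56839, q105293, q108708] ⟨c56839, c105293, c108708, trivial⟩ (nd (nat_lit 231) (nat_lit 0) (cs (rf (nat_lit 0)) (cs (rf (nat_lit 1)) (rf (nat_lit 2))))) q112956 (by decide +kernel)
def q112961 : Q := Q.p (nat_lit 0xc00003000000000000000000000000000000000000000000000000000000000000000) (nat_lit 0x380001e00001e000300000400000f8000380000e0000000000000000000000000000000000000000000000) (nat_lit 9)
theorem c112961 : QOK q112961 := cut [q11506, q25707, q91675, q98394, q105261] ⟨c11506, c25707, c91675, c98394, c105261, trivial⟩ (nd (nat_lit 296) (nat_lit 0) (cs (rf (nat_lit 0)) (cs (rf (nat_lit 1)) (nd (nat_lit 230) (nat_lit 0) (cs (rf (nat_lit 2)) (cs (rf (nat_lit 3)) (rf (nat_lit 4)))))))) q112961 (by decide +kernel)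
def q112979 : Q := Q.p (nat_lit 0xc00003000004000000000000000000000000000000000000000000000000000000000) (nat_lit 0x40000100001000000e0001b8001ee000180000400000000000000000000000000000000000000000) (nat_lit 8)
theorem c112979 : QOK q112979 := cut [q56839, q98728, q105293] ⟨c56839, c98728, c105293, trivial⟩ (nd (nat_lit 231) (nat_lit 0) (cs (rf (nat_lit 0)) (cs (rf (nat_lit 1)) (rf (nat_lit 2))))) q112979 (by decide +kernel)
def q112985 : Q := Q.p (nat_lit 0x800007800000000000000000000000000000000000000000000000000000000000000) (nat_lit 0x40000120000cc0003700008000034000050000100000000000000000000000000000000000000000000000) (nat_lit 10)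
theorem c112985 : QOK q112985 := cut [q102901] ⟨c102901, trivial⟩ (nd (nat_lit 276) (nat_lit 0) (cs (lf (nat_lit 5) (nat_lit 251)) (nd (nat_lit 232) (nat_lit 0) (cs (lf (nat_lit 17) (nat_lit 229)) (nd (nat_lit 188) (nat_lit 0) (cs (lf (nat_lit 37) (nat_lit 187)) (rf (nat_lit 0)))))))) q112985 (by decide +kernel)
def q113000 : Q := Q.p (nat_lit 0xc00003000000000000000000000000000000000000000000000000000000000000000) (nat_lit 0xc0000300008c000638001ce0007780005c000170000000000000000000000000000000000000000000000) (nat_lit 13)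
theorem c113000 : QOK q113000 := cut [q80720, q86391, q108395, q108403, q98578] ⟨c80720, c86391, c108395, c108403, c98578, trivial⟩ (nd (nat_lit 254) (nat_lit 0) (cs (rf (nat_lit 0)) (cs (rf (nat_lit 1)) (nd (nat_lit 251) (nat_lit 0) (cs (rf (nat_lit 2)) (cs (rf (nat_lit 3)) (nd (nat_lit 273) (nat_lit 0) (cs (lf (nat_lit 12) (nat_lit 250)) (rf (nat_lit 4)))))))))) q113000 (by decide +kernel)
def q113051 : Q := Q.p (nat_lit 0x800007800000000000000000000000000000000000000000000000000000000000000) (nat_lit 0x1d700038000070000000000000000000000000000000000000000000000000000000000) (nat_lit 7)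
theorem c113051 : QOK q113051 := cut [q94690] ⟨c94690, trivial⟩ (nd (nat_lit 233) (nat_lit 0) (cs (lf (nat_lit 16) (nat_lit 229)) (nd (nat_lit 272) (nat_lit 0) (cs (lf (nat_lit 10) (nat_lit 250)) (rf (nat_lit 0)))))) q113051 (by decide +kernel)
def q113115 : Q := Q.p (nat_lit 0x800002000008000000000000000000000000000000000000000000000000000000000) (nat_lit 0xc000030000170001c0000100000700001c0000700001000000000000000000000000000000000000) (nat_lit 10)
theorem c113115 : QOK q113115 := cut [q81901, q96737, q96741, q109001] ⟨c81901, c96737, c96741, c109001, trivial⟩ (nd (nat_lit 209) (nat_lit 0) (cs (rf (nat_lit 0)) (cs (rf (nat_lit 1)) (cs (rf (nat_lit 2)) (rf (nat_lit 3)))))) q113115 (by decide +kernel)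
def q113141 : Q := Q.p (nat_lit 0x800002000008000000000000000000000000000000000000000000000000000000000) (nat_lit 0x80000600007400001c000360001f00001c0000700001400000000000000000000000000000000000) (nat_lit 11)
theorem c113141 : QOK q113141 := cut [q81901, q99317, q99325, q99649, q113133, q91178] ⟨c81901, c99317, c99325, c99649, c113133, c91178, trivial⟩ (nd (nat_lit 209) (nat_lit 0) (cs (rf (nat_lit 0)) (cs (rf (nat_lit 1)) (cs (rf (nat_lit 2)) (cs (rf (nat_lit 3)) (cs (nd (nat_lit 276) (nat_lit 0) (cs (lf (nat_lit 29) (nat_lit 209)) (rf (nat_lit 4)))) (nd (nat_lit 276) (nat_lit 0) (cs (lf (nat_lit 29) (nat_lit 209)) (nd (nat_lit 188) (nat_lit 0) (cs (lf (nat_lit 34) (nat_lit 187)) (nd (nat_lit 187) (nat_lit 0) (cs (lf (nat_lit 35) (nat_lit 165)) (nd (nat_lit 252) (nat_lit 0) (cs (lf (nat_lit 41) (nat_lit 186)) (nd (nat_lit 277) (nat_lit 0) (cs (lf (nat_lit 18) (nat_lit 252)) (nd (nat_lit 250) (nat_lit 0) (cs (lf (nat_lit 1) (nat_lit 250)) (rf (nat_lit 5))))))))))))))))))))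 q113141 (by decide +kernel)
def q113145 : Q := Q.p (nat_lit 0x80000200000800002000000000000000000000000000000000000000000000000000000000000000) (nat_lit 0x3de000770001de0000000005000014000000000000000000000000000000000000000000000000000000000) (nat_lit 10)
theorem c113145 : QOK q113145 := cut [q2605, q99239, q2593] ⟨c2605, c99239, c2593, trivial⟩ (nd (nat_lit 318) (nat_lit 0) (cs (lf (nat_lit 41) (nat_lit 252)) (nd (nat_lit 317) (nat_lit 0) (cs (rf (nat_lit 0)) (cs (rf (nat_lit 1)) (nd (nat_lit 232) (nat_lit 0) (cs (rf (nat_lit 2)) (lf (nat_lit 34) (nat_lit 231))))))))) q113145 (by decide +kernel)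
def q113199 : Q := Q.p (nat_lit 0x200000800003000000000000000000000000000000000000000000000000000000000000000) (nat_lit 0x140000780001f0001d00000700000000008000000000000000000000000000000000000000000000000000000000) (nat_lit 7)
theorem c113199 : QOK q113199 := cut [q2579, q89625, q99408, q52519] ⟨c2579, c89625, c99408, c52519, trivial⟩ (nd (nat_lit 319) (nat_lit 0) (cs (rf (nat_lit 0)) (cs (rf (nat_lit 1)) (cs (rf (nat_lit 2)) (nd (nat_lit 274) (nat_lit 0) (cs (lf (nat_lit 42) (nat_lit 252)) (nd (nat_lit 320) (nat_lit 0) (cs (lf (nat_lit 29) (nat_lit 253)) (nd (nat_lit 298) (nat_lit 0) (cs (lf (nat_lit 24) (nat_lit 231)) (rf (nat_lit 3)))))))))))) q113199 (by decide +kernel)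
def q113218 : Q := Q.p (nat_lit 0x800003800000000000000000000000000000000000000000000000000000000000000) (nat_lit 0x20000f40003c00003f000040000100000000000000000000000000000000000000000000000) (nat_lit 8)
theorem c113218 : QOK q113218 := cut [q94688, q98881, q112952] ⟨c94688, c98881, c112952, trivial⟩ (nd (nat_lit 254) (nat_lit 0) (cs (rf (nat_lit 0)) (cs (rf (nat_lit 1)) (rf (nat_lit 2))))) q113218 (by decide +kernel)
def q113359 : Q := Q.p (nat_lit 0x200000800002000000000000000000000000000000000000000000000000000000000000000) (nat_lit 0x14000050000f78003dc001f78000d0000380000e0000100000000000000000000000000000000000000000000000) (nat_lit 11)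
theorem c113359 : QOK q113359 := cut [q90750, q99668, q11531, q11617, q52574, q95953, q113356, q90752, q99676, q109526] ⟨c90750, c99668, c11531, c11617, c52574, c95953, c113356, c90752, c99676, c109526, trivial⟩ (nd (nat_lit 298) (nat_lit 0) (cs (rf (nat_lit 0)) (cs (rf (nat_lit 1)) (cs (nd (nat_lit 299) (nat_lit 0) (cs (rf (nat_lit 2)) (cs (nd (nat_lit 296) (nat_lit 0) (cs (rf (nat_lit 3)) (cs (rf (nat_lit 4)) (rf (nat_lit 5))))) (rf (nat_lit 6))))) (nd (nat_lit 296) (nat_lit 0) (cs (rf (nat_lit 7)) (cs (rf (nat_lit 8)) (rf (nat_lit 9))))))))) q113359 (by decide +kernel)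
def q113451 : Q := Q.p (nat_lit 0x200000800002000000000000000000000000000000000000000000000000000000000000000) (nat_lit 0x4000038000ef0003dc000f70003de000fb8000e8000380000000000000000000000000000000000000000000000) (nat_lit 17)
theorem c113451 : QOK q113451 := cut [q81192, q111577, q80720, q97337, q113372, q113375, q108573, q113377, q113381, q113384, q113394, q99006, q111792, q90752, q113408, q113414, q105048, q113419, q113423, q79198, q86322, q109957, q113442, q113443, q113422] ⟨c81192, c111577, c80720, c97337, c113372, c113375, c108573, c113377, c113381, c113384, c113394, c99006, c111792, c90752, c113408, c113414, c105048, c113419, c113423, c79198, c86322, c109957, c113442, c113443, c113422, trivial⟩ (nd (nat_lit 254) (nat_lit 0) (cs (rf (nat_lit 0)) (cs (rf (nat_lit 1)) (cs (nd (nat_lit 274) (nat_lit 0) (cs (rf (nat_lit 2)) (cs (rf (nat_lit 3)) (cs (nd (nat_lit 318) (nat_lit 0) (cs (rf (nat_lit 4)) (cs (rf (nat_lit 5)) (nd (nat_lit 252) (nat_lit 0) (cs (nd (nat_lit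 255) (nat_lit 0) (cs (lf (nat_lit 6) (nat_lit 252)) (nd (nat_lit 277) (nat_lit 0) (cs (lf (nat_lit 5) (nat_lit 252)) (nd (nat_lit 251) (nat_lit 0) (cs (lf (nat_lit 19) (nat_lit 251)) (rf (nat_lit 6)))))))) (cs (nd (nat_lit 319) (nat_lit 0) (cs (lf (nat_lit 42) (nat_lit 252)) (nd (nat_lit 255) (nat_lit 0) (cs (lf (nat_lit 6) (nat_lit 252)) (nd (nat_lit 277) (nat_lit 0) (cs (lf (nat_lit 5) (nat_lit 252)) (rf (nat_lit 7)))))))) (cs (nd (nat_lit 296) (nat_lit 0) (cs (lf (nat_lit 35) (nat_lit 230)) (nd (nat_lit 319) (nat_lit 0) (cs (lf (nat_lit 29) (nat_lit 252)) (rf (nat_lit 8)))))) (nd (nat_lit 319) (nat_lit 0) (cs (lf (nat_lit 42) (nat_lit 252)) (nd (nat_lit 296) (nat_lit 0) (cs (lf (nat_lit 36) (nat_lit 230)) (nd (nat_lit 255) (nat_lit 0) (cs (lf (nat_lit 6) (nat_lit 252)) (nd (nat_lit 277) (nat_lit 0) (cs (lf (nat_lit 5) (nat_lit 252)) (nd (nat_lit 276) (nat_lit 0) (cs (lf (nat_lit 11) (nat_lit 273)) (rf (nat_lit 9))))))))))))))))))) (nd (nat_lit 276) (nat_lit 0)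 (cs (rf (nat_lit 10)) (cs (nd (nat_lit 273) (nat_lit 0) (cs (lf (nat_lit 12) (nat_lit 250)) (nd (nat_lit 294) (nat_lit 0) (cs (lf (nat_lit 10) (nat_lit 272)) (nd (nat_lit 299) (nat_lit 0) (cs (lf (nat_lit 4) (nat_lit 273)) (nd (nat_lit 250) (nat_lit 0) (cs (lf (nat_lit 22) (nat_lit 250)) (rf (nat_lit 11)))))))))) (nd (nat_lit 319) (nat_lit 0) (cs (lf (nat_lit 30) (nat_lit 253)) (nd (nat_lit 318) (nat_lit 0) (cs (lf (nat_lit 41) (nat_lit 252)) (nd (nat_lit 231) (nat_lit 0) (cs (lf (nat_lit 40) (nat_lit 230)) (nd (nat_lit 187) (nat_lit 0) (cs (lf (nat_lit 25) (nat_lit 187)) (nd (nat_lit 273) (nat_lit 0) (cs (lf (nat_lit 12) (nat_lit 250)) (nd (nat_lit 294) (nat_lit 0) (cs (lf (nat_lit 10) (nat_lit 272)) (nd (nat_lit 251) (nat_lit 0) (cs (lf (nat_lit 23) (nat_lit 250)) (rf (nat_lit 12))))))))))))))))))))))) (nd (nat_lit 296) (nat_lit 0) (cs (rf (nat_lit 13)) (cs (rf (nat_lit 14)) (cs (nd (nat_lit 274) (nat_lit 0) (cs (rf (nat_lit 2)) (cs (rf (nat_lit 3)) (cs (rf (nat_lit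 15)) (nd (nat_lit 276) (nat_lit 0) (cs (rf (nat_lit 16)) (cs (rf (nat_lit 17)) (rf (nat_lit 18))))))))) (nd (nat_lit 232) (nat_lit 0) (cs (rf (nat_lit 19)) (cs (rf (nat_lit 20)) (nd (nat_lit 276) (nat_lit 0) (cs (rf (nat_lit 16)) (cs (rf (nat_lit 21)) (cs (rf (nat_lit 22)) (cs (rf (nat_lit 23)) (nd (nat_lit 274) (nat_lit 0) (cs (rf (nat_lit 2)) (cs (rf (nat_lit 24)) (nd (nat_lit 277) (nat_lit 0) (cs (lf (nat_lit 6) (nat_lit 274)) (nd (nat_lit 299) (nat_lit 0) (cs (lf (nat_lit 5) (nat_lit 274)) (nd (nat_lit 255) (nat_lit 0) (cs (lf (nat_lit 6) (nat_lit 252)) (lf (nat_lit 42) (nat_lit 232))))))))))))))))))))))))))) q113451 (by decide +kernel)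
def q113504 : Q := Q.p (nat_lit 0x20000080000e000000000000000000000000000000000000000000000000000000000000000) (nat_lit 0x1d0000760003d8000f7000018000700001c0000700000000000000000000000000000000000000000000000) (nat_lit 11)
theorem c113504 : QOK q113504 := cut [q81055, q111270, q113495, q103836, q81531, q113502] ⟨c81055, c111270, c113495, c103836, c81531, c113502, trivial⟩ (nd (nat_lit 277) (nat_lit 0) (cs (rf (nat_lit 0)) (cs (nd (nat_lit 252) (nat_lit 0) (cs (lf (nat_lit 5) (nat_lit 252)) (nd (nat_lit 273) (nat_lit 0) (cs (lf (nat_lit 10) (nat_lit 251)) (nd (nat_lit 251) (nat_lit 0) (cs (lf (nat_lit 11) (nat_lit 250)) (lf (nat_lit 4) (nat_lit 251)))))))) (cs (nd (nat_lit 276) (nat_lit 0) (cs (nd (nat_lit 252) (nat_lit 0) (cs (lf (nat_lit 0) (nat_lit 251)) (nd (nat_lit 210) (nat_lit 0) (cs (lf (nat_lit 37) (nat_lit 209)) (nd (nat_lit 233) (nat_lit 0) (cs (lf (nat_lit 17) (nat_lit 230)) (nd (nat_lit 211) (nat_lit 0) (cs (lf (nat_lit 47) (nat_lit 188)) (lf (nat_lit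 41) (nat_lit 210)))))))))) (cs (nd (nat_lit 274) (nat_lit 0) (cs (lf (nat_lit 12) (nat_lit 251)) (rf (nat_lit 1)))) (cs (nd (nat_lit 273) (nat_lit 0) (cs (lf (nat_lit 13) (nat_lit 251)) (nd (nat_lit 210) (nat_lit 0) (cs (lf (nat_lit 37) (nat_lit 209)) (nd (nat_lit 252) (nat_lit 0) (cs (lf (nat_lit 0) (nat_lit 251)) (nd (nat_lit 233) (nat_lit 0) (cs (lf (nat_lit 17) (nat_lit 230)) (nd (nat_lit 211) (nat_lit 0) (cs (lf (nat_lit 47) (nat_lit 188)) (lf (nat_lit 36) (nat_lit 188)))))))))))) (nd (nat_lit 251) (nat_lit 0) (cs (lf (nat_lit 1) (nat_lit 251)) (rf (nat_lit 2)))))))) (cs (nd (nat_lit 276) (nat_lit 0) (cs (rf (nat_lit 3)) (cs (rf (nat_lit 2)) (nd (nat_lit 273) (nat_lit 0) (cs (lf (nat_lit 13) (nat_lit 251)) (nd (nat_lit 210) (nat_lit 0) (cs (lf (nat_lit 37) (nat_lit 209)) (nd (nat_lit 278) (nat_lit 0) (cs (lf (nat_lit 18) (nat_lit 253)) (rf (nat_lit 4))))))))))) (nd (nat_lit 252) (nat_lit 0) (cs (lf (nat_lit 5) (nat_lit 252)) (rf (nat_lit 5))))))))) q113504 (by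 decide +kernel)
def q113587 : Q := Q.p (nat_lit 0x180000300000c000010000000000000000000000000000000000000000000000000000) (nat_lit 0x188000678001c6000738001ae0002a0000080000000000000000000000000000000000000000) (nat_lit 11)
theorem c113587 : QOK q113587 := cut [q109396, q109736, q109742, q79349] ⟨c109396, c109736, c109742, c79349, trivial⟩ (nd (nat_lit 255) (nat_lit 0) (cs (rf (nat_lit 0)) (cs (rf (nat_lit 1)) (cs (rf (nat_lit 2)) (nd (nat_lit 254) (nat_lit 0) (cs (lf (nat_lit 18) (nat_lit 230)) (nd (nat_lit 187) (nat_lit 0) (cs (lf (nat_lit 25) (nat_lit 187)) (nd (nat_lit 273) (nat_lit 0) (cs (lf (nat_lit 13) (nat_lit 251)) (nd (nat_lit 277) (nat_lit 0) (cs (lf (nat_lit 5) (nat_lit 252)) (nd (nat_lit 233) (nat_lit 0) (cs (lf (nat_lit 17) (nat_lit 230)) (nd (nat_lit 232) (nat_lit 0) (cs (lf (nat_lit 23) (nat_lit 207)) (rf (nat_lit 3)))))))))))))))))) q113587 (by decide +kernel)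
def q113625 : Q := Q.p (nat_lit 0x800002000008000000000000000000000000000000000000000000000000000000000) (nat_lit 0x140000700001c00006000014000050000760001fc0001c0000600001000000000000000000000000000000000000) (nat_lit 11)
theorem c113625 : QOK q113625 := cut [q97806, q98317, q99649, q113621] ⟨c97806, c98317, c99649, c113621, trivial⟩ (nd (nat_lit 209) (nat_lit 0) (cs (rf (nat_lit 0)) (cs (rf (nat_lit 1)) (cs (rf (nat_lit 2)) (rf (nat_lit 3)))))) q113625 (by decide +kernel)
def q113628 : Q := Q.p (nat_lit 0x80000200000c000000000000000000000000000000000000000000000000000000000) (nat_lit 0x20000000001df000738003cf000100000400000000000000000000000000000000000000000) (nat_lit 9)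
theorem c113628 : QOK q113628 := cut [q87016, q97958, q113550] ⟨c87016, c97958, c113550, trivial⟩ (nd (nat_lit 232) (nat_lit 0) (cs (rf (nat_lit 0)) (cs (rf (nat_lit 1)) (rf (nat_lit 2))))) q113628 (by decide +kernel)
def q113672 : Q := Q.p (nat_lit 0xe00006000008000000000000000000000000000000000000000000000000000000000) (nat_lit 0x800000000010000178001fe0001e0000500000000000000000000000000000000000000000) (nat_lit 9)
theorem c113672 : QOK q113672 := cut [q15536, q81901, q97948, q109832] ⟨c15536, c81901, c97948, c109832, trivial⟩ (nd (nat_lit 209) (nat_lit 0) (cs (rf (nat_lit 0)) (cs (rf (nat_lit 1)) (cs (rf (nat_lit 2)) (rf (nat_lit 3)))))) q113672 (by decide +kernel)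
def q113701 : Q := Q.p (nat_lit 0x200000800002000000000000000000000000000000000000000000000000000000000000000) (nat_lit 0x500001c0000700007f0001dc00014000040000080000700001c0000500000000000000000000000000000000000000000) (nat_lit 11)
theorem c113701 : QOK q113701 := cut [q2579, q99749, q99765, q109534, q113156] ⟨c2579, c99749, c99765, c109534, c113156, trivial⟩ (nd (nat_lit 319) (nat_lit 0) (cs (rf (nat_lit 0)) (cs (rf (nat_lit 1)) (cs (rf (nat_lit 2)) (cs (rf (nat_lit 3)) (rf (nat_lit 4))))))) q113701 (by decide +kernel)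
def q113812 : Q := Q.p (nat_lit 0x800002000008000000000000000000000000000000000000000000000000000000000) (nat_lit 0x740007dc000f70003dc000740000e00001c0000700001400000000000000000000000000000000000) (nat_lit 9)
theorem c113812 : QOK q113812 := cut [q91107, q97533, q113345, q113600, q101731, q108131, q108184] ⟨c91107, c97533, c113345, c113600, c101731, c108131, c108184, trivial⟩ (nd (nat_lit 276) (nat_lit 0) (cs (rf (nat_lit 0)) (cs (rf (nat_lit 1)) (cs (rf (nat_lit 2)) (cs (rf (nat_lit 3)) (nd (nat_lit 274) (nat_lit 0) (cs (rf (nat_lit 4)) (cs (rf (nat_lit 5)) (rf (nat_lit 6)))))))))) q113812 (by decide +kernel)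
def q113817 : Q := Q.p (nat_lit 0x800002000008000000000000000000000000000000000000000000000000000000000) (nat_lit 0x140000700001c0000700001400005000004000060000180000400000000000000000000000000000000000000000) (nat_lit 7)
theorem c113817 : QOK q113817 := cut [q22580, q84365, q97681, q109576, q109536] ⟨c22580, c84365, c97681, c109576, c109536, trivial⟩ (nd (nat_lit 297) (nat_lit 0) (cs (rf (nat_lit 0)) (cs (rf (nat_lit 1)) (cs (rf (nat_lit 2)) (cs (rf (nat_lit 3)) (nd (nat_lit 318) (nat_lit 0) (cs (lf (nat_lit 40) (nat_lit 230)) (nd (nat_lit 319) (nat_lit 0) (cs (lf (nat_lit 41) (nat_lit 252)) (rf (nat_lit 4))))))))))) q113817 (by decide +kernel)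
def q113833 : Q := Q.p (nat_lit 0x80000e000038000000000000000000000000000000000000000000000000000000000) (nat_lit 0x18000060001c0000300000c00000000000000000000000000000000000000000) (nat_lit 6)
theorem c113833 : QOK q113833 := cut [q103735] ⟨c103735, trivial⟩ (nd (nat_lit 251) (nat_lit 0) (cs (lf (nat_lit 13) (nat_lit 229)) (rf (nat_lit 0)))) q113833 (by decide +kernel)
def q113960 : Q := Q.p (nat_lit 0x800007000000000000000000000000000000000000000000000000000000000000000) (nat_lit 0x37c0038e000e3c00000000000000000000000000000000000000000000000000000000) (nat_lit 8)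
theorem c113960 : QOK q113960 := cut [q1999, q2066, q2091, q108923, q112949] ⟨c1999, c2066, c2091, c108923, c112949, trivial⟩ (nd (nat_lit 251) (nat_lit 0) (cs (rf (nat_lit 0)) (cs (rf (nat_lit 1)) (cs (rf (nat_lit 2)) (cs (rf (nat_lit 3)) (rf (nat_lit 4))))))) q113960 (by decide +kernel)
def q113967 : Q := Q.p (nat_lit 0x200000800002000000000000000000000000000000000000000000000000000000000000000) (nat_lit 0x200000c00005c000740000580007c0000700000c0000100000000000000000000000000000000000000000) (nat_lit 11)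
theorem c113967 : QOK q113967 := cut [q100749, q100756, q108258] ⟨c100749, c100756, c108258, trivial⟩ (nd (nat_lit 231) (nat_lit 0) (cs (rf (nat_lit 0)) (cs (rf (nat_lit 1)) (rf (nat_lit 2))))) q113967 (by decide +kernel)
def q114025 : Q := Q.p (nat_lit 0x300000c000020000000000000000000000000000000000000000000000000000) (nat_lit 0x800002c0001f00007e0001c0000700000c0000300000000000000000000000000000000000000000000000) (nat_lit 12)
theorem c114025 : QOK q114025 := cut [q93588, q110053, q110069] ⟨c93588, c110053, c110069, trivial⟩ (nd (nat_lit 275) (nat_lit 0) (cs (rf (nat_lit 0)) (cs (rf (nat_lit 1)) (nd (nat_lit 274) (nat_lit 0) (cs (lf (nat_lit 30) (nat_lit 208)) (rf (nat_lit 2))))))) q114025 (by decide +kernel)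
def q114034 : Q := Q.p (nat_lit 0x300000c000000000000000000000000000000000000000000000000000000000) (nat_lit 0x60000780000c0000030001f80001f8000780000200000000000000000000000000000000000) (nat_lit 8)
theorem c114034 : QOK q114034 := cut [q92803, q92805, q92807, q79066, q85001, q110104] ⟨c92803, c92805, c92807, c79066, c85001, c110104, trivial⟩ (nd (nat_lit 209) (nat_lit 0) (cs (rf (nat_lit 0)) (cs (rf (nat_lit 1)) (cs (rf (nat_lit 2)) (nd (nat_lit 208) (nat_lit 0) (cs (rf (nat_lit 3)) (cs (rf (nat_lit 4)) (rf (nat_lit 5))))))))) q114034 (by decide +kernel)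
def q114037 : Q := Q.p (nat_lit 0x80000300000c000000000000000000000000000000000000000000000000000000000) (nat_lit 0x4000070000000000700001fe0001f8000700000000000000000000000000000000000000000) (nat_lit 11)
theorem c114037 : QOK q114037 := cut [q90372, q92843, q110109] ⟨c90372, c92843, c110109, trivial⟩ (nd (nat_lit 209) (nat_lit 0) (cs (rf (nat_lit 0)) (cs (rf (nat_lit 1)) (nd (nat_lit 208) (nat_lit 0) (cs (lf (nat_lit 24) (nat_lit 186)) (rf (nat_lit 2))))))) q114037 (by decide +kernel)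
def q114041 : Q := Q.p (nat_lit 0x300000c000000000000000000000000000000000000000000000000000000000) (nat_lit 0x300000e0000390001c6000738001fe0000f0000380000a00000000000000000000000000000000000) (nat_lit 13)
theorem c114041 : QOK q114041 := cut [q84417, q105905, q84418, q110054, q6259, q79066, q110148, q110154] ⟨c84417, c105905, c84418, c110054, c6259, c79066, c110148, c110154, trivial⟩ (nd (nat_lit 229) (nat_lit 0) (cs (rf (nat_lit 0)) (cs (rf (nat_lit 1)) (nd (nat_lit 232) (nat_lit 0) (cs (rf (nat_lit 2)) (cs (rf (nat_lit 3)) (nd (nat_lit 208) (nat_lit 0) (cs (rf (nat_lit 4)) (cs (rf (nat_lit 5)) (cs (rf (nat_lit 6)) (rf (nat_lit 7)))))))))))) q114041 (by decide +kernel)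
def q114046 : Q := Q.p (nat_lit 0x700001c000000000000000000000000000000000000000000000000000000000) (nat_lit 0x14000000000030000e0000380000e00000000000000000000000000000000000000000) (nat_lit 7)
theorem c114046 : QOK q114046 := cut [q80237] ⟨c80237, trivial⟩ (nd (nat_lit 229) (nat_lit 0) (cs (lf (nat_lit 0) (nat_lit 228)) (rf (nat_lit 0)))) q114046 (by decide +kernel)
def q114060 : Q := Q.p (nat_lit 0x3000004000000000000000000000000000000000000000000000000000000000) (nat_lit 0x200000e0000380000f8000000001be001ff0003fe000380000e00003000008000000000000000000000000) (nat_lit 12)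
theorem c114060 : QOK q114060 := cut [q6259, q79066, q110050, q79048, q84155, q110040, q93713, q93715, q110175, q110180] ⟨c6259, c79066, c110050, c79048, c84155, c110040, c93713, c93715, c110175, c110180, trivial⟩ (nd (nat_lit 208) (nat_lit 0) (cs (rf (nat_lit 0)) (cs (rf (nat_lit 1)) (cs (rf (nat_lit 2)) (nd (nat_lit 274) (nat_lit 0) (cs (rf (nat_lit 3)) (cs (rf (nat_lit 4)) (cs (rf (nat_lit 5)) (nd (nat_lit 207) (nat_lit 0) (cs (lf (nat_lit 47) (nat_lit 185)) (nd (nat_lit 206) (nat_lit 0) (cs (rf (nat_lit 6)) (cs (rf (nat_lit 7)) (cs (rf (nat_lit 8)) (rf (nat_lit 9)))))))))))))))) q114060 (by decide +kernel)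
def q114071 : Q := Q.p (nat_lit 0x7000004000000000000000000000000000000000000000000000000000000000) (nat_lit 0x80000380000e000038000ee00018000068000030000080000000000000000000000000000000000000000000000) (nat_lit 7)
theorem c114071 : QOK q114071 := cut [q83707, q114061, q80653, q82037, q110230] ⟨c83707, c114061, c80653, c82037, c110230, trivial⟩ (nd (nat_lit 274) (nat_lit 0) (cs (rf (nat_lit 0)) (cs (rf (nat_lit 1)) (nd (nat_lit 296) (nat_lit 0) (cs (rf (nat_lit 2)) (cs (rf (nat_lit 3)) (rf (nat_lit 4)))))))) q114071 (by decide +kernel)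
def q114092 : Q := Q.p (nat_lit 0x300000c000000000000000000000000000000000000000000000000000000000) (nat_lit 0x10000040000780000e000338000ee0001a0000680000000000000000000000000000000000000000) (nat_lit 8)
theorem c114092 : QOK q114092 := cut [q84852, q84909, q87919, q88829, q108787] ⟨c84852, c84909, c87919, c88829, c108787, trivial⟩ (nd (nat_lit 229) (nat_lit 0) (cs (rf (nat_lit 0)) (cs (rf (nat_lit 1)) (nd (nat_lit 251) (nat_lit 0) (cs (rf (nat_lit 2)) (cs (rf (nat_lit 3)) (rf (nat_lit 4)))))))) q114092 (by decide +kernel)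
def q114152 : Q := Q.p (nat_lit 0x300000c000000000000000000000000000000000000000000000000000000000) (nat_lit 0x1f0001fe0007f80000e0003380002e0000b80000a0000000000000000000000000000000000000000) (nat_lit 14)
theorem c114152 : QOK q114152 := cut [q79097, q22270, q91960, q84909, q114102, q105926, q106047, q102206, q90819, q93580, q84908, q14866, q87885, q7471, q93574, q44386, q84907, q91998, q102199] ⟨c79097, c22270, c91960, c84909, c114102, c105926, c106047, c102206, c90819, c93580, c84908, c14866, c87885, c7471, c93574, c44386, c84907, c91998, c102199, trivial⟩ (nd (nat_lit 274) (nat_lit 0) (cs (rf (nat_lit 0)) (cs (nd (nat_lit 275) (nat_lit 0) (cs (rf (nat_lit 1)) (cs (rf (nat_lit 2)) (cs (nd (nat_lit 272) (nat_lit 0) (cs (nd (nat_lit 187) (nat_lit 0) (cs (lf (nat_lit 37) (nat_lit 186)) (nd (nat_lit 297) (nat_lit 0) (cs (lf (nat_lit 42) (nat_lit 230)) (nd (nat_lit 229) (nat_lit 0) (cs (rf (nat_lit 3)) (cs (nd (nat_lit 298) (nat_lit 0) (cs (lf (nat_lit 29) (nat_lit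 231)) (nd (nat_lit 299) (nat_lit 0) (cs (lf (nat_lit 18) (nat_lit 274)) (nd (nat_lit 228) (nat_lit 0) (cs (lf (nat_lit 0) (nat_lit 227)) (rf (nat_lit 4)))))))) (cs (nd (nat_lit 251) (nat_lit 0) (cs (rf (nat_lit 5)) (nd (nat_lit 298) (nat_lit 0) (cs (lf (nat_lit 29) (nat_lit 231)) (nd (nat_lit 232) (nat_lit 0) (cs (lf (nat_lit 6) (nat_lit 229)) (rf (nat_lit 6)))))))) (cs (nd (nat_lit 298) (nat_lit 0) (cs (lf (nat_lit 29) (nat_lit 231)) (nd (nat_lit 228) (nat_lit 0) (cs (lf (nat_lit 0) (nat_lit 227)) (nd (nat_lit 299) (nat_lit 0) (cs (lf (nat_lit 18) (nat_lit 274)) (rf (nat_lit 7)))))))) (nd (nat_lit 298) (nat_lit 0) (cs (lf (nat_lit 29) (nat_lit 231)) (nd (nat_lit 299) (nat_lit 0) (cs (lf (nat_lit 18) (nat_lit 274)) (nd (nat_lit 228) (nat_lit 0) (cs (lf (nat_lit 0) (nat_lit 227)) (nd (nat_lit 250) (nat_lit 0) (cs (lf (nat_lit 11) (nat_lit 227)) (nd (nat_lit 251) (nat_lit 0) (cs (lf (nat_lit 11) (nat_lit 249)) (lf (nat_lit 6) (nat_lit 228))))))))))))))))))))) (cs (nd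 (nat_lit 187) (nat_lit 0) (cs (lf (nat_lit 37) (nat_lit 186)) (nd (nat_lit 297) (nat_lit 0) (cs (lf (nat_lit 42) (nat_lit 230)) (rf (nat_lit 8)))))) (nd (nat_lit 273) (nat_lit 0) (cs (lf (nat_lit 12) (nat_lit 249)) (rf (nat_lit 9))))))) (nd (nat_lit 187) (nat_lit 0) (cs (lf (nat_lit 37) (nat_lit 186)) (nd (nat_lit 319) (nat_lit 0) (cs (lf (nat_lit 43) (nat_lit 230)) (nd (nat_lit 228) (nat_lit 0) (cs (nd (nat_lit 229) (nat_lit 0) (cs (lf (nat_lit 0) (nat_lit 227)) (rf (nat_lit 4)))) (cs (nd (nat_lit 229) (nat_lit 0) (cs (lf (nat_lit 0) (nat_lit 227)) (rf (nat_lit 10)))) (cs (nd (nat_lit 273) (nat_lit 0) (cs (rf (nat_lit 11)) (cs (nd (nat_lit 272) (nat_lit 0) (cs (lf (nat_lit 12) (nat_lit 249)) (nd (nat_lit 250) (nat_lit 0) (cs (lf (nat_lit 23) (nat_lit 249)) (nd (nat_lit 293) (nat_lit 0) (cs (lf (nat_lit 10) (nat_lit 271)) (rf (nat_lit 12)))))))) (cs (nd (nat_lit 251) (nat_lit 0) (cs (rf (nat_lit 13)) (nd (nat_lit 276) (nat_lit 0) (cs (lf (nat_lit 18) (nat_lit 251))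 (rf (nat_lit 14)))))) (nd (nat_lit 272) (nat_lit 0) (cs (lf (nat_lit 12) (nat_lit 249)) (nd (nat_lit 250) (nat_lit 0) (cs (lf (nat_lit 23) (nat_lit 249)) (nd (nat_lit 251) (nat_lit 0) (cs (lf (nat_lit 5) (nat_lit 250)) (lf (nat_lit 23) (nat_lit 227)))))))))))) (cs (nd (nat_lit 250) (nat_lit 0) (cs (rf (nat_lit 15)) (cs (nd (nat_lit 249) (nat_lit 0) (cs (lf (nat_lit 8) (nat_lit 227)) (lf (nat_lit 14) (nat_lit 227)))) (nd (nat_lit 229) (nat_lit 0) (cs (lf (nat_lit 11) (nat_lit 227)) (rf (nat_lit 16))))))) (nd (nat_lit 229) (nat_lit 0) (cs (lf (nat_lit 0) (nat_lit 227)) (rf (nat_lit 17))))))))))))))))) (nd (nat_lit 296) (nat_lit 0) (cs (lf (nat_lit 30) (nat_lit 230)) (nd (nat_lit 297) (nat_lit 0) (cs (lf (nat_lit 29) (nat_lit 230)) (nd (nat_lit 295) (nat_lit 0) (cs (lf (nat_lit 41) (nat_lit 229)) (nd (nat_lit 229) (nat_lit 0) (cs (lf (nat_lit 47) (nat_lit 207)) (nd (nat_lit 228) (nat_lit 0) (cs (lf (nat_lit 0) (nat_lit 227)) (nd (nat_lit 205) (nat_lit 0) (cs (lf (nat_lit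 22) (nat_lit 205)) (nd (nat_lit 250) (nat_lit 0) (cs (lf (nat_lit 11) (nat_lit 227)) (nd (nat_lit 251) (nat_lit 0) (cs (lf (nat_lit 17) (nat_lit 228)) (nd (nat_lit 275) (nat_lit 0) (cs (lf (nat_lit 5) (nat_lit 250)) (rf (nat_lit 18))))))))))))))))))))))) q114152 (by decide +kernel)
def q114162 : Q := Q.p (nat_lit 0x300000c000000000000000000000000000000000000000000000000000000000) (nat_lit 0x300000c0002300018e000738001de0001700005c0000000000000000000000000000000000000000) (nat_lit 13)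
theorem c114162 : QOK q114162 := cut [q57663, q87131, q93694] ⟨c57663, c87131, c93694, trivial⟩ (nd (nat_lit 232) (nat_lit 0) (cs (rf (nat_lit 0)) (cs (rf (nat_lit 1)) (rf (nat_lit 2))))) q114162 (by decide +kernel)
def q114187 : Q := Q.p (nat_lit 0x300000c000000000000000000000000000000000000000000000000000000000) (nat_lit 0x100000500000e0007380007e0000a0000280000000000000000000000000000000000000000) (nat_lit 10)
theorem c114187 : QOK q114187 := cut [q87131, q84444, q84852, q105905] ⟨c87131, c84444, c84852, c105905, trivial⟩ (nd (nat_lit 232) (nat_lit 0) (cs (rf (nat_lit 0)) (nd (nat_lit 229) (nat_lit 0) (cs (rf (nat_lit 1)) (cs (rf (nat_lit 2)) (rf (nat_lit 3))))))) q114187 (by decide +kernel)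
def q114203 : Q := Q.p (nat_lit 0xc00003000004000000000000000000000000000000000000000000000000000000000) (nat_lit 0x600005e0003000000e0000b80006e000180000000000000000000000000000000000000000000000) (nat_lit 10)
theorem c114203 : QOK q114203 := cut [q79097, q98731, q114201] ⟨c79097, c98731, c114201, trivial⟩ (nd (nat_lit 231) (nat_lit 0) (cs (rf (nat_lit 0)) (cs (rf (nat_lit 1)) (nd (nat_lit 296) (nat_lit 0) (cs (lf (nat_lit 30) (nat_lit 230)) (rf (nat_lit 2))))))) q114203 (by decide +kernel)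
def q114224 : Q := Q.p (nat_lit 0x3000004000000000000000000000000000000000000000000000000000000000) (nat_lit 0x800006c0003f80000c0007bf000ff8007ff000380000a00000000000000000000000000000000000) (nat_lit 15)
theorem c114224 : QOK q114224 := cut [q6259, q79029, q79066, q110304, q1411, q110299, q85717, q93835, q93851, q93857, q721, q4006, q4032, q110175, q88084, q88088, q93868, q93863] ⟨c6259, c79029, c79066, c110304, c1411, c110299, c85717, c93835, c93851, c93857, c721, c4006, c4032, c110175, c88084, c88088, c93868, c93863, trivial⟩ (nd (nat_lit 208) (nat_lit 0) (cs (rf (nat_lit 0)) (cs (rf (nat_lit 1)) (cs (rf (nat_lit 2)) (cs (rf (nat_lit 3)) (nd (nat_lit 207) (nat_lit 0) (cs (rf (nat_lit 4)) (cs (rf (nat_lit 5)) (cs (nd (nat_lit 206) (nat_lit 0) (cs (rf (nat_lit 6)) (cs (rf (nat_lit 7)) (cs (rf (nat_lit 8)) (cs (rf (nat_lit 9)) (nd (nat_lit 274) (nat_lit 0) (cs (lf (nat_lit 47) (nat_lit 185)) (nd (nat_lit 209) (nat_lit 0) (cs (lf (nat_lit 35) (nat_lit 186)) (nd (nat_lit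 275) (nat_lit 0) (cs (lf (nat_lit 29) (nat_lit 208)) (nd (nat_lit 273) (nat_lit 0) (cs (lf (nat_lit 41) (nat_lit 207)) (nd (nat_lit 183) (nat_lit 0) (cs (lf (nat_lit 22) (nat_lit 183)) (nd (nat_lit 271) (nat_lit 0) (cs (lf (nat_lit 13) (nat_lit 249)) (nd (nat_lit 231) (nat_lit 0) (cs (lf (nat_lit 5) (nat_lit 206)) (nd (nat_lit 188) (nat_lit 0) (cs (lf (nat_lit 34) (nat_lit 187)) (nd (nat_lit 227) (nat_lit 0) (cs (lf (nat_lit 10) (nat_lit 205)) (rf (nat_lit 10))))))))))))))))))))))))) (nd (nat_lit 206) (nat_lit 0) (cs (rf (nat_lit 11)) (cs (rf (nat_lit 12)) (cs (rf (nat_lit 6)) (cs (rf (nat_lit 13)) (nd (nat_lit 209) (nat_lit 0) (cs (rf (nat_lit 14)) (cs (rf (nat_lit 15)) (cs (rf (nat_lit 16)) (nd (nat_lit 227) (nat_lit 0) (cs (lf (nat_lit 10) (nat_lit 205)) (rf (nat_lit 17)))))))))))))))))))))) q114224 (by decide +kernel)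
def q114240 : Q := Q.p (nat_lit 0x3000004000000000000000000000000000000000000000000000000000000000) (nat_lit 0x200001c0000f80000e0007be000ff0003fe000780000e00003000008000000000000000000000000) (nat_lit 13)
theorem c114240 : QOK q114240 := cut [q6259, q79066, q110050, q1411, q6887, q4006, q4032, q85717, q93886, q110175, q88100, q88105, q92217, q12539, q88107] ⟨c6259, c79066, c110050, c1411, c6887, c4006, c4032, c85717, c93886, c110175, c88100, c88105, c92217, c12539, c88107, trivial⟩ (nd (nat_lit 208) (nat_lit 0) (cs (rf (nat_lit 0)) (cs (rf (nat_lit 1)) (cs (rf (nat_lit 2)) (nd (nat_lit 207) (nat_lit 0) (cs (rf (nat_lit 3)) (cs (rf (nat_lit 4)) (cs (nd (nat_lit 206) (nat_lit 0) (cs (rf (nat_lit 5)) (cs (rf (nat_lit 6)) (cs (rf (nat_lit 7)) (cs (rf (nat_lit 8)) (rf (nat_lit 9))))))) (nd (nat_lit 229) (nat_lit 0) (cs (rf (nat_lit 10)) (cs (rf (nat_lit 11)) (cs (nd (nat_lit 206) (nat_lit 0) (cs (rf (nat_lit 6)) (cs (nd (nat_lit 228) (nat_lit 0) (cs (lf (nat_lit 0) (nat_lit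 227)) (nd (nat_lit 231) (nat_lit 0) (cs (lf (nat_lit 18) (nat_lit 206)) (nd (nat_lit 249) (nat_lit 0) (cs (lf (nat_lit 10) (nat_lit 227)) (nd (nat_lit 209) (nat_lit 0) (cs (lf (nat_lit 17) (nat_lit 206)) (rf (nat_lit 12)))))))))) (nd (nat_lit 227) (nat_lit 0) (cs (lf (nat_lit 1) (nat_lit 227)) (rf (nat_lit 13))))))) (nd (nat_lit 227) (nat_lit 0) (cs (lf (nat_lit 1) (nat_lit 227)) (nd (nat_lit 274) (nat_lit 0) (cs (lf (nat_lit 42) (nat_lit 207)) (nd (nat_lit 273) (nat_lit 0) (cs (lf (nat_lit 41) (nat_lit 207)) (nd (nat_lit 271) (nat_lit 0) (cs (lf (nat_lit 13) (nat_lit 249)) (rf (nat_lit 14)))))))))))))))))))))) q114240 (by decide +kernel)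
def q114257 : Q := Q.p (nat_lit 0x3000004000000000000000000000000000000000000000000000000000000000) (nat_lit 0x700007c00008c000fb0001fe0007f8000780001a00000000000000000000000000000000000) (nat_lit 13)
theorem c114257 : QOK q114257 := cut [q6259, q79029, q79066, q110304, q10803, q87238, q10925, q22490, q93895, q84998, q110292, q93897, q85148, q114255] ⟨c6259, c79029, c79066, c110304, c10803, c87238, c10925, c22490, c93895, c84998, c110292, c93897, c85148, c114255, trivial⟩ (nd (nat_lit 208) (nat_lit 0) (cs (rf (nat_lit 0)) (cs (rf (nat_lit 1)) (cs (rf (nat_lit 2)) (cs (rf (nat_lit 3)) (nd (nat_lit 209) (nat_lit 0) (cs (rf (nat_lit 4)) (cs (rf (nat_lit 5)) (cs (nd (nat_lit 210) (nat_lit 0) (cs (rf (nat_lit 6)) (cs (rf (nat_lit 7)) (cs (rf (nat_lit 8)) (cs (nd (nat_lit 231) (nat_lit 0) (cs (rf (nat_lit 9)) (cs (rf (nat_lit 10)) (nd (nat_lit 229) (nat_lit 0) (cs (lf (nat_lit 12) (nat_lit 206)) (nd (nat_lit 275) (nat_lit 0) (cs (lf (nat_lit 42) (nat_lit 208)) (nd (nat_lit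 276) (nat_lit 0) (cs (lf (nat_lit 29) (nat_lit 209)) (nd (nat_lit 251) (nat_lit 0) (cs (lf (nat_lit 0) (nat_lit 250)) (nd (nat_lit 277) (nat_lit 0) (cs (lf (nat_lit 18) (nat_lit 252)) (rf (nat_lit 11))))))))))))))) (nd (nat_lit 231) (nat_lit 0) (cs (rf (nat_lit 12)) (rf (nat_lit 10))))))))) (rf (nat_lit 13))))))))))) q114257 (by decide +kernel)
def q114266 : Q := Q.p (nat_lit 0x7800000000000000000000000000000000000000000000000000000000000000) (nat_lit 0xe0000380000e00003b0000000003b0000e0000380000e00002800000000000000000000000000000000000) (nat_lit 12)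
theorem c114266 : QOK q114266 := cut [q79123, q79128, q79160, q113993, q90593] ⟨c79123, c79128, c79160, c113993, c90593, trivial⟩ (nd (nat_lit 232) (nat_lit 0) (cs (lf (nat_lit 17) (nat_lit 229)) (nd (nat_lit 210) (nat_lit 0) (cs (rf (nat_lit 0)) (cs (rf (nat_lit 1)) (cs (rf (nat_lit 2)) (cs (rf (nat_lit 3)) (nd (nat_lit 272) (nat_lit 0) (cs (lf (nat_lit 10) (nat_lit 250)) (nd (nat_lit 228) (nat_lit 0) (cs (lf (nat_lit 22) (nat_lit 228)) (nd (nat_lit 276) (nat_lit 0) (cs (lf (nat_lit 5) (nat_lit 251)) (nd (nat_lit 275) (nat_lit 0) (cs (lf (nat_lit 41) (nat_lit 209)) (rf (nat_lit 4))))))))))))))))) q114266 (by decide +kernel)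
def q114271 : Q := Q.p (nat_lit 0x3800000000000000000000000000000000000000000000000000000000000000) (nat_lit 0x40000100000fe000c700039c00000000000000000000000000000000000000000000000000000000) (nat_lit 9)
theorem c114271 : QOK q114271 := cut [q2623, q40739, q82194, q89927] ⟨c2623, c40739, c82194, c89927, trivial⟩ (nd (nat_lit 250) (nat_lit 0) (cs (rf (nat_lit 0)) (cs (rf (nat_lit 1)) (cs (rf (nat_lit 2)) (rf (nat_lit 3)))))) q114271 (by decide +kernel)
def q114272 : Q := Q.p (nat_lit 0x3800000000000000000000000000000000000000000000000000000000000000) (nat_lit 0x3fc0004600001c00000000000000000000000000000000000000000000000000000000) (nat_lit 6)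
theorem c114272 : QOK q114272 := cut [q2623, q3764, q40524, q105201] ⟨c2623, c3764, c40524, c105201, trivial⟩ (nd (nat_lit 250) (nat_lit 0) (cs (rf (nat_lit 0)) (cs (rf (nat_lit 1)) (cs (rf (nat_lit 2)) (rf (nat_lit 3)))))) q114272 (by decide +kernel)
def q114281 : Q := Q.p (nat_lit 0x3800000000000000000000000000000000000000000000000000000000000000) (nat_lit 0x300000c0001fc0000600003c0000e0000380000a0000000000000000000000000000000000000000) (nat_lit 10)
theorem c114281 : QOK q114281 := cut [q2623, q3764, q40524, q89826] ⟨c2623, c3764, c40524, c89826, trivial⟩ (nd (nat_lit 250) (nat_lit 0) (cs (rf (nat_lit 0)) (cs (rf (nat_lit 1)) (cs (rf (nat_lit 2)) (rf (nat_lit 3)))))) q114281 (by decide +kernel)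
def q114287 : Q := Q.p (nat_lit 0x200003800000000000000000000000000000000000000000000000000000000000000) (nat_lit 0x100001c0000700001c000050000000000780001c000070000000000000000000000000000000000000000000000) (nat_lit 8)
theorem c114287 : QOK q114287 := cut [q80583, q86851, q82629, q89845, q86906, q89852, q89850, q82610] ⟨c80583, c86851, c82629, c89845, c86906, c89852, c89850, c82610, trivial⟩ (nd (nat_lit 295) (nat_lit 0) (cs (rf (nat_lit 0)) (cs (rf (nat_lit 1)) (cs (nd (nat_lit 229) (nat_lit 0) (cs (rf (nat_lit 2)) (rf (nat_lit 3)))) (nd (nat_lit 317) (nat_lit 0) (cs (rf (nat_lit 4)) (cs (rf (nat_lit 5)) (cs (nd (nat_lit 316) (nat_lit 0) (cs (lf (nat_lit 41) (nat_lit 250)) (nd (nat_lit 229) (nat_lit 0) (cs (lf (nat_lit 40) (nat_lit 228)) (rf (nat_lit 6)))))) (nd (nat_lit 318) (nat_lit 0) (cs (lf (nat_lit 29) (nat_lit 251)) (rf (nat_lit 7)))))))))))) q114287 (by decide +kernel)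
def q114294 : Q := Q.p (nat_lit 0x3800000000000000000000000000000000000000000000000000000000000000) (nat_lit 0x8000020000fe0001c600073800000000000000000000000000000000000000000000000000000000) (nat_lit 9)
theorem c114294 : QOK q114294 := cut [q79164, q92245, q105771, q105829] ⟨c79164, c92245, c105771, c105829, trivial⟩ (nd (nat_lit 254) (nat_lit 0) (cs (rf (nat_lit 0)) (cs (rf (nat_lit 1)) (cs (rf (nat_lit 2)) (rf (nat_lit 3)))))) q114294 (by decide +kernel)
def q114314 : Q := Q.p (nat_lit 0x3800000000000000000000000000000000000000000000000000000000000000) (nat_lit 0x380000e00007c000060001fc0003e0001be000620001000000000000000000000000000000000000) (nat_lit 17)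
theorem c114314 : QOK q114314 := cut [q2623, q6264, q23543, q93975] ⟨c2623, c6264, c23543, c93975, trivial⟩ (nd (nat_lit 250) (nat_lit 0) (cs (rf (nat_lit 0)) (cs (rf (nat_lit 1)) (cs (rf (nat_lit 2)) (rf (nat_lit 3)))))) q114314 (by decide +kernel)
def q114325 : Q := Q.p (nat_lit 0x100003800000000000000000000000000000000000000000000000000000000000000) (nat_lit 0x720001c0000ee000000000000000000000000000000000000000000000000000000000) (nat_lit 7)
theorem c114325 : QOK q114325 := cut [q114324] ⟨c114324, trivial⟩ (nd (nat_lit 254) (nat_lit 0) (cs (lf (nat_lit 10) (nat_lit 250)) (rf (nat_lit 0)))) q114325 (by decide +kernel)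
def q114390 : Q := Q.p (nat_lit 0x7000000000000000000000000000000000000000000000000000000000000000) (nat_lit 0x200000e0000380000e0000fb80000c000fc0000e0000380000a00000000000000000000000000000000000000000) (nat_lit 8)
theorem c114390 : QOK q114390 := cut [q81755, q106114, q112557, q114389] ⟨c81755, c106114, c112557, c114389, trivial⟩ (nd (nat_lit 276) (nat_lit 0) (cs (rf (nat_lit 0)) (cs (rf (nat_lit 1)) (cs (rf (nat_lit 2)) (rf (nat_lit 3)))))) q114390 (by decide +kernel)
def q114417 : Q := Q.p (nat_lit 0x7000000000000000000000000000000000000000000000000000000000000000) (nat_lit 0x4000079c0008e000f9c00080000200000000000000000000000000000000000000000000000) (nat_lit 8)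
theorem c114417 : QOK q114417 := cut [q96471, q81868] ⟨c96471, c81868, trivial⟩ (nd (nat_lit 233) (nat_lit 0) (cs (nd (nat_lit 255) (nat_lit 0) (cs (lf (nat_lit 17) (nat_lit 230)) (rf (nat_lit 0)))) (cs (nd (nat_lit 251) (nat_lit 0) (cs (lf (nat_lit 16) (nat_lit 229)) (nd (nat_lit 276) (nat_lit 0) (cs (lf (nat_lit 5) (nat_lit 251)) (rf (nat_lit 1)))))) (nd (nat_lit 234) (nat_lit 0) (cs (lf (nat_lit 15) (nat_lit 230)) (nd (nat_lit 232) (nat_lit 0) (cs (lf (nat_lit 9) (nat_lit 230)) (lf (nat_lit 6) (nat_lit 231))))))))) q114417 (by decide +kernel)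
def q114502 : Q := Q.p (nat_lit 0x3800000000000000000000000000000000000000000000000000000000000000) (nat_lit 0x700001f0000fe0007ee001c70000fc0007f0001f80007e0000000000000000000000000000000000000000) (nat_lit 17)
theorem c114502 : QOK q114502 := cut [q2091, q114431, q114477, q82198, q114478, q79078, q79112, q95670, q106474, q20230, q106478, q54412, q15386, q88741, q98559, q12652, q106433, q106438, q41430, q88425, q94506, q114318] ⟨c2091, c114431, c114477, c82198, c114478, c79078, c79112, c95670, c106474, c20230, c106478, c54412, c15386, c88741, c98559, c12652, c106433, c106438, c41430, c88425, c94506, c114318, trivial⟩ (nd (nat_lit 275) (nat_lit 0) (cs (rf (nat_lit 0)) (cs (rf (nat_lit 1)) (cs (rf (nat_lit 2)) (cs (nd (nat_lit 229) (nat_lit 0) (cs (rf (nat_lit 3)) (cs (nd (nat_lit 254) (nat_lit 0) (cs (lf (nat_lit 23) (nat_lit 228)) (nd (nat_lit 277) (nat_lit 0) (cs (lf (nat_lit 4) (nat_lit 251)) (rf (nat_lit 4)))))) (cs (nd (nat_lit 230) (nat_lit 0) (cs (rf (nat_lit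 5)) (cs (rf (nat_lit 6)) (cs (rf (nat_lit 7)) (cs (rf (nat_lit 8)) (nd (nat_lit 274) (nat_lit 0) (cs (rf (nat_lit 9)) (cs (rf (nat_lit 10)) (nd (nat_lit 276) (nat_lit 0) (cs (lf (nat_lit 18) (nat_lit 251)) (nd (nat_lit 186) (nat_lit 0) (cs (lf (nat_lit 25) (nat_lit 186)) (nd (nat_lit 296) (nat_lit 0) (cs (lf (nat_lit 42) (nat_lit 229)) (nd (nat_lit 209) (nat_lit 0) (cs (lf (nat_lit 37) (nat_lit 208)) (nd (nat_lit 295) (nat_lit 0) (cs (lf (nat_lit 41) (nat_lit 229)) (rf (nat_lit 11)))))))))))))))))))) (nd (nat_lit 276) (nat_lit 0) (cs (rf (nat_lit 12)) (cs (rf (nat_lit 13)) (nd (nat_lit 274) (nat_lit 0) (cs (rf (nat_lit 14)) (cs (nd (nat_lit 208) (nat_lit 0) (cs (rf (nat_lit 15)) (cs (rf (nat_lit 16)) (cs (nd (nat_lit 185) (nat_lit 0) (cs (lf (nat_lit 25) (nat_lit 185)) (rf (nat_lit 17)))) (nd (nat_lit 186) (nat_lit 0) (cs (lf (nat_lit 26) (nat_lit 186)) (rf (nat_lit 18)))))))) (nd (nat_lit 297) (nat_lit 0) (cs (rf (nat_lit 19)) (cs (nd (nat_lit 296) (nat_lit 0) (cs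 (lf (nat_lit 42) (nat_lit 229)) (nd (nat_lit 209) (nat_lit 0) (cs (lf (nat_lit 37) (nat_lit 208)) (nd (nat_lit 295) (nat_lit 0) (cs (lf (nat_lit 12) (nat_lit 272)) (rf (nat_lit 20)))))))) (nd (nat_lit 319) (nat_lit 0) (cs (lf (nat_lit 42) (nat_lit 252)) (nd (nat_lit 318) (nat_lit 0) (cs (lf (nat_lit 41) (nat_lit 252)) (lf (nat_lit 43) (nat_lit 229))))))))))))))))))) (nd (nat_lit 250) (nat_lit 0) (cs (lf (nat_lit 5) (nat_lit 250)) (nd (nat_lit 249) (nat_lit 0) (cs (lf (nat_lit 4) (nat_lit 249)) (rf (nat_lit 21))))))))))) q114502 (by decide +kernel)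
def q114523 : Q := Q.p (nat_lit 0x7000004000000000000000000000000000000000000000000000000000000000) (nat_lit 0x700007c0000000001b0001fe0007e0000780000a00000000000000000000000000000000000) (nat_lit 10)
theorem c114523 : QOK q114523 := cut [q6259, q79029, q79041, q79066, q10803, q87238, q114255, q84998, q95364, q110104] ⟨c6259, c79029, c79041, c79066, c10803, c87238, c114255, c84998, c95364, c110104, trivial⟩ (nd (nat_lit 208) (nat_lit 0) (cs (rf (nat_lit 0)) (cs (rf (nat_lit 1)) (cs (rf (nat_lit 2)) (cs (rf (nat_lit 3)) (nd (nat_lit 209) (nat_lit 0) (cs (rf (nat_lit 4)) (cs (rf (nat_lit 5)) (cs (rf (nat_lit 6)) (nd (nat_lit 231) (nat_lit 0) (cs (rf (nat_lit 7)) (cs (rf (nat_lit 8)) (rf (nat_lit 9)))))))))))))) q114523 (by decide +kernel)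
def q114560 : Q := Q.p (nat_lit 0x3800000000000000000000000000000000000000000000000000000000000000) (nat_lit 0x400001c000460001fc00008000020000000000000000000000000000000000000000000000) (nat_lit 6)
theorem c114560 : QOK q114560 := cut [q6264, q23543, q82387] ⟨c6264, c23543, c82387, trivial⟩ (nd (nat_lit 250) (nat_lit 0) (cs (rf (nat_lit 0)) (cs (rf (nat_lit 1)) (rf (nat_lit 2))))) q114560 (by decide +kernel)
def q114596 : Q := Q.p (nat_lit 0x3800008000000000000000000000000000000000000000000000000000000000) (nat_lit 0x200000c0000780004600007c00018000060000000000000000000000000000000000000000000000) (nat_lit 7)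
theorem c114596 : QOK q114596 := cut [q12246, q82387, q89869] ⟨c12246, c82387, c89869, trivial⟩ (nd (nat_lit 250) (nat_lit 0) (cs (rf (nat_lit 0)) (cs (rf (nat_lit 1)) (rf (nat_lit 2))))) q114596 (by decide +kernel)
def q114598 : Q := Q.p (nat_lit 0x380000a000000000000000000000000000000000000000000000000000000000) (nat_lit 0x6c0003b000040000340000fc0001f00007c0000800000000000000000000000000000000000) (nat_lit 11)
theorem c114598 : QOK q114598 := cut [q87951, q88862, q88865, q106710] ⟨c87951, c88862, c88865, c106710, trivial⟩ (nd (nat_lit 230) (nat_lit 0) (cs (rf (nat_lit 0)) (cs (rf (nat_lit 1)) (cs (rf (nat_lit 2)) (rf (nat_lit 3)))))) q114598 (by decide +kernel)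
def q114624 : Q := Q.p (nat_lit 0x800003000008000000000000000000000000000000000000000000000000000000000) (nat_lit 0x100001c00007000004000000000040000700001c0000500000000000000000000000000000000000000000) (nat_lit 8)
theorem c114624 : QOK q114624 := cut [q88912, q88933, q95564] ⟨c88912, c88933, c95564, trivial⟩ (nd (nat_lit 297) (nat_lit 0) (cs (rf (nat_lit 0)) (cs (rf (nat_lit 1)) (rf (nat_lit 2))))) q114624 (by decide +kernel)
def q114640 : Q := Q.p (nat_lit 0x3800000000000000000000000000000000000000000000000000000000000000) (nat_lit 0x8000020000fee001c7000fee00000000000000000000000000000000000000000000000000000000) (nat_lit 10)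
theorem c114640 : QOK q114640 := cut [q81494, q81752, q105771, q114324] ⟨c81494, c81752, c105771, c114324, trivial⟩ (nd (nat_lit 254) (nat_lit 0) (cs (rf (nat_lit 0)) (cs (rf (nat_lit 1)) (cs (rf (nat_lit 2)) (rf (nat_lit 3)))))) q114640 (by decide +kernel)
def q114641 : Q := Q.p (nat_lit 0x3800000000000000000000000000000000000000000000000000000000000000) (nat_lit 0x3fc000470001ee00000000000000000000000000000000000000000000000000000000) (nat_lit 7)
theorem c114641 : QOK q114641 := cut [q23543, q90242, q106420] ⟨c23543, c90242, c106420, trivial⟩ (nd (nat_lit 250) (nat_lit 0) (cs (rf (nat_lit 0)) (cs (rf (nat_lit 1)) (rf (nat_lit 2))))) q114641 (by decide +kernel)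
def q114664 : Q := Q.p (nat_lit 0x7000000000000000000000000000000000000000000000000000000000000000) (nat_lit 0x7f80018e0001e000000000000000000000000000000000000000000000000000000000) (nat_lit 7)
theorem c114664 : QOK q114664 := cut [q79009, q81492, q81494, q103009] ⟨c79009, c81492, c81494, c103009, trivial⟩ (nd (nat_lit 251) (nat_lit 0) (cs (rf (nat_lit 0)) (cs (rf (nat_lit 1)) (cs (rf (nat_lit 2)) (rf (nat_lit 3)))))) q114664 (by decide +kernel)
def q114669 : Q := Q.p (nat_lit 0x1000007000000000000000000000000000000000000000000000000000000000000000) (nat_lit 0x200000e0000ff0003fc000ef0000000001c0000f00003c0000800000000000000000000000000000000000000000) (nat_lit 13)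
theorem c114669 : QOK q114669 := cut [q81413, q81447, q90151, q106905, q106906, q106926, q106929, q106909, q106920, q106924, q99987] ⟨c81413, c81447, c90151, c106905, c106906, c106926, c106929, c106909, c106920, c106924, c99987, trivial⟩ (nd (nat_lit 298) (nat_lit 0) (cs (rf (nat_lit 0)) (cs (rf (nat_lit 1)) (cs (rf (nat_lit 2)) (nd (nat_lit 297) (nat_lit 0) (cs (rf (nat_lit 3)) (cs (rf (nat_lit 4)) (cs (rf (nat_lit 5)) (cs (rf (nat_lit 6)) (nd (nat_lit 275) (nat_lit 0) (cs (rf (nat_lit 7)) (cs (rf (nat_lit 8)) (cs (rf (nat_lit 9)) (nd (nat_lit 231) (nat_lit 0) (cs (lf (nat_lit 24) (nat_lit 209)) (nd (nat_lit 208) (nat_lit 0) (cs (lf (nat_lit 46) (nat_lit 208)) (rf (nat_lit 10))))))))))))))))))) q114669 (by decide +kernel)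
def q114677 : Q := Q.p (nat_lit 0x1000007000008000000000000000000000000000000000000000000000000000000000) (nat_lit 0x200000c00003c0000f80000c000140003f00003c0000000000000000000000000000000000000000000000) (nat_lit 9)
theorem c114677 : QOK q114677 := cut [q81466, q81471, q88748, q106344] ⟨c81466, c81471, c88748, c106344, trivial⟩ (nd (nat_lit 209) (nat_lit 0) (cs (lf (nat_lit 24) (nat_lit 187)) (nd (nat_lit 275) (nat_lit 0) (cs (rf (nat_lit 0)) (cs (rf (nat_lit 1)) (cs (rf (nat_lit 2)) (rf (nat_lit 3)))))))) q114677 (by decide +kernel)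
def q114690 : Q := Q.p (nat_lit 0x400007800002000008000000000000000000000000000000000000000000000000000) (nat_lit 0x180000600003a0000000003c0000e4000390000e40000100000000000000000000000000000000000) (nat_lit 12)
theorem c114690 : QOK q114690 := cut [q102227, q102284, q106860, q106863] ⟨c102227, c102284, c106860, c106863, trivial⟩ (nd (nat_lit 231) (nat_lit 0) (cs (rf (nat_lit 0)) (cs (rf (nat_lit 1)) (cs (rf (nat_lit 2)) (rf (nat_lit 3)))))) q114690 (by decide +kernel)
def q114752 : Q := Q.p (nat_lit 0x3800000000000000000000000000000000000000000000000000000000000000) (nat_lit 0x100000400003f000c780077c0000a000028000000000000000000000000000000000000000000000) (nat_lit 10)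
theorem c114752 : QOK q114752 := cut [q85525, q85526, q85527, q85528, q85533, q20249] ⟨c85525, c85526, c85527, c85528, c85533, c20249, trivial⟩ (nd (nat_lit 272) (nat_lit 0) (cs (rf (nat_lit 0)) (cs (rf (nat_lit 1)) (cs (rf (nat_lit 2)) (nd (nat_lit 250) (nat_lit 0) (cs (lf (nat_lit 11) (nat_lit 249)) (nd (nat_lit 229) (nat_lit 0) (cs (rf (nat_lit 3)) (cs (rf (nat_lit 4)) (nd (nat_lit 228) (nat_lit 0) (cs (lf (nat_lit 23) (nat_lit 227)) (rf (nat_lit 5))))))))))))) q114752 (by decide +kernel)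
def q114793 : Q := Q.p (nat_lit 0x800003800000000000000000000000000000000000000000000000000000000000000) (nat_lit 0xe5c001c600073c00000000000000000000000000000000000000000000000000000000) (nat_lit 9)
theorem c114793 : QOK q114793 := cut [q1998, q2065, q2068, q114278] ⟨c1998, c2065, c2068, c114278, trivial⟩ (nd (nat_lit 250) (nat_lit 0) (cs (rf (nat_lit 0)) (cs (rf (nat_lit 1)) (cs (rf (nat_lit 2)) (rf (nat_lit 3)))))) q114793 (by decide +kernel)
def q114831 : Q := Q.p (nat_lit 0x200000800003000000000000000000000000000000000000000000000000000000000000000) (nat_lit 0x3f0000ff0003dc000740003cc000700000c0000200000000000000000000000000000000000000000000000) (nat_lit 12)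
theorem c114831 : QOK q114831 := cut [q104510, q105405, q108282, q99946, q99970, q99964, q99957, q99724, q13185, q105254, q11799] ⟨c104510, c105405, c108282, c99946, c99970, c99964, c99957, c99724, c13185, c105254, c11799, trivial⟩ (nd (nat_lit 276) (nat_lit 0) (cs (rf (nat_lit 0)) (cs (nd (nat_lit 254) (nat_lit 0) (cs (rf (nat_lit 1)) (cs (rf (nat_lit 2)) (nd (nat_lit 298) (nat_lit 0) (cs (nd (nat_lit 250) (nat_lit 0) (cs (lf (nat_lit 1) (nat_lit 250)) (rf (nat_lit 3)))) (cs (nd (nat_lit 320) (nat_lit 0) (cs (lf (nat_lit 42) (nat_lit 253)) (nd (nat_lit 233) (nat_lit 0) (cs (lf (nat_lit 34) (nat_lit 232)) (nd (nat_lit 250) (nat_lit 0) (cs (lf (nat_lit 1) (nat_lit 250)) (rf (nat_lit 4)))))))) (cs (nd (nat_lit 320) (nat_lit 0) (cs (lf (nat_lit 42) (nat_lit 253)) (nd (nat_lit 233) (nat_lit 0) (cs (lf (nat_lit 34) (nat_lit 232)) (nd (nat_lit 321) (nat_lit 0) (cs (lf (nat_lit 29) (nat_lit 254)) (nd (nat_lit 322) (nat_lit 0) (cs (lf (nat_lit 18) (nat_lit 297)) (nd (nat_lit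 319) (nat_lit 0) (cs (lf (nat_lit 41) (nat_lit 253)) (nd (nat_lit 344) (nat_lit 0) (cs (lf (nat_lit 5) (nat_lit 319)) (rf (nat_lit 5)))))))))))))) (nd (nat_lit 320) (nat_lit 0) (cs (lf (nat_lit 42) (nat_lit 253)) (nd (nat_lit 233) (nat_lit 0) (cs (lf (nat_lit 34) (nat_lit 232)) (nd (nat_lit 319) (nat_lit 0) (cs (lf (nat_lit 41) (nat_lit 253)) (nd (nat_lit 318) (nat_lit 0) (cs (lf (nat_lit 41) (nat_lit 252)) (nd (nat_lit 316) (nat_lit 0) (cs (lf (nat_lit 13) (nat_lit 294)) (nd (nat_lit 250) (nat_lit 0) (cs (lf (nat_lit 1) (nat_lit 250)) (rf (nat_lit 6))))))))))))))))))))) (nd (nat_lit 277) (nat_lit 0) (cs (lf (nat_lit 18) (nat_lit 252)) (nd (nat_lit 319) (nat_lit 0) (cs (rf (nat_lit 7)) (cs (nd (nat_lit 255) (nat_lit 0) (cs (nd (nat_lit 318) (nat_lit 0) (cs (lf (nat_lit 41) (nat_lit 252)) (nd (nat_lit 320) (nat_lit 0) (cs (lf (nat_lit 29) (nat_lit 253)) (nd (nat_lit 274) (nat_lit 0) (cs (lf (nat_lit 17) (nat_lit 252)) (nd (nat_lit 295) (nat_lit 0) (cs (lf (nat_lit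 10) (nat_lit 273)) (rf (nat_lit 8)))))))))) (cs (nd (nat_lit 254) (nat_lit 0) (cs (lf (nat_lit 35) (nat_lit 231)) (nd (nat_lit 318) (nat_lit 0) (cs (lf (nat_lit 41) (nat_lit 252)) (rf (nat_lit 9)))))) (nd (nat_lit 254) (nat_lit 0) (cs (lf (nat_lit 35) (nat_lit 231)) (nd (nat_lit 256) (nat_lit 0) (cs (lf (nat_lit 12) (nat_lit 252)) (lf (nat_lit 6) (nat_lit 253))))))))) (nd (nat_lit 320) (nat_lit 0) (cs (lf (nat_lit 29) (nat_lit 253)) (nd (nat_lit 318) (nat_lit 0) (cs (lf (nat_lit 41) (nat_lit 252)) (nd (nat_lit 274) (nat_lit 0) (cs (lf (nat_lit 42) (nat_lit 252)) (nd (nat_lit 299) (nat_lit 0) (cs (lf (nat_lit 5) (nat_lit 274)) (nd (nat_lit 295) (nat_lit 0) (cs (lf (nat_lit 10) (nat_lit 273)) (rf (nat_lit 10)))))))))))))))))))) q114831 (by decide +kernel)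
def q114877 : Q := Q.p (nat_lit 0x800007000000000000000000000000000000000000000000000000000000000000000) (nat_lit 0x100007700018800003000008000020000000000000000000000000000000000000000000000) (nat_lit 7)
theorem c114877 : QOK q114877 := cut [q81354, q114478, q96398] ⟨c81354, c114478, c96398, trivial⟩ (nd (nat_lit 277) (nat_lit 0) (cs (rf (nat_lit 0)) (cs (rf (nat_lit 1)) (nd (nat_lit 251) (nat_lit 0) (cs (lf (nat_lit 4) (nat_lit 251)) (rf (nat_lit 2))))))) q114877 (by decide +kernel)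
def q114905 : Q := Q.p (nat_lit 0x800003000000000000000000000000000000000000000000000000000000000000000) (nat_lit 0x400001e0000fe00037c0004e00037c00058000120000000000000000000000000000000000000000000000) (nat_lit 10)
theorem c114905 : QOK q114905 := cut [q1999, q2066, q2091, q82198, q89739, q80246, q83666, q89807, q99030, q2059, q114904] ⟨c1999, c2066, c2091, c82198, c89739, c80246, c83666, c89807, c99030, c2059, c114904, trivial⟩ (nd (nat_lit 251) (nat_lit 0) (cs (rf (nat_lit 0)) (cs (rf (nat_lit 1)) (cs (rf (nat_lit 2)) (cs (nd (nat_lit 229) (nat_lit 0) (cs (rf (nat_lit 3)) (cs (rf (nat_lit 4)) (nd (nat_lit 274) (nat_lit 0) (cs (rf (nat_lit 5)) (cs (rf (nat_lit 6)) (cs (nd (nat_lit 273) (nat_lit 0) (cs (rf (nat_lit 7)) (cs (rf (nat_lit 8)) (cs (nd (nat_lit 185) (nat_lit 0) (cs (rf (nat_lit 9)) (lf (nat_lit 25) (nat_lit 185)))) (nd (nat_lit 271) (nat_lit 0) (cs (lf (nat_lit 13) (nat_lit 249)) (nd (nat_lit 276) (nat_lit 0) (cs (lf (nat_lit 18) (nat_lit 251)) (nd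 (nat_lit 185) (nat_lit 0) (cs (lf (nat_lit 25) (nat_lit 185)) (nd (nat_lit 295) (nat_lit 0) (cs (lf (nat_lit 11) (nat_lit 272)) (nd (nat_lit 230) (nat_lit 0) (cs (lf (nat_lit 30) (nat_lit 229)) (lf (nat_lit 35) (nat_lit 207)))))))))))))))) (nd (nat_lit 273) (nat_lit 0) (cs (rf (nat_lit 9)) (cs (rf (nat_lit 7)) (cs (rf (nat_lit 8)) (nd (nat_lit 296) (nat_lit 0) (cs (lf (nat_lit 42) (nat_lit 229)) (nd (nat_lit 276) (nat_lit 0) (cs (lf (nat_lit 18) (nat_lit 251)) (nd (nat_lit 271) (nat_lit 0) (cs (lf (nat_lit 13) (nat_lit 249)) (nd (nat_lit 295) (nat_lit 0) (cs (lf (nat_lit 11) (nat_lit 272)) (nd (nat_lit 230) (nat_lit 0) (cs (lf (nat_lit 41) (nat_lit 229)) (lf (nat_lit 35) (nat_lit 207))))))))))))))))))))))) (rf (nat_lit 10))))))) q114905 (by decide +kernel)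
def q114940 : Q := Q.p (nat_lit 0xc00002000000000000000000000000000000000000000000000000000000000000000) (nat_lit 0x48000160001df00033e001cfc000b00000c000000000000000000000000000000000000000000000000000) (nat_lit 10)
theorem c114940 : QOK q114940 := cut [q97409, q114931, q103856, q114939] ⟨c97409, c114931, c103856, c114939, trivial⟩ (nd (nat_lit 273) (nat_lit 0) (cs (rf (nat_lit 0)) (cs (rf (nat_lit 1)) (cs (nd (nat_lit 276) (nat_lit 0) (cs (rf (nat_lit 2)) (nd (nat_lit 298) (nat_lit 0) (cs (lf (nat_lit 5) (nat_lit 273)) (nd (nat_lit 320) (nat_lit 0) (cs (lf (nat_lit 42) (nat_lit 253)) (nd (nat_lit 254) (nat_lit 0) (cs (lf (nat_lit 47) (nat_lit 231)) (lf (nat_lit 17) (nat_lit 251)))))))))) (rf (nat_lit 3)))))) q114940 (by decide +kernel)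
def q115008 : Q := Q.p (nat_lit 0xc00003000000000000000000000000000000000000000000000000000000000000000) (nat_lit 0x380000e00001e000320000000000e0000380000e0000000000000000000000000000000000000000000000) (nat_lit 8)
theorem c115008 : QOK q115008 := cut [q11506, q98392, q80993, q98462, q114948] ⟨c11506, c98392, c80993, c98462, c114948, trivial⟩ (nd (nat_lit 296) (nat_lit 0) (cs (rf (nat_lit 0)) (cs (rf (nat_lit 1)) (nd (nat_lit 230) (nat_lit 0) (cs (rf (nat_lit 2)) (cs (rf (nat_lit 3)) (rf (nat_lit 4)))))))) q115008 (by decide +kernel)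
def q115063 : Q := Q.p (nat_lit 0xc00002000000000000000000000000000000000000000000000000000000000000000) (nat_lit 0x80000340003dc000f30001d80007f0000fc0003e0000500000000000000000000000000000000000000000) (nat_lit 12)
theorem c115063 : QOK q115063 := cut [q98134, q99646, q115045, q80720, q101882, q115027, q115052, q115055, q115061] ⟨c98134, c99646, c115045, c80720, c101882, c115027, c115052, c115055, c115061, trivial⟩ (nd (nat_lit 231) (nat_lit 0) (cs (rf (nat_lit 0)) (cs (rf (nat_lit 1)) (cs (rf (nat_lit 2)) (nd (nat_lit 254) (nat_lit 0) (cs (rf (nat_lit 3)) (cs (rf (nat_lit 4)) (cs (nd (nat_lit 276) (nat_lit 0) (cs (rf (nat_lit 5)) (cs (rf (nat_lit 6)) (rf (nat_lit 7))))) (rf (nat_lit 8)))))))))) q115063 (by decide +kernel)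
def q115064 : Q := Q.p (nat_lit 0x1c00006000008000000000000000000000000000000000000000000000000000000000) (nat_lit 0x140000dc0002200000c00002000008000000000000000000000000000000000000000000000000000) (nat_lit 7)
theorem c115064 : QOK q115064 := cut [q108496] ⟨c108496, trivial⟩ (nd (nat_lit 298) (nat_lit 0) (cs (lf (nat_lit 42) (nat_lit 231)) (rf (nat_lit 0)))) q115064 (by decide +kernel)
def q115107 : Q := Q.p (nat_lit 0xc00002000000000000000000000000000000000000000000000000000000000000000) (nat_lit 0x40000100003cf000738003df0003f00007c0001f0000000000000000000000000000000000000000000000) (nat_lit 15)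
theorem c115107 : QOK q115107 := cut [q97408, q97409, q115095, q54904, q90588, q107326, q105136] ⟨c97408, c97409, c115095, c54904, c90588, c107326, c105136, trivial⟩ (nd (nat_lit 273) (nat_lit 0) (cs (rf (nat_lit 0)) (cs (rf (nat_lit 1)) (cs (rf (nat_lit 2)) (nd (nat_lit 276) (nat_lit 0) (cs (rf (nat_lit 3)) (cs (rf (nat_lit 4)) (cs (rf (nat_lit 5)) (nd (nat_lit 251) (nat_lit 0) (cs (lf (nat_lit 23) (nat_lit 250)) (nd (nat_lit 294) (nat_lit 0) (cs (lf (nat_lit 10) (nat_lit 272)) (nd (nat_lit 252) (nat_lit 0) (cs (lf (nat_lit 18) (nat_lit 251)) (nd (nat_lit 254) (nat_lit 0) (cs (lf (nat_lit 6) (nat_lit 251)) (nd (nat_lit 232) (nat_lit 0) (cs (lf (nat_lit 17) (nat_lit 229)) (nd (nat_lit 188) (nat_lit 0) (cs (lf (nat_lit 37) (nat_lit 187)) (nd (nat_lit 229) (nat_lit 0) (cs (lf (nat_lit 23) (nat_lit 228)) (nd (nat_lit 207) (nat_lit 0) (cs (lf (nat_lit 24) (nat_lit 185)) (nd (nat_lit 186) (nat_lit 0) (cs (lf (nat_lit 34) (nat_lit 185)) (rf (nat_lit 6))))))))))))))))))))))))))))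 q115107 (by decide +kernel)
def q115130 : Q := Q.p (nat_lit 0xc00002000000000000000000000000000000000000000000000000000000000000000) (nat_lit 0x80000340003d0000f30001dc0007f0000fc0003e0000500000000000000000000000000000000000000000) (nat_lit 14)
theorem c115130 : QOK q115130 := cut [q56839, q98134, q99646, q115045, q101882, q115081, q115027, q700, q115048, q80246, q97329, q83694, q86390, q98272, q98158] ⟨c56839, c98134, c99646, c115045, c101882, c115081, c115027, c700, c115048, c80246, c97329, c83694, c86390, c98272, c98158, trivial⟩ (nd (nat_lit 231) (nat_lit 0) (cs (rf (nat_lit 0)) (cs (rf (nat_lit 1)) (cs (rf (nat_lit 2)) (cs (rf (nat_lit 3)) (nd (nat_lit 254) (nat_lit 0) (cs (rf (nat_lit 4)) (cs (rf (nat_lit 5)) (cs (nd (nat_lit 276) (nat_lit 0) (cs (rf (nat_lit 6)) (cs (nd (nat_lit 252) (nat_lit 0) (cs (rf (nat_lit 7)) (cs (nd (nat_lit 298) (nat_lit 0) (cs (lf (nat_lit 42) (nat_lit 231)) (nd (nat_lit 296) (nat_lit 0) (cs (lf (nat_lit 30) (nat_lit 230)) (nd (nat_lit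 277) (nat_lit 0) (cs (lf (nat_lit 18) (nat_lit 252)) (rf (nat_lit 8)))))))) (nd (nat_lit 251) (nat_lit 0) (cs (lf (nat_lit 0) (nat_lit 250)) (nd (nat_lit 298) (nat_lit 0) (cs (lf (nat_lit 42) (nat_lit 231)) (nd (nat_lit 229) (nat_lit 0) (cs (lf (nat_lit 23) (nat_lit 228)) (nd (nat_lit 232) (nat_lit 0) (cs (lf (nat_lit 17) (nat_lit 229)) (nd (nat_lit 299) (nat_lit 0) (cs (lf (nat_lit 29) (nat_lit 232)) (nd (nat_lit 300) (nat_lit 0) (cs (lf (nat_lit 18) (nat_lit 275)) (nd (nat_lit 188) (nat_lit 0) (cs (lf (nat_lit 37) (nat_lit 187)) (rf (nat_lit 9))))))))))))))))))) (nd (nat_lit 273) (nat_lit 0) (cs (lf (nat_lit 12) (nat_lit 250)) (nd (nat_lit 251) (nat_lit 0) (cs (lf (nat_lit 23) (nat_lit 250)) (nd (nat_lit 252) (nat_lit 0) (cs (lf (nat_lit 18) (nat_lit 251)) (rf (nat_lit 10))))))))))) (nd (nat_lit 255) (nat_lit 0) (cs (lf (nat_lit 6) (nat_lit 252)) (nd (nat_lit 252) (nat_lit 0) (cs (rf (nat_lit 11)) (cs (rf (nat_lit 12)) (cs (rf (nat_lit 13)) (nd (nat_lit 277) (nat_lit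 0) (cs (lf (nat_lit 5) (nat_lit 252)) (nd (nat_lit 233) (nat_lit 0) (cs (lf (nat_lit 17) (nat_lit 230)) (nd (nat_lit 230) (nat_lit 0) (cs (lf (nat_lit 23) (nat_lit 229)) (nd (nat_lit 296) (nat_lit 0) (cs (lf (nat_lit 30) (nat_lit 230)) (rf (nat_lit 14))))))))))))))))))))))))) q115130 (by decide +kernel)
def q115180 : Q := Q.p (nat_lit 0x200000800002000000000000000000000000000000000000000000000000000000000000000) (nat_lit 0x14000050000240003de000ff0003fe000540001000000000000000000000000000000000000000000) (nat_lit 13)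
theorem c115180 : QOK q115180 := cut [q22016, q79736, q89353, q109033, q109045, q97448, q109038] ⟨c22016, c79736, c89353, c109033, c109045, c97448, c109038, trivial⟩ (nd (nat_lit 231) (nat_lit 0) (cs (rf (nat_lit 0)) (cs (rf (nat_lit 1)) (cs (rf (nat_lit 2)) (nd (nat_lit 232) (nat_lit 0) (cs (lf (nat_lit 35) (nat_lit 209)) (nd (nat_lit 233) (nat_lit 0) (cs (rf (nat_lit 3)) (cs (rf (nat_lit 4)) (cs (nd (nat_lit 230) (nat_lit 0) (cs (lf (nat_lit 47) (nat_lit 208)) (nd (nat_lit 296) (nat_lit 0) (cs (lf (nat_lit 41) (nat_lit 230)) (rf (nat_lit 5)))))) (nd (nat_lit 296) (nat_lit 0) (cs (lf (nat_lit 41) (nat_lit 230)) (nd (nat_lit 230) (nat_lit 0) (cs (lf (nat_lit 47) (nat_lit 208)) (nd (nat_lit 298) (nat_lit 0) (cs (lf (nat_lit 29) (nat_lit 231)) (rf (nat_lit 6)))))))))))))))))) q115180 (by decide +kernel)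
def q115181 : Q := Q.p (nat_lit 0x200000800002000000000000000000000000000000000000000000000000000000000000000) (nat_lit 0x60000180001d0000070000d00001c0000700001c0000400000000000000000000000000000000000000000) (nat_lit 11)
theorem c115181 : QOK q115181 := cut [q89353, q98797, q99286, q99294] ⟨c89353, c98797, c99286, c99294, trivial⟩ (nd (nat_lit 231) (nat_lit 0) (cs (rf (nat_lit 0)) (cs (rf (nat_lit 1)) (cs (rf (nat_lit 2)) (rf (nat_lit 3)))))) q115181 (by decide +kernel)
def q115206 : Q := Q.p (nat_lit 0x200000800003000000000000000000000000000000000000000000000000000000000000000) (nat_lit 0x20001dc00077c000ce0000fc00010000040000000000000000000000000000000000000000000000) (nat_lit 9)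
theorem c115206 : QOK q115206 := cut [q1999, q2066, q2091, q114904, q88741, q114862, q88337, q90858, q98781, q113222] ⟨c1999, c2066, c2091, c114904, c88741, c114862, c88337, c90858, c98781, c113222, trivial⟩ (nd (nat_lit 251) (nat_lit 0) (cs (rf (nat_lit 0)) (cs (rf (nat_lit 1)) (cs (rf (nat_lit 2)) (cs (rf (nat_lit 3)) (nd (nat_lit 276) (nat_lit 0) (cs (rf (nat_lit 4)) (cs (rf (nat_lit 5)) (nd (nat_lit 230) (nat_lit 0) (cs (rf (nat_lit 6)) (nd (nat_lit 273) (nat_lit 0) (cs (rf (nat_lit 7)) (cs (rf (nat_lit 8)) (rf (nat_lit 9))))))))))))))) q115206 (by decide +kernel)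
def q115254 : Q := Q.p (nat_lit 0xc00002000000000000000000000000000000000000000000000000000000000000000) (nat_lit 0x160000fe00033c0001e0003f8001fe0001e0000500000000000000000000000000000000000000000) (nat_lit 13)
theorem c115254 : QOK q115254 := cut [q56839, q98134, q99646, q115236, q97957, q91970, q1999, q106047, q100775, q98479, q98728, q115228, q15992] ⟨c56839, c98134, c99646, c115236, c97957, c91970, c1999, c106047, c100775, c98479, c98728, c115228, c15992, trivial⟩ (nd (nat_lit 231) (nat_lit 0) (cs (rf (nat_lit 0)) (cs (rf (nat_lit 1)) (cs (rf (nat_lit 2)) (cs (rf (nat_lit 3)) (nd (nat_lit 230) (nat_lit 0) (cs (rf (nat_lit 4)) (cs (nd (nat_lit 252) (nat_lit 0) (cs (rf (nat_lit 5)) (cs (nd (nat_lit 251) (nat_lit 0) (cs (rf (nat_lit 6)) (nd (nat_lit 232) (nat_lit 0) (cs (lf (nat_lit 6) (nat_lit 229)) (nd (nat_lit 210) (nat_lit 0) (cs (lf (nat_lit 30) (nat_lit 209)) (nd (nat_lit 229) (nat_lit 0) (cs (lf (nat_lit 17) (nat_lit 207)) (rf (nat_lit 7)))))))))) (nd (nat_lit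 296) (nat_lit 0) (cs (lf (nat_lit 30) (nat_lit 230)) (nd (nat_lit 295) (nat_lit 0) (cs (lf (nat_lit 41) (nat_lit 229)) (nd (nat_lit 293) (nat_lit 0) (cs (lf (nat_lit 13) (nat_lit 271)) (nd (nat_lit 229) (nat_lit 0) (cs (lf (nat_lit 47) (nat_lit 207)) (nd (nat_lit 228) (nat_lit 0) (cs (lf (nat_lit 0) (nat_lit 227)) (nd (nat_lit 205) (nat_lit 0) (cs (lf (nat_lit 22) (nat_lit 205)) (nd (nat_lit 250) (nat_lit 0) (cs (lf (nat_lit 11) (nat_lit 227)) (nd (nat_lit 232) (nat_lit 0) (cs (lf (nat_lit 10) (nat_lit 228)) (rf (nat_lit 8))))))))))))))))))))) (cs (nd (nat_lit 252) (nat_lit 0) (cs (rf (nat_lit 9)) (cs (rf (nat_lit 10)) (rf (nat_lit 11))))) (nd (nat_lit 297) (nat_lit 0) (cs (rf (nat_lit 12)) (lf (nat_lit 47) (nat_lit 208))))))))))))) q115254 (by decide +kernel)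
def q115278 : Q := Q.p (nat_lit 0x200000800002000000000000000000000000000000000000000000000000000000000000000) (nat_lit 0x14000050000f78003dc001f78000d0000380000e0000100000000000000000000000000000000000000000000000) (nat_lit 11)
theorem c115278 : QOK q115278 := cut [q90750, q99668, q11531, q11637, q99669, q113356, q90752, q99676, q115276] ⟨c90750, c99668, c11531, c11637, c99669, c113356, c90752, c99676, c115276, trivial⟩ (nd (nat_lit 298) (nat_lit 0) (cs (rf (nat_lit 0)) (cs (rf (nat_lit 1)) (cs (nd (nat_lit 299) (nat_lit 0) (cs (rf (nat_lit 2)) (cs (rf (nat_lit 3)) (cs (rf (nat_lit 4)) (rf (nat_lit 5)))))) (nd (nat_lit 296) (nat_lit 0) (cs (rf (nat_lit 6)) (cs (rf (nat_lit 7)) (rf (nat_lit 8))))))))) q115278 (by decide +kernel)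
def q115330 : Q := Q.p (nat_lit 0x200000800002000000000000000000000000000000000000000000000000000000000000000) (nat_lit 0x40000b8000ef0003dc000f70003de000fb8000e8000380000000000000000000000000000000000000000000000) (nat_lit 17)
theorem c115330 : QOK q115330 := cut [q81192, q111577, q80720, q101882, q113372, q113375, q113377, q113381, q108539, q113394, q115055, q90752, q113408, q113414, q113419, q113423, q79198, q86322, q105048, q109957, q113442, q113443, q113437] ⟨c81192, c111577, c80720, c101882, c113372, c113375, c113377, c113381, c108539, c113394, c115055, c90752, c113408, c113414, c113419, c113423, c79198, c86322, c105048, c109957, c113442, c113443, c113437, trivial⟩ (nd (nat_lit 254) (nat_lit 0) (cs (rf (nat_lit 0)) (cs (rf (nat_lit 1)) (cs (nd (nat_lit 274) (nat_lit 0) (cs (rf (nat_lit 2)) (cs (rf (nat_lit 3)) (cs (nd (nat_lit 318) (nat_lit 0) (cs (rf (nat_lit 4)) (cs (rf (nat_lit 5)) (nd (nat_lit 277) (nat_lit 0) (cs (nd (nat_lit 255) (nat_lit 0) (cs (lf (nat_lit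 6) (nat_lit 252)) (nd (nat_lit 252) (nat_lit 0) (cs (lf (nat_lit 5) (nat_lit 252)) (rf (nat_lit 6)))))) (cs (nd (nat_lit 255) (nat_lit 0) (cs (lf (nat_lit 6) (nat_lit 252)) (nd (nat_lit 252) (nat_lit 0) (cs (lf (nat_lit 5) (nat_lit 252)) (nd (nat_lit 233) (nat_lit 0) (cs (lf (nat_lit 17) (nat_lit 230)) (nd (nat_lit 319) (nat_lit 0) (cs (lf (nat_lit 42) (nat_lit 252)) (nd (nat_lit 296) (nat_lit 0) (cs (lf (nat_lit 35) (nat_lit 230)) (rf (nat_lit 7)))))))))))) (nd (nat_lit 296) (nat_lit 0) (cs (lf (nat_lit 36) (nat_lit 230)) (nd (nat_lit 276) (nat_lit 0) (cs (lf (nat_lit 11) (nat_lit 273)) (nd (nat_lit 319) (nat_lit 0) (cs (lf (nat_lit 30) (nat_lit 253)) (nd (nat_lit 299) (nat_lit 0) (cs (lf (nat_lit 5) (nat_lit 274)) (nd (nat_lit 321) (nat_lit 0) (cs (lf (nat_lit 42) (nat_lit 254)) (rf (nat_lit 8)))))))))))))))))) (nd (nat_lit 276) (nat_lit 0) (cs (rf (nat_lit 9)) (cs (rf (nat_lit 10)) (nd (nat_lit 273) (nat_lit 0) (cs (lf (nat_lit 12) (nat_lit 250)) (nd (nat_lit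 319) (nat_lit 0) (cs (lf (nat_lit 30) (nat_lit 253)) (nd (nat_lit 318) (nat_lit 0) (cs (lf (nat_lit 41) (nat_lit 252)) (nd (nat_lit 298) (nat_lit 0) (cs (lf (nat_lit 5) (nat_lit 273)) (nd (nat_lit 209) (nat_lit 0) (cs (lf (nat_lit 25) (nat_lit 209)) (nd (nat_lit 317) (nat_lit 0) (cs (lf (nat_lit 12) (nat_lit 294)) (nd (nat_lit 295) (nat_lit 0) (cs (lf (nat_lit 11) (nat_lit 272)) (nd (nat_lit 251) (nat_lit 0) (cs (lf (nat_lit 23) (nat_lit 250)) (nd (nat_lit 252) (nat_lit 0) (cs (lf (nat_lit 30) (nat_lit 251)) (lf (nat_lit 5) (nat_lit 251))))))))))))))))))))))))))) (nd (nat_lit 296) (nat_lit 0) (cs (rf (nat_lit 11)) (cs (rf (nat_lit 12)) (cs (nd (nat_lit 274) (nat_lit 0) (cs (rf (nat_lit 2)) (cs (rf (nat_lit 3)) (cs (rf (nat_lit 13)) (nd (nat_lit 276) (nat_lit 0) (cs (rf (nat_lit 14)) (cs (rf (nat_lit 15)) (nd (nat_lit 295) (nat_lit 0) (cs (lf (nat_lit 12) (nat_lit 272)) (lf (nat_lit 6) (nat_lit 273))))))))))) (nd (nat_lit 232) (nat_lit 0) (cs (rf (nat_lit 16)) (cs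 (rf (nat_lit 17)) (nd (nat_lit 276) (nat_lit 0) (cs (rf (nat_lit 18)) (cs (rf (nat_lit 19)) (cs (rf (nat_lit 20)) (cs (rf (nat_lit 21)) (nd (nat_lit 255) (nat_lit 0) (cs (rf (nat_lit 22)) (cs (nd (nat_lit 277) (nat_lit 0) (cs (lf (nat_lit 6) (nat_lit 274)) (nd (nat_lit 251) (nat_lit 0) (cs (lf (nat_lit 1) (nat_lit 251)) (nd (nat_lit 299) (nat_lit 0) (cs (lf (nat_lit 42) (nat_lit 232)) (nd (nat_lit 274) (nat_lit 0) (cs (lf (nat_lit 5) (nat_lit 274)) (lf (nat_lit 12) (nat_lit 251)))))))))) (nd (nat_lit 274) (nat_lit 0) (cs (lf (nat_lit 6) (nat_lit 252)) (lf (nat_lit 12) (nat_lit 251))))))))))))))))))))))) q115330 (by decide +kernel)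
def q115363 : Q := Q.p (nat_lit 0x200000800002000000000000000000000000000000000000000000000000000000000000000) (nat_lit 0x14000050000f78003de000f7c000580000e000038000040000000000000000000000000000000000000000000000) (nat_lit 11)
theorem c115363 : QOK q115363 := cut [q90752, q94505, q113689, q90750, q109525, q115276] ⟨c90752, c94505, c113689, c90750, c109525, c115276, trivial⟩ (nd (nat_lit 296) (nat_lit 0) (cs (rf (nat_lit 0)) (cs (rf (nat_lit 1)) (cs (rf (nat_lit 2)) (nd (nat_lit 298) (nat_lit 0) (cs (rf (nat_lit 3)) (cs (rf (nat_lit 4)) (rf (nat_lit 5))))))))) q115363 (by decide +kernel)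
def q115383 : Q := Q.p (nat_lit 0x800002000018000000000000000000000000000000000000000000000000000000000) (nat_lit 0x20000400003de0006700039e000240000900000000000000000000000000000000000000000) (nat_lit 8)
theorem c115383 : QOK q115383 := cut [q97957, q109271, q115382] ⟨c97957, c109271, c115382, trivial⟩ (nd (nat_lit 230) (nat_lit 0) (cs (rf (nat_lit 0)) (cs (rf (nat_lit 1)) (rf (nat_lit 2))))) q115383 (by decide +kernel)
def q115602 : Q := Q.p (nat_lit 0x200000800002000000000000000000000000000000000000000000000000000000000000000) (nat_lit 0x300000c00005c000740000580001c0000700000c0000100000000000000000000000000000000000000000) (nat_lit 11)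
theorem c115602 : QOK q115602 := cut [q79736, q100749, q100756, q101546, q107861] ⟨c79736, c100749, c100756, c101546, c107861, trivial⟩ (nd (nat_lit 231) (nat_lit 0) (cs (rf (nat_lit 0)) (cs (rf (nat_lit 1)) (cs (rf (nat_lit 2)) (cs (rf (nat_lit 3)) (rf (nat_lit 4))))))) q115602 (by decide +kernel)
def q115687 : Q := Q.p (nat_lit 0x7800000000000000000000000000000000000000000000000000000000000000) (nat_lit 0xe0000380000e00003b0000000003b0000e0000380000c00002000000000000000000000000000000000000) (nat_lit 13)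
theorem c115687 : QOK q115687 := cut [q79123, q89993, q105753, q92319] ⟨c79123, c89993, c105753, c92319, trivial⟩ (nd (nat_lit 232) (nat_lit 0) (cs (lf (nat_lit 17) (nat_lit 229)) (nd (nat_lit 210) (nat_lit 0) (cs (rf (nat_lit 0)) (cs (rf (nat_lit 1)) (cs (rf (nat_lit 2)) (nd (nat_lit 276) (nat_lit 0) (cs (lf (nat_lit 5) (nat_lit 251)) (nd (nat_lit 189) (nat_lit 0) (cs (lf (nat_lit 34) (nat_lit 188)) (nd (nat_lit 167) (nat_lit 0) (cs (lf (nat_lit 33) (nat_lit 166)) (nd (nat_lit 272) (nat_lit 0) (cs (lf (nat_lit 10) (nat_lit 250)) (nd (nat_lit 228) (nat_lit 0) (cs (lf (nat_lit 22) (nat_lit 228)) (rf (nat_lit 3)))))))))))))))))) q115687 (by decide +kernel)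
def q115691 : Q := Q.p (nat_lit 0x7000000000000000000000000000000000000000000000000000000000000000) (nat_lit 0x1c0000700001c0000fe000180000f60001c0000700001800004000000000000000000000000000000000000) (nat_lit 14)
theorem c115691 : QOK q115691 := cut [q80417, q82259, q105806, q110526] ⟨c80417, c82259, c105806, c110526, trivial⟩ (nd (nat_lit 255) (nat_lit 0) (cs (rf (nat_lit 0)) (cs (rf (nat_lit 1)) (cs (rf (nat_lit 2)) (rf (nat_lit 3)))))) q115691 (by decide +kernel)
def q115715 : Q := Q.p (nat_lit 0x7000004000000000000000000000000000000000000000000000000000000000) (nat_lit 0xf000018800078000180000200000800000000000000000000000000000000000000000) (nat_lit 7)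
theorem c115715 : QOK q115715 := cut [q87169, q106133, q113999] ⟨c87169, c106133, c113999, trivial⟩ (nd (nat_lit 255) (nat_lit 0) (cs (rf (nat_lit 0)) (cs (rf (nat_lit 1)) (rf (nat_lit 2))))) q115715 (by decide +kernel)
def q115717 : Q := Q.p (nat_lit 0x380000c000000000000000000000000000000000000000000000000000000000) (nat_lit 0x400004000033c000cc000120000480000000000000000000000000000000000000000) (nat_lit 7)
theorem c115717 : QOK q115717 := cut [q82198, q88829] ⟨c82198, c88829, trivial⟩ (nd (nat_lit 229) (nat_lit 0) (cs (rf (nat_lit 0)) (rf (nat_lit 1)))) q115717 (by decide +kernel)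
def q115757 : Q := Q.p (nat_lit 0x3800008000000000000000000000000000000000000000000000000000000000) (nat_lit 0x40000300000e000040000760000fc0001f0000780001400000000000000000000000000000000000) (nat_lit 10)
theorem c115757 : QOK q115757 := cut [q82300, q82301, q82309, q88893, q105163] ⟨c82300, c82301, c82309, c88893, c105163, trivial⟩ (nd (nat_lit 209) (nat_lit 0) (cs (rf (nat_lit 0)) (cs (rf (nat_lit 1)) (cs (rf (nat_lit 2)) (cs (rf (nat_lit 3)) (rf (nat_lit 4))))))) q115757 (by decide +kernel)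
def q115768 : Q := Q.p (nat_lit 0x7000000000000000000000000000000000000000000000000000000000000000) (nat_lit 0x200000e0000380000e0000fb80000c000fc0000e0000280000800000000000000000000000000000000000000000) (nat_lit 8)
theorem c115768 : QOK q115768 := cut [q81755, q106114, q114389, q79118, q81763, q115766] ⟨c81755, c106114, c114389, c79118, c81763, c115766, trivial⟩ (nd (nat_lit 276) (nat_lit 0) (cs (rf (nat_lit 0)) (cs (rf (nat_lit 1)) (cs (rf (nat_lit 2)) (nd (nat_lit 232) (nat_lit 0) (cs (rf (nat_lit 3)) (cs (rf (nat_lit 4)) (rf (nat_lit 5))))))))) q115768 (by decide +kernel)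
def q115816 : Q := Q.p (nat_lit 0x3800000000000000000000000000000000000000000000000000000000000000) (nat_lit 0x400001f0000fe0003e0000c70000fc0007f0001f00007c0000500000000000000000000000000000000000) (nat_lit 15)
theorem c115816 : QOK q115816 := cut [q82198, q84257, q83666, q91583, q106442, q106445, q106453, q110729, q4419, q82288, q2091, q106459, q106461, q79078, q79112, q95670, q106474, q106448, q106478, q82197, q84256, q106500, q80450, q87949, q106501] ⟨c82198, c84257, c83666, c91583, c106442, c106445, c106453, c110729, c4419, c82288, c2091, c106459, c106461, c79078, c79112, c95670, c106474, c106448, c106478, c82197, c84256, c106500, c80450, c87949, c106501, trivial⟩ (nd (nat_lit 229) (nat_lit 0) (cs (rf (nat_lit 0)) (cs (rf (nat_lit 1)) (cs (nd (nat_lit 274) (nat_lit 0) (cs (rf (nat_lit 2)) (cs (rf (nat_lit 3)) (cs (rf (nat_lit 4)) (nd (nat_lit 230) (nat_lit 0) (cs (rf (nat_lit 5)) (cs (rf (nat_lit 6)) (cs (rf (nat_lit 7)) (nd (nat_lit 296) (nat_lit 0) (cs (rf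 (nat_lit 8)) (rf (nat_lit 9)))))))))))) (nd (nat_lit 275) (nat_lit 0) (cs (rf (nat_lit 10)) (cs (rf (nat_lit 11)) (cs (rf (nat_lit 12)) (cs (nd (nat_lit 230) (nat_lit 0) (cs (rf (nat_lit 13)) (cs (rf (nat_lit 14)) (cs (rf (nat_lit 15)) (cs (rf (nat_lit 16)) (nd (nat_lit 274) (nat_lit 0) (cs (rf (nat_lit 3)) (cs (rf (nat_lit 17)) (rf (nat_lit 18)))))))))) (nd (nat_lit 228) (nat_lit 0) (cs (rf (nat_lit 19)) (cs (rf (nat_lit 20)) (nd (nat_lit 230) (nat_lit 0) (cs (rf (nat_lit 13)) (cs (rf (nat_lit 15)) (cs (rf (nat_lit 21)) (nd (nat_lit 207) (nat_lit 0) (cs (rf (nat_lit 22)) (cs (rf (nat_lit 23)) (rf (nat_lit 24))))))))))))))))))))) q115816 (by decide +kernel)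
def q115850 : Q := Q.p (nat_lit 0x7000000000000000000000000000000000000000000000000000000000000000) (nat_lit 0xa0000380000f0000fc00000c000fb8001f80003e0000f00002800000000000000000000000000000000000) (nat_lit 12)
theorem c115850 : QOK q115850 := cut [q79118, q79165, q79123, q79128, q79145, q79160, q79149, q92319, q106554, q106559, q81991, q106114, q115766] ⟨c79118, c79165, c79123, c79128, c79145, c79160, c79149, c92319, c106554, c106559, c81991, c106114, c115766, trivial⟩ (nd (nat_lit 232) (nat_lit 0) (cs (rf (nat_lit 0)) (cs (rf (nat_lit 1)) (cs (nd (nat_lit 210) (nat_lit 0) (cs (rf (nat_lit 2)) (cs (rf (nat_lit 3)) (cs (rf (nat_lit 4)) (cs (rf (nat_lit 5)) (nd (nat_lit 276) (nat_lit 0) (cs (rf (nat_lit 6)) (cs (rf (nat_lit 7)) (cs (rf (nat_lit 8)) (rf (nat_lit 9))))))))))) (nd (nat_lit 276) (nat_lit 0) (cs (rf (nat_lit 10)) (cs (rf (nat_lit 11)) (rf (nat_lit 12))))))))) q115850 (by decide +kernel)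
def q115884 : Q := Q.p (nat_lit 0x3800000000000000000000000000000000000000000000000000000000000000) (nat_lit 0x8000020000fee001c7000fee00000000000000000000000000000000000000000000000000000000) (nat_lit 10)
theorem c115884 : QOK q115884 := cut [q81494, q81752, q82261, q106423] ⟨c81494, c81752, c82261, c106423, trivial⟩ (nd (nat_lit 254) (nat_lit 0) (cs (rf (nat_lit 0)) (cs (rf (nat_lit 1)) (cs (rf (nat_lit 2)) (rf (nat_lit 3)))))) q115884 (by decide +kernel)
def q115887 : Q := Q.p (nat_lit 0x400007000000000000000000000000000000000000000000000000000000000000000) (nat_lit 0x80000380000e000038000080000800000f8000380000a0000080000000000000000000000000000000000000000) (nat_lit 7)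
theorem c115887 : QOK q115887 := cut [q79028, q80985, q110266] ⟨c79028, c80985, c110266, trivial⟩ (nd (nat_lit 230) (nat_lit 0) (cs (rf (nat_lit 0)) (cs (rf (nat_lit 1)) (rf (nat_lit 2))))) q115887 (by decide +kernel)

end Crest.Agent.H3.Snaky.CR
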