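import Crest.Agent.H3.Snaky.Cert
import Crest.Agent.H3.Snaky.CR.CR0
import Crest.Agent.H3.Snaky.CR.CR1
import Crest.Agent.H3.Snaky.CR.CR2
import Crest.Agent.H3.Snaky.CR.CR3
import Crest.Agent.H3.Snaky.CR.CR4
import Crest.Agent.H3.Snaky.CR.CR5
import Crest.Agent.H3.Snaky.CR.CR6
import Crest.Agent.H3.Snaky.CR.CR7
import Crest.Agent.H3.Snaky.CR.CR8
import Crest.Agent.H3.Snaky.CR.CR9
import Crest.Agent.H3.Snaky.CR.CR20
import Crest.Agent.H3.Snaky.CR.CR21
import Crest.Agent.H3.Snaky.CR.CR22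
import Crest.Agent.H3.Snaky.CR.CR23
import Crest.Agent.H3.Snaky.CR.CR24
import Crest.Agent.H3.Snaky.CR.CR25
import Crest.Agent.H3.Snaky.CR.CR26
import Crest.Agent.H3.Snaky.CR.CR27
import Crest.Agent.H3.Snaky.CR.CR39
import Crest.Agent.H3.Snaky.CR.CR40
import Crest.Agent.H3.Snaky.CR.CR41
import Crest.Agent.H3.Snaky.CR.CR42
import Crest.Agent.H3.Snaky.CR.CR43
import Crest.Agent.H3.Snaky.CR.CR54
import Crest.Agent.H3.Snaky.CR.CR55
import Crest.Agent.H3.Snaky.CR.CR56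
import Crest.Agent.H3.Snaky.CR.CR64
import Crest.Agent.H3.Snaky.CR.CR65

set_option autoImplicit false
set_option maxRecDepth 100000

namespace Crest.Agent.H3.Snaky.CR

open T

def q133 : Q := Q.p (nat_lit 0x2000000000038000040000000000000000000000000000000000000000000000) (nat_lit 0x800000000019c0000700002e000100000400000000000000000000000000000000000) (nat_lit 8)
theorem c133 : QOK q133 := cut [q132] ⟨c132, trivial⟩ (nd (nat_lit 231) (nat_lit 0) (cs (lf (nat_lit 42) (nat_lit 186)) (rf (nat_lit 0)))) q133 (by decide +kernel)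
def q552 : Q := Q.p (nat_lit 0x200000000001c000040000100000000000000000000000000000000000000000) (nat_lit 0x7b8000e00007b8000000000000000000000000000000000000000000000) (nat_lit 9)
theorem c552 : QOK q552 := cut [q150] ⟨c150, trivial⟩ (nd (nat_lit 209) (nat_lit 0) (cs (rf (nat_lit 0)) (cs (nd (nat_lit 187) (nat_lit 0) (cs (lf (nat_lit 17) (nat_lit 184)) (lf (nat_lit 43) (nat_lit 164)))) (nd (nat_lit 231) (nat_lit 0) (cs (lf (nat_lit 45) (nat_lit 164)) (lf (nat_lit 5) (nat_lit 206))))))) q552 (by decide +kernel)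
def q641 : Q := Q.p (nat_lit 0x2000000000010000040000000000000000000000000000000000000000000000) (nat_lit 0x200000e0000180000e0000600000b8000380000a00000000000000000000000000000000000) (nat_lit 8)
theorem c641 : QOK q641 := cut [q21, q639, q640] ⟨c21, c639, c640, trivial⟩ (nd (nat_lit 230) (nat_lit 0) (cs (rf (nat_lit 0)) (cs (rf (nat_lit 1)) (rf (nat_lit 2))))) q641 (by decide +kernel)
def q1120 : Q := Q.p (nat_lit 0x2000000000038000000000000000000000000000000000000000000000000000) (nat_lit 0x8c0007f8003fe0001f800efe001c7800fae0007f8001ba0006000000000000000000000000000000) (nat_lit 16)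
theorem c1120 : QOK q1120 := cut [q918, q926, q1015, q1018, q937, q1022, q1026, q1038, q724, q1063, q1074, q1076, q1079, q1014, q1051, q1056, q1061, q1082, q799, q1058, q1100, q1111, q1119] ⟨c918, c926, c1015, c1018, c937, c1022, c1026, c1038, c724, c1063, c1074, c1076, c1079, c1014, c1051, c1056, c1061, c1082, c799, c1058, c1100, c1111, c1119, trivial⟩ (nd (nat_lit 229) (nat_lit 0) (cs (rf (nat_lit 0)) (cs (nd (nat_lit 230) (nat_lit 0) (cs (rf (nat_lit 1)) (cs (rf (nat_lit 2)) (cs (nd (nat_lit 275) (nat_lit 0) (cs (rf (nat_lit 3)) (cs (nd (nat_lit 251) (nat_lit 0) (cs (rf (nat_lit 4)) (cs (nd (nat_lit 273) (nat_lit 0) (cs (lf (nat_lit 30) (nat_lit 207)) (nd (nat_lit 274) (nat_lit 0) (cs (lf (nat_lit 29) (nat_lit 207)) (rf (nat_lit 5)))))) (cs (nd (nat_lit 252) (nat_lit 0) (cs (rf (nat_lit 6)) (cs (nd (nat_lit 210) (nat_lit 0) (cs (lf (nat_lit 6) (nat_lit 207)) (nd (nat_lit 188) (nat_lit 0) (cs (lf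 (nat_lit 17) (nat_lit 185)) (nd (nat_lit 297) (nat_lit 0) (cs (nd (nat_lit 250) (nat_lit 0) (cs (nd (nat_lit 185) (nat_lit 0) (cs (lf (nat_lit 41) (nat_lit 184)) (lf (nat_lit 24) (nat_lit 163)))) (lf (nat_lit 5) (nat_lit 250)))) (lf (nat_lit 42) (nat_lit 230)))))))) (nd (nat_lit 274) (nat_lit 0) (cs (lf (nat_lit 29) (nat_lit 208)) (lf (nat_lit 42) (nat_lit 207))))))) (nd (nat_lit 210) (nat_lit 0) (cs (lf (nat_lit 6) (nat_lit 207)) (nd (nat_lit 188) (nat_lit 0) (cs (lf (nat_lit 17) (nat_lit 185)) (nd (nat_lit 273) (nat_lit 0) (cs (lf (nat_lit 30) (nat_lit 207)) (nd (nat_lit 274) (nat_lit 0) (cs (lf (nat_lit 29) (nat_lit 207)) (rf (nat_lit 7)))))))))))))) (nd (nat_lit 231) (nat_lit 0) (cs (lf (nat_lit 42) (nat_lit 208)) (nd (nat_lit 205) (nat_lit 0) (cs (nd (nat_lit 274) (nat_lit 0) (cs (lf (nat_lit 41) (nat_lit 208)) (nd (nat_lit 252) (nat_lit 0) (cs (rf (nat_lit 8)) (lf (nat_lit 47) (nat_lit 185))))))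 (lf (nat_lit 1) (nat_lit 205))))))))) (rf (nat_lit 9)))))) (cs (nd (nat_lit 230) (nat_lit 0) (cs (rf (nat_lit 9)) (cs (nd (nat_lit 206) (nat_lit 0) (cs (rf (nat_lit 10)) (cs (nd (nat_lit 187) (nat_lit 0) (cs (lf (nat_lit 17) (nat_lit 184)) (nd (nat_lit 143) (nat_lit 0) (cs (lf (nat_lit 37) (nat_lit 142)) (rf (nat_lit 11)))))) (rf (nat_lit 12))))) (cs (nd (nat_lit 251) (nat_lit 0) (cs (rf (nat_lit 4)) (cs (rf (nat_lit 13)) (cs (rf (nat_lit 14)) (cs (rf (nat_lit 15)) (nd (nat_lit 252) (nat_lit 0) (cs (rf (nat_lit 16)) (nd (nat_lit 227) (nat_lit 0) (cs (nd (nat_lit 185) (nat_lit 0) (cs (lf (nat_lit 24) (nat_lit 163)) (rf (nat_lit 17)))) (lf (nat_lit 13) (nat_lit 205))))))))))) (cs (nd (nat_lit 206) (nat_lit 0) (cs (rf (nat_lit 18)) (rf (nat_lit 11)))) (nd (nat_lit 252) (nat_lit 0) (cs (rf (nat_lit 6)) (cs (nd (nat_lit 250) (nat_lit 0) (cs (nd (nat_lit 185) (nat_lit 0) (cs (lf (nat_lit 24) (nat_lit 163))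 (nd (nat_lit 251) (nat_lit 0) (cs (lf (nat_lit 41) (nat_lit 184)) (rf (nat_lit 19)))))) (cs (nd (nat_lit 185) (nat_lit 0) (cs (lf (nat_lit 24) (nat_lit 163)) (nd (nat_lit 228) (nat_lit 0) (cs (lf (nat_lit 12) (nat_lit 205)) (nd (nat_lit 272) (nat_lit 0) (cs (lf (nat_lit 33) (nat_lit 184)) (lf (nat_lit 30) (nat_lit 206)))))))) (nd (nat_lit 228) (nat_lit 0) (cs (nd (nat_lit 231) (nat_lit 0) (cs (lf (nat_lit 11) (nat_lit 227)) (rf (nat_lit 20)))) (lf (nat_lit 0) (nat_lit 227))))))) (nd (nat_lit 227) (nat_lit 0) (cs (rf (nat_lit 21)) (lf (nat_lit 1) (nat_lit 227)))))))))))) (rf (nat_lit 22)))))) q1120 (by decide +kernel)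
def q1380 : Q := Q.p (nat_lit 0x2000006000030000000000000000000000000000000000000000000000000000) (nat_lit 0xb0001fe0007f80001f80009c0000f80003c0000e0000380000a00000000000000000000000000000) (nat_lit 14)
theorem c1380 : QOK q1380 := cut [q1267, q1282, q1283, q1295, q1140, q1298, q1299, q1314, q1322, q1333, q1252, q1026, q1110, q1339, q1306, q794, q895, q1347, q1258, q1071, q1362] ⟨c1267, c1282, c1283, c1295, c1140, c1298, c1299, c1314, c1322, c1333, c1252, c1026, c1110, c1339, c1306, c794, c895, c1347, c1258, c1071, c1362, trivial⟩ (nd (nat_lit 252) (nat_lit 0) (cs (nd (nat_lit 228) (nat_lit 0) (cs (lf (nat_lit 12) (nat_lit 205)) (nd (nat_lit 206) (nat_lit 0) (cs (rf (nat_lit 0)) (cs (rf (nat_lit 1)) (cs (nd (nat_lit 231) (nat_lit 0) (cs (rf (nat_lit 2)) (lf (nat_lit 23) (nat_lit 205)))) (rf (nat_lit 3)))))))) (cs (nd (nat_lit 275) (nat_lit 0) (cs (rf (nat_lit 4)) (cs (rf (nat_lit 5)) (nd (nat_lit 274)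 (nat_lit 0) (cs (rf (nat_lit 6)) (cs (nd (nat_lit 273) (nat_lit 0) (cs (lf (nat_lit 41) (nat_lit 207)) (nd (nat_lit 272) (nat_lit 0) (cs (lf (nat_lit 12) (nat_lit 249)) (nd (nat_lit 227) (nat_lit 0) (cs (lf (nat_lit 13) (nat_lit 205)) (rf (nat_lit 7)))))))) (rf (nat_lit 8)))))))) (cs (rf (nat_lit 9)) (cs (nd (nat_lit 274) (nat_lit 0) (cs (rf (nat_lit 10)) (cs (nd (nat_lit 207) (nat_lit 0) (cs (rf (nat_lit 11)) (rf (nat_lit 12)))) (nd (nat_lit 227) (nat_lit 0) (cs (lf (nat_lit 1) (nat_lit 227)) (rf (nat_lit 13))))))) (cs (nd (nat_lit 275) (nat_lit 0) (cs (rf (nat_lit 4)) (cs (rf (nat_lit 5)) (nd (nat_lit 274) (nat_lit 0) (cs (rf (nat_lit 10)) (rf (nat_lit 14))))))) (cs (nd (nat_lit 275) (nat_lit 0) (cs (rf (nat_lit 4)) (cs (rf (nat_lit 5)) (nd (nat_lit 207) (nat_lit 0) (cs (rf (nat_lit 11)) (cs (nd (nat_lit 206) (nat_lit 0) (cs (rf (nat_lit 15)) (cs (rf (nat_lit 16)) (rf (nat_lit 17))))) (nd (nat_lit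 228) (nat_lit 0) (cs (lf (nat_lit 0) (nat_lit 227)) (nd (nat_lit 274) (nat_lit 0) (cs (lf (nat_lit 42) (nat_lit 207)) (nd (nat_lit 273) (nat_lit 0) (cs (lf (nat_lit 41) (nat_lit 207)) (nd (nat_lit 272) (nat_lit 0) (cs (lf (nat_lit 12) (nat_lit 249)) (nd (nat_lit 250) (nat_lit 0) (cs (lf (nat_lit 23) (nat_lit 249)) (lf (nat_lit 30) (nat_lit 206)))))))))))))))))) (nd (nat_lit 228) (nat_lit 0) (cs (lf (nat_lit 12) (nat_lit 205)) (nd (nat_lit 274) (nat_lit 0) (cs (rf (nat_lit 10)) (cs (nd (nat_lit 231) (nat_lit 0) (cs (lf (nat_lit 30) (nat_lit 208)) (nd (nat_lit 249) (nat_lit 0) (cs (nd (nat_lit 205) (nat_lit 0) (cs (lf (nat_lit 22) (nat_lit 205)) (nd (nat_lit 275) (nat_lit 0) (cs (lf (nat_lit 29) (nat_lit 208)) (rf (nat_lit 18)))))) (lf (nat_lit 10) (nat_lit 227)))))) (nd (nat_lit 250) (nat_lit 0) (cs (rf (nat_lit 19)) (cs (nd (nat_lit 185) (nat_lit 0) (cs (lf (nat_lit 46) (nat_lit 185)) (nd (nat_lit 275)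 (nat_lit 0) (cs (lf (nat_lit 29) (nat_lit 208)) (nd (nat_lit 273) (nat_lit 0) (cs (lf (nat_lit 41) (nat_lit 207)) (nd (nat_lit 249) (nat_lit 0) (cs (lf (nat_lit 6) (nat_lit 227)) (lf (nat_lit 21) (nat_lit 249)))))))))) (cs (nd (nat_lit 185) (nat_lit 0) (cs (lf (nat_lit 46) (nat_lit 185)) (nd (nat_lit 275) (nat_lit 0) (cs (lf (nat_lit 29) (nat_lit 208)) (nd (nat_lit 251) (nat_lit 0) (cs (lf (nat_lit 5) (nat_lit 250)) (nd (nat_lit 273) (nat_lit 0) (cs (lf (nat_lit 41) (nat_lit 207)) (nd (nat_lit 206) (nat_lit 0) (cs (lf (nat_lit 24) (nat_lit 184)) (nd (nat_lit 205) (nat_lit 0) (cs (lf (nat_lit 18) (nat_lit 205)) (nd (nat_lit 203) (nat_lit 0) (cs (nd (nat_lit 272) (nat_lit 0) (cs (lf (nat_lit 47) (nat_lit 183)) (rf (nat_lit 20)))) (lf (nat_lit 1) (nat_lit 203)))))))))))))))) (nd (nat_lit 273) (nat_lit 0) (cs (lf (nat_lit 41) (nat_lit 207)) (nd (nat_lit 185) (nat_lit 0) (cs (lf (nat_lit 46) (nat_lit 185))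 (nd (nat_lit 275) (nat_lit 0) (cs (lf (nat_lit 29) (nat_lit 208)) (nd (nat_lit 251) (nat_lit 0) (cs (lf (nat_lit 18) (nat_lit 250)) (lf (nat_lit 0) (nat_lit 249)))))))))))))))))))))))))) q1380 (by decide +kernel)
def q1547 : Q := Q.p (nat_lit 0x200000000003c000000000000000000000000000000000000000000000000000) (nat_lit 0xe0000380001e000038000000001f80000e0000380000a00000000000000000000000000000) (nat_lit 11)
theorem c1547 : QOK q1547 := cut [q1496, q1530, q1540, q1545] ⟨c1496, c1530, c1540, c1545, trivial⟩ (nd (nat_lit 228) (nat_lit 0) (cs (lf (nat_lit 11) (nat_lit 205)) (nd (nat_lit 250) (nat_lit 0) (cs (rf (nat_lit 0)) (cs (rf (nat_lit 1)) (cs (nd (nat_lit 183) (nat_lit 0) (cs (lf (nat_lit 22) (nat_lit 183)) (nd (nat_lit 187) (nat_lit 0) (cs (lf (nat_lit 17) (nat_lit 184)) (rf (nat_lit 2)))))) (rf (nat_lit 3)))))))) q1547 (by decide +kernel)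
def q1715 : Q := Q.p (nat_lit 0x2000000000038000000000000000000000000000000000000000000000000000) (nat_lit 0x6fc001c60007e0000380007e00007800000000000000000000000000000) (nat_lit 15)
theorem c1715 : QOK q1715 := cut [q1491, q1704, q1710] ⟨c1491, c1704, c1710, trivial⟩ (nd (nat_lit 228) (nat_lit 0) (cs (rf (nat_lit 0)) (cs (nd (nat_lit 206) (nat_lit 0) (cs (lf (nat_lit 11) (nat_lit 205)) (nd (nat_lit 187) (nat_lit 0) (cs (lf (nat_lit 17) (nat_lit 184)) (nd (nat_lit 186) (nat_lit 0) (cs (lf (nat_lit 12) (nat_lit 183)) (rf (nat_lit 1)))))))) (nd (nat_lit 210) (nat_lit 0) (cs (lf (nat_lit 10) (nat_lit 206)) (nd (nat_lit 189) (nat_lit 0) (cs (lf (nat_lit 16) (nat_lit 185)) (nd (nat_lit 211) (nat_lit 0) (cs (lf (nat_lit 17) (nat_lit 186)) (nd (nat_lit 233) (nat_lit 0) (cs (lf (nat_lit 5) (nat_lit 208)) (rf (nat_lit 2))))))))))))) q1715 (by decide +kernel)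
def q1987 : Q := Q.p (nat_lit 0x38000000000000000000000000000000000000000000000000000) (nat_lit 0xc00003e000c70000fe000180000600000000000000000000000000000000000) (nat_lit 9)
theorem c1987 : QOK q1987 := cut [q117, q1135, q1508, q1511, q1522, q1986] ⟨c117, c1135, c1508, c1511, c1522, c1986, trivial⟩ (nd (nat_lit 206) (nat_lit 0) (cs (rf (nat_lit 0)) (cs (rf (nat_lit 1)) (cs (rf (nat_lit 2)) (cs (rf (nat_lit 3)) (cs (rf (nat_lit 4)) (rf (nat_lit 5)))))))) q1987 (by decide +kernel)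
def q2092 : Q := Q.p (nat_lit 0x800003000000000030000000000000000000000000000000000000000000000000000) (nat_lit 0x7c0001f0000fe00037c0000e00003c000cf0007fe0000e0000300000000000000000000000000000000000) (nat_lit 13)
theorem c2092 : QOK q2092 := cut [q1999, q1465, q1673, q1597, q159, q2003, q2006, q743, q1533, q2016, q117, q1464, q1550, q2020, q2025, q2040, q2054, q2056, q2059, q2066, q1998, q2068, q2070, q2074, q2081, q2086, q2091] ⟨c1999, c1465, c1673, c1597, c159, c2003, c2006, c743, c1533, c2016, c117, c1464, c1550, c2020, c2025, c2040, c2054, c2056, c2059, c2066, c1998, c2068, c2070, c2074, c2081, c2086, c2091, trivial⟩ (nd (nat_lit 251) (nat_lit 0) (cs (rf (nat_lit 0)) (cs (nd (nat_lit 207) (nat_lit 0) (cs (rf (nat_lit 1)) (cs (rf (nat_lit 2)) (cs (nd (nat_lit 185) (nat_lit 0) (cs (rf (nat_lit 3)) (cs (nd (nat_lit 229) (nat_lit 0) (cs (lf (nat_lit 29) (nat_lit 185)) (nd (nat_lit 186) (nat_lit 0)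 (cs (rf (nat_lit 4)) (lf (nat_lit 30) (nat_lit 185)))))) (cs (nd (nat_lit 229) (nat_lit 0) (cs (lf (nat_lit 29) (nat_lit 185)) (nd (nat_lit 186) (nat_lit 0) (cs (lf (nat_lit 30) (nat_lit 185)) (rf (nat_lit 5)))))) (nd (nat_lit 229) (nat_lit 0) (cs (lf (nat_lit 29) (nat_lit 185)) (rf (nat_lit 6)))))))) (cs (nd (nat_lit 188) (nat_lit 0) (cs (rf (nat_lit 7)) (cs (nd (nat_lit 206) (nat_lit 0) (cs (lf (nat_lit 16) (nat_lit 184)) (nd (nat_lit 228) (nat_lit 0) (cs (lf (nat_lit 11) (nat_lit 205)) (nd (nat_lit 229) (nat_lit 0) (cs (lf (nat_lit 6) (nat_lit 206)) (rf (nat_lit 8)))))))) (cs (nd (nat_lit 210) (nat_lit 0) (cs (lf (nat_lit 17) (nat_lit 185)) (nd (nat_lit 229) (nat_lit 0) (cs (lf (nat_lit 11) (nat_lit 206)) (nd (nat_lit 186) (nat_lit 0) (cs (lf (nat_lit 30) (nat_lit 185)) (nd (nat_lit 185) (nat_lit 0) (cs (lf (nat_lit 18) (nat_lit 185)) (lf (nat_lit 29) (nat_lit 185)))))))))) (rf (nat_lit 9)))))) (cs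 (nd (nat_lit 206) (nat_lit 0) (cs (rf (nat_lit 10)) (cs (rf (nat_lit 11)) (cs (rf (nat_lit 12)) (nd (nat_lit 227) (nat_lit 0) (cs (lf (nat_lit 10) (nat_lit 205)) (nd (nat_lit 187) (nat_lit 0) (cs (lf (nat_lit 17) (nat_lit 184)) (nd (nat_lit 184) (nat_lit 0) (cs (lf (nat_lit 23) (nat_lit 183)) (rf (nat_lit 13)))))))))))) (nd (nat_lit 274) (nat_lit 0) (cs (rf (nat_lit 14)) (nd (nat_lit 273) (nat_lit 0) (cs (rf (nat_lit 15)) (cs (rf (nat_lit 16)) (cs (rf (nat_lit 17)) (rf (nat_lit 18)))))))))))))) (cs (rf (nat_lit 19)) (cs (nd (nat_lit 250) (nat_lit 0) (cs (rf (nat_lit 20)) (cs (rf (nat_lit 21)) (nd (nat_lit 228) (nat_lit 0) (cs (lf (nat_lit 23) (nat_lit 227)) (nd (nat_lit 206) (nat_lit 0) (cs (nd (nat_lit 271) (nat_lit 0) (cs (lf (nat_lit 10) (nat_lit 249)) (rf (nat_lit 22)))) (cs (rf (nat_lit 23)) (cs (rf (nat_lit 24)) (rf (nat_lit 25))))))))))) (rf (nat_lit 26))))))) q2092 (by decide +kernel)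
def q2164 : Q := Q.p (nat_lit 0x100000f0000000000000000000000000000000000000000000000) (nat_lit 0x10000060001000006e0000a00002800000000000000000000000000000) (nat_lit 7)
theorem c2164 : QOK q2164 := cut [q2163] ⟨c2163, trivial⟩ (nd (nat_lit 165) (nat_lit 0) (cs (lf (nat_lit 17) (nat_lit 162)) (rf (nat_lit 0)))) q2164 (by decide +kernel)
def q2192 : Q := Q.p (nat_lit 0xe00003000000000000000000000000000000000000000000000000000000000000000) (nat_lit 0x1c60007180000e00000000000000000000000000000000000000000000000000000000000000) (nat_lit 7)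
theorem c2192 : QOK q2192 := cut [q1314] ⟨c1314, trivial⟩ (nd (nat_lit 272) (nat_lit 0) (cs (lf (nat_lit 12) (nat_lit 249)) (rf (nat_lit 0)))) q2192 (by decide +kernel)
def q2236 : Q := Q.p (nat_lit 0x30000060000000000000000000000000000000000000000000000) (nat_lit 0x10000040000780000f000398000ee0001a00006800000000000000000000000000000) (nat_lit 8)
theorem c2236 : QOK q2236 := cut [q2226, q419, q2106, q1800, q2235] ⟨c2226, c419, c2106, c1800, c2235, trivial⟩ (nd (nat_lit 187) (nat_lit 0) (cs (rf (nat_lit 0)) (cs (nd (nat_lit 207) (nat_lit 0) (cs (rf (nat_lit 1)) (cs (rf (nat_lit 2)) (nd (nat_lit 188) (nat_lit 0) (cs (lf (nat_lit 6) (nat_lit 185)) (nd (nat_lit 166) (nat_lit 0) (cs (lf (nat_lit 17) (nat_lit 163)) (nd (nat_lit 122) (nat_lit 0) (cs (lf (nat_lit 37) (nat_lit 121)) (rf (nat_lit 3))))))))))) (rf (nat_lit 4))))) q2236 (by decide +kernel)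
def q2618 : Q := Q.p (nat_lit 0x800002000000000010000040000000000000000000000000000000000000000000000) (nat_lit 0x700001c0003fe0007f0001fe000170000100001c000040000000000000000000000000000000000000000000000000000) (nat_lit 13)
theorem c2618 : QOK q2618 := cut [q2521, q2576, q2579, q2583, q2593, q2605, q2613, q2616] ⟨c2521, c2576, c2579, c2583, c2593, c2605, c2613, c2616, trivial⟩ (nd (nat_lit 297) (nat_lit 0) (cs (nd (nat_lit 230) (nat_lit 0) (cs (lf (nat_lit 27) (nat_lit 186)) (lf (nat_lit 45) (nat_lit 208)))) (cs (rf (nat_lit 0)) (cs (rf (nat_lit 1)) (nd (nat_lit 319) (nat_lit 0) (cs (rf (nat_lit 2)) (cs (nd (nat_lit 318) (nat_lit 0) (cs (lf (nat_lit 41) (nat_lit 252)) (nd (nat_lit 317) (nat_lit 0) (cs (rf (nat_lit 3)) (cs (rf (nat_lit 4)) (nd (nat_lit 230) (nat_lit 0) (cs (lf (nat_lit 27) (nat_lit 186)) (rf (nat_lit 5))))))))) (cs (rf (nat_lit 6)) (rf (nat_lit 7)))))))))) q2618 (by decide +kernel)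
def q2632 : Q := Q.p (nat_lit 0x2000000000038000040000000000000000000000000000000000000000000000) (nat_lit 0x800000000018e0000700003c000000000000000000000000000000000000000000000) (nat_lit 7)
theorem c2632 : QOK q2632 := cut [q2631] ⟨c2631, trivial⟩ (nd (nat_lit 231) (nat_lit 0) (cs (lf (nat_lit 42) (nat_lit 186)) (rf (nat_lit 0)))) q2632 (by decide +kernel)
def q2680 : Q := Q.p (nat_lit 0x2000000000030000040000000000000000000000000000000000000000000000) (nat_lit 0x800000400019c000cf0003be000480001200000000000000000000000000000000000) (nat_lit 8)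
theorem c2680 : QOK q2680 := cut [q344, q2629, q2630, q2677, q39, q690] ⟨c344, c2629, c2630, c2677, c39, c690, trivial⟩ (nd (nat_lit 207) (nat_lit 0) (cs (rf (nat_lit 0)) (cs (rf (nat_lit 1)) (cs (rf (nat_lit 2)) (cs (rf (nat_lit 3)) (nd (nat_lit 210) (nat_lit 0) (cs (rf (nat_lit 4)) (rf (nat_lit 5))))))))) q2680 (by decide +kernel)
def q2950 : Q := Q.p (nat_lit 0x2000008000030000000000000000000000000000000000000000000000000000) (nat_lit 0x1400037e000cf00033e000480000200000000000000000000000000000000000) (nat_lit 10)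
theorem c2950 : QOK q2950 := cut [q119, q1136, q2933, q2935, q2938] ⟨c119, c1136, c2933, c2935, c2938, trivial⟩ (nd (nat_lit 207) (nat_lit 0) (cs (rf (nat_lit 0)) (cs (rf (nat_lit 1)) (cs (rf (nat_lit 2)) (cs (rf (nat_lit 3)) (rf (nat_lit 4))))))) q2950 (by decide +kernel)
def q2958 : Q := Q.p (nat_lit 0x800002000008000030000000000000000000000000000000000000000000000000000) (nat_lit 0x38000078000100001400000e0000a0000000000000000000000000000000000000000000000) (nat_lit 8)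
theorem c2958 : QOK q2958 := cut [q2957] ⟨c2957, trivial⟩ (nd (nat_lit 274) (nat_lit 0) (cs (lf (nat_lit 41) (nat_lit 208)) (rf (nat_lit 0)))) q2958 (by decide +kernel)
def q2966 : Q := Q.p (nat_lit 0x2000008000030000000000000000000000000000000000000000000000000000) (nat_lit 0x8000000000f7c001ce000fbc000400000000000000000000000000000000000000000) (nat_lit 8)
theorem c2966 : QOK q2966 := cut [q2961, q2964, q2965] ⟨c2961, c2964, c2965, trivial⟩ (nd (nat_lit 210) (nat_lit 0) (cs (rf (nat_lit 0)) (cs (rf (nat_lit 1)) (rf (nat_lit 2))))) q2966 (by decide +kernel)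
def q3020 : Q := Q.p (nat_lit 0x2000008000030000000000000000000000000000000000000000000000000000) (nat_lit 0x800073c000ce0007fc000500000400000000000000000000000000000000000) (nat_lit 7)
theorem c3020 : QOK q3020 := cut [q119, q792, q2926, q3018, q3019] ⟨c119, c792, c2926, c3018, c3019, trivial⟩ (nd (nat_lit 207) (nat_lit 0) (cs (rf (nat_lit 0)) (cs (rf (nat_lit 1)) (cs (rf (nat_lit 2)) (cs (rf (nat_lit 3)) (rf (nat_lit 4))))))) q3020 (by decide +kernel)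
def q3193 : Q := Q.p (nat_lit 0x2000000000018000040000000000000000000000000000000000000000000000) (nat_lit 0x80001fc0001e0001fc000600000bc0002c0000000000000000000000000000000000000000) (nat_lit 7)
theorem c3193 : QOK q3193 := cut [q416, q3182, q3190, q3191, q3192] ⟨c416, c3182, c3190, c3191, c3192, trivial⟩ (nd (nat_lit 252) (nat_lit 0) (cs (rf (nat_lit 0)) (cs (rf (nat_lit 1)) (cs (rf (nat_lit 2)) (cs (rf (nat_lit 3)) (rf (nat_lit 4))))))) q3193 (by decide +kernel)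
def q3319 : Q := Q.p (nat_lit 0x2000000000018000000000000000000000000000000000000000000000000000) (nat_lit 0x100000700001fc000170003bf000e78001ff0001f0000ff0003100008000000000000000000000000) (nat_lit 18)
theorem c3319 : QOK q3319 := cut [q3216, q3219, q3255, q3277, q3294, q3296, q3297, q3318] ⟨c3216, c3219, c3255, c3277, c3294, c3296, c3297, c3318, trivial⟩ (nd (nat_lit 206) (nat_lit 0) (cs (rf (nat_lit 0)) (cs (rf (nat_lit 1)) (cs (rf (nat_lit 2)) (cs (rf (nat_lit 3)) (cs (rf (nat_lit 4)) (cs (rf (nat_lit 5)) (cs (rf (nat_lit 6)) (rf (nat_lit 7)))))))))) q3319 (by decide +kernel)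
def q3422 : Q := Q.p (nat_lit 0x200000000001c000000000000000000000000000000000000000000000000000) (nat_lit 0x40000780001f0003fe000600001be0007e0001f80004a00000000000000000000000000000) (nat_lit 13)
theorem c3422 : QOK q3422 := cut [q3398, q1486, q3411, q3421] ⟨c3398, c1486, c3411, c3421, trivial⟩ (nd (nat_lit 228) (nat_lit 0) (cs (rf (nat_lit 0)) (cs (nd (nat_lit 209) (nat_lit 0) (cs (lf (nat_lit 11) (nat_lit 205)) (nd (nat_lit 187) (nat_lit 0) (cs (lf (nat_lit 17) (nat_lit 184)) (nd (nat_lit 231) (nat_lit 0) (cs (lf (nat_lit 5) (nat_lit 206)) (nd (nat_lit 252) (nat_lit 0) (cs (lf (nat_lit 41) (nat_lit 186)) (nd (nat_lit 165) (nat_lit 0) (cs (lf (nat_lit 40) (nat_lit 164)) (nd (nat_lit 144) (nat_lit 0) (cs (lf (nat_lit 34) (nat_lit 143)) (nd (nat_lit 122) (nat_lit 0) (cs (nd (nat_lit 142) (nat_lit 0) (cs (lf (nat_lit 46) (nat_lit 142)) (rf (nat_lit 1)))) (lf (nat_lit 33) (nat_lit 121))))))))))))))))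 (cs (rf (nat_lit 2)) (rf (nat_lit 3)))))) q3422 (by decide +kernel)
def q3441 : Q := Q.p (nat_lit 0x1c000000000000000000000000000000000000000000000000000) (nat_lit 0x18000060000fe0000300001e0000700001c0000500000000000000000000000000000) (nat_lit 10)
theorem c3441 : QOK q3441 := cut [q666, q671, q3211, q3440] ⟨c666, c671, c3211, c3440, trivial⟩ (nd (nat_lit 205) (nat_lit 0) (cs (rf (nat_lit 0)) (cs (rf (nat_lit 1)) (cs (rf (nat_lit 2)) (rf (nat_lit 3)))))) q3441 (by decide +kernel)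
def q3536 : Q := Q.p (nat_lit 0x2000000000018000070000000000000000000000000000000000000000000000) (nat_lit 0x380001e00001c0000700008c0000b0000000000000000000000000000000000000000) (nat_lit 10)
theorem c3536 : QOK q3536 := cut [q3535] ⟨c3535, trivial⟩ (nd (nat_lit 183) (nat_lit 0) (cs (lf (nat_lit 0) (nat_lit 182)) (rf (nat_lit 0)))) q3536 (by decide +kernel)
def q3679 : Q := Q.p (nat_lit 0x2000000000018000060000000000000000000000000000000000000000000000) (nat_lit 0x80000700007c0001f80003c0000700009c000fb0000fc0003900008000000000000000000000000) (nat_lit 13)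
theorem c3679 : QOK q3679 := cut [q3499, q524, q3621, q90, q3126, q3630, q3643, q3650, q3657, q3667, q3128, q3674, q3535] ⟨c3499, c524, c3621, c90, c3126, c3630, c3643, c3650, c3657, c3667, c3128, c3674, c3535, trivial⟩ (nd (nat_lit 183) (nat_lit 0) (cs (nd (nat_lit 184) (nat_lit 0) (cs (lf (nat_lit 0) (nat_lit 182)) (rf (nat_lit 0)))) (cs (nd (nat_lit 164) (nat_lit 0) (cs (rf (nat_lit 1)) (cs (nd (nat_lit 229) (nat_lit 0) (cs (lf (nat_lit 30) (nat_lit 163)) (nd (nat_lit 184) (nat_lit 0) (cs (lf (nat_lit 17) (nat_lit 161)) (nd (nat_lit 160) (nat_lit 0) (cs (lf (nat_lit 22) (nat_lit 160)) (nd (nat_lit 205) (nat_lit 0) (cs (lf (nat_lit 11) (nat_lit 182)) (nd (nat_lit 206) (nat_lit 0) (cs (lf (nat_lit 17) (nat_lit 183)) (nd (nat_lit 227) (nat_lit 0) (cs (lf (nat_lit 11) (nat_lit 204)) (nd (nat_lit 249) (nat_lit 0) (cs (lf (nat_lit 30) (nat_lit 183)) (nd (nat_lit 248) (nat_lit 0) (cs (lf (nat_lit 41) (nat_lit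 182)) (nd (nat_lit 250) (nat_lit 0) (cs (lf (nat_lit 29) (nat_lit 183)) (nd (nat_lit 228) (nat_lit 0) (cs (lf (nat_lit 12) (nat_lit 225)) (lf (nat_lit 35) (nat_lit 162)))))))))))))))))))))) (nd (nat_lit 165) (nat_lit 0) (cs (nd (nat_lit 166) (nat_lit 0) (cs (lf (nat_lit 6) (nat_lit 163)) (nd (nat_lit 142) (nat_lit 0) (cs (lf (nat_lit 36) (nat_lit 119)) (nd (nat_lit 121) (nat_lit 0) (cs (lf (nat_lit 34) (nat_lit 120)) (nd (nat_lit 141) (nat_lit 0) (cs (lf (nat_lit 47) (nat_lit 119)) (rf (nat_lit 2)))))))))) (lf (nat_lit 13) (nat_lit 161))))))) (cs (nd (nat_lit 229) (nat_lit 0) (cs (rf (nat_lit 3)) (cs (rf (nat_lit 4)) (nd (nat_lit 205) (nat_lit 0) (cs (nd (nat_lit 227) (nat_lit 0) (cs (nd (nat_lit 226) (nat_lit 0) (cs (nd (nat_lit 161) (nat_lit 0) (cs (rf (nat_lit 5)) (lf (nat_lit 41) (nat_lit 160)))) (lf (nat_lit 14) (nat_lit 204)))) (cs (nd (nat_lit 249) (nat_lit 0) (cs (nd (nat_lit 250) (nat_lit 0)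 (cs (lf (nat_lit 29) (nat_lit 183)) (nd (nat_lit 228) (nat_lit 0) (cs (lf (nat_lit 36) (nat_lit 162)) (lf (nat_lit 24) (nat_lit 161)))))) (nd (nat_lit 142) (nat_lit 0) (cs (lf (nat_lit 37) (nat_lit 141)) (rf (nat_lit 6)))))) (cs (nd (nat_lit 249) (nat_lit 0) (cs (rf (nat_lit 6)) (cs (nd (nat_lit 142) (nat_lit 0) (cs (lf (nat_lit 37) (nat_lit 141)) (rf (nat_lit 7)))) (cs (nd (nat_lit 250) (nat_lit 0) (cs (lf (nat_lit 29) (nat_lit 183)) (nd (nat_lit 142) (nat_lit 0) (cs (lf (nat_lit 37) (nat_lit 141)) (rf (nat_lit 8)))))) (nd (nat_lit 142) (nat_lit 0) (cs (lf (nat_lit 37) (nat_lit 141)) (rf (nat_lit 9)))))))) (nd (nat_lit 142) (nat_lit 0) (cs (lf (nat_lit 37) (nat_lit 141)) (nd (nat_lit 228) (nat_lit 0) (cs (lf (nat_lit 12) (nat_lit 204)) (nd (nat_lit 163) (nat_lit 0) (cs (lf (nat_lit 41) (nat_lit 162)) (rf (nat_lit 10)))))))))))) (cs (rf (nat_lit 11)) (nd (nat_lit 206) (nat_lit 0) (cs (lf (nat_lit 12)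 (nat_lit 182)) (lf (nat_lit 17) (nat_lit 183)))))))))) (nd (nat_lit 184) (nat_lit 0) (cs (lf (nat_lit 0) (nat_lit 182)) (rf (nat_lit 12)))))))) q3679 (by decide +kernel)
def q3825 : Q := Q.p (nat_lit 0x2000000000018000000000000000000000000000000000000000000000000000) (nat_lit 0x140000700001d8000060003df000e78001ff0001f00003c0000500000000000000000000000000000) (nat_lit 11)
theorem c3825 : QOK q3825 := cut [q3219, q3297, q3318, q3448, q1506, q1520, q3440, q1511, q3218, q3823] ⟨c3219, c3297, c3318, c3448, c1506, c1520, c3440, c1511, c3218, c3823, trivial⟩ (nd (nat_lit 206) (nat_lit 0) (cs (rf (nat_lit 0)) (cs (rf (nat_lit 1)) (cs (rf (nat_lit 2)) (cs (rf (nat_lit 3)) (cs (nd (nat_lit 205) (nat_lit 0) (cs (rf (nat_lit 4)) (cs (rf (nat_lit 5)) (rf (nat_lit 6))))) (nd (nat_lit 209) (nat_lit 0) (cs (rf (nat_lit 7)) (cs (rf (nat_lit 8)) (rf (nat_lit 9))))))))))) q3825 (by decide +kernel)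
def q3982 : Q := Q.p (nat_lit 0x2000000000018000000000000000000000000000000000000000000000000000) (nat_lit 0xa0000fc0001f00077f801e7c001ff801ff0007ff0003f0000a800000000000000000000000) (nat_lit 18)
theorem c3982 : QOK q3982 := cut [q3255, q3364, q3464, q2412, q3826, q3828, q1485, q805, q864, q889, q872, q3849, q3851, q3688, q3856, q3859, q1974, q3877, q3883, q1506, q1520, q3211, q3206, q3889, q3904, q3906, q3961, q3463, q3969, q2468, q2450, q3881] ⟨c3255, c3364, c3464, c2412, c3826, c3828, c1485, c805, c864, c889, c872, c3849, c3851, c3688, c3856, c3859, c1974, c3877, c3883, c1506, c1520, c3211, c3206, c3889, c3904, c3906, c3961, c3463, c3969, c2468, c2450, c3881, trivial⟩ (nd (nat_lit 206) (nat_lit 0) (cs (rf (nat_lit 0)) (cs (rf (nat_lit 1)) (cs (rf (nat_lit 2)) (cs (nd (nat_lit 184) (nat_lit 0) (cs (rf (nat_lit 3)) (cs (rf (nat_lit 4)) (cs (nd (nat_lit 228) (nat_lit 0) (cs (rf (nat_lit 5)) (cs (nd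 (nat_lit 209) (nat_lit 0) (cs (lf (nat_lit 11) (nat_lit 205)) (nd (nat_lit 187) (nat_lit 0) (cs (lf (nat_lit 17) (nat_lit 184)) (rf (nat_lit 6)))))) (cs (nd (nat_lit 162) (nat_lit 0) (cs (rf (nat_lit 7)) (cs (rf (nat_lit 8)) (cs (rf (nat_lit 9)) (nd (nat_lit 139) (nat_lit 0) (cs (lf (nat_lit 46) (nat_lit 139)) (nd (nat_lit 229) (nat_lit 0) (cs (lf (nat_lit 29) (nat_lit 162)) (nd (nat_lit 209) (nat_lit 0) (cs (lf (nat_lit 6) (nat_lit 206)) (nd (nat_lit 187) (nat_lit 0) (cs (lf (nat_lit 17) (nat_lit 184)) (nd (nat_lit 163) (nat_lit 0) (cs (lf (nat_lit 35) (nat_lit 140)) (nd (nat_lit 185) (nat_lit 0) (cs (lf (nat_lit 41) (nat_lit 162)) (nd (nat_lit 230) (nat_lit 0) (cs (lf (nat_lit 29) (nat_lit 163)) (nd (nat_lit 164) (nat_lit 0) (cs (rf (nat_lit 10)) (lf (nat_lit 35) (nat_lit 141)))))))))))))))))))))) (rf (nat_lit 11)))))) (nd (nat_lit 162) (nat_lit 0) (cs (rf (nat_lit 7)) (cs (rf (nat_lit 8)) (cs (rf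 (nat_lit 12)) (cs (nd (nat_lit 228) (nat_lit 0) (cs (rf (nat_lit 13)) (cs (nd (nat_lit 139) (nat_lit 0) (cs (lf (nat_lit 46) (nat_lit 139)) (rf (nat_lit 14)))) (cs (nd (nat_lit 141) (nat_lit 0) (cs (lf (nat_lit 34) (nat_lit 140)) (nd (nat_lit 139) (nat_lit 0) (cs (lf (nat_lit 46) (nat_lit 139)) (rf (nat_lit 15)))))) (nd (nat_lit 229) (nat_lit 0) (cs (lf (nat_lit 29) (nat_lit 162)) (nd (nat_lit 139) (nat_lit 0) (cs (lf (nat_lit 46) (nat_lit 139)) (nd (nat_lit 163) (nat_lit 0) (cs (lf (nat_lit 35) (nat_lit 140)) (nd (nat_lit 185) (nat_lit 0) (cs (lf (nat_lit 30) (nat_lit 162)) (nd (nat_lit 182) (nat_lit 0) (cs (rf (nat_lit 16)) (lf (nat_lit 1) (nat_lit 182)))))))))))))))) (rf (nat_lit 17))))))))))) (cs (rf (nat_lit 18)) (cs (nd (nat_lit 205) (nat_lit 0) (cs (rf (nat_lit 19)) (cs (rf (nat_lit 20)) (cs (rf (nat_lit 21)) (nd (nat_lit 187) (nat_lit 0) (cs (lf (nat_lit 16) (nat_lit 183)) (nd (nat_lit 226)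 (nat_lit 0) (cs (lf (nat_lit 10) (nat_lit 204)) (nd (nat_lit 183) (nat_lit 0) (cs (lf (nat_lit 23) (nat_lit 182)) (nd (nat_lit 209) (nat_lit 0) (cs (lf (nat_lit 22) (nat_lit 183)) (lf (nat_lit 17) (nat_lit 184)))))))))))))) (cs (nd (nat_lit 186) (nat_lit 0) (cs (rf (nat_lit 22)) (cs (rf (nat_lit 23)) (cs (rf (nat_lit 24)) (rf (nat_lit 25)))))) (cs (rf (nat_lit 26)) (cs (nd (nat_lit 205) (nat_lit 0) (cs (rf (nat_lit 19)) (cs (rf (nat_lit 27)) (cs (nd (nat_lit 186) (nat_lit 0) (cs (lf (nat_lit 17) (nat_lit 183)) (nd (nat_lit 204) (nat_lit 0) (cs (lf (nat_lit 16) (nat_lit 182)) (nd (nat_lit 229) (nat_lit 0) (cs (lf (nat_lit 5) (nat_lit 204)) (nd (nat_lit 251) (nat_lit 0) (cs (lf (nat_lit 30) (nat_lit 185)) (rf (nat_lit 28)))))))))) (nd (nat_lit 186) (nat_lit 0) (cs (lf (nat_lit 17) (nat_lit 183)) (nd (nat_lit 183) (nat_lit 0) (cs (lf (nat_lit 23) (nat_lit 182)) (nd (nat_lit 209) (nat_lit 0) (cs (lf (nat_lit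 22) (nat_lit 183)) (nd (nat_lit 228) (nat_lit 0) (cs (lf (nat_lit 11) (nat_lit 205)) (nd (nat_lit 250) (nat_lit 0) (cs (lf (nat_lit 42) (nat_lit 183)) (nd (nat_lit 210) (nat_lit 0) (cs (lf (nat_lit 10) (nat_lit 206)) (rf (nat_lit 29)))))))))))))))))) (nd (nat_lit 205) (nat_lit 0) (cs (rf (nat_lit 19)) (cs (rf (nat_lit 30)) (rf (nat_lit 31))))))))))))))) q3982 (by decide +kernel)
def q4055 : Q := Q.p (nat_lit 0x3000004000018000000000000000000000000000000000000000000000000000) (nat_lit 0x300000c0001fe0007f80000e0000a000020000080000000000000000000000000000000000000000000000) (nat_lit 11)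
theorem c4055 : QOK q4055 := cut [q3476, q4046, q4052] ⟨c3476, c4046, c4052, trivial⟩ (nd (nat_lit 274) (nat_lit 0) (cs (rf (nat_lit 0)) (cs (rf (nat_lit 1)) (nd (nat_lit 273) (nat_lit 0) (cs (lf (nat_lit 41) (nat_lit 207)) (nd (nat_lit 271) (nat_lit 0) (cs (lf (nat_lit 13) (nat_lit 249)) (rf (nat_lit 2))))))))) q4055 (by decide +kernel)
def q4238 : Q := Q.p (nat_lit 0x2000004000018000000000000000000000000000000000000000000000000000) (nat_lit 0x680007e0007f80001f0003bf000e7c0013f0000e0000380000a00000000000000000000000000000) (nat_lit 16)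
theorem c4238 : QOK q4238 := cut [q1411, q1156, q3464, q4007, q4032, q3398, q3421, q4030, q4190, q4207, q3988, q3995, q1111, q1331, q4213, q1258, q4233] ⟨c1411, c1156, c3464, c4007, c4032, c3398, c3421, c4030, c4190, c4207, c3988, c3995, c1111, c1331, c4213, c1258, c4233, trivial⟩ (nd (nat_lit 252) (nat_lit 0) (cs (rf (nat_lit 0)) (cs (nd (nat_lit 206) (nat_lit 0) (cs (rf (nat_lit 1)) (cs (rf (nat_lit 2)) (cs (rf (nat_lit 3)) (cs (rf (nat_lit 4)) (nd (nat_lit 228) (nat_lit 0) (cs (rf (nat_lit 5)) (cs (rf (nat_lit 6)) (cs (rf (nat_lit 7)) (nd (nat_lit 209) (nat_lit 0) (cs (lf (nat_lit 11) (nat_lit 205)) (nd (nat_lit 231) (nat_lit 0) (cs (lf (nat_lit 5) (nat_lit 206)) (nd (nat_lit 183) (nat_lit 0) (cs (lf (nat_lit 22) (nat_lit 183)) (nd (nat_lit 275) (nat_lit 0) (cs (lf (nat_lit 42) (nat_lit 208)) (rf (nat_lit 8))))))))))))))))))) (cs (rf (nat_lit 9)) (nd (nat_lit 231) (nat_lit 0) (cs (rf (nat_lit 10))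 (cs (rf (nat_lit 11)) (cs (nd (nat_lit 229) (nat_lit 0) (cs (rf (nat_lit 12)) (cs (rf (nat_lit 13)) (cs (nd (nat_lit 205) (nat_lit 0) (cs (lf (nat_lit 1) (nat_lit 205)) (rf (nat_lit 14)))) (cs (nd (nat_lit 275) (nat_lit 0) (cs (lf (nat_lit 42) (nat_lit 208)) (nd (nat_lit 274) (nat_lit 0) (cs (lf (nat_lit 42) (nat_lit 207)) (nd (nat_lit 205) (nat_lit 0) (cs (lf (nat_lit 1) (nat_lit 205)) (nd (nat_lit 273) (nat_lit 0) (cs (lf (nat_lit 41) (nat_lit 207)) (nd (nat_lit 228) (nat_lit 0) (cs (lf (nat_lit 0) (nat_lit 227)) (nd (nat_lit 272) (nat_lit 0) (cs (lf (nat_lit 12) (nat_lit 249)) (nd (nat_lit 250) (nat_lit 0) (cs (lf (nat_lit 30) (nat_lit 206)) (lf (nat_lit 11) (nat_lit 227)))))))))))))))) (nd (nat_lit 228) (nat_lit 0) (cs (lf (nat_lit 0) (nat_lit 227)) (nd (nat_lit 205) (nat_lit 0) (cs (lf (nat_lit 1) (nat_lit 205)) (nd (nat_lit 249) (nat_lit 0) (cs (lf (nat_lit 10) (nat_lit 227)) (nd (nat_lit 275)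 (nat_lit 0) (cs (lf (nat_lit 42) (nat_lit 208)) (nd (nat_lit 274) (nat_lit 0) (cs (lf (nat_lit 42) (nat_lit 207)) (nd (nat_lit 273) (nat_lit 0) (cs (lf (nat_lit 41) (nat_lit 207)) (nd (nat_lit 209) (nat_lit 0) (cs (rf (nat_lit 15)) (lf (nat_lit 6) (nat_lit 206))))))))))))))))))))) (nd (nat_lit 229) (nat_lit 0) (cs (rf (nat_lit 12)) (cs (rf (nat_lit 14)) (nd (nat_lit 232) (nat_lit 0) (cs (lf (nat_lit 18) (nat_lit 207)) (nd (nat_lit 274) (nat_lit 0) (cs (lf (nat_lit 42) (nat_lit 207)) (rf (nat_lit 16))))))))))))))))) q4238 (by decide +kernel)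
def q4270 : Q := Q.p (nat_lit 0x2000004000018000000000000000000000000000000000000000000000000000) (nat_lit 0x1c0000700001f0001bf0006780007f0001c0000700000000000000000000000000000000000) (nat_lit 10)
theorem c4270 : QOK q4270 := cut [q1156, q3318, q4032, q905, q4240, q1246, q4247, q4254, q4263, q4267] ⟨c1156, c3318, c4032, c905, c4240, c1246, c4247, c4254, c4263, c4267, trivial⟩ (nd (nat_lit 206) (nat_lit 0) (cs (rf (nat_lit 0)) (cs (rf (nat_lit 1)) (cs (rf (nat_lit 2)) (nd (nat_lit 185) (nat_lit 0) (cs (rf (nat_lit 3)) (cs (rf (nat_lit 4)) (cs (nd (nat_lit 229) (nat_lit 0) (cs (rf (nat_lit 5)) (cs (rf (nat_lit 6)) (cs (nd (nat_lit 231) (nat_lit 0) (cs (lf (nat_lit 18) (nat_lit 206)) (nd (nat_lit 164) (nat_lit 0) (cs (lf (nat_lit 25) (nat_lit 164)) (nd (nat_lit 252) (nat_lit 0) (cs (lf (nat_lit 42) (nat_lit 185)) (nd (nat_lit 228) (nat_lit 0) (cs (lf (nat_lit 0) (nat_lit 227)) (nd (nat_lit 250) (nat_lit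 0) (cs (lf (nat_lit 30) (nat_lit 184)) (lf (nat_lit 11) (nat_lit 227)))))))))))) (nd (nat_lit 252) (nat_lit 0) (cs (lf (nat_lit 42) (nat_lit 185)) (nd (nat_lit 228) (nat_lit 0) (cs (lf (nat_lit 0) (nat_lit 227)) (nd (nat_lit 209) (nat_lit 0) (cs (lf (nat_lit 6) (nat_lit 206)) (rf (nat_lit 7)))))))))))) (nd (nat_lit 229) (nat_lit 0) (cs (rf (nat_lit 6)) (cs (rf (nat_lit 8)) (rf (nat_lit 9))))))))))))) q4270 (by decide +kernel)
def q4321 : Q := Q.p (nat_lit 0x2000000000018000000000000000000000000000000000000000000000000000) (nat_lit 0x100000780001e00001c0007f8000e40001fc0007c0001f8000780000a000000000000000000000000) (nat_lit 12)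
theorem c4321 : QOK q4321 := cut [q3323, q4286, q1595, q4100, q4295, q1563, q4300, q4304, q1594, q1562, q3170, q1473, q35, q661, q2326, q4084, q4318] ⟨c3323, c4286, c1595, c4100, c4295, c1563, c4300, c4304, c1594, c1562, c3170, c1473, c35, c661, c2326, c4084, c4318, trivial⟩ (nd (nat_lit 209) (nat_lit 0) (cs (nd (nat_lit 184) (nat_lit 0) (cs (nd (nat_lit 206) (nat_lit 0) (cs (lf (nat_lit 23) (nat_lit 183)) (rf (nat_lit 0)))) (cs (nd (nat_lit 210) (nat_lit 0) (cs (lf (nat_lit 22) (nat_lit 184)) (rf (nat_lit 1)))) (nd (nat_lit 183) (nat_lit 0) (cs (lf (nat_lit 21) (nat_lit 183)) (nd (nat_lit 185) (nat_lit 0) (cs (lf (nat_lit 0) (nat_lit 182)) (lf (nat_lit 3) (nat_lit 183))))))))) (cs (nd (nat_lit 231) (nat_lit 0) (cs (rf (nat_lit 2)) (rf (nat_lit 3)))) (cs (rf (nat_lit 4)) (cs (nd (nat_lit 231) (nat_lit 0) (cs (rf (nat_lit 5)) (cs (rf (nat_lit 2)) (cs (nd (nat_lit 206) (nat_lit 0) (cs (lf (nat_lit 5)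 (nat_lit 206)) (nd (nat_lit 227) (nat_lit 0) (cs (lf (nat_lit 10) (nat_lit 205)) (nd (nat_lit 187) (nat_lit 0) (cs (lf (nat_lit 17) (nat_lit 184)) (rf (nat_lit 6)))))))) (nd (nat_lit 206) (nat_lit 0) (cs (lf (nat_lit 5) (nat_lit 206)) (nd (nat_lit 227) (nat_lit 0) (cs (lf (nat_lit 10) (nat_lit 205)) (nd (nat_lit 183) (nat_lit 0) (cs (lf (nat_lit 22) (nat_lit 183)) (nd (nat_lit 187) (nat_lit 0) (cs (lf (nat_lit 17) (nat_lit 184)) (nd (nat_lit 252) (nat_lit 0) (cs (lf (nat_lit 41) (nat_lit 186)) (nd (nat_lit 165) (nat_lit 0) (cs (lf (nat_lit 40) (nat_lit 164)) (nd (nat_lit 144) (nat_lit 0) (cs (lf (nat_lit 34) (nat_lit 143)) (nd (nat_lit 143) (nat_lit 0) (cs (lf (nat_lit 35) (nat_lit 121)) (rf (nat_lit 7)))))))))))))))))))))) (cs (nd (nat_lit 231) (nat_lit 0) (cs (rf (nat_lit 5)) (cs (rf (nat_lit 8)) (cs (rf (nat_lit 2)) (nd (nat_lit 186) (nat_lit 0) (cs (rf (nat_lit 9)) (rf (nat_lit 10)))))))) (nd (nat_lit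 187) (nat_lit 0) (cs (nd (nat_lit 188) (nat_lit 0) (cs (lf (nat_lit 12) (nat_lit 184)) (rf (nat_lit 11)))) (cs (nd (nat_lit 186) (nat_lit 0) (cs (rf (nat_lit 12)) (cs (rf (nat_lit 13)) (cs (rf (nat_lit 14)) (rf (nat_lit 15)))))) (nd (nat_lit 206) (nat_lit 0) (cs (lf (nat_lit 17) (nat_lit 184)) (rf (nat_lit 16))))))))))))) q4321 (by decide +kernel)
def q4591 : Q := Q.p (nat_lit 0x2000000000030000040000000000000000000000000000000000000000000000) (nat_lit 0x80000040001be0004f0003be0006f8001f80002e00002800000000000000000000000) (nat_lit 14)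
theorem c4591 : QOK q4591 := cut [q131, q527, q530, q2451, q684, q791, q1135, q2503, q4406, q4411, q4414] ⟨c131, c527, c530, c2451, c684, c791, c1135, c2503, c4406, c4411, c4414, trivial⟩ (nd (nat_lit 231) (nat_lit 0) (cs (lf (nat_lit 42) (nat_lit 186)) (nd (nat_lit 207) (nat_lit 0) (cs (rf (nat_lit 0)) (cs (nd (nat_lit 206) (nat_lit 0) (cs (rf (nat_lit 1)) (cs (rf (nat_lit 2)) (cs (rf (nat_lit 3)) (nd (nat_lit 209) (nat_lit 0) (cs (rf (nat_lit 4)) (cs (rf (nat_lit 5)) (cs (rf (nat_lit 6)) (rf (nat_lit 7)))))))))) (nd (nat_lit 188) (nat_lit 0) (cs (rf (nat_lit 8)) (cs (rf (nat_lit 9)) (cs (rf (nat_lit 10)) (nd (nat_lit 187) (nat_lit 0) (cs (lf (nat_lit 35) (nat_lit 165)) (lf (nat_lit 6) (nat_lit 185))))))))))))) q4591 (by decide +kernel)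
def q4667 : Q := Q.p (nat_lit 0x30000040000000000000000000000000000000000000000000000) (nat_lit 0x73e001cf000fbc003ec0003f0000fc00028000000000000000000000000) (nat_lit 15)
theorem c4667 : QOK q4667 := cut [q72, q75, q104, q82, q87, q4431, q4628, q4630, q4641, q4660, q4663] ⟨c72, c75, c104, c82, c87, c4431, c4628, c4630, c4641, c4660, c4663, trivial⟩ (nd (nat_lit 210) (nat_lit 0) (cs (rf (nat_lit 0)) (cs (rf (nat_lit 1)) (cs (rf (nat_lit 2)) (nd (nat_lit 207) (nat_lit 0) (cs (rf (nat_lit 3)) (cs (rf (nat_lit 4)) (cs (rf (nat_lit 5)) (nd (nat_lit 188) (nat_lit 0) (cs (lf (nat_lit 17) (nat_lit 185)) (nd (nat_lit 166) (nat_lit 0) (cs (rf (nat_lit 6)) (cs (nd (nat_lit 232) (nat_lit 0) (cs (lf (nat_lit 5) (nat_lit 207)) (nd (nat_lit 143) (nat_lit 0) (cs (lf (nat_lit 46) (nat_lit 143)) (nd (nat_lit 121) (nat_lit 0) (cs (lf (nat_lit 45) (nat_lit 121)) (nd (nat_lit 228) (nat_lit 0) (cs (lf (nat_lit 10) (nat_lit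 206)) (nd (nat_lit 185) (nat_lit 0) (cs (lf (nat_lit 23) (nat_lit 184)) (rf (nat_lit 7)))))))))))) (cs (nd (nat_lit 184) (nat_lit 0) (cs (lf (nat_lit 22) (nat_lit 184)) (nd (nat_lit 228) (nat_lit 0) (cs (lf (nat_lit 10) (nat_lit 206)) (rf (nat_lit 8)))))) (cs (rf (nat_lit 9)) (rf (nat_lit 10))))))))))))))))) q4667 (by decide +kernel)
def q5352 : Q := Q.p (nat_lit 0x2000004000018000000000000000000000000000000000000000000000000000) (nat_lit 0x3e0001fc0001f8003bc0000700003e0001fc0007c0000700000000000000000000000000000) (nat_lit 14)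
theorem c5352 : QOK q5352 := cut [q5234, q5286, q1079, q5205, q5294, q5296, q5317, q735, q1239, q1245, q2352, q5143, q1246, q5162] ⟨c5234, c5286, c1079, c5205, c5294, c5296, c5317, c735, c1239, c1245, c2352, c5143, c1246, c5162, trivial⟩ (nd (nat_lit 229) (nat_lit 0) (cs (rf (nat_lit 0)) (cs (rf (nat_lit 1)) (cs (nd (nat_lit 228) (nat_lit 0) (cs (nd (nat_lit 206) (nat_lit 0) (cs (rf (nat_lit 2)) (cs (rf (nat_lit 3)) (rf (nat_lit 4))))) (rf (nat_lit 5)))) (cs (rf (nat_lit 6)) (cs (nd (nat_lit 185) (nat_lit 0) (cs (rf (nat_lit 7)) (cs (nd (nat_lit 163) (nat_lit 0) (cs (lf (nat_lit 24) (nat_lit 141)) (nd (nat_lit 228) (nat_lit 0) (cs (lf (nat_lit 41) (nat_lit 162)) (nd (nat_lit 227) (nat_lit 0) (cs (lf (nat_lit 12) (nat_lit 204)) (nd (nat_lit 162) (nat_lit 0) (cs (lf (nat_lit 47) (nat_lit 140)) (nd (nat_lit 142) (nat_lit 0) (cs (lf (nat_lit 34) (nat_lit 141)) (nd (nat_lit 184) (nat_lit 0) (cs (lf (nat_lit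 42) (nat_lit 162)) (nd (nat_lit 205) (nat_lit 0) (cs (lf (nat_lit 23) (nat_lit 204)) (nd (nat_lit 182) (nat_lit 0) (cs (lf (nat_lit 1) (nat_lit 182)) (nd (nat_lit 206) (nat_lit 0) (cs (lf (nat_lit 5) (nat_lit 205)) (nd (nat_lit 161) (nat_lit 0) (cs (lf (nat_lit 47) (nat_lit 139)) (nd (nat_lit 160) (nat_lit 0) (cs (lf (nat_lit 0) (nat_lit 159)) (lf (nat_lit 11) (nat_lit 159)))))))))))))))))))))))) (nd (nat_lit 251) (nat_lit 0) (cs (rf (nat_lit 8)) (cs (rf (nat_lit 9)) (nd (nat_lit 250) (nat_lit 0) (cs (lf (nat_lit 41) (nat_lit 184)) (nd (nat_lit 231) (nat_lit 0) (cs (lf (nat_lit 6) (nat_lit 228)) (nd (nat_lit 275) (nat_lit 0) (cs (lf (nat_lit 42) (nat_lit 208)) (nd (nat_lit 252) (nat_lit 0) (cs (lf (nat_lit 42) (nat_lit 185)) (lf (nat_lit 5) (nat_lit 250)))))))))))))))) (cs (nd (nat_lit 228) (nat_lit 0) (cs (rf (nat_lit 5)) (nd (nat_lit 250) (nat_lit 0) (cs (rf (nat_lit 10)) (nd (nat_lit 231) (nat_lit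 0) (cs (lf (nat_lit 11) (nat_lit 227)) (rf (nat_lit 11)))))))) (cs (nd (nat_lit 185) (nat_lit 0) (cs (rf (nat_lit 7)) (cs (rf (nat_lit 12)) (nd (nat_lit 163) (nat_lit 0) (cs (lf (nat_lit 24) (nat_lit 141)) (nd (nat_lit 142) (nat_lit 0) (cs (lf (nat_lit 34) (nat_lit 141)) (nd (nat_lit 162) (nat_lit 0) (cs (lf (nat_lit 47) (nat_lit 140)) (nd (nat_lit 251) (nat_lit 0) (cs (lf (nat_lit 46) (nat_lit 162)) (nd (nat_lit 250) (nat_lit 0) (cs (lf (nat_lit 41) (nat_lit 184)) (nd (nat_lit 273) (nat_lit 0) (cs (lf (nat_lit 30) (nat_lit 207)) (nd (nat_lit 274) (nat_lit 0) (cs (lf (nat_lit 29) (nat_lit 207)) (nd (nat_lit 248) (nat_lit 0) (cs (lf (nat_lit 13) (nat_lit 226)) (nd (nat_lit 275) (nat_lit 0) (cs (lf (nat_lit 18) (nat_lit 250)) (nd (nat_lit 231) (nat_lit 0) (cs (lf (nat_lit 42) (nat_lit 208)) (lf (nat_lit 6) (nat_lit 228))))))))))))))))))))))))) (nd (nat_lit 228) (nat_lit 0) (cs (rf (nat_lit 5)) (nd (nat_lit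 206) (nat_lit 0) (cs (rf (nat_lit 2)) (cs (rf (nat_lit 3)) (nd (nat_lit 231) (nat_lit 0) (cs (lf (nat_lit 18) (nat_lit 206)) (rf (nat_lit 13))))))))))))))))) q5352 (by decide +kernel)
def q5475 : Q := Q.p (nat_lit 0x2000002000018000000000000000000000000000000000000000000000000000) (nat_lit 0x1780007c0001f8000180006400007c0001c0000400000000000000000000000000000000000) (nat_lit 10)
theorem c5475 : QOK q5475 := cut [q1857, q5461, q5474] ⟨c1857, c5461, c5474, trivial⟩ (nd (nat_lit 251) (nat_lit 0) (cs (rf (nat_lit 0)) (cs (rf (nat_lit 1)) (rf (nat_lit 2))))) q5475 (by decide +kernel)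
def q5520 : Q := Q.p (nat_lit 0x2000002000018000000000000000000000000000000000000000000000000000) (nat_lit 0xe00001800075e001e7000ffe0001f0000780001800004000000000000000000000000) (nat_lit 10)
theorem c5520 : QOK q5520 := cut [q1774, q1830, q527, q530, q2451, q2458, q4446, q529, q5032, q5510, q5513, q5518] ⟨c1774, c1830, c527, c530, c2451, c2458, c4446, c529, c5032, c5510, c5513, c5518, trivial⟩ (nd (nat_lit 186) (nat_lit 0) (cs (rf (nat_lit 0)) (cs (rf (nat_lit 1)) (cs (nd (nat_lit 206) (nat_lit 0) (cs (rf (nat_lit 2)) (cs (rf (nat_lit 3)) (cs (rf (nat_lit 4)) (nd (nat_lit 209) (nat_lit 0) (cs (rf (nat_lit 5)) (cs (nd (nat_lit 142) (nat_lit 0) (cs (lf (nat_lit 37) (nat_lit 141)) (rf (nat_lit 6)))) (nd (nat_lit 187) (nat_lit 0) (cs (rf (nat_lit 7)) (nd (nat_lit 142) (nat_lit 0) (cs (lf (nat_lit 37) (nat_lit 141)) (nd (nat_lit 228) (nat_lit 0) (cs (lf (nat_lit 11) (nat_lit 205)) (nd (nat_lit 184) (nat_lit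 0) (cs (lf (nat_lit 23) (nat_lit 183)) (nd (nat_lit 162) (nat_lit 0) (cs (lf (nat_lit 24) (nat_lit 140)) (nd (nat_lit 161) (nat_lit 0) (cs (lf (nat_lit 47) (nat_lit 139)) (lf (nat_lit 20) (nat_lit 161))))))))))))))))))))) (nd (nat_lit 185) (nat_lit 0) (cs (rf (nat_lit 8)) (cs (nd (nat_lit 251) (nat_lit 0) (cs (lf (nat_lit 30) (nat_lit 185)) (nd (nat_lit 252) (nat_lit 0) (cs (lf (nat_lit 29) (nat_lit 185)) (rf (nat_lit 9)))))) (cs (nd (nat_lit 251) (nat_lit 0) (cs (lf (nat_lit 30) (nat_lit 185)) (nd (nat_lit 252) (nat_lit 0) (cs (lf (nat_lit 29) (nat_lit 185)) (nd (nat_lit 230) (nat_lit 0) (cs (lf (nat_lit 29) (nat_lit 186)) (rf (nat_lit 10)))))))) (rf (nat_lit 11)))))))))) q5520 (by decide +kernel)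
def q5586 : Q := Q.p (nat_lit 0x2000000000018000000000000000000000000000000000000000000000000000) (nat_lit 0x400007c0001f0007ff000e78007ff0001f0000ff0003b00008000000000000000000000000) (nat_lit 18)
theorem c5586 : QOK q5586 := cut [q3255, q3294, q3318, q3364, q3883, q4089, q3398, q3411, q3421, q1485, q141, q1511, q1678] ⟨c3255, c3294, c3318, c3364, c3883, c4089, c3398, c3411, c3421, c1485, c141, c1511, c1678, trivial⟩ (nd (nat_lit 206) (nat_lit 0) (cs (rf (nat_lit 0)) (cs (rf (nat_lit 1)) (cs (rf (nat_lit 2)) (cs (rf (nat_lit 3)) (cs (rf (nat_lit 4)) (cs (rf (nat_lit 5)) (cs (nd (nat_lit 228) (nat_lit 0) (cs (rf (nat_lit 6)) (cs (rf (nat_lit 7)) (cs (rf (nat_lit 8)) (nd (nat_lit 209) (nat_lit 0) (cs (lf (nat_lit 11) (nat_lit 205)) (nd (nat_lit 187) (nat_lit 0) (cs (lf (nat_lit 17) (nat_lit 184)) (nd (nat_lit 184) (nat_lit 0) (cs (lf (nat_lit 23) (nat_lit 183)) (nd (nat_lit 231) (nat_lit 0) (cs (lf (nat_lit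 5) (nat_lit 206)) (nd (nat_lit 252) (nat_lit 0) (cs (lf (nat_lit 41) (nat_lit 186)) (nd (nat_lit 164) (nat_lit 0) (cs (rf (nat_lit 9)) (lf (nat_lit 46) (nat_lit 164)))))))))))))))))) (nd (nat_lit 209) (nat_lit 0) (cs (rf (nat_lit 10)) (cs (rf (nat_lit 11)) (rf (nat_lit 12))))))))))))) q5586 (by decide +kernel)
def q5609 : Q := Q.p (nat_lit 0x2000000000018000000000000000000000000000000000000000000000000000) (nat_lit 0x280000e0000180007f7001e78003fe0005f00017c0000800002000000000000000000000000) (nat_lit 11)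
theorem c5609 : QOK q5609 := cut [q516, q3819, q4103, q4104, q4406, q4408, q4412, q4414, q530, q791, q3891, q527, q534, q1774, q3901, q2412, q5013, q5027] ⟨c516, c3819, c4103, c4104, c4406, c4408, c4412, c4414, c530, c791, c3891, c527, c534, c1774, c3901, c2412, c5013, c5027, trivial⟩ (nd (nat_lit 186) (nat_lit 0) (cs (rf (nat_lit 0)) (cs (rf (nat_lit 1)) (cs (rf (nat_lit 2)) (cs (nd (nat_lit 209) (nat_lit 0) (cs (rf (nat_lit 3)) (cs (nd (nat_lit 188) (nat_lit 0) (cs (nd (nat_lit 231) (nat_lit 0) (cs (lf (nat_lit 42) (nat_lit 186)) (rf (nat_lit 4)))) (cs (nd (nat_lit 187) (nat_lit 0) (cs (lf (nat_lit 6) (nat_lit 185)) (rf (nat_lit 5)))) (cs (rf (nat_lit 6)) (rf (nat_lit 7)))))) (nd (nat_lit 206) (nat_lit 0) (cs (rf (nat_lit 8)) (cs (rf (nat_lit 9)) (nd (nat_lit 183) (nat_lit 0) (cs (lf (nat_lit 22) (nat_lit 183)) (rf (nat_lit 10)))))))))) (nd (nat_lit 206) (nat_lit 0) (cs (rf (nat_lit 11)) (cs (rf (nat_lit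 8)) (cs (nd (nat_lit 183) (nat_lit 0) (cs (rf (nat_lit 12)) (cs (rf (nat_lit 10)) (nd (nat_lit 229) (nat_lit 0) (cs (rf (nat_lit 13)) (cs (rf (nat_lit 14)) (nd (nat_lit 209) (nat_lit 0) (cs (lf (nat_lit 22) (nat_lit 183)) (nd (nat_lit 210) (nat_lit 0) (cs (lf (nat_lit 11) (nat_lit 206)) (nd (nat_lit 211) (nat_lit 0) (cs (lf (nat_lit 23) (nat_lit 185)) (lf (nat_lit 10) (nat_lit 207)))))))))))))) (nd (nat_lit 184) (nat_lit 0) (cs (rf (nat_lit 15)) (cs (nd (nat_lit 209) (nat_lit 0) (cs (lf (nat_lit 23) (nat_lit 183)) (nd (nat_lit 188) (nat_lit 0) (cs (lf (nat_lit 16) (nat_lit 184)) (nd (nat_lit 210) (nat_lit 0) (cs (lf (nat_lit 17) (nat_lit 185)) (nd (nat_lit 229) (nat_lit 0) (cs (lf (nat_lit 11) (nat_lit 206)) (nd (nat_lit 232) (nat_lit 0) (cs (lf (nat_lit 5) (nat_lit 207)) (nd (nat_lit 230) (nat_lit 0) (cs (lf (nat_lit 6) (nat_lit 207)) (nd (nat_lit 164) (nat_lit 0) (cs (lf (nat_lit 41) (nat_lit 163))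 (lf (nat_lit 36) (nat_lit 141)))))))))))))))) (nd (nat_lit 229) (nat_lit 0) (cs (rf (nat_lit 13)) (cs (nd (nat_lit 162) (nat_lit 0) (cs (lf (nat_lit 24) (nat_lit 140)) (nd (nat_lit 251) (nat_lit 0) (cs (lf (nat_lit 30) (nat_lit 185)) (lf (nat_lit 45) (nat_lit 162)))))) (nd (nat_lit 163) (nat_lit 0) (cs (rf (nat_lit 16)) (cs (rf (nat_lit 17)) (nd (nat_lit 162) (nat_lit 0) (cs (lf (nat_lit 24) (nat_lit 140)) (nd (nat_lit 164) (nat_lit 0) (cs (lf (nat_lit 36) (nat_lit 141)) (nd (nat_lit 161) (nat_lit 0) (cs (lf (nat_lit 5) (nat_lit 161)) (nd (nat_lit 139) (nat_lit 0) (cs (lf (nat_lit 23) (nat_lit 138)) (lf (nat_lit 42) (nat_lit 139)))))))))))))))))))))))))))) q5609 (by decide +kernel)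
def q5627 : Q := Q.p (nat_lit 0x2000000000030000040000000000000000000000000000000000000000000000) (nat_lit 0x800000c0007be000cf00003c0003f0001fc0001c00005000000000000000000000000) (nat_lit 13)
theorem c5627 : QOK q5627 := cut [q2631, q3160, q4101] ⟨c2631, c3160, c4101, trivial⟩ (nd (nat_lit 231) (nat_lit 0) (cs (lf (nat_lit 42) (nat_lit 186)) (nd (nat_lit 207) (nat_lit 0) (cs (rf (nat_lit 0)) (cs (rf (nat_lit 1)) (rf (nat_lit 2))))))) q5627 (by decide +kernel)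
def q5808 : Q := Q.p (nat_lit 0x38000060000000000200000000000000000000000000000000000) (nat_lit 0x300000c00000800007f0000d80003f00000000000000000000000000000) (nat_lit 10)
theorem c5808 : QOK q5808 := cut [q5803, q5805, q5807] ⟨c5803, c5805, c5807, trivial⟩ (nd (nat_lit 142) (nat_lit 0) (cs (rf (nat_lit 0)) (cs (rf (nat_lit 1)) (rf (nat_lit 2))))) q5808 (by decide +kernel)
def q5848 : Q := Q.p (nat_lit 0x38000060000000000000000000000000000000000000000000000) (nat_lit 0x8000320000c00000800007f0003fc0003c0000d000000000000000000000000) (nat_lit 10)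
theorem c5848 : QOK q5848 := cut [q1939, q5815, q5820, q5827, q4508, q5834, q5837, q5842, q524, q5835, q5846] ⟨c1939, c5815, c5820, c5827, c4508, c5834, c5837, c5842, c524, c5835, c5846, trivial⟩ (nd (nat_lit 163) (nat_lit 0) (cs (rf (nat_lit 0)) (cs (nd (nat_lit 210) (nat_lit 0) (cs (lf (nat_lit 18) (nat_lit 185)) (nd (nat_lit 232) (nat_lit 0) (cs (lf (nat_lit 5) (nat_lit 207)) (rf (nat_lit 1)))))) (cs (rf (nat_lit 2)) (cs (rf (nat_lit 3)) (cs (nd (nat_lit 164) (nat_lit 0) (cs (rf (nat_lit 4)) (cs (rf (nat_lit 5)) (cs (rf (nat_lit 6)) (rf (nat_lit 7)))))) (nd (nat_lit 164) (nat_lit 0) (cs (rf (nat_lit 8)) (cs (rf (nat_lit 9)) (rf (nat_lit 10))))))))))) q5848 (by decide +kernel)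
def q5891 : Q := Q.p (nat_lit 0x2000000000010000060000000000000000000000000000000000000000000000) (nat_lit 0x20000380001e0000380002f80009c0000f8000380000e0000380000a000000000000000000) (nat_lit 11)
theorem c5891 : QOK q5891 := cut [q4753, q4772, q4774, q3734, q5859, q5875, q5879, q5857, q5884, q5888] ⟨c4753, c4772, c4774, c3734, c5859, c5875, c5879, c5857, c5884, c5888, trivial⟩ (nd (nat_lit 184) (nat_lit 0) (cs (rf (nat_lit 0)) (cs (rf (nat_lit 1)) (cs (rf (nat_lit 2)) (nd (nat_lit 162) (nat_lit 0) (cs (rf (nat_lit 3)) (cs (rf (nat_lit 4)) (nd (nat_lit 140) (nat_lit 0) (cs (rf (nat_lit 5)) (cs (rf (nat_lit 6)) (cs (nd (nat_lit 206) (nat_lit 0) (cs (rf (nat_lit 7)) (nd (nat_lit 141) (nat_lit 0) (cs (lf (nat_lit 35) (nat_lit 118)) (rf (nat_lit 8)))))) (rf (nat_lit 9))))))))))))) q5891 (by decide +kernel)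
def q6118 : Q := Q.p (nat_lit 0x2000000000018000040000000000000000000000000000000000000000000000) (nat_lit 0xc0000f00001f0000ff001e78000be0002f0000380000e00002800000000000000000000000) (nat_lit 14)
theorem c6118 : QOK q6118 := cut [q436, q1824, q3889, q3960, q1135, q6076, q805, q864, q2477, q6086, q17, q367, q371, q2415, q6104, q6106] ⟨c436, c1824, c3889, c3960, c1135, c6076, c805, c864, c2477, c6086, c17, c367, c371, c2415, c6104, c6106, trivial⟩ (nd (nat_lit 230) (nat_lit 0) (cs (rf (nat_lit 0)) (cs (rf (nat_lit 1)) (cs (nd (nat_lit 206) (nat_lit 0) (cs (rf (nat_lit 2)) (cs (rf (nat_lit 3)) (nd (nat_lit 209) (nat_lit 0) (cs (rf (nat_lit 4)) (cs (nd (nat_lit 231) (nat_lit 0) (cs (lf (nat_lit 42) (nat_lit 186)) (nd (nat_lit 228) (nat_lit 0) (cs (lf (nat_lit 11) (nat_lit 205)) (nd (nat_lit 210) (nat_lit 0) (cs (lf (nat_lit 10) (nat_lit 206)) (nd (nat_lit 211) (nat_lit 0) (cs (lf (nat_lit 23) (nat_lit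 185)) (lf (nat_lit 6) (nat_lit 208)))))))))) (cs (nd (nat_lit 184) (nat_lit 0) (cs (lf (nat_lit 23) (nat_lit 183)) (nd (nat_lit 231) (nat_lit 0) (cs (lf (nat_lit 42) (nat_lit 186)) (rf (nat_lit 5)))))) (cs (nd (nat_lit 183) (nat_lit 0) (cs (lf (nat_lit 22) (nat_lit 183)) (nd (nat_lit 231) (nat_lit 0) (cs (lf (nat_lit 42) (nat_lit 186)) (nd (nat_lit 228) (nat_lit 0) (cs (lf (nat_lit 11) (nat_lit 205)) (nd (nat_lit 229) (nat_lit 0) (cs (lf (nat_lit 6) (nat_lit 206)) (nd (nat_lit 250) (nat_lit 0) (cs (lf (nat_lit 11) (nat_lit 227)) (nd (nat_lit 273) (nat_lit 0) (cs (lf (nat_lit 31) (nat_lit 185)) (nd (nat_lit 272) (nat_lit 0) (cs (lf (nat_lit 30) (nat_lit 206)) (lf (nat_lit 29) (nat_lit 206)))))))))))))))) (nd (nat_lit 184) (nat_lit 0) (cs (lf (nat_lit 23) (nat_lit 183)) (nd (nat_lit 162) (nat_lit 0) (cs (rf (nat_lit 6)) (cs (rf (nat_lit 7)) (cs (rf (nat_lit 8)) (nd (nat_lit 228) (nat_lit 0) (cs (lf (nat_lit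 11) (nat_lit 205)) (nd (nat_lit 231) (nat_lit 0) (cs (lf (nat_lit 42) (nat_lit 186)) (nd (nat_lit 139) (nat_lit 0) (cs (lf (nat_lit 46) (nat_lit 139)) (nd (nat_lit 141) (nat_lit 0) (cs (lf (nat_lit 34) (nat_lit 140)) (nd (nat_lit 229) (nat_lit 0) (cs (lf (nat_lit 29) (nat_lit 162)) (nd (nat_lit 250) (nat_lit 0) (cs (lf (nat_lit 11) (nat_lit 227)) (rf (nat_lit 9)))))))))))))))))))))))))))) (nd (nat_lit 252) (nat_lit 0) (cs (rf (nat_lit 10)) (cs (rf (nat_lit 11)) (cs (rf (nat_lit 12)) (nd (nat_lit 184) (nat_lit 0) (cs (nd (nat_lit 185) (nat_lit 0) (cs (lf (nat_lit 47) (nat_lit 163)) (nd (nat_lit 209) (nat_lit 0) (cs (lf (nat_lit 0) (nat_lit 183)) (lf (nat_lit 18) (nat_lit 184)))))) (cs (nd (nat_lit 251) (nat_lit 0) (cs (lf (nat_lit 41) (nat_lit 185)) (nd (nat_lit 187) (nat_lit 0) (cs (lf (nat_lit 35) (nat_lit 164)) (nd (nat_lit 206) (nat_lit 0) (cs (lf (nat_lit 12) (nat_lit 183)) (nd (nat_lit 209) (nat_lit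 0) (cs (lf (nat_lit 23) (nat_lit 183)) (rf (nat_lit 13)))))))))) (cs (nd (nat_lit 165) (nat_lit 0) (cs (lf (nat_lit 34) (nat_lit 164)) (rf (nat_lit 14)))) (nd (nat_lit 165) (nat_lit 0) (cs (lf (nat_lit 34) (nat_lit 164)) (nd (nat_lit 251) (nat_lit 0) (cs (lf (nat_lit 41) (nat_lit 185)) (nd (nat_lit 185) (nat_lit 0) (cs (lf (nat_lit 47) (nat_lit 163)) (nd (nat_lit 162) (nat_lit 0) (cs (lf (nat_lit 43) (nat_lit 162)) (nd (nat_lit 118) (nat_lit 0) (cs (lf (nat_lit 25) (nat_lit 118)) (nd (nat_lit 183) (nat_lit 0) (cs (lf (nat_lit 0) (nat_lit 182)) (nd (nat_lit 160) (nat_lit 0) (cs (lf (nat_lit 22) (nat_lit 160)) (nd (nat_lit 205) (nat_lit 0) (cs (lf (nat_lit 11) (nat_lit 182)) (nd (nat_lit 206) (nat_lit 0) (cs (lf (nat_lit 5) (nat_lit 205)) (rf (nat_lit 15)))))))))))))))))))))))))))))))) q6118 (by decide +kernel)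
def q6496 : Q := Q.p (nat_lit 0x2000000000018000020000000000000000000000000000000000000000000000) (nat_lit 0x100001f00001f0001bc00023000fdf003ffc00fff001ffc001f000078000040000000000000) (nat_lit 16)
theorem c6496 : QOK q6496 := cut [q1939, q6201, q6308, q6373, q1638, q1641, q1644, q6465, q6495] ⟨c1939, c6201, c6308, c6373, c1638, c1641, c1644, c6465, c6495, trivial⟩ (nd (nat_lit 163) (nat_lit 0) (cs (rf (nat_lit 0)) (cs (rf (nat_lit 1)) (cs (rf (nat_lit 2)) (cs (rf (nat_lit 3)) (cs (nd (nat_lit 142) (nat_lit 0) (cs (rf (nat_lit 4)) (cs (rf (nat_lit 5)) (cs (rf (nat_lit 6)) (nd (nat_lit 229) (nat_lit 0) (cs (lf (nat_lit 34) (nat_lit 141)) (nd (nat_lit 250) (nat_lit 0) (cs (lf (nat_lit 40) (nat_lit 162)) (nd (nat_lit 251) (nat_lit 0) (cs (lf (nat_lit 41) (nat_lit 184)) (nd (nat_lit 186) (nat_lit 0) (cs (lf (nat_lit 30) (nat_lit 185)) (nd (nat_lit 119) (nat_lit 0) (cs (lf (nat_lit 25) (nat_lit 119)) (nd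 (nat_lit 252) (nat_lit 0) (cs (lf (nat_lit 29) (nat_lit 185)) (nd (nat_lit 231) (nat_lit 0) (cs (lf (nat_lit 17) (nat_lit 228)) (nd (nat_lit 275) (nat_lit 0) (cs (lf (nat_lit 45) (nat_lit 186)) (lf (nat_lit 5) (nat_lit 250)))))))))))))))))))))) (cs (rf (nat_lit 7)) (rf (nat_lit 8))))))))) q6496 (by decide +kernel)
def q6566 : Q := Q.p (nat_lit 0x18000020000000000000000000000000000000000000000000000) (nat_lit 0x700001f00007c000230007df000ff8003bf0000e00001000000000000000000000000) (nat_lit 15)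
theorem c6566 : QOK q6566 := cut [q1658, q6202, q6373, q6509] ⟨c1658, c6202, c6373, c6509, trivial⟩ (nd (nat_lit 163) (nat_lit 0) (cs (rf (nat_lit 0)) (cs (rf (nat_lit 1)) (cs (rf (nat_lit 2)) (rf (nat_lit 3)))))) q6566 (by decide +kernel)
def q6580 : Q := Q.p (nat_lit 0x18000020000000000000000000000000000000000000000000000) (nat_lit 0x100000700001c00007c000000001df0007f8003ff0001c00005000000000000000000000000) (nat_lit 14)
theorem c6580 : QOK q6580 := cut [q1615, q1621, q1658, q6308] ⟨c1615, c1621, c1658, c6308, trivial⟩ (nd (nat_lit 163) (nat_lit 0) (cs (rf (nat_lit 0)) (cs (rf (nat_lit 1)) (cs (rf (nat_lit 2)) (rf (nat_lit 3)))))) q6580 (by decide +kernel)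
def q6597 : Q := Q.p (nat_lit 0x200000000001c000000000000000000000000000000000000000000000000000) (nat_lit 0x280000e0000380001f0000fe0002000003e0000e0000380000a00000000000000000000000000000) (nat_lit 9)
theorem c6597 : QOK q6597 := cut [q3398, q3421, q6595, q6596] ⟨c3398, c3421, c6595, c6596, trivial⟩ (nd (nat_lit 228) (nat_lit 0) (cs (rf (nat_lit 0)) (cs (rf (nat_lit 1)) (cs (rf (nat_lit 2)) (rf (nat_lit 3)))))) q6597 (by decide +kernel)
def q6800 : Q := Q.p (nat_lit 0x200000000001c000040000000000000000000000000000000000000000000000) (nat_lit 0x200000e0000b80001e0001b00002300003f0003f8000ff0003e0000a800000000000000000000000) (nat_lit 12)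
theorem c6800 : QOK q6800 := cut [q524, q559, q805, q864, q3851, q6775, q804, q863, q6778, q6788, q6790, q3256, q6696, q4505] ⟨c524, c559, c805, c864, c3851, c6775, c804, c863, c6778, c6788, c6790, c3256, c6696, c4505, trivial⟩ (nd (nat_lit 164) (nat_lit 0) (cs (rf (nat_lit 0)) (cs (rf (nat_lit 1)) (cs (nd (nat_lit 184) (nat_lit 0) (cs (nd (nat_lit 162) (nat_lit 0) (cs (rf (nat_lit 2)) (cs (rf (nat_lit 3)) (cs (rf (nat_lit 4)) (cs (rf (nat_lit 5)) (nd (nat_lit 140) (nat_lit 0) (cs (rf (nat_lit 6)) (cs (rf (nat_lit 7)) (nd (nat_lit 119) (nat_lit 0) (cs (lf (nat_lit 34) (nat_lit 118)) (rf (nat_lit 8)))))))))))) (cs (rf (nat_lit 9)) (rf (nat_lit 10))))) (nd (nat_lit 183) (nat_lit 0) (cs (rf (nat_lit 11)) (cs (rf (nat_lit 12)) (nd (nat_lit 205) (nat_lit 0) (cs (lf (nat_lit 23) (nat_lit 182)) (nd (nat_lit 185) (nat_lit 0) (cs (lf (nat_lit 12) (nat_lit 182)) (nd (nat_lit 142) (nat_lit 0) (cs (lf (nat_lit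 36) (nat_lit 119)) (nd (nat_lit 209) (nat_lit 0) (cs (lf (nat_lit 29) (nat_lit 142)) (nd (nat_lit 121) (nat_lit 0) (cs (lf (nat_lit 34) (nat_lit 120)) (nd (nat_lit 141) (nat_lit 0) (cs (lf (nat_lit 47) (nat_lit 119)) (nd (nat_lit 163) (nat_lit 0) (cs (lf (nat_lit 41) (nat_lit 140)) (rf (nat_lit 13))))))))))))))))))))))) q6800 (by decide +kernel)
def q6805 : Q := Q.p (nat_lit 0x200000000001c000040000000000000000000000000000000000000000000000) (nat_lit 0x200000e0000b80001e0001b0000200003bf0007f8000ff0003e00002800000000000000000000000) (nat_lit 12)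
theorem c6805 : QOK q6805 := cut [q529, q805, q864, q3851, q5648, q6775, q3500, q3503, q3564, q6804] ⟨c529, c805, c864, c3851, c5648, c6775, c3500, c3503, c3564, c6804, trivial⟩ (nd (nat_lit 184) (nat_lit 0) (cs (nd (nat_lit 187) (nat_lit 0) (cs (rf (nat_lit 0)) (nd (nat_lit 162) (nat_lit 0) (cs (rf (nat_lit 1)) (cs (rf (nat_lit 2)) (cs (rf (nat_lit 3)) (cs (rf (nat_lit 4)) (rf (nat_lit 5))))))))) (cs (nd (nat_lit 185) (nat_lit 0) (cs (rf (nat_lit 6)) (cs (rf (nat_lit 7)) (rf (nat_lit 8))))) (rf (nat_lit 9))))) q6805 (by decide +kernel)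
def q6867 : Q := Q.p (nat_lit 0x2000000000018000000000000000000000000000000000000000000000000000) (nat_lit 0x200000c00003e0000f80001e0003ff000278003df0007e0000f80003e0000e800028000000000000000000) (nat_lit 15)
theorem c6867 : QOK q6867 := cut [q516, q3482, q530, q3119, q891, q3851, q5883, q1497, q3212, q3282, q3293, q6817, q6856, q8, q639, q3329, q4417, q6865, q559, q3194] ⟨c516, c3482, c530, c3119, c891, c3851, c5883, c1497, c3212, c3282, c3293, c6817, c6856, c8, c639, c3329, c4417, c6865, c559, c3194, trivial⟩ (nd (nat_lit 186) (nat_lit 0) (cs (rf (nat_lit 0)) (cs (rf (nat_lit 1)) (cs (nd (nat_lit 206) (nat_lit 0) (cs (rf (nat_lit 2)) (cs (nd (nat_lit 209) (nat_lit 0) (cs (rf (nat_lit 3)) (nd (nat_lit 184) (nat_lit 0) (cs (lf (nat_lit 23) (nat_lit 183)) (nd (nat_lit 162) (nat_lit 0) (cs (rf (nat_lit 4)) (cs (rf (nat_lit 5)) (cs (nd (nat_lit 187) (nat_lit 0) (cs (lf (nat_lit 17) (nat_lit 184)) (nd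 (nat_lit 228) (nat_lit 0) (cs (lf (nat_lit 11) (nat_lit 205)) (nd (nat_lit 141) (nat_lit 0) (cs (lf (nat_lit 34) (nat_lit 140)) (nd (nat_lit 139) (nat_lit 0) (cs (lf (nat_lit 46) (nat_lit 139)) (rf (nat_lit 6)))))))))) (nd (nat_lit 228) (nat_lit 0) (cs (lf (nat_lit 11) (nat_lit 205)) (rf (nat_lit 7)))))))))))) (cs (nd (nat_lit 227) (nat_lit 0) (cs (rf (nat_lit 8)) (cs (rf (nat_lit 9)) (rf (nat_lit 10))))) (rf (nat_lit 11)))))) (cs (rf (nat_lit 12)) (cs (nd (nat_lit 230) (nat_lit 0) (cs (rf (nat_lit 13)) (cs (rf (nat_lit 14)) (cs (rf (nat_lit 15)) (rf (nat_lit 16)))))) (cs (rf (nat_lit 17)) (nd (nat_lit 164) (nat_lit 0) (cs (rf (nat_lit 18)) (rf (nat_lit 19))))))))))) q6867 (by decide +kernel)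
def q6892 : Q := Q.p (nat_lit 0x2000000000018000040000000000000000000000000000000000000000000000) (nat_lit 0x800000000019e000270003be0006f8000f80002e00002800000000000000000000000) (nat_lit 12)
theorem c6892 : QOK q6892 := cut [q527, q530, q2451, q2503, q3119] ⟨c527, c530, c2451, c2503, c3119, trivial⟩ (nd (nat_lit 206) (nat_lit 0) (cs (rf (nat_lit 0)) (cs (rf (nat_lit 1)) (cs (rf (nat_lit 2)) (nd (nat_lit 209) (nat_lit 0) (cs (rf (nat_lit 3)) (rf (nat_lit 4)))))))) q6892 (by decide +kernel)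
def q7116 : Q := Q.p (nat_lit 0x2000000000018000020000000000000000000000000000000000000000000000) (nat_lit 0x1fc0001e00007e000278001de000760000d80003600000000000000000000000000000) (nat_lit 10)
theorem c7116 : QOK q7116 := cut [q7082, q3508, q7088, q2664, q7093, q7096, q7087, q7101, q7110, q7115] ⟨c7082, c3508, c7088, c2664, c7093, c7096, c7087, c7101, c7110, c7115, trivial⟩ (nd (nat_lit 184) (nat_lit 0) (cs (rf (nat_lit 0)) (cs (nd (nat_lit 252) (nat_lit 0) (cs (nd (nat_lit 186) (nat_lit 0) (cs (rf (nat_lit 1)) (cs (nd (nat_lit 230) (nat_lit 0) (cs (lf (nat_lit 29) (nat_lit 186)) (nd (nat_lit 251) (nat_lit 0) (cs (lf (nat_lit 41) (nat_lit 185)) (nd (nat_lit 229) (nat_lit 0) (cs (lf (nat_lit 36) (nat_lit 163)) (lf (nat_lit 47) (nat_lit 162)))))))) (nd (nat_lit 230) (nat_lit 0) (cs (lf (nat_lit 29) (nat_lit 186)) (rf (nat_lit 2))))))) (cs (nd (nat_lit 274) (nat_lit 0) (cs (lf (nat_lit 44) (nat_lit 185))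 (nd (nat_lit 251) (nat_lit 0x400000000000000000000000000000000000000000000000000000000000000000000) (cs (rf (nat_lit 3)) (rf (nat_lit 4)))))) (cs (nd (nat_lit 251) (nat_lit 0) (cs (rf (nat_lit 4)) (rf (nat_lit 5)))) (cs (nd (nat_lit 251) (nat_lit 0) (cs (rf (nat_lit 3)) (cs (rf (nat_lit 5)) (nd (nat_lit 230) (nat_lit 0) (cs (lf (nat_lit 42) (nat_lit 185)) (nd (nat_lit 186) (nat_lit 0) (cs (lf (nat_lit 41) (nat_lit 185)) (rf (nat_lit 6))))))))) (cs (nd (nat_lit 230) (nat_lit 0) (cs (lf (nat_lit 42) (nat_lit 185)) (nd (nat_lit 186) (nat_lit 0) (cs (lf (nat_lit 29) (nat_lit 186)) (nd (nat_lit 165) (nat_lit 0) (cs (lf (nat_lit 34) (nat_lit 164)) (rf (nat_lit 7)))))))) (nd (nat_lit 230) (nat_lit 0) (cs (lf (nat_lit 42) (nat_lit 185)) (nd (nat_lit 186) (nat_lit 0) (cs (lf (nat_lit 29) (nat_lit 186)) (rf (nat_lit 2)))))))))))) (cs (rf (nat_lit 8)) (rf (nat_lit 9)))))) q7116 (by decide +kernel)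
def q7243 : Q := Q.p (nat_lit 0x2000000000018000020000000000000000000000000000000000000000000000) (nat_lit 0x780001e00003e000278001de0007e00007c0001e00000000000000000000000000000) (nat_lit 12)
theorem c7243 : QOK q7243 := cut [q7082, q7110, q7115, q6988, q1749, q7237, q3125, q6230] ⟨c7082, c7110, c7115, c6988, c1749, c7237, c3125, c6230, trivial⟩ (nd (nat_lit 184) (nat_lit 0) (cs (rf (nat_lit 0)) (cs (rf (nat_lit 1)) (cs (rf (nat_lit 2)) (nd (nat_lit 229) (nat_lit 0) (cs (nd (nat_lit 162) (nat_lit 0) (cs (lf (nat_lit 42) (nat_lit 162)) (rf (nat_lit 3)))) (cs (nd (nat_lit 163) (nat_lit 0) (cs (rf (nat_lit 4)) (cs (nd (nat_lit 162) (nat_lit 0) (cs (lf (nat_lit 47) (nat_lit 140)) (nd (nat_lit 228) (nat_lit 0) (cs (lf (nat_lit 41) (nat_lit 162)) (nd (nat_lit 226) (nat_lit 0) (cs (lf (nat_lit 13) (nat_lit 204)) (nd (nat_lit 164) (nat_lit 0) (cs (lf (nat_lit 35) (nat_lit 141)) (nd (nat_lit 165) (nat_lit 0)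 (cs (lf (nat_lit 6) (nat_lit 162)) (nd (nat_lit 187) (nat_lit 0) (cs (lf (nat_lit 5) (nat_lit 162)) (nd (nat_lit 161) (nat_lit 0) (cs (lf (nat_lit 19) (nat_lit 161)) (nd (nat_lit 139) (nat_lit 0) (cs (lf (nat_lit 43) (nat_lit 139)) (lf (nat_lit 23) (nat_lit 138)))))))))))))))))) (cs (nd (nat_lit 142) (nat_lit 0) (cs (lf (nat_lit 34) (nat_lit 141)) (nd (nat_lit 141) (nat_lit 0) (cs (lf (nat_lit 35) (nat_lit 119)) (nd (nat_lit 119) (nat_lit 0) (cs (lf (nat_lit 28) (nat_lit 119)) (lf (nat_lit 41) (nat_lit 118)))))))) (nd (nat_lit 228) (nat_lit 0) (cs (lf (nat_lit 41) (nat_lit 162)) (nd (nat_lit 226) (nat_lit 0) (cs (lf (nat_lit 13) (nat_lit 204)) (rf (nat_lit 5)))))))))) (nd (nat_lit 251) (nat_lit 0) (cs (rf (nat_lit 6)) (rf (nat_lit 7))))))))))) q7243 (by decide +kernel)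
def q7298 : Q := Q.p (nat_lit 0x18000020000000000000000000000000000000000000000000000) (nat_lit 0x80001600007e000278001de000ff0003fc0003c00005000000000000000000000000) (nat_lit 11)
theorem c7298 : QOK q7298 := cut [q1615, q1621, q1658, q1939, q3743, q3485, q3739, q3725, q6383, q7272, q6326, q7284, q3543, q7200, q6514, q4266] ⟨c1615, c1621, c1658, c1939, c3743, c3485, c3739, c3725, c6383, c7272, c6326, c7284, c3543, c7200, c6514, c4266, trivial⟩ (nd (nat_lit 163) (nat_lit 0) (cs (rf (nat_lit 0)) (cs (rf (nat_lit 1)) (cs (rf (nat_lit 2)) (cs (rf (nat_lit 3)) (nd (nat_lit 162) (nat_lit 0) (cs (rf (nat_lit 4)) (cs (nd (nat_lit 186) (nat_lit 0) (cs (rf (nat_lit 5)) (cs (rf (nat_lit 6)) (cs (nd (nat_lit 164) (nat_lit 0) (cs (rf (nat_lit 7)) (rf (nat_lit 8)))) (nd (nat_lit 164) (nat_lit 0) (cs (rf (nat_lit 8)) (nd (nat_lit 187) (nat_lit 0) (cs (lf (nat_lit 18) (nat_lit 162)) (nd (nat_lit 205) (nat_lit 0) (cs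 (lf (nat_lit 13) (nat_lit 183)) (nd (nat_lit 230) (nat_lit 0) (cs (lf (nat_lit 42) (nat_lit 163)) (nd (nat_lit 165) (nat_lit 0) (cs (lf (nat_lit 35) (nat_lit 142)) (rf (nat_lit 9)))))))))))))))) (cs (nd (nat_lit 186) (nat_lit 0) (cs (rf (nat_lit 6)) (cs (nd (nat_lit 183) (nat_lit 0) (cs (rf (nat_lit 10)) (cs (nd (nat_lit 230) (nat_lit 0) (cs (lf (nat_lit 42) (nat_lit 163)) (nd (nat_lit 161) (nat_lit 0) (cs (lf (nat_lit 0) (nat_lit 160)) (nd (nat_lit 164) (nat_lit 0) (cs (lf (nat_lit 11) (nat_lit 160)) (nd (nat_lit 142) (nat_lit 0) (cs (lf (nat_lit 36) (nat_lit 119)) (lf (nat_lit 17) (nat_lit 139)))))))))) (nd (nat_lit 160) (nat_lit 0) (cs (lf (nat_lit 1) (nat_lit 160)) (nd (nat_lit 184) (nat_lit 0) (cs (lf (nat_lit 5) (nat_lit 183)) (nd (nat_lit 205) (nat_lit 0) (cs (lf (nat_lit 11) (nat_lit 182)) (nd (nat_lit 140) (nat_lit 0) (cs (lf (nat_lit 24) (nat_lit 118)) (rf (nat_lit 11))))))))))))) (nd (nat_lit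 184) (nat_lit 0) (cs (rf (nat_lit 12)) (cs (rf (nat_lit 13)) (nd (nat_lit 230) (nat_lit 0) (cs (lf (nat_lit 42) (nat_lit 163)) (nd (nat_lit 187) (nat_lit 0) (cs (lf (nat_lit 18) (nat_lit 162)) (rf (nat_lit 14)))))))))))) (nd (nat_lit 229) (nat_lit 0) (cs (lf (nat_lit 47) (nat_lit 140)) (nd (nat_lit 142) (nat_lit 0) (cs (lf (nat_lit 34) (nat_lit 141)) (nd (nat_lit 230) (nat_lit 0) (cs (lf (nat_lit 29) (nat_lit 163)) (rf (nat_lit 15))))))))))))))))) q7298 (by decide +kernel)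
def q7397 : Q := Q.p (nat_lit 0x2000000000018000000000000000000000000000000000000000000000000000) (nat_lit 0x40000380000f80001e0003ee000270003fe000ff8001fe0007e0000a800000000000000000000000) (nat_lit 14)
theorem c7397 : QOK q7397 := cut [q516, q2904, q3124, q4436, q579, q4890, q3960, q6817, q6804, q3851, q5648, q337, q3500, q7054, q1916, q2145, q2709, q7388, q4561, q7043] ⟨c516, c2904, c3124, c4436, c579, c4890, c3960, c6817, c6804, c3851, c5648, c337, c3500, c7054, c1916, c2145, c2709, c7388, c4561, c7043, trivial⟩ (nd (nat_lit 186) (nat_lit 0) (cs (rf (nat_lit 0)) (cs (rf (nat_lit 1)) (cs (rf (nat_lit 2)) (cs (rf (nat_lit 3)) (nd (nat_lit 187) (nat_lit 0) (cs (rf (nat_lit 4)) (cs (rf (nat_lit 5)) (cs (nd (nat_lit 206) (nat_lit 0) (cs (rf (nat_lit 6)) (cs (rf (nat_lit 7)) (nd (nat_lit 184) (nat_lit 0) (cs (rf (nat_lit 8)) (cs (nd (nat_lit 162) (nat_lit 0) (cs (rf (nat_lit 9)) (cs (rf (nat_lit 10))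 (nd (nat_lit 161) (nat_lit 0) (cs (lf (nat_lit 20) (nat_lit 161)) (nd (nat_lit 164) (nat_lit 0) (cs (lf (nat_lit 2) (nat_lit 161)) (nd (nat_lit 142) (nat_lit 0) (cs (lf (nat_lit 41) (nat_lit 141)) (nd (nat_lit 209) (nat_lit 0) (cs (lf (nat_lit 43) (nat_lit 164)) (lf (nat_lit 24) (nat_lit 120))))))))))))) (nd (nat_lit 185) (nat_lit 0) (cs (rf (nat_lit 11)) (cs (rf (nat_lit 12)) (nd (nat_lit 182) (nat_lit 0) (cs (lf (nat_lit 1) (nat_lit 182)) (nd (nat_lit 162) (nat_lit 0) (cs (lf (nat_lit 23) (nat_lit 161)) (nd (nat_lit 165) (nat_lit 0) (cs (lf (nat_lit 17) (nat_lit 162)) (nd (nat_lit 121) (nat_lit 0) (cs (lf (nat_lit 37) (nat_lit 120)) (nd (nat_lit 140) (nat_lit 0) (cs (lf (nat_lit 24) (nat_lit 118)) (nd (nat_lit 141) (nat_lit 0) (cs (lf (nat_lit 35) (nat_lit 118)) (nd (nat_lit 139) (nat_lit 0) (cs (lf (nat_lit 47) (nat_lit 117)) (nd (nat_lit 142) (nat_lit 0) (cs (lf (nat_lit 16) (nat_lit 117)) (lf (nat_lit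 4) (nat_lit 139))))))))))))))))))))))))))) (nd (nat_lit 185) (nat_lit 0) (cs (rf (nat_lit 13)) (cs (nd (nat_lit 164) (nat_lit 0) (cs (rf (nat_lit 14)) (cs (nd (nat_lit 229) (nat_lit 0) (cs (lf (nat_lit 30) (nat_lit 163)) (nd (nat_lit 209) (nat_lit 0) (cs (lf (nat_lit 43) (nat_lit 164)) (nd (nat_lit 184) (nat_lit 0) (cs (lf (nat_lit 0) (nat_lit 183)) (nd (nat_lit 165) (nat_lit 0) (cs (lf (nat_lit 17) (nat_lit 162)) (nd (nat_lit 121) (nat_lit 0) (cs (lf (nat_lit 37) (nat_lit 120)) (nd (nat_lit 162) (nat_lit 0) (cs (lf (nat_lit 23) (nat_lit 161)) (rf (nat_lit 15)))))))))))))) (nd (nat_lit 209) (nat_lit 0) (cs (lf (nat_lit 43) (nat_lit 164)) (nd (nat_lit 184) (nat_lit 0) (cs (lf (nat_lit 0) (nat_lit 183)) (nd (nat_lit 120) (nat_lit 0) (cs (lf (nat_lit 37) (nat_lit 119)) (nd (nat_lit 165) (nat_lit 0) (cs (lf (nat_lit 17) (nat_lit 162)) (nd (nat_lit 143) (nat_lit 0) (cs (lf (nat_lit 36) (nat_lit 120)) (nd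 (nat_lit 162) (nat_lit 0) (cs (lf (nat_lit 23) (nat_lit 161)) (rf (nat_lit 16))))))))))))))))) (cs (rf (nat_lit 17)) (cs (nd (nat_lit 188) (nat_lit 0) (cs (lf (nat_lit 6) (nat_lit 185)) (nd (nat_lit 166) (nat_lit 0) (cs (lf (nat_lit 17) (nat_lit 163)) (nd (nat_lit 163) (nat_lit 0) (cs (lf (nat_lit 23) (nat_lit 162)) (nd (nat_lit 209) (nat_lit 0) (cs (lf (nat_lit 31) (nat_lit 165)) (nd (nat_lit 122) (nat_lit 0) (cs (lf (nat_lit 37) (nat_lit 121)) (rf (nat_lit 18)))))))))))) (nd (nat_lit 188) (nat_lit 0) (cs (lf (nat_lit 6) (nat_lit 185)) (rf (nat_lit 19)))))))))))))))))) q7397 (by decide +kernel)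
def q7465 : Q := Q.p (nat_lit 0x2000008000030000000000000000000000000000000000000000000000000000) (nat_lit 0x8000000000f7c001ce000f3c000400001000000000000000000000000000000000000) (nat_lit 8)
theorem c7465 : QOK q7465 := cut [q2965, q7463, q7464] ⟨c2965, c7463, c7464, trivial⟩ (nd (nat_lit 210) (nat_lit 0) (cs (rf (nat_lit 0)) (cs (rf (nat_lit 1)) (rf (nat_lit 2))))) q7465 (by decide +kernel)
def q7555 : Q := Q.p (nat_lit 0x2000000000070000000000000000000000000000000000000000000000000000) (nat_lit 0x3f80000c000ff8000fc000380000e000028000000000000000000000000) (nat_lit 10)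
theorem c7555 : QOK q7555 := cut [q7537, q7538, q7539, q4638, q4656, q4659, q7548, q7554] ⟨c7537, c7538, c7539, c4638, c4656, c4659, c7548, c7554, trivial⟩ (nd (nat_lit 188) (nat_lit 0) (cs (rf (nat_lit 0)) (cs (nd (nat_lit 166) (nat_lit 0) (cs (rf (nat_lit 1)) (cs (rf (nat_lit 2)) (cs (nd (nat_lit 144) (nat_lit 0) (cs (rf (nat_lit 3)) (cs (rf (nat_lit 4)) (cs (rf (nat_lit 5)) (nd (nat_lit 123) (nat_lit 0) (cs (lf (nat_lit 34) (nat_lit 122)) (nd (nat_lit 143) (nat_lit 0) (cs (lf (nat_lit 47) (nat_lit 121)) (nd (nat_lit 165) (nat_lit 0) (cs (lf (nat_lit 42) (nat_lit 143)) (nd (nat_lit 230) (nat_lit 0) (cs (nd (nat_lit 164) (nat_lit 0) (cs (lf (nat_lit 32) (nat_lit 142)) (nd (nat_lit 163) (nat_lit 0) (cs (lf (nat_lit 5) (nat_lit 163)) (lf (nat_lit 12) (nat_lit 140)))))) (lf (nat_lit 38) (nat_lit 142)))))))))))))) (rf (nat_lit 6)))))) (rf (nat_lit 7))))) q7555 (by decide +kernel)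
def q7668 : Q := Q.p (nat_lit 0x2000000000030000000000000000000000000000000000000000000000000000) (nat_lit 0x140000700001f00001c0007fe000cf0000fe000780001a00006000000000000000000000000000000) (nat_lit 11)
theorem c7668 : QOK q7668 := cut [q2331, q2949, q6705, q119, q1136, q2935, q2938, q4607, q1830, q2276, q7571, q2868, q1125, q7582] ⟨c2331, c2949, c6705, c119, c1136, c2935, c2938, c4607, c1830, c2276, c7571, c2868, c1125, c7582, trivial⟩ (nd (nat_lit 231) (nat_lit 0) (cs (rf (nat_lit 0)) (cs (rf (nat_lit 1)) (cs (rf (nat_lit 2)) (nd (nat_lit 207) (nat_lit 0) (cs (rf (nat_lit 3)) (cs (rf (nat_lit 4)) (cs (rf (nat_lit 5)) (cs (rf (nat_lit 6)) (nd (nat_lit 229) (nat_lit 0) (cs (rf (nat_lit 7)) (cs (nd (nat_lit 210) (nat_lit 0) (cs (lf (nat_lit 11) (nat_lit 206)) (nd (nat_lit 232) (nat_lit 0) (cs (lf (nat_lit 5) (nat_lit 207)) (nd (nat_lit 185) (nat_lit 0) (cs (lf (nat_lit 23) (nat_lit 184)) (nd (nat_lit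 186) (nat_lit 0) (cs (lf (nat_lit 18) (nat_lit 185)) (nd (nat_lit 164) (nat_lit 0) (cs (lf (nat_lit 45) (nat_lit 164)) (lf (nat_lit 30) (nat_lit 163)))))))))))) (cs (nd (nat_lit 186) (nat_lit 0) (cs (rf (nat_lit 8)) (cs (rf (nat_lit 9)) (cs (rf (nat_lit 10)) (nd (nat_lit 164) (nat_lit 0) (cs (lf (nat_lit 45) (nat_lit 164)) (rf (nat_lit 11)))))))) (nd (nat_lit 230) (nat_lit 0) (cs (rf (nat_lit 12)) (rf (nat_lit 13))))))))))))))))) q7668 (by decide +kernel)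
def q7737 : Q := Q.p (nat_lit 0x38000000000000000000000000000000000000000000000000000) (nat_lit 0x800003e000c70000fe000100000400000000000000000000000000000000000) (nat_lit 9)
theorem c7737 : QOK q7737 := cut [q117, q1508, q1511, q1522, q1986, q4318] ⟨c117, c1508, c1511, c1522, c1986, c4318, trivial⟩ (nd (nat_lit 206) (nat_lit 0) (cs (rf (nat_lit 0)) (cs (rf (nat_lit 1)) (cs (rf (nat_lit 2)) (cs (rf (nat_lit 3)) (cs (rf (nat_lit 4)) (rf (nat_lit 5)))))))) q7737 (by decide +kernel)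
def q7792 : Q := Q.p (nat_lit 0x2000000000030000000000000000000000000000000000000000000000000000) (nat_lit 0x3ff8007cc001ff8001f00003f8000fe0002a000000000000000000000000) (nat_lit 15)
theorem c7792 : QOK q7792 := cut [q7437, q7440, q7452, q7537, q7554, q7538, q7539, q7548, q4639, q7758, q7766, q7768, q7785, q102, q7416, q7443] ⟨c7437, c7440, c7452, c7537, c7554, c7538, c7539, c7548, c4639, c7758, c7766, c7768, c7785, c102, c7416, c7443, trivial⟩ (nd (nat_lit 210) (nat_lit 0) (cs (rf (nat_lit 0)) (cs (rf (nat_lit 1)) (cs (rf (nat_lit 2)) (cs (nd (nat_lit 188) (nat_lit 0) (cs (rf (nat_lit 3)) (cs (rf (nat_lit 4)) (nd (nat_lit 166) (nat_lit 0) (cs (rf (nat_lit 5)) (cs (rf (nat_lit 6)) (cs (rf (nat_lit 7)) (nd (nat_lit 143) (nat_lit 0) (cs (rf (nat_lit 8)) (cs (nd (nat_lit 165) (nat_lit 0) (cs (lf (nat_lit 42) (nat_lit 143)) (nd (nat_lit 187) (nat_lit 0) (cs (lf (nat_lit 41) (nat_lit 142)) (nd (nat_lit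 122) (nat_lit 0) (cs (lf (nat_lit 37) (nat_lit 121)) (nd (nat_lit 189) (nat_lit 0) (cs (lf (nat_lit 6) (nat_lit 186)) (nd (nat_lit 142) (nat_lit 0) (cs (lf (nat_lit 47) (nat_lit 120)) (rf (nat_lit 9)))))))))))) (cs (rf (nat_lit 10)) (nd (nat_lit 165) (nat_lit 0) (cs (lf (nat_lit 42) (nat_lit 143)) (rf (nat_lit 11))))))))))))))) (cs (rf (nat_lit 12)) (nd (nat_lit 211) (nat_lit 0) (cs (rf (nat_lit 13)) (cs (rf (nat_lit 14)) (cs (rf (nat_lit 15)) (nd (nat_lit 189) (nat_lit 0) (cs (lf (nat_lit 17) (nat_lit 186)) (nd (nat_lit 188) (nat_lit 0) (cs (lf (nat_lit 12) (nat_lit 185)) (nd (nat_lit 186) (nat_lit 0) (cs (lf (nat_lit 23) (nat_lit 185)) (nd (nat_lit 187) (nat_lit 0) (cs (lf (nat_lit 18) (nat_lit 186)) (nd (nat_lit 231) (nat_lit 0) (cs (lf (nat_lit 35) (nat_lit 165)) (lf (nat_lit 47) (nat_lit 164)))))))))))))))))))))) q7792 (by decide +kernel)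
def q7833 : Q := Q.p (nat_lit 0x2000000000010000000000000000000000000000000000000000000000000000) (nat_lit 0x80000280005f00011c000ff800fee003ff0007fe0007f8000f80003a000000000000000000000000) (nat_lit 15)
theorem c7833 : QOK q7833 := cut [q443, q516, q3055, q4932, q6170, q35, q4623, q5683, q7800, q7803, q87, q94, q7808, q7811, q7812, q204, q109, q5698, q416, q424, q429, q430, q280, q360, q284, q7825, q7827, q367, q371, q414, q423, q7832] ⟨c443, c516, c3055, c4932, c6170, c35, c4623, c5683, c7800, c7803, c87, c94, c7808, c7811, c7812, c204, c109, c5698, c416, c424, c429, c430, c280, c360, c284, c7825, c7827, c367, c371, c414, c423, c7832, trivial⟩ (nd (nat_lit 186) (nat_lit 0) (cs (rf (nat_lit 0)) (cs (rf (nat_lit 1)) (cs (rf (nat_lit 2)) (cs (rf (nat_lit 3)) (cs (rf (nat_lit 4)) (cs (nd (nat_lit 209) (nat_lit 0) (cs (rf (nat_lit 5)) (cs (nd (nat_lit 210) (nat_lit 0) (cs (rf (nat_lit 6)) (cs (rf (nat_lit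 7)) (cs (rf (nat_lit 8)) (nd (nat_lit 231) (nat_lit 0) (cs (lf (nat_lit 42) (nat_lit 186)) (nd (nat_lit 142) (nat_lit 0) (cs (lf (nat_lit 25) (nat_lit 142)) (rf (nat_lit 9)))))))))) (cs (nd (nat_lit 210) (nat_lit 0) (cs (rf (nat_lit 7)) (cs (nd (nat_lit 207) (nat_lit 0) (cs (rf (nat_lit 10)) (cs (rf (nat_lit 11)) (rf (nat_lit 12))))) (cs (rf (nat_lit 13)) (rf (nat_lit 14)))))) (nd (nat_lit 210) (nat_lit 0) (cs (rf (nat_lit 15)) (cs (rf (nat_lit 6)) (cs (rf (nat_lit 14)) (nd (nat_lit 207) (nat_lit 0) (cs (rf (nat_lit 10)) (cs (rf (nat_lit 16)) (rf (nat_lit 17))))))))))))) (cs (nd (nat_lit 252) (nat_lit 0) (cs (rf (nat_lit 18)) (cs (rf (nat_lit 19)) (cs (rf (nat_lit 20)) (cs (rf (nat_lit 21)) (cs (nd (nat_lit 209) (nat_lit 0) (cs (rf (nat_lit 22)) (cs (rf (nat_lit 23)) (cs (nd (nat_lit 210) (nat_lit 0) (cs (rf (nat_lit 6)) (cs (rf (nat_lit 7)) (cs (nd (nat_lit 207) (nat_lit 0) (cs (rf (nat_lit 16)) (rf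 (nat_lit 24)))) (nd (nat_lit 231) (nat_lit 0) (cs (lf (nat_lit 42) (nat_lit 186)) (rf (nat_lit 9)))))))) (cs (nd (nat_lit 210) (nat_lit 0) (cs (rf (nat_lit 7)) (cs (rf (nat_lit 13)) (cs (rf (nat_lit 14)) (nd (nat_lit 207) (nat_lit 0) (cs (rf (nat_lit 10)) (cs (rf (nat_lit 24)) (rf (nat_lit 12))))))))) (cs (rf (nat_lit 25)) (nd (nat_lit 210) (nat_lit 0) (cs (rf (nat_lit 15)) (cs (rf (nat_lit 14)) (rf (nat_lit 26))))))))))) (nd (nat_lit 230) (nat_lit 0) (cs (rf (nat_lit 27)) (cs (rf (nat_lit 28)) (cs (rf (nat_lit 29)) (rf (nat_lit 30)))))))))))) (rf (nat_lit 31)))))))))) q7833 (by decide +kernel)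
def q7893 : Q := Q.p (nat_lit 0x2000000000010000000000000000000000000000000000000000000000000000) (nat_lit 0x80000280001fc0001e000ffc00fef001fee007fe0007f8000f80003a000000000000000000000000) (nat_lit 15)
theorem c7893 : QOK q7893 := cut [q443, q516, q3055, q4932, q6170, q35, q4623, q5683, q109, q4448, q4377, q6045, q7811, q87, q7841, q559, q2869, q7847, q1828, q7858, q7860, q416, q424, q430, q353, q360, q7825, q7864, q7867, q7874, q4446, q224, q367, q371, q423, q7889] ⟨c443, c516, c3055, c4932, c6170, c35, c4623, c5683, c109, c4448, c4377, c6045, c7811, c87, c7841, c559, c2869, c7847, c1828, c7858, c7860, c416, c424, c430, c353, c360, c7825, c7864, c7867, c7874, c4446, c224, c367, c371, c423, c7889, trivial⟩ (nd (nat_lit 186) (nat_lit 0) (cs (rf (nat_lit 0)) (cs (rf (nat_lit 1)) (cs (rf (nat_lit 2)) (cs (rf (nat_lit 3)) (cs (rf (nat_lit 4)) (cs (nd (nat_lit 209) (nat_lit 0) (cs (rf (nat_lit 5)) (cs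 (nd (nat_lit 210) (nat_lit 0) (cs (rf (nat_lit 6)) (cs (rf (nat_lit 7)) (cs (nd (nat_lit 207) (nat_lit 0) (cs (rf (nat_lit 8)) (rf (nat_lit 9)))) (nd (nat_lit 231) (nat_lit 0) (cs (lf (nat_lit 42) (nat_lit 186)) (nd (nat_lit 142) (nat_lit 0) (cs (lf (nat_lit 25) (nat_lit 142)) (nd (nat_lit 211) (nat_lit 0) (cs (lf (nat_lit 23) (nat_lit 185)) (rf (nat_lit 10)))))))))))) (cs (nd (nat_lit 210) (nat_lit 0) (cs (rf (nat_lit 7)) (cs (rf (nat_lit 11)) (cs (rf (nat_lit 12)) (cs (nd (nat_lit 207) (nat_lit 0) (cs (rf (nat_lit 13)) (cs (rf (nat_lit 9)) (cs (rf (nat_lit 14)) (cs (nd (nat_lit 164) (nat_lit 0) (cs (rf (nat_lit 15)) (cs (rf (nat_lit 16)) (rf (nat_lit 17))))) (nd (nat_lit 232) (nat_lit 0) (cs (lf (nat_lit 5) (nat_lit 207)) (nd (nat_lit 229) (nat_lit 0) (cs (lf (nat_lit 11) (nat_lit 206)) (nd (nat_lit 188) (nat_lit 0) (cs (lf (nat_lit 17) (nat_lit 185)) (rf (nat_lit 18))))))))))))) (rf (nat_lit 19)))))))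 (rf (nat_lit 20)))))) (nd (nat_lit 252) (nat_lit 0) (cs (rf (nat_lit 21)) (cs (rf (nat_lit 22)) (cs (rf (nat_lit 23)) (cs (nd (nat_lit 209) (nat_lit 0) (cs (rf (nat_lit 24)) (cs (rf (nat_lit 25)) (cs (rf (nat_lit 26)) (cs (nd (nat_lit 210) (nat_lit 0) (cs (rf (nat_lit 7)) (cs (rf (nat_lit 11)) (cs (rf (nat_lit 12)) (cs (rf (nat_lit 19)) (nd (nat_lit 207) (nat_lit 0) (cs (rf (nat_lit 13)) (cs (rf (nat_lit 17)) (cs (rf (nat_lit 27)) (rf (nat_lit 28))))))))))) (cs (nd (nat_lit 210) (nat_lit 0) (cs (rf (nat_lit 7)) (cs (rf (nat_lit 11)) (cs (rf (nat_lit 12)) (cs (rf (nat_lit 19)) (nd (nat_lit 207) (nat_lit 0) (cs (rf (nat_lit 13)) (cs (rf (nat_lit 17)) (nd (nat_lit 229) (nat_lit 0) (cs (lf (nat_lit 11) (nat_lit 206)) (rf (nat_lit 29)))))))))))) (nd (nat_lit 210) (nat_lit 0) (cs (rf (nat_lit 6)) (cs (rf (nat_lit 7)) (cs (nd (nat_lit 207) (nat_lit 0) (cs (rf (nat_lit 8)) (cs (rf (nat_lit 27)) (nd (nat_lit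 229) (nat_lit 0) (cs (rf (nat_lit 30)) (rf (nat_lit 29))))))) (nd (nat_lit 231) (nat_lit 0) (cs (lf (nat_lit 42) (nat_lit 186)) (nd (nat_lit 211) (nat_lit 0) (cs (lf (nat_lit 23) (nat_lit 185)) (rf (nat_lit 31)))))))))))))))) (cs (nd (nat_lit 230) (nat_lit 0) (cs (rf (nat_lit 32)) (cs (rf (nat_lit 33)) (cs (rf (nat_lit 34)) (rf (nat_lit 35)))))) (nd (nat_lit 230) (nat_lit 0) (cs (lf (nat_lit 29) (nat_lit 186)) (rf (nat_lit 35))))))))))))))))) q7893 (by decide +kernel)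
def q8093 : Q := Q.p (nat_lit 0x2000000000010000140000000000000000000000000000000000000000000000) (nat_lit 0x2e00009c0007e0003ec000680003e00003e0000f000000000000000000000000000000) (nat_lit 12)
theorem c8093 : QOK q8093 := cut [q7990, q4408, q2922, q8031, q8034, q8040, q8047, q8054, q8055, q8062, q8066, q8067, q8065, q8077, q8088, q8092] ⟨c7990, c4408, c2922, c8031, c8034, c8040, c8047, c8054, c8055, c8062, c8066, c8067, c8065, c8077, c8088, c8092, trivial⟩ (nd (nat_lit 187) (nat_lit 0) (cs (rf (nat_lit 0)) (cs (nd (nat_lit 209) (nat_lit 0) (cs (rf (nat_lit 1)) (cs (nd (nat_lit 210) (nat_lit 0) (cs (rf (nat_lit 2)) (cs (nd (nat_lit 166) (nat_lit 0) (cs (rf (nat_lit 3)) (cs (nd (nat_lit 206) (nat_lit 0) (cs (lf (nat_lit 13) (nat_lit 184)) (nd (nat_lit 144) (nat_lit 0) (cs (lf (nat_lit 36) (nat_lit 121)) (rf (nat_lit 4)))))) (cs (nd (nat_lit 207) (nat_lit 0) (cs (lf (nat_lit 12) (nat_lit 184)) (rf (nat_lit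 5)))) (cs (nd (nat_lit 206) (nat_lit 0) (cs (lf (nat_lit 13) (nat_lit 184)) (rf (nat_lit 6)))) (cs (rf (nat_lit 7)) (nd (nat_lit 206) (nat_lit 0) (cs (lf (nat_lit 13) (nat_lit 184)) (rf (nat_lit 8)))))))))) (nd (nat_lit 206) (nat_lit 0) (cs (lf (nat_lit 13) (nat_lit 184)) (rf (nat_lit 9))))))) (cs (rf (nat_lit 10)) (nd (nat_lit 206) (nat_lit 0) (cs (lf (nat_lit 13) (nat_lit 184)) (rf (nat_lit 11)))))))) (cs (nd (nat_lit 209) (nat_lit 0) (cs (rf (nat_lit 1)) (cs (rf (nat_lit 12)) (cs (rf (nat_lit 11)) (rf (nat_lit 13)))))) (cs (nd (nat_lit 189) (nat_lit 0) (cs (lf (nat_lit 11) (nat_lit 185)) (nd (nat_lit 211) (nat_lit 0) (cs (lf (nat_lit 5) (nat_lit 186)) (rf (nat_lit 14)))))) (rf (nat_lit 15))))))) q8093 (by decide +kernel)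
def q8129 : Q := Q.p (nat_lit 0x2000000000010000140000000000000000000000000000000000000000000000) (nat_lit 0x40000180000e00001c0007e0001ec0000b8003ee0003a0000e800000000000000000000000000000) (nat_lit 12)
theorem c8129 : QOK q8129 := cut [q4412, q1170, q2175, q436, q438, q922, q8097, q7991, q2226, q2969, q7994, q39, q4621, q2648, q8066, q11, q1800, q2978, q75, q37, q74, q1801, q7826, q2992, q4748] ⟨c4412, c1170, c2175, c436, c438, c922, c8097, c7991, c2226, c2969, c7994, c39, c4621, c2648, c8066, c11, c1800, c2978, c75, c37, c74, c1801, c7826, c2992, c4748, trivial⟩ (nd (nat_lit 209) (nat_lit 0) (cs (rf (nat_lit 0)) (cs (nd (nat_lit 185) (nat_lit 0) (cs (rf (nat_lit 1)) (cs (rf (nat_lit 2)) (cs (nd (nat_lit 230) (nat_lit 0) (cs (rf (nat_lit 3)) (cs (rf (nat_lit 4)) (nd (nat_lit 187) (nat_lit 0) (cs (nd (nat_lit 210) (nat_lit 0) (cs (lf (nat_lit 18) (nat_lit 185)) (nd (nat_lit 206) (nat_lit 0) (cs (lf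 (nat_lit 13) (nat_lit 184)) (nd (nat_lit 166) (nat_lit 0) (cs (lf (nat_lit 17) (nat_lit 163)) (rf (nat_lit 5)))))))) (cs (rf (nat_lit 6)) (nd (nat_lit 163) (nat_lit 0) (cs (lf (nat_lit 23) (nat_lit 162)) (rf (nat_lit 7)))))))))) (nd (nat_lit 187) (nat_lit 0) (cs (rf (nat_lit 8)) (cs (rf (nat_lit 9)) (rf (nat_lit 10))))))))) (cs (nd (nat_lit 210) (nat_lit 0) (cs (rf (nat_lit 11)) (rf (nat_lit 12)))) (cs (nd (nat_lit 187) (nat_lit 0) (cs (rf (nat_lit 13)) (cs (rf (nat_lit 14)) (nd (nat_lit 185) (nat_lit 0) (cs (rf (nat_lit 15)) (cs (rf (nat_lit 9)) (nd (nat_lit 207) (nat_lit 0) (cs (lf (nat_lit 12) (nat_lit 184)) (nd (nat_lit 210) (nat_lit 0) (cs (lf (nat_lit 5) (nat_lit 185)) (rf (nat_lit 16)))))))))))) (cs (nd (nat_lit 231) (nat_lit 0) (cs (lf (nat_lit 42) (nat_lit 186)) (nd (nat_lit 187) (nat_lit 0) (cs (lf (nat_lit 35) (nat_lit 165)) (nd (nat_lit 206) (nat_lit 0) (cs (rf (nat_lit 17)) (lf (nat_lit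 13) (nat_lit 184)))))))) (cs (nd (nat_lit 210) (nat_lit 0) (cs (rf (nat_lit 11)) (cs (rf (nat_lit 18)) (cs (nd (nat_lit 275) (nat_lit 0) (cs (lf (nat_lit 32) (nat_lit 187)) (nd (nat_lit 230) (nat_lit 0) (cs (lf (nat_lit 27) (nat_lit 186)) (nd (nat_lit 211) (nat_lit 0) (cs (lf (nat_lit 11) (nat_lit 207)) (nd (nat_lit 233) (nat_lit 0) (cs (lf (nat_lit 5) (nat_lit 208)) (nd (nat_lit 207) (nat_lit 0) (cs (lf (nat_lit 4) (nat_lit 207)) (nd (nat_lit 187) (nat_lit 0) (cs (lf (nat_lit 18) (nat_lit 186)) (lf (nat_lit 12) (nat_lit 184)))))))))))))) (nd (nat_lit 185) (nat_lit 0) (cs (rf (nat_lit 19)) (cs (rf (nat_lit 20)) (nd (nat_lit 207) (nat_lit 0) (cs (rf (nat_lit 21)) (cs (rf (nat_lit 22)) (nd (nat_lit 252) (nat_lit 0) (cs (rf (nat_lit 23)) (cs (rf (nat_lit 24)) (nd (nat_lit 231) (nat_lit 0) (cs (lf (nat_lit 30) (nat_lit 187)) (nd (nat_lit 274) (nat_lit 0) (cs (lf (nat_lit 36) (nat_lit 186)) (nd (nat_lit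 296) (nat_lit 0) (cs (lf (nat_lit 30) (nat_lit 230)) (nd (nat_lit 232) (nat_lit 0) (cs (lf (nat_lit 5) (nat_lit 207)) (nd (nat_lit 251) (nat_lit 0) (cs (lf (nat_lit 12) (nat_lit 228)) (lf (nat_lit 26) (nat_lit 185))))))))))))))))))))))))) (nd (nat_lit 231) (nat_lit 0) (cs (lf (nat_lit 42) (nat_lit 186)) (nd (nat_lit 166) (nat_lit 0) (cs (lf (nat_lit 33) (nat_lit 165)) (nd (nat_lit 210) (nat_lit 0) (cs (rf (nat_lit 11)) (lf (nat_lit 36) (nat_lit 143))))))))))))))) q8129 (by decide +kernel)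
def q8437 : Q := Q.p (nat_lit 0x300000c0000000000000000000000000000000000000000000000) (nat_lit 0x80000200000e000738000ff0007fc000fe0000d000000000000000000000000) (nat_lit 12)
theorem c8437 : QOK q8437 := cut [q2733, q8397, q419, q4557, q4565, q6993, q7017, q7027, q3521, q8418, q2134, q8433] ⟨c2733, c8397, c419, c4557, c4565, c6993, c7017, c7027, c3521, c8418, c2134, c8433, trivial⟩ (nd (nat_lit 185) (nat_lit 0) (cs (rf (nat_lit 0)) (cs (rf (nat_lit 1)) (cs (nd (nat_lit 207) (nat_lit 0) (cs (rf (nat_lit 2)) (cs (rf (nat_lit 3)) (rf (nat_lit 4))))) (cs (nd (nat_lit 207) (nat_lit 0) (cs (rf (nat_lit 3)) (cs (rf (nat_lit 5)) (cs (rf (nat_lit 6)) (cs (rf (nat_lit 7)) (cs (nd (nat_lit 205) (nat_lit 0) (cs (lf (nat_lit 13) (nat_lit 183)) (nd (nat_lit 184) (nat_lit 0) (cs (lf (nat_lit 0) (nat_lit 183)) (nd (nat_lit 162) (nat_lit 0) (cs (lf (nat_lit 23) (nat_lit 161)) (rf (nat_lit 8)))))))) (nd (nat_lit 184)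 (nat_lit 0) (cs (lf (nat_lit 0) (nat_lit 183)) (nd (nat_lit 205) (nat_lit 0) (cs (lf (nat_lit 13) (nat_lit 183)) (nd (nat_lit 161) (nat_lit 0) (cs (lf (nat_lit 22) (nat_lit 161)) (nd (nat_lit 165) (nat_lit 0) (cs (lf (nat_lit 17) (nat_lit 162)) (rf (nat_lit 9)))))))))))))))) (cs (nd (nat_lit 184) (nat_lit 0) (cs (lf (nat_lit 0) (nat_lit 183)) (nd (nat_lit 162) (nat_lit 0) (cs (lf (nat_lit 23) (nat_lit 161)) (nd (nat_lit 205) (nat_lit 0) (cs (rf (nat_lit 10)) (lf (nat_lit 10) (nat_lit 183)))))))) (nd (nat_lit 184) (nat_lit 0) (cs (lf (nat_lit 0) (nat_lit 183)) (nd (nat_lit 166) (nat_lit 0) (cs (lf (nat_lit 16) (nat_lit 162)) (nd (nat_lit 205) (nat_lit 0) (cs (lf (nat_lit 10) (nat_lit 183)) (rf (nat_lit 11)))))))))))))) q8437 (by decide +kernel)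
def q8547 : Q := Q.p (nat_lit 0x300000c0000000000000000000000000000000000000000000000) (nat_lit 0x140001c0000738001ec000380000e000000000000000000000000000000) (nat_lit 10)
theorem c8547 : QOK q8547 := cut [q11, q2226, q7508, q8097, q8545] ⟨c11, c2226, c7508, c8097, c8545, trivial⟩ (nd (nat_lit 185) (nat_lit 0) (cs (rf (nat_lit 0)) (cs (rf (nat_lit 1)) (nd (nat_lit 188) (nat_lit 0) (cs (rf (nat_lit 2)) (cs (rf (nat_lit 3)) (rf (nat_lit 4)))))))) q8547 (by decide +kernel)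
def q8777 : Q := Q.p (nat_lit 0x2000000000010000070000000000000000000000000000000000000000000000) (nat_lit 0xc000010000040001ee000780001f80000e00003800000000000000000000000000000) (nat_lit 14)
theorem c8777 : QOK q8777 := cut [q7195, q8765, q8766] ⟨c7195, c8765, c8766, trivial⟩ (nd (nat_lit 187) (nat_lit 0) (cs (rf (nat_lit 0)) (cs (rf (nat_lit 1)) (nd (nat_lit 209) (nat_lit 0) (cs (lf (nat_lit 5) (nat_lit 184)) (nd (nat_lit 206) (nat_lit 0) (cs (lf (nat_lit 11) (nat_lit 183)) (nd (nat_lit 188) (nat_lit 0) (cs (lf (nat_lit 13) (nat_lit 184)) (nd (nat_lit 189) (nat_lit 0) (cs (lf (nat_lit 6) (nat_lit 186)) (nd (nat_lit 211) (nat_lit 0) (cs (lf (nat_lit 5) (nat_lit 186)) (nd (nat_lit 167) (nat_lit 0) (cs (lf (nat_lit 17) (nat_lit 164)) (nd (nat_lit 164) (nat_lit 0) (cs (lf (nat_lit 23) (nat_lit 163)) (nd (nat_lit 142) (nat_lit 0) (cs (lf (nat_lit 24) (nat_lit 120)) (nd (nat_lit 119) (nat_lit 0) (cs (lf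 (nat_lit 46) (nat_lit 119)) (nd (nat_lit 143) (nat_lit 0) (cs (lf (nat_lit 35) (nat_lit 120)) (rf (nat_lit 2))))))))))))))))))))))))) q8777 (by decide +kernel)
def q8852 : Q := Q.p (nat_lit 0x2000000000030000040000000000000000000000000000000000000000000000) (nat_lit 0x4000010000fc0001cc000fb8001ec0003a0000e800000000000000000000000000000) (nat_lit 10)
theorem c8852 : QOK q8852 := cut [q39, q75, q7894, q7537, q7550, q8843, q7637, q1800, q8848] ⟨c39, c75, c7894, c7537, c7550, c8843, c7637, c1800, c8848, trivial⟩ (nd (nat_lit 210) (nat_lit 0) (cs (rf (nat_lit 0)) (cs (rf (nat_lit 1)) (cs (rf (nat_lit 2)) (nd (nat_lit 188) (nat_lit 0) (cs (rf (nat_lit 3)) (cs (rf (nat_lit 4)) (cs (rf (nat_lit 5)) (nd (nat_lit 187) (nat_lit 0) (cs (rf (nat_lit 6)) (cs (nd (nat_lit 207) (nat_lit 0) (cs (lf (nat_lit 12) (nat_lit 184)) (nd (nat_lit 185) (nat_lit 0) (cs (lf (nat_lit 23) (nat_lit 184)) (nd (nat_lit 232) (nat_lit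 0) (cs (lf (nat_lit 5) (nat_lit 207)) (nd (nat_lit 143) (nat_lit 0) (cs (lf (nat_lit 25) (nat_lit 143)) (rf (nat_lit 7)))))))))) (nd (nat_lit 166) (nat_lit 0) (cs (lf (nat_lit 31) (nat_lit 165)) (rf (nat_lit 8))))))))))))))) q8852 (by decide +kernel)
def q9087 : Q := Q.p (nat_lit 0x20000000000100000c0000000000000000000000000000000000000000000000) (nat_lit 0x2c000090000740003ee000710003ff000ff8007ff0002e0000b8000000000000000000) (nat_lit 16)
theorem c9087 : QOK q9087 := cut [q7990, q8950, q5709, q8955, q8958, q8959, q8963, q8967, q8970, q8986, q8993, q8984, q9006, q8182, q9009, q8979, q9013, q9015, q5780, q8178, q9017, q9027, q9031, q9041, q9047, q7989, q8028, q9049, q9055, q9083, q9084, q9085, q9086] ⟨c7990, c8950, c5709, c8955, c8958, c8959, c8963, c8967, c8970, c8986, c8993, c8984, c9006, c8182, c9009, c8979, c9013, c9015, c5780, c8178, c9017, c9027, c9031, c9041, c9047, c7989, c8028, c9049, c9055,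 c9083, c9084, c9085, c9086, trivial⟩ (nd (nat_lit 143) (nat_lit 0) (cs (nd (nat_lit 188) (nat_lit 0) (cs (rf (nat_lit 0)) (cs (nd (nat_lit 142) (nat_lit 0) (cs (rf (nat_lit 1)) (cs (nd (nat_lit 141) (nat_lit 0) (cs (rf (nat_lit 2)) (cs (rf (nat_lit 3)) (cs (rf (nat_lit 4)) (rf (nat_lit 5)))))) (cs (nd (nat_lit 144) (nat_lit 0) (cs (rf (nat_lit 6)) (cs (nd (nat_lit 145) (nat_lit 0) (cs (rf (nat_lit 7)) (rf (nat_lit 8)))) (cs (rf (nat_lit 9)) (nd (nat_lit 164) (nat_lit 0) (cs (lf (nat_lit 35) (nat_lit 120)) (nd (nat_lit 120) (nat_lit 0) (cs (lf (nat_lit 29) (nat_lit 120)) (nd (nat_lit 145) (nat_lit 0) (cs (lf (nat_lit 11) (nat_lit 141)) (lf (nat_lit 23) (nat_lit 119)))))))))))) (cs (rf (nat_lit 10)) (cs (nd (nat_lit 144) (nat_lit 0) (cs (rf (nat_lit 9)) (cs (nd (nat_lit 145) (nat_lit 0) (cs (rf (nat_lit 7)) (cs (rf (nat_lit 11)) (rf (nat_lit 12))))) (cs (nd (nat_lit 141) (nat_lit 0) (cs (rf (nat_lit 13))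 (nd (nat_lit 166) (nat_lit 0) (cs (lf (nat_lit 5) (nat_lit 141)) (rf (nat_lit 14)))))) (cs (nd (nat_lit 145) (nat_lit 0) (cs (rf (nat_lit 15)) (cs (rf (nat_lit 16)) (rf (nat_lit 17))))) (cs (nd (nat_lit 141) (nat_lit 0) (cs (rf (nat_lit 18)) (cs (rf (nat_lit 19)) (cs (rf (nat_lit 13)) (nd (nat_lit 162) (nat_lit 0) (cs (lf (nat_lit 10) (nat_lit 140)) (rf (nat_lit 20)))))))) (rf (nat_lit 21)))))))) (nd (nat_lit 144) (nat_lit 0) (cs (rf (nat_lit 6)) (cs (rf (nat_lit 21)) (cs (nd (nat_lit 145) (nat_lit 0) (cs (rf (nat_lit 7)) (cs (rf (nat_lit 22)) (nd (nat_lit 123) (nat_lit 0) (cs (lf (nat_lit 17) (nat_lit 120)) (nd (nat_lit 141) (nat_lit 0) (cs (lf (nat_lit 16) (nat_lit 119)) (nd (nat_lit 163) (nat_lit 0) (cs (lf (nat_lit 11) (nat_lit 140)) (lf (nat_lit 10) (nat_lit 141))))))))))) (rf (nat_lit 23)))))))))))) (cs (rf (nat_lit 24)) (nd (nat_lit 189) (nat_lit 0) (cs (rf (nat_lit 25)) (cs (rf (nat_lit 26))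 (cs (nd (nat_lit 164) (nat_lit 0) (cs (lf (nat_lit 23) (nat_lit 163)) (nd (nat_lit 211) (nat_lit 0) (cs (lf (nat_lit 5) (nat_lit 186)) (nd (nat_lit 142) (nat_lit 0) (cs (lf (nat_lit 35) (nat_lit 120)) (nd (nat_lit 167) (nat_lit 0) (cs (lf (nat_lit 17) (nat_lit 164)) (rf (nat_lit 27)))))))))) (rf (nat_lit 28)))))))))) (cs (rf (nat_lit 29)) (cs (rf (nat_lit 30)) (cs (rf (nat_lit 31)) (rf (nat_lit 32))))))) q9087 (by decide +kernel)
def q9305 : Q := Q.p (nat_lit 0x100000c0000000000000000000000000000000000000000000000) (nat_lit 0x10000350003e780073c003ff8001a00006800000000000000000000000000000) (nat_lit 9)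
theorem c9305 : QOK q9305 := cut [q7194, q9274, q9200, q9277, q9282, q2162, q4772, q8751, q9292, q9295, q9296, q581, q2163, q9201] ⟨c7194, c9274, c9200, c9277, c9282, c2162, c4772, c8751, c9292, c9295, c9296, c581, c2163, c9201, trivial⟩ (nd (nat_lit 165) (nat_lit 0) (cs (rf (nat_lit 0)) (cs (nd (nat_lit 185) (nat_lit 0) (cs (rf (nat_lit 1)) (cs (nd (nat_lit 188) (nat_lit 0) (cs (rf (nat_lit 2)) (cs (nd (nat_lit 230) (nat_lit 0) (cs (lf (nat_lit 30) (nat_lit 164)) (rf (nat_lit 3)))) (cs (nd (nat_lit 162) (nat_lit 0) (cs (lf (nat_lit 22) (nat_lit 162)) (nd (nat_lit 230) (nat_lit 0) (cs (lf (nat_lit 30) (nat_lit 164)) (rf (nat_lit 4)))))) (nd (nat_lit 166) (nat_lit 0) (cs (lf (nat_lit 17) (nat_lit 163)) (nd (nat_lit 163) (nat_lit 0) (cs (lf (nat_lit 23) (nat_lit 162)) (nd (nat_lit 230) (nat_lit 0) (cs (lf (nat_lit 30) (nat_lit 164)) (nd (nat_lit 164) (nat_lit 0) (cs (lf (nat_lit 47) (nat_lit 141)) (lf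 (nat_lit 18) (nat_lit 163)))))))))))))) (cs (nd (nat_lit 184) (nat_lit 0) (cs (rf (nat_lit 5)) (cs (rf (nat_lit 6)) (rf (nat_lit 7))))) (nd (nat_lit 230) (nat_lit 0) (cs (lf (nat_lit 30) (nat_lit 164)) (rf (nat_lit 8)))))))) (cs (rf (nat_lit 9)) (nd (nat_lit 185) (nat_lit 0) (cs (rf (nat_lit 1)) (cs (nd (nat_lit 188) (nat_lit 0) (cs (rf (nat_lit 4)) (cs (nd (nat_lit 162) (nat_lit 0) (cs (lf (nat_lit 22) (nat_lit 162)) (nd (nat_lit 121) (nat_lit 0) (cs (lf (nat_lit 37) (nat_lit 120)) (nd (nat_lit 167) (nat_lit 0) (cs (lf (nat_lit 16) (nat_lit 163)) (rf (nat_lit 10)))))))) (nd (nat_lit 166) (nat_lit 0) (cs (lf (nat_lit 17) (nat_lit 163)) (nd (nat_lit 210) (nat_lit 0) (cs (lf (nat_lit 5) (nat_lit 185)) (rf (nat_lit 11))))))))) (nd (nat_lit 184) (nat_lit 0) (cs (rf (nat_lit 12)) (rf (nat_lit 13))))))))))) q9305 (by decide +kernel)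
def q9693 : Q := Q.p (nat_lit 0x2000000000030000000000000000000000000000000000000000000000000000) (nat_lit 0xa00001c0003fc001ce0001f8000780001e00000000000000000000000000000000000) (nat_lit 12)
theorem c9693 : QOK q9693 := cut [q1563, q1595, q9675, q1580, q1584, q9653, q9674, q9680, q9684, q288] ⟨c1563, c1595, c9675, c1580, c1584, c9653, c9674, c9680, c9684, c288, trivial⟩ (nd (nat_lit 231) (nat_lit 0) (cs (rf (nat_lit 0)) (cs (rf (nat_lit 1)) (cs (rf (nat_lit 2)) (nd (nat_lit 187) (nat_lit 0) (cs (rf (nat_lit 3)) (cs (rf (nat_lit 4)) (cs (rf (nat_lit 5)) (nd (nat_lit 210) (nat_lit 0) (cs (rf (nat_lit 6)) (cs (nd (nat_lit 188) (nat_lit 0) (cs (lf (nat_lit 35) (nat_lit 165)) (nd (nat_lit 186) (nat_lit 0) (cs (lf (nat_lit 47) (nat_lit 164)) (nd (nat_lit 207) (nat_lit 0) (cs (lf (nat_lit 12) (nat_lit 184)) (rf (nat_lit 7)))))))) (cs (nd (nat_lit 166) (nat_lit 0) (cs (lf (nat_lit 34) (nat_lit 165)) (rf (nat_lit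 8)))) (nd (nat_lit 166) (nat_lit 0) (cs (lf (nat_lit 34) (nat_lit 165)) (nd (nat_lit 186) (nat_lit 0) (cs (lf (nat_lit 47) (nat_lit 164)) (nd (nat_lit 211) (nat_lit 0) (cs (lf (nat_lit 18) (nat_lit 186)) (nd (nat_lit 229) (nat_lit 0) (cs (lf (nat_lit 10) (nat_lit 207)) (nd (nat_lit 207) (nat_lit 0) (cs (lf (nat_lit 11) (nat_lit 206)) (rf (nat_lit 9)))))))))))))))))))))))) q9693 (by decide +kernel)
def q9720 : Q := Q.p (nat_lit 0x2000000000030000040000000000000000000000000000000000000000000000) (nat_lit 0x4000010000fc0001c8000fb8003ec0003a0000e800000000000000000000000000000) (nat_lit 10)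
theorem c9720 : QOK q9720 := cut [q39, q75, q7894, q7537, q8843, q7553, q2648, q7637, q9716] ⟨c39, c75, c7894, c7537, c8843, c7553, c2648, c7637, c9716, trivial⟩ (nd (nat_lit 210) (nat_lit 0) (cs (rf (nat_lit 0)) (cs (rf (nat_lit 1)) (cs (rf (nat_lit 2)) (nd (nat_lit 188) (nat_lit 0) (cs (rf (nat_lit 3)) (cs (rf (nat_lit 4)) (cs (nd (nat_lit 207) (nat_lit 0) (cs (lf (nat_lit 17) (nat_lit 185)) (nd (nat_lit 184) (nat_lit 0) (cs (lf (nat_lit 22) (nat_lit 184)) (rf (nat_lit 5)))))) (nd (nat_lit 187) (nat_lit 0) (cs (rf (nat_lit 6)) (cs (rf (nat_lit 7)) (nd (nat_lit 185) (nat_lit 0) (cs (lf (nat_lit 0) (nat_lit 184)) (rf (nat_lit 8))))))))))))))) q9720 (by decide +kernel)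
def q9747 : Q := Q.p (nat_lit 0x2000000000030000040000000000000000000000000000000000000000000000) (nat_lit 0xe000098000370001c8000fb8001ee0003a0000e800000000000000000000000000000) (nat_lit 13)
theorem c9747 : QOK q9747 := cut [q1170, q2175, q2226, q2733, q7508, q9716, q9724, q7537, q5518, q8621, q9732, q2116, q8097, q8545] ⟨c1170, c2175, c2226, c2733, c7508, c9716, c9724, c7537, c5518, c8621, c9732, c2116, c8097, c8545, trivial⟩ (nd (nat_lit 185) (nat_lit 0) (cs (rf (nat_lit 0)) (cs (rf (nat_lit 1)) (cs (nd (nat_lit 187) (nat_lit 0) (cs (rf (nat_lit 2)) (cs (rf (nat_lit 3)) (cs (nd (nat_lit 188) (nat_lit 0) (cs (rf (nat_lit 4)) (rf (nat_lit 5)))) (rf (nat_lit 6)))))) (nd (nat_lit 188) (nat_lit 0) (cs (nd (nat_lit 210) (nat_lit 0) (cs (lf (nat_lit 18) (nat_lit 185)) (rf (nat_lit 7)))) (cs (nd (nat_lit 187) (nat_lit 0) (cs (rf (nat_lit 4)) (rf (nat_lit 5)))) (cs (nd (nat_lit 210) (nat_lit 0) (cs (lf (nat_lit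 18) (nat_lit 185)) (nd (nat_lit 207) (nat_lit 0) (cs (lf (nat_lit 17) (nat_lit 185)) (nd (nat_lit 229) (nat_lit 0) (cs (lf (nat_lit 11) (nat_lit 206)) (nd (nat_lit 232) (nat_lit 0) (cs (lf (nat_lit 5) (nat_lit 207)) (rf (nat_lit 8)))))))))) (cs (nd (nat_lit 210) (nat_lit 0) (cs (lf (nat_lit 18) (nat_lit 185)) (nd (nat_lit 163) (nat_lit 0) (cs (rf (nat_lit 9)) (cs (nd (nat_lit 119) (nat_lit 0) (cs (lf (nat_lit 25) (nat_lit 119)) (nd (nat_lit 187) (nat_lit 0) (cs (lf (nat_lit 23) (nat_lit 162)) (nd (nat_lit 166) (nat_lit 0) (cs (lf (nat_lit 17) (nat_lit 163)) (nd (nat_lit 144) (nat_lit 0) (cs (lf (nat_lit 36) (nat_lit 121)) (nd (nat_lit 123) (nat_lit 0) (cs (lf (nat_lit 34) (nat_lit 122)) (nd (nat_lit 143) (nat_lit 0) (cs (lf (nat_lit 47) (nat_lit 121)) (nd (nat_lit 232) (nat_lit 0) (cs (lf (nat_lit 25) (nat_lit 143)) (rf (nat_lit 10)))))))))))))))) (nd (nat_lit 230) (nat_lit 0) (cs (lf (nat_lit 42) (nat_lit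 163)) (nd (nat_lit 187) (nat_lit 0) (cs (lf (nat_lit 23) (nat_lit 162)) (nd (nat_lit 143) (nat_lit 0) (cs (lf (nat_lit 37) (nat_lit 142)) (rf (nat_lit 11))))))))))))) (nd (nat_lit 187) (nat_lit 0) (cs (rf (nat_lit 4)) (cs (rf (nat_lit 12)) (rf (nat_lit 13)))))))))))))) q9747 (by decide +kernel)
def q10070 : Q := Q.p (nat_lit 0x2000000000030000000000000000000000000000000000000000000000000000) (nat_lit 0x160000780007fc0019e000ffc007c6003ff8007ee003fc0003f800054000000000000000000000000) (nat_lit 18)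
theorem c10070 : QOK q10070 := cut [q1594, q6705, q9647, q1584, q7591, q9892, q9949, q202, q9948, q75, q9962, q9964, q694, q9970, q59, q1118, q1683, q9991, q9998, q10013, q10068] ⟨c1594, c6705, c9647, c1584, c7591, c9892, c9949, c202, c9948, c75, c9962, c9964, c694, c9970, c59, c1118, c1683, c9991, c9998, c10013, c10068, trivial⟩ (nd (nat_lit 231) (nat_lit 0) (cs (rf (nat_lit 0)) (cs (rf (nat_lit 1)) (cs (rf (nat_lit 2)) (nd (nat_lit 187) (nat_lit 0) (cs (rf (nat_lit 3)) (cs (rf (nat_lit 4)) (cs (rf (nat_lit 5)) (cs (nd (nat_lit 210) (nat_lit 0) (cs (rf (nat_lit 6)) (cs (nd (nat_lit 211) (nat_lit 0) (cs (rf (nat_lit 7)) (cs (rf (nat_lit 8)) (nd (nat_lit 189) (nat_lit 0) (cs (lf (nat_lit 17) (nat_lit 186)) (nd (nat_lit 186) (nat_lit 0) (cs (rf (nat_lit 9)) (nd (nat_lit 167) (nat_lit 0) (cs (nd (nat_lit 252) (nat_lit 0) (cs (lf (nat_lit 41) (nat_lit 186)) (nd (nat_lit 168) (nat_lit 0) (cs (nd (nat_lit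 233) (nat_lit 0) (cs (lf (nat_lit 5) (nat_lit 208)) (lf (nat_lit 35) (nat_lit 145)))) (lf (nat_lit 14) (nat_lit 164)))))) (cs (rf (nat_lit 10)) (rf (nat_lit 11)))))))))))) (cs (nd (nat_lit 211) (nat_lit 0) (cs (rf (nat_lit 12)) (cs (rf (nat_lit 8)) (nd (nat_lit 189) (nat_lit 0) (cs (lf (nat_lit 17) (nat_lit 186)) (nd (nat_lit 252) (nat_lit 0) (cs (lf (nat_lit 41) (nat_lit 186)) (nd (nat_lit 185) (nat_lit 0) (cs (lf (nat_lit 22) (nat_lit 185)) (nd (nat_lit 233) (nat_lit 0) (cs (lf (nat_lit 5) (nat_lit 208)) (rf (nat_lit 13))))))))))))) (cs (nd (nat_lit 211) (nat_lit 0) (cs (rf (nat_lit 12)) (cs (nd (nat_lit 233) (nat_lit 0) (cs (lf (nat_lit 5) (nat_lit 208)) (nd (nat_lit 252) (nat_lit 0) (cs (lf (nat_lit 41) (nat_lit 186)) (nd (nat_lit 189) (nat_lit 0) (cs (lf (nat_lit 17) (nat_lit 186)) (rf (nat_lit 13)))))))) (cs (nd (nat_lit 166) (nat_lit 0) (cs (lf (nat_lit 34) (nat_lit 165)) (nd (nat_lit 165) (nat_lit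 0) (cs (lf (nat_lit 35) (nat_lit 143)) (nd (nat_lit 252) (nat_lit 0) (cs (lf (nat_lit 41) (nat_lit 186)) (nd (nat_lit 234) (nat_lit 0) (cs (lf (nat_lit 4) (nat_lit 208)) (nd (nat_lit 212) (nat_lit 0) (cs (lf (nat_lit 5) (nat_lit 209)) (nd (nat_lit 232) (nat_lit 0) (cs (lf (nat_lit 6) (nat_lit 209)) (lf (nat_lit 24) (nat_lit 143)))))))))))))) (nd (nat_lit 190) (nat_lit 0) (cs (lf (nat_lit 16) (nat_lit 186)) (nd (nat_lit 252) (nat_lit 0) (cs (lf (nat_lit 41) (nat_lit 186)) (nd (nat_lit 212) (nat_lit 0) (cs (lf (nat_lit 17) (nat_lit 187)) (nd (nat_lit 188) (nat_lit 0) (cs (lf (nat_lit 35) (nat_lit 165)) (lf (nat_lit 18) (nat_lit 187)))))))))))))) (cs (nd (nat_lit 188) (nat_lit 0) (cs (lf (nat_lit 35) (nat_lit 165)) (nd (nat_lit 189) (nat_lit 0) (cs (rf (nat_lit 14)) (nd (nat_lit 211) (nat_lit 0) (cs (rf (nat_lit 15)) (cs (rf (nat_lit 16)) (nd (nat_lit 252) (nat_lit 0) (cs (lf (nat_lit 41) (nat_lit 186))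 (nd (nat_lit 186) (nat_lit 0) (cs (lf (nat_lit 23) (nat_lit 185)) (rf (nat_lit 17))))))))))))) (rf (nat_lit 18)))))))) (cs (rf (nat_lit 19)) (rf (nat_lit 20)))))))))))) q10070 (by decide +kernel)
def q10125 : Q := Q.p (nat_lit 0x2000000000030000000000000000000000000000000000000000000000000000) (nat_lit 0x160000780001f00001c0003fe003cf000efe0002f0001f00001c00005000000000000000000000000) (nat_lit 13)
theorem c10125 : QOK q10125 := cut [q2949, q6705, q9647, q119, q1136, q2935, q2938, q1597, q6510, q10108, q10110, q10105, q1410, q4058, q10062, q10121] ⟨c2949, c6705, c9647, c119, c1136, c2935, c2938, c1597, c6510, c10108, c10110, c10105, c1410, c4058, c10062, c10121, trivial⟩ (nd (nat_lit 231) (nat_lit 0) (cs (rf (nat_lit 0)) (cs (rf (nat_lit 1)) (cs (rf (nat_lit 2)) (nd (nat_lit 207) (nat_lit 0) (cs (rf (nat_lit 3)) (cs (rf (nat_lit 4)) (cs (rf (nat_lit 5)) (cs (rf (nat_lit 6)) (nd (nat_lit 185) (nat_lit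 0) (cs (rf (nat_lit 7)) (cs (rf (nat_lit 8)) (cs (nd (nat_lit 210) (nat_lit 0) (cs (lf (nat_lit 23) (nat_lit 184)) (rf (nat_lit 9)))) (nd (nat_lit 252) (nat_lit 0) (cs (rf (nat_lit 10)) (cs (nd (nat_lit 274) (nat_lit 0) (cs (lf (nat_lit 36) (nat_lit 186)) (nd (nat_lit 296) (nat_lit 0) (cs (lf (nat_lit 30) (nat_lit 230)) (nd (nat_lit 229) (nat_lit 0) (cs (lf (nat_lit 27) (nat_lit 185)) (nd (nat_lit 210) (nat_lit 0) (cs (lf (nat_lit 11) (nat_lit 206)) (nd (nat_lit 232) (nat_lit 0) (cs (lf (nat_lit 5) (nat_lit 207)) (nd (nat_lit 211) (nat_lit 0) (cs (lf (nat_lit 22) (nat_lit 185)) (rf (nat_lit 11)))))))))))))) (cs (nd (nat_lit 230) (nat_lit 0) (cs (rf (nat_lit 12)) (cs (rf (nat_lit 13)) (nd (nat_lit 232) (nat_lit 0) (cs (lf (nat_lit 18) (nat_lit 207)) (nd (nat_lit 251) (nat_lit 0) (cs (lf (nat_lit 12) (nat_lit 228)) (nd (nat_lit 165) (nat_lit 0) (cs (lf (nat_lit 37) (nat_lit 164)) (rf (nat_lit 14)))))))))))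 (rf (nat_lit 15))))))))))))))))))) q10125 (by decide +kernel)
def q10184 : Q := Q.p (nat_lit 0x70000000000000000000000000000000000000000000000000000) (nat_lit 0x100001c000070000180000f6000180000fe0001c00007000010000000000000000000000000000000) (nat_lit 12)
theorem c10184 : QOK q10184 := cut [q694, q10176, q10178, q10182] ⟨c694, c10176, c10178, c10182, trivial⟩ (nd (nat_lit 211) (nat_lit 0) (cs (rf (nat_lit 0)) (cs (rf (nat_lit 1)) (cs (nd (nat_lit 234) (nat_lit 0) (cs (lf (nat_lit 4) (nat_lit 208)) (nd (nat_lit 229) (nat_lit 0) (cs (lf (nat_lit 10) (nat_lit 207)) (rf (nat_lit 2)))))) (nd (nat_lit 229) (nat_lit 0) (cs (lf (nat_lit 10) (nat_lit 207)) (rf (nat_lit 3)))))))) q10184 (by decide +kernel)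
def q10310 : Q := Q.p (nat_lit 0x300000c0000000000000000000000000000000000000000000000) (nat_lit 0x780008e000638001fe0007f8000780001a000000000000000000000000) (nat_lit 10)
theorem c10310 : QOK q10310 := cut [q628, q9575, q9578, q4850, q8360] ⟨c628, c9575, c9578, c4850, c8360, trivial⟩ (nd (nat_lit 164) (nat_lit 0) (cs (rf (nat_lit 0)) (cs (rf (nat_lit 1)) (cs (rf (nat_lit 2)) (cs (nd (nat_lit 165) (nat_lit 0) (cs (rf (nat_lit 3)) (rf (nat_lit 4)))) (nd (nat_lit 142) (nat_lit 0) (cs (lf (nat_lit 24) (nat_lit 120)) (nd (nat_lit 207) (nat_lit 0) (cs (lf (nat_lit 41) (nat_lit 141)) (nd (nat_lit 141) (nat_lit 0) (cs (lf (nat_lit 47) (nat_lit 119)) (nd (nat_lit 206) (nat_lit 0) (cs (lf (nat_lit 12) (nat_lit 183)) (nd (nat_lit 228) (nat_lit 0) (cs (lf (nat_lit 11) (nat_lit 205)) (nd (nat_lit 163) (nat_lit 0) (cs (lf (nat_lit 42) (nat_lit 141)) (lf (nat_lit 38) (nat_lit 140))))))))))))))))))) q10310 (by decide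 +kernel)
def q10415 : Q := Q.p (nat_lit 0x300000c0000000000000000000000000000000000000000000000) (nat_lit 0x10000050000c6000738001de0001200004800000000000000000000000000000) (nat_lit 9)
theorem c10415 : QOK q10415 := cut [q11, q9539, q7508, q7632, q8623] ⟨c11, c9539, c7508, c7632, c8623, trivial⟩ (nd (nat_lit 185) (nat_lit 0) (cs (rf (nat_lit 0)) (cs (rf (nat_lit 1)) (nd (nat_lit 188) (nat_lit 0) (cs (rf (nat_lit 2)) (cs (rf (nat_lit 3)) (nd (nat_lit 210) (nat_lit 0) (cs (lf (nat_lit 18) (nat_lit 185)) (nd (nat_lit 166) (nat_lit 0) (cs (lf (nat_lit 17) (nat_lit 163)) (nd (nat_lit 122) (nat_lit 0) (cs (lf (nat_lit 37) (nat_lit 121)) (nd (nat_lit 163) (nat_lit 0) (cs (lf (nat_lit 23) (nat_lit 162)) (rf (nat_lit 4)))))))))))))))) q10415 (by decide +kernel)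
def q10556 : Q := Q.p (nat_lit 0x2000000000030000000000000000000000000000000000000000000000000000) (nat_lit 0x100001c000070000180000ff8001ce000f7c001f0000780001a000000000000000000000000000000) (nat_lit 13)
theorem c10556 : QOK q10556 := cut [q7437, q694, q10176, q10531, q186, q4294, q7867, q10539, q1483, q10540, q10546, q231, q2382] ⟨c7437, c694, c10176, c10531, c186, c4294, c7867, c10539, c1483, c10540, c10546, c231, c2382, trivial⟩ (nd (nat_lit 210) (nat_lit 0) (cs (rf (nat_lit 0)) (cs (nd (nat_lit 211) (nat_lit 0) (cs (rf (nat_lit 1)) (cs (rf (nat_lit 2)) (cs (nd (nat_lit 185) (nat_lit 0) (cs (lf (nat_lit 22) (nat_lit 185)) (rf (nat_lit 3)))) (nd (nat_lit 189) (nat_lit 0) (cs (lf (nat_lit 17) (nat_lit 186)) (nd (nat_lit 186) (nat_lit 0) (cs (lf (nat_lit 23) (nat_lit 185)) (nd (nat_lit 230) (nat_lit 0) (cs (lf (nat_lit 11) (nat_lit 207)) (nd (nat_lit 231) (nat_lit 0) (cs (lf (nat_lit 24) (nat_lit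 164)) (lf (nat_lit 6) (nat_lit 208)))))))))))))) (cs (nd (nat_lit 207) (nat_lit 0) (cs (rf (nat_lit 4)) (cs (rf (nat_lit 5)) (rf (nat_lit 6))))) (cs (rf (nat_lit 7)) (cs (nd (nat_lit 207) (nat_lit 0) (cs (rf (nat_lit 4)) (cs (rf (nat_lit 8)) (cs (nd (nat_lit 188) (nat_lit 0) (cs (lf (nat_lit 17) (nat_lit 185)) (nd (nat_lit 228) (nat_lit 0) (cs (lf (nat_lit 10) (nat_lit 206)) (nd (nat_lit 206) (nat_lit 0) (cs (lf (nat_lit 11) (nat_lit 205)) (nd (nat_lit 183) (nat_lit 0) (cs (lf (nat_lit 22) (nat_lit 183)) (nd (nat_lit 205) (nat_lit 0) (cs (lf (nat_lit 23) (nat_lit 182)) (rf (nat_lit 9)))))))))))) (nd (nat_lit 188) (nat_lit 0) (cs (lf (nat_lit 17) (nat_lit 185)) (nd (nat_lit 228) (nat_lit 0) (cs (lf (nat_lit 10) (nat_lit 206)) (nd (nat_lit 206) (nat_lit 0) (cs (lf (nat_lit 11) (nat_lit 205)) (nd (nat_lit 231) (nat_lit 0) (cs (lf (nat_lit 5) (nat_lit 206)) (nd (nat_lit 230) (nat_lit 0) (cs (lf (nat_lit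 0) (nat_lit 205)) (nd (nat_lit 144) (nat_lit 0) (cs (lf (nat_lit 37) (nat_lit 143)) (nd (nat_lit 211) (nat_lit 0) (cs (lf (nat_lit 6) (nat_lit 208)) (rf (nat_lit 10)))))))))))))))))))) (nd (nat_lit 211) (nat_lit 0) (cs (rf (nat_lit 11)) (cs (rf (nat_lit 12)) (rf (nat_lit 3))))))))))) q10556 (by decide +kernel)
def q10777 : Q := Q.p (nat_lit 0x2000000000030000000000000000000000000000000000000000000000000000) (nat_lit 0x380000e0006780019e000ffe001cf000fdc000f00003c00007000014000000000000000000000000) (nat_lit 16)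
theorem c10777 : QOK q10777 := cut [q7739, q9654, q2212, q10661, q10667, q119, q2935, q10669, q117, q668, q1123, q2937, q10673, q1568, q1580, q1584, q10724, q10727, q694, q8148, q10732, q8544, q10767, q7461, q10130, q10374, q1468, q4286, q10663, q10772] ⟨c7739, c9654, c2212, c10661, c10667, c119, c2935, c10669, c117, c668, c1123, c2937, c10673, c1568, c1580, c1584, c10724, c10727, c694, c8148, c10732, c8544, c10767, c7461, c10130, c10374, c1468, c4286, c10663, c10772, trivial⟩ (nd (nat_lit 231) (nat_lit 0) (cs (rf (nat_lit 0)) (cs (rf (nat_lit 1)) (cs (nd (nat_lit 187) (nat_lit 0) (cs (rf (nat_lit 2)) (cs (rf (nat_lit 3)) (rf (nat_lit 4))))) (cs (nd (nat_lit 207) (nat_lit 0) (cs (rf (nat_lit 5)) (cs (rf (nat_lit 6)) (cs (rf (nat_lit 7)) (nd (nat_lit 206) (nat_lit 0) (cs (rf (nat_lit 8)) (cs (rf (nat_lit 9)) (cs (rf (nat_lit 10)) (cs (rf (nat_lit 11)) (nd (nat_lit 183) (nat_lit 0) (cs (lf (nat_lit 22)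 (nat_lit 183)) (nd (nat_lit 228) (nat_lit 0) (cs (lf (nat_lit 11) (nat_lit 205)) (rf (nat_lit 12))))))))))))))) (cs (nd (nat_lit 187) (nat_lit 0) (cs (rf (nat_lit 13)) (cs (rf (nat_lit 14)) (cs (rf (nat_lit 15)) (nd (nat_lit 211) (nat_lit 0) (cs (rf (nat_lit 16)) (cs (nd (nat_lit 252) (nat_lit 0) (cs (lf (nat_lit 41) (nat_lit 186)) (nd (nat_lit 186) (nat_lit 0) (cs (lf (nat_lit 47) (nat_lit 164)) (nd (nat_lit 210) (nat_lit 0) (cs (lf (nat_lit 18) (nat_lit 186)) (nd (nat_lit 189) (nat_lit 0) (cs (lf (nat_lit 17) (nat_lit 186)) (rf (nat_lit 17)))))))))) (cs (nd (nat_lit 210) (nat_lit 0) (cs (rf (nat_lit 18)) (cs (rf (nat_lit 19)) (nd (nat_lit 188) (nat_lit 0) (cs (lf (nat_lit 35) (nat_lit 165)) (nd (nat_lit 189) (nat_lit 0) (cs (lf (nat_lit 6) (nat_lit 186)) (nd (nat_lit 230) (nat_lit 0) (cs (lf (nat_lit 11) (nat_lit 207)) (nd (nat_lit 252) (nat_lit 0) (cs (lf (nat_lit 41) (nat_lit 186)) (nd (nat_lit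 233) (nat_lit 0) (cs (lf (nat_lit 5) (nat_lit 208)) (nd (nat_lit 232) (nat_lit 0) (cs (lf (nat_lit 11) (nat_lit 229)) (rf (nat_lit 20))))))))))))))))) (cs (nd (nat_lit 186) (nat_lit 0) (cs (lf (nat_lit 47) (nat_lit 164)) (nd (nat_lit 252) (nat_lit 0) (cs (lf (nat_lit 41) (nat_lit 186)) (nd (nat_lit 188) (nat_lit 0) (cs (lf (nat_lit 35) (nat_lit 165)) (rf (nat_lit 21)))))))) (cs (nd (nat_lit 166) (nat_lit 0) (cs (lf (nat_lit 34) (nat_lit 165)) (nd (nat_lit 252) (nat_lit 0) (cs (lf (nat_lit 41) (nat_lit 186)) (nd (nat_lit 186) (nat_lit 0) (cs (lf (nat_lit 47) (nat_lit 164)) (nd (nat_lit 210) (nat_lit 0) (cs (lf (nat_lit 18) (nat_lit 186)) (rf (nat_lit 17)))))))))) (nd (nat_lit 186) (nat_lit 0) (cs (lf (nat_lit 47) (nat_lit 164)) (nd (nat_lit 188) (nat_lit 0) (cs (lf (nat_lit 35) (nat_lit 165)) (nd (nat_lit 212) (nat_lit 0) (cs (lf (nat_lit 3) (nat_lit 186)) (lf (nat_lit 20) (nat_lit 186))))))))))))))))))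 (cs (rf (nat_lit 22)) (nd (nat_lit 187) (nat_lit 0) (cs (rf (nat_lit 13)) (cs (rf (nat_lit 23)) (cs (rf (nat_lit 24)) (cs (rf (nat_lit 25)) (cs (rf (nat_lit 4)) (nd (nat_lit 207) (nat_lit 0) (cs (rf (nat_lit 5)) (cs (rf (nat_lit 26)) (nd (nat_lit 252) (nat_lit 0) (cs (lf (nat_lit 41) (nat_lit 186)) (nd (nat_lit 210) (nat_lit 0) (cs (rf (nat_lit 27)) (cs (rf (nat_lit 28)) (rf (nat_lit 29))))))))))))))))))))))) q10777 (by decide +kernel)
def q10920 : Q := Q.p (nat_lit 0x2000000000070000000000000000000000000000000000000000000000000000) (nat_lit 0xfc000188000ef0000380007e00007800000000000000000000000000000) (nat_lit 11)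
theorem c10920 : QOK q10920 := cut [q694, q1710, q7443] ⟨c694, c1710, c7443, trivial⟩ (nd (nat_lit 211) (nat_lit 0) (cs (rf (nat_lit 0)) (cs (rf (nat_lit 1)) (rf (nat_lit 2))))) q10920 (by decide +kernel)
def q10976 : Q := Q.p (nat_lit 0x2000004000030000000000000000000000000000000000000000000000000000) (nat_lit 0x200000c0000380000780001e0007b8000cf80007c0001e0000e00003800008000000000000000000000000) (nat_lit 11)
theorem c10976 : QOK q10976 := cut [q1178, q1251, q1125, q5362, q10794, q10949, q10952, q10961, q1079, q10970, q1267] ⟨c1178, c1251, c1125, c5362, c10794, c10949, c10952, c10961, c1079, c10970, c1267, trivial⟩ (nd (nat_lit 229) (nat_lit 0) (cs (rf (nat_lit 0)) (cs (rf (nat_lit 1)) (cs (nd (nat_lit 207) (nat_lit 0) (cs (rf (nat_lit 2)) (cs (rf (nat_lit 3)) (rf (nat_lit 4))))) (nd (nat_lit 251) (nat_lit 0) (cs (nd (nat_lit 227) (nat_lit 0) (cs (lf (nat_lit 13) (nat_lit 205)) (rf (nat_lit 5))))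 (cs (nd (nat_lit 231) (nat_lit 0) (cs (nd (nat_lit 232) (nat_lit 0) (cs (lf (nat_lit 11) (nat_lit 228)) (rf (nat_lit 6)))) (cs (nd (nat_lit 228) (nat_lit 0) (cs (lf (nat_lit 12) (nat_lit 205)) (nd (nat_lit 164) (nat_lit 0) (cs (lf (nat_lit 25) (nat_lit 164)) (nd (nat_lit 206) (nat_lit 0) (cs (lf (nat_lit 23) (nat_lit 205)) (nd (nat_lit 162) (nat_lit 0) (cs (lf (nat_lit 25) (nat_lit 162)) (nd (nat_lit 232) (nat_lit 0) (cs (rf (nat_lit 6)) (lf (nat_lit 22) (nat_lit 206)))))))))))) (nd (nat_lit 228) (nat_lit 0) (cs (lf (nat_lit 12) (nat_lit 205)) (nd (nat_lit 164) (nat_lit 0) (cs (lf (nat_lit 25) (nat_lit 164)) (nd (nat_lit 250) (nat_lit 0) (cs (lf (nat_lit 11) (nat_lit 227)) (rf (nat_lit 7))))))))))) (cs (nd (nat_lit 273) (nat_lit 0) (cs (lf (nat_lit 30) (nat_lit 207)) (nd (nat_lit 186) (nat_lit 0) (cs (lf (nat_lit 33) (nat_lit 185)) (lf (nat_lit 39) (nat_lit 185)))))) (nd (nat_lit 206) (nat_lit 0) (cs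 (nd (nat_lit 273) (nat_lit 0) (cs (lf (nat_lit 30) (nat_lit 207)) (nd (nat_lit 207) (nat_lit 0) (cs (rf (nat_lit 8)) (lf (nat_lit 47) (nat_lit 184)))))) (cs (nd (nat_lit 273) (nat_lit 0) (cs (lf (nat_lit 30) (nat_lit 207)) (nd (nat_lit 228) (nat_lit 0) (cs (lf (nat_lit 12) (nat_lit 205)) (rf (nat_lit 9)))))) (nd (nat_lit 228) (nat_lit 0) (cs (lf (nat_lit 12) (nat_lit 205)) (rf (nat_lit 10))))))))))))))) q10976 (by decide +kernel)
def q11009 : Q := Q.p (nat_lit 0x2000004000030000000000000000000000000000000000000000000000000000) (nat_lit 0x200001c00007c0001e0003bc0000e0000f80003e0000800000000000000000000000000000000000) (nat_lit 12)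
theorem c11009 : QOK q11009 := cut [q10803, q10885, q6271, q10062, q2065, q3187, q10890, q10046, q10961, q426, q10986, q10992, q11008] ⟨c10803, c10885, c6271, c10062, c2065, c3187, c10890, c10046, c10961, c426, c10986, c10992, c11008, trivial⟩ (nd (nat_lit 252) (nat_lit 0) (cs (rf (nat_lit 0)) (cs (rf (nat_lit 1)) (cs (nd (nat_lit 251) (nat_lit 0) (cs (rf (nat_lit 2)) (cs (rf (nat_lit 3)) (cs (nd (nat_lit 250) (nat_lit 0) (cs (rf (nat_lit 4)) (cs (rf (nat_lit 5)) (nd (nat_lit 229) (nat_lit 0) (cs (rf (nat_lit 6)) (cs (nd (nat_lit 273) (nat_lit 0) (cs (lf (nat_lit 30) (nat_lit 207)) (nd (nat_lit 231) (nat_lit 0) (cs (lf (nat_lit 17) (nat_lit 228)) (nd (nat_lit 228) (nat_lit 0) (cs (lf (nat_lit 23) (nat_lit 227)) (rf (nat_lit 7)))))))) (nd (nat_lit 231) (nat_lit 0) (cs (lf (nat_lit 6) (nat_lit 228)) (nd (nat_lit 165) (nat_lit 0) (cs (lf (nat_lit 37) (nat_lit 164)) (nd (nat_lit 228) (nat_lit 0) (cs (lf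 (nat_lit 0) (nat_lit 227)) (nd (nat_lit 271) (nat_lit 0) (cs (lf (nat_lit 10) (nat_lit 249)) (rf (nat_lit 8)))))))))))))))) (nd (nat_lit 231) (nat_lit 0) (cs (rf (nat_lit 9)) (cs (nd (nat_lit 232) (nat_lit 0) (cs (lf (nat_lit 6) (nat_lit 229)) (nd (nat_lit 206) (nat_lit 0) (cs (nd (nat_lit 186) (nat_lit 0) (cs (lf (nat_lit 24) (nat_lit 164)) (nd (nat_lit 187) (nat_lit 0) (cs (lf (nat_lit 36) (nat_lit 164)) (rf (nat_lit 10)))))) (lf (nat_lit 1) (nat_lit 206)))))) (nd (nat_lit 186) (nat_lit 0) (cs (lf (nat_lit 24) (nat_lit 164)) (nd (nat_lit 250) (nat_lit 0) (cs (lf (nat_lit 12) (nat_lit 227)) (nd (nat_lit 165) (nat_lit 0) (cs (lf (nat_lit 34) (nat_lit 164)) (nd (nat_lit 228) (nat_lit 0) (cs (lf (nat_lit 23) (nat_lit 227)) (nd (nat_lit 272) (nat_lit 0) (cs (lf (nat_lit 11) (nat_lit 249)) (nd (nat_lit 185) (nat_lit 0) (cs (lf (nat_lit 47) (nat_lit 163)) (rf (nat_lit 11))))))))))))))))))))) (rf (nat_lit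 12)))))) q11009 (by decide +kernel)
def q11039 : Q := Q.p (nat_lit 0x2000004000030000000000000000000000000000000000000000000000000000) (nat_lit 0x300001c00007c0001e0001bc0004e0000d0000380000e00002800000000000000000000000000000) (nat_lit 12)
theorem c11039 : QOK q11039 := cut [q10803, q10885, q11025, q10062, q10944, q3797, q2065, q3187, q11017, q11035] ⟨c10803, c10885, c11025, c10062, c10944, c3797, c2065, c3187, c11017, c11035, trivial⟩ (nd (nat_lit 252) (nat_lit 0) (cs (rf (nat_lit 0)) (cs (rf (nat_lit 1)) (cs (rf (nat_lit 2)) (cs (nd (nat_lit 251) (nat_lit 0) (cs (rf (nat_lit 3)) (cs (rf (nat_lit 4)) (cs (nd (nat_lit 186) (nat_lit 0) (cs (lf (nat_lit 41) (nat_lit 185)) (rf (nat_lit 5)))) (nd (nat_lit 250) (nat_lit 0) (cs (rf (nat_lit 6)) (cs (rf (nat_lit 7)) (nd (nat_lit 228) (nat_lit 0) (cs (lf (nat_lit 23) (nat_lit 227)) (nd (nat_lit 231) (nat_lit 0) (cs (lf (nat_lit 17) (nat_lit 228)) (nd (nat_lit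 274) (nat_lit 0) (cs (lf (nat_lit 30) (nat_lit 208)) (nd (nat_lit 229) (nat_lit 0) (cs (lf (nat_lit 17) (nat_lit 206)) (nd (nat_lit 205) (nat_lit 0) (cs (lf (nat_lit 22) (nat_lit 205)) (nd (nat_lit 164) (nat_lit 0) (cs (lf (nat_lit 37) (nat_lit 163)) (rf (nat_lit 8))))))))))))))))))))) (nd (nat_lit 274) (nat_lit 0) (cs (lf (nat_lit 35) (nat_lit 186)) (nd (nat_lit 231) (nat_lit 0) (cs (lf (nat_lit 30) (nat_lit 208)) (nd (nat_lit 186) (nat_lit 0) (cs (lf (nat_lit 24) (nat_lit 164)) (rf (nat_lit 9))))))))))))) q11039 (by decide +kernel)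
def q11086 : Q := Q.p (nat_lit 0x2000000000030000000000000000000000000000000000000000000000000000) (nat_lit 0x400001c00007c0001e0007fc0004e0007fc0007c0001f00007c00014000000000000000000000000) (nat_lit 14)
theorem c11086 : QOK q11086 := cut [q2215, q2986, q7462, q7599, q10767, q1568, q1580, q1584, q2624, q11057, q119, q2935, q2938, q4439, q1597, q7718, q5429, q6230, q7430, q1832, q1857, q11066, q1135, q2934, q2937, q792, q11075, q4100, q33, q1562, q2276, q3002, q9781, q10110, q11077] ⟨c2215, c2986, c7462, c7599, c10767, c1568, c1580, c1584, c2624, c11057, c119, c2935, c2938, c4439, c1597, c7718, c5429, c6230, c7430, c1832, c1857, c11066, c1135, c2934, c2937, c792, c11075, c4100, c33, c1562, c2276, c3002, c9781, c10110, c11077, trivial⟩ (nd (nat_lit 231) (nat_lit 0) (cs (rf (nat_lit 0)) (cs (rf (nat_lit 1)) (cs (rf (nat_lit 2)) (cs (rf (nat_lit 3)) (cs (rf (nat_lit 4)) (cs (nd (nat_lit 187) (nat_lit 0)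 (cs (rf (nat_lit 5)) (cs (rf (nat_lit 6)) (cs (rf (nat_lit 7)) (nd (nat_lit 252) (nat_lit 0) (cs (lf (nat_lit 41) (nat_lit 186)) (nd (nat_lit 251) (nat_lit 0) (cs (rf (nat_lit 8)) (nd (nat_lit 186) (nat_lit 0) (cs (lf (nat_lit 47) (nat_lit 164)) (nd (nat_lit 166) (nat_lit 0) (cs (lf (nat_lit 34) (nat_lit 165)) (rf (nat_lit 9)))))))))))))) (cs (nd (nat_lit 207) (nat_lit 0) (cs (rf (nat_lit 10)) (cs (rf (nat_lit 11)) (cs (rf (nat_lit 12)) (cs (nd (nat_lit 229) (nat_lit 0) (cs (nd (nat_lit 210) (nat_lit 0) (cs (lf (nat_lit 11) (nat_lit 206)) (rf (nat_lit 13)))) (cs (nd (nat_lit 185) (nat_lit 0) (cs (rf (nat_lit 14)) (cs (rf (nat_lit 15)) (nd (nat_lit 251) (nat_lit 0) (cs (rf (nat_lit 16)) (cs (rf (nat_lit 17)) (rf (nat_lit 18)))))))) (nd (nat_lit 251) (nat_lit 0) (cs (rf (nat_lit 19)) (cs (rf (nat_lit 20)) (nd (nat_lit 250) (nat_lit 0) (cs (nd (nat_lit 232) (nat_lit 0) (cs (lf (nat_lit 8) (nat_lit 228))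 (lf (nat_lit 14) (nat_lit 228)))) (nd (nat_lit 185) (nat_lit 0) (cs (lf (nat_lit 41) (nat_lit 184)) (rf (nat_lit 21)))))))))))) (nd (nat_lit 206) (nat_lit 0) (cs (rf (nat_lit 22)) (cs (rf (nat_lit 23)) (rf (nat_lit 24)))))))))) (cs (nd (nat_lit 207) (nat_lit 0) (cs (rf (nat_lit 10)) (cs (rf (nat_lit 25)) (rf (nat_lit 26))))) (nd (nat_lit 207) (nat_lit 0) (cs (rf (nat_lit 10)) (cs (rf (nat_lit 25)) (cs (rf (nat_lit 27)) (nd (nat_lit 186) (nat_lit 0) (cs (rf (nat_lit 28)) (cs (rf (nat_lit 29)) (cs (rf (nat_lit 30)) (nd (nat_lit 185) (nat_lit 0) (cs (rf (nat_lit 14)) (cs (rf (nat_lit 31)) (nd (nat_lit 252) (nat_lit 0) (cs (rf (nat_lit 32)) (cs (rf (nat_lit 33)) (nd (nat_lit 274) (nat_lit 0) (cs (lf (nat_lit 36) (nat_lit 186)) (nd (nat_lit 296) (nat_lit 0) (cs (lf (nat_lit 30) (nat_lit 230)) (nd (nat_lit 229) (nat_lit 0) (cs (lf (nat_lit 27) (nat_lit 185)) (nd (nat_lit 228) (nat_lit 0) (cs (lf (nat_lit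 6) (nat_lit 206)) (rf (nat_lit 34))))))))))))))))))))))))))))))))) q11086 (by decide +kernel)
def q11271 : Q := Q.p (nat_lit 0x2000004000030000000000000000000000000000000000000000000000000000) (nat_lit 0x1e0000780001f8001be000cf8003be0006c0001b00006000000000000000000000000000000) (nat_lit 12)
theorem c11271 : QOK q11271 := cut [q10803, q1178, q1251, q10823, q926, q1125, q1416, q4009, q1136, q1411, q1413, q674, q1331, q11267] ⟨c10803, c1178, c1251, c10823, c926, c1125, c1416, c4009, c1136, c1411, c1413, c674, c1331, c11267, trivial⟩ (nd (nat_lit 252) (nat_lit 0) (cs (rf (nat_lit 0)) (cs (nd (nat_lit 229) (nat_lit 0) (cs (rf (nat_lit 1)) (cs (rf (nat_lit 2)) (cs (rf (nat_lit 3)) (cs (nd (nat_lit 207) (nat_lit 0) (cs (rf (nat_lit 4)) (cs (rf (nat_lit 5)) (nd (nat_lit 206) (nat_lit 0) (cs (rf (nat_lit 6)) (rf (nat_lit 7))))))) (nd (nat_lit 210) (nat_lit 0) (cs (lf (nat_lit 6) (nat_lit 207)) (nd (nat_lit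 228) (nat_lit 0) (cs (lf (nat_lit 9) (nat_lit 206)) (lf (nat_lit 15) (nat_lit 206))))))))))) (cs (nd (nat_lit 207) (nat_lit 0) (cs (rf (nat_lit 8)) (cs (rf (nat_lit 9)) (cs (rf (nat_lit 10)) (nd (nat_lit 229) (nat_lit 0) (cs (rf (nat_lit 11)) (rf (nat_lit 12)))))))) (nd (nat_lit 274) (nat_lit 0) (cs (lf (nat_lit 35) (nat_lit 186)) (nd (nat_lit 273) (nat_lit 0) (cs (lf (nat_lit 41) (nat_lit 207)) (nd (nat_lit 271) (nat_lit 0) (cs (lf (nat_lit 13) (nat_lit 249)) (rf (nat_lit 13)))))))))))) q11271 (by decide +kernel)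
def q11296 : Q := Q.p (nat_lit 0x2000004000030000000000000000000000000000000000000000000000000000) (nat_lit 0x8001dbe007cf001ffe0007c0003f0000e800000000000000000000000000000) (nat_lit 11)
theorem c11296 : QOK q11296 := cut [q7452, q10923, q11120, q11278, q8, q3797, q87, q4431, q9340, q2368, q11289] ⟨c7452, c10923, c11120, c11278, c8, c3797, c87, c4431, c9340, c2368, c11289, trivial⟩ (nd (nat_lit 210) (nat_lit 0) (cs (rf (nat_lit 0)) (cs (rf (nat_lit 1)) (cs (rf (nat_lit 2)) (cs (rf (nat_lit 3)) (cs (nd (nat_lit 186) (nat_lit 0) (cs (rf (nat_lit 4)) (cs (rf (nat_lit 5)) (nd (nat_lit 207) (nat_lit 0) (cs (rf (nat_lit 6)) (cs (rf (nat_lit 7)) (cs (rf (nat_lit 8)) (nd (nat_lit 185) (nat_lit 0) (cs (lf (nat_lit 23) (nat_lit 184)) (nd (nat_lit 229) (nat_lit 0) (cs (lf (nat_lit 11) (nat_lit 206)) (nd (nat_lit 163) (nat_lit 0) (cs (lf (nat_lit 24) (nat_lit 141)) (nd (nat_lit 188) (nat_lit 0) (cs (lf (nat_lit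 17) (nat_lit 185)) (rf (nat_lit 9))))))))))))))))) (nd (nat_lit 211) (nat_lit 0) (cs (lf (nat_lit 11) (nat_lit 207)) (nd (nat_lit 185) (nat_lit 0) (cs (lf (nat_lit 22) (nat_lit 185)) (nd (nat_lit 184) (nat_lit 0) (cs (lf (nat_lit 21) (nat_lit 184)) (nd (nat_lit 212) (nat_lit 0) (cs (lf (nat_lit 10) (nat_lit 208)) (nd (nat_lit 235) (nat_lit 0) (cs (lf (nat_lit 4) (nat_lit 209)) (nd (nat_lit 191) (nat_lit 0) (cs (lf (nat_lit 16) (nat_lit 187)) (rf (nat_lit 10)))))))))))))))))))) q11296 (by decide +kernel)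
def q11325 : Q := Q.p (nat_lit 0x2000004000030000000000000000000000000000000000000000000000000000) (nat_lit 0x60000180000b80000e0007fe000ff0007fe0003800000000000000000000000000000) (nat_lit 15)
theorem c11325 : QOK q11325 := cut [q798, q10636, q10424, q10588, q10427, q2204, q4951, q6, q448, q495, q2273, q10596] ⟨c798, c10636, c10424, c10588, c10427, c2204, c4951, c6, c448, c495, c2273, c10596, trivial⟩ (nd (nat_lit 187) (nat_lit 0) (cs (rf (nat_lit 0)) (cs (rf (nat_lit 1)) (cs (nd (nat_lit 186) (nat_lit 0) (cs (rf (nat_lit 2)) (cs (rf (nat_lit 3)) (nd (nat_lit 252) (nat_lit 0) (cs (lf (nat_lit 30) (nat_lit 186)) (nd (nat_lit 251) (nat_lit 0) (cs (lf (nat_lit 41) (nat_lit 185)) (nd (nat_lit 185) (nat_lit 0) (cs (lf (nat_lit 47) (nat_lit 163)) (nd (nat_lit 184) (nat_lit 0) (cs (lf (nat_lit 0) (nat_lit 183)) (nd (nat_lit 161) (nat_lit 0) (cs (lf (nat_lit 22) (nat_lit 161)) (nd (nat_lit 206) (nat_lit 0)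 (cs (lf (nat_lit 11) (nat_lit 183)) (nd (nat_lit 188) (nat_lit 0) (cs (lf (nat_lit 10) (nat_lit 184)) (nd (nat_lit 166) (nat_lit 0) (cs (lf (nat_lit 31) (nat_lit 165)) (lf (nat_lit 17) (nat_lit 163))))))))))))))))))))) (cs (nd (nat_lit 164) (nat_lit 0) (cs (nd (nat_lit 143) (nat_lit 0) (cs (lf (nat_lit 37) (nat_lit 142)) (nd (nat_lit 186) (nat_lit 0) (cs (lf (nat_lit 28) (nat_lit 164)) (rf (nat_lit 4)))))) (cs (nd (nat_lit 165) (nat_lit 0) (cs (lf (nat_lit 36) (nat_lit 142)) (nd (nat_lit 231) (nat_lit 0) (cs (lf (nat_lit 47) (nat_lit 142)) (rf (nat_lit 5)))))) (cs (nd (nat_lit 186) (nat_lit 0) (cs (lf (nat_lit 28) (nat_lit 164)) (nd (nat_lit 229) (nat_lit 0) (cs (lf (nat_lit 41) (nat_lit 163)) (nd (nat_lit 227) (nat_lit 0) (cs (lf (nat_lit 13) (nat_lit 205)) (rf (nat_lit 6)))))))) (nd (nat_lit 186) (nat_lit 0) (cs (rf (nat_lit 7)) (cs (rf (nat_lit 8)) (cs (rf (nat_lit 9)) (rf (nat_lit 10)))))))))) (nd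 (nat_lit 252) (nat_lit 0) (cs (lf (nat_lit 30) (nat_lit 186)) (rf (nat_lit 11))))))))) q11325 (by decide +kernel)
def q11460 : Q := Q.p (nat_lit 0x200000000001c000000000000000000000000000000000000000000000000000) (nat_lit 0x140000700001c0000000001ce0006300014e000000000000000000000000000000000000000000000) (nat_lit 9)
theorem c11460 : QOK q11460 := cut [q3211, q11459] ⟨c3211, c11459, trivial⟩ (nd (nat_lit 205) (nat_lit 0) (cs (rf (nat_lit 0)) (rf (nat_lit 1)))) q11460 (by decide +kernel)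
def q11602 : Q := Q.p (nat_lit 0x200000800002000000000018000000000000000000000000000000000000000000000000000) (nat_lit 0x1c000070001ff0003c4001f700039c0007b0001e0000770000f00003c0000a000000000000000000000000000000) (nat_lit 14)
theorem c11602 : QOK q11602 := cut [q10638, q11539, q139, q1459, q11564, q11568, q11573, q11581, q11582, q11586, q2579, q11593, q11597, q11600] ⟨c10638, c11539, c139, c1459, c11564, c11568, c11573, c11581, c11582, c11586, c2579, c11593, c11597, c11600, trivial⟩ (nd (nat_lit 298) (nat_lit 0) (cs (nd (nat_lit 209) (nat_lit 0) (cs (rf (nat_lit 0)) (cs (nd (nat_lit 299) (nat_lit 0) (cs (rf (nat_lit 1)) (cs (nd (nat_lit 300) (nat_lit 0) (cs (nd (nat_lit 210) (nat_lit 0) (cs (rf (nat_lit 2)) (cs (rf (nat_lit 3)) (nd (nat_lit 322) (nat_lit 0) (cs (lf (nat_lit 5) (nat_lit 297)) (nd (nat_lit 228) (nat_lit 0) (cs (lf (nat_lit 10) (nat_lit 206)) (nd (nat_lit 188) (nat_lit 0) (cs (lf (nat_lit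 17) (nat_lit 185)) (nd (nat_lit 184) (nat_lit 0) (cs (lf (nat_lit 22) (nat_lit 184)) (nd (nat_lit 318) (nat_lit 0) (cs (lf (nat_lit 10) (nat_lit 296)) (nd (nat_lit 278) (nat_lit 0) (cs (lf (nat_lit 17) (nat_lit 275)) (nd (nat_lit 233) (nat_lit 0) (cs (lf (nat_lit 4) (nat_lit 207)) (nd (nat_lit 255) (nat_lit 0) (cs (lf (nat_lit 26) (nat_lit 233)) (lf (nat_lit 45) (nat_lit 233))))))))))))))))))))) (cs (rf (nat_lit 4)) (nd (nat_lit 318) (nat_lit 0) (cs (lf (nat_lit 10) (nat_lit 296)) (rf (nat_lit 5))))))) (nd (nat_lit 300) (nat_lit 0) (cs (nd (nat_lit 279) (nat_lit 0) (cs (nd (nat_lit 318) (nat_lit 0) (cs (lf (nat_lit 10) (nat_lit 296)) (rf (nat_lit 6)))) (lf (nat_lit 16) (nat_lit 275)))) (lf (nat_lit 23) (nat_lit 274))))))) (cs (rf (nat_lit 7)) (rf (nat_lit 8)))))) (cs (rf (nat_lit 9)) (nd (nat_lit 319) (nat_lit 0) (cs (rf (nat_lit 10)) (cs (rf (nat_lit 11)) (cs (rf (nat_lit 12)) (rf (nat_lit 13)))))))))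 q11602 (by decide +kernel)
def q11752 : Q := Q.p (nat_lit 0x300000800002000000000018000000000000000000000000000000000000000000000000000) (nat_lit 0x42000108001e3c003ce000f7c0039c0007bc001e0000770000fe0003f0000bc00005000000000000000000000000) (nat_lit 15)
theorem c11752 : QOK q11752 := cut [q11666, q10638, q11634, q11668, q139, q1459, q1749, q1939, q5427, q2925, q11701, q11709, q2924, q11580, q11724, q11728, q11733, q11737, q11750] ⟨c11666, c10638, c11634, c11668, c139, c1459, c1749, c1939, c5427, c2925, c11701, c11709, c2924, c11580, c11724, c11728, c11733, c11737, c11750, trivial⟩ (nd (nat_lit 295) (nat_lit 0) (cs (rf (nat_lit 0)) (cs (nd (nat_lit 209) (nat_lit 0) (cs (rf (nat_lit 1)) (cs (nd (nat_lit 298) (nat_lit 0) (cs (rf (nat_lit 2)) (cs (nd (nat_lit 273) (nat_lit 0) (cs (lf (nat_lit 23) (nat_lit 272)) (nd (nat_lit 316) (nat_lit 0) (cs (nd (nat_lit 274) (nat_lit 0) (cs (lf (nat_lit 18) (nat_lit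 273)) (nd (nat_lit 229) (nat_lit 0) (cs (lf (nat_lit 26) (nat_lit 207)) (nd (nat_lit 210) (nat_lit 0) (cs (lf (nat_lit 11) (nat_lit 206)) (nd (nat_lit 232) (nat_lit 0) (cs (lf (nat_lit 5) (nat_lit 207)) (rf (nat_lit 3)))))))))) (lf (nat_lit 10) (nat_lit 294)))))) (cs (nd (nat_lit 274) (nat_lit 0) (cs (nd (nat_lit 210) (nat_lit 0) (cs (rf (nat_lit 4)) (cs (rf (nat_lit 5)) (nd (nat_lit 185) (nat_lit 0) (cs (lf (nat_lit 23) (nat_lit 184)) (nd (nat_lit 229) (nat_lit 0) (cs (lf (nat_lit 11) (nat_lit 206)) (nd (nat_lit 163) (nat_lit 0) (cs (rf (nat_lit 6)) (cs (rf (nat_lit 7)) (cs (nd (nat_lit 276) (nat_lit 0) (cs (lf (nat_lit 6) (nat_lit 273)) (nd (nat_lit 140) (nat_lit 0) (cs (lf (nat_lit 46) (nat_lit 140)) (nd (nat_lit 141) (nat_lit 0) (cs (lf (nat_lit 47) (nat_lit 118)) (nd (nat_lit 188) (nat_lit 0) (cs (lf (nat_lit 17) (nat_lit 185)) (nd (nat_lit 186) (nat_lit 0) (cs (lf (nat_lit 24) (nat_lit 119)) (nd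 (nat_lit 251) (nat_lit 0) (cs (lf (nat_lit 28) (nat_lit 185)) (lf (nat_lit 35) (nat_lit 163)))))))))))))) (nd (nat_lit 251) (nat_lit 0) (cs (lf (nat_lit 28) (nat_lit 185)) (rf (nat_lit 8))))))))))))))) (cs (nd (nat_lit 273) (nat_lit 0) (cs (lf (nat_lit 23) (nat_lit 272)) (nd (nat_lit 316) (nat_lit 0) (cs (lf (nat_lit 10) (nat_lit 294)) (nd (nat_lit 229) (nat_lit 0) (cs (lf (nat_lit 26) (nat_lit 207)) (nd (nat_lit 210) (nat_lit 0) (cs (lf (nat_lit 11) (nat_lit 206)) (nd (nat_lit 188) (nat_lit 0) (cs (lf (nat_lit 17) (nat_lit 185)) (rf (nat_lit 9)))))))))))) (nd (nat_lit 273) (nat_lit 0) (cs (lf (nat_lit 23) (nat_lit 272)) (nd (nat_lit 276) (nat_lit 0) (cs (lf (nat_lit 17) (nat_lit 273)) (rf (nat_lit 10))))))))) (cs (rf (nat_lit 11)) (nd (nat_lit 272) (nat_lit 0) (cs (nd (nat_lit 316) (nat_lit 0) (cs (lf (nat_lit 10) (nat_lit 294)) (nd (nat_lit 277) (nat_lit 0) (cs (lf (nat_lit 16) (nat_lit 273)) (nd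 (nat_lit 299) (nat_lit 0) (cs (lf (nat_lit 17) (nat_lit 274)) (nd (nat_lit 322) (nat_lit 0) (cs (lf (nat_lit 4) (nat_lit 296)) (nd (nat_lit 300) (nat_lit 0) (cs (lf (nat_lit 5) (nat_lit 297)) (nd (nat_lit 344) (nat_lit 0) (cs (nd (nat_lit 233) (nat_lit 0) (cs (nd (nat_lit 210) (nat_lit 0) (cs (lf (nat_lit 4) (nat_lit 207)) (rf (nat_lit 12)))) (lf (nat_lit 25) (nat_lit 233)))) (lf (nat_lit 42) (nat_lit 277)))))))))))))) (lf (nat_lit 22) (nat_lit 272))))))))) (cs (nd (nat_lit 231) (nat_lit 0) (cs (lf (nat_lit 40) (nat_lit 208)) (rf (nat_lit 13)))) (rf (nat_lit 14)))))) (cs (rf (nat_lit 15)) (nd (nat_lit 294) (nat_lit 0) (cs (rf (nat_lit 16)) (cs (rf (nat_lit 17)) (cs (nd (nat_lit 315) (nat_lit 0) (cs (lf (nat_lit 10) (nat_lit 293)) (nd (nat_lit 272) (nat_lit 0) (cs (nd (nat_lit 273) (nat_lit 0) (cs (nd (nat_lit 229) (nat_lit 0) (cs (lf (nat_lit 38) (nat_lit 206)) (nd (nat_lit 228) (nat_lit 0) (cs (nd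 (nat_lit 226) (nat_lit 0) (cs (lf (nat_lit 13) (nat_lit 204)) (nd (nat_lit 209) (nat_lit 0) (cs (lf (nat_lit 6) (nat_lit 206)) (rf (nat_lit 14)))))) (lf (nat_lit 32) (nat_lit 206)))))) (lf (nat_lit 18) (nat_lit 272)))) (lf (nat_lit 23) (nat_lit 271)))))) (rf (nat_lit 18)))))))))) q11752 (by decide +kernel)
def q11843 : Q := Q.p (nat_lit 0x200000800002000000000018000000000000000000000000000000000000000000000000000) (nat_lit 0x100000700001c0003f0001ffc003de000f7c0031c00042000100000040000000000000000000000000000000000000000000000) (nat_lit 12)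
theorem c11843 : QOK q11843 := cut [q2532, q2541, q2579, q11811, q11815, q11823, q11666, q11728, q11785, q11634, q11758, q11816, q11837] ⟨c2532, c2541, c2579, c11811, c11815, c11823, c11666, c11728, c11785, c11634, c11758, c11816, c11837, trivial⟩ (nd (nat_lit 319) (nat_lit 0) (cs (rf (nat_lit 0)) (cs (rf (nat_lit 1)) (cs (rf (nat_lit 2)) (cs (rf (nat_lit 3)) (cs (nd (nat_lit 296) (nat_lit 0) (cs (rf (nat_lit 4)) (cs (rf (nat_lit 5)) (nd (nat_lit 295) (nat_lit 0) (cs (rf (nat_lit 6)) (cs (rf (nat_lit 7)) (cs (rf (nat_lit 8)) (nd (nat_lit 298) (nat_lit 0) (cs (rf (nat_lit 9)) (cs (rf (nat_lit 10)) (cs (nd (nat_lit 317) (nat_lit 0) (cs (lf (nat_lit 11) (nat_lit 294)) (nd (nat_lit 299) (nat_lit 0) (cs (lf (nat_lit 10) (nat_lit 295)) (nd (nat_lit 321) (nat_lit 0) (cs (lf (nat_lit 5) (nat_lit 296)) (nd (nat_lit 274) (nat_lit 0) (cs (lf (nat_lit 18) (nat_lit 274)) (rf (nat_lit 11)))))))))) (nd (nat_lit 273)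 (nat_lit 0) (cs (lf (nat_lit 23) (nat_lit 272)) (nd (nat_lit 276) (nat_lit 0) (cs (lf (nat_lit 17) (nat_lit 273)) (nd (nat_lit 341) (nat_lit 0) (cs (lf (nat_lit 30) (nat_lit 275)) (nd (nat_lit 252) (nat_lit 0) (cs (lf (nat_lit 46) (nat_lit 252)) (nd (nat_lit 251) (nat_lit 0) (cs (lf (nat_lit 0) (nat_lit 250)) (nd (nat_lit 229) (nat_lit 0) (cs (lf (nat_lit 35) (nat_lit 185)) (lf (nat_lit 29) (nat_lit 229))))))))))))))))))))))))) (nd (nat_lit 340) (nat_lit 0) (cs (lf (nat_lit 40) (nat_lit 252)) (nd (nat_lit 341) (nat_lit 0) (cs (lf (nat_lit 41) (nat_lit 274)) (nd (nat_lit 274) (nat_lit 0) (cs (lf (nat_lit 47) (nat_lit 252)) (nd (nat_lit 363) (nat_lit 0) (cs (lf (nat_lit 46) (nat_lit 274)) (nd (nat_lit 298) (nat_lit 0) (cs (lf (nat_lit 35) (nat_lit 275)) (rf (nat_lit 12)))))))))))))))))) q11843 (by decide +kernel)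
def q12168 : Q := Q.p (nat_lit 0x2000002000018000000000000000000000000000000000000000000000000000) (nat_lit 0xc0000700001c0001700005f0006780007f0003f0001fc0000700001400000000000000000000000) (nat_lit 14)
theorem c12168 : QOK q12168 := cut [q12021, q12023, q3298, q3281, q12125, q3310, q12045, q12129, q5275, q12135, q5255, q12147, q12164] ⟨c12021, c12023, c3298, c3281, c12125, c3310, c12045, c12129, c5275, c12135, c5255, c12147, c12164, trivial⟩ (nd (nat_lit 227) (nat_lit 0) (cs (nd (nat_lit 228) (nat_lit 0) (cs (lf (nat_lit 12) (nat_lit 204)) (rf (nat_lit 0)))) (cs (nd (nat_lit 205) (nat_lit 0) (cs (nd (nat_lit 206) (nat_lit 0) (cs (lf (nat_lit 11) (nat_lit 204)) (rf (nat_lit 1)))) (cs (nd (nat_lit 206) (nat_lit 0) (cs (lf (nat_lit 11) (nat_lit 204)) (nd (nat_lit 204) (nat_lit 0) (cs (rf (nat_lit 2)) (lf (nat_lit 5) (nat_lit 204)))))) (cs (nd (nat_lit 206) (nat_lit 0) (cs (lf (nat_lit 11) (nat_lit 204))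 (rf (nat_lit 3)))) (cs (rf (nat_lit 4)) (cs (nd (nat_lit 206) (nat_lit 0) (cs (lf (nat_lit 11) (nat_lit 204)) (nd (nat_lit 204) (nat_lit 0) (cs (rf (nat_lit 5)) (lf (nat_lit 5) (nat_lit 204)))))) (nd (nat_lit 183) (nat_lit 0) (cs (rf (nat_lit 6)) (cs (nd (nat_lit 184) (nat_lit 0) (cs (nd (nat_lit 206) (nat_lit 0) (cs (lf (nat_lit 18) (nat_lit 183)) (nd (nat_lit 249) (nat_lit 0) (cs (lf (nat_lit 30) (nat_lit 183)) (nd (nat_lit 250) (nat_lit 0) (cs (lf (nat_lit 29) (nat_lit 183)) (nd (nat_lit 248) (nat_lit 0) (cs (lf (nat_lit 41) (nat_lit 182)) (rf (nat_lit 7)))))))))) (cs (nd (nat_lit 162) (nat_lit 0) (cs (lf (nat_lit 30) (nat_lit 161)) (rf (nat_lit 8)))) (nd (nat_lit 206) (nat_lit 0) (cs (lf (nat_lit 18) (nat_lit 183)) (rf (nat_lit 9))))))) (cs (nd (nat_lit 182) (nat_lit 0) (cs (rf (nat_lit 10)) (lf (nat_lit 20) (nat_lit 182)))) (cs (nd (nat_lit 206) (nat_lit 0) (cs (lf (nat_lit 23) (nat_lit 182)) (nd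 (nat_lit 184) (nat_lit 0) (cs (lf (nat_lit 18) (nat_lit 183)) (rf (nat_lit 9)))))) (nd (nat_lit 182) (nat_lit 0) (cs (lf (nat_lit 20) (nat_lit 182)) (nd (nat_lit 184) (nat_lit 0) (cs (lf (nat_lit 3) (nat_lit 182)) (nd (nat_lit 249) (nat_lit 0) (cs (lf (nat_lit 35) (nat_lit 161)) (lf (nat_lit 47) (nat_lit 160))))))))))))))))))) (cs (nd (nat_lit 228) (nat_lit 0) (cs (rf (nat_lit 0)) (cs (rf (nat_lit 11)) (rf (nat_lit 12))))) (cs (nd (nat_lit 228) (nat_lit 0) (cs (lf (nat_lit 12) (nat_lit 204)) (rf (nat_lit 11)))) (nd (nat_lit 228) (nat_lit 0) (cs (lf (nat_lit 12) (nat_lit 204)) (rf (nat_lit 12))))))))) q12168 (by decide +kernel)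
def q12226 : Q := Q.p (nat_lit 0x2000000000018000000000000000000000000000000000000000000000000000) (nat_lit 0x20000380000e0001fe0007f80001e0003ee003e700017e0007c0000f00003800008000000000000000000000000) (nat_lit 13)
theorem c12226 : QOK q12226 := cut [q3989, q3996, q4183, q5362, q3988, q3995, q1411, q5054, q1298, q12193, q1156, q4007, q2020, q2412, q12194, q12203, q12207, q12210, q12214, q12222] ⟨c3989, c3996, c4183, c5362, c3988, c3995, c1411, c5054, c1298, c12193, c1156, c4007, c2020, c2412, c12194, c12203, c12207, c12210, c12214, c12222, trivial⟩ (nd (nat_lit 230) (nat_lit 0) (cs (rf (nat_lit 0)) (cs (rf (nat_lit 1)) (cs (rf (nat_lit 2)) (cs (rf (nat_lit 3)) (nd (nat_lit 231) (nat_lit 0) (cs (rf (nat_lit 4)) (cs (rf (nat_lit 5)) (cs (nd (nat_lit 252) (nat_lit 0) (cs (rf (nat_lit 6)) (cs (rf (nat_lit 7)) (cs (nd (nat_lit 275) (nat_lit 0) (cs (rf (nat_lit 8)) (nd (nat_lit 251) (nat_lit 0) (cs (rf (nat_lit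 9)) (nd (nat_lit 206) (nat_lit 0) (cs (rf (nat_lit 10)) (cs (rf (nat_lit 11)) (nd (nat_lit 184) (nat_lit 0) (cs (rf (nat_lit 12)) (cs (rf (nat_lit 13)) (nd (nat_lit 229) (nat_lit 0) (cs (lf (nat_lit 42) (nat_lit 184)) (nd (nat_lit 140) (nat_lit 0) (cs (lf (nat_lit 25) (nat_lit 140)) (nd (nat_lit 209) (nat_lit 0) (cs (lf (nat_lit 23) (nat_lit 183)) (rf (nat_lit 14)))))))))))))))))) (rf (nat_lit 15)))))) (nd (nat_lit 210) (nat_lit 0) (cs (nd (nat_lit 232) (nat_lit 0) (cs (lf (nat_lit 18) (nat_lit 207)) (rf (nat_lit 16)))) (cs (rf (nat_lit 17)) (cs (nd (nat_lit 232) (nat_lit 0) (cs (lf (nat_lit 18) (nat_lit 207)) (nd (nat_lit 166) (nat_lit 0) (cs (lf (nat_lit 37) (nat_lit 165)) (nd (nat_lit 229) (nat_lit 0) (cs (lf (nat_lit 17) (nat_lit 207)) (nd (nat_lit 251) (nat_lit 0) (cs (lf (nat_lit 11) (nat_lit 228)) (rf (nat_lit 18)))))))))) (nd (nat_lit 232) (nat_lit 0) (cs (lf (nat_lit 18) (nat_lit 207)) (rf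 (nat_lit 19))))))))))))))))) q12226 (by decide +kernel)
def q12469 : Q := Q.p (nat_lit 0x3000004000018000000000000000000000000000000000000000000000000000) (nat_lit 0xc0001fe0007f80000e0003a000026000000000000000000000000000000000000000000000000000) (nat_lit 11)
theorem c12469 : QOK q12469 := cut [q3995, q12203] ⟨c3995, c12203, trivial⟩ (nd (nat_lit 231) (nat_lit 0) (cs (rf (nat_lit 0)) (rf (nat_lit 1)))) q12469 (by decide +kernel)
def q12507 : Q := Q.p (nat_lit 0x200000000001c000000000000000000000000000000000000000000000000000) (nat_lit 0x20001fe0007f80001e0003f7001e380003e0003f0001f80001e00002800000000000000000000000) (nat_lit 17)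
theorem c12507 : QOK q12507 := cut [q2412, q6657, q6790, q12472, q3369, q1079, q674, q6076, q12494, q12505] ⟨c2412, c6657, c6790, c12472, c3369, c1079, c674, c6076, c12494, c12505, trivial⟩ (nd (nat_lit 184) (nat_lit 0) (cs (rf (nat_lit 0)) (cs (rf (nat_lit 1)) (cs (rf (nat_lit 2)) (nd (nat_lit 229) (nat_lit 0) (cs (nd (nat_lit 162) (nat_lit 0) (cs (lf (nat_lit 24) (nat_lit 140)) (rf (nat_lit 3)))) (cs (nd (nat_lit 231) (nat_lit 0) (cs (rf (nat_lit 4)) (cs (nd (nat_lit 140) (nat_lit 0) (cs (lf (nat_lit 25) (nat_lit 140)) (nd (nat_lit 209) (nat_lit 0) (cs (lf (nat_lit 5) (nat_lit 206)) (nd (nat_lit 210) (nat_lit 0) (cs (lf (nat_lit 22) (nat_lit 184)) (lf (nat_lit 11) (nat_lit 206)))))))) (nd (nat_lit 230) (nat_lit 0) (cs (rf (nat_lit 5)) (nd (nat_lit 275) (nat_lit 0) (cs (lf (nat_lit 42) (nat_lit 208)) (nd (nat_lit 209) (nat_lit 0) (cs (rf (nat_lit 6)) (cs (rf (nat_lit 7)) (nd (nat_lit 140) (nat_lit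 0) (cs (lf (nat_lit 25) (nat_lit 140)) (nd (nat_lit 274) (nat_lit 0) (cs (lf (nat_lit 41) (nat_lit 208)) (nd (nat_lit 252) (nat_lit 0) (cs (lf (nat_lit 47) (nat_lit 185)) (nd (nat_lit 276) (nat_lit 0) (cs (lf (nat_lit 29) (nat_lit 209)) (nd (nat_lit 273) (nat_lit 0) (cs (lf (nat_lit 41) (nat_lit 207)) (nd (nat_lit 277) (nat_lit 0) (cs (lf (nat_lit 18) (nat_lit 252)) (nd (nat_lit 272) (nat_lit 0) (cs (lf (nat_lit 12) (nat_lit 249)) (nd (nat_lit 299) (nat_lit 0) (cs (lf (nat_lit 5) (nat_lit 274)) (nd (nat_lit 294) (nat_lit 0) (cs (lf (nat_lit 11) (nat_lit 271)) (nd (nat_lit 250) (nat_lit 0) (cs (lf (nat_lit 23) (nat_lit 249)) (lf (nat_lit 33) (nat_lit 206)))))))))))))))))))))))))))))))) (cs (nd (nat_lit 162) (nat_lit 0) (cs (lf (nat_lit 24) (nat_lit 140)) (nd (nat_lit 251) (nat_lit 0) (cs (lf (nat_lit 27) (nat_lit 162)) (lf (nat_lit 45) (nat_lit 162)))))) (cs (nd (nat_lit 185) (nat_lit 0) (cs (nd (nat_lit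 251) (nat_lit 0) (cs (lf (nat_lit 42) (nat_lit 184)) (nd (nat_lit 250) (nat_lit 0) (cs (lf (nat_lit 41) (nat_lit 184)) (nd (nat_lit 163) (nat_lit 0) (cs (lf (nat_lit 40) (nat_lit 162)) (nd (nat_lit 141) (nat_lit 0) (cs (lf (nat_lit 36) (nat_lit 118)) (rf (nat_lit 8)))))))))) (nd (nat_lit 209) (nat_lit 0) (cs (lf (nat_lit 18) (nat_lit 184)) (nd (nat_lit 231) (nat_lit 0) (cs (lf (nat_lit 5) (nat_lit 206)) (nd (nat_lit 230) (nat_lit 0) (cs (lf (nat_lit 0) (nat_lit 205)) (nd (nat_lit 275) (nat_lit 0) (cs (lf (nat_lit 42) (nat_lit 208)) (nd (nat_lit 274) (nat_lit 0) (cs (lf (nat_lit 41) (nat_lit 208)) (lf (nat_lit 43) (nat_lit 185)))))))))))))) (rf (nat_lit 9))))))))))) q12507 (by decide +kernel)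
def q13151 : Q := Q.p (nat_lit 0xc0000200000800002000000000000000000000000000000000000000000000000000000000000000) (nat_lit 0x3ef000f38007cf0000000000000000000000000000000000000000000000000000000000000000000000000) (nat_lit 10)
theorem c13151 : QOK q13151 := cut [q13132, q13136, q13149, q13150] ⟨c13132, c13136, c13149, c13150, trivial⟩ (nd (nat_lit 317) (nat_lit 0) (cs (rf (nat_lit 0)) (cs (nd (nat_lit 316) (nat_lit 0) (cs (lf (nat_lit 17) (nat_lit 294)) (nd (nat_lit 293) (nat_lit 0) (cs (lf (nat_lit 22) (nat_lit 293)) (nd (nat_lit 341) (nat_lit 0) (cs (lf (nat_lit 5) (nat_lit 316)) (rf (nat_lit 1)))))))) (cs (rf (nat_lit 2)) (rf (nat_lit 3)))))) q13151 (by decide +kernel)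
def q13154 : Q := Q.p (nat_lit 0xc0000200000800002000000000000000000000000000000000000000000000000000000000000000) (nat_lit 0x3cf000f38007cf0000000000000000000000000000000000000000000000000000000000000000000000000) (nat_lit 10)
theorem c13154 : QOK q13154 := cut [q13132, q13149, q13150, q13153] ⟨c13132, c13149, c13150, c13153, trivial⟩ (nd (nat_lit 317) (nat_lit 0) (cs (rf (nat_lit 0)) (cs (rf (nat_lit 1)) (cs (rf (nat_lit 2)) (rf (nat_lit 3)))))) q13154 (by decide +kernel)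
def q13413 : Q := Q.p (nat_lit 0x1c00002000000000010000000000000000000000000000000000000000000000000000) (nat_lit 0x700003c0007f8001fc000ff8000df80003c0001f80077e003ef0003dc0003e0000f80000000000000000000000000000000000) (nat_lit 16)
theorem c13413 : QOK q13413 := cut [q12956, q13240, q13258, q13317, q13372, q13373, q12953, q5014, q13397, q13404, q13408] ⟨c12956, c13240, c13258, c13317, c13372, c13373, c12953, c5014, c13397, c13404, c13408, trivial⟩ (nd (nat_lit 273) (nat_lit 0) (cs (rf (nat_lit 0)) (cs (rf (nat_lit 1)) (cs (nd (nat_lit 298) (nat_lit 0) (cs (lf (nat_lit 5) (nat_lit 273)) (nd (nat_lit 320) (nat_lit 0) (cs (lf (nat_lit 42) (nat_lit 253)) (rf (nat_lit 2)))))) (cs (nd (nat_lit 318) (nat_lit 0) (cs (nd (nat_lit 294) (nat_lit 0) (cs (lf (nat_lit 10) (nat_lit 272)) (nd (nat_lit 296) (nat_lit 0) (cs (lf (nat_lit 30) (nat_lit 252)) (nd (nat_lit 272) (nat_lit 0) (cs (lf (nat_lit 11) (nat_lit 271))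 (nd (nat_lit 252) (nat_lit 0) (cs (lf (nat_lit 12) (nat_lit 249)) (nd (nat_lit 229) (nat_lit 0) (cs (lf (nat_lit 46) (nat_lit 229)) (nd (nat_lit 230) (nat_lit 0) (cs (lf (nat_lit 24) (nat_lit 186)) (lf (nat_lit 47) (nat_lit 207)))))))))))))) (cs (rf (nat_lit 3)) (cs (nd (nat_lit 229) (nat_lit 0) (cs (nd (nat_lit 294) (nat_lit 0) (cs (lf (nat_lit 10) (nat_lit 272)) (nd (nat_lit 272) (nat_lit 0) (cs (lf (nat_lit 11) (nat_lit 271)) (nd (nat_lit 252) (nat_lit 0) (cs (lf (nat_lit 12) (nat_lit 249)) (nd (nat_lit 251) (nat_lit 0) (cs (lf (nat_lit 43) (nat_lit 229)) (lf (nat_lit 36) (nat_lit 206)))))))))) (cs (rf (nat_lit 4)) (cs (nd (nat_lit 230) (nat_lit 0) (cs (rf (nat_lit 5)) (cs (nd (nat_lit 298) (nat_lit 0) (cs (lf (nat_lit 5) (nat_lit 273)) (nd (nat_lit 320) (nat_lit 0) (cs (lf (nat_lit 42) (nat_lit 253)) (nd (nat_lit 251) (nat_lit 0) (cs (lf (nat_lit 30) (nat_lit 207)) (rf (nat_lit 6)))))))) (cs (nd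 (nat_lit 295) (nat_lit 0) (cs (lf (nat_lit 38) (nat_lit 207)) (lf (nat_lit 32) (nat_lit 207)))) (nd (nat_lit 186) (nat_lit 0) (cs (lf (nat_lit 27) (nat_lit 186)) (nd (nat_lit 251) (nat_lit 0) (cs (lf (nat_lit 36) (nat_lit 163)) (lf (nat_lit 33) (nat_lit 185)))))))))) (cs (nd (nat_lit 298) (nat_lit 0) (cs (lf (nat_lit 5) (nat_lit 273)) (nd (nat_lit 320) (nat_lit 0) (cs (lf (nat_lit 42) (nat_lit 253)) (nd (nat_lit 294) (nat_lit 0) (cs (lf (nat_lit 10) (nat_lit 272)) (nd (nat_lit 272) (nat_lit 0) (cs (lf (nat_lit 11) (nat_lit 271)) (nd (nat_lit 252) (nat_lit 0) (cs (lf (nat_lit 12) (nat_lit 249)) (nd (nat_lit 230) (nat_lit 0) (cs (lf (nat_lit 24) (nat_lit 186)) (nd (nat_lit 228) (nat_lit 0) (cs (lf (nat_lit 0) (nat_lit 227)) (nd (nat_lit 207) (nat_lit 0) (cs (lf (nat_lit 42) (nat_lit 207)) (rf (nat_lit 7)))))))))))))))))) (nd (nat_lit 295) (nat_lit 0) (cs (lf (nat_lit 11) (nat_lit 272)) (nd (nat_lit 251)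 (nat_lit 0) (cs (lf (nat_lit 34) (nat_lit 207)) (lf (nat_lit 28) (nat_lit 229))))))))))) (nd (nat_lit 295) (nat_lit 0) (cs (lf (nat_lit 11) (nat_lit 272)) (nd (nat_lit 298) (nat_lit 0) (cs (lf (nat_lit 5) (nat_lit 273)) (nd (nat_lit 320) (nat_lit 0) (cs (lf (nat_lit 42) (nat_lit 253)) (nd (nat_lit 230) (nat_lit 0) (cs (lf (nat_lit 38) (nat_lit 207)) (nd (nat_lit 251) (nat_lit 0) (cs (lf (nat_lit 33) (nat_lit 207)) (rf (nat_lit 8)))))))))))))))) (cs (nd (nat_lit 295) (nat_lit 0) (cs (lf (nat_lit 11) (nat_lit 272)) (nd (nat_lit 251) (nat_lit 0) (cs (lf (nat_lit 23) (nat_lit 250)) (rf (nat_lit 9)))))) (nd (nat_lit 298) (nat_lit 0) (cs (lf (nat_lit 5) (nat_lit 273)) (nd (nat_lit 320) (nat_lit 0) (cs (lf (nat_lit 42) (nat_lit 253)) (nd (nat_lit 250) (nat_lit 0) (cs (lf (nat_lit 22) (nat_lit 250)) (nd (nat_lit 272) (nat_lit 0) (cs (lf (nat_lit 23) (nat_lit 249)) (rf (nat_lit 10)))))))))))))))) q13413 (by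 decide +kernel)
def q14110 : Q := Q.p (nat_lit 0xc00002000000000010000000000000000000000000000000000000000000000000000) (nat_lit 0x500005c0001fc801ffe007ff801ff7007f3800f9f003f78001ee0007de001060000080000000000000000000000000000000000) (nat_lit 17)
theorem c14110 : QOK q14110 := cut [q13240, q12652, q13470, q12834, q13474, q11595, q13481, q12932, q13048, q12673, q13238, q13256, q13484, q13459, q13503, q13504, q13505, q5304, q13507, q13172, q13521, q13551, q13556, q13562, q13569, q13604, q13622, q13913, q13915, q13919, q13931, q13937, q14106, q13458, q13461, q14108] ⟨c13240, c12652, c13470, c12834, c13474, c11595, c13481, c12932, c13048, c12673, c13238, c13256, c13484, c13459, c13503, c13504, c13505, c5304, c13507, c13172, c13521, c13551, c13556, c13562, c13569, c13604, c13622, c13913, c13915, c13919, c13931, c13937, c14106, c13458, c13461, c14108, trivial⟩ (nd (nat_lit 299) (nat_lit 0) (cs (nd (nat_lit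 273) (nat_lit 0) (cs (nd (nat_lit 276) (nat_lit 0) (cs (lf (nat_lit 4) (nat_lit 273)) (nd (nat_lit 251) (nat_lit 0) (cs (lf (nat_lit 23) (nat_lit 250)) (nd (nat_lit 252) (nat_lit 0) (cs (lf (nat_lit 18) (nat_lit 251)) (nd (nat_lit 230) (nat_lit 0) (cs (lf (nat_lit 29) (nat_lit 208)) (lf (nat_lit 36) (nat_lit 185)))))))))) (cs (nd (nat_lit 276) (nat_lit 0) (cs (lf (nat_lit 4) (nat_lit 273)) (rf (nat_lit 0)))) (cs (nd (nat_lit 252) (nat_lit 0) (cs (rf (nat_lit 1)) (rf (nat_lit 2)))) (cs (nd (nat_lit 297) (nat_lit 0) (cs (rf (nat_lit 3)) (cs (nd (nat_lit 252) (nat_lit 0) (cs (rf (nat_lit 1)) (nd (nat_lit 318) (nat_lit 0) (cs (nd (nat_lit 296) (nat_lit 0) (cs (lf (nat_lit 30) (nat_lit 252)) (lf (nat_lit 19) (nat_lit 273)))) (cs (rf (nat_lit 4)) (nd (nat_lit 298) (nat_lit 0) (cs (lf (nat_lit 21) (nat_lit 273)) (nd (nat_lit 319) (nat_lit 0) (cs (lf (nat_lit 42) (nat_lit 252)) (rf (nat_lit 5))))))))))) (cs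 (rf (nat_lit 6)) (nd (nat_lit 319) (nat_lit 0) (cs (rf (nat_lit 7)) (cs (rf (nat_lit 8)) (nd (nat_lit 318) (nat_lit 0) (cs (lf (nat_lit 41) (nat_lit 252)) (nd (nat_lit 272) (nat_lit 0) (cs (rf (nat_lit 9)) (cs (rf (nat_lit 10)) (cs (rf (nat_lit 11)) (nd (nat_lit 294) (nat_lit 0) (cs (lf (nat_lit 11) (nat_lit 271)) (nd (nat_lit 316) (nat_lit 0) (cs (nd (nat_lit 230) (nat_lit 0) (cs (lf (nat_lit 26) (nat_lit 208)) (nd (nat_lit 338) (nat_lit 0) (cs (rf (nat_lit 12)) (lf (nat_lit 35) (nat_lit 250)))))) (cs (nd (nat_lit 250) (nat_lit 0) (cs (lf (nat_lit 23) (nat_lit 249)) (nd (nat_lit 320) (nat_lit 0) (cs (lf (nat_lit 29) (nat_lit 253)) (nd (nat_lit 317) (nat_lit 0) (cs (lf (nat_lit 29) (nat_lit 250)) (nd (nat_lit 315) (nat_lit 0) (cs (lf (nat_lit 41) (nat_lit 249)) (lf (nat_lit 16) (nat_lit 293)))))))))) (nd (nat_lit 320) (nat_lit 0) (cs (lf (nat_lit 29) (nat_lit 253)) (nd (nat_lit 251) (nat_lit 0) (cs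 (lf (nat_lit 30) (nat_lit 250)) (nd (nat_lit 250) (nat_lit 0) (cs (lf (nat_lit 23) (nat_lit 249)) (lf (nat_lit 35) (nat_lit 228)))))))))))))))))))))))))) (nd (nat_lit 298) (nat_lit 0) (cs (lf (nat_lit 3) (nat_lit 273)) (rf (nat_lit 13))))))))) (cs (nd (nat_lit 276) (nat_lit 0) (cs (rf (nat_lit 14)) (cs (rf (nat_lit 15)) (rf (nat_lit 16))))) (cs (nd (nat_lit 252) (nat_lit 0) (cs (rf (nat_lit 1)) (cs (nd (nat_lit 251) (nat_lit 0) (cs (rf (nat_lit 17)) (cs (nd (nat_lit 318) (nat_lit 0) (cs (rf (nat_lit 18)) (cs (nd (nat_lit 319) (nat_lit 0) (cs (rf (nat_lit 19)) (cs (nd (nat_lit 321) (nat_lit 0) (cs (rf (nat_lit 20)) (cs (rf (nat_lit 21)) (cs (rf (nat_lit 22)) (cs (nd (nat_lit 320) (nat_lit 0) (cs (lf (nat_lit 17) (nat_lit 296)) (nd (nat_lit 229) (nat_lit 0) (cs (lf (nat_lit 43) (nat_lit 229)) (nd (nat_lit 277) (nat_lit 0) (cs (lf (nat_lit 19) (nat_lit 251)) (nd (nat_lit 342) (nat_lit 0) (cs (lf (nat_lit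 26) (nat_lit 253)) (lf (nat_lit 36) (nat_lit 254)))))))))) (rf (nat_lit 23))))))) (rf (nat_lit 24))))) (rf (nat_lit 25))))) (rf (nat_lit 26))))) (rf (nat_lit 27))))) (cs (nd (nat_lit 297) (nat_lit 0) (cs (rf (nat_lit 28)) (cs (nd (nat_lit 319) (nat_lit 0) (cs (rf (nat_lit 7)) (cs (rf (nat_lit 8)) (rf (nat_lit 29))))) (cs (rf (nat_lit 30)) (rf (nat_lit 31)))))) (cs (rf (nat_lit 32)) (nd (nat_lit 298) (nat_lit 0) (cs (rf (nat_lit 33)) (cs (nd (nat_lit 273) (nat_lit 0) (cs (lf (nat_lit 3) (nat_lit 273)) (rf (nat_lit 13)))) (cs (rf (nat_lit 34)) (rf (nat_lit 35)))))))))))) q14110 (by decide +kernel)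
def q14432 : Q := Q.p (nat_lit 0x200000e00002000000000000000000000000000000000000000000000000000000000000000) (nat_lit 0x500005c0003f0003ff000ff8007df0004000010800000000000000000000000000000000000000000000000000000000000000) (nat_lit 14)
theorem c14432 : QOK q14432 := cut [q2579, q12932, q14366, q14396, q14431] ⟨c2579, c12932, c14366, c14396, c14431, trivial⟩ (nd (nat_lit 319) (nat_lit 0) (cs (rf (nat_lit 0)) (cs (rf (nat_lit 1)) (cs (rf (nat_lit 2)) (cs (rf (nat_lit 3)) (rf (nat_lit 4))))))) q14432 (by decide +kernel)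
def q14662 : Q := Q.p (nat_lit 0x1c00000000000000000000000000000000000000000000000000000000000000000000) (nat_lit 0x10003ff000e380038f00002000008000000000000000000000000000000000000000000000000000) (nat_lit 8)
theorem c14662 : QOK q14662 := cut [q12683, q12945, q12684, q13001, q13007] ⟨c12683, c12945, c12684, c13001, c13007, trivial⟩ (nd (nat_lit 273) (nat_lit 0) (cs (rf (nat_lit 0)) (cs (rf (nat_lit 1)) (cs (nd (nat_lit 277) (nat_lit 0) (cs (rf (nat_lit 2)) (cs (nd (nat_lit 250) (nat_lit 0) (cs (lf (nat_lit 22) (nat_lit 250)) (nd (nat_lit 256) (nat_lit 0) (cs (lf (nat_lit 16) (nat_lit 252)) (nd (nat_lit 278) (nat_lit 0) (cs (lf (nat_lit 17) (nat_lit 253)) (nd (nat_lit 297) (nat_lit 0) (cs (nd (nat_lit 298) (nat_lit 0) (cs (lf (nat_lit 0) (nat_lit 272)) (lf (nat_lit 6) (nat_lit 275)))) (lf (nat_lit 11) (nat_lit 274)))))))))) (nd (nat_lit 256) (nat_lit 0) (cs (lf (nat_lit 16) (nat_lit 252)) (nd (nat_lit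 250) (nat_lit 0) (cs (lf (nat_lit 22) (nat_lit 250)) (rf (nat_lit 3))))))))) (rf (nat_lit 4)))))) q14662 (by decide +kernel)
def q14692 : Q := Q.p (nat_lit 0xc00003000004000010000000000000000000000000000000000000000000000000000) (nat_lit 0x1c80007380000e00000000000000000000000000000000000000000000000000000000000000) (nat_lit 7)
theorem c14692 : QOK q14692 := cut [q14691] ⟨c14691, trivial⟩ (nd (nat_lit 273) (nat_lit 0) (cs (lf (nat_lit 41) (nat_lit 207)) (rf (nat_lit 0)))) q14692 (by decide +kernel)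
def q14822 : Q := Q.p (nat_lit 0xc00002000000000010000000000000000000000000000000000000000000000000000) (nat_lit 0x100000600001c0003fc0007f8003ff0001380001e0000780002c0000d0000000000000000000000000000000000000000000000) (nat_lit 15)
theorem c14822 : QOK q14822 := cut [q12652, q13042, q13470, q14708, q14770, q14772, q14785, q14792, q14798, q12843, q14819, q14821] ⟨c12652, c13042, c13470, c14708, c14770, c14772, c14785, c14792, c14798, c12843, c14819, c14821, trivial⟩ (nd (nat_lit 252) (nat_lit 0) (cs (rf (nat_lit 0)) (cs (nd (nat_lit 273) (nat_lit 0) (cs (rf (nat_lit 1)) (cs (rf (nat_lit 2)) (cs (rf (nat_lit 3)) (cs (rf (nat_lit 4)) (cs (nd (nat_lit 272) (nat_lit 0) (cs (lf (nat_lit 12) (nat_lit 249)) (nd (nat_lit 250) (nat_lit 0) (cs (lf (nat_lit 23) (nat_lit 249)) (nd (nat_lit 297) (nat_lit 0) (cs (lf (nat_lit 5) (nat_lit 272)) (nd (nat_lit 251) (nat_lit 0) (cs (lf (nat_lit 18) (nat_lit 250)) (nd (nat_lit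 319) (nat_lit 0) (cs (lf (nat_lit 42) (nat_lit 252)) (nd (nat_lit 227) (nat_lit 0) (cs (lf (nat_lit 22) (nat_lit 227)) (nd (nat_lit 318) (nat_lit 0) (cs (lf (nat_lit 41) (nat_lit 252)) (nd (nat_lit 296) (nat_lit 0) (cs (lf (nat_lit 47) (nat_lit 229)) (rf (nat_lit 5)))))))))))))))))) (nd (nat_lit 296) (nat_lit 0) (cs (nd (nat_lit 318) (nat_lit 0) (cs (lf (nat_lit 30) (nat_lit 252)) (nd (nat_lit 319) (nat_lit 0) (cs (lf (nat_lit 29) (nat_lit 252)) (rf (nat_lit 6)))))) (cs (nd (nat_lit 272) (nat_lit 0) (cs (lf (nat_lit 12) (nat_lit 249)) (nd (nat_lit 249) (nat_lit 0) (cs (lf (nat_lit 22) (nat_lit 249)) (rf (nat_lit 7)))))) (cs (nd (nat_lit 318) (nat_lit 0) (cs (lf (nat_lit 30) (nat_lit 252)) (nd (nat_lit 319) (nat_lit 0) (cs (lf (nat_lit 29) (nat_lit 252)) (nd (nat_lit 317) (nat_lit 0) (cs (lf (nat_lit 41) (nat_lit 251)) (nd (nat_lit 251) (nat_lit 0) (cs (lf (nat_lit 47) (nat_lit 229)) (nd (nat_lit 272)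 (nat_lit 0) (cs (lf (nat_lit 12) (nat_lit 249)) (nd (nat_lit 249) (nat_lit 0) (cs (rf (nat_lit 8)) (lf (nat_lit 1) (nat_lit 249)))))))))))))) (cs (nd (nat_lit 271) (nat_lit 0) (cs (lf (nat_lit 13) (nat_lit 249)) (nd (nat_lit 318) (nat_lit 0) (cs (lf (nat_lit 30) (nat_lit 252)) (rf (nat_lit 6)))))) (nd (nat_lit 318) (nat_lit 0) (cs (lf (nat_lit 30) (nat_lit 252)) (nd (nat_lit 319) (nat_lit 0) (cs (lf (nat_lit 29) (nat_lit 252)) (nd (nat_lit 229) (nat_lit 0) (cs (lf (nat_lit 46) (nat_lit 229)) (nd (nat_lit 317) (nat_lit 0) (cs (lf (nat_lit 41) (nat_lit 251)) (nd (nat_lit 272) (nat_lit 0) (cs (lf (nat_lit 12) (nat_lit 249)) (nd (nat_lit 297) (nat_lit 0) (cs (lf (nat_lit 5) (nat_lit 272)) (nd (nat_lit 315) (nat_lit 0) (cs (lf (nat_lit 13) (nat_lit 293)) (nd (nat_lit 293) (nat_lit 0) (cs (lf (nat_lit 10) (nat_lit 271)) (rf (nat_lit 9))))))))))))))))))))))))))))) (cs (nd (nat_lit 230) (nat_lit 0) (cs (lf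 (nat_lit 24) (nat_lit 186)) (rf (nat_lit 10)))) (rf (nat_lit 11)))))) q14822 (by decide +kernel)
def q15403 : Q := Q.p (nat_lit 0x800002000000000078000000000000000000000000000000000000000000000000000) (nat_lit 0x8000778003fe000df80077f8001f80037f0000780035e0001300004c0000000000000000000000000000000000) (nat_lit 15)
theorem c15403 : QOK q15403 := cut [q15215, q15319, q15320, q15322, q15332, q15333, q117, q15260, q15264, q5881, q15339, q15393, q15396, q1832] ⟨c15215, c15319, c15320, c15322, c15332, c15333, c117, c15260, c15264, c5881, c15339, c15393, c15396, c1832, trivial⟩ (nd (nat_lit 251) (nat_lit 0) (cs (nd (nat_lit 228) (nat_lit 0) (cs (lf (nat_lit 10) (nat_lit 206)) (nd (nat_lit 188) (nat_lit 0) (cs (lf (nat_lit 17) (nat_lit 185)) (nd (nat_lit 232) (nat_lit 0) (cs (lf (nat_lit 5) (nat_lit 207)) (nd (nat_lit 206) (nat_lit 0) (cs (lf (nat_lit 11) (nat_lit 205)) (nd (nat_lit 183) (nat_lit 0) (cs (lf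 (nat_lit 22) (nat_lit 183)) (nd (nat_lit 205) (nat_lit 0) (cs (lf (nat_lit 23) (nat_lit 182)) (nd (nat_lit 139) (nat_lit 0) (cs (nd (nat_lit 250) (nat_lit 0) (cs (lf (nat_lit 42) (nat_lit 183)) (nd (nat_lit 252) (nat_lit 0) (cs (lf (nat_lit 5) (nat_lit 250)) (nd (nat_lit 249) (nat_lit 0) (cs (lf (nat_lit 4) (nat_lit 249)) (nd (nat_lit 270) (nat_lit 0) (cs (lf (nat_lit 10) (nat_lit 248)) (nd (nat_lit 248) (nat_lit 0) (cs (lf (nat_lit 11) (nat_lit 247)) (nd (nat_lit 226) (nat_lit 0) (cs (lf (nat_lit 23) (nat_lit 225)) (lf (nat_lit 33) (nat_lit 182)))))))))))))) (lf (nat_lit 25) (nat_lit 139)))))))))))))))) (cs (nd (nat_lit 250) (nat_lit 0) (cs (nd (nat_lit 188) (nat_lit 0) (cs (lf (nat_lit 17) (nat_lit 185)) (rf (nat_lit 0)))) (cs (rf (nat_lit 1)) (cs (nd (nat_lit 228) (nat_lit 0) (cs (rf (nat_lit 2)) (cs (nd (nat_lit 188) (nat_lit 0) (cs (lf (nat_lit 17) (nat_lit 185)) (nd (nat_lit 232) (nat_lit 0) (cs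 (lf (nat_lit 5) (nat_lit 207)) (nd (nat_lit 276) (nat_lit 0) (cs (nd (nat_lit 273) (nat_lit 0) (cs (rf (nat_lit 3)) (lf (nat_lit 20) (nat_lit 250)))) (lf (nat_lit 2) (nat_lit 250)))))))) (nd (nat_lit 206) (nat_lit 0) (cs (lf (nat_lit 11) (nat_lit 205)) (nd (nat_lit 184) (nat_lit 0) (cs (lf (nat_lit 23) (nat_lit 183)) (lf (nat_lit 29) (nat_lit 184))))))))) (cs (rf (nat_lit 4)) (cs (rf (nat_lit 5)) (nd (nat_lit 206) (nat_lit 0) (cs (rf (nat_lit 6)) (cs (rf (nat_lit 7)) (cs (rf (nat_lit 8)) (cs (nd (nat_lit 188) (nat_lit 0) (cs (lf (nat_lit 17) (nat_lit 185)) (nd (nat_lit 232) (nat_lit 0) (cs (lf (nat_lit 5) (nat_lit 207)) (nd (nat_lit 184) (nat_lit 0) (cs (lf (nat_lit 23) (nat_lit 183)) (nd (nat_lit 228) (nat_lit 0) (cs (lf (nat_lit 29) (nat_lit 184)) (rf (nat_lit 9)))))))))) (nd (nat_lit 188) (nat_lit 0) (cs (lf (nat_lit 17) (nat_lit 185)) (nd (nat_lit 232) (nat_lit 0) (cs (lf (nat_lit 5) (nat_lit 207))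 (nd (nat_lit 227) (nat_lit 0) (cs (lf (nat_lit 10) (nat_lit 205)) (nd (nat_lit 205) (nat_lit 0) (cs (lf (nat_lit 11) (nat_lit 204)) (nd (nat_lit 182) (nat_lit 0) (cs (lf (nat_lit 22) (nat_lit 182)) (nd (nat_lit 204) (nat_lit 0) (cs (lf (nat_lit 23) (nat_lit 181)) (nd (nat_lit 138) (nat_lit 0) (cs (nd (nat_lit 249) (nat_lit 0) (cs (lf (nat_lit 42) (nat_lit 182)) (rf (nat_lit 10)))) (lf (nat_lit 25) (nat_lit 138))))))))))))))))))))))))))) (cs (rf (nat_lit 11)) (cs (nd (nat_lit 228) (nat_lit 0) (cs (lf (nat_lit 10) (nat_lit 206)) (nd (nat_lit 232) (nat_lit 0) (cs (lf (nat_lit 5) (nat_lit 207)) (nd (nat_lit 206) (nat_lit 0) (cs (lf (nat_lit 11) (nat_lit 205)) (nd (nat_lit 184) (nat_lit 0) (cs (lf (nat_lit 23) (nat_lit 183)) (rf (nat_lit 12)))))))))) (nd (nat_lit 229) (nat_lit 0) (cs (lf (nat_lit 11) (nat_lit 206)) (nd (nat_lit 188) (nat_lit 0) (cs (lf (nat_lit 17) (nat_lit 185)) (rf (nat_lit 13)))))))))))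 q15403 (by decide +kernel)
def q15630 : Q := Q.p (nat_lit 0xc00002000000000010000000000000000000000000000000000000000000000000000) (nat_lit 0x300000c0000ff8003fe000ffc007ee000f380039f000780001e00005c0000400000000000000000000000000000000000000000) (nat_lit 17)
theorem c15630 : QOK q15630 := cut [q15522, q15538, q13258, q15516, q15521, q15540, q15551, q15553, q15557, q15564, q13293, q15570, q15576, q15590, q15593, q15611, q9863, q12807, q15620, q15623, q15629] ⟨c15522, c15538, c13258, c15516, c15521, c15540, c15551, c15553, c15557, c15564, c13293, c15570, c15576, c15590, c15593, c15611, c9863, c12807, c15620, c15623, c15629, trivial⟩ (nd (nat_lit 276) (nat_lit 0) (cs (rf (nat_lit 0)) (cs (rf (nat_lit 1)) (cs (nd (nat_lit 273) (nat_lit 0) (cs (rf (nat_lit 2)) (cs (rf (nat_lit 3)) (cs (rf (nat_lit 4)) (cs (nd (nat_lit 251) (nat_lit 0) (cs (lf (nat_lit 23) (nat_lit 250)) (nd (nat_lit 295) (nat_lit 0) (cs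 (lf (nat_lit 11) (nat_lit 272)) (nd (nat_lit 340) (nat_lit 0) (cs (rf (nat_lit 5)) (cs (rf (nat_lit 6)) (cs (nd (nat_lit 339) (nat_lit 0) (cs (rf (nat_lit 7)) (cs (nd (nat_lit 342) (nat_lit 0) (cs (rf (nat_lit 8)) (cs (rf (nat_lit 9)) (cs (nd (nat_lit 341) (nat_lit 0) (cs (rf (nat_lit 10)) (cs (rf (nat_lit 11)) (cs (nd (nat_lit 364) (nat_lit 0) (cs (lf (nat_lit 5) (nat_lit 339)) (nd (nat_lit 338) (nat_lit 0) (cs (lf (nat_lit 4) (nat_lit 338)) (nd (nat_lit 297) (nat_lit 0) (cs (nd (nat_lit 277) (nat_lit 0) (cs (lf (nat_lit 22) (nat_lit 251)) (rf (nat_lit 12)))) (lf (nat_lit 26) (nat_lit 275)))))))) (rf (nat_lit 13)))))) (cs (nd (nat_lit 341) (nat_lit 0) (cs (rf (nat_lit 10)) (cs (rf (nat_lit 11)) (cs (rf (nat_lit 13)) (nd (nat_lit 252) (nat_lit 0) (cs (lf (nat_lit 18) (nat_lit 251)) (nd (nat_lit 364) (nat_lit 0) (cs (lf (nat_lit 5) (nat_lit 339)) (nd (nat_lit 338) (nat_lit 0) (cs (lf (nat_lit 4) (nat_lit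 338)) (rf (nat_lit 14)))))))))))) (rf (nat_lit 15))))))) (nd (nat_lit 317) (nat_lit 0) (cs (rf (nat_lit 16)) (lf (nat_lit 29) (nat_lit 273))))))) (nd (nat_lit 317) (nat_lit 0) (cs (lf (nat_lit 28) (nat_lit 251)) (rf (nat_lit 17)))))))))))) (rf (nat_lit 18))))))) (cs (rf (nat_lit 19)) (rf (nat_lit 20))))))) q15630 (by decide +kernel)
def q15708 : Q := Q.p (nat_lit 0xc00002000000000010000000000000000000000000000000000000000000000000000) (nat_lit 0x700007c0007f8001fe000ff8003df0007380039f0007bc001ee0007dc000400001000000000000000000000000000000000000) (nat_lit 16)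
theorem c15708 : QOK q15708 := cut [q12681, q13238, q13256, q13007, q14622, q14655, q15538, q14707, q15635, q4446, q113, q1548, q15644, q15650, q15652, q15653, q12673, q12960, q12986, q15655, q12947, q15668, q14678, q1075, q12684, q12946, q14767, q15684, q15707] ⟨c12681, c13238, c13256, c13007, c14622, c14655, c15538, c14707, c15635, c4446, c113, c1548, c15644, c15650, c15652, c15653, c12673, c12960, c12986, c15655, c12947, c15668, c14678, c1075, c12684, c12946, c14767, c15684, c15707, trivial⟩ (nd (nat_lit 273) (nat_lit 0) (cs (nd (nat_lit 272) (nat_lit 0) (cs (rf (nat_lit 0)) (cs (rf (nat_lit 1)) (rf (nat_lit 2))))) (cs (nd (nat_lit 276) (nat_lit 0) (cs (rf (nat_lit 3)) (cs (rf (nat_lit 4)) (cs (rf (nat_lit 5)) (rf (nat_lit 6)))))) (cs (nd (nat_lit 272) (nat_lit 0) (cs (rf (nat_lit 1)) (cs (rf (nat_lit 2)) (rf (nat_lit 7))))) (cs (nd (nat_lit 209) (nat_lit 0) (cs (nd (nat_lit 294) (nat_lit 0) (cs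 (rf (nat_lit 8)) (cs (nd (nat_lit 272) (nat_lit 0) (cs (lf (nat_lit 11) (nat_lit 271)) (nd (nat_lit 271) (nat_lit 0) (cs (lf (nat_lit 16) (nat_lit 249)) (nd (nat_lit 207) (nat_lit 0) (cs (nd (nat_lit 229) (nat_lit 0) (cs (lf (nat_lit 38) (nat_lit 206)) (rf (nat_lit 9)))) (cs (nd (nat_lit 249) (nat_lit 0) (cs (lf (nat_lit 23) (nat_lit 248)) (nd (nat_lit 205) (nat_lit 0) (cs (lf (nat_lit 25) (nat_lit 205)) (nd (nat_lit 206) (nat_lit 0) (cs (rf (nat_lit 10)) (rf (nat_lit 11)))))))) (nd (nat_lit 248) (nat_lit 0) (cs (lf (nat_lit 22) (nat_lit 248)) (nd (nat_lit 229) (nat_lit 0) (cs (lf (nat_lit 38) (nat_lit 206)) (rf (nat_lit 12))))))))))))) (rf (nat_lit 13))))) (cs (rf (nat_lit 14)) (rf (nat_lit 15))))) (cs (nd (nat_lit 272) (nat_lit 0) (cs (rf (nat_lit 16)) (cs (rf (nat_lit 1)) (cs (rf (nat_lit 2)) (nd (nat_lit 250) (nat_lit 0) (cs (lf (nat_lit 23) (nat_lit 249)) (nd (nat_lit 317) (nat_lit 0) (cs (rf (nat_lit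 17)) (cs (rf (nat_lit 18)) (cs (rf (nat_lit 19)) (nd (nat_lit 294) (nat_lit 0) (cs (lf (nat_lit 11) (nat_lit 271)) (nd (nat_lit 228) (nat_lit 0) (cs (lf (nat_lit 28) (nat_lit 228)) (nd (nat_lit 207) (nat_lit 0) (cs (lf (nat_lit 34) (nat_lit 206)) (nd (nat_lit 205) (nat_lit 0) (cs (lf (nat_lit 46) (nat_lit 205)) (nd (nat_lit 206) (nat_lit 0) (cs (lf (nat_lit 47) (nat_lit 183)) (nd (nat_lit 184) (nat_lit 0) (cs (lf (nat_lit 28) (nat_lit 184)) (nd (nat_lit 187) (nat_lit 0) (cs (lf (nat_lit 16) (nat_lit 183)) (nd (nat_lit 209) (nat_lit 0) (cs (lf (nat_lit 17) (nat_lit 184)) (nd (nat_lit 231) (nat_lit 0) (cs (lf (nat_lit 5) (nat_lit 206)) (lf (nat_lit 40) (nat_lit 186)))))))))))))))))))))))))))))) (cs (nd (nat_lit 251) (nat_lit 0) (cs (rf (nat_lit 20)) (cs (nd (nat_lit 207) (nat_lit 0) (cs (rf (nat_lit 21)) (cs (nd (nat_lit 229) (nat_lit 0) (cs (lf (nat_lit 35) (nat_lit 185)) (rf (nat_lit 22)))) (cs (nd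 (nat_lit 209) (nat_lit 0) (cs (rf (nat_lit 15)) (nd (nat_lit 188) (nat_lit 0) (cs (nd (nat_lit 206) (nat_lit 0) (cs (lf (nat_lit 16) (nat_lit 184)) (nd (nat_lit 183) (nat_lit 0) (cs (lf (nat_lit 22) (nat_lit 183)) (nd (nat_lit 205) (nat_lit 0) (cs (lf (nat_lit 23) (nat_lit 182)) (rf (nat_lit 23)))))))) (nd (nat_lit 210) (nat_lit 0) (cs (lf (nat_lit 17) (nat_lit 185)) (nd (nat_lit 233) (nat_lit 0) (cs (lf (nat_lit 4) (nat_lit 207)) (nd (nat_lit 211) (nat_lit 0) (cs (lf (nat_lit 5) (nat_lit 208)) (nd (nat_lit 144) (nat_lit 0) (cs (lf (nat_lit 25) (nat_lit 144)) (nd (nat_lit 277) (nat_lit 0) (cs (lf (nat_lit 43) (nat_lit 188)) (nd (nat_lit 276) (nat_lit 0) (cs (rf (nat_lit 24)) (lf (nat_lit 22) (nat_lit 251)))))))))))))))))) (nd (nat_lit 229) (nat_lit 0) (cs (lf (nat_lit 29) (nat_lit 207)) (rf (nat_lit 22)))))))) (nd (nat_lit 250) (nat_lit 0) (cs (rf (nat_lit 25)) (nd (nat_lit 228) (nat_lit 0) (cs (rf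 (nat_lit 26)) (nd (nat_lit 252) (nat_lit 0) (cs (lf (nat_lit 23) (nat_lit 227)) (rf (nat_lit 27))))))))))) (rf (nat_lit 28))))))))) q15708 (by decide +kernel)
def q15990 : Q := Q.p (nat_lit 0xc00002000000000010000000000000000000000000000000000000000000000000000) (nat_lit 0xa80007e0003fe0003e00033e0001f8000be0006f8001d8000420000000000000000000000000000000000000000) (nat_lit 15)
theorem c15990 : QOK q15990 := cut [q15802, q15829, q15887, q15066, q15910, q15065, q15911, q15913, q15886, q15922, q14188, q15805, q15931, q15934, q15937, q15826, q15909, q14184, q15939, q15947, q15953, q15957, q15972, q15974, q11816, q15986] ⟨c15802, c15829, c15887, c15066, c15910, c15065, c15911, c15913, c15886, c15922, c14188, c15805, c15931, c15934, c15937, c15826, c15909, c14184, c15939, c15947, c15953, c15957, c15972, c15974, c11816, c15986, trivial⟩ (nd (nat_lit 296) (nat_lit 0) (cs (rf (nat_lit 0)) (cs (rf (nat_lit 1))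 (cs (nd (nat_lit 294) (nat_lit 0) (cs (rf (nat_lit 2)) (cs (nd (nat_lit 272) (nat_lit 0) (cs (rf (nat_lit 3)) (cs (rf (nat_lit 4)) (cs (nd (nat_lit 273) (nat_lit 0) (cs (rf (nat_lit 5)) (rf (nat_lit 6)))) (nd (nat_lit 209) (nat_lit 0) (cs (lf (nat_lit 37) (nat_lit 208)) (rf (nat_lit 7)))))))) (cs (nd (nat_lit 295) (nat_lit 0) (cs (rf (nat_lit 8)) (cs (nd (nat_lit 272) (nat_lit 0) (cs (nd (nat_lit 271) (nat_lit 0) (cs (nd (nat_lit 273) (nat_lit 0) (cs (lf (nat_lit 16) (nat_lit 249)) (lf (nat_lit 0) (nat_lit 270)))) (lf (nat_lit 18) (nat_lit 271)))) (cs (nd (nat_lit 209) (nat_lit 0) (cs (lf (nat_lit 37) (nat_lit 208)) (rf (nat_lit 9)))) (cs (nd (nat_lit 250) (nat_lit 0) (cs (rf (nat_lit 10)) (cs (rf (nat_lit 11)) (nd (nat_lit 209) (nat_lit 0) (cs (lf (nat_lit 37) (nat_lit 208)) (nd (nat_lit 228) (nat_lit 0) (cs (lf (nat_lit 29) (nat_lit 228)) (nd (nat_lit 273) (nat_lit 0) (cs (lf (nat_lit 23) (nat_lit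 249)) (lf (nat_lit 24) (nat_lit 206))))))))))) (nd (nat_lit 209) (nat_lit 0) (cs (lf (nat_lit 37) (nat_lit 208)) (rf (nat_lit 12)))))))) (rf (nat_lit 13))))) (cs (rf (nat_lit 14)) (nd (nat_lit 272) (nat_lit 0) (cs (rf (nat_lit 15)) (cs (rf (nat_lit 4)) (nd (nat_lit 250) (nat_lit 0) (cs (rf (nat_lit 11)) (cs (rf (nat_lit 16)) (cs (nd (nat_lit 316) (nat_lit 0) (cs (rf (nat_lit 17)) (cs (nd (nat_lit 209) (nat_lit 0) (cs (lf (nat_lit 37) (nat_lit 208)) (nd (nat_lit 315) (nat_lit 0) (cs (lf (nat_lit 41) (nat_lit 249)) (nd (nat_lit 295) (nat_lit 0) (cs (lf (nat_lit 6) (nat_lit 293)) (nd (nat_lit 313) (nat_lit 0) (cs (nd (nat_lit 229) (nat_lit 0) (cs (lf (nat_lit 34) (nat_lit 228)) (nd (nat_lit 228) (nat_lit 0) (cs (lf (nat_lit 35) (nat_lit 206)) (rf (nat_lit 18)))))) (lf (nat_lit 13) (nat_lit 291)))))))))) (nd (nat_lit 209) (nat_lit 0) (cs (lf (nat_lit 37) (nat_lit 208)) (nd (nat_lit 317) (nat_lit 0) (cs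 (lf (nat_lit 29) (nat_lit 250)) (nd (nat_lit 228) (nat_lit 0) (cs (lf (nat_lit 28) (nat_lit 228)) (rf (nat_lit 19))))))))))) (rf (nat_lit 20)))))))))))))) (nd (nat_lit 295) (nat_lit 0) (cs (rf (nat_lit 21)) (cs (rf (nat_lit 22)) (cs (nd (nat_lit 318) (nat_lit 0) (cs (lf (nat_lit 30) (nat_lit 252)) (rf (nat_lit 23)))) (nd (nat_lit 318) (nat_lit 0) (cs (lf (nat_lit 30) (nat_lit 252)) (nd (nat_lit 319) (nat_lit 0) (cs (nd (nat_lit 320) (nat_lit 0) (cs (lf (nat_lit 18) (nat_lit 295)) (nd (nat_lit 297) (nat_lit 0) (cs (lf (nat_lit 29) (nat_lit 253)) (rf (nat_lit 24)))))) (cs (nd (nat_lit 293) (nat_lit 0) (cs (lf (nat_lit 13) (nat_lit 271)) (nd (nat_lit 252) (nat_lit 0) (cs (lf (nat_lit 29) (nat_lit 252)) (nd (nat_lit 317) (nat_lit 0) (cs (lf (nat_lit 41) (nat_lit 251)) (nd (nat_lit 251) (nat_lit 0) (cs (lf (nat_lit 47) (nat_lit 229)) (nd (nat_lit 250) (nat_lit 0) (cs (lf (nat_lit 0) (nat_lit 249)) (nd (nat_lit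 228) (nat_lit 0) (cs (lf (nat_lit 23) (nat_lit 227)) (lf (nat_lit 44) (nat_lit 228)))))))))))))) (rf (nat_lit 25))))))))))))))) q15990 (by decide +kernel)
def q16148 : Q := Q.p (nat_lit 0x2000000000030000000000000000000000000000000000000000000000000000) (nat_lit 0x100000700003f00001c0007bc000ce000ffc000160000500000400000000000000000000000000000) (nat_lit 11)
theorem c16148 : QOK q16148 := cut [q1595, q2990, q119, q3019, q16100, q16123, q33, q139, q16059, q37, q5630, q7463, q87, q16138, q16143, q16145] ⟨c1595, c2990, c119, c3019, c16100, c16123, c33, c139, c16059, c37, c5630, c7463, c87, c16138, c16143, c16145, trivial⟩ (nd (nat_lit 231) (nat_lit 0) (cs (rf (nat_lit 0)) (cs (rf (nat_lit 1)) (cs (nd (nat_lit 207) (nat_lit 0) (cs (rf (nat_lit 2)) (cs (rf (nat_lit 3)) (cs (rf (nat_lit 4)) (cs (rf (nat_lit 5)) (nd (nat_lit 186) (nat_lit 0) (cs (rf (nat_lit 6)) (nd (nat_lit 210) (nat_lit 0) (cs (rf (nat_lit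 7)) (cs (rf (nat_lit 8)) (nd (nat_lit 185) (nat_lit 0) (cs (rf (nat_lit 9)) (nd (nat_lit 232) (nat_lit 0) (cs (lf (nat_lit 5) (nat_lit 207)) (nd (nat_lit 188) (nat_lit 0) (cs (lf (nat_lit 17) (nat_lit 185)) (nd (nat_lit 229) (nat_lit 0) (cs (lf (nat_lit 11) (nat_lit 206)) (rf (nat_lit 10)))))))))))))))))))) (nd (nat_lit 210) (nat_lit 0) (cs (rf (nat_lit 11)) (cs (nd (nat_lit 207) (nat_lit 0) (cs (rf (nat_lit 12)) (cs (rf (nat_lit 2)) (rf (nat_lit 7))))) (cs (rf (nat_lit 13)) (nd (nat_lit 207) (nat_lit 0) (cs (nd (nat_lit 232) (nat_lit 0) (cs (lf (nat_lit 5) (nat_lit 207)) (rf (nat_lit 14)))) (rf (nat_lit 15)))))))))))) q16148 (by decide +kernel)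
def q16173 : Q := Q.p (nat_lit 0x2000000000030000000000000000000000000000000000000000000000000000) (nat_lit 0x140000700001f00001c0003bc000ce0001fc0007f0001fc0001c00004000000000000000000000000) (nat_lit 14)
theorem c16173 : QOK q16173 := cut [q1595, q2990, q16057, q119, q3019, q16123, q33, q3169, q16059, q167, q5630, q3145, q3156, q3158, q16158, q1550, q4318, q16122, q6384] ⟨c1595, c2990, c16057, c119, c3019, c16123, c33, c3169, c16059, c167, c5630, c3145, c3156, c3158, c16158, c1550, c4318, c16122, c6384, trivial⟩ (nd (nat_lit 231) (nat_lit 0) (cs (rf (nat_lit 0)) (cs (rf (nat_lit 1)) (cs (rf (nat_lit 2)) (nd (nat_lit 207) (nat_lit 0) (cs (rf (nat_lit 3)) (cs (rf (nat_lit 4)) (cs (rf (nat_lit 5)) (cs (nd (nat_lit 186) (nat_lit 0) (cs (rf (nat_lit 6)) (cs (nd (nat_lit 210) (nat_lit 0) (cs (rf (nat_lit 7)) (rf (nat_lit 8)))) (nd (nat_lit 185) (nat_lit 0) (cs (rf (nat_lit 9)) (cs (nd (nat_lit 142) (nat_lit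 0) (cs (lf (nat_lit 25) (nat_lit 142)) (nd (nat_lit 210) (nat_lit 0) (cs (lf (nat_lit 18) (nat_lit 185)) (nd (nat_lit 229) (nat_lit 0) (cs (lf (nat_lit 11) (nat_lit 206)) (nd (nat_lit 232) (nat_lit 0) (cs (lf (nat_lit 5) (nat_lit 207)) (nd (nat_lit 166) (nat_lit 0) (cs (lf (nat_lit 37) (nat_lit 165)) (rf (nat_lit 10)))))))))))) (nd (nat_lit 163) (nat_lit 0) (cs (rf (nat_lit 11)) (cs (rf (nat_lit 12)) (cs (rf (nat_lit 13)) (rf (nat_lit 14)))))))))))) (cs (nd (nat_lit 206) (nat_lit 0) (cs (rf (nat_lit 15)) (cs (rf (nat_lit 16)) (rf (nat_lit 17))))) (nd (nat_lit 206) (nat_lit 0) (cs (lf (nat_lit 5) (nat_lit 206)) (nd (nat_lit 227) (nat_lit 0) (cs (lf (nat_lit 10) (nat_lit 205)) (nd (nat_lit 187) (nat_lit 0) (cs (lf (nat_lit 17) (nat_lit 184)) (nd (nat_lit 252) (nat_lit 0) (cs (lf (nat_lit 41) (nat_lit 186)) (nd (nat_lit 164) (nat_lit 0) (cs (lf (nat_lit 46) (nat_lit 164)) (nd (nat_lit 142) (nat_lit 0)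 (cs (lf (nat_lit 45) (nat_lit 142)) (nd (nat_lit 184) (nat_lit 0) (cs (lf (nat_lit 23) (nat_lit 183)) (nd (nat_lit 185) (nat_lit 0) (cs (lf (nat_lit 18) (nat_lit 184)) (nd (nat_lit 163) (nat_lit 0) (cs (lf (nat_lit 30) (nat_lit 141)) (rf (nat_lit 18)))))))))))))))))))))))))))))) q16173 (by decide +kernel)
def q16623 : Q := Q.p (nat_lit 0x8000070000000000400000000000000000000000000000000000000000) (nat_lit 0x40000700007f0000f80003e60007bf003ff8007f8001f0000780000000000000000000) (nat_lit 15)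
theorem c16623 : QOK q16623 := cut [q694, q16446, q16449, q16454, q10384, q10152, q16568, q16569, q16452, q1161, q16574, q16586, q16596, q16609, q16611] ⟨c694, c16446, c16449, c16454, c10384, c10152, c16568, c16569, c16452, c1161, c16574, c16586, c16596, c16609, c16611, trivial⟩ (nd (nat_lit 211) (nat_lit 0) (cs (rf (nat_lit 0)) (cs (rf (nat_lit 1)) (cs (nd (nat_lit 189) (nat_lit 0) (cs (lf (nat_lit 17) (nat_lit 186)) (nd (nat_lit 167) (nat_lit 0) (cs (nd (nat_lit 145) (nat_lit 0) (cs (lf (nat_lit 41) (nat_lit 144)) (rf (nat_lit 2)))) (cs (nd (nat_lit 144) (nat_lit 0) (cs (lf (nat_lit 42) (nat_lit 144)) (nd (nat_lit 100) (nat_lit 0) (cs (rf (nat_lit 3)) (lf (nat_lit 25) (nat_lit 100)))))) (nd (nat_lit 185) (nat_lit 0) (cs (lf (nat_lit 22) (nat_lit 185)) (nd (nat_lit 145) (nat_lit 0) (cs (lf (nat_lit 41) (nat_lit 144)) (nd (nat_lit 146) (nat_lit 0) (cs (lf (nat_lit 35) (nat_lit 123)) (nd (nat_lit 147)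 (nat_lit 0) (cs (lf (nat_lit 6) (nat_lit 144)) (nd (nat_lit 165) (nat_lit 0) (cs (lf (nat_lit 15) (nat_lit 143)) (lf (nat_lit 12) (nat_lit 142))))))))))))))))) (cs (nd (nat_lit 185) (nat_lit 0) (cs (lf (nat_lit 22) (nat_lit 185)) (rf (nat_lit 4)))) (nd (nat_lit 167) (nat_lit 0) (cs (nd (nat_lit 233) (nat_lit 0) (cs (lf (nat_lit 5) (nat_lit 208)) (nd (nat_lit 189) (nat_lit 0) (cs (lf (nat_lit 47) (nat_lit 144)) (rf (nat_lit 5)))))) (cs (nd (nat_lit 144) (nat_lit 0) (cs (rf (nat_lit 3)) (nd (nat_lit 189) (nat_lit 0) (cs (lf (nat_lit 42) (nat_lit 144)) (nd (nat_lit 122) (nat_lit 0) (cs (lf (nat_lit 24) (nat_lit 100)) (lf (nat_lit 45) (nat_lit 122)))))))) (cs (rf (nat_lit 6)) (cs (nd (nat_lit 142) (nat_lit 0) (cs (rf (nat_lit 7)) (nd (nat_lit 233) (nat_lit 0) (cs (lf (nat_lit 5) (nat_lit 208)) (nd (nat_lit 144) (nat_lit 0) (cs (rf (nat_lit 8)) (lf (nat_lit 44) (nat_lit 144)))))))) (cs (nd (nat_lit 212)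 (nat_lit 0) (cs (rf (nat_lit 9)) (cs (nd (nat_lit 213) (nat_lit 0) (cs (lf (nat_lit 10) (nat_lit 209)) (nd (nat_lit 236) (nat_lit 0) (cs (lf (nat_lit 4) (nat_lit 210)) (nd (nat_lit 185) (nat_lit 0) (cs (lf (nat_lit 22) (nat_lit 185)) (nd (nat_lit 214) (nat_lit 0) (cs (lf (nat_lit 5) (nat_lit 211)) (rf (nat_lit 10)))))))))) (nd (nat_lit 148) (nat_lit 0) (cs (rf (nat_lit 11)) (nd (nat_lit 186) (nat_lit 0) (cs (lf (nat_lit 23) (nat_lit 185)) (nd (nat_lit 164) (nat_lit 0) (cs (lf (nat_lit 24) (nat_lit 142)) (nd (nat_lit 234) (nat_lit 0) (cs (lf (nat_lit 4) (nat_lit 208)) (nd (nat_lit 145) (nat_lit 0) (cs (nd (nat_lit 146) (nat_lit 0) (cs (lf (nat_lit 13) (nat_lit 142)) (lf (nat_lit 7) (nat_lit 144)))) (lf (nat_lit 26) (nat_lit 145))))))))))))))) (nd (nat_lit 142) (nat_lit 0) (cs (rf (nat_lit 7)) (cs (nd (nat_lit 143) (nat_lit 0) (cs (nd (nat_lit 165) (nat_lit 0) (cs (lf (nat_lit 18) (nat_lit 142)) (rf (nat_lit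 12)))) (cs (nd (nat_lit 148) (nat_lit 0) (cs (nd (nat_lit 234) (nat_lit 0) (cs (lf (nat_lit 4) (nat_lit 208)) (nd (nat_lit 212) (nat_lit 0) (cs (lf (nat_lit 5) (nat_lit 209)) (rf (nat_lit 11)))))) (nd (nat_lit 185) (nat_lit 0) (cs (lf (nat_lit 22) (nat_lit 185)) (nd (nat_lit 168) (nat_lit 0) (cs (lf (nat_lit 21) (nat_lit 142)) (nd (nat_lit 147) (nat_lit 0) (cs (nd (nat_lit 146) (nat_lit 0) (cs (lf (nat_lit 9) (nat_lit 144)) (lf (nat_lit 6) (nat_lit 145)))) (lf (nat_lit 15) (nat_lit 144)))))))))) (cs (nd (nat_lit 233) (nat_lit 0) (cs (lf (nat_lit 5) (nat_lit 208)) (rf (nat_lit 13)))) (nd (nat_lit 233) (nat_lit 0) (cs (lf (nat_lit 5) (nat_lit 208)) (nd (nat_lit 185) (nat_lit 0) (cs (lf (nat_lit 22) (nat_lit 185)) (rf (nat_lit 14)))))))))) (nd (nat_lit 143) (nat_lit 0) (cs (rf (nat_lit 13)) (cs (rf (nat_lit 14)) (cs (nd (nat_lit 233) (nat_lit 0) (cs (lf (nat_lit 5) (nat_lit 208)) (nd (nat_lit 165) (nat_lit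 0) (cs (lf (nat_lit 18) (nat_lit 142)) (nd (nat_lit 141) (nat_lit 0) (cs (lf (nat_lit 0) (nat_lit 140)) (lf (nat_lit 21) (nat_lit 141)))))))) (nd (nat_lit 168) (nat_lit 0) (cs (lf (nat_lit 21) (nat_lit 142)) (nd (nat_lit 144) (nat_lit 0) (cs (lf (nat_lit 18) (nat_lit 143)) (lf (nat_lit 3) (nat_lit 142)))))))))))))))))))))))) q16623 (by decide +kernel)
def q17110 : Q := Q.p (nat_lit 0x2000000000078000000000000000000000000000000000000000000000000000) (nat_lit 0x4000070000fe0003fe003ff800fff001ff80079e001fb800382000eb0001000004000000000000000000000000000000000000) (nat_lit 16)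
theorem c17110 : QOK q17110 := cut [q16142, q16735, q11867, q16741, q16751, q16756, q16759, q16877, q16943, q16708, q16715, q2187, q16883, q16953, q13425, q16707, q16956, q16964, q17095, q137, q694, q715, q10104] ⟨c16142, c16735, c11867, c16741, c16751, c16756, c16759, c16877, c16943, c16708, c16715, c2187, c16883, c16953, c13425, c16707, c16956, c16964, c17095, c137, c694, c715, c10104, trivial⟩ (nd (nat_lit 275) (nat_lit 0) (cs (nd (nat_lit 232) (nat_lit 0) (cs (lf (nat_lit 5) (nat_lit 207)) (nd (nat_lit 231) (nat_lit 0) (cs (lf (nat_lit 30) (nat_lit 209)) (rf (nat_lit 0)))))) (cs (rf (nat_lit 1)) (cs (nd (nat_lit 297) (nat_lit 0) (cs (nd (nat_lit 232) (nat_lit 0) (cs (lf (nat_lit 5) (nat_lit 207)) (lf (nat_lit 33) (nat_lit 209)))) (cs (nd (nat_lit 318) (nat_lit 0) (cs (nd (nat_lit 231) (nat_lit 0) (cs (lf (nat_lit 40) (nat_lit 230)) (rf (nat_lit 2)))) (cs (nd (nat_lit 228) (nat_lit 0) (cs (lf (nat_lit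 10) (nat_lit 206)) (nd (nat_lit 184) (nat_lit 0) (cs (lf (nat_lit 22) (nat_lit 184)) (rf (nat_lit 3)))))) (cs (nd (nat_lit 340) (nat_lit 0) (cs (lf (nat_lit 39) (nat_lit 252)) (nd (nat_lit 296) (nat_lit 0) (cs (lf (nat_lit 30) (nat_lit 274)) (lf (nat_lit 36) (nat_lit 230)))))) (nd (nat_lit 319) (nat_lit 0) (cs (lf (nat_lit 41) (nat_lit 252)) (nd (nat_lit 298) (nat_lit 0) (cs (nd (nat_lit 184) (nat_lit 0) (cs (lf (nat_lit 22) (nat_lit 184)) (nd (nat_lit 342) (nat_lit 0) (cs (lf (nat_lit 28) (nat_lit 253)) (nd (nat_lit 341) (nat_lit 0) (cs (lf (nat_lit 29) (nat_lit 275)) (nd (nat_lit 343) (nat_lit 0) (cs (lf (nat_lit 18) (nat_lit 318)) (rf (nat_lit 4)))))))))) (cs (nd (nat_lit 320) (nat_lit 0) (cs (lf (nat_lit 29) (nat_lit 253)) (rf (nat_lit 5)))) (rf (nat_lit 6))))))))))) (rf (nat_lit 7))))) (cs (rf (nat_lit 8)) (cs (nd (nat_lit 185) (nat_lit 0) (cs (lf (nat_lit 23) (nat_lit 184)) (nd (nat_lit 229) (nat_lit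 0) (cs (lf (nat_lit 11) (nat_lit 206)) (nd (nat_lit 232) (nat_lit 0) (cs (lf (nat_lit 5) (nat_lit 207)) (nd (nat_lit 231) (nat_lit 0) (cs (lf (nat_lit 30) (nat_lit 209)) (nd (nat_lit 274) (nat_lit 0) (cs (lf (nat_lit 41) (nat_lit 208)) (nd (nat_lit 252) (nat_lit 0) (cs (lf (nat_lit 36) (nat_lit 186)) (lf (nat_lit 27) (nat_lit 185)))))))))))))) (cs (nd (nat_lit 233) (nat_lit 0) (cs (lf (nat_lit 4) (nat_lit 207)) (nd (nat_lit 211) (nat_lit 0) (cs (lf (nat_lit 5) (nat_lit 208)) (nd (nat_lit 190) (nat_lit 0) (cs (lf (nat_lit 16) (nat_lit 186)) (nd (nat_lit 212) (nat_lit 0) (cs (lf (nat_lit 17) (nat_lit 187)) (nd (nat_lit 277) (nat_lit 0) (cs (lf (nat_lit 31) (nat_lit 189)) (nd (nat_lit 276) (nat_lit 0) (cs (rf (nat_lit 9)) (cs (rf (nat_lit 10)) (cs (nd (nat_lit 274) (nat_lit 0) (cs (rf (nat_lit 11)) (cs (rf (nat_lit 12)) (cs (rf (nat_lit 13)) (nd (nat_lit 146) (nat_lit 0) (cs (rf (nat_lit 14)) (lf (nat_lit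 37) (nat_lit 145)))))))) (nd (nat_lit 278) (nat_lit 0) (cs (rf (nat_lit 15)) (cs (nd (nat_lit 146) (nat_lit 0) (cs (lf (nat_lit 37) (nat_lit 145)) (nd (nat_lit 297) (nat_lit 0) (cs (lf (nat_lit 11) (nat_lit 274)) (nd (nat_lit 228) (nat_lit 0) (cs (lf (nat_lit 10) (nat_lit 206)) (nd (nat_lit 279) (nat_lit 0) (cs (lf (nat_lit 10) (nat_lit 275)) (rf (nat_lit 16)))))))))) (nd (nat_lit 228) (nat_lit 0) (cs (lf (nat_lit 10) (nat_lit 206)) (rf (nat_lit 17))))))))))))))))))))) (cs (rf (nat_lit 18)) (nd (nat_lit 211) (nat_lit 0) (cs (rf (nat_lit 19)) (cs (rf (nat_lit 20)) (cs (nd (nat_lit 184) (nat_lit 0) (cs (lf (nat_lit 22) (nat_lit 184)) (nd (nat_lit 228) (nat_lit 0) (cs (lf (nat_lit 10) (nat_lit 206)) (nd (nat_lit 190) (nat_lit 0) (cs (lf (nat_lit 16) (nat_lit 186)) (nd (nat_lit 212) (nat_lit 0) (cs (lf (nat_lit 17) (nat_lit 187)) (nd (nat_lit 235) (nat_lit 0) (cs (lf (nat_lit 4) (nat_lit 209)) (nd (nat_lit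 213) (nat_lit 0) (cs (lf (nat_lit 5) (nat_lit 210)) (nd (nat_lit 231) (nat_lit 0) (cs (lf (nat_lit 10) (nat_lit 209)) (nd (nat_lit 296) (nat_lit 0) (cs (lf (nat_lit 40) (nat_lit 208)) (nd (nat_lit 257) (nat_lit 0) (cs (rf (nat_lit 21)) (lf (nat_lit 42) (nat_lit 190)))))))))))))))))))) (nd (nat_lit 232) (nat_lit 0) (cs (lf (nat_lit 5) (nat_lit 207)) (nd (nat_lit 190) (nat_lit 0) (cs (lf (nat_lit 16) (nat_lit 186)) (nd (nat_lit 231) (nat_lit 0) (cs (lf (nat_lit 30) (nat_lit 209)) (rf (nat_lit 22)))))))))))))))))))) q17110 (by decide +kernel)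
def q17312 : Q := Q.p (nat_lit 0x400001000004000000000000000000000000000000000000000000000000000) (nat_lit 0x40000100000f80003c0002f00003e0003f0000fe000290000000000000000000000000000000000) (nat_lit 13)
theorem c17312 : QOK q17312 := cut [q3767, q17131, q17167, q17311] ⟨c3767, c17131, c17167, c17311, trivial⟩ (nd (nat_lit 184) (nat_lit 0) (cs (rf (nat_lit 0)) (cs (rf (nat_lit 1)) (cs (rf (nat_lit 2)) (rf (nat_lit 3)))))) q17312 (by decide +kernel)
def q17647 : Q := Q.p (nat_lit 0x2000000000034000010000000000000000000000000000000000000000000000) (nat_lit 0x20001780007e0001fc0001e0001bc000020001e78007fc0017f8000a00000000000000000000000000000) (nat_lit 13)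
theorem c17647 : QOK q17647 := cut [q1595, q6705, q17549, q17594, q17597, q12588, q17596, q17601, q1273, q17314, q17344, q17608, q17609, q17621, q17623, q17634, q17641, q17645, q17646] ⟨c1595, c6705, c17549, c17594, c17597, c12588, c17596, c17601, c1273, c17314, c17344, c17608, c17609, c17621, c17623, c17634, c17641, c17645, c17646, trivial⟩ (nd (nat_lit 228) (nat_lit 0) (cs (nd (nat_lit 231) (nat_lit 0) (cs (rf (nat_lit 0)) (cs (rf (nat_lit 1)) (cs (nd (nat_lit 250) (nat_lit 0) (cs (rf (nat_lit 2)) (cs (rf (nat_lit 3)) (cs (rf (nat_lit 4)) (nd (nat_lit 251) (nat_lit 0) (cs (lf (nat_lit 29) (nat_lit 184)) (nd (nat_lit 252) (nat_lit 0) (cs (lf (nat_lit 17) (nat_lit 228)) (rf (nat_lit 5)))))))))) (nd (nat_lit 250) (nat_lit 0) (cs (rf (nat_lit 3)) (cs (rf (nat_lit 6)) (nd (nat_lit 163) (nat_lit 0) (cs (lf (nat_lit 34) (nat_lit 162)) (nd (nat_lit 271) (nat_lit 0) (cs (lf (nat_lit 40) (nat_lit 183)) (nd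 (nat_lit 272) (nat_lit 0) (cs (lf (nat_lit 41) (nat_lit 205)) (nd (nat_lit 252) (nat_lit 0) (cs (lf (nat_lit 8) (nat_lit 249)) (rf (nat_lit 7))))))))))))))))) (cs (nd (nat_lit 162) (nat_lit 0) (cs (rf (nat_lit 8)) (cs (rf (nat_lit 9)) (cs (rf (nat_lit 10)) (nd (nat_lit 161) (nat_lit 0) (cs (lf (nat_lit 47) (nat_lit 139)) (nd (nat_lit 160) (nat_lit 0) (cs (rf (nat_lit 11)) (cs (nd (nat_lit 163) (nat_lit 0) (cs (lf (nat_lit 35) (nat_lit 140)) (nd (nat_lit 227) (nat_lit 0) (cs (lf (nat_lit 41) (nat_lit 161)) (nd (nat_lit 137) (nat_lit 0) (cs (lf (nat_lit 22) (nat_lit 137)) (nd (nat_lit 181) (nat_lit 0) (cs (lf (nat_lit 10) (nat_lit 159)) (nd (nat_lit 229) (nat_lit 0) (cs (lf (nat_lit 29) (nat_lit 162)) (nd (nat_lit 186) (nat_lit 0) (cs (lf (nat_lit 4) (nat_lit 160)) (nd (nat_lit 164) (nat_lit 0) (cs (lf (nat_lit 5) (nat_lit 161)) (rf (nat_lit 12)))))))))))))))) (cs (rf (nat_lit 13)) (rf (nat_lit 14))))))))))))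 (cs (rf (nat_lit 15)) (cs (rf (nat_lit 16)) (cs (rf (nat_lit 17)) (rf (nat_lit 18)))))))) q17647 (by decide +kernel)
def q17693 : Q := Q.p (nat_lit 0x2000000000034000010000000000000000000000000000000000000000000000) (nat_lit 0xa0001780007f8001fe0001f8001be000038001ea0007c0001780000e00002800000000000000000000000) (nat_lit 14)
theorem c17693 : QOK q17693 := cut [q17550, q17204, q17652, q17657, q17662, q17189, q17321, q17553, q17167, q17184, q17376, q17675, q5881, q17688, q17594, q17691] ⟨c17550, c17204, c17652, c17657, c17662, c17189, c17321, c17553, c17167, c17184, c17376, c17675, c5881, c17688, c17594, c17691, trivial⟩ (nd (nat_lit 250) (nat_lit 0) (cs (rf (nat_lit 0)) (cs (nd (nat_lit 228) (nat_lit 0) (cs (rf (nat_lit 1)) (cs (rf (nat_lit 2)) (cs (rf (nat_lit 3)) (nd (nat_lit 251) (nat_lit 0) (cs (lf (nat_lit 29) (nat_lit 184)) (nd (nat_lit 162) (nat_lit 0) (cs (lf (nat_lit 28) (nat_lit 162)) (nd (nat_lit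 227) (nat_lit 0) (cs (lf (nat_lit 19) (nat_lit 227)) (nd (nat_lit 225) (nat_lit 0) (cs (lf (nat_lit 1) (nat_lit 225)) (rf (nat_lit 4)))))))))))))) (cs (nd (nat_lit 228) (nat_lit 0) (cs (rf (nat_lit 5)) (cs (rf (nat_lit 1)) (cs (rf (nat_lit 6)) (nd (nat_lit 163) (nat_lit 0) (cs (lf (nat_lit 34) (nat_lit 162)) (nd (nat_lit 251) (nat_lit 0) (cs (lf (nat_lit 29) (nat_lit 184)) (rf (nat_lit 7)))))))))) (cs (nd (nat_lit 228) (nat_lit 0) (cs (rf (nat_lit 8)) (cs (rf (nat_lit 9)) (cs (rf (nat_lit 5)) (rf (nat_lit 1)))))) (cs (nd (nat_lit 228) (nat_lit 0) (cs (rf (nat_lit 8)) (cs (rf (nat_lit 6)) (cs (rf (nat_lit 10)) (rf (nat_lit 2)))))) (cs (nd (nat_lit 228) (nat_lit 0) (cs (rf (nat_lit 1)) (cs (rf (nat_lit 2)) (cs (rf (nat_lit 11)) (nd (nat_lit 251) (nat_lit 0) (cs (lf (nat_lit 29) (nat_lit 184)) (nd (nat_lit 162) (nat_lit 0) (cs (lf (nat_lit 28) (nat_lit 162)) (rf (nat_lit 12)))))))))) (cs (nd (nat_lit 228)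 (nat_lit 0) (cs (rf (nat_lit 8)) (cs (rf (nat_lit 3)) (cs (rf (nat_lit 11)) (rf (nat_lit 13)))))) (nd (nat_lit 228) (nat_lit 0) (cs (rf (nat_lit 8)) (cs (rf (nat_lit 1)) (cs (rf (nat_lit 14)) (rf (nat_lit 15)))))))))))))) q17693 (by decide +kernel)
def q18058 : Q := Q.p (nat_lit 0x2000000000004000010000000000000000000000000000000000000000000000) (nat_lit 0x80000340000f00003f8001fc0003f00003e003af0007fe001ff0000e00000800000000000000000000000) (nat_lit 14)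
theorem c18058 : QOK q18058 := cut [q17641, q17645, q1273, q17314, q17344, q17769, q10250, q17131, q17189, q18041, q18054, q17311, q17579, q17582, q17167, q17204] ⟨c17641, c17645, c1273, c17314, c17344, c17769, c10250, c17131, c17189, c18041, c18054, c17311, c17579, c17582, c17167, c17204, trivial⟩ (nd (nat_lit 228) (nat_lit 0) (cs (rf (nat_lit 0)) (cs (rf (nat_lit 1)) (cs (nd (nat_lit 162) (nat_lit 0) (cs (rf (nat_lit 2)) (cs (rf (nat_lit 3)) (cs (rf (nat_lit 4)) (rf (nat_lit 5)))))) (cs (nd (nat_lit 250) (nat_lit 0) (cs (rf (nat_lit 6)) (cs (rf (nat_lit 7)) (rf (nat_lit 8))))) (cs (nd (nat_lit 162) (nat_lit 0) (cs (rf (nat_lit 2)) (cs (nd (nat_lit 229) (nat_lit 0) (cs (lf (nat_lit 29) (nat_lit 162)) (nd (nat_lit 141) (nat_lit 0) (cs (lf (nat_lit 34) (nat_lit 140)) (nd (nat_lit 140) (nat_lit 0) (cs (lf (nat_lit 35) (nat_lit 118)) (rf (nat_lit 9)))))))) (cs (nd (nat_lit 251) (nat_lit 0) (cs (lf (nat_lit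 28) (nat_lit 162)) (nd (nat_lit 161) (nat_lit 0) (cs (lf (nat_lit 47) (nat_lit 139)) (nd (nat_lit 250) (nat_lit 0) (cs (lf (nat_lit 29) (nat_lit 184)) (lf (nat_lit 46) (nat_lit 161)))))))) (rf (nat_lit 10)))))) (cs (nd (nat_lit 250) (nat_lit 0) (cs (rf (nat_lit 6)) (cs (rf (nat_lit 11)) (cs (rf (nat_lit 12)) (rf (nat_lit 13)))))) (nd (nat_lit 250) (nat_lit 0) (cs (rf (nat_lit 14)) (cs (rf (nat_lit 8)) (cs (rf (nat_lit 15)) (rf (nat_lit 12))))))))))))) q18058 (by decide +kernel)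
def q18155 : Q := Q.p (nat_lit 0x2000000000030000000000000000000000000000000000000000000000000000) (nat_lit 0x140000700001c0000100007bc001ce0007e0000700001400000000000000000000000000000000000) (nat_lit 10)
theorem c18155 : QOK q18155 := cut [q1595, q2990, q3019, q4100, q2683, q18142, q33, q16045, q16048, q1469, q717, q2931, q1587] ⟨c1595, c2990, c3019, c4100, c2683, c18142, c33, c16045, c16048, c1469, c717, c2931, c1587, trivial⟩ (nd (nat_lit 231) (nat_lit 0) (cs (rf (nat_lit 0)) (cs (rf (nat_lit 1)) (cs (nd (nat_lit 207) (nat_lit 0) (cs (rf (nat_lit 2)) (cs (rf (nat_lit 3)) (cs (nd (nat_lit 210) (nat_lit 0) (cs (rf (nat_lit 4)) (cs (rf (nat_lit 5)) (nd (nat_lit 228) (nat_lit 0) (cs (lf (nat_lit 10) (nat_lit 206)) (nd (nat_lit 233) (nat_lit 0) (cs (lf (nat_lit 4) (nat_lit 207)) (nd (nat_lit 211) (nat_lit 0) (cs (lf (nat_lit 5) (nat_lit 208)) (nd (nat_lit 186) (nat_lit 0) (cs (rf (nat_lit 6)) (lf (nat_lit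 23) (nat_lit 185))))))))))))) (nd (nat_lit 187) (nat_lit 0) (cs (rf (nat_lit 7)) (cs (nd (nat_lit 164) (nat_lit 0) (cs (lf (nat_lit 46) (nat_lit 164)) (nd (nat_lit 142) (nat_lit 0) (cs (nd (nat_lit 252) (nat_lit 0) (cs (lf (nat_lit 41) (nat_lit 186)) (rf (nat_lit 8)))) (lf (nat_lit 45) (nat_lit 142)))))) (nd (nat_lit 252) (nat_lit 0) (cs (lf (nat_lit 41) (nat_lit 186)) (nd (nat_lit 186) (nat_lit 0) (cs (rf (nat_lit 9)) (lf (nat_lit 47) (nat_lit 164))))))))))))) (nd (nat_lit 275) (nat_lit 0) (cs (rf (nat_lit 10)) (cs (rf (nat_lit 11)) (nd (nat_lit 276) (nat_lit 0) (cs (lf (nat_lit 29) (nat_lit 209)) (nd (nat_lit 188) (nat_lit 0) (cs (rf (nat_lit 12)) (lf (nat_lit 34) (nat_lit 187))))))))))))) q18155 (by decide +kernel)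
def q18308 : Q := Q.p (nat_lit 0x280000000001c000040000100000400001000000000000000000000000000000) (nat_lit 0x20000380001600001800020000098000000000000000000000000000000000000000000000) (nat_lit 7)
theorem c18308 : QOK q18308 := cut [q18307] ⟨c18307, trivial⟩ (nd (nat_lit 209) (nat_lit 0) (cs (lf (nat_lit 28) (nat_lit 120)) (rf (nat_lit 0)))) q18308 (by decide +kernel)
def q18446 : Q := Q.p (nat_lit 0x10000040000100000000000000000000000000000000000000000) (nat_lit 0x200006e000390003ef801ffc007ff8003e8000fa0002a0000000000000) (nat_lit 15)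
theorem c18446 : QOK q18446 := cut [q6854, q18163, q18380, q18388, q18391, q6859, q18396, q18416, q18313, q18427, q18428, q18432, q18440] ⟨c6854, c18163, c18380, c18388, c18391, c6859, c18396, c18416, c18313, c18427, c18428, c18432, c18440, trivial⟩ (nd (nat_lit 142) (nat_lit 0) (cs (rf (nat_lit 0)) (cs (rf (nat_lit 1)) (cs (rf (nat_lit 2)) (cs (rf (nat_lit 3)) (nd (nat_lit 187) (nat_lit 0) (cs (rf (nat_lit 4)) (cs (nd (nat_lit 121) (nat_lit 0) (cs (lf (nat_lit 34) (nat_lit 120)) (nd (nat_lit 207) (nat_lit 0) (cs (lf (nat_lit 41) (nat_lit 141)) (rf (nat_lit 5)))))) (nd (nat_lit 188) (nat_lit 0) (cs (nd (nat_lit 143) (nat_lit 0) (cs (lf (nat_lit 35) (nat_lit 120)) (nd (nat_lit 144) (nat_lit 0) (cs (nd (nat_lit 141) (nat_lit 0) (cs (nd (nat_lit 207) (nat_lit 0) (cs (lf (nat_lit 41) (nat_lit 141)) (rf (nat_lit 6)))) (cs (nd (nat_lit 162) (nat_lit 0) (cs (lf (nat_lit 10) (nat_lit 140)) (nd (nat_lit 140)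 (nat_lit 0) (cs (lf (nat_lit 11) (nat_lit 139)) (nd (nat_lit 117) (nat_lit 0) (cs (lf (nat_lit 22) (nat_lit 117)) (nd (nat_lit 139) (nat_lit 0) (cs (lf (nat_lit 23) (nat_lit 116)) (nd (nat_lit 122) (nat_lit 0) (cs (lf (nat_lit 17) (nat_lit 119)) (nd (nat_lit 73) (nat_lit 0) (cs (nd (nat_lit 207) (nat_lit 0) (cs (lf (nat_lit 41) (nat_lit 141)) (nd (nat_lit 206) (nat_lit 0) (cs (lf (nat_lit 12) (nat_lit 183)) (lf (nat_lit 43) (nat_lit 117)))))) (lf (nat_lit 25) (nat_lit 73)))))))))))))) (rf (nat_lit 7))))) (cs (nd (nat_lit 145) (nat_lit 0) (cs (rf (nat_lit 8)) (cs (nd (nat_lit 207) (nat_lit 0) (cs (lf (nat_lit 41) (nat_lit 141)) (nd (nat_lit 167) (nat_lit 0) (cs (lf (nat_lit 5) (nat_lit 142)) (nd (nat_lit 205) (nat_lit 0) (cs (lf (nat_lit 13) (nat_lit 183)) (nd (nat_lit 146) (nat_lit 0) (cs (lf (nat_lit 10) (nat_lit 142)) (nd (nat_lit 125) (nat_lit 0) (cs (lf (nat_lit 16) (nat_lit 121)) (nd (nat_lit 166)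 (nat_lit 0) (cs (lf (nat_lit 0) (nat_lit 141)) (nd (nat_lit 147) (nat_lit 0) (cs (lf (nat_lit 17) (nat_lit 122)) (lf (nat_lit 6) (nat_lit 144)))))))))))))))) (cs (rf (nat_lit 9)) (nd (nat_lit 167) (nat_lit 0) (cs (lf (nat_lit 5) (nat_lit 142)) (nd (nat_lit 166) (nat_lit 0) (cs (lf (nat_lit 0) (nat_lit 141)) (rf (nat_lit 10)))))))))) (cs (nd (nat_lit 207) (nat_lit 0) (cs (lf (nat_lit 41) (nat_lit 141)) (nd (nat_lit 145) (nat_lit 0) (cs (lf (nat_lit 11) (nat_lit 141)) (nd (nat_lit 205) (nat_lit 0) (cs (lf (nat_lit 13) (nat_lit 183)) (rf (nat_lit 11)))))))) (nd (nat_lit 145) (nat_lit 0) (cs (lf (nat_lit 11) (nat_lit 141)) (rf (nat_lit 9)))))))))) (cs (nd (nat_lit 207) (nat_lit 0) (cs (lf (nat_lit 6) (nat_lit 185)) (lf (nat_lit 41) (nat_lit 141)))) (nd (nat_lit 121) (nat_lit 0) (cs (lf (nat_lit 34) (nat_lit 120)) (nd (nat_lit 99) (nat_lit 0) (cs (rf (nat_lit 12)) (lf (nat_lit 33) (nat_lit 98)))))))))))))))))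 q18446 (by decide +kernel)
def q18777 : Q := Q.p (nat_lit 0x2000000000018000050000000000000000000000000000000000000000000000) (nat_lit 0x140001fc0001f00007c000e00003a0000ef0000b00000800000000000000000000000000000) (nat_lit 10)
theorem c18777 : QOK q18777 := cut [q5517, q18751, q1824, q1622, q18755, q18756, q9258, q3131, q18748, q6024, q18772] ⟨c5517, c18751, c1824, c1622, c18755, c18756, c9258, c3131, c18748, c6024, c18772, trivial⟩ (nd (nat_lit 229) (nat_lit 0) (cs (nd (nat_lit 251) (nat_lit 0) (cs (lf (nat_lit 30) (nat_lit 185)) (nd (nat_lit 185) (nat_lit 0) (cs (lf (nat_lit 47) (nat_lit 162)) (nd (nat_lit 209) (nat_lit 0) (cs (lf (nat_lit 18) (nat_lit 184)) (rf (nat_lit 0)))))))) (cs (rf (nat_lit 1)) (cs (nd (nat_lit 230) (nat_lit 0) (cs (rf (nat_lit 2)) (cs (nd (nat_lit 185) (nat_lit 0) (cs (nd (nat_lit 163) (nat_lit 0) (cs (lf (nat_lit 24) (nat_lit 141)) (nd (nat_lit 209) (nat_lit 0) (cs (lf (nat_lit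 18) (nat_lit 184)) (rf (nat_lit 3)))))) (cs (nd (nat_lit 187) (nat_lit 0) (cs (rf (nat_lit 4)) (cs (rf (nat_lit 5)) (nd (nat_lit 209) (nat_lit 0) (cs (lf (nat_lit 5) (nat_lit 184)) (rf (nat_lit 6))))))) (nd (nat_lit 163) (nat_lit 0) (cs (lf (nat_lit 24) (nat_lit 141)) (rf (nat_lit 7))))))) (nd (nat_lit 252) (nat_lit 0) (cs (lf (nat_lit 29) (nat_lit 186)) (rf (nat_lit 8))))))) (cs (nd (nat_lit 251) (nat_lit 0) (cs (lf (nat_lit 30) (nat_lit 185)) (nd (nat_lit 185) (nat_lit 0) (cs (lf (nat_lit 47) (nat_lit 162)) (nd (nat_lit 209) (nat_lit 0) (cs (lf (nat_lit 18) (nat_lit 184)) (rf (nat_lit 9)))))))) (cs (nd (nat_lit 251) (nat_lit 0) (cs (lf (nat_lit 30) (nat_lit 185)) (nd (nat_lit 185) (nat_lit 0) (cs (lf (nat_lit 47) (nat_lit 162)) (nd (nat_lit 209) (nat_lit 0) (cs (lf (nat_lit 18) (nat_lit 184)) (nd (nat_lit 250) (nat_lit 0) (cs (lf (nat_lit 41) (nat_lit 184)) (nd (nat_lit 228) (nat_lit 0) (cs (lf (nat_lit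 36) (nat_lit 162)) (nd (nat_lit 227) (nat_lit 0) (cs (lf (nat_lit 12) (nat_lit 204)) (lf (nat_lit 19) (nat_lit 227)))))))))))))) (nd (nat_lit 251) (nat_lit 0) (cs (lf (nat_lit 30) (nat_lit 185)) (nd (nat_lit 185) (nat_lit 0) (cs (lf (nat_lit 47) (nat_lit 162)) (nd (nat_lit 250) (nat_lit 0) (cs (lf (nat_lit 41) (nat_lit 184)) (nd (nat_lit 163) (nat_lit 0) (cs (lf (nat_lit 40) (nat_lit 162)) (rf (nat_lit 10)))))))))))))))) q18777 (by decide +kernel)
def q18795 : Q := Q.p (nat_lit 0x2000000000018000050000000000000000000000000000000000000000000000) (nat_lit 0x280007e0001fe0007f8001ff0001f80007e000640000200000c0000300000800000000000000000000000000000) (nat_lit 15)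
theorem c18795 : QOK q18795 := cut [q3192, q18283, q2623, q3764, q18255, q18783, q18785, q18787, q6104, q18252, q2664, q2992, q2994] ⟨c3192, c18283, c2623, c3764, c18255, c18783, c18785, c18787, c6104, c18252, c2664, c2992, c2994, trivial⟩ (nd (nat_lit 252) (nat_lit 0) (cs (rf (nat_lit 0)) (cs (nd (nat_lit 251) (nat_lit 0) (cs (rf (nat_lit 1)) (cs (nd (nat_lit 250) (nat_lit 0) (cs (rf (nat_lit 2)) (cs (rf (nat_lit 3)) (cs (rf (nat_lit 4)) (nd (nat_lit 275) (nat_lit 0) (cs (lf (nat_lit 5) (nat_lit 250)) (nd (nat_lit 228) (nat_lit 0) (cs (lf (nat_lit 23) (nat_lit 227)) (nd (nat_lit 272) (nat_lit 0) (cs (lf (nat_lit 11) (nat_lit 249)) (nd (nat_lit 185) (nat_lit 0) (cs (lf (nat_lit 33) (nat_lit 184)) (lf (nat_lit 38) (nat_lit 184)))))))))))))) (cs (rf (nat_lit 5)) (rf (nat_lit 6)))))) (cs (rf (nat_lit 7)) (cs (nd (nat_lit 230) (nat_lit 0) (cs (lf (nat_lit 29) (nat_lit 186)) (rf (nat_lit 8)))) (nd (nat_lit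 251) (nat_lit 0) (cs (rf (nat_lit 9)) (cs (rf (nat_lit 5)) (cs (rf (nat_lit 6)) (nd (nat_lit 185) (nat_lit 0) (cs (rf (nat_lit 10)) (cs (rf (nat_lit 11)) (nd (nat_lit 209) (nat_lit 0) (cs (lf (nat_lit 18) (nat_lit 184)) (nd (nat_lit 163) (nat_lit 0) (cs (lf (nat_lit 43) (nat_lit 163)) (nd (nat_lit 119) (nat_lit 0) (cs (lf (nat_lit 25) (nat_lit 119)) (nd (nat_lit 229) (nat_lit 0) (cs (lf (nat_lit 47) (nat_lit 162)) (rf (nat_lit 12)))))))))))))))))))))) q18795 (by decide +kernel)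
def q18896 : Q := Q.p (nat_lit 0x2000000000018000050000000000000000000000000000000000000000000000) (nat_lit 0x60001fc0001e00007e000078003a70006f8001fe0007f80002800000000000000000000000) (nat_lit 13)
theorem c18896 : QOK q18896 := cut [q527, q18661, q3503, q18852, q18800, q1799, q12505, q10346, q18873, q18875, q18105, q18880, q18682, q5419, q4163, q18674, q18879, q18528] ⟨c527, c18661, c3503, c18852, c18800, c1799, c12505, c10346, c18873, c18875, c18105, c18880, c18682, c5419, c4163, c18674, c18879, c18528, trivial⟩ (nd (nat_lit 206) (nat_lit 0) (cs (rf (nat_lit 0)) (cs (rf (nat_lit 1)) (cs (nd (nat_lit 185) (nat_lit 0) (cs (rf (nat_lit 2)) (cs (rf (nat_lit 3)) (cs (nd (nat_lit 187) (nat_lit 0) (cs (lf (nat_lit 6) (nat_lit 184)) (rf (nat_lit 4)))) (nd (nat_lit 163) (nat_lit 0) (cs (rf (nat_lit 5)) (cs (nd (nat_lit 229) (nat_lit 0) (cs (rf (nat_lit 6)) (cs (nd (nat_lit 230) (nat_lit 0) (cs (lf (nat_lit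 42) (nat_lit 163)) (nd (nat_lit 162) (nat_lit 0) (cs (lf (nat_lit 24) (nat_lit 140)) (nd (nat_lit 228) (nat_lit 0) (cs (lf (nat_lit 41) (nat_lit 162)) (rf (nat_lit 7)))))))) (rf (nat_lit 8))))) (rf (nat_lit 9))))))))) (nd (nat_lit 162) (nat_lit 0) (cs (rf (nat_lit 10)) (cs (rf (nat_lit 11)) (cs (nd (nat_lit 228) (nat_lit 0) (cs (rf (nat_lit 12)) (cs (nd (nat_lit 139) (nat_lit 0) (cs (lf (nat_lit 46) (nat_lit 139)) (nd (nat_lit 229) (nat_lit 0) (cs (lf (nat_lit 29) (nat_lit 162)) (rf (nat_lit 13)))))) (cs (nd (nat_lit 141) (nat_lit 0) (cs (lf (nat_lit 34) (nat_lit 140)) (nd (nat_lit 139) (nat_lit 0) (cs (lf (nat_lit 46) (nat_lit 139)) (nd (nat_lit 227) (nat_lit 0) (cs (lf (nat_lit 41) (nat_lit 161)) (rf (nat_lit 14)))))))) (nd (nat_lit 229) (nat_lit 0) (cs (lf (nat_lit 29) (nat_lit 162)) (nd (nat_lit 226) (nat_lit 0) (cs (lf (nat_lit 13) (nat_lit 204)) (nd (nat_lit 161) (nat_lit 0) (cs (lf (nat_lit 47)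 (nat_lit 139)) (nd (nat_lit 163) (nat_lit 0) (cs (lf (nat_lit 35) (nat_lit 140)) (nd (nat_lit 185) (nat_lit 0) (cs (lf (nat_lit 41) (nat_lit 162)) (lf (nat_lit 0) (nat_lit 160)))))))))))))))) (cs (nd (nat_lit 140) (nat_lit 0) (cs (rf (nat_lit 15)) (rf (nat_lit 16)))) (nd (nat_lit 140) (nat_lit 0) (cs (lf (nat_lit 29) (nat_lit 140)) (nd (nat_lit 205) (nat_lit 0) (cs (lf (nat_lit 41) (nat_lit 139)) (rf (nat_lit 17))))))))))))))) q18896 (by decide +kernel)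
def q19011 : Q := Q.p (nat_lit 0x2000000000010000050000000000000000000000000000000000000000000000) (nat_lit 0x200000e0001fc0001fc0007f0002fc0002f0000fc000ff0001fc0003c00005000000000000000000) (nat_lit 17)
theorem c19011 : QOK q19011 := cut [q4752, q13616, q18650, q18585, q18600, q18606, q18608, q3390, q5882, q18617, q12240, q18980, q19006, q4773, q4771, q4767] ⟨c4752, c13616, c18650, c18585, c18600, c18606, c18608, c3390, c5882, c18617, c12240, c18980, c19006, c4773, c4771, c4767, trivial⟩ (nd (nat_lit 183) (nat_lit 0) (cs (nd (nat_lit 185) (nat_lit 0) (cs (lf (nat_lit 5) (nat_lit 183)) (rf (nat_lit 0)))) (cs (nd (nat_lit 206) (nat_lit 0) (cs (rf (nat_lit 1)) (cs (rf (nat_lit 2)) (cs (nd (nat_lit 228) (nat_lit 0) (cs (rf (nat_lit 3)) (cs (rf (nat_lit 4)) (cs (rf (nat_lit 5)) (cs (rf (nat_lit 6)) (cs (nd (nat_lit 207) (nat_lit 0) (cs (lf (nat_lit 18) (nat_lit 183)) (nd (nat_lit 181) (nat_lit 0) (cs (lf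 (nat_lit 1) (nat_lit 181)) (nd (nat_lit 250) (nat_lit 0) (cs (lf (nat_lit 47) (nat_lit 161)) (nd (nat_lit 249) (nat_lit 0) (cs (lf (nat_lit 41) (nat_lit 183)) (nd (nat_lit 251) (nat_lit 0) (cs (lf (nat_lit 29) (nat_lit 184)) (rf (nat_lit 7)))))))))))) (nd (nat_lit 251) (nat_lit 0) (cs (rf (nat_lit 8)) (cs (rf (nat_lit 9)) (nd (nat_lit 207) (nat_lit 0) (cs (lf (nat_lit 18) (nat_lit 183)) (nd (nat_lit 181) (nat_lit 0) (cs (lf (nat_lit 1) (nat_lit 181)) (nd (nat_lit 229) (nat_lit 0) (cs (lf (nat_lit 24) (nat_lit 162)) (rf (nat_lit 10))))))))))))))))) (rf (nat_lit 11)))))) (cs (nd (nat_lit 185) (nat_lit 0) (cs (lf (nat_lit 5) (nat_lit 183)) (rf (nat_lit 12)))) (cs (nd (nat_lit 185) (nat_lit 0) (cs (lf (nat_lit 5) (nat_lit 183)) (rf (nat_lit 13)))) (cs (nd (nat_lit 185) (nat_lit 0) (cs (lf (nat_lit 5) (nat_lit 183)) (rf (nat_lit 14)))) (nd (nat_lit 185) (nat_lit 0) (cs (rf (nat_lit 0)) (cs (rf (nat_lit 15))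 (cs (rf (nat_lit 14)) (rf (nat_lit 12)))))))))))) q19011 (by decide +kernel)
def q19120 : Q := Q.p (nat_lit 0x2000001000014000030000000000000000000000000000000000000000000000) (nat_lit 0x1bc0006e00009c000000000c0000380000e00003800008000000000000000000) (nat_lit 10)
theorem c19120 : QOK q19120 := cut [q2478, q18528, q19101, q19108, q19109] ⟨c2478, c18528, c19101, c19108, c19109, trivial⟩ (nd (nat_lit 162) (nat_lit 0) (cs (nd (nat_lit 140) (nat_lit 0) (cs (rf (nat_lit 0)) (cs (rf (nat_lit 1)) (cs (nd (nat_lit 229) (nat_lit 0) (cs (lf (nat_lit 29) (nat_lit 162)) (rf (nat_lit 2)))) (nd (nat_lit 117) (nat_lit 0) (cs (lf (nat_lit 46) (nat_lit 117)) (nd (nat_lit 118) (nat_lit 0) (cs (lf (nat_lit 47) (nat_lit 95)) (nd (nat_lit 163) (nat_lit 0) (cs (lf (nat_lit 35) (nat_lit 140)) (lf (nat_lit 24) (nat_lit 96)))))))))))) (cs (rf (nat_lit 3)) (cs (nd (nat_lit 229) (nat_lit 0) (cs (lf (nat_lit 29) (nat_lit 162))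 (nd (nat_lit 141) (nat_lit 0) (cs (lf (nat_lit 34) (nat_lit 140)) (nd (nat_lit 227) (nat_lit 0) (cs (lf (nat_lit 41) (nat_lit 161)) (rf (nat_lit 4)))))))) (cs (nd (nat_lit 227) (nat_lit 0) (cs (lf (nat_lit 41) (nat_lit 161)) (nd (nat_lit 141) (nat_lit 0) (cs (lf (nat_lit 34) (nat_lit 140)) (nd (nat_lit 140) (nat_lit 0) (cs (lf (nat_lit 35) (nat_lit 118)) (nd (nat_lit 117) (nat_lit 0) (cs (lf (nat_lit 46) (nat_lit 117)) (nd (nat_lit 118) (nat_lit 0) (cs (lf (nat_lit 47) (nat_lit 95)) (lf (nat_lit 29) (nat_lit 118)))))))))))) (nd (nat_lit 229) (nat_lit 0) (cs (lf (nat_lit 29) (nat_lit 162)) (nd (nat_lit 140) (nat_lit 0) (cs (lf (nat_lit 28) (nat_lit 140)) (rf (nat_lit 2))))))))))) q19120 (by decide +kernel)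
def q19178 : Q := Q.p (nat_lit 0x100000e0000000000000000000000000000000000000000000000) (nat_lit 0x14000050000e70000180001f0000380000e00003800008000000000000000000) (nat_lit 10)
theorem c19178 : QOK q19178 := cut [q18911, q19155, q19176] ⟨c18911, c19155, c19176, trivial⟩ (nd (nat_lit 184) (nat_lit 0) (cs (rf (nat_lit 0)) (cs (rf (nat_lit 1)) (nd (nat_lit 206) (nat_lit 0) (cs (lf (nat_lit 11) (nat_lit 183)) (rf (nat_lit 2))))))) q19178 (by decide +kernel)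
def q19702 : Q := Q.p (nat_lit 0x20000000000100001e0000000000000000000000000000000000000000000000) (nat_lit 0x280007e0001fe0007f8001ff0001f80007e001c700021c0006f8000800002000000000000000000000000000000) (nat_lit 15)
theorem c19702 : QOK q19702 := cut [q1570, q18787, q4891, q19155, q19636, q2623, q3764, q18255, q19641, q19644, q19650, q19658, q19668, q12588, q19679, q19697] ⟨c1570, c18787, c4891, c19155, c19636, c2623, c3764, c18255, c19641, c19644, c19650, c19658, c19668, c12588, c19679, c19697, trivial⟩ (nd (nat_lit 252) (nat_lit 0) (cs (rf (nat_lit 0)) (cs (rf (nat_lit 1)) (nd (nat_lit 184) (nat_lit 0) (cs (rf (nat_lit 2)) (cs (rf (nat_lit 3)) (cs (nd (nat_lit 250) (nat_lit 0) (cs (nd (nat_lit 165) (nat_lit 0) (cs (lf (nat_lit 17) (nat_lit 162)) (nd (nat_lit 121) (nat_lit 0) (cs (lf (nat_lit 37) (nat_lit 120)) (nd (nat_lit 206) (nat_lit 0) (cs (lf (nat_lit 11) (nat_lit 183)) (nd (nat_lit 228) (nat_lit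 0) (cs (lf (nat_lit 35) (nat_lit 162)) (rf (nat_lit 4)))))))))) (cs (nd (nat_lit 251) (nat_lit 0) (cs (rf (nat_lit 5)) (cs (rf (nat_lit 6)) (cs (rf (nat_lit 7)) (nd (nat_lit 272) (nat_lit 0) (cs (lf (nat_lit 11) (nat_lit 249)) (nd (nat_lit 294) (nat_lit 0) (cs (rf (nat_lit 8)) (cs (nd (nat_lit 275) (nat_lit 0) (cs (lf (nat_lit 5) (nat_lit 250)) (nd (nat_lit 165) (nat_lit 0) (cs (lf (nat_lit 17) (nat_lit 162)) (nd (nat_lit 121) (nat_lit 0) (cs (lf (nat_lit 37) (nat_lit 120)) (nd (nat_lit 228) (nat_lit 0) (cs (lf (nat_lit 23) (nat_lit 227)) (nd (nat_lit 210) (nat_lit 0) (cs (lf (nat_lit 5) (nat_lit 185)) (rf (nat_lit 9)))))))))))) (cs (nd (nat_lit 210) (nat_lit 0) (cs (lf (nat_lit 5) (nat_lit 185)) (nd (nat_lit 275) (nat_lit 0) (cs (lf (nat_lit 5) (nat_lit 250)) (nd (nat_lit 165) (nat_lit 0) (cs (lf (nat_lit 17) (nat_lit 162)) (nd (nat_lit 121) (nat_lit 0) (cs (nd (nat_lit 227) (nat_lit 0) (cs (lf (nat_lit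 22) (nat_lit 227)) (rf (nat_lit 10)))) (lf (nat_lit 25) (nat_lit 121)))))))))) (nd (nat_lit 210) (nat_lit 0) (cs (lf (nat_lit 5) (nat_lit 185)) (nd (nat_lit 275) (nat_lit 0) (cs (lf (nat_lit 5) (nat_lit 250)) (nd (nat_lit 165) (nat_lit 0) (cs (lf (nat_lit 17) (nat_lit 162)) (nd (nat_lit 121) (nat_lit 0) (cs (lf (nat_lit 25) (nat_lit 121)) (rf (nat_lit 11)))))))))))))))))))) (cs (nd (nat_lit 205) (nat_lit 0) (cs (lf (nat_lit 10) (nat_lit 183)) (nd (nat_lit 183) (nat_lit 0) (cs (lf (nat_lit 11) (nat_lit 182)) (nd (nat_lit 160) (nat_lit 0) (cs (lf (nat_lit 22) (nat_lit 160)) (nd (nat_lit 249) (nat_lit 0) (cs (nd (nat_lit 182) (nat_lit 0) (cs (lf (nat_lit 23) (nat_lit 159)) (lf (nat_lit 43) (nat_lit 160)))) (rf (nat_lit 12)))))))))) (cs (nd (nat_lit 206) (nat_lit 0) (cs (lf (nat_lit 11) (nat_lit 183)) (nd (nat_lit 228) (nat_lit 0) (cs (lf (nat_lit 35) (nat_lit 162)) (nd (nat_lit 161) (nat_lit 0) (cs (lf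 (nat_lit 46) (nat_lit 161)) (nd (nat_lit 251) (nat_lit 0) (cs (lf (nat_lit 29) (nat_lit 184)) (rf (nat_lit 13)))))))))) (nd (nat_lit 205) (nat_lit 0) (cs (lf (nat_lit 10) (nat_lit 183)) (nd (nat_lit 183) (nat_lit 0) (cs (lf (nat_lit 11) (nat_lit 182)) (nd (nat_lit 161) (nat_lit 0) (cs (lf (nat_lit 23) (nat_lit 160)) (nd (nat_lit 210) (nat_lit 0) (cs (lf (nat_lit 5) (nat_lit 185)) (rf (nat_lit 14))))))))))))))) (nd (nat_lit 211) (nat_lit 0) (cs (lf (nat_lit 4) (nat_lit 185)) (nd (nat_lit 189) (nat_lit 0) (cs (lf (nat_lit 5) (nat_lit 186)) (nd (nat_lit 250) (nat_lit 0) (cs (nd (nat_lit 251) (nat_lit 0) (cs (rf (nat_lit 5)) (cs (rf (nat_lit 6)) (cs (rf (nat_lit 7)) (nd (nat_lit 272) (nat_lit 0) (cs (lf (nat_lit 11) (nat_lit 249)) (nd (nat_lit 294) (nat_lit 0) (cs (rf (nat_lit 8)) (cs (rf (nat_lit 10)) (cs (rf (nat_lit 11)) (nd (nat_lit 275) (nat_lit 0) (cs (lf (nat_lit 5) (nat_lit 250)) (nd (nat_lit 165)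 (nat_lit 0) (cs (lf (nat_lit 17) (nat_lit 162)) (nd (nat_lit 228) (nat_lit 0) (cs (lf (nat_lit 23) (nat_lit 227)) (rf (nat_lit 9)))))))))))))))))) (cs (nd (nat_lit 205) (nat_lit 0) (cs (lf (nat_lit 10) (nat_lit 183)) (nd (nat_lit 183) (nat_lit 0) (cs (lf (nat_lit 11) (nat_lit 182)) (nd (nat_lit 249) (nat_lit 0) (cs (rf (nat_lit 12)) (nd (nat_lit 162) (nat_lit 0) (cs (lf (nat_lit 22) (nat_lit 162)) (lf (nat_lit 31) (nat_lit 161)))))))))) (rf (nat_lit 15)))))))))))))))) q19702 (by decide +kernel)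
def q19746 : Q := Q.p (nat_lit 0x40000100000c0000100000000000000000000000000000000000000000) (nat_lit 0x180000700003e0000700003ee0003c0000f00000e0000380000a0000000000000) (nat_lit 10)
theorem c19746 : QOK q19746 := cut [q18440, q19306, q19745] ⟨c18440, c19306, c19745, trivial⟩ (nd (nat_lit 188) (nat_lit 0) (cs (rf (nat_lit 0)) (cs (rf (nat_lit 1)) (rf (nat_lit 2))))) q19746 (by decide +kernel)
def q19943 : Q := Q.p (nat_lit 0x20000000000100000c0000000000000000000000000000000000000000000000) (nat_lit 0x80000e000018000760003e7001f38007f70007f0007fc00076000150000000000000000000) (nat_lit 14)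
theorem c19943 : QOK q19943 := cut [q18713, q19804, q19171, q19498, q19170, q7417, q6513, q7193, q646, q19812, q19820, q19829, q19919, q7194, q19857, q9961, q19851, q9280, q19760, q9064, q16596, q19938] ⟨c18713, c19804, c19171, c19498, c19170, c7417, c6513, c7193, c646, c19812, c19820, c19829, c19919, c7194, c19857, c9961, c19851, c9280, c19760, c9064, c16596, c19938, trivial⟩ (nd (nat_lit 167) (nat_lit 0) (cs (nd (nat_lit 165) (nat_lit 0) (cs (rf (nat_lit 0)) (nd (nat_lit 166) (nat_lit 0) (cs (lf (nat_lit 6) (nat_lit 164)) (rf (nat_lit 1)))))) (cs (nd (nat_lit 188) (nat_lit 0) (cs (rf (nat_lit 2)) (cs (rf (nat_lit 3)) (nd (nat_lit 185) (nat_lit 0) (cs (lf (nat_lit 16) (nat_lit 163)) (rf (nat_lit 4))))))) (cs (nd (nat_lit 230) (nat_lit 0) (cs (rf (nat_lit 5)) (cs (nd (nat_lit 165) (nat_lit 0) (cs (rf (nat_lit 6)) (cs (rf (nat_lit 7)) (nd (nat_lit 166) (nat_lit 0) (cs (rf (nat_lit 8)) (cs (rf (nat_lit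 1)) (nd (nat_lit 189) (nat_lit 0) (cs (rf (nat_lit 9)) (cs (nd (nat_lit 211) (nat_lit 0) (cs (nd (nat_lit 144) (nat_lit 0) (cs (lf (nat_lit 42) (nat_lit 144)) (nd (nat_lit 188) (nat_lit 0) (cs (lf (nat_lit 5) (nat_lit 186)) (lf (nat_lit 24) (nat_lit 122)))))) (cs (nd (nat_lit 144) (nat_lit 0) (cs (lf (nat_lit 42) (nat_lit 144)) (nd (nat_lit 122) (nat_lit 0) (cs (lf (nat_lit 36) (nat_lit 99)) (lf (nat_lit 45) (nat_lit 122)))))) (rf (nat_lit 10))))) (nd (nat_lit 190) (nat_lit 0) (cs (nd (nat_lit 191) (nat_lit 0) (cs (lf (nat_lit 18) (nat_lit 166)) (lf (nat_lit 21) (nat_lit 165)))) (lf (nat_lit 0) (nat_lit 164))))))))))))) (rf (nat_lit 11))))) (cs (rf (nat_lit 12)) (cs (nd (nat_lit 165) (nat_lit 0) (cs (rf (nat_lit 13)) (cs (rf (nat_lit 0)) (cs (nd (nat_lit 189) (nat_lit 0) (cs (nd (nat_lit 211) (nat_lit 0) (cs (rf (nat_lit 10)) (cs (rf (nat_lit 14)) (cs (nd (nat_lit 145) (nat_lit 0) (cs (rf (nat_lit 15))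 (nd (nat_lit 230) (nat_lit 0) (cs (lf (nat_lit 30) (nat_lit 164)) (nd (nat_lit 210) (nat_lit 0) (cs (lf (nat_lit 41) (nat_lit 144)) (rf (nat_lit 16)))))))) (nd (nat_lit 230) (nat_lit 0) (cs (lf (nat_lit 30) (nat_lit 164)) (nd (nat_lit 188) (nat_lit 0) (cs (lf (nat_lit 5) (nat_lit 186)) (rf (nat_lit 17)))))))))) (cs (nd (nat_lit 230) (nat_lit 0) (cs (lf (nat_lit 30) (nat_lit 164)) (nd (nat_lit 166) (nat_lit 0) (cs (lf (nat_lit 6) (nat_lit 164)) (rf (nat_lit 9)))))) (nd (nat_lit 168) (nat_lit 0) (cs (lf (nat_lit 14) (nat_lit 164)) (lf (nat_lit 8) (nat_lit 164))))))) (nd (nat_lit 142) (nat_lit 0) (cs (nd (nat_lit 166) (nat_lit 0) (cs (lf (nat_lit 6) (nat_lit 164)) (nd (nat_lit 164) (nat_lit 0) (cs (lf (nat_lit 23) (nat_lit 141)) (rf (nat_lit 18)))))) (cs (nd (nat_lit 143) (nat_lit 0) (cs (lf (nat_lit 36) (nat_lit 120)) (rf (nat_lit 19)))) (nd (nat_lit 143) (nat_lit 0) (cs (lf (nat_lit 36) (nat_lit 120))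 (nd (nat_lit 166) (nat_lit 0) (cs (lf (nat_lit 18) (nat_lit 142)) (rf (nat_lit 20))))))))))))) (nd (nat_lit 166) (nat_lit 0) (cs (rf (nat_lit 21)) (cs (nd (nat_lit 185) (nat_lit 0) (cs (lf (nat_lit 15) (nat_lit 163)) (nd (nat_lit 165) (nat_lit 0) (cs (lf (nat_lit 12) (nat_lit 162)) (lf (nat_lit 9) (nat_lit 163)))))) (nd (nat_lit 165) (nat_lit 0) (cs (lf (nat_lit 6) (nat_lit 164)) (rf (nat_lit 13))))))))))))) q19943 (by decide +kernel)
def q19968 : Q := Q.p (nat_lit 0x20000000000100000c0000000000000000000000000000000000000000000000) (nat_lit 0xe000018000060000e700073c001f80003e0000780001e0000380000a0000000000000) (nat_lit 12)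
theorem c19968 : QOK q19968 := cut [q21, q435, q500, q18160, q448, q19732, q19738, q19745, q19946, q19957] ⟨c21, c435, c500, c18160, c448, c19732, c19738, c19745, c19946, c19957, trivial⟩ (nd (nat_lit 230) (nat_lit 0) (cs (rf (nat_lit 0)) (cs (rf (nat_lit 1)) (cs (rf (nat_lit 2)) (cs (rf (nat_lit 3)) (nd (nat_lit 164) (nat_lit 0) (cs (rf (nat_lit 4)) (cs (rf (nat_lit 5)) (cs (rf (nat_lit 6)) (cs (rf (nat_lit 7)) (nd (nat_lit 166) (nat_lit 0) (cs (nd (nat_lit 165) (nat_lit 0) (cs (lf (nat_lit 35) (nat_lit 142)) (rf (nat_lit 8)))) (cs (nd (nat_lit 229) (nat_lit 0) (cs (lf (nat_lit 41) (nat_lit 163)) (nd (nat_lit 163) (nat_lit 0) (cs (lf (nat_lit 47) (nat_lit 141)) (nd (nat_lit 188) (nat_lit 0) (cs (lf (nat_lit 18) (nat_lit 163)) (nd (nat_lit 185) (nat_lit 0) (cs (lf (nat_lit 17) (nat_lit 163)) (nd (nat_lit 210) (nat_lit 0) (cs (lf (nat_lit 5) (nat_lit 185)) (nd (nat_lit 184) (nat_lit 0) (cs (lf (nat_lit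 4) (nat_lit 184)) (nd (nat_lit 205) (nat_lit 0) (cs (lf (nat_lit 10) (nat_lit 183)) (nd (nat_lit 183) (nat_lit 0) (cs (lf (nat_lit 11) (nat_lit 182)) (lf (nat_lit 12) (nat_lit 160)))))))))))))))))) (cs (nd (nat_lit 163) (nat_lit 0) (cs (lf (nat_lit 47) (nat_lit 141)) (nd (nat_lit 165) (nat_lit 0) (cs (lf (nat_lit 35) (nat_lit 142)) (nd (nat_lit 184) (nat_lit 0) (cs (lf (nat_lit 10) (nat_lit 162)) (rf (nat_lit 9)))))))) (nd (nat_lit 165) (nat_lit 0) (cs (lf (nat_lit 35) (nat_lit 142)) (nd (nat_lit 229) (nat_lit 0) (cs (lf (nat_lit 41) (nat_lit 163)) (nd (nat_lit 167) (nat_lit 0) (cs (lf (nat_lit 6) (nat_lit 164)) (nd (nat_lit 189) (nat_lit 0) (cs (lf (nat_lit 5) (nat_lit 164)) (nd (nat_lit 163) (nat_lit 0) (cs (lf (nat_lit 47) (nat_lit 141)) (lf (nat_lit 19) (nat_lit 163)))))))))))))))))))))))))) q19968 (by decide +kernel)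
def q20053 : Q := Q.p (nat_lit 0x20000000000100000c0000000000000000000000000000000000000000000000) (nat_lit 0x6a000198000760003e700073c003ff8007c0001f00007e0000f80000a0000000000000) (nat_lit 13)
theorem c20053 : QOK q20053 := cut [q19306, q19170, q19281, q19774, q19986, q19993, q20000, q20002, q9200, q18440, q19291, q1812, q20005, q20007, q5534, q19745, q2806, q19946, q6413, q8351, q19957, q20029, q20051] ⟨c19306, c19170, c19281, c19774, c19986, c19993, c20000, c20002, c9200, c18440, c19291, c1812, c20005, c20007, c5534, c19745, c2806, c19946, c6413, c8351, c19957, c20029, c20051, trivial⟩ (nd (nat_lit 164) (nat_lit 0) (cs (nd (nat_lit 188) (nat_lit 0) (cs (rf (nat_lit 0)) (cs (nd (nat_lit 185) (nat_lit 0) (cs (rf (nat_lit 1)) (cs (nd (nat_lit 163) (nat_lit 0) (cs (lf (nat_lit 23) (nat_lit 162)) (nd (nat_lit 142) (nat_lit 0) (cs (nd (nat_lit 210) (nat_lit 0) (cs (lf (nat_lit 5) (nat_lit 185)) (nd (nat_lit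 166) (nat_lit 0) (cs (lf (nat_lit 17) (nat_lit 163)) (nd (nat_lit 144) (nat_lit 0) (cs (rf (nat_lit 2)) (cs (rf (nat_lit 3)) (nd (nat_lit 143) (nat_lit 0) (cs (lf (nat_lit 35) (nat_lit 120)) (lf (nat_lit 6) (nat_lit 141))))))))))) (cs (nd (nat_lit 230) (nat_lit 0) (cs (lf (nat_lit 42) (nat_lit 163)) (rf (nat_lit 4)))) (nd (nat_lit 120) (nat_lit 0) (cs (lf (nat_lit 36) (nat_lit 97)) (lf (nat_lit 29) (nat_lit 120))))))))) (cs (nd (nat_lit 166) (nat_lit 0) (cs (lf (nat_lit 17) (nat_lit 163)) (nd (nat_lit 210) (nat_lit 0) (cs (lf (nat_lit 5) (nat_lit 185)) (nd (nat_lit 184) (nat_lit 0) (cs (lf (nat_lit 4) (nat_lit 184)) (rf (nat_lit 5)))))))) (rf (nat_lit 6)))))) (rf (nat_lit 7))))) (cs (nd (nat_lit 188) (nat_lit 0) (cs (rf (nat_lit 8)) (cs (rf (nat_lit 9)) (nd (nat_lit 185) (nat_lit 0) (cs (rf (nat_lit 10)) (cs (rf (nat_lit 6)) (nd (nat_lit 166) (nat_lit 0) (cs (lf (nat_lit 17) (nat_lit 163)) (nd (nat_lit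 163) (nat_lit 0) (cs (rf (nat_lit 11)) (nd (nat_lit 144) (nat_lit 0) (cs (nd (nat_lit 230) (nat_lit 0) (cs (lf (nat_lit 42) (nat_lit 163)) (rf (nat_lit 12)))) (cs (rf (nat_lit 13)) (nd (nat_lit 122) (nat_lit 0) (cs (lf (nat_lit 41) (nat_lit 121)) (nd (nat_lit 165) (nat_lit 0) (cs (lf (nat_lit 17) (nat_lit 141)) (lf (nat_lit 36) (nat_lit 99))))))))))))))))))) (cs (nd (nat_lit 230) (nat_lit 0) (cs (rf (nat_lit 14)) (rf (nat_lit 15)))) (cs (nd (nat_lit 165) (nat_lit 0) (cs (rf (nat_lit 16)) (nd (nat_lit 166) (nat_lit 0) (cs (rf (nat_lit 17)) (cs (nd (nat_lit 167) (nat_lit 0) (cs (lf (nat_lit 6) (nat_lit 164)) (nd (nat_lit 189) (nat_lit 0) (cs (lf (nat_lit 5) (nat_lit 164)) (nd (nat_lit 163) (nat_lit 0) (cs (rf (nat_lit 18)) (lf (nat_lit 19) (nat_lit 163)))))))) (nd (nat_lit 163) (nat_lit 0) (cs (rf (nat_lit 19)) (rf (nat_lit 20))))))))) (cs (rf (nat_lit 21)) (nd (nat_lit 188) (nat_lit 0) (cs (rf (nat_lit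 8)) (cs (rf (nat_lit 9)) (rf (nat_lit 22))))))))))) q20053 (by decide +kernel)
def q20087 : Q := Q.p (nat_lit 0x20000000000100000c0000000000000000000000000000000000000000000000) (nat_lit 0x6a000198000760003c700033c003ff8007fc001ff0005e000020000000000000000000) (nat_lit 13)
theorem c20087 : QOK q20087 := cut [q10296, q20029, q20058, q18163, q20062, q2808, q5534, q10295, q20054, q20070, q2879, q20076, q20080, q4533] ⟨c10296, c20029, c20058, c18163, c20062, c2808, c5534, c10295, c20054, c20070, c2879, c20076, c20080, c4533, trivial⟩ (nd (nat_lit 164) (nat_lit 0) (cs (rf (nat_lit 0)) (cs (rf (nat_lit 1)) (cs (rf (nat_lit 2)) (cs (nd (nat_lit 142) (nat_lit 0) (cs (rf (nat_lit 3)) (cs (rf (nat_lit 4)) (cs (nd (nat_lit 119) (nat_lit 0) (cs (lf (nat_lit 46) (nat_lit 119)) (nd (nat_lit 120) (nat_lit 0) (cs (lf (nat_lit 47) (nat_lit 97)) (rf (nat_lit 5)))))) (nd (nat_lit 143) (nat_lit 0) (cs (lf (nat_lit 35)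 (nat_lit 120)) (nd (nat_lit 230) (nat_lit 0) (cs (lf (nat_lit 34) (nat_lit 142)) (rf (nat_lit 6)))))))))) (nd (nat_lit 163) (nat_lit 0) (cs (rf (nat_lit 7)) (cs (rf (nat_lit 8)) (cs (nd (nat_lit 142) (nat_lit 0) (cs (rf (nat_lit 3)) (cs (nd (nat_lit 188) (nat_lit 0) (cs (lf (nat_lit 18) (nat_lit 163)) (rf (nat_lit 9)))) (cs (nd (nat_lit 141) (nat_lit 0) (cs (rf (nat_lit 10)) (nd (nat_lit 188) (nat_lit 0) (cs (lf (nat_lit 18) (nat_lit 163)) (rf (nat_lit 11)))))) (nd (nat_lit 188) (nat_lit 0) (cs (lf (nat_lit 18) (nat_lit 163)) (rf (nat_lit 12)))))))) (nd (nat_lit 142) (nat_lit 0) (cs (rf (nat_lit 3)) (cs (rf (nat_lit 9)) (cs (rf (nat_lit 12)) (nd (nat_lit 162) (nat_lit 0) (cs (lf (nat_lit 0) (nat_lit 161)) (nd (nat_lit 119) (nat_lit 0) (cs (lf (nat_lit 46) (nat_lit 119)) (rf (nat_lit 13))))))))))))))))))) q20087 (by decide +kernel)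
def q20098 : Q := Q.p (nat_lit 0x4000010000040000700000000000000000000000000000000000000000) (nat_lit 0x8000138000e8000300000880007200008000020000000000000000000000000) (nat_lit 10)
theorem c20098 : QOK q20098 := cut [q20096] ⟨c20096, trivial⟩ (nd (nat_lit 229) (nat_lit 0) (cs (lf (nat_lit 41) (nat_lit 163)) (nd (nat_lit 163) (nat_lit 0) (cs (lf (nat_lit 47) (nat_lit 141)) (rf (nat_lit 0)))))) q20098 (by decide +kernel)
def q20291 : Q := Q.p (nat_lit 0x800000000010000040000000000000000000000000000000000000000000000) (nat_lit 0x380000600077e001ef800fbe000f78000f80003800000000000000000000000000000) (nat_lit 12)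
theorem c20291 : QOK q20291 := cut [q11490, q1773, q530, q18355, q20260, q20262, q20265, q529, q2225, q20273, q20276, q20282, q20284, q4774, q18731, q18463, q18755, q18756, q4259] ⟨c11490, c1773, c530, c18355, c20260, c20262, c20265, c529, c2225, c20273, c20276, c20282, c20284, c4774, c18731, c18463, c18755, c18756, c4259, trivial⟩ (nd (nat_lit 207) (nat_lit 0) (cs (rf (nat_lit 0)) (cs (nd (nat_lit 229) (nat_lit 0) (cs (lf (nat_lit 30) (nat_lit 185)) (rf (nat_lit 1)))) (cs (nd (nat_lit 206) (nat_lit 0) (cs (rf (nat_lit 2)) (cs (rf (nat_lit 3)) (cs (nd (nat_lit 209) (nat_lit 0) (cs (rf (nat_lit 4)) (cs (nd (nat_lit 227) (nat_lit 0) (cs (lf (nat_lit 10) (nat_lit 205)) (rf (nat_lit 5)))) (cs (rf (nat_lit 6)) (cs (nd (nat_lit 187) (nat_lit 0) (cs (rf (nat_lit 7)) (nd (nat_lit 184) (nat_lit 0) (cs (lf (nat_lit 23) (nat_lit 183)) (nd (nat_lit 228) (nat_lit 0) (cs (lf (nat_lit 11) (nat_lit 205)) (nd (nat_lit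 250) (nat_lit 0) (cs (lf (nat_lit 29) (nat_lit 184)) (nd (nat_lit 249) (nat_lit 0) (cs (lf (nat_lit 41) (nat_lit 183)) (nd (nat_lit 185) (nat_lit 0) (cs (lf (nat_lit 30) (nat_lit 184)) (rf (nat_lit 8)))))))))))))) (cs (rf (nat_lit 9)) (nd (nat_lit 187) (nat_lit 0) (cs (lf (nat_lit 17) (nat_lit 184)) (nd (nat_lit 227) (nat_lit 0) (cs (lf (nat_lit 10) (nat_lit 205)) (rf (nat_lit 10)))))))))))) (rf (nat_lit 11)))))) (nd (nat_lit 185) (nat_lit 0) (cs (nd (nat_lit 164) (nat_lit 0) (cs (lf (nat_lit 31) (nat_lit 163)) (nd (nat_lit 142) (nat_lit 0) (cs (lf (nat_lit 36) (nat_lit 119)) (rf (nat_lit 12)))))) (cs (nd (nat_lit 184) (nat_lit 0) (cs (rf (nat_lit 13)) (cs (rf (nat_lit 14)) (nd (nat_lit 187) (nat_lit 0) (cs (rf (nat_lit 15)) (cs (rf (nat_lit 16)) (rf (nat_lit 17)))))))) (nd (nat_lit 229) (nat_lit 0) (cs (lf (nat_lit 35) (nat_lit 163)) (rf (nat_lit 18))))))))))) q20291 (by decide +kernel)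
def q20462 : Q := Q.p (nat_lit 0x2000000000010000060000000000000000000000000000000000000000000000) (nat_lit 0x7e0009f80073f001ef00038e001ff0003fc001ff0003c0000d0000000000000000000) (nat_lit 14)
theorem c20462 : QOK q20462 := cut [q20316, q530, q18355, q20322, q2103, q1797, q90, q20332, q20337, q4625, q20343, q20350, q4637, q20357, q20374, q20381, q20387, q20440, q20456, q18297, q20437] ⟨c20316, c530, c18355, c20322, c2103, c1797, c90, c20332, c20337, c4625, c20343, c20350, c4637, c20357, c20374, c20381, c20387, c20440, c20456, c18297, c20437, trivial⟩ (nd (nat_lit 207) (nat_lit 0) (cs (rf (nat_lit 0)) (cs (nd (nat_lit 206) (nat_lit 0) (cs (rf (nat_lit 1)) (cs (rf (nat_lit 2)) (cs (rf (nat_lit 3)) (nd (nat_lit 205) (nat_lit 0) (cs (lf (nat_lit 12) (nat_lit 182)) (nd (nat_lit 182) (nat_lit 0) (cs (lf (nat_lit 22) (nat_lit 182)) (nd (nat_lit 227) (nat_lit 0) (cs (lf (nat_lit 11) (nat_lit 204)) (nd (nat_lit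 228) (nat_lit 0) (cs (rf (nat_lit 4)) (lf (nat_lit 6) (nat_lit 205)))))))))))))) (cs (nd (nat_lit 188) (nat_lit 0) (cs (rf (nat_lit 5)) (cs (nd (nat_lit 229) (nat_lit 0) (cs (rf (nat_lit 6)) (cs (nd (nat_lit 210) (nat_lit 0) (cs (nd (nat_lit 166) (nat_lit 0) (cs (nd (nat_lit 164) (nat_lit 0) (cs (lf (nat_lit 36) (nat_lit 141)) (nd (nat_lit 165) (nat_lit 0) (cs (lf (nat_lit 6) (nat_lit 163)) (nd (nat_lit 143) (nat_lit 0) (cs (lf (nat_lit 42) (nat_lit 143)) (nd (nat_lit 121) (nat_lit 0) (cs (lf (nat_lit 45) (nat_lit 121)) (lf (nat_lit 36) (nat_lit 98)))))))))) (cs (nd (nat_lit 144) (nat_lit 0) (cs (rf (nat_lit 7)) (cs (rf (nat_lit 8)) (nd (nat_lit 233) (nat_lit 0) (cs (lf (nat_lit 28) (nat_lit 144)) (nd (nat_lit 142) (nat_lit 0) (cs (lf (nat_lit 37) (nat_lit 141)) (nd (nat_lit 232) (nat_lit 0) (cs (rf (nat_lit 9)) (lf (nat_lit 29) (nat_lit 166))))))))))) (cs (nd (nat_lit 144) (nat_lit 0) (cs (rf (nat_lit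 7)) (cs (rf (nat_lit 8)) (cs (rf (nat_lit 10)) (nd (nat_lit 145) (nat_lit 0) (cs (lf (nat_lit 35) (nat_lit 122)) (nd (nat_lit 142) (nat_lit 0) (cs (lf (nat_lit 37) (nat_lit 141)) (nd (nat_lit 211) (nat_lit 0) (cs (lf (nat_lit 29) (nat_lit 144)) (nd (nat_lit 143) (nat_lit 0) (cs (lf (nat_lit 47) (nat_lit 121)) (nd (nat_lit 167) (nat_lit 0) (cs (lf (nat_lit 0) (nat_lit 141)) (lf (nat_lit 5) (nat_lit 142)))))))))))))))) (cs (nd (nat_lit 164) (nat_lit 0) (cs (lf (nat_lit 36) (nat_lit 141)) (nd (nat_lit 167) (nat_lit 0) (cs (lf (nat_lit 8) (nat_lit 163)) (nd (nat_lit 145) (nat_lit 0) (cs (lf (nat_lit 30) (nat_lit 144)) (rf (nat_lit 11)))))))) (nd (nat_lit 144) (nat_lit 0) (cs (rf (nat_lit 7)) (cs (rf (nat_lit 10)) (cs (nd (nat_lit 211) (nat_lit 0) (cs (lf (nat_lit 29) (nat_lit 144)) (nd (nat_lit 122) (nat_lit 0) (cs (rf (nat_lit 12)) (lf (nat_lit 28) (nat_lit 122)))))) (nd (nat_lit 121) (nat_lit 0) (cs (lf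 (nat_lit 46) (nat_lit 121)) (rf (nat_lit 13))))))))))))) (cs (nd (nat_lit 209) (nat_lit 0) (cs (lf (nat_lit 17) (nat_lit 185)) (lf (nat_lit 11) (nat_lit 206)))) (nd (nat_lit 209) (nat_lit 0) (cs (lf (nat_lit 18) (nat_lit 185)) (lf (nat_lit 11) (nat_lit 206))))))) (rf (nat_lit 14))))) (nd (nat_lit 206) (nat_lit 0) (cs (lf (nat_lit 7) (nat_lit 184)) (rf (nat_lit 15))))))) (cs (nd (nat_lit 206) (nat_lit 0) (cs (rf (nat_lit 1)) (cs (rf (nat_lit 2)) (cs (rf (nat_lit 16)) (rf (nat_lit 17)))))) (cs (rf (nat_lit 18)) (nd (nat_lit 206) (nat_lit 0) (cs (rf (nat_lit 1)) (cs (rf (nat_lit 2)) (cs (rf (nat_lit 16)) (nd (nat_lit 228) (nat_lit 0) (cs (rf (nat_lit 19)) (cs (nd (nat_lit 188) (nat_lit 0) (cs (lf (nat_lit 7) (nat_lit 184)) (rf (nat_lit 20)))) (nd (nat_lit 250) (nat_lit 0) (cs (lf (nat_lit 30) (nat_lit 184)) (nd (nat_lit 229) (nat_lit 0) (cs (rf (nat_lit 6)) (lf (nat_lit 36) (nat_lit 162)))))))))))))))))))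 q20462 (by decide +kernel)
def q20497 : Q := Q.p (nat_lit 0x200000000001c000070000100000000000000000000000000000000000000000) (nat_lit 0x1f80001e00001800000000000000080000e00003800000000000000000000000000000) (nat_lit 10)
theorem c20497 : QOK q20497 := cut [q20494] ⟨c20494, trivial⟩ (nd (nat_lit 142) (nat_lit 0) (cs (lf (nat_lit 36) (nat_lit 119)) (nd (nat_lit 121) (nat_lit 0) (cs (lf (nat_lit 34) (nat_lit 120)) (nd (nat_lit 141) (nat_lit 0) (cs (lf (nat_lit 47) (nat_lit 119)) (rf (nat_lit 0)))))))) q20497 (by decide +kernel)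
def q20570 : Q := Q.p (nat_lit 0x10000060000000000000000000000000000000000000000000000) (nat_lit 0x20003ef80079c000f78000f80003e0000380000a000000000000000000) (nat_lit 12)
theorem c20570 : QOK q20570 := cut [q4753, q4772, q4774, q18731, q18727, q19143, q19725, q19067, q802, q16272, q20564] ⟨c4753, c4772, c4774, c18731, c18727, c19143, c19725, c19067, c802, c16272, c20564, trivial⟩ (nd (nat_lit 184) (nat_lit 0) (cs (rf (nat_lit 0)) (cs (rf (nat_lit 1)) (cs (rf (nat_lit 2)) (cs (rf (nat_lit 3)) (nd (nat_lit 187) (nat_lit 0) (cs (rf (nat_lit 4)) (cs (rf (nat_lit 5)) (cs (rf (nat_lit 6)) (cs (nd (nat_lit 162) (nat_lit 0) (cs (lf (nat_lit 23) (nat_lit 161)) (nd (nat_lit 140) (nat_lit 0) (cs (rf (nat_lit 7)) (cs (nd (nat_lit 209) (nat_lit 0) (cs (lf (nat_lit 5) (nat_lit 184)) (nd (nat_lit 206) (nat_lit 0) (cs (lf (nat_lit 11) (nat_lit 183)) (nd (nat_lit 165) (nat_lit 0) (cs (lf (nat_lit 17) (nat_lit 162))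 (nd (nat_lit 121) (nat_lit 0) (cs (lf (nat_lit 37) (nat_lit 120)) (nd (nat_lit 117) (nat_lit 0) (cs (lf (nat_lit 46) (nat_lit 117)) (nd (nat_lit 118) (nat_lit 0) (cs (rf (nat_lit 8)) (lf (nat_lit 47) (nat_lit 95)))))))))))))) (cs (nd (nat_lit 165) (nat_lit 0) (cs (lf (nat_lit 17) (nat_lit 162)) (nd (nat_lit 142) (nat_lit 0) (cs (nd (nat_lit 206) (nat_lit 0) (cs (lf (nat_lit 11) (nat_lit 183)) (nd (nat_lit 209) (nat_lit 0) (cs (lf (nat_lit 5) (nat_lit 184)) (nd (nat_lit 139) (nat_lit 0) (cs (lf (nat_lit 47) (nat_lit 117)) (nd (nat_lit 141) (nat_lit 0) (cs (lf (nat_lit 35) (nat_lit 118)) (lf (nat_lit 4) (nat_lit 139)))))))))) (cs (nd (nat_lit 209) (nat_lit 0) (cs (lf (nat_lit 5) (nat_lit 184)) (nd (nat_lit 143) (nat_lit 0) (cs (lf (nat_lit 36) (nat_lit 120)) (lf (nat_lit 47) (nat_lit 120)))))) (nd (nat_lit 206) (nat_lit 0) (cs (lf (nat_lit 11) (nat_lit 183)) (nd (nat_lit 121) (nat_lit 0) (cs (lf (nat_lit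 37) (nat_lit 120)) (nd (nat_lit 207) (nat_lit 0) (cs (lf (nat_lit 29) (nat_lit 140)) (nd (nat_lit 120) (nat_lit 0) (cs (lf (nat_lit 38) (nat_lit 119)) (nd (nat_lit 141) (nat_lit 0) (cs (lf (nat_lit 35) (nat_lit 118)) (lf (nat_lit 12) (nat_lit 117))))))))))))))))) (nd (nat_lit 206) (nat_lit 0) (cs (lf (nat_lit 11) (nat_lit 183)) (rf (nat_lit 9)))))))))) (nd (nat_lit 166) (nat_lit 0) (cs (lf (nat_lit 16) (nat_lit 162)) (nd (nat_lit 205) (nat_lit 0) (cs (lf (nat_lit 10) (nat_lit 183)) (nd (nat_lit 161) (nat_lit 0) (cs (lf (nat_lit 22) (nat_lit 161)) (nd (nat_lit 188) (nat_lit 0) (cs (lf (nat_lit 17) (nat_lit 163)) (rf (nat_lit 10)))))))))))))))))))) q20570 (by decide +kernel)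
def q20648 : Q := Q.p (nat_lit 0x2000000000010000060000000000000000000000000000000000000000000000) (nat_lit 0x1fe0001f80003f003ef80079c000f80007f8000780000a000000000000000000000000) (nat_lit 17)
theorem c20648 : QOK q20648 := cut [q4753, q18911, q18727, q19074, q19725, q20609, q7028, q3313, q20374, q8373, q8612, q18163, q20494, q8028, q20647] ⟨c4753, c18911, c18727, c19074, c19725, c20609, c7028, c3313, c20374, c8373, c8612, c18163, c20494, c8028, c20647, trivial⟩ (nd (nat_lit 184) (nat_lit 0) (cs (rf (nat_lit 0)) (cs (rf (nat_lit 1)) (cs (nd (nat_lit 187) (nat_lit 0) (cs (rf (nat_lit 2)) (cs (rf (nat_lit 3)) (cs (rf (nat_lit 4)) (cs (nd (nat_lit 142) (nat_lit 0) (cs (nd (nat_lit 209) (nat_lit 0) (cs (lf (nat_lit 5) (nat_lit 184)) (nd (nat_lit 164) (nat_lit 0) (cs (lf (nat_lit 24) (nat_lit 120)) (nd (nat_lit 207) (nat_lit 0) (cs (lf (nat_lit 41) (nat_lit 141)) (nd (nat_lit 206) (nat_lit 0) (cs (lf (nat_lit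 12) (nat_lit 183)) (nd (nat_lit 119) (nat_lit 0) (cs (lf (nat_lit 46) (nat_lit 119)) (rf (nat_lit 5)))))))))))) (cs (nd (nat_lit 165) (nat_lit 0) (cs (lf (nat_lit 17) (nat_lit 162)) (nd (nat_lit 143) (nat_lit 0) (cs (lf (nat_lit 36) (nat_lit 120)) (nd (nat_lit 209) (nat_lit 0) (cs (lf (nat_lit 5) (nat_lit 184)) (lf (nat_lit 47) (nat_lit 120)))))))) (cs (nd (nat_lit 207) (nat_lit 0) (cs (rf (nat_lit 6)) (cs (nd (nat_lit 206) (nat_lit 0) (cs (lf (nat_lit 11) (nat_lit 183)) (rf (nat_lit 7)))) (cs (nd (nat_lit 143) (nat_lit 0) (cs (nd (nat_lit 206) (nat_lit 0) (cs (lf (nat_lit 12) (nat_lit 183)) (nd (nat_lit 229) (nat_lit 0) (cs (lf (nat_lit 37) (nat_lit 141)) (rf (nat_lit 8)))))) (nd (nat_lit 165) (nat_lit 0) (cs (lf (nat_lit 36) (nat_lit 120)) (lf (nat_lit 17) (nat_lit 162)))))) (nd (nat_lit 209) (nat_lit 0) (cs (lf (nat_lit 5) (nat_lit 184)) (nd (nat_lit 205) (nat_lit 0) (cs (lf (nat_lit 10) (nat_lit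 183)) (nd (nat_lit 165) (nat_lit 0) (cs (lf (nat_lit 17) (nat_lit 162)) (nd (nat_lit 143) (nat_lit 0) (cs (lf (nat_lit 36) (nat_lit 120)) (nd (nat_lit 164) (nat_lit 0) (cs (lf (nat_lit 41) (nat_lit 141)) (rf (nat_lit 9)))))))))))))))) (nd (nat_lit 164) (nat_lit 0) (cs (rf (nat_lit 10)) (cs (rf (nat_lit 11)) (nd (nat_lit 165) (nat_lit 0) (cs (lf (nat_lit 17) (nat_lit 162)) (nd (nat_lit 121) (nat_lit 0) (cs (lf (nat_lit 37) (nat_lit 120)) (nd (nat_lit 207) (nat_lit 0) (cs (lf (nat_lit 41) (nat_lit 141)) (nd (nat_lit 206) (nat_lit 0) (cs (lf (nat_lit 12) (nat_lit 183)) (nd (nat_lit 141) (nat_lit 0) (cs (lf (nat_lit 47) (nat_lit 119)) (nd (nat_lit 139) (nat_lit 0) (cs (lf (nat_lit 1) (nat_lit 139)) (rf (nat_lit 12))))))))))))))))))))) (nd (nat_lit 166) (nat_lit 0) (cs (lf (nat_lit 16) (nat_lit 162)) (nd (nat_lit 205) (nat_lit 0) (cs (lf (nat_lit 10) (nat_lit 183)) (nd (nat_lit 188) (nat_lit 0) (cs (lf (nat_lit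 17) (nat_lit 163)) (nd (nat_lit 189) (nat_lit 0) (cs (lf (nat_lit 11) (nat_lit 185)) (nd (nat_lit 163) (nat_lit 0) (cs (lf (nat_lit 22) (nat_lit 163)) (nd (nat_lit 119) (nat_lit 0) (cs (lf (nat_lit 25) (nat_lit 119)) (rf (nat_lit 13))))))))))))))))))) (rf (nat_lit 14)))))) q20648 (by decide +kernel)
def q20672 : Q := Q.p (nat_lit 0x2000000000010000060000000000000000000000000000000000000000000000) (nat_lit 0x20001f80001e00003e001ef80079c001df8000380000e00000000000000000000000000000) (nat_lit 10)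
theorem c20672 : QOK q20672 := cut [q4753, q4772, q4774, q20658, q20660, q20662, q20664, q20667, q20671] ⟨c4753, c4772, c4774, c20658, c20660, c20662, c20664, c20667, c20671, trivial⟩ (nd (nat_lit 184) (nat_lit 0) (cs (rf (nat_lit 0)) (cs (rf (nat_lit 1)) (cs (rf (nat_lit 2)) (cs (nd (nat_lit 206) (nat_lit 0) (cs (rf (nat_lit 3)) (cs (rf (nat_lit 4)) (cs (rf (nat_lit 5)) (cs (rf (nat_lit 6)) (rf (nat_lit 7))))))) (rf (nat_lit 8))))))) q20672 (by decide +kernel)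
def q20787 : Q := Q.p (nat_lit 0x4000010000040000100000000000000000000000000000000000000000) (nat_lit 0x8000020000000003ae000ef0007bc0000000000000000000000000000000000) (nat_lit 10)
theorem c20787 : QOK q20787 := cut [q20786] ⟨c20786, trivial⟩ (nd (nat_lit 163) (nat_lit 0) (cs (lf (nat_lit 47) (nat_lit 141)) (rf (nat_lit 0)))) q20787 (by decide +kernel)
def q20843 : Q := Q.p (nat_lit 0x20000000000100000c0000000000000000000000000000000000000000000000) (nat_lit 0x80000e80001b80007c000af800638001fe0007d8000740001e0000380000a0000000000000) (nat_lit 14)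
theorem c20843 : QOK q20843 := cut [q7417, q19829, q18159, q19745, q20791, q20808, q20025, q8348, q19946, q20821, q5275, q20833, q3075, q19760] ⟨c7417, c19829, c18159, c19745, c20791, c20808, c20025, c8348, c19946, c20821, c5275, c20833, c3075, c19760, trivial⟩ (nd (nat_lit 230) (nat_lit 0) (cs (rf (nat_lit 0)) (cs (rf (nat_lit 1)) (nd (nat_lit 164) (nat_lit 0) (cs (rf (nat_lit 2)) (cs (rf (nat_lit 3)) (cs (rf (nat_lit 4)) (cs (rf (nat_lit 5)) (cs (nd (nat_lit 229) (nat_lit 0) (cs (lf (nat_lit 41) (nat_lit 163)) (nd (nat_lit 165) (nat_lit 0) (cs (rf (nat_lit 6)) (nd (nat_lit 227) (nat_lit 0) (cs (nd (nat_lit 228) (nat_lit 0) (cs (lf (nat_lit 17) (nat_lit 205)) (nd (nat_lit 207) (nat_lit 0) (cs (lf (nat_lit 12) (nat_lit 204)) (nd (nat_lit 205) (nat_lit 0) (cs (lf (nat_lit 13) (nat_lit 183)) (lf (nat_lit 23) (nat_lit 204)))))))) (cs (nd (nat_lit 166) (nat_lit 0) (cs (rf (nat_lit 7)) (cs (rf (nat_lit 8))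 (nd (nat_lit 184) (nat_lit 0) (cs (lf (nat_lit 13) (nat_lit 162)) (nd (nat_lit 162) (nat_lit 0) (cs (nd (nat_lit 163) (nat_lit 0) (cs (lf (nat_lit 0) (nat_lit 161)) (lf (nat_lit 11) (nat_lit 161)))) (cs (nd (nat_lit 163) (nat_lit 0) (cs (lf (nat_lit 0) (nat_lit 161)) (rf (nat_lit 9)))) (cs (nd (nat_lit 163) (nat_lit 0) (cs (lf (nat_lit 11) (nat_lit 161)) (rf (nat_lit 9)))) (nd (nat_lit 205) (nat_lit 0) (cs (nd (nat_lit 206) (nat_lit 0) (cs (lf (nat_lit 36) (nat_lit 139)) (lf (nat_lit 14) (nat_lit 183)))) (cs (nd (nat_lit 183) (nat_lit 0) (cs (lf (nat_lit 30) (nat_lit 161)) (rf (nat_lit 10)))) (nd (nat_lit 249) (nat_lit 0) (cs (lf (nat_lit 33) (nat_lit 161)) (nd (nat_lit 206) (nat_lit 0) (cs (lf (nat_lit 30) (nat_lit 183)) (lf (nat_lit 14) (nat_lit 183)))))))))))))))))) (cs (nd (nat_lit 228) (nat_lit 0) (cs (lf (nat_lit 17) (nat_lit 205)) (rf (nat_lit 11)))) (nd (nat_lit 228) (nat_lit 0) (cs (rf (nat_lit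 12)) (lf (nat_lit 17) (nat_lit 205)))))))))))) (nd (nat_lit 165) (nat_lit 0) (cs (lf (nat_lit 35) (nat_lit 142)) (nd (nat_lit 229) (nat_lit 0) (cs (lf (nat_lit 41) (nat_lit 163)) (nd (nat_lit 142) (nat_lit 0) (cs (lf (nat_lit 40) (nat_lit 141)) (rf (nat_lit 13))))))))))))))))) q20843 (by decide +kernel)
def q20995 : Q := Q.p (nat_lit 0x20000000000100000c0000000000000000000000000000000000000000000000) (nat_lit 0x1c0001fc0001f00077c003ee0007380007e0000d00003000000000000000000000000000000) (nat_lit 13)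
theorem c20995 : QOK q20995 := cut [q6859, q7339, q18447, q9084, q20150, q6896, q18394, q20564, q20845, q20976, q20979, q20982, q318, q20276, q1828, q18751, q20985] ⟨c6859, c7339, c18447, c9084, c20150, c6896, c18394, c20564, c20845, c20976, c20979, c20982, c318, c20276, c1828, c18751, c20985, trivial⟩ (nd (nat_lit 207) (nat_lit 0) (cs (rf (nat_lit 0)) (cs (rf (nat_lit 1)) (cs (nd (nat_lit 164) (nat_lit 0) (cs (rf (nat_lit 2)) (cs (nd (nat_lit 143) (nat_lit 0) (cs (rf (nat_lit 3)) (cs (rf (nat_lit 4)) (nd (nat_lit 188) (nat_lit 0) (cs (lf (nat_lit 6) (nat_lit 185)) (rf (nat_lit 5))))))) (cs (nd (nat_lit 188) (nat_lit 0) (cs (rf (nat_lit 6)) (cs (rf (nat_lit 7)) (nd (nat_lit 185) (nat_lit 0) (cs (nd (nat_lit 163) (nat_lit 0) (cs (lf (nat_lit 23) (nat_lit 162)) (nd (nat_lit 210) (nat_lit 0) (cs (lf (nat_lit 5) (nat_lit 185)) (nd (nat_lit 230) (nat_lit 0) (cs (lf (nat_lit 42) (nat_lit 163)) (nd (nat_lit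 143) (nat_lit 0) (cs (lf (nat_lit 34) (nat_lit 142)) (nd (nat_lit 229) (nat_lit 0) (cs (lf (nat_lit 30) (nat_lit 163)) (rf (nat_lit 8)))))))))))) (cs (rf (nat_lit 9)) (rf (nat_lit 10)))))))) (nd (nat_lit 188) (nat_lit 0) (cs (lf (nat_lit 6) (nat_lit 185)) (rf (nat_lit 11)))))))) (nd (nat_lit 206) (nat_lit 0) (cs (lf (nat_lit 12) (nat_lit 183)) (nd (nat_lit 209) (nat_lit 0) (cs (rf (nat_lit 12)) (cs (rf (nat_lit 13)) (nd (nat_lit 229) (nat_lit 0) (cs (rf (nat_lit 14)) (cs (rf (nat_lit 15)) (nd (nat_lit 142) (nat_lit 0) (cs (lf (nat_lit 37) (nat_lit 141)) (nd (nat_lit 227) (nat_lit 0) (cs (lf (nat_lit 10) (nat_lit 205)) (nd (nat_lit 184) (nat_lit 0) (cs (lf (nat_lit 23) (nat_lit 183)) (nd (nat_lit 162) (nat_lit 0) (cs (lf (nat_lit 24) (nat_lit 140)) (nd (nat_lit 185) (nat_lit 0) (cs (lf (nat_lit 23) (nat_lit 161)) (nd (nat_lit 165) (nat_lit 0) (cs (lf (nat_lit 17) (nat_lit 162)) (rf (nat_lit 16))))))))))))))))))))))))))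 q20995 (by decide +kernel)
def q21032 : Q := Q.p (nat_lit 0x4000010000040000380000000000000000000000000000000000000000) (nat_lit 0x8000138000e800033e000c700071c0008000020000000000000000000000000) (nat_lit 12)
theorem c21032 : QOK q21032 := cut [q5673, q20782, q21027, q20096] ⟨c5673, c20782, c21027, c20096, trivial⟩ (nd (nat_lit 162) (nat_lit 0) (cs (rf (nat_lit 0)) (cs (rf (nat_lit 1)) (cs (nd (nat_lit 229) (nat_lit 0) (cs (lf (nat_lit 41) (nat_lit 163)) (rf (nat_lit 2)))) (nd (nat_lit 229) (nat_lit 0) (cs (lf (nat_lit 41) (nat_lit 163)) (nd (nat_lit 184) (nat_lit 0) (cs (lf (nat_lit 11) (nat_lit 161)) (nd (nat_lit 166) (nat_lit 0) (cs (lf (nat_lit 10) (nat_lit 162)) (rf (nat_lit 3)))))))))))) q21032 (by decide +kernel)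
def q21131 : Q := Q.p (nat_lit 0x2000000000018000040000000000000000000000000000000000000000000000) (nat_lit 0x160001fc0001f00077f001e780039f0003e0000780000000000000000000000000000000000) (nat_lit 11)
theorem c21131 : QOK q21131 := cut [q530, q18355, q5398, q18751, q18297, q3842, q18292, q2450, q3211, q3341, q3348, q3353, q3362] ⟨c530, c18355, c5398, c18751, c18297, c3842, c18292, c2450, c3211, c3341, c3348, c3353, c3362, trivial⟩ (nd (nat_lit 206) (nat_lit 0) (cs (rf (nat_lit 0)) (cs (rf (nat_lit 1)) (cs (nd (nat_lit 229) (nat_lit 0) (cs (rf (nat_lit 2)) (cs (rf (nat_lit 3)) (cs (nd (nat_lit 164) (nat_lit 0) (cs (lf (nat_lit 36) (nat_lit 141)) (nd (nat_lit 228) (nat_lit 0) (cs (rf (nat_lit 4)) (cs (nd (nat_lit 209) (nat_lit 0) (cs (lf (nat_lit 6) (nat_lit 206)) (nd (nat_lit 187) (nat_lit 0) (cs (lf (nat_lit 17) (nat_lit 184)) (nd (nat_lit 184) (nat_lit 0) (cs (lf (nat_lit 23) (nat_lit 183)) (nd (nat_lit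 162) (nat_lit 0) (cs (lf (nat_lit 24) (nat_lit 140)) (nd (nat_lit 161) (nat_lit 0) (cs (lf (nat_lit 47) (nat_lit 139)) (lf (nat_lit 2) (nat_lit 161)))))))))))) (nd (nat_lit 227) (nat_lit 0) (cs (lf (nat_lit 12) (nat_lit 204)) (nd (nat_lit 230) (nat_lit 0) (cs (lf (nat_lit 4) (nat_lit 227)) (nd (nat_lit 249) (nat_lit 0) (cs (lf (nat_lit 11) (nat_lit 226)) (nd (nat_lit 141) (nat_lit 0) (cs (lf (nat_lit 46) (nat_lit 141)) (nd (nat_lit 184) (nat_lit 0) (cs (lf (nat_lit 36) (nat_lit 161)) (rf (nat_lit 5))))))))))))))))) (nd (nat_lit 228) (nat_lit 0) (cs (rf (nat_lit 4)) (cs (nd (nat_lit 142) (nat_lit 0) (cs (lf (nat_lit 37) (nat_lit 141)) (nd (nat_lit 209) (nat_lit 0) (cs (lf (nat_lit 6) (nat_lit 206)) (nd (nat_lit 187) (nat_lit 0) (cs (lf (nat_lit 17) (nat_lit 184)) (nd (nat_lit 184) (nat_lit 0) (cs (lf (nat_lit 23) (nat_lit 183)) (nd (nat_lit 251) (nat_lit 0) (cs (lf (nat_lit 30) (nat_lit 185)) (lf (nat_lit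 24) (nat_lit 162)))))))))))) (nd (nat_lit 251) (nat_lit 0) (cs (lf (nat_lit 30) (nat_lit 185)) (nd (nat_lit 184) (nat_lit 0) (cs (lf (nat_lit 24) (nat_lit 162)) (nd (nat_lit 142) (nat_lit 0) (cs (lf (nat_lit 37) (nat_lit 141)) (nd (nat_lit 227) (nat_lit 0) (cs (lf (nat_lit 12) (nat_lit 204)) (rf (nat_lit 6))))))))))))))))) (nd (nat_lit 205) (nat_lit 0) (cs (rf (nat_lit 7)) (cs (rf (nat_lit 8)) (cs (rf (nat_lit 9)) (cs (rf (nat_lit 10)) (cs (rf (nat_lit 11)) (rf (nat_lit 12)))))))))))) q21131 (by decide +kernel)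
def q21222 : Q := Q.p (nat_lit 0x2000000000018000040000000000000000000000000000000000000000000000) (nat_lit 0x780001f00007c000e780003c0007f80007c0001f00000000000000000000000000000) (nat_lit 14)
theorem c21222 : QOK q21222 := cut [q20475, q20537, q9715, q20528, q3927, q8741, q20387, q4774, q20478, q3507, q3546, q8735, q20536, q18873, q20314, q90, q3126, q3129, q20164, q1916, q4505, q20515, q20449, q21206, q3500, q4753, q5022] ⟨c20475, c20537, c9715, c20528, c3927, c8741, c20387, c4774, c20478, c3507, c3546, c8735, c20536, c18873, c20314, c90, c3126, c3129, c20164, c1916, c4505, c20515, c20449, c21206, c3500, c4753, c5022, trivial⟩ (nd (nat_lit 185) (nat_lit 0) (cs (rf (nat_lit 0)) (cs (rf (nat_lit 1)) (cs (nd (nat_lit 163) (nat_lit 0) (cs (rf (nat_lit 2)) (cs (rf (nat_lit 3)) (nd (nat_lit 206) (nat_lit 0) (cs (rf (nat_lit 4)) (cs (rf (nat_lit 5)) (cs (rf (nat_lit 6)) (cs (nd (nat_lit 184) (nat_lit 0)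 (cs (rf (nat_lit 7)) (cs (rf (nat_lit 8)) (nd (nat_lit 230) (nat_lit 0) (cs (lf (nat_lit 42) (nat_lit 163)) (nd (nat_lit 209) (nat_lit 0) (cs (lf (nat_lit 18) (nat_lit 184)) (nd (nat_lit 228) (nat_lit 0) (cs (lf (nat_lit 11) (nat_lit 205)) (lf (nat_lit 30) (nat_lit 162))))))))))) (cs (nd (nat_lit 230) (nat_lit 0) (cs (lf (nat_lit 42) (nat_lit 163)) (nd (nat_lit 205) (nat_lit 0) (cs (lf (nat_lit 12) (nat_lit 182)) (nd (nat_lit 183) (nat_lit 0) (cs (lf (nat_lit 23) (nat_lit 182)) (nd (nat_lit 184) (nat_lit 0) (cs (lf (nat_lit 18) (nat_lit 183)) (nd (nat_lit 228) (nat_lit 0) (cs (lf (nat_lit 30) (nat_lit 162)) (nd (nat_lit 161) (nat_lit 0) (cs (lf (nat_lit 24) (nat_lit 139)) (lf (nat_lit 23) (nat_lit 160)))))))))))))) (nd (nat_lit 184) (nat_lit 0) (cs (rf (nat_lit 9)) (cs (rf (nat_lit 10)) (cs (rf (nat_lit 8)) (nd (nat_lit 183) (nat_lit 0) (cs (lf (nat_lit 0) (nat_lit 182)) (nd (nat_lit 205) (nat_lit 0)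 (cs (lf (nat_lit 12) (nat_lit 182)) (nd (nat_lit 164) (nat_lit 0) (cs (lf (nat_lit 17) (nat_lit 161)) (nd (nat_lit 120) (nat_lit 0) (cs (lf (nat_lit 37) (nat_lit 119)) (nd (nat_lit 226) (nat_lit 0) (cs (lf (nat_lit 10) (nat_lit 204)) (nd (nat_lit 161) (nat_lit 0) (cs (lf (nat_lit 23) (nat_lit 160)) (nd (nat_lit 230) (nat_lit 0) (cs (lf (nat_lit 42) (nat_lit 163)) (rf (nat_lit 11))))))))))))))))))))))))))))) (cs (nd (nat_lit 163) (nat_lit 0) (cs (rf (nat_lit 2)) (cs (rf (nat_lit 12)) (nd (nat_lit 229) (nat_lit 0) (cs (rf (nat_lit 13)) (rf (nat_lit 14))))))) (cs (nd (nat_lit 229) (nat_lit 0) (cs (rf (nat_lit 15)) (cs (rf (nat_lit 16)) (nd (nat_lit 163) (nat_lit 0) (cs (rf (nat_lit 17)) (rf (nat_lit 18))))))) (cs (nd (nat_lit 164) (nat_lit 0) (cs (rf (nat_lit 19)) (cs (nd (nat_lit 142) (nat_lit 0) (cs (lf (nat_lit 36) (nat_lit 119)) (nd (nat_lit 141) (nat_lit 0) (cs (lf (nat_lit 47) (nat_lit 119)) (nd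 (nat_lit 163) (nat_lit 0) (cs (lf (nat_lit 29) (nat_lit 141)) (rf (nat_lit 20)))))))) (nd (nat_lit 163) (nat_lit 0) (cs (rf (nat_lit 2)) (rf (nat_lit 21))))))) (cs (nd (nat_lit 163) (nat_lit 0) (cs (rf (nat_lit 2)) (cs (rf (nat_lit 22)) (rf (nat_lit 23))))) (nd (nat_lit 163) (nat_lit 0) (cs (rf (nat_lit 2)) (cs (rf (nat_lit 22)) (nd (nat_lit 184) (nat_lit 0) (cs (rf (nat_lit 24)) (cs (rf (nat_lit 25)) (nd (nat_lit 228) (nat_lit 0) (cs (nd (nat_lit 250) (nat_lit 0) (cs (lf (nat_lit 39) (nat_lit 162)) (lf (nat_lit 32) (nat_lit 162)))) (cs (nd (nat_lit 230) (nat_lit 0) (cs (lf (nat_lit 42) (nat_lit 163)) (nd (nat_lit 209) (nat_lit 0) (cs (lf (nat_lit 18) (nat_lit 184)) (nd (nat_lit 206) (nat_lit 0) (cs (lf (nat_lit 11) (nat_lit 205)) (lf (nat_lit 30) (nat_lit 162)))))))) (cs (nd (nat_lit 229) (nat_lit 0) (cs (lf (nat_lit 41) (nat_lit 162)) (nd (nat_lit 142) (nat_lit 0) (cs (lf (nat_lit 37) (nat_lit 141))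 (nd (nat_lit 230) (nat_lit 0) (cs (lf (nat_lit 29) (nat_lit 163)) (rf (nat_lit 26)))))))) (nd (nat_lit 230) (nat_lit 0) (cs (lf (nat_lit 42) (nat_lit 163)) (nd (nat_lit 209) (nat_lit 0) (cs (lf (nat_lit 18) (nat_lit 184)) (nd (nat_lit 227) (nat_lit 0) (cs (lf (nat_lit 9) (nat_lit 205)) (lf (nat_lit 14) (nat_lit 205)))))))))))))))))))))))))) q21222 (by decide +kernel)
def q21306 : Q := Q.p (nat_lit 0x2000000000018000040000000000000000000000000000000000000000000000) (nat_lit 0x280007e0001fe0007f8001ff0001f80007f000070003be0007f00007e0000800002000000000000000000000000) (nat_lit 17)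
theorem c21306 : QOK q21306 := cut [q527, q18355, q1828, q5398, q3948, q6757, q5174, q4806, q21162, q21274, q21273, q1132, q20296, q3687, q3192, q3956, q3957, q18787, q3914, q3947, q3913, q20281, q4940, q5182, q5517, q6024, q20373] ⟨c527, c18355, c1828, c5398, c3948, c6757, c5174, c4806, c21162, c21274, c21273, c1132, c20296, c3687, c3192, c3956, c3957, c18787, c3914, c3947, c3913, c20281, c4940, c5182, c5517, c6024, c20373, trivial⟩ (nd (nat_lit 206) (nat_lit 0) (cs (rf (nat_lit 0)) (cs (rf (nat_lit 1)) (cs (nd (nat_lit 229) (nat_lit 0) (cs (rf (nat_lit 2)) (cs (rf (nat_lit 3)) (cs (nd (nat_lit 164) (nat_lit 0) (cs (lf (nat_lit 36) (nat_lit 141)) (nd (nat_lit 228) (nat_lit 0) (cs (rf (nat_lit 4)) (cs (nd (nat_lit 227) (nat_lit 0) (cs (lf (nat_lit 12) (nat_lit 204)) (nd (nat_lit 230) (nat_lit 0) (cs (lf (nat_lit 4) (nat_lit 227)) (nd (nat_lit 248) (nat_lit 0) (cs (lf (nat_lit 10) (nat_lit 226)) (nd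 (nat_lit 163) (nat_lit 0) (cs (lf (nat_lit 47) (nat_lit 141)) (nd (nat_lit 185) (nat_lit 0) (cs (lf (nat_lit 41) (nat_lit 162)) (nd (nat_lit 187) (nat_lit 0) (cs (lf (nat_lit 6) (nat_lit 184)) (rf (nat_lit 5)))))))))))))) (cs (nd (nat_lit 227) (nat_lit 0) (cs (lf (nat_lit 12) (nat_lit 204)) (nd (nat_lit 230) (nat_lit 0) (cs (lf (nat_lit 4) (nat_lit 227)) (nd (nat_lit 249) (nat_lit 0) (cs (lf (nat_lit 11) (nat_lit 226)) (nd (nat_lit 271) (nat_lit 0) (cs (lf (nat_lit 30) (nat_lit 205)) (nd (nat_lit 250) (nat_lit 0) (cs (rf (nat_lit 6)) (lf (nat_lit 36) (nat_lit 183)))))))))))) (cs (nd (nat_lit 163) (nat_lit 0) (cs (rf (nat_lit 7)) (cs (rf (nat_lit 8)) (rf (nat_lit 9))))) (cs (nd (nat_lit 163) (nat_lit 0) (cs (rf (nat_lit 7)) (cs (rf (nat_lit 9)) (cs (nd (nat_lit 227) (nat_lit 0) (cs (lf (nat_lit 12) (nat_lit 204)) (nd (nat_lit 230) (nat_lit 0) (cs (lf (nat_lit 4) (nat_lit 227)) (nd (nat_lit 249) (nat_lit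 0) (cs (lf (nat_lit 11) (nat_lit 226)) (nd (nat_lit 271) (nat_lit 0) (cs (lf (nat_lit 30) (nat_lit 205)) (nd (nat_lit 162) (nat_lit 0) (cs (lf (nat_lit 37) (nat_lit 161)) (nd (nat_lit 140) (nat_lit 0) (cs (lf (nat_lit 44) (nat_lit 140)) (nd (nat_lit 139) (nat_lit 0) (cs (lf (nat_lit 18) (nat_lit 139)) (nd (nat_lit 161) (nat_lit 0) (cs (lf (nat_lit 23) (nat_lit 138)) (lf (nat_lit 5) (nat_lit 161)))))))))))))))))) (nd (nat_lit 226) (nat_lit 0) (cs (lf (nat_lit 13) (nat_lit 204)) (nd (nat_lit 141) (nat_lit 0) (cs (lf (nat_lit 38) (nat_lit 140)) (rf (nat_lit 10)))))))))) (nd (nat_lit 184) (nat_lit 0) (cs (nd (nat_lit 185) (nat_lit 0) (cs (rf (nat_lit 11)) (rf (nat_lit 12)))) (nd (nat_lit 162) (nat_lit 0) (cs (lf (nat_lit 24) (nat_lit 140)) (rf (nat_lit 13)))))))))))))) (nd (nat_lit 252) (nat_lit 0) (cs (rf (nat_lit 14)) (cs (rf (nat_lit 15)) (cs (rf (nat_lit 16)) (rf (nat_lit 17)))))))))) (nd (nat_lit 229)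 (nat_lit 0) (cs (rf (nat_lit 2)) (cs (rf (nat_lit 3)) (cs (nd (nat_lit 227) (nat_lit 0) (cs (rf (nat_lit 18)) (cs (nd (nat_lit 226) (nat_lit 0) (cs (lf (nat_lit 9) (nat_lit 204)) (lf (nat_lit 14) (nat_lit 204)))) (cs (nd (nat_lit 142) (nat_lit 0) (cs (lf (nat_lit 37) (nat_lit 141)) (nd (nat_lit 228) (nat_lit 0) (cs (lf (nat_lit 12) (nat_lit 204)) (rf (nat_lit 19)))))) (nd (nat_lit 205) (nat_lit 0) (cs (rf (nat_lit 20)) (cs (rf (nat_lit 21)) (nd (nat_lit 228) (nat_lit 0) (cs (rf (nat_lit 19)) (cs (rf (nat_lit 22)) (nd (nat_lit 182) (nat_lit 0) (cs (lf (nat_lit 22) (nat_lit 182)) (nd (nat_lit 142) (nat_lit 0) (cs (lf (nat_lit 37) (nat_lit 141)) (nd (nat_lit 230) (nat_lit 0) (cs (lf (nat_lit 4) (nat_lit 227)) (rf (nat_lit 23)))))))))))))))))) (nd (nat_lit 251) (nat_lit 0) (cs (lf (nat_lit 30) (nat_lit 185)) (nd (nat_lit 185) (nat_lit 0) (cs (rf (nat_lit 24)) (cs (rf (nat_lit 25)) (rf (nat_lit 26)))))))))))))))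 q21306 (by decide +kernel)
def q21361 : Q := Q.p (nat_lit 0x10000040000100000000000000000000000000000000000000000) (nat_lit 0x40000c8000fbe007ef000fbc000e80003a000000000000000000000000) (nat_lit 10)
theorem c21361 : QOK q21361 := cut [q4850, q21331, q4806, q21078, q20108, q21336, q4457, q3027, q21348, q8354, q16396] ⟨c4850, c21331, c4806, c21078, c20108, c21336, c4457, c3027, c21348, c8354, c16396, trivial⟩ (nd (nat_lit 165) (nat_lit 0) (cs (rf (nat_lit 0)) (cs (rf (nat_lit 1)) (cs (nd (nat_lit 163) (nat_lit 0) (cs (rf (nat_lit 2)) (cs (rf (nat_lit 3)) (nd (nat_lit 141) (nat_lit 0) (cs (lf (nat_lit 42) (nat_lit 141)) (nd (nat_lit 140) (nat_lit 0) (cs (lf (nat_lit 18) (nat_lit 140)) (nd (nat_lit 139) (nat_lit 0) (cs (lf (nat_lit 0) (nat_lit 138)) (lf (nat_lit 21) (nat_lit 139))))))))))) (nd (nat_lit 166) (nat_lit 0) (cs (rf (nat_lit 4)) (cs (nd (nat_lit 189) (nat_lit 0) (cs (nd (nat_lit 167) (nat_lit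 0) (cs (lf (nat_lit 5) (nat_lit 164)) (nd (nat_lit 145) (nat_lit 0) (cs (lf (nat_lit 17) (nat_lit 142)) (nd (nat_lit 144) (nat_lit 0) (cs (lf (nat_lit 12) (nat_lit 141)) (rf (nat_lit 5)))))))) (cs (nd (nat_lit 163) (nat_lit 0) (cs (rf (nat_lit 6)) (lf (nat_lit 4) (nat_lit 163)))) (cs (nd (nat_lit 167) (nat_lit 0) (cs (lf (nat_lit 5) (nat_lit 164)) (nd (nat_lit 145) (nat_lit 0) (cs (lf (nat_lit 17) (nat_lit 142)) (nd (nat_lit 187) (nat_lit 0) (cs (lf (nat_lit 6) (nat_lit 164)) (nd (nat_lit 121) (nat_lit 0) (cs (lf (nat_lit 37) (nat_lit 120)) (rf (nat_lit 7)))))))))) (nd (nat_lit 167) (nat_lit 0) (cs (lf (nat_lit 5) (nat_lit 164)) (rf (nat_lit 8)))))))) (cs (nd (nat_lit 163) (nat_lit 0) (cs (rf (nat_lit 6)) (nd (nat_lit 188) (nat_lit 0) (cs (lf (nat_lit 5) (nat_lit 163)) (nd (nat_lit 185) (nat_lit 0) (cs (lf (nat_lit 11) (nat_lit 162)) (rf (nat_lit 9)))))))) (cs (nd (nat_lit 167) (nat_lit 0) (cs (lf (nat_lit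 11) (nat_lit 163)) (nd (nat_lit 145) (nat_lit 0) (cs (lf (nat_lit 17) (nat_lit 142)) (nd (nat_lit 144) (nat_lit 0) (cs (lf (nat_lit 12) (nat_lit 141)) (nd (nat_lit 168) (nat_lit 0) (cs (lf (nat_lit 10) (nat_lit 164)) (rf (nat_lit 10)))))))))) (nd (nat_lit 167) (nat_lit 0) (cs (lf (nat_lit 11) (nat_lit 163)) (nd (nat_lit 189) (nat_lit 0) (cs (lf (nat_lit 5) (nat_lit 164)) (rf (nat_lit 8))))))))))))))) q21361 (by decide +kernel)
def q21668 : Q := Q.p (nat_lit 0x2000000000010000060000000000000000000000000000000000000000000000) (nat_lit 0x20000780001f00007c0000f00039c0001f0003fc0003e00000000000000000000000000000) (nat_lit 14)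
theorem c21668 : QOK q21668 := cut [q3542, q3543, q21604, q527, q3507, q20663, q21610, q21618, q19060, q21626, q1931, q9715, q90, q18873, q3126, q3129, q21206, q21655, q3486] ⟨c3542, c3543, c21604, c527, c3507, c20663, c21610, c21618, c19060, c21626, c1931, c9715, c90, c18873, c3126, c3129, c21206, c21655, c3486, trivial⟩ (nd (nat_lit 207) (nat_lit 0) (cs (nd (nat_lit 184) (nat_lit 0) (cs (rf (nat_lit 0)) (cs (rf (nat_lit 1)) (cs (rf (nat_lit 2)) (cs (nd (nat_lit 206) (nat_lit 0) (cs (rf (nat_lit 3)) (cs (rf (nat_lit 4)) (rf (nat_lit 5))))) (cs (rf (nat_lit 6)) (rf (nat_lit 7)))))))) (cs (nd (nat_lit 184) (nat_lit 0) (cs (rf (nat_lit 1)) (cs (rf (nat_lit 2)) (cs (rf (nat_lit 6)) (cs (rf (nat_lit 7)) (cs (nd (nat_lit 206) (nat_lit 0) (cs (rf (nat_lit 3)) (cs (rf (nat_lit 4)) (nd (nat_lit 187) (nat_lit 0) (cs (lf (nat_lit 6) (nat_lit 184)) (nd (nat_lit 162) (nat_lit 0) (cs (lf (nat_lit 23) (nat_lit 161))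 (nd (nat_lit 140) (nat_lit 0) (cs (lf (nat_lit 24) (nat_lit 118)) (nd (nat_lit 117) (nat_lit 0) (cs (lf (nat_lit 46) (nat_lit 117)) (rf (nat_lit 8))))))))))))) (nd (nat_lit 183) (nat_lit 0) (cs (lf (nat_lit 0) (nat_lit 182)) (rf (nat_lit 9)))))))))) (cs (nd (nat_lit 163) (nat_lit 0) (cs (rf (nat_lit 10)) (cs (rf (nat_lit 11)) (nd (nat_lit 229) (nat_lit 0) (cs (rf (nat_lit 12)) (cs (rf (nat_lit 13)) (nd (nat_lit 230) (nat_lit 0) (cs (lf (nat_lit 42) (nat_lit 163)) (nd (nat_lit 142) (nat_lit 0) (cs (lf (nat_lit 37) (nat_lit 141)) (nd (nat_lit 228) (nat_lit 0) (cs (lf (nat_lit 41) (nat_lit 162)) (nd (nat_lit 162) (nat_lit 0) (cs (lf (nat_lit 47) (nat_lit 140)) (nd (nat_lit 227) (nat_lit 0) (cs (lf (nat_lit 12) (nat_lit 204)) (nd (nat_lit 160) (nat_lit 0) (cs (lf (nat_lit 1) (nat_lit 160)) (nd (nat_lit 248) (nat_lit 0) (cs (lf (nat_lit 10) (nat_lit 226)) (nd (nat_lit 205) (nat_lit 0) (cs (lf (nat_lit 23)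 (nat_lit 204)) (nd (nat_lit 187) (nat_lit 0) (cs (lf (nat_lit 18) (nat_lit 162)) (lf (nat_lit 13) (nat_lit 183)))))))))))))))))))))))))) (cs (nd (nat_lit 229) (nat_lit 0) (cs (rf (nat_lit 12)) (cs (rf (nat_lit 14)) (nd (nat_lit 163) (nat_lit 0) (cs (rf (nat_lit 15)) (cs (rf (nat_lit 11)) (nd (nat_lit 142) (nat_lit 0) (cs (lf (nat_lit 37) (nat_lit 141)) (nd (nat_lit 230) (nat_lit 0) (cs (lf (nat_lit 42) (nat_lit 163)) (nd (nat_lit 228) (nat_lit 0) (cs (lf (nat_lit 41) (nat_lit 162)) (nd (nat_lit 227) (nat_lit 0) (cs (lf (nat_lit 12) (nat_lit 204)) (nd (nat_lit 205) (nat_lit 0) (cs (lf (nat_lit 23) (nat_lit 204)) (nd (nat_lit 248) (nat_lit 0) (cs (lf (nat_lit 10) (nat_lit 226)) (nd (nat_lit 206) (nat_lit 0) (cs (lf (nat_lit 17) (nat_lit 183)) (nd (nat_lit 183) (nat_lit 0) (cs (lf (nat_lit 23) (nat_lit 182)) (nd (nat_lit 161) (nat_lit 0) (cs (lf (nat_lit 24) (nat_lit 139)) (nd (nat_lit 160) (nat_lit 0)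 (cs (lf (nat_lit 47) (nat_lit 138)) (lf (nat_lit 20) (nat_lit 160)))))))))))))))))))))))))))) (cs (nd (nat_lit 163) (nat_lit 0) (cs (rf (nat_lit 10)) (cs (rf (nat_lit 11)) (rf (nat_lit 16))))) (cs (nd (nat_lit 229) (nat_lit 0) (cs (rf (nat_lit 12)) (cs (rf (nat_lit 14)) (nd (nat_lit 163) (nat_lit 0) (cs (rf (nat_lit 15)) (cs (rf (nat_lit 11)) (nd (nat_lit 142) (nat_lit 0) (cs (lf (nat_lit 37) (nat_lit 141)) (nd (nat_lit 230) (nat_lit 0) (cs (lf (nat_lit 42) (nat_lit 163)) (nd (nat_lit 140) (nat_lit 0) (cs (lf (nat_lit 46) (nat_lit 140)) (nd (nat_lit 228) (nat_lit 0) (cs (lf (nat_lit 41) (nat_lit 162)) (nd (nat_lit 227) (nat_lit 0) (cs (lf (nat_lit 12) (nat_lit 204)) (nd (nat_lit 205) (nat_lit 0) (cs (lf (nat_lit 23) (nat_lit 204)) (nd (nat_lit 249) (nat_lit 0) (cs (lf (nat_lit 11) (nat_lit 226)) (nd (nat_lit 206) (nat_lit 0) (cs (lf (nat_lit 17) (nat_lit 183)) (rf (nat_lit 17))))))))))))))))))))))))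 (nd (nat_lit 163) (nat_lit 0) (cs (rf (nat_lit 10)) (cs (rf (nat_lit 11)) (nd (nat_lit 229) (nat_lit 0) (cs (rf (nat_lit 18)) (rf (nat_lit 13)))))))))))))) q21668 (by decide +kernel)
def q21698 : Q := Q.p (nat_lit 0x10000060000000000000000000000000000000000000000000000) (nat_lit 0x8000060000ef80079c001df8003f80007e0000b80002a000000000000000000) (nat_lit 16)
theorem c21698 : QOK q21698 := cut [q4753, q4772, q4774, q20671, q3734, q8765, q5888, q19067, q19070, q21683, q3538, q19050, q2735, q18900, q19045, q16292] ⟨c4753, c4772, c4774, c20671, c3734, c8765, c5888, c19067, c19070, c21683, c3538, c19050, c2735, c18900, c19045, c16292, trivial⟩ (nd (nat_lit 184) (nat_lit 0) (cs (rf (nat_lit 0)) (cs (rf (nat_lit 1)) (cs (rf (nat_lit 2)) (cs (rf (nat_lit 3)) (nd (nat_lit 162) (nat_lit 0) (cs (rf (nat_lit 4)) (cs (nd (nat_lit 187) (nat_lit 0) (cs (lf (nat_lit 23) (nat_lit 161)) (rf (nat_lit 5)))) (cs (nd (nat_lit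 140) (nat_lit 0) (cs (rf (nat_lit 6)) (cs (rf (nat_lit 7)) (cs (rf (nat_lit 8)) (nd (nat_lit 141) (nat_lit 0) (cs (nd (nat_lit 119) (nat_lit 0) (cs (lf (nat_lit 26) (nat_lit 119)) (lf (nat_lit 30) (nat_lit 118)))) (cs (nd (nat_lit 119) (nat_lit 0) (cs (lf (nat_lit 30) (nat_lit 118)) (rf (nat_lit 9)))) (cs (nd (nat_lit 207) (nat_lit 0) (cs (rf (nat_lit 10)) (rf (nat_lit 11)))) (nd (nat_lit 119) (nat_lit 0) (cs (lf (nat_lit 26) (nat_lit 119)) (rf (nat_lit 9)))))))))))) (nd (nat_lit 187) (nat_lit 0) (cs (rf (nat_lit 12)) (cs (rf (nat_lit 13)) (nd (nat_lit 140) (nat_lit 0) (cs (rf (nat_lit 6)) (cs (rf (nat_lit 14)) (cs (rf (nat_lit 7)) (cs (rf (nat_lit 8)) (nd (nat_lit 206) (nat_lit 0) (cs (lf (nat_lit 11) (nat_lit 183)) (nd (nat_lit 207) (nat_lit 0) (cs (lf (nat_lit 29) (nat_lit 140)) (nd (nat_lit 209) (nat_lit 0) (cs (lf (nat_lit 5) (nat_lit 184)) (nd (nat_lit 117) (nat_lit 0) (cs (lf (nat_lit 46) (nat_lit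 117)) (nd (nat_lit 141) (nat_lit 0) (cs (lf (nat_lit 35) (nat_lit 118)) (nd (nat_lit 163) (nat_lit 0) (cs (lf (nat_lit 29) (nat_lit 141)) (rf (nat_lit 15))))))))))))))))))))))))))))))) q21698 (by decide +kernel)
def q21798 : Q := Q.p (nat_lit 0x20000000000100000c0000000000000000000000000000000000000000000000) (nat_lit 0x2c000190000740003ee000710003ff0007f8003ff0002e0000b8000000000000000000) (nat_lit 16)
theorem c21798 : QOK q21798 := cut [q9083, q9084, q9085, q9086, q19306, q20564, q8950, q8993, q5709, q8955, q8958, q8952, q16668, q20416, q8963, q8970, q18313, q21773, q9027, q9006, q21777, q8182, q16672, q9041, q9031, q18427, q19293] ⟨c9083, c9084, c9085, c9086, c19306, c20564, c8950, c8993, c5709, c8955, c8958, c8952, c16668, c20416, c8963, c8970, c18313, c21773, c9027, c9006, c21777, c8182, c16672, c9041, c9031, c18427, c19293, trivial⟩ (nd (nat_lit 143) (nat_lit 0) (cs (rf (nat_lit 0)) (cs (rf (nat_lit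 1)) (cs (rf (nat_lit 2)) (cs (rf (nat_lit 3)) (nd (nat_lit 188) (nat_lit 0) (cs (rf (nat_lit 4)) (cs (rf (nat_lit 5)) (cs (nd (nat_lit 142) (nat_lit 0) (cs (rf (nat_lit 6)) (cs (rf (nat_lit 7)) (cs (nd (nat_lit 141) (nat_lit 0) (cs (rf (nat_lit 8)) (cs (rf (nat_lit 9)) (cs (rf (nat_lit 10)) (nd (nat_lit 144) (nat_lit 0) (cs (rf (nat_lit 11)) (cs (rf (nat_lit 12)) (rf (nat_lit 13))))))))) (cs (nd (nat_lit 144) (nat_lit 0) (cs (rf (nat_lit 14)) (cs (nd (nat_lit 145) (nat_lit 0) (cs (rf (nat_lit 15)) (rf (nat_lit 16)))) (rf (nat_lit 17))))) (cs (nd (nat_lit 144) (nat_lit 0) (cs (rf (nat_lit 18)) (cs (rf (nat_lit 17)) (cs (nd (nat_lit 145) (nat_lit 0) (cs (rf (nat_lit 19)) (cs (rf (nat_lit 16)) (rf (nat_lit 20))))) (cs (nd (nat_lit 141) (nat_lit 0) (cs (rf (nat_lit 21)) (cs (rf (nat_lit 13)) (nd (nat_lit 166) (nat_lit 0) (cs (lf (nat_lit 5) (nat_lit 141)) (nd (nat_lit 122) (nat_lit 0) (cs (lf (nat_lit 41)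 (nat_lit 121)) (nd (nat_lit 121) (nat_lit 0) (cs (lf (nat_lit 42) (nat_lit 121)) (lf (nat_lit 12) (nat_lit 118))))))))))) (nd (nat_lit 141) (nat_lit 0) (cs (rf (nat_lit 21)) (cs (rf (nat_lit 12)) (rf (nat_lit 22)))))))))) (nd (nat_lit 144) (nat_lit 0) (cs (rf (nat_lit 14)) (cs (rf (nat_lit 18)) (cs (rf (nat_lit 23)) (nd (nat_lit 145) (nat_lit 0) (cs (rf (nat_lit 24)) (cs (rf (nat_lit 16)) (rf (nat_lit 25))))))))))))))) (nd (nat_lit 189) (nat_lit 0) (cs (lf (nat_lit 11) (nat_lit 185)) (nd (nat_lit 211) (nat_lit 0) (cs (lf (nat_lit 5) (nat_lit 186)) (nd (nat_lit 164) (nat_lit 0) (cs (lf (nat_lit 23) (nat_lit 163)) (nd (nat_lit 142) (nat_lit 0) (cs (lf (nat_lit 35) (nat_lit 120)) (nd (nat_lit 167) (nat_lit 0) (cs (lf (nat_lit 17) (nat_lit 164)) (nd (nat_lit 119) (nat_lit 0) (cs (lf (nat_lit 46) (nat_lit 119)) (nd (nat_lit 120) (nat_lit 0) (cs (lf (nat_lit 47) (nat_lit 97)) (nd (nat_lit 117) (nat_lit 0)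 (cs (lf (nat_lit 1) (nat_lit 117)) (nd (nat_lit 144) (nat_lit 0) (cs (lf (nat_lit 18) (nat_lit 119)) (rf (nat_lit 26))))))))))))))))))))))))))))) q21798 (by decide +kernel)
def q21999 : Q := Q.p (nat_lit 0x800002000008000030000000000000000000000000000000000000000000000000000) (nat_lit 0x400001000000000037c003ce000f3c000000000000000000000000000000000000000000000) (nat_lit 10)
theorem c21999 : QOK q21999 := cut [q2935, q2938, q21994, q21995] ⟨c2935, c2938, c21994, c21995, trivial⟩ (nd (nat_lit 207) (nat_lit 0) (cs (rf (nat_lit 0)) (cs (rf (nat_lit 1)) (cs (rf (nat_lit 2)) (nd (nat_lit 276) (nat_lit 0) (cs (lf (nat_lit 29) (nat_lit 209)) (nd (nat_lit 210) (nat_lit 0) (cs (lf (nat_lit 35) (nat_lit 187)) (nd (nat_lit 232) (nat_lit 0) (cs (lf (nat_lit 5) (nat_lit 207)) (rf (nat_lit 3)))))))))))) q21999 (by decide +kernel)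
def q22024 : Q := Q.p (nat_lit 0x800002000000000010000000000000000000000000000000000000000000000000000) (nat_lit 0x400001c0003f0000fe0001fc000070000100001c000060000180000000000000000000000000000000000000000000000) (nat_lit 11)
theorem c22024 : QOK q22024 := cut [q11865, q21932, q22014, q22017, q2541, q21929, q21933, q21944, q22018] ⟨c11865, c21932, c22014, c22017, c2541, c21929, c21933, c21944, c22018, trivial⟩ (nd (nat_lit 297) (nat_lit 0) (cs (rf (nat_lit 0)) (cs (rf (nat_lit 1)) (cs (rf (nat_lit 2)) (cs (rf (nat_lit 3)) (nd (nat_lit 319) (nat_lit 0) (cs (rf (nat_lit 4)) (cs (rf (nat_lit 5)) (cs (nd (nat_lit 320) (nat_lit 0) (cs (lf (nat_lit 29) (nat_lit 253)) (nd (nat_lit 231) (nat_lit 0) (cs (lf (nat_lit 28) (nat_lit 231)) (nd (nat_lit 210) (nat_lit 0) (cs (lf (nat_lit 34) (nat_lit 209)) (nd (nat_lit 209) (nat_lit 0) (cs (lf (nat_lit 35) (nat_lit 187)) (nd (nat_lit 274) (nat_lit 0) (cs (lf (nat_lit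 41) (nat_lit 208)) (rf (nat_lit 6)))))))))))) (cs (nd (nat_lit 320) (nat_lit 0) (cs (lf (nat_lit 29) (nat_lit 253)) (nd (nat_lit 231) (nat_lit 0) (cs (lf (nat_lit 28) (nat_lit 231)) (nd (nat_lit 296) (nat_lit 0) (cs (lf (nat_lit 41) (nat_lit 230)) (nd (nat_lit 321) (nat_lit 0) (cs (lf (nat_lit 18) (nat_lit 296)) (nd (nat_lit 294) (nat_lit 0) (cs (lf (nat_lit 1) (nat_lit 294)) (rf (nat_lit 7)))))))))))) (nd (nat_lit 340) (nat_lit 0) (cs (lf (nat_lit 40) (nat_lit 252)) (nd (nat_lit 341) (nat_lit 0) (cs (lf (nat_lit 41) (nat_lit 274)) (nd (nat_lit 274) (nat_lit 0) (cs (lf (nat_lit 47) (nat_lit 252)) (nd (nat_lit 296) (nat_lit 0) (cs (lf (nat_lit 42) (nat_lit 274)) (rf (nat_lit 8)))))))))))))))))))) q22024 (by decide +kernel)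
def q22108 : Q := Q.p (nat_lit 0x800002000000000010000000000000000000000000000000000000000000000000000) (nat_lit 0x540001d0007fe000ff8007be00077c0009e0007fc000ee0003bc000000000000000000000000000000000000000000000) (nat_lit 18)
theorem c22108 : QOK q22108 := cut [q11865, q21932, q22017, q2613, q21909, q21929, q11791, q22031, q1999, q22107] ⟨c11865, c21932, c22017, c2613, c21909, c21929, c11791, c22031, c1999, c22107, trivial⟩ (nd (nat_lit 297) (nat_lit 0) (cs (rf (nat_lit 0)) (cs (rf (nat_lit 1)) (cs (rf (nat_lit 2)) (cs (nd (nat_lit 319) (nat_lit 0) (cs (rf (nat_lit 3)) (cs (rf (nat_lit 4)) (cs (rf (nat_lit 5)) (nd (nat_lit 320) (nat_lit 0) (cs (lf (nat_lit 29) (nat_lit 253)) (nd (nat_lit 321) (nat_lit 0) (cs (rf (nat_lit 6)) (cs (nd (nat_lit 230) (nat_lit 0) (cs (lf (nat_lit 46) (nat_lit 230)) (nd (nat_lit 322) (nat_lit 0) (cs (lf (nat_lit 23) (nat_lit 296)) (nd (nat_lit 345) (nat_lit 0) (cs (nd (nat_lit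 301) (nat_lit 0) (cs (lf (nat_lit 16) (nat_lit 297)) (nd (nat_lit 323) (nat_lit 0) (cs (lf (nat_lit 17) (nat_lit 298)) (lf (nat_lit 5) (nat_lit 320)))))) (lf (nat_lit 4) (nat_lit 319)))))))) (cs (nd (nat_lit 230) (nat_lit 0) (cs (lf (nat_lit 46) (nat_lit 230)) (rf (nat_lit 7)))) (nd (nat_lit 252) (nat_lit 0) (cs (lf (nat_lit 47) (nat_lit 230)) (nd (nat_lit 318) (nat_lit 0) (cs (lf (nat_lit 41) (nat_lit 252)) (nd (nat_lit 343) (nat_lit 0) (cs (lf (nat_lit 5) (nat_lit 318)) (nd (nat_lit 299) (nat_lit 0) (cs (lf (nat_lit 17) (nat_lit 296)) (nd (nat_lit 295) (nat_lit 0) (cs (lf (nat_lit 22) (nat_lit 295)) (nd (nat_lit 317) (nat_lit 0) (cs (lf (nat_lit 23) (nat_lit 294)) (nd (nat_lit 338) (nat_lit 0) (cs (lf (nat_lit 10) (nat_lit 316)) (nd (nat_lit 316) (nat_lit 0) (cs (lf (nat_lit 11) (nat_lit 315)) (nd (nat_lit 360) (nat_lit 0) (cs (lf (nat_lit 30) (nat_lit 294)) (nd (nat_lit 251) (nat_lit 0) (cs (rf (nat_lit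 8)) (lf (nat_lit 37) (nat_lit 250)))))))))))))))))))))))))))))))) (rf (nat_lit 9))))))) q22108 (by decide +kernel)
def q22161 : Q := Q.p (nat_lit 0x800002000008000010000000000000000000000000000000000000000000000000000) (nat_lit 0x6000010000000000778001ec000f38000400000000000000000000000000000000000000000) (nat_lit 11)
theorem c22161 : QOK q22161 := cut [q9666, q12209, q12206, q21992, q7439, q22157] ⟨c9666, c12209, c12206, c21992, c7439, c22157, trivial⟩ (nd (nat_lit 210) (nat_lit 0) (cs (rf (nat_lit 0)) (cs (nd (nat_lit 230) (nat_lit 0) (cs (lf (nat_lit 42) (nat_lit 208)) (rf (nat_lit 1)))) (cs (nd (nat_lit 232) (nat_lit 0) (cs (lf (nat_lit 30) (nat_lit 209)) (rf (nat_lit 2)))) (nd (nat_lit 209) (nat_lit 0) (cs (lf (nat_lit 35) (nat_lit 187)) (nd (nat_lit 211) (nat_lit 0) (cs (rf (nat_lit 3)) (cs (nd (nat_lit 276) (nat_lit 0) (cs (lf (nat_lit 29) (nat_lit 209)) (rf (nat_lit 4)))) (nd (nat_lit 276) (nat_lit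 0) (cs (lf (nat_lit 29) (nat_lit 209)) (rf (nat_lit 5))))))))))))) q22161 (by decide +kernel)
def q22658 : Q := Q.p (nat_lit 0xc00002000000000010000000000000000000000000000000000000000000000000000) (nat_lit 0x40000100007ee000f380079f0007bc001ee0007bc001400000000000000000000000000000000000000000) (nat_lit 15)
theorem c22658 : QOK q22658 := cut [q15623, q15513, q15625, q22607, q22622, q13258, q15516, q15620, q1592, q2025, q22628, q15644, q12654, q117, q16704, q2931, q22657] ⟨c15623, c15513, c15625, c22607, c22622, c13258, c15516, c15620, c1592, c2025, c22628, c15644, c12654, c117, c16704, c2931, c22657, trivial⟩ (nd (nat_lit 276) (nat_lit 0) (cs (rf (nat_lit 0)) (cs (nd (nat_lit 273) (nat_lit 0) (cs (rf (nat_lit 1)) (rf (nat_lit 2)))) (cs (rf (nat_lit 3)) (cs (rf (nat_lit 4)) (cs (nd (nat_lit 273) (nat_lit 0) (cs (rf (nat_lit 5)) (cs (rf (nat_lit 6)) (cs (rf (nat_lit 7)) (cs (rf (nat_lit 2)) (nd (nat_lit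 209) (nat_lit 0) (cs (nd (nat_lit 231) (nat_lit 0) (cs (lf (nat_lit 29) (nat_lit 209)) (rf (nat_lit 8)))) (cs (nd (nat_lit 207) (nat_lit 0) (cs (nd (nat_lit 294) (nat_lit 0) (cs (lf (nat_lit 10) (nat_lit 272)) (nd (nat_lit 251) (nat_lit 0) (cs (lf (nat_lit 23) (nat_lit 250)) (nd (nat_lit 252) (nat_lit 0) (cs (lf (nat_lit 18) (nat_lit 251)) (rf (nat_lit 9)))))))) (cs (rf (nat_lit 10)) (cs (nd (nat_lit 294) (nat_lit 0) (cs (lf (nat_lit 10) (nat_lit 272)) (nd (nat_lit 251) (nat_lit 0) (cs (lf (nat_lit 23) (nat_lit 250)) (nd (nat_lit 252) (nat_lit 0) (cs (lf (nat_lit 18) (nat_lit 251)) (nd (nat_lit 229) (nat_lit 0) (cs (lf (nat_lit 24) (nat_lit 185)) (rf (nat_lit 11)))))))))) (cs (nd (nat_lit 295) (nat_lit 0) (cs (lf (nat_lit 11) (nat_lit 272)) (nd (nat_lit 251) (nat_lit 0) (cs (lf (nat_lit 23) (nat_lit 250)) (nd (nat_lit 252) (nat_lit 0) (cs (lf (nat_lit 18) (nat_lit 251)) (nd (nat_lit 229) (nat_lit 0)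 (cs (lf (nat_lit 24) (nat_lit 185)) (rf (nat_lit 12)))))))))) (nd (nat_lit 206) (nat_lit 0) (cs (rf (nat_lit 13)) (nd (nat_lit 188) (nat_lit 0) (cs (lf (nat_lit 16) (nat_lit 184)) (nd (nat_lit 210) (nat_lit 0) (cs (lf (nat_lit 17) (nat_lit 185)) (nd (nat_lit 233) (nat_lit 0) (cs (lf (nat_lit 4) (nat_lit 207)) (nd (nat_lit 211) (nat_lit 0) (cs (lf (nat_lit 5) (nat_lit 208)) (nd (nat_lit 277) (nat_lit 0) (cs (lf (nat_lit 43) (nat_lit 188)) (nd (nat_lit 278) (nat_lit 0) (cs (lf (nat_lit 23) (nat_lit 252)) (nd (nat_lit 301) (nat_lit 0) (cs (lf (nat_lit 4) (nat_lit 275)) (nd (nat_lit 257) (nat_lit 0) (cs (rf (nat_lit 14)) (lf (nat_lit 16) (nat_lit 253))))))))))))))))))))))))) (cs (nd (nat_lit 251) (nat_lit 0) (cs (lf (nat_lit 23) (nat_lit 250)) (nd (nat_lit 294) (nat_lit 0) (cs (lf (nat_lit 10) (nat_lit 272)) (nd (nat_lit 231) (nat_lit 0) (cs (lf (nat_lit 29) (nat_lit 209)) (nd (nat_lit 252) (nat_lit 0)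 (cs (lf (nat_lit 36) (nat_lit 186)) (lf (nat_lit 18) (nat_lit 251)))))))))) (nd (nat_lit 294) (nat_lit 0) (cs (lf (nat_lit 10) (nat_lit 272)) (nd (nat_lit 250) (nat_lit 0) (cs (lf (nat_lit 22) (nat_lit 250)) (nd (nat_lit 231) (nat_lit 0) (cs (lf (nat_lit 29) (nat_lit 209)) (rf (nat_lit 15))))))))))))))))) (rf (nat_lit 16)))))))) q22658 (by decide +kernel)
def q22859 : Q := Q.p (nat_lit 0x1c00002000000000020000000000000000000000000000000000000000000000000000) (nat_lit 0x10000040003980006000038000008000000000000000000000000000000000000000000000000000000000) (nat_lit 7)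
theorem c22859 : QOK q22859 := cut [q22858] ⟨c22858, trivial⟩ (nd (nat_lit 296) (nat_lit 0) (cs (lf (nat_lit 37) (nat_lit 208)) (rf (nat_lit 0)))) q22859 (by decide +kernel)
def q23066 : Q := Q.p (nat_lit 0xc00002000000000010000000000000000000000000000000000000000000000000000) (nat_lit 0x3a0001f8000ff0003fc001ff80003c0001f8007be000ef8007b8000000000000000000000000000000000000000000000) (nat_lit 17)
theorem c23066 : QOK q23066 := cut [q15829, q15996, q22018, q22918, q23006, q23009, q14503, q23012, q23013, q23015, q14518, q13011, q13010, q23047, q15882, q15883, q15831, q15835, q17059, q23048, q23050, q12841, q15842, q23056] ⟨c15829, c15996, c22018, c22918, c23006, c23009, c14503, c23012, c23013, c23015, c14518, c13011, c13010, c23047, c15882, c15883, c15831, c15835, c17059, c23048, c23050, c12841, c15842, c23056, trivial⟩ (nd (nat_lit 296) (nat_lit 0) (cs (rf (nat_lit 0)) (cs (rf (nat_lit 1)) (cs (nd (nat_lit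 297) (nat_lit 0) (cs (rf (nat_lit 2)) (cs (rf (nat_lit 3)) (cs (rf (nat_lit 4)) (nd (nat_lit 295) (nat_lit 0) (cs (nd (nat_lit 294) (nat_lit 0) (cs (lf (nat_lit 12) (nat_lit 271)) (rf (nat_lit 5)))) (cs (nd (nat_lit 294) (nat_lit 0) (cs (lf (nat_lit 12) (nat_lit 271)) (rf (nat_lit 6)))) (cs (nd (nat_lit 273) (nat_lit 0) (cs (rf (nat_lit 7)) (cs (rf (nat_lit 8)) (rf (nat_lit 9))))) (cs (nd (nat_lit 294) (nat_lit 0) (cs (lf (nat_lit 12) (nat_lit 271)) (nd (nat_lit 272) (nat_lit 0) (cs (lf (nat_lit 23) (nat_lit 271)) (rf (nat_lit 10)))))) (cs (nd (nat_lit 273) (nat_lit 0) (cs (rf (nat_lit 9)) (cs (nd (nat_lit 294) (nat_lit 0) (cs (lf (nat_lit 12) (nat_lit 271)) (nd (nat_lit 316) (nat_lit 0) (cs (lf (nat_lit 11) (nat_lit 293)) (nd (nat_lit 338) (nat_lit 0) (cs (lf (nat_lit 30) (nat_lit 272)) (nd (nat_lit 251) (nat_lit 0) (cs (lf (nat_lit 36) (nat_lit 228)) (lf (nat_lit 39) (nat_lit 250)))))))))) (cs (nd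 (nat_lit 294) (nat_lit 0) (cs (lf (nat_lit 12) (nat_lit 271)) (nd (nat_lit 272) (nat_lit 0) (cs (lf (nat_lit 0) (nat_lit 271)) (rf (nat_lit 11)))))) (nd (nat_lit 272) (nat_lit 0) (cs (lf (nat_lit 0) (nat_lit 271)) (nd (nat_lit 294) (nat_lit 0) (cs (lf (nat_lit 12) (nat_lit 271)) (nd (nat_lit 249) (nat_lit 0) (cs (lf (nat_lit 22) (nat_lit 249)) (nd (nat_lit 316) (nat_lit 0) (cs (lf (nat_lit 11) (nat_lit 293)) (nd (nat_lit 338) (nat_lit 0) (cs (lf (nat_lit 30) (nat_lit 272)) (nd (nat_lit 337) (nat_lit 0) (cs (lf (nat_lit 41) (nat_lit 271)) (nd (nat_lit 339) (nat_lit 0) (cs (lf (nat_lit 29) (nat_lit 272)) (nd (nat_lit 317) (nat_lit 0) (cs (lf (nat_lit 35) (nat_lit 251)) (nd (nat_lit 340) (nat_lit 0) (cs (lf (nat_lit 29) (nat_lit 273)) (nd (nat_lit 341) (nat_lit 0) (cs (nd (nat_lit 363) (nat_lit 0) (cs (lf (nat_lit 5) (nat_lit 338)) (lf (nat_lit 44) (nat_lit 274)))) (lf (nat_lit 18) (nat_lit 316))))))))))))))))))))))))))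 (nd (nat_lit 294) (nat_lit 0) (cs (lf (nat_lit 12) (nat_lit 271)) (nd (nat_lit 272) (nat_lit 0) (cs (lf (nat_lit 23) (nat_lit 271)) (nd (nat_lit 316) (nat_lit 0) (cs (lf (nat_lit 11) (nat_lit 293)) (nd (nat_lit 273) (nat_lit 0) (cs (lf (nat_lit 18) (nat_lit 272)) (rf (nat_lit 12)))))))))))))))))))) (cs (rf (nat_lit 13)) (nd (nat_lit 318) (nat_lit 0) (cs (lf (nat_lit 30) (nat_lit 252)) (nd (nat_lit 317) (nat_lit 0) (cs (rf (nat_lit 14)) (cs (rf (nat_lit 15)) (cs (nd (nat_lit 319) (nat_lit 0) (cs (rf (nat_lit 16)) (cs (rf (nat_lit 17)) (cs (rf (nat_lit 18)) (nd (nat_lit 297) (nat_lit 0) (cs (rf (nat_lit 19)) (cs (nd (nat_lit 320) (nat_lit 0) (cs (lf (nat_lit 29) (nat_lit 253)) (rf (nat_lit 20)))) (nd (nat_lit 298) (nat_lit 0) (cs (lf (nat_lit 6) (nat_lit 295)) (nd (nat_lit 272) (nat_lit 0) (cs (lf (nat_lit 1) (nat_lit 272)) (rf (nat_lit 21))))))))))))) (nd (nat_lit 319) (nat_lit 0) (cs (rf (nat_lit 22))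 (cs (rf (nat_lit 18)) (nd (nat_lit 252) (nat_lit 0) (cs (lf (nat_lit 29) (nat_lit 252)) (nd (nat_lit 251) (nat_lit 0) (cs (lf (nat_lit 47) (nat_lit 229)) (nd (nat_lit 250) (nat_lit 0) (cs (lf (nat_lit 0) (nat_lit 249)) (nd (nat_lit 271) (nat_lit 0) (cs (lf (nat_lit 10) (nat_lit 249)) (nd (nat_lit 228) (nat_lit 0) (cs (lf (nat_lit 23) (nat_lit 227)) (nd (nat_lit 295) (nat_lit 0) (cs (lf (nat_lit 44) (nat_lit 228)) (rf (nat_lit 23)))))))))))))))))))))))))))) q23066 (by decide +kernel)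
def q23145 : Q := Q.p (nat_lit 0xc00002000000000010000000000000000000000000000000000000000000000000000) (nat_lit 0x240000b80003e0003fc003be00073c0039fc007be000efc007bc000000000000000000000000000000000000000000000) (nat_lit 15)
theorem c23145 : QOK q23145 := cut [q15829, q15996, q15887, q15937, q23108, q22857, q22188, q22378, q22628, q117, q15826, q15913, q22816, q22953, q22991, q23133, q22937, q23141, q23144] ⟨c15829, c15996, c15887, c15937, c23108, c22857, c22188, c22378, c22628, c117, c15826, c15913, c22816, c22953, c22991, c23133, c22937, c23141, c23144, trivial⟩ (nd (nat_lit 296) (nat_lit 0) (cs (rf (nat_lit 0)) (cs (rf (nat_lit 1)) (cs (nd (nat_lit 294) (nat_lit 0) (cs (rf (nat_lit 2)) (cs (rf (nat_lit 3)) (cs (rf (nat_lit 4)) (cs (nd (nat_lit 276) (nat_lit 0) (cs (rf (nat_lit 5)) (cs (nd (nat_lit 295) (nat_lit 0) (cs (lf (nat_lit 15) (nat_lit 272)) (lf (nat_lit 9) (nat_lit 272)))) (nd (nat_lit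 209) (nat_lit 0) (cs (lf (nat_lit 37) (nat_lit 208)) (nd (nat_lit 277) (nat_lit 0) (cs (rf (nat_lit 6)) (cs (rf (nat_lit 7)) (nd (nat_lit 207) (nat_lit 0) (cs (rf (nat_lit 8)) (cs (nd (nat_lit 206) (nat_lit 0) (cs (rf (nat_lit 9)) (nd (nat_lit 255) (nat_lit 0) (cs (lf (nat_lit 17) (nat_lit 252)) (nd (nat_lit 188) (nat_lit 0) (cs (lf (nat_lit 16) (nat_lit 184)) (nd (nat_lit 210) (nat_lit 0) (cs (lf (nat_lit 17) (nat_lit 185)) (nd (nat_lit 233) (nat_lit 0) (cs (lf (nat_lit 4) (nat_lit 207)) (lf (nat_lit 45) (nat_lit 188)))))))))))) (nd (nat_lit 255) (nat_lit 0) (cs (lf (nat_lit 17) (nat_lit 252)) (nd (nat_lit 251) (nat_lit 0) (cs (lf (nat_lit 22) (nat_lit 251)) (nd (nat_lit 273) (nat_lit 0) (cs (lf (nat_lit 25) (nat_lit 207)) (lf (nat_lit 23) (nat_lit 250))))))))))))))))))) (nd (nat_lit 272) (nat_lit 0) (cs (rf (nat_lit 10)) (cs (rf (nat_lit 11)) (cs (nd (nat_lit 250) (nat_lit 0) (cs (nd (nat_lit 228)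 (nat_lit 0) (cs (rf (nat_lit 12)) (nd (nat_lit 295) (nat_lit 0) (cs (lf (nat_lit 29) (nat_lit 228)) (nd (nat_lit 271) (nat_lit 0) (cs (lf (nat_lit 18) (nat_lit 271)) (nd (nat_lit 252) (nat_lit 0) (cs (lf (nat_lit 8) (nat_lit 249)) (lf (nat_lit 14) (nat_lit 249)))))))))) (cs (nd (nat_lit 316) (nat_lit 0) (cs (rf (nat_lit 13)) (cs (rf (nat_lit 14)) (nd (nat_lit 209) (nat_lit 0) (cs (lf (nat_lit 37) (nat_lit 208)) (nd (nat_lit 315) (nat_lit 0) (cs (lf (nat_lit 41) (nat_lit 249)) (nd (nat_lit 229) (nat_lit 0) (cs (lf (nat_lit 34) (nat_lit 228)) (nd (nat_lit 207) (nat_lit 0) (cs (lf (nat_lit 33) (nat_lit 206)) (nd (nat_lit 295) (nat_lit 0) (cs (lf (nat_lit 6) (nat_lit 293)) (nd (nat_lit 317) (nat_lit 0) (cs (lf (nat_lit 12) (nat_lit 292)) (lf (nat_lit 29) (nat_lit 250))))))))))))))))) (cs (nd (nat_lit 209) (nat_lit 0) (cs (lf (nat_lit 37) (nat_lit 208)) (nd (nat_lit 249) (nat_lit 0) (cs (lf (nat_lit 20)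 (nat_lit 249)) (rf (nat_lit 15)))))) (nd (nat_lit 209) (nat_lit 0) (cs (lf (nat_lit 37) (nat_lit 208)) (nd (nat_lit 249) (nat_lit 0) (cs (lf (nat_lit 20) (nat_lit 249)) (nd (nat_lit 251) (nat_lit 0) (cs (lf (nat_lit 3) (nat_lit 249)) (rf (nat_lit 16)))))))))))) (rf (nat_lit 17))))))))))) (rf (nat_lit 18)))))) q23145 (by decide +kernel)
def q23188 : Q := Q.p (nat_lit 0xc00002000000000010000000000000000000000000000000000000000000000000000) (nat_lit 0x50000140003fb80073c0039e0007b8001ec000738001000000000000000000000000000000000000000000) (nat_lit 16)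
theorem c23188 : QOK q23188 := cut [q15829, q15996, q22379, q22386, q22622, q15512, q23168, q22377, q22858, q22375] ⟨c15829, c15996, c22379, c22386, c22622, c15512, c23168, c22377, c22858, c22375, trivial⟩ (nd (nat_lit 296) (nat_lit 0) (cs (rf (nat_lit 0)) (cs (rf (nat_lit 1)) (cs (nd (nat_lit 276) (nat_lit 0) (cs (rf (nat_lit 2)) (cs (rf (nat_lit 3)) (cs (rf (nat_lit 4)) (nd (nat_lit 298) (nat_lit 0) (cs (rf (nat_lit 5)) (nd (nat_lit 273) (nat_lit 0) (cs (lf (nat_lit 5) (nat_lit 273)) (rf (nat_lit 6)))))))))) (nd (nat_lit 276) (nat_lit 0) (cs (rf (nat_lit 7)) (cs (rf (nat_lit 2)) (cs (rf (nat_lit 8)) (nd (nat_lit 273) (nat_lit 0) (cs (rf (nat_lit 9)) (cs (rf (nat_lit 6)) (cs (nd (nat_lit 298) (nat_lit 0) (cs (lf (nat_lit 5) (nat_lit 273)) (nd (nat_lit 272) (nat_lit 0) (cs (lf (nat_lit 4) (nat_lit 272)) (nd (nat_lit 271) (nat_lit 0) (cs (lf (nat_lit 16) (nat_lit 249)) (nd (nat_lit 320) (nat_lit 0) (cs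 (lf (nat_lit 42) (nat_lit 253)) (nd (nat_lit 292) (nat_lit 0) (cs (lf (nat_lit 10) (nat_lit 270)) (nd (nat_lit 270) (nat_lit 0) (cs (lf (nat_lit 11) (nat_lit 269)) (lf (nat_lit 4) (nat_lit 270)))))))))))))) (nd (nat_lit 298) (nat_lit 0) (cs (lf (nat_lit 5) (nat_lit 273)) (nd (nat_lit 320) (nat_lit 0) (cs (lf (nat_lit 42) (nat_lit 253)) (nd (nat_lit 251) (nat_lit 0) (cs (lf (nat_lit 23) (nat_lit 250)) (nd (nat_lit 318) (nat_lit 0) (cs (lf (nat_lit 30) (nat_lit 252)) (nd (nat_lit 229) (nat_lit 0) (cs (lf (nat_lit 45) (nat_lit 229)) (lf (nat_lit 27) (nat_lit 229)))))))))))))))))))))))) q23188 (by decide +kernel)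
def q23237 : Q := Q.p (nat_lit 0xc00002000000000000000000000000000000000000000000000000000000000000000) (nat_lit 0x40001700007c0003fe0007f8001f60007380039f0007a800368000f8000380000a000000000000000000000000000000000000) (nat_lit 17)
theorem c23237 : QOK q23237 := cut [q22912, q22918, q2532, q11607, q21929, q22054, q11603, q22056, q23050, q12867, q14796, q1186, q23197, q23205, q23210, q23211, q23212, q23214, q5304, q22569, q23227, q23235, q22164, q22279, q22481] ⟨c22912, c22918, c2532, c11607, c21929, c22054, c11603, c22056, c23050, c12867, c14796, c1186, c23197, c23205, c23210, c23211, c23212, c23214, c5304, c22569, c23227, c23235, c22164, c22279, c22481, trivial⟩ (nd (nat_lit 297) (nat_lit 0) (cs (rf (nat_lit 0)) (cs (rf (nat_lit 1)) (cs (nd (nat_lit 319) (nat_lit 0) (cs (rf (nat_lit 2)) (cs (rf (nat_lit 3)) (cs (rf (nat_lit 4)) (cs (rf (nat_lit 5)) (nd (nat_lit 318) (nat_lit 0) (cs (lf (nat_lit 41)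 (nat_lit 252)) (nd (nat_lit 320) (nat_lit 0) (cs (lf (nat_lit 29) (nat_lit 253)) (nd (nat_lit 296) (nat_lit 0) (cs (rf (nat_lit 6)) (nd (nat_lit 321) (nat_lit 0) (cs (lf (nat_lit 18) (nat_lit 296)) (nd (nat_lit 317) (nat_lit 0) (cs (rf (nat_lit 7)) (cs (rf (nat_lit 8)) (nd (nat_lit 251) (nat_lit 0) (cs (nd (nat_lit 229) (nat_lit 0) (cs (lf (nat_lit 45) (nat_lit 229)) (nd (nat_lit 273) (nat_lit 0) (cs (lf (nat_lit 24) (nat_lit 207)) (nd (nat_lit 250) (nat_lit 0) (cs (lf (nat_lit 18) (nat_lit 250)) (rf (nat_lit 9)))))))) (cs (nd (nat_lit 229) (nat_lit 0) (cs (lf (nat_lit 45) (nat_lit 229)) (nd (nat_lit 273) (nat_lit 0) (cs (lf (nat_lit 24) (nat_lit 207)) (nd (nat_lit 299) (nat_lit 0) (cs (lf (nat_lit 17) (nat_lit 296)) (nd (nat_lit 272) (nat_lit 0) (cs (lf (nat_lit 0) (nat_lit 271)) (rf (nat_lit 10)))))))))) (cs (nd (nat_lit 272) (nat_lit 0) (cs (nd (nat_lit 273) (nat_lit 0) (cs (rf (nat_lit 11)) (lf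 (nat_lit 0) (nat_lit 271)))) (cs (nd (nat_lit 299) (nat_lit 0) (cs (lf (nat_lit 17) (nat_lit 296)) (nd (nat_lit 316) (nat_lit 0) (cs (lf (nat_lit 12) (nat_lit 293)) (nd (nat_lit 343) (nat_lit 0) (cs (lf (nat_lit 5) (nat_lit 318)) (nd (nat_lit 294) (nat_lit 0) (cs (lf (nat_lit 23) (nat_lit 293)) (nd (nat_lit 338) (nat_lit 0) (cs (lf (nat_lit 11) (nat_lit 315)) (nd (nat_lit 250) (nat_lit 0) (cs (lf (nat_lit 35) (nat_lit 228)) (rf (nat_lit 12)))))))))))))) (nd (nat_lit 343) (nat_lit 0) (cs (lf (nat_lit 5) (nat_lit 318)) (nd (nat_lit 299) (nat_lit 0) (cs (lf (nat_lit 17) (nat_lit 296)) (nd (nat_lit 316) (nat_lit 0) (cs (lf (nat_lit 12) (nat_lit 293)) (rf (nat_lit 13))))))))))) (cs (nd (nat_lit 250) (nat_lit 0) (cs (rf (nat_lit 14)) (cs (rf (nat_lit 15)) (cs (nd (nat_lit 315) (nat_lit 0) (cs (lf (nat_lit 13) (nat_lit 293)) (rf (nat_lit 16)))) (rf (nat_lit 17)))))) (nd (nat_lit 315) (nat_lit 0) (cs (lf (nat_lit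 13) (nat_lit 293)) (nd (nat_lit 343) (nat_lit 0) (cs (lf (nat_lit 5) (nat_lit 318)) (nd (nat_lit 299) (nat_lit 0) (cs (lf (nat_lit 17) (nat_lit 296)) (nd (nat_lit 252) (nat_lit 0) (cs (rf (nat_lit 18)) (lf (nat_lit 47) (nat_lit 229))))))))))))))))))))))))))))))) (cs (nd (nat_lit 298) (nat_lit 0) (cs (rf (nat_lit 19)) (rf (nat_lit 20)))) (cs (rf (nat_lit 21)) (nd (nat_lit 231) (nat_lit 0) (cs (rf (nat_lit 22)) (cs (rf (nat_lit 23)) (rf (nat_lit 24))))))))))) q23237 (by decide +kernel)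
def q23257 : Q := Q.p (nat_lit 0xc00002000000000010000000000000000000000000000000000000000000000000000) (nat_lit 0x50000140003fc00073c0039f0007b8001ec000738001000000000000000000000000000000000000000000) (nat_lit 16)
theorem c23257 : QOK q23257 := cut [q15829, q15996, q22379, q22386, q22622, q15513, q23173, q15911, q22377, q22858, q22390] ⟨c15829, c15996, c22379, c22386, c22622, c15513, c23173, c15911, c22377, c22858, c22390, trivial⟩ (nd (nat_lit 296) (nat_lit 0) (cs (rf (nat_lit 0)) (cs (rf (nat_lit 1)) (cs (nd (nat_lit 276) (nat_lit 0) (cs (rf (nat_lit 2)) (cs (rf (nat_lit 3)) (cs (rf (nat_lit 4)) (nd (nat_lit 273) (nat_lit 0) (cs (rf (nat_lit 5)) (cs (rf (nat_lit 6)) (cs (nd (nat_lit 209) (nat_lit 0) (cs (lf (nat_lit 37) (nat_lit 208)) (nd (nat_lit 294) (nat_lit 0) (cs (lf (nat_lit 10) (nat_lit 272)) (nd (nat_lit 250) (nat_lit 0) (cs (lf (nat_lit 22) (nat_lit 250)) (nd (nat_lit 272) (nat_lit 0) (cs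 (lf (nat_lit 23) (nat_lit 249)) (rf (nat_lit 7)))))))))) (nd (nat_lit 250) (nat_lit 0) (cs (lf (nat_lit 22) (nat_lit 250)) (nd (nat_lit 272) (nat_lit 0) (cs (lf (nat_lit 23) (nat_lit 249)) (nd (nat_lit 298) (nat_lit 0) (cs (lf (nat_lit 5) (nat_lit 273)) (nd (nat_lit 320) (nat_lit 0) (cs (lf (nat_lit 42) (nat_lit 253)) (nd (nat_lit 209) (nat_lit 0) (cs (lf (nat_lit 25) (nat_lit 209)) (nd (nat_lit 271) (nat_lit 0) (cs (lf (nat_lit 16) (nat_lit 249)) (nd (nat_lit 295) (nat_lit 0) (cs (lf (nat_lit 11) (nat_lit 272)) (lf (nat_lit 0) (nat_lit 270)))))))))))))))))))))))) (nd (nat_lit 276) (nat_lit 0) (cs (rf (nat_lit 8)) (cs (rf (nat_lit 2)) (cs (rf (nat_lit 9)) (nd (nat_lit 273) (nat_lit 0) (cs (rf (nat_lit 10)) (cs (rf (nat_lit 6)) (nd (nat_lit 295) (nat_lit 0) (cs (lf (nat_lit 11) (nat_lit 272)) (nd (nat_lit 298) (nat_lit 0) (cs (lf (nat_lit 5) (nat_lit 273)) (nd (nat_lit 272) (nat_lit 0) (cs (lf (nat_lit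 4) (nat_lit 272)) (nd (nat_lit 271) (nat_lit 0) (cs (lf (nat_lit 16) (nat_lit 249)) (lf (nat_lit 0) (nat_lit 270))))))))))))))))))))) q23257 (by decide +kernel)
def q23278 : Q := Q.p (nat_lit 0xc00002000000000000000000000000000000000000000000000000000000000000000) (nat_lit 0x100007c0003f0003fe0007380039f00002000008000000000000000000000000000000000000000000000000000) (nat_lit 11)
theorem c23278 : QOK q23278 := cut [q14661, q22377, q12991, q13258, q23173, q14616, q23262, q23267, q14633, q14640, q22379, q22858, q23273, q23277] ⟨c14661, c22377, c12991, c13258, c23173, c14616, c23262, c23267, c14633, c14640, c22379, c22858, c23273, c23277, trivial⟩ (nd (nat_lit 276) (nat_lit 0) (cs (rf (nat_lit 0)) (cs (rf (nat_lit 1)) (cs (nd (nat_lit 273) (nat_lit 0) (cs (rf (nat_lit 2)) (cs (rf (nat_lit 3)) (cs (rf (nat_lit 4)) (nd (nat_lit 251) (nat_lit 0) (cs (lf (nat_lit 23) (nat_lit 250)) (nd (nat_lit 318) (nat_lit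 0) (cs (nd (nat_lit 298) (nat_lit 0) (cs (lf (nat_lit 5) (nat_lit 273)) (nd (nat_lit 320) (nat_lit 0) (cs (lf (nat_lit 42) (nat_lit 253)) (rf (nat_lit 5)))))) (cs (nd (nat_lit 298) (nat_lit 0) (cs (lf (nat_lit 5) (nat_lit 273)) (nd (nat_lit 320) (nat_lit 0) (cs (lf (nat_lit 42) (nat_lit 253)) (nd (nat_lit 295) (nat_lit 0) (cs (lf (nat_lit 11) (nat_lit 272)) (nd (nat_lit 296) (nat_lit 0) (cs (lf (nat_lit 24) (nat_lit 229)) (rf (nat_lit 6)))))))))) (nd (nat_lit 296) (nat_lit 0) (cs (lf (nat_lit 42) (nat_lit 251)) (rf (nat_lit 7))))))))))))) (cs (nd (nat_lit 296) (nat_lit 0) (cs (rf (nat_lit 8)) (cs (rf (nat_lit 9)) (cs (rf (nat_lit 10)) (rf (nat_lit 11)))))) (cs (rf (nat_lit 12)) (rf (nat_lit 13)))))))) q23278 (by decide +kernel)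
def q23345 : Q := Q.p (nat_lit 0xc00002000000000000000000000000000000000000000000000000000000000000000) (nat_lit 0x500001c00007c0003f8003ff80073e0038fc001b00006c000100000000000000000000000000000000000000000000000) (nat_lit 13)
theorem c23345 : QOK q23345 := cut [q22132, q23284, q15513, q15999, q23286, q23289, q12834, q12908, q11603, q16004, q2555, q23227, q22408, q23297, q23301, q23307, q23308, q22143, q21929, q22915, q23320, q23322, q14366, q22050, q23328, q15650] ⟨c22132, c23284, c15513, c15999, c23286, c23289, c12834, c12908, c11603, c16004, c2555, c23227, c22408, c23297, c23301, c23307, c23308, c22143, c21929, c22915, c23320, c23322, c14366, c22050, c23328, c15650, trivial⟩ (nd (nat_lit 273) (nat_lit 0) (cs (rf (nat_lit 0)) (cs (rf (nat_lit 1)) (cs (nd (nat_lit 276) (nat_lit 0) (cs (rf (nat_lit 2)) (cs (rf (nat_lit 3)) (nd (nat_lit 250) (nat_lit 0) (cs (lf (nat_lit 22) (nat_lit 250)) (rf (nat_lit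 4))))))) (cs (rf (nat_lit 5)) (cs (nd (nat_lit 297) (nat_lit 0) (cs (rf (nat_lit 6)) (cs (rf (nat_lit 7)) (cs (nd (nat_lit 296) (nat_lit 0) (cs (rf (nat_lit 8)) (rf (nat_lit 9)))) (nd (nat_lit 298) (nat_lit 0) (cs (rf (nat_lit 10)) (rf (nat_lit 11)))))))) (cs (nd (nat_lit 272) (nat_lit 0) (cs (rf (nat_lit 12)) (cs (rf (nat_lit 13)) (cs (rf (nat_lit 14)) (cs (rf (nat_lit 15)) (nd (nat_lit 293) (nat_lit 0) (cs (lf (nat_lit 10) (nat_lit 271)) (nd (nat_lit 271) (nat_lit 0) (cs (lf (nat_lit 11) (nat_lit 270)) (nd (nat_lit 296) (nat_lit 0) (cs (lf (nat_lit 5) (nat_lit 271)) (nd (nat_lit 318) (nat_lit 0) (cs (lf (nat_lit 30) (nat_lit 252)) (nd (nat_lit 295) (nat_lit 0) (cs (lf (nat_lit 0) (nat_lit 270)) (nd (nat_lit 209) (nat_lit 0) (cs (lf (nat_lit 37) (nat_lit 208)) (nd (nat_lit 276) (nat_lit 0) (cs (lf (nat_lit 6) (nat_lit 273)) (rf (nat_lit 16))))))))))))))))))))) (cs (nd (nat_lit 297) (nat_lit 0) (cs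 (rf (nat_lit 17)) (cs (nd (nat_lit 319) (nat_lit 0) (cs (rf (nat_lit 18)) (cs (nd (nat_lit 320) (nat_lit 0) (cs (lf (nat_lit 29) (nat_lit 253)) (rf (nat_lit 19)))) (cs (rf (nat_lit 20)) (nd (nat_lit 340) (nat_lit 0) (cs (lf (nat_lit 40) (nat_lit 252)) (nd (nat_lit 341) (nat_lit 0) (cs (lf (nat_lit 41) (nat_lit 274)) (nd (nat_lit 296) (nat_lit 0) (cs (lf (nat_lit 42) (nat_lit 274)) (rf (nat_lit 21)))))))))))) (nd (nat_lit 319) (nat_lit 0) (cs (rf (nat_lit 22)) (cs (rf (nat_lit 18)) (cs (rf (nat_lit 23)) (cs (rf (nat_lit 20)) (cs (rf (nat_lit 24)) (nd (nat_lit 318) (nat_lit 0) (cs (lf (nat_lit 41) (nat_lit 252)) (nd (nat_lit 296) (nat_lit 0) (cs (lf (nat_lit 36) (nat_lit 230)) (nd (nat_lit 341) (nat_lit 0) (cs (lf (nat_lit 42) (nat_lit 274)) (nd (nat_lit 272) (nat_lit 0) (cs (lf (nat_lit 0) (nat_lit 271)) (nd (nat_lit 249) (nat_lit 0) (cs (lf (nat_lit 22) (nat_lit 249)) (nd (nat_lit 294) (nat_lit 0) (cs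 (lf (nat_lit 11) (nat_lit 271)) (nd (nat_lit 295) (nat_lit 0) (cs (lf (nat_lit 5) (nat_lit 294)) (nd (nat_lit 316) (nat_lit 0) (cs (lf (nat_lit 11) (nat_lit 293)) (nd (nat_lit 251) (nat_lit 0) (cs (lf (nat_lit 30) (nat_lit 250)) (lf (nat_lit 24) (nat_lit 229))))))))))))))))))))))))))))) (nd (nat_lit 294) (nat_lit 0) (cs (rf (nat_lit 25)) (cs (nd (nat_lit 272) (nat_lit 0) (cs (lf (nat_lit 11) (nat_lit 271)) (nd (nat_lit 297) (nat_lit 0) (cs (lf (nat_lit 5) (nat_lit 272)) (nd (nat_lit 296) (nat_lit 0) (cs (rf (nat_lit 8)) (lf (nat_lit 0) (nat_lit 271)))))))) (nd (nat_lit 276) (nat_lit 0) (cs (lf (nat_lit 10) (nat_lit 272)) (rf (nat_lit 2))))))))))))))) q23345 (by decide +kernel)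
def q23602 : Q := Q.p (nat_lit 0x80000240000000000c000000000000000000000000000000000000000000000000000) (nat_lit 0xa0001780001a000018000000000380000e0000280000000000000000000000000000000000) (nat_lit 7)
theorem c23602 : QOK q23602 := cut [q3392, q23599, q23601] ⟨c3392, c23599, c23601, trivial⟩ (nd (nat_lit 228) (nat_lit 0) (cs (rf (nat_lit 0)) (cs (rf (nat_lit 1)) (rf (nat_lit 2))))) q23602 (by decide +kernel)
def q23923 : Q := Q.p (nat_lit 0x1c000010000000000000000000000000000000000000000000000) (nat_lit 0xc0000700000200002e0003e0001f80001e00002800000000000000000000000) (nat_lit 10)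
theorem c23923 : QOK q23923 := cut [q864, q3851, q18105, q23916, q23922] ⟨c864, c3851, c18105, c23916, c23922, trivial⟩ (nd (nat_lit 162) (nat_lit 0) (cs (rf (nat_lit 0)) (cs (rf (nat_lit 1)) (cs (rf (nat_lit 2)) (cs (rf (nat_lit 3)) (rf (nat_lit 4))))))) q23923 (by decide +kernel)
def q24318 : Q := Q.p (nat_lit 0x1c000010000000000000000000000000000000000000000000000) (nat_lit 0xc0000300000200002e0003e0000fe0000e0000380000a000000000000000000) (nat_lit 10)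
theorem c24318 : QOK q24318 := cut [q864, q18105, q23916, q24058] ⟨c864, c18105, c23916, c24058, trivial⟩ (nd (nat_lit 162) (nat_lit 0) (cs (rf (nat_lit 0)) (cs (rf (nat_lit 1)) (cs (rf (nat_lit 2)) (rf (nat_lit 3)))))) q24318 (by decide +kernel)
def q24321 : Q := Q.p (nat_lit 0x1e000000000000000000000000000000000000000000000000000) (nat_lit 0xe700001c0003b800000000000000000000000000000000000000000000) (nat_lit 8)
theorem c24321 : QOK q24321 := cut [q24320] ⟨c24320, trivial⟩ (nd (nat_lit 230) (nat_lit 0) (cs (lf (nat_lit 5) (nat_lit 205)) (rf (nat_lit 0)))) q24321 (by decide +kernel)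
def q24325 : Q := Q.p (nat_lit 0x80000200000100000c000000000000000000000000000000000000000000000000000) (nat_lit 0xa0001780001e000008000000000380000e0000280000000000000000000000000000000000) (nat_lit 7)
theorem c24325 : QOK q24325 := cut [q3392, q23599, q23601] ⟨c3392, c23599, c23601, trivial⟩ (nd (nat_lit 250) (nat_lit 0) (cs (rf (nat_lit 0)) (cs (rf (nat_lit 1)) (rf (nat_lit 2))))) q24325 (by decide +kernel)
def q24377 : Q := Q.p (nat_lit 0x80000200000000001e000000000000000000000000000000000000000000000000000) (nat_lit 0x1780001e00003b80001c0003e0000e0000280000000000000000000000000000000000) (nat_lit 7)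
theorem c24377 : QOK q24377 := cut [q5168, q24375, q24376] ⟨c5168, c24375, c24376, trivial⟩ (nd (nat_lit 228) (nat_lit 0) (cs (rf (nat_lit 0)) (cs (rf (nat_lit 1)) (rf (nat_lit 2))))) q24377 (by decide +kernel)
def q24818 : Q := Q.p (nat_lit 0xc00002000000000018000000000000000000000000000000000000000000000000000) (nat_lit 0x40001de00073c0009e0007a0001e4000fb8000400000000000000000000000000000000000000000) (nat_lit 12)
theorem c24818 : QOK q24818 := cut [q24531, q24741, q22087, q22627, q16729, q24804, q24650] ⟨c24531, c24741, c22087, c22627, c16729, c24804, c24650, trivial⟩ (nd (nat_lit 209) (nat_lit 0) (cs (rf (nat_lit 0)) (cs (rf (nat_lit 1)) (cs (nd (nat_lit 210) (nat_lit 0) (cs (rf (nat_lit 2)) (cs (rf (nat_lit 3)) (cs (nd (nat_lit 233) (nat_lit 0) (cs (lf (nat_lit 4) (nat_lit 207)) (nd (nat_lit 211) (nat_lit 0) (cs (lf (nat_lit 5) (nat_lit 208)) (nd (nat_lit 277) (nat_lit 0) (cs (nd (nat_lit 184)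 (nat_lit 0) (cs (lf (nat_lit 22) (nat_lit 184)) (nd (nat_lit 183) (nat_lit 0) (cs (lf (nat_lit 21) (nat_lit 183)) (rf (nat_lit 4)))))) (rf (nat_lit 5)))))))) (nd (nat_lit 277) (nat_lit 0) (cs (rf (nat_lit 5)) (nd (nat_lit 184) (nat_lit 0) (cs (lf (nat_lit 22) (nat_lit 184)) (nd (nat_lit 206) (nat_lit 0) (cs (lf (nat_lit 23) (nat_lit 183)) (nd (nat_lit 188) (nat_lit 0) (cs (lf (nat_lit 16) (nat_lit 184)) (nd (nat_lit 233) (nat_lit 0) (cs (lf (nat_lit 4) (nat_lit 207)) (nd (nat_lit 211) (nat_lit 0) (cs (lf (nat_lit 5) (nat_lit 208)) (lf (nat_lit 43) (nat_lit 188)))))))))))))))))) (nd (nat_lit 231) (nat_lit 0) (cs (lf (nat_lit 41) (nat_lit 208)) (nd (nat_lit 206) (nat_lit 0) (cs (lf (nat_lit 5) (nat_lit 206)) (nd (nat_lit 276) (nat_lit 0) (cs (lf (nat_lit 29) (nat_lit 209)) (rf (nat_lit 6)))))))))))) q24818 (by decide +kernel)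
def q25014 : Q := Q.p (nat_lit 0x80000200000000001c000000000000000000000000000000000000000000000000000) (nat_lit 0x17c0001e000070000630001be0007f0001f80001e00002800000000000000000000000) (nat_lit 12)
theorem c25014 : QOK q25014 := cut [q6790, q23942, q25013] ⟨c6790, c23942, c25013, trivial⟩ (nd (nat_lit 184) (nat_lit 0) (cs (rf (nat_lit 0)) (cs (rf (nat_lit 1)) (rf (nat_lit 2))))) q25014 (by decide +kernel)
def q25297 : Q := Q.p (nat_lit 0xe00002000000000010000000000000000000000000000000000000000000000000000) (nat_lit 0x1400007e0007f8000ff8007fe001ffc0070c0000f0000740000c000010000000000000000000000000000000000000000000000) (nat_lit 16)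
theorem c25297 : QOK q25297 := cut [q22133, q13268, q25105, q25115, q25117, q25186, q25197, q25191, q25198, q25202, q25291, q12819, q12654] ⟨c22133, c13268, c25105, c25115, c25117, c25186, c25197, c25191, c25198, c25202, c25291, c12819, c12654, trivial⟩ (nd (nat_lit 295) (nat_lit 0) (cs (rf (nat_lit 0)) (cs (nd (nat_lit 317) (nat_lit 0) (cs (nd (nat_lit 276) (nat_lit 0) (cs (lf (nat_lit 11) (nat_lit 272)) (nd (nat_lit 342) (nat_lit 0) (cs (rf (nat_lit 1)) (cs (nd (nat_lit 251) (nat_lit 0) (cs (lf (nat_lit 23) (nat_lit 250)) (nd (nat_lit 299) (nat_lit 0) (cs (lf (nat_lit 4) (nat_lit 273)) (nd (nat_lit 229) (nat_lit 0) (cs (lf (nat_lit 34) (nat_lit 207)) (nd (nat_lit 206) (nat_lit 0) (cs (lf (nat_lit 46) (nat_lit 206)) (nd (nat_lit 300) (nat_lit 0) (cs (lf (nat_lit 3) (nat_lit 274)) (nd (nat_lit 340) (nat_lit 0) (cs (lf (nat_lit 28) (nat_lit 251)) (nd (nat_lit 339) (nat_lit 0) (cs (lf (nat_lit 29) (nat_lit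 273)) (nd (nat_lit 341) (nat_lit 0) (cs (lf (nat_lit 23) (nat_lit 316)) (nd (nat_lit 365) (nat_lit 0) (cs (lf (nat_lit 4) (nat_lit 339)) (nd (nat_lit 343) (nat_lit 0) (cs (lf (nat_lit 5) (nat_lit 340)) (nd (nat_lit 321) (nat_lit 0) (cs (lf (nat_lit 35) (nat_lit 277)) (lf (nat_lit 17) (nat_lit 318)))))))))))))))))))))))) (nd (nat_lit 251) (nat_lit 0) (cs (lf (nat_lit 23) (nat_lit 250)) (nd (nat_lit 229) (nat_lit 0) (cs (lf (nat_lit 34) (nat_lit 207)) (nd (nat_lit 206) (nat_lit 0) (cs (lf (nat_lit 46) (nat_lit 206)) (nd (nat_lit 184) (nat_lit 0) (cs (lf (nat_lit 45) (nat_lit 184)) (nd (nat_lit 340) (nat_lit 0) (cs (lf (nat_lit 28) (nat_lit 251)) (nd (nat_lit 339) (nat_lit 0) (cs (lf (nat_lit 29) (nat_lit 273)) (nd (nat_lit 341) (nat_lit 0) (cs (lf (nat_lit 23) (nat_lit 316)) (rf (nat_lit 2))))))))))))))))))))) (cs (nd (nat_lit 251) (nat_lit 0) (cs (rf (nat_lit 3)) (rf (nat_lit 4)))) (cs (nd (nat_lit 276)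 (nat_lit 0) (cs (lf (nat_lit 11) (nat_lit 272)) (nd (nat_lit 251) (nat_lit 0) (cs (lf (nat_lit 23) (nat_lit 250)) (nd (nat_lit 298) (nat_lit 0) (cs (lf (nat_lit 5) (nat_lit 273)) (nd (nat_lit 342) (nat_lit 0) (cs (lf (nat_lit 43) (nat_lit 253)) (nd (nat_lit 229) (nat_lit 0) (cs (lf (nat_lit 34) (nat_lit 207)) (nd (nat_lit 206) (nat_lit 0) (cs (lf (nat_lit 46) (nat_lit 206)) (nd (nat_lit 184) (nat_lit 0) (cs (lf (nat_lit 45) (nat_lit 184)) (nd (nat_lit 340) (nat_lit 0) (cs (lf (nat_lit 28) (nat_lit 251)) (nd (nat_lit 339) (nat_lit 0) (cs (lf (nat_lit 29) (nat_lit 273)) (nd (nat_lit 360) (nat_lit 0) (cs (lf (nat_lit 40) (nat_lit 272)) (nd (nat_lit 361) (nat_lit 0) (cs (lf (nat_lit 41) (nat_lit 294)) (lf (nat_lit 7) (nat_lit 338)))))))))))))))))))))))) (cs (rf (nat_lit 5)) (cs (rf (nat_lit 6)) (nd (nat_lit 339) (nat_lit 0) (cs (rf (nat_lit 7)) (cs (nd (nat_lit 338) (nat_lit 0) (cs (lf (nat_lit 41) (nat_lit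 272)) (rf (nat_lit 8)))) (rf (nat_lit 9))))))))))) (cs (rf (nat_lit 10)) (nd (nat_lit 251) (nat_lit 0) (cs (rf (nat_lit 11)) (cs (nd (nat_lit 229) (nat_lit 0) (cs (lf (nat_lit 34) (nat_lit 207)) (nd (nat_lit 207) (nat_lit 0) (cs (lf (nat_lit 29) (nat_lit 207)) (rf (nat_lit 12)))))) (nd (nat_lit 229) (nat_lit 0) (cs (lf (nat_lit 34) (nat_lit 207)) (nd (nat_lit 296) (nat_lit 0) (cs (lf (nat_lit 29) (nat_lit 229)) (lf (nat_lit 24) (nat_lit 207))))))))))))) q25297 (by decide +kernel)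
def q25400 : Q := Q.p (nat_lit 0xe00002000000000010000000000000000000000000000000000000000000000000000) (nat_lit 0x10000074000ffc001fe0007fc003ff0007180038800006000008000000000000000000000000000000000000000000000000000) (nat_lit 15)
theorem c25400 : QOK q25400 := cut [q12908, q13041, q25311, q25323, q25324, q23412, q25336, q22750, q25331, q25357, q25349, q15586, q25371, q25385, q25388, q25390, q14491, q21929, q23320, q22060, q25398] ⟨c12908, c13041, c25311, c25323, c25324, c23412, c25336, c22750, c25331, c25357, c25349, c15586, c25371, c25385, c25388, c25390, c14491, c21929, c23320, c22060, c25398, trivial⟩ (nd (nat_lit 297) (nat_lit 0) (cs (rf (nat_lit 0)) (cs (rf (nat_lit 1)) (cs (rf (nat_lit 2)) (nd (nat_lit 295) (nat_lit 0) (cs (rf (nat_lit 3)) (cs (nd (nat_lit 340) (nat_lit 0) (cs (rf (nat_lit 4)) (cs (nd (nat_lit 339) (nat_lit 0) (cs (nd (nat_lit 338) (nat_lit 0) (cs (nd (nat_lit 317) (nat_lit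 0) (cs (lf (nat_lit 41) (nat_lit 272)) (nd (nat_lit 296) (nat_lit 0) (cs (lf (nat_lit 30) (nat_lit 273)) (nd (nat_lit 276) (nat_lit 0) (cs (lf (nat_lit 6) (nat_lit 273)) (nd (nat_lit 271) (nat_lit 0) (cs (lf (nat_lit 1) (nat_lit 271)) (nd (nat_lit 251) (nat_lit 0) (cs (lf (nat_lit 40) (nat_lit 250)) (rf (nat_lit 5)))))))))))) (cs (rf (nat_lit 6)) (cs (nd (nat_lit 341) (nat_lit 0) (cs (rf (nat_lit 7)) (rf (nat_lit 8)))) (nd (nat_lit 360) (nat_lit 0) (cs (nd (nat_lit 341) (nat_lit 0) (cs (lf (nat_lit 11) (nat_lit 337)) (nd (nat_lit 319) (nat_lit 0) (cs (lf (nat_lit 17) (nat_lit 316)) (nd (nat_lit 364) (nat_lit 0) (cs (lf (nat_lit 28) (nat_lit 275)) (lf (nat_lit 4) (nat_lit 338)))))))) (lf (nat_lit 38) (nat_lit 272)))))))) (cs (rf (nat_lit 9)) (cs (nd (nat_lit 341) (nat_lit 0) (cs (rf (nat_lit 10)) (cs (nd (nat_lit 319) (nat_lit 0) (cs (lf (nat_lit 41) (nat_lit 274)) (nd (nat_lit 296) (nat_lit 0) (cs (lf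 (nat_lit 42) (nat_lit 274)) (nd (nat_lit 276) (nat_lit 0) (cs (lf (nat_lit 6) (nat_lit 273)) (nd (nat_lit 271) (nat_lit 0) (cs (lf (nat_lit 1) (nat_lit 271)) (nd (nat_lit 338) (nat_lit 0) (cs (lf (nat_lit 17) (nat_lit 316)) (nd (nat_lit 315) (nat_lit 0) (cs (lf (nat_lit 22) (nat_lit 315)) (nd (nat_lit 337) (nat_lit 0) (cs (lf (nat_lit 23) (nat_lit 314)) (nd (nat_lit 360) (nat_lit 0) (cs (lf (nat_lit 11) (nat_lit 337)) (lf (nat_lit 25) (nat_lit 271)))))))))))))))))) (cs (nd (nat_lit 338) (nat_lit 0) (cs (rf (nat_lit 11)) (cs (rf (nat_lit 7)) (nd (nat_lit 360) (nat_lit 0) (cs (lf (nat_lit 11) (nat_lit 337)) (nd (nat_lit 363) (nat_lit 0) (cs (lf (nat_lit 5) (nat_lit 338)) (rf (nat_lit 12))))))))) (nd (nat_lit 319) (nat_lit 0) (cs (lf (nat_lit 41) (nat_lit 274)) (nd (nat_lit 296) (nat_lit 0) (cs (lf (nat_lit 42) (nat_lit 274)) (nd (nat_lit 276) (nat_lit 0) (cs (lf (nat_lit 6) (nat_lit 273)) (nd (nat_lit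 271) (nat_lit 0) (cs (lf (nat_lit 1) (nat_lit 271)) (nd (nat_lit 342) (nat_lit 0) (cs (lf (nat_lit 29) (nat_lit 275)) (nd (nat_lit 360) (nat_lit 0) (cs (lf (nat_lit 10) (nat_lit 338)) (nd (nat_lit 338) (nat_lit 0) (cs (lf (nat_lit 11) (nat_lit 337)) (nd (nat_lit 315) (nat_lit 0) (cs (lf (nat_lit 22) (nat_lit 315)) (nd (nat_lit 337) (nat_lit 0) (cs (lf (nat_lit 23) (nat_lit 314)) (lf (nat_lit 25) (nat_lit 271)))))))))))))))))))))))) (cs (rf (nat_lit 13)) (rf (nat_lit 14))))))) (cs (nd (nat_lit 318) (nat_lit 0) (cs (lf (nat_lit 39) (nat_lit 252)) (rf (nat_lit 15)))) (nd (nat_lit 318) (nat_lit 0) (cs (lf (nat_lit 32) (nat_lit 252)) (rf (nat_lit 15)))))))) (cs (nd (nat_lit 319) (nat_lit 0) (cs (rf (nat_lit 16)) (cs (rf (nat_lit 17)) (cs (rf (nat_lit 18)) (nd (nat_lit 340) (nat_lit 0) (cs (lf (nat_lit 40) (nat_lit 252)) (nd (nat_lit 341) (nat_lit 0) (cs (lf (nat_lit 41) (nat_lit 274)) (nd (nat_lit 296) (nat_lit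 0) (cs (lf (nat_lit 42) (nat_lit 274)) (rf (nat_lit 19)))))))))))) (rf (nat_lit 20)))))))))) q25400 (by decide +kernel)
def q25558 : Q := Q.p (nat_lit 0xc00002000000000010000000000000000000000000000000000000000000000000000) (nat_lit 0x700003c000ffe001ff000ffe003df00073e0039fc00278000ee0001b80000a0000000000000000000000000000000000000000) (nat_lit 17)
theorem c25558 : QOK q25558 := cut [q22132, q22802, q22821, q22901, q22118, q22798, q25467, q15516, q22657, q13268, q13309, q15588, q22744, q22752, q22758, q22741, q25476, q25479, q13312, q25486, q25398, q22314, q22764, q25509, q25514, q25518, q25522, q25532, q25549, q25552, q25556] ⟨c22132, c22802, c22821, c22901, c22118, c22798, c25467, c15516, c22657, c13268, c13309, c15588, c22744, c22752, c22758, c22741, c25476, c25479, c13312, c25486, c25398, c22314, c22764, c25509, c25514, c25518, c25522, c25532, c25549, c25552, c25556, trivial⟩ (nd (nat_lit 273)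 (nat_lit 0) (cs (rf (nat_lit 0)) (cs (rf (nat_lit 1)) (cs (rf (nat_lit 2)) (cs (rf (nat_lit 3)) (cs (nd (nat_lit 276) (nat_lit 0) (cs (rf (nat_lit 4)) (cs (rf (nat_lit 5)) (rf (nat_lit 6))))) (cs (nd (nat_lit 276) (nat_lit 0) (cs (rf (nat_lit 7)) (cs (rf (nat_lit 4)) (cs (rf (nat_lit 8)) (nd (nat_lit 340) (nat_lit 0) (cs (nd (nat_lit 318) (nat_lit 0) (cs (lf (nat_lit 32) (nat_lit 252)) (nd (nat_lit 295) (nat_lit 0) (cs (lf (nat_lit 11) (nat_lit 272)) (nd (nat_lit 230) (nat_lit 0) (cs (lf (nat_lit 38) (nat_lit 207)) (nd (nat_lit 251) (nat_lit 0) (cs (lf (nat_lit 33) (nat_lit 207)) (lf (nat_lit 27) (nat_lit 251)))))))))) (cs (nd (nat_lit 342) (nat_lit 0) (cs (rf (nat_lit 9)) (nd (nat_lit 341) (nat_lit 0) (cs (nd (nat_lit 318) (nat_lit 0) (cs (lf (nat_lit 32) (nat_lit 252)) (rf (nat_lit 10)))) (cs (nd (nat_lit 339) (nat_lit 0) (cs (rf (nat_lit 11)) (cs (rf (nat_lit 12)) (cs (rf (nat_lit 13)) (rf (nat_lit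 14)))))) (cs (nd (nat_lit 339) (nat_lit 0) (cs (rf (nat_lit 15)) (cs (rf (nat_lit 16)) (cs (rf (nat_lit 17)) (nd (nat_lit 318) (nat_lit 0) (cs (lf (nat_lit 32) (nat_lit 252)) (rf (nat_lit 18)))))))) (nd (nat_lit 318) (nat_lit 0) (cs (lf (nat_lit 32) (nat_lit 252)) (nd (nat_lit 343) (nat_lit 0) (cs (rf (nat_lit 19)) (lf (nat_lit 23) (nat_lit 317)))))))))))) (cs (nd (nat_lit 295) (nat_lit 0) (cs (rf (nat_lit 20)) (nd (nat_lit 252) (nat_lit 0) (cs (rf (nat_lit 21)) (nd (nat_lit 342) (nat_lit 0) (cs (rf (nat_lit 9)) (nd (nat_lit 339) (nat_lit 0) (cs (lf (nat_lit 31) (nat_lit 251)) (rf (nat_lit 22)))))))))) (cs (nd (nat_lit 294) (nat_lit 0) (cs (lf (nat_lit 10) (nat_lit 272)) (nd (nat_lit 272) (nat_lit 0) (cs (lf (nat_lit 11) (nat_lit 271)) (nd (nat_lit 271) (nat_lit 0) (cs (lf (nat_lit 16) (nat_lit 249)) (nd (nat_lit 249) (nat_lit 0) (cs (lf (nat_lit 23) (nat_lit 248)) (nd (nat_lit 227) (nat_lit 0) (cs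 (lf (nat_lit 24) (nat_lit 205)) (nd (nat_lit 318) (nat_lit 0) (cs (lf (nat_lit 32) (nat_lit 252)) (nd (nat_lit 338) (nat_lit 0) (cs (lf (nat_lit 43) (nat_lit 249)) (nd (nat_lit 339) (nat_lit 0) (cs (nd (nat_lit 298) (nat_lit 0) (cs (lf (nat_lit 5) (nat_lit 273)) (nd (nat_lit 320) (nat_lit 0) (cs (lf (nat_lit 42) (nat_lit 253)) (nd (nat_lit 319) (nat_lit 0) (cs (lf (nat_lit 12) (nat_lit 315)) (lf (nat_lit 6) (nat_lit 317)))))))) (cs (nd (nat_lit 298) (nat_lit 0) (cs (lf (nat_lit 5) (nat_lit 273)) (nd (nat_lit 320) (nat_lit 0) (cs (lf (nat_lit 42) (nat_lit 253)) (nd (nat_lit 319) (nat_lit 0) (cs (lf (nat_lit 15) (nat_lit 316)) (lf (nat_lit 6) (nat_lit 317)))))))) (cs (nd (nat_lit 337) (nat_lit 0) (cs (rf (nat_lit 23)) (cs (nd (nat_lit 298) (nat_lit 0) (cs (lf (nat_lit 5) (nat_lit 273)) (rf (nat_lit 24)))) (nd (nat_lit 298) (nat_lit 0) (cs (lf (nat_lit 5) (nat_lit 273)) (rf (nat_lit 25))))))) (rf (nat_lit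 26)))))))))))))))))))) (nd (nat_lit 298) (nat_lit 0) (cs (lf (nat_lit 5) (nat_lit 273)) (nd (nat_lit 320) (nat_lit 0) (cs (lf (nat_lit 42) (nat_lit 253)) (nd (nat_lit 295) (nat_lit 0) (cs (lf (nat_lit 11) (nat_lit 272)) (nd (nat_lit 230) (nat_lit 0) (cs (lf (nat_lit 38) (nat_lit 207)) (nd (nat_lit 251) (nat_lit 0) (cs (lf (nat_lit 33) (nat_lit 207)) (rf (nat_lit 27))))))))))))))))))))) (nd (nat_lit 252) (nat_lit 0) (cs (rf (nat_lit 21)) (cs (rf (nat_lit 28)) (cs (rf (nat_lit 29)) (rf (nat_lit 30))))))))))))) q25558 (by decide +kernel)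
def q25697 : Q := Q.p (nat_lit 0xc00002000000000010000000000000000000000000000000000000000000000000000) (nat_lit 0x80000340003ff000ff8007f700073c0019e00027e000ef8003bf0000e0000380000000000000000000000000000000000) (nat_lit 14)
theorem c25697 : QOK q25697 := cut [q25611, q11503, q25614, q1257, q14689, q24671, q14973, q23658, q18354, q25622, q25629, q25639, q25641, q25645, q4164, q700, q1999, q11487, q5376, q12242, q25656, q13232, q25463, q13163, q13173, q13164, q25661, q25666, q25672, q25675, q25690] ⟨c25611, c11503, c25614, c1257, c14689, c24671, c14973, c23658, c18354, c25622, c25629, c25639, c25641, c25645, c4164, c700, c1999, c11487, c5376, c12242, c25656, c13232, c25463, c13163, c13173, c13164, c25661, c25666, c25672, c25675, c25690, trivial⟩ (nd (nat_lit 252) (nat_lit 0) (cs (rf (nat_lit 0)) (cs (nd (nat_lit 207) (nat_lit 0) (cs (rf (nat_lit 1)) (cs (rf (nat_lit 2)) (cs (nd (nat_lit 276) (nat_lit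 0) (cs (rf (nat_lit 3)) (cs (rf (nat_lit 4)) (nd (nat_lit 206) (nat_lit 0) (cs (rf (nat_lit 5)) (cs (nd (nat_lit 250) (nat_lit 0) (cs (rf (nat_lit 6)) (nd (nat_lit 185) (nat_lit 0) (cs (lf (nat_lit 44) (nat_lit 185)) (rf (nat_lit 7)))))) (cs (nd (nat_lit 205) (nat_lit 0) (cs (rf (nat_lit 8)) (cs (nd (nat_lit 250) (nat_lit 0) (cs (lf (nat_lit 1) (nat_lit 250)) (nd (nat_lit 183) (nat_lit 0) (cs (lf (nat_lit 23) (nat_lit 182)) (nd (nat_lit 184) (nat_lit 0) (cs (lf (nat_lit 18) (nat_lit 183)) (nd (nat_lit 228) (nat_lit 0) (cs (lf (nat_lit 47) (nat_lit 161)) (lf (nat_lit 42) (nat_lit 183)))))))))) (nd (nat_lit 250) (nat_lit 0) (cs (lf (nat_lit 1) (nat_lit 250)) (rf (nat_lit 9))))))) (cs (nd (nat_lit 205) (nat_lit 0) (cs (rf (nat_lit 8)) (cs (nd (nat_lit 250) (nat_lit 0) (cs (lf (nat_lit 1) (nat_lit 250)) (rf (nat_lit 10)))) (cs (rf (nat_lit 11)) (nd (nat_lit 250) (nat_lit 0) (cs (lf (nat_lit 1) (nat_lit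 250)) (rf (nat_lit 12)))))))) (cs (rf (nat_lit 13)) (nd (nat_lit 250) (nat_lit 0) (cs (rf (nat_lit 6)) (nd (nat_lit 185) (nat_lit 0) (cs (lf (nat_lit 44) (nat_lit 185)) (nd (nat_lit 228) (nat_lit 0) (cs (lf (nat_lit 30) (nat_lit 184)) (nd (nat_lit 141) (nat_lit 0) (cs (lf (nat_lit 37) (nat_lit 140)) (rf (nat_lit 14))))))))))))))))))) (nd (nat_lit 276) (nat_lit 0) (cs (rf (nat_lit 15)) (cs (rf (nat_lit 4)) (nd (nat_lit 251) (nat_lit 0) (cs (rf (nat_lit 16)) (nd (nat_lit 229) (nat_lit 0) (cs (rf (nat_lit 17)) (cs (nd (nat_lit 228) (nat_lit 0) (cs (rf (nat_lit 18)) (cs (nd (nat_lit 227) (nat_lit 0) (cs (lf (nat_lit 12) (nat_lit 204)) (lf (nat_lit 3) (nat_lit 227)))) (nd (nat_lit 209) (nat_lit 0) (cs (lf (nat_lit 6) (nat_lit 206)) (nd (nat_lit 187) (nat_lit 0) (cs (lf (nat_lit 32) (nat_lit 186)) (nd (nat_lit 206) (nat_lit 0) (cs (lf (nat_lit 17) (nat_lit 184)) (rf (nat_lit 19))))))))))) (rf (nat_lit 20))))))))))))))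 (cs (nd (nat_lit 318) (nat_lit 0) (cs (rf (nat_lit 21)) (cs (rf (nat_lit 22)) (cs (nd (nat_lit 276) (nat_lit 0) (cs (rf (nat_lit 15)) (cs (rf (nat_lit 4)) (nd (nat_lit 319) (nat_lit 0) (cs (rf (nat_lit 23)) (cs (rf (nat_lit 24)) (cs (nd (nat_lit 320) (nat_lit 0) (cs (rf (nat_lit 25)) (cs (nd (nat_lit 250) (nat_lit 0) (cs (lf (nat_lit 1) (nat_lit 250)) (nd (nat_lit 342) (nat_lit 0) (cs (lf (nat_lit 26) (nat_lit 253)) (nd (nat_lit 317) (nat_lit 0) (cs (lf (nat_lit 5) (nat_lit 317)) (rf (nat_lit 26)))))))) (cs (nd (nat_lit 251) (nat_lit 0) (cs (lf (nat_lit 0) (nat_lit 250)) (nd (nat_lit 296) (nat_lit 0) (cs (lf (nat_lit 47) (nat_lit 229)) (nd (nat_lit 317) (nat_lit 0) (cs (lf (nat_lit 41) (nat_lit 251)) (nd (nat_lit 298) (nat_lit 0) (cs (lf (nat_lit 17) (nat_lit 295)) (nd (nat_lit 316) (nat_lit 0) (cs (lf (nat_lit 16) (nat_lit 294)) (rf (nat_lit 27)))))))))))) (rf (nat_lit 28)))))) (rf (nat_lit 29)))))))))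 (rf (nat_lit 30)))))) (nd (nat_lit 230) (nat_lit 0) (cs (lf (nat_lit 29) (nat_lit 208)) (nd (nat_lit 209) (nat_lit 0) (cs (lf (nat_lit 35) (nat_lit 186)) (nd (nat_lit 207) (nat_lit 0) (cs (lf (nat_lit 47) (nat_lit 185)) (nd (nat_lit 229) (nat_lit 0) (cs (lf (nat_lit 42) (nat_lit 207)) (nd (nat_lit 228) (nat_lit 0) (cs (lf (nat_lit 12) (nat_lit 205)) (lf (nat_lit 6) (nat_lit 206)))))))))))))))) q25697 (by decide +kernel)
def q25886 : Q := Q.p (nat_lit 0xc00003000000000010000000000000000000000000000000000000000000000000000) (nat_lit 0x20001f8001fe0007f8001ff00003e0000f0000380002e0000380000a0000000000000000000000000000000000000000) (nat_lit 16)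
theorem c25886 : QOK q25886 := cut [q25793, q15961, q25570, q25587, q25581, q15846, q22343, q25863, q12906, q14354, q14914, q22143, q14920, q14310, q22195, q22817, q15073, q25805, q14320, q14984, q25851, q25883, q14360] ⟨c25793, c15961, c25570, c25587, c25581, c15846, c22343, c25863, c12906, c14354, c14914, c22143, c14920, c14310, c22195, c22817, c15073, c25805, c14320, c14984, c25851, c25883, c14360, trivial⟩ (nd (nat_lit 296) (nat_lit 0) (cs (rf (nat_lit 0)) (cs (nd (nat_lit 251) (nat_lit 0) (cs (rf (nat_lit 1)) (cs (nd (nat_lit 273) (nat_lit 0) (cs (rf (nat_lit 2)) (cs (rf (nat_lit 3)) (cs (nd (nat_lit 272) (nat_lit 0) (cs (lf (nat_lit 12) (nat_lit 249)) (nd (nat_lit 229) (nat_lit 0) (cs (lf (nat_lit 24) (nat_lit 207)) (nd (nat_lit 294) (nat_lit 0) (cs (lf (nat_lit 11) (nat_lit 271)) (nd (nat_lit 316) (nat_lit 0) (cs (lf (nat_lit 30) (nat_lit 250)) (lf (nat_lit 39) (nat_lit 228)))))))))) (nd (nat_lit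 272) (nat_lit 0) (cs (lf (nat_lit 12) (nat_lit 249)) (nd (nat_lit 250) (nat_lit 0) (cs (lf (nat_lit 23) (nat_lit 249)) (rf (nat_lit 4)))))))))) (nd (nat_lit 250) (nat_lit 0) (cs (lf (nat_lit 0) (nat_lit 249)) (nd (nat_lit 317) (nat_lit 0) (cs (rf (nat_lit 5)) (rf (nat_lit 6))))))))) (cs (rf (nat_lit 7)) (cs (nd (nat_lit 297) (nat_lit 0) (cs (rf (nat_lit 8)) (cs (rf (nat_lit 9)) (cs (rf (nat_lit 10)) (nd (nat_lit 273) (nat_lit 0) (cs (rf (nat_lit 11)) (cs (nd (nat_lit 318) (nat_lit 0) (cs (lf (nat_lit 30) (nat_lit 252)) (nd (nat_lit 229) (nat_lit 0) (cs (lf (nat_lit 46) (nat_lit 229)) (nd (nat_lit 299) (nat_lit 0) (cs (lf (nat_lit 19) (nat_lit 273)) (rf (nat_lit 12)))))))) (nd (nat_lit 272) (nat_lit 0) (cs (rf (nat_lit 13)) (cs (rf (nat_lit 14)) (nd (nat_lit 250) (nat_lit 0) (cs (lf (nat_lit 23) (nat_lit 249)) (nd (nat_lit 228) (nat_lit 0) (cs (rf (nat_lit 15)) (cs (nd (nat_lit 318) (nat_lit 0) (cs (lf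 (nat_lit 30) (nat_lit 252)) (nd (nat_lit 251) (nat_lit 0) (cs (lf (nat_lit 23) (nat_lit 227)) (lf (nat_lit 47) (nat_lit 229)))))) (cs (nd (nat_lit 318) (nat_lit 0) (cs (lf (nat_lit 30) (nat_lit 252)) (nd (nat_lit 294) (nat_lit 0) (cs (lf (nat_lit 11) (nat_lit 271)) (rf (nat_lit 16)))))) (nd (nat_lit 294) (nat_lit 0) (cs (lf (nat_lit 11) (nat_lit 271)) (nd (nat_lit 207) (nat_lit 0) (cs (lf (nat_lit 34) (nat_lit 206)) (nd (nat_lit 206) (nat_lit 0) (cs (lf (nat_lit 35) (nat_lit 184)) (nd (nat_lit 318) (nat_lit 0) (cs (lf (nat_lit 30) (nat_lit 252)) (nd (nat_lit 319) (nat_lit 0) (cs (lf (nat_lit 29) (nat_lit 252)) (nd (nat_lit 184) (nat_lit 0) (cs (lf (nat_lit 28) (nat_lit 184)) (rf (nat_lit 17)))))))))))))))))))))))))))))) (cs (nd (nat_lit 297) (nat_lit 0) (cs (rf (nat_lit 8)) (cs (rf (nat_lit 18)) (cs (rf (nat_lit 19)) (rf (nat_lit 20)))))) (cs (nd (nat_lit 297) (nat_lit 0) (cs (rf (nat_lit 8)) (cs (rf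 (nat_lit 10)) (cs (rf (nat_lit 20)) (rf (nat_lit 21)))))) (nd (nat_lit 297) (nat_lit 0) (cs (rf (nat_lit 8)) (cs (rf (nat_lit 22)) (rf (nat_lit 10)))))))))))) q25886 (by decide +kernel)
def q25947 : Q := Q.p (nat_lit 0xc00002000000000010000000000000000000000000000000000000000000000000000) (nat_lit 0x100000600001c0003fe000ff8007ff000f380039800006000000000000000000000000000000000000000000000000000000000) (nat_lit 14)
theorem c25947 : QOK q25947 := cut [q22014, q23235, q25897, q25903, q13048, q21929, q25915, q12908, q13041, q25898, q22118, q1257, q25922, q25925, q23320, q25323, q25935, q25939, q25311] ⟨c22014, c23235, c25897, c25903, c13048, c21929, c25915, c12908, c13041, c25898, c22118, c1257, c25922, c25925, c23320, c25323, c25935, c25939, c25311, trivial⟩ (nd (nat_lit 297) (nat_lit 0) (cs (rf (nat_lit 0)) (cs (rf (nat_lit 1)) (cs (rf (nat_lit 2)) (cs (rf (nat_lit 3)) (cs (nd (nat_lit 319) (nat_lit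 0) (cs (rf (nat_lit 4)) (cs (rf (nat_lit 5)) (rf (nat_lit 6))))) (cs (nd (nat_lit 273) (nat_lit 0) (cs (rf (nat_lit 7)) (cs (rf (nat_lit 8)) (cs (rf (nat_lit 9)) (nd (nat_lit 276) (nat_lit 0) (cs (rf (nat_lit 10)) (cs (nd (nat_lit 252) (nat_lit 0) (cs (rf (nat_lit 11)) (lf (nat_lit 25) (nat_lit 208)))) (rf (nat_lit 12))))))))) (cs (rf (nat_lit 13)) (cs (nd (nat_lit 273) (nat_lit 0) (cs (rf (nat_lit 7)) (cs (rf (nat_lit 8)) (cs (rf (nat_lit 9)) (nd (nat_lit 319) (nat_lit 0) (cs (rf (nat_lit 4)) (cs (rf (nat_lit 14)) (nd (nat_lit 318) (nat_lit 0) (cs (lf (nat_lit 41) (nat_lit 252)) (nd (nat_lit 295) (nat_lit 0) (cs (rf (nat_lit 15)) (cs (nd (nat_lit 276) (nat_lit 0) (cs (lf (nat_lit 11) (nat_lit 272)) (nd (nat_lit 298) (nat_lit 0) (cs (lf (nat_lit 5) (nat_lit 273)) (nd (nat_lit 316) (nat_lit 0) (cs (lf (nat_lit 13) (nat_lit 294)) (nd (nat_lit 252) (nat_lit 0) (cs (rf (nat_lit 11)) (lf (nat_lit 47) (nat_lit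 230)))))))))) (cs (nd (nat_lit 252) (nat_lit 0) (cs (lf (nat_lit 47) (nat_lit 230)) (nd (nat_lit 317) (nat_lit 0) (cs (lf (nat_lit 30) (nat_lit 251)) (rf (nat_lit 16)))))) (nd (nat_lit 230) (nat_lit 0) (cs (lf (nat_lit 46) (nat_lit 230)) (nd (nat_lit 229) (nat_lit 0) (cs (lf (nat_lit 32) (nat_lit 207)) (rf (nat_lit 17))))))))))))))))))) (nd (nat_lit 273) (nat_lit 0) (cs (rf (nat_lit 8)) (cs (rf (nat_lit 18)) (rf (nat_lit 9)))))))))))))) q25947 (by decide +kernel)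
def q26018 : Q := Q.p (nat_lit 0x200000c00002000000000010000000000000000000000000000000000000000000000000000) (nat_lit 0x440001fc0007e0000fc007df000f380039700005000004000000000000000000000000000000000000000000000000000) (nat_lit 11)
theorem c26018 : QOK q26018 := cut [q12908, q14709, q22143, q25323, q25939, q25986, q25324, q25385, q15586, q26001, q26009, q13048, q23320, q23481, q25932] ⟨c12908, c14709, c22143, c25323, c25939, c25986, c25324, c25385, c15586, c26001, c26009, c13048, c23320, c23481, c25932, trivial⟩ (nd (nat_lit 273) (nat_lit 0) (cs (rf (nat_lit 0)) (cs (rf (nat_lit 1)) (cs (rf (nat_lit 2)) (nd (nat_lit 295) (nat_lit 0) (cs (rf (nat_lit 3)) (cs (rf (nat_lit 4)) (cs (nd (nat_lit 276) (nat_lit 0) (cs (lf (nat_lit 11) (nat_lit 272)) (nd (nat_lit 298) (nat_lit 0) (cs (lf (nat_lit 5) (nat_lit 273)) (nd (nat_lit 252) (nat_lit 0) (cs (lf (nat_lit 25) (nat_lit 208)) (rf (nat_lit 5)))))))) (cs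 (nd (nat_lit 340) (nat_lit 0) (cs (rf (nat_lit 6)) (cs (nd (nat_lit 252) (nat_lit 0) (cs (lf (nat_lit 25) (nat_lit 208)) (nd (nat_lit 319) (nat_lit 0) (cs (lf (nat_lit 42) (nat_lit 252)) (lf (nat_lit 40) (nat_lit 252)))))) (cs (nd (nat_lit 341) (nat_lit 0) (cs (nd (nat_lit 252) (nat_lit 0) (cs (lf (nat_lit 37) (nat_lit 207)) (lf (nat_lit 43) (nat_lit 252)))) (cs (nd (nat_lit 319) (nat_lit 0) (cs (lf (nat_lit 41) (nat_lit 274)) (nd (nat_lit 296) (nat_lit 0) (cs (lf (nat_lit 42) (nat_lit 274)) (nd (nat_lit 294) (nat_lit 0) (cs (lf (nat_lit 12) (nat_lit 271)) (nd (nat_lit 342) (nat_lit 0) (cs (lf (nat_lit 29) (nat_lit 275)) (nd (nat_lit 316) (nat_lit 0) (cs (lf (nat_lit 11) (nat_lit 293)) (nd (nat_lit 298) (nat_lit 0) (cs (lf (nat_lit 18) (nat_lit 273)) (lf (nat_lit 10) (nat_lit 294)))))))))))))) (nd (nat_lit 339) (nat_lit 0) (cs (rf (nat_lit 7)) (cs (nd (nat_lit 338) (nat_lit 0) (cs (rf (nat_lit 8)) (cs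 (nd (nat_lit 230) (nat_lit 0) (cs (lf (nat_lit 26) (nat_lit 208)) (rf (nat_lit 9)))) (nd (nat_lit 316) (nat_lit 0) (cs (lf (nat_lit 23) (nat_lit 315)) (nd (nat_lit 360) (nat_lit 0) (cs (lf (nat_lit 11) (nat_lit 337)) (lf (nat_lit 33) (nat_lit 272))))))))) (nd (nat_lit 252) (nat_lit 0) (cs (lf (nat_lit 37) (nat_lit 207)) (lf (nat_lit 31) (nat_lit 251)))))))))) (nd (nat_lit 230) (nat_lit 0) (cs (lf (nat_lit 38) (nat_lit 207)) (nd (nat_lit 296) (nat_lit 0) (cs (lf (nat_lit 31) (nat_lit 252)) (nd (nat_lit 298) (nat_lit 0) (cs (lf (nat_lit 18) (nat_lit 273)) (nd (nat_lit 293) (nat_lit 0) (cs (lf (nat_lit 13) (nat_lit 271)) (rf (nat_lit 10)))))))))))))) (nd (nat_lit 319) (nat_lit 0) (cs (rf (nat_lit 11)) (cs (rf (nat_lit 12)) (nd (nat_lit 318) (nat_lit 0) (cs (rf (nat_lit 13)) (nd (nat_lit 252) (nat_lit 0) (cs (lf (nat_lit 47) (nat_lit 230)) (rf (nat_lit 14)))))))))))))))))) q26018 (by decide +kernel)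
def q26048 : Q := Q.p (nat_lit 0xc00002000000000010000000000000000000000000000000000000000000000000000) (nat_lit 0x180001e0000780003f00073c0001f000078000ee0000b80000a0000000000000000000000000000000000000000) (nat_lit 13)
theorem c26048 : QOK q26048 := cut [q22349, q14708, q14866, q22821, q25552, q25594, q5304, q25570, q22344, q26031, q2279, q13430] ⟨c22349, c14708, c14866, c22821, c25552, c25594, c5304, c25570, c22344, c26031, c2279, c13430, trivial⟩ (nd (nat_lit 252) (nat_lit 0) (cs (rf (nat_lit 0)) (cs (nd (nat_lit 273) (nat_lit 0) (cs (rf (nat_lit 1)) (cs (rf (nat_lit 2)) (cs (rf (nat_lit 3)) (cs (rf (nat_lit 4)) (cs (rf (nat_lit 5)) (nd (nat_lit 251) (nat_lit 0) (cs (rf (nat_lit 6)) (cs (rf (nat_lit 7)) (nd (nat_lit 276) (nat_lit 0) (cs (lf (nat_lit 18) (nat_lit 251)) (rf (nat_lit 8))))))))))))) (cs (nd (nat_lit 230) (nat_lit 0) (cs (lf (nat_lit 29) (nat_lit 208)) (nd (nat_lit 187) (nat_lit 0) (cs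 (lf (nat_lit 34) (nat_lit 186)) (nd (nat_lit 273) (nat_lit 0) (cs (lf (nat_lit 41) (nat_lit 207)) (nd (nat_lit 272) (nat_lit 0) (cs (lf (nat_lit 12) (nat_lit 249)) (nd (nat_lit 250) (nat_lit 0) (cs (lf (nat_lit 23) (nat_lit 249)) (nd (nat_lit 294) (nat_lit 0) (cs (lf (nat_lit 11) (nat_lit 271)) (rf (nat_lit 9)))))))))))))) (nd (nat_lit 250) (nat_lit 0) (cs (rf (nat_lit 10)) (cs (nd (nat_lit 230) (nat_lit 0) (cs (lf (nat_lit 29) (nat_lit 208)) (nd (nat_lit 187) (nat_lit 0) (cs (lf (nat_lit 34) (nat_lit 186)) (nd (nat_lit 185) (nat_lit 0) (cs (lf (nat_lit 46) (nat_lit 185)) (rf (nat_lit 11)))))))) (nd (nat_lit 230) (nat_lit 0) (cs (lf (nat_lit 29) (nat_lit 208)) (nd (nat_lit 187) (nat_lit 0) (cs (lf (nat_lit 34) (nat_lit 186)) (nd (nat_lit 185) (nat_lit 0) (cs (lf (nat_lit 46) (nat_lit 185)) (nd (nat_lit 276) (nat_lit 0) (cs (lf (nat_lit 1) (nat_lit 250)) (nd (nat_lit 295) (nat_lit 0) (cs (lf (nat_lit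 40) (nat_lit 207)) (nd (nat_lit 277) (nat_lit 0) (cs (lf (nat_lit 18) (nat_lit 252)) (lf (nat_lit 10) (nat_lit 273))))))))))))))))))))) q26048 (by decide +kernel)
def q26313 : Q := Q.p (nat_lit 0x800002400000000004000000000000000000000000000000000000000000000000000) (nat_lit 0x40000180000f80013e0001b8001fc000020000380000e0000280000000000000000000000000000000000) (nat_lit 11)
theorem c26313 : QOK q26313 := cut [q23544, q23596, q2074, q26276, q17375, q17432, q25590] ⟨c23544, c23596, c2074, c26276, c17375, c17432, c25590, trivial⟩ (nd (nat_lit 251) (nat_lit 0) (cs (rf (nat_lit 0)) (cs (rf (nat_lit 1)) (nd (nat_lit 228) (nat_lit 0) (cs (rf (nat_lit 2)) (cs (rf (nat_lit 3)) (nd (nat_lit 272) (nat_lit 0) (cs (rf (nat_lit 4)) (cs (nd (nat_lit 205) (nat_lit 0) (cs (lf (nat_lit 47) (nat_lit 183)) (nd (nat_lit 271) (nat_lit 0) (cs (lf (nat_lit 41) (nat_lit 205)) (nd (nat_lit 270) (nat_lit 0) (cs (lf (nat_lit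 12) (nat_lit 247)) (nd (nat_lit 273) (nat_lit 0) (cs (lf (nat_lit 29) (nat_lit 206)) (nd (nat_lit 292) (nat_lit 0) (cs (lf (nat_lit 11) (nat_lit 269)) (nd (nat_lit 248) (nat_lit 0) (cs (lf (nat_lit 23) (nat_lit 247)) (rf (nat_lit 5)))))))))))))) (cs (nd (nat_lit 273) (nat_lit 0) (cs (lf (nat_lit 29) (nat_lit 206)) (nd (nat_lit 205) (nat_lit 0) (cs (lf (nat_lit 47) (nat_lit 183)) (nd (nat_lit 294) (nat_lit 0) (cs (lf (nat_lit 46) (nat_lit 205)) (rf (nat_lit 6)))))))) (nd (nat_lit 273) (nat_lit 0) (cs (lf (nat_lit 29) (nat_lit 206)) (nd (nat_lit 293) (nat_lit 0) (cs (lf (nat_lit 40) (nat_lit 205)) (nd (nat_lit 294) (nat_lit 0) (cs (lf (nat_lit 41) (nat_lit 227)) (rf (nat_lit 6)))))))))))))))))) q26313 (by decide +kernel)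
def q26357 : Q := Q.p (nat_lit 0x800002400000000004000000000000000000000000000000000000000000000000000) (nat_lit 0x60000180000780017e0001b8001ff00003c0003c0000e0000280000000000000000000000000000000000) (nat_lit 12)
theorem c26357 : QOK q26357 := cut [q15215, q23596, q26066, q2074, q26276, q17375, q26330, q26337, q17142] ⟨c15215, c23596, c26066, c2074, c26276, c17375, c26330, c26337, c17142, trivial⟩ (nd (nat_lit 251) (nat_lit 0) (cs (rf (nat_lit 0)) (cs (rf (nat_lit 1)) (cs (rf (nat_lit 2)) (nd (nat_lit 228) (nat_lit 0) (cs (rf (nat_lit 3)) (cs (rf (nat_lit 4)) (nd (nat_lit 272) (nat_lit 0) (cs (rf (nat_lit 5)) (cs (nd (nat_lit 205) (nat_lit 0) (cs (lf (nat_lit 47) (nat_lit 183)) (nd (nat_lit 294) (nat_lit 0) (cs (lf (nat_lit 46) (nat_lit 205)) (nd (nat_lit 316) (nat_lit 0) (cs (lf (nat_lit 35) (nat_lit 228)) (nd (nat_lit 315) (nat_lit 0) (cs (lf (nat_lit 41) (nat_lit 249)) (nd (nat_lit 273) (nat_lit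 0) (cs (lf (nat_lit 30) (nat_lit 250)) (rf (nat_lit 6)))))))))))) (cs (nd (nat_lit 293) (nat_lit 0) (cs (lf (nat_lit 40) (nat_lit 205)) (nd (nat_lit 294) (nat_lit 0) (cs (lf (nat_lit 41) (nat_lit 227)) (rf (nat_lit 7)))))) (nd (nat_lit 205) (nat_lit 0) (cs (lf (nat_lit 47) (nat_lit 183)) (nd (nat_lit 271) (nat_lit 0) (cs (lf (nat_lit 41) (nat_lit 205)) (nd (nat_lit 249) (nat_lit 0) (cs (nd (nat_lit 273) (nat_lit 0) (cs (lf (nat_lit 19) (nat_lit 249)) (nd (nat_lit 248) (nat_lit 0) (cs (lf (nat_lit 0) (nat_lit 247)) (nd (nat_lit 229) (nat_lit 0) (cs (lf (nat_lit 17) (nat_lit 226)) (nd (nat_lit 204) (nat_lit 0) (cs (lf (nat_lit 0) (nat_lit 203)) (nd (nat_lit 226) (nat_lit 0) (cs (lf (nat_lit 23) (nat_lit 225)) (lf (nat_lit 24) (nat_lit 182)))))))))))) (cs (nd (nat_lit 270) (nat_lit 0) (cs (lf (nat_lit 12) (nat_lit 247)) (nd (nat_lit 227) (nat_lit 0) (cs (lf (nat_lit 41) (nat_lit 204)) (nd (nat_lit 225)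 (nat_lit 0) (cs (rf (nat_lit 8)) (lf (nat_lit 1) (nat_lit 225)))))))) (nd (nat_lit 273) (nat_lit 0) (cs (lf (nat_lit 19) (nat_lit 249)) (nd (nat_lit 247) (nat_lit 0) (cs (lf (nat_lit 1) (nat_lit 247)) (nd (nat_lit 270) (nat_lit 0) (cs (lf (nat_lit 12) (nat_lit 247)) (nd (nat_lit 292) (nat_lit 0) (cs (lf (nat_lit 11) (nat_lit 269)) (lf (nat_lit 37) (nat_lit 204)))))))))))))))))))))))))))) q26357 (by decide +kernel)
def q26549 : Q := Q.p (nat_lit 0x800002000001000016000000000000000000000000000000000000000000000000000) (nat_lit 0x2700007c0001bc000ec0000800003f0003f0000fc0000000000000000000000000000000000) (nat_lit 15)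
theorem c26549 : QOK q26549 := cut [q26480, q26482, q26494, q22109, q3427, q21655, q26517, q26519, q26526, q26528, q26472, q23909, q1038] ⟨c26480, c26482, c26494, c22109, c3427, c21655, c26517, c26519, c26526, c26528, c26472, c23909, c1038, trivial⟩ (nd (nat_lit 227) (nat_lit 0) (cs (nd (nat_lit 183) (nat_lit 0) (cs (rf (nat_lit 0)) (cs (nd (nat_lit 182) (nat_lit 0) (cs (lf (nat_lit 19) (nat_lit 182)) (nd (nat_lit 180) (nat_lit 0) (cs (lf (nat_lit 1) (nat_lit 180)) (nd (nat_lit 161) (nat_lit 0) (cs (lf (nat_lit 24) (nat_lit 139)) (nd (nat_lit 138) (nat_lit 0) (cs (lf (nat_lit 46) (nat_lit 138)) (nd (nat_lit 162) (nat_lit 0) (cs (lf (nat_lit 35) (nat_lit 139)) (nd (nat_lit 163) (nat_lit 0) (cs (lf (nat_lit 6) (nat_lit 160)) (nd (nat_lit 184) (nat_lit 0) (cs (lf (nat_lit 35) (nat_lit 140)) (rf (nat_lit 1)))))))))))))))) (cs (rf (nat_lit 2)) (cs (nd (nat_lit 139) (nat_lit 0) (cs (lf (nat_lit 25) (nat_lit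 139)) (nd (nat_lit 182) (nat_lit 0) (cs (lf (nat_lit 19) (nat_lit 182)) (nd (nat_lit 180) (nat_lit 0) (cs (lf (nat_lit 1) (nat_lit 180)) (nd (nat_lit 249) (nat_lit 0) (cs (lf (nat_lit 47) (nat_lit 160)) (nd (nat_lit 248) (nat_lit 0) (cs (lf (nat_lit 41) (nat_lit 182)) (nd (nat_lit 271) (nat_lit 0) (cs (lf (nat_lit 30) (nat_lit 205)) (nd (nat_lit 230) (nat_lit 0) (cs (lf (nat_lit 7) (nat_lit 226)) (nd (nat_lit 246) (nat_lit 0) (cs (nd (nat_lit 272) (nat_lit 0) (cs (lf (nat_lit 29) (nat_lit 205)) (nd (nat_lit 274) (nat_lit 0) (cs (rf (nat_lit 3)) (lf (nat_lit 19) (nat_lit 248)))))) (lf (nat_lit 13) (nat_lit 224)))))))))))))))))) (nd (nat_lit 139) (nat_lit 0) (cs (lf (nat_lit 25) (nat_lit 139)) (nd (nat_lit 207) (nat_lit 0) (cs (lf (nat_lit 23) (nat_lit 182)) (nd (nat_lit 230) (nat_lit 0) (cs (lf (nat_lit 5) (nat_lit 205)) (nd (nat_lit 229) (nat_lit 0) (cs (lf (nat_lit 4) (nat_lit 227)) (nd (nat_lit 249)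 (nat_lit 0) (cs (rf (nat_lit 4)) (lf (nat_lit 11) (nat_lit 226))))))))))))))))) (cs (nd (nat_lit 249) (nat_lit 0) (cs (rf (nat_lit 5)) (cs (nd (nat_lit 183) (nat_lit 0) (cs (rf (nat_lit 2)) (cs (rf (nat_lit 6)) (rf (nat_lit 7))))) (rf (nat_lit 8))))) (cs (rf (nat_lit 9)) (cs (nd (nat_lit 207) (nat_lit 0) (cs (lf (nat_lit 11) (nat_lit 204)) (nd (nat_lit 182) (nat_lit 0) (cs (lf (nat_lit 22) (nat_lit 182)) (rf (nat_lit 10)))))) (cs (nd (nat_lit 207) (nat_lit 0) (cs (lf (nat_lit 11) (nat_lit 204)) (nd (nat_lit 183) (nat_lit 0) (cs (lf (nat_lit 23) (nat_lit 182)) (nd (nat_lit 161) (nat_lit 0) (cs (lf (nat_lit 24) (nat_lit 139)) (nd (nat_lit 138) (nat_lit 0) (cs (lf (nat_lit 46) (nat_lit 138)) (nd (nat_lit 162) (nat_lit 0) (cs (lf (nat_lit 35) (nat_lit 139)) (nd (nat_lit 184) (nat_lit 0) (cs (lf (nat_lit 41) (nat_lit 161)) (rf (nat_lit 11)))))))))))))) (nd (nat_lit 207) (nat_lit 0) (cs (lf (nat_lit 11) (nat_lit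 204)) (nd (nat_lit 183) (nat_lit 0) (cs (lf (nat_lit 23) (nat_lit 182)) (nd (nat_lit 230) (nat_lit 0) (cs (lf (nat_lit 5) (nat_lit 205)) (nd (nat_lit 161) (nat_lit 0) (cs (lf (nat_lit 24) (nat_lit 139)) (nd (nat_lit 138) (nat_lit 0) (cs (lf (nat_lit 46) (nat_lit 138)) (nd (nat_lit 162) (nat_lit 0) (cs (lf (nat_lit 35) (nat_lit 139)) (nd (nat_lit 249) (nat_lit 0) (cs (lf (nat_lit 37) (nat_lit 161)) (nd (nat_lit 248) (nat_lit 0) (cs (lf (nat_lit 41) (nat_lit 182)) (nd (nat_lit 246) (nat_lit 0) (cs (lf (nat_lit 13) (nat_lit 224)) (nd (nat_lit 271) (nat_lit 0) (cs (lf (nat_lit 30) (nat_lit 205)) (nd (nat_lit 272) (nat_lit 0) (cs (lf (nat_lit 29) (nat_lit 205)) (nd (nat_lit 274) (nat_lit 0) (cs (rf (nat_lit 12)) (lf (nat_lit 19) (nat_lit 248)))))))))))))))))))))))))))))))) q26549 (by decide +kernel)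
def q26775 : Q := Q.p (nat_lit 0x800002000001000006000000000000000000000000000000000000000000000000000) (nat_lit 0xa0001780001e00000800000000018000060000080000000000000000000000000000000000) (nat_lit 7)
theorem c26775 : QOK q26775 := cut [q23601, q24654, q26626] ⟨c23601, c24654, c26626, trivial⟩ (nd (nat_lit 250) (nat_lit 0) (cs (rf (nat_lit 0)) (cs (rf (nat_lit 1)) (rf (nat_lit 2))))) q26775 (by decide +kernel)
def q27133 : Q := Q.p (nat_lit 0x16000000000000000000000000000000000000000000000000000) (nat_lit 0x300001e0000780001fe0009f0003fe001ff0007fc000f80003e00000000000000000000000) (nat_lit 15)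
theorem c27133 : QOK q27133 := cut [q26863, q26970, q26974, q26981, q26886, q26928, q26988, q26997, q153, q8660, q11440, q11444, q24397, q26869, q27007, q11439, q11443, q23833, q26861, q27132] ⟨c26863, c26970, c26974, c26981, c26886, c26928, c26988, c26997, c153, c8660, c11440, c11444, c24397, c26869, c27007, c11439, c11443, c23833, c26861, c27132, trivial⟩ (nd (nat_lit 182) (nat_lit 0) (cs (nd (nat_lit 204) (nat_lit 0) (cs (rf (nat_lit 0)) (cs (nd (nat_lit 226) (nat_lit 0) (cs (nd (nat_lit 227) (nat_lit 0) (cs (lf (nat_lit 7) (nat_lit 204)) (rf (nat_lit 1)))) (cs (nd (nat_lit 225) (nat_lit 0) (cs (rf (nat_lit 2)) (lf (nat_lit 6) (nat_lit 203)))) (nd (nat_lit 225) (nat_lit 0) (cs (rf (nat_lit 2)) (cs (nd (nat_lit 160) (nat_lit 0) (cs (lf (nat_lit 41) (nat_lit 159)) (nd (nat_lit 138) (nat_lit 0) (cs (lf (nat_lit 40) (nat_lit 137)) (lf (nat_lit 29) (nat_lit 138)))))) (rf (nat_lit 3)))))))) (cs (nd (nat_lit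 203) (nat_lit 0) (cs (rf (nat_lit 4)) (cs (rf (nat_lit 5)) (cs (nd (nat_lit 224) (nat_lit 0) (cs (lf (nat_lit 10) (nat_lit 202)) (nd (nat_lit 184) (nat_lit 0) (cs (lf (nat_lit 17) (nat_lit 181)) (nd (nat_lit 202) (nat_lit 0) (cs (lf (nat_lit 11) (nat_lit 201)) (nd (nat_lit 227) (nat_lit 0) (cs (lf (nat_lit 5) (nat_lit 202)) (nd (nat_lit 201) (nat_lit 0) (cs (lf (nat_lit 4) (nat_lit 201)) (rf (nat_lit 6)))))))))))) (nd (nat_lit 184) (nat_lit 0) (cs (lf (nat_lit 17) (nat_lit 181)) (rf (nat_lit 7)))))))) (nd (nat_lit 207) (nat_lit 0) (cs (lf (nat_lit 23) (nat_lit 181)) (rf (nat_lit 8)))))))) (cs (nd (nat_lit 183) (nat_lit 0) (cs (lf (nat_lit 19) (nat_lit 182)) (nd (nat_lit 161) (nat_lit 0) (cs (rf (nat_lit 9)) (cs (rf (nat_lit 10)) (cs (rf (nat_lit 11)) (cs (nd (nat_lit 227) (nat_lit 0) (cs (rf (nat_lit 12)) (cs (rf (nat_lit 13)) (nd (nat_lit 160) (nat_lit 0) (cs (lf (nat_lit 47) (nat_lit 138)) (nd (nat_lit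 226) (nat_lit 0) (cs (lf (nat_lit 41) (nat_lit 160)) (nd (nat_lit 224) (nat_lit 0) (cs (lf (nat_lit 13) (nat_lit 202)) (rf (nat_lit 14))))))))))) (nd (nat_lit 139) (nat_lit 0) (cs (rf (nat_lit 15)) (cs (rf (nat_lit 16)) (rf (nat_lit 17)))))))))))) (cs (nd (nat_lit 181) (nat_lit 0) (cs (nd (nat_lit 183) (nat_lit 0) (cs (lf (nat_lit 0) (nat_lit 180)) (lf (nat_lit 19) (nat_lit 182)))) (cs (nd (nat_lit 204) (nat_lit 0) (cs (rf (nat_lit 18)) (lf (nat_lit 18) (nat_lit 181)))) (cs (nd (nat_lit 207) (nat_lit 0) (cs (lf (nat_lit 22) (nat_lit 182)) (lf (nat_lit 21) (nat_lit 181)))) (nd (nat_lit 180) (nat_lit 0) (cs (nd (nat_lit 204) (nat_lit 0) (cs (lf (nat_lit 21) (nat_lit 180)) (lf (nat_lit 0) (nat_lit 179)))) (lf (nat_lit 3) (nat_lit 180)))))))) (rf (nat_lit 19)))))) q27133 (by decide +kernel)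
def q27341 : Q := Q.p (nat_lit 0x4000018000000000000000000000000000000000000000000000) (nat_lit 0x200001c0003f0000fe0000f00003c000270003fe000ff0001fc0002000000000000000000000000) (nat_lit 14)
theorem c27341 : QOK q27341 := cut [q20529, q24937, q24943, q27150, q24388, q27164, q27183, q27198, q27213, q18978, q27171, q18005, q27199, q27031, q27255, q27319, q27154, q27160, q18976, q17524, q27320, q3869, q27340] ⟨c20529, c24937, c24943, c27150, c24388, c27164, c27183, c27198, c27213, c18978, c27171, c18005, c27199, c27031, c27255, c27319, c27154, c27160, c18976, c17524, c27320, c3869, c27340, trivial⟩ (nd (nat_lit 205) (nat_lit 0) (cs (nd (nat_lit 227) (nat_lit 0) (cs (rf (nat_lit 0)) (cs (nd (nat_lit 161) (nat_lit 0) (cs (rf (nat_lit 1)) (cs (rf (nat_lit 2)) (cs (rf (nat_lit 3)) (nd (nat_lit 162) (nat_lit 0) (cs (lf (nat_lit 36) (nat_lit 139)) (nd (nat_lit 226) (nat_lit 0) (cs (lf (nat_lit 41) (nat_lit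 160)) (nd (nat_lit 224) (nat_lit 0) (cs (lf (nat_lit 13) (nat_lit 202)) (rf (nat_lit 4)))))))))))) (rf (nat_lit 5))))) (cs (nd (nat_lit 182) (nat_lit 0) (cs (nd (nat_lit 181) (nat_lit 0) (cs (lf (nat_lit 0) (nat_lit 180)) (nd (nat_lit 202) (nat_lit 0) (cs (lf (nat_lit 10) (nat_lit 180)) (nd (nat_lit 159) (nat_lit 0) (cs (lf (nat_lit 23) (nat_lit 158)) (nd (nat_lit 160) (nat_lit 0) (cs (lf (nat_lit 18) (nat_lit 159)) (nd (nat_lit 138) (nat_lit 0) (cs (lf (nat_lit 24) (nat_lit 116)) (nd (nat_lit 227) (nat_lit 0) (cs (lf (nat_lit 42) (nat_lit 160)) (lf (nat_lit 45) (nat_lit 138)))))))))))))) (cs (rf (nat_lit 6)) (cs (nd (nat_lit 181) (nat_lit 0) (cs (lf (nat_lit 0) (nat_lit 180)) (nd (nat_lit 158) (nat_lit 0) (cs (lf (nat_lit 22) (nat_lit 158)) (nd (nat_lit 203) (nat_lit 0) (cs (lf (nat_lit 11) (nat_lit 180)) (nd (nat_lit 204) (nat_lit 0) (cs (lf (nat_lit 17) (nat_lit 181)) (nd (nat_lit 225) (nat_lit 0)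 (cs (lf (nat_lit 11) (nat_lit 202)) (nd (nat_lit 247) (nat_lit 0) (cs (lf (nat_lit 30) (nat_lit 181)) (nd (nat_lit 248) (nat_lit 0) (cs (lf (nat_lit 29) (nat_lit 181)) (nd (nat_lit 226) (nat_lit 0) (cs (nd (nat_lit 249) (nat_lit 0) (cs (nd (nat_lit 250) (nat_lit 0) (cs (lf (nat_lit 18) (nat_lit 225)) (nd (nat_lit 272) (nat_lit 0) (cs (lf (nat_lit 5) (nat_lit 247)) (lf (nat_lit 26) (nat_lit 183)))))) (lf (nat_lit 29) (nat_lit 182)))) (lf (nat_lit 35) (nat_lit 160)))))))))))))))))) (cs (rf (nat_lit 7)) (rf (nat_lit 8))))))) (cs (nd (nat_lit 182) (nat_lit 0) (cs (rf (nat_lit 9)) (cs (rf (nat_lit 10)) (nd (nat_lit 204) (nat_lit 0) (cs (rf (nat_lit 11)) (cs (rf (nat_lit 12)) (nd (nat_lit 227) (nat_lit 0) (cs (rf (nat_lit 0)) (cs (nd (nat_lit 160) (nat_lit 0) (cs (lf (nat_lit 24) (nat_lit 138)) (nd (nat_lit 140) (nat_lit 0) (cs (lf (nat_lit 37) (nat_lit 139)) (nd (nat_lit 159) (nat_lit 0) (cs (lf (nat_lit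 18) (nat_lit 159)) (nd (nat_lit 157) (nat_lit 0) (cs (nd (nat_lit 226) (nat_lit 0) (cs (lf (nat_lit 47) (nat_lit 137)) (rf (nat_lit 13)))) (lf (nat_lit 1) (nat_lit 157)))))))))) (nd (nat_lit 160) (nat_lit 0) (cs (lf (nat_lit 42) (nat_lit 160)) (lf (nat_lit 24) (nat_lit 138))))))))))))) (cs (rf (nat_lit 14)) (cs (rf (nat_lit 15)) (cs (nd (nat_lit 227) (nat_lit 0) (cs (rf (nat_lit 0)) (cs (rf (nat_lit 16)) (nd (nat_lit 161) (nat_lit 0) (cs (rf (nat_lit 3)) (cs (rf (nat_lit 17)) (nd (nat_lit 162) (nat_lit 0) (cs (rf (nat_lit 18)) (nd (nat_lit 163) (nat_lit 0) (cs (rf (nat_lit 19)) (cs (nd (nat_lit 160) (nat_lit 0) (cs (lf (nat_lit 47) (nat_lit 138)) (rf (nat_lit 20)))) (nd (nat_lit 181) (nat_lit 0) (cs (lf (nat_lit 13) (nat_lit 159)) (nd (nat_lit 160) (nat_lit 0) (cs (lf (nat_lit 47) (nat_lit 138)) (nd (nat_lit 226) (nat_lit 0) (cs (lf (nat_lit 41) (nat_lit 160)) (nd (nat_lit 141) (nat_lit 0) (cs (rf (nat_lit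 21)) (lf (nat_lit 17) (nat_lit 138))))))))))))))))))))) (cs (nd (nat_lit 182) (nat_lit 0) (cs (rf (nat_lit 9)) (cs (rf (nat_lit 10)) (rf (nat_lit 6))))) (rf (nat_lit 22)))))))))) q27341 (by decide +kernel)
def q27634 : Q := Q.p (nat_lit 0x1000014000000000000000000000000000000000000000000000000000) (nat_lit 0x20000380000e0000b80002e0006bc003bf0007fc001ff0000f80003e00002000000000000000000) (nat_lit 15)
theorem c27634 : QOK q27634 := cut [q2659, q18583, q27509, q3828, q6790, q23963, q27562, q153, q27570, q27568, q27571, q27575, q27583, q1273, q8563, q17769, q18625, q27630, q27412, q20753] ⟨c2659, c18583, c27509, c3828, c6790, c23963, c27562, c153, c27570, c27568, c27571, c27575, c27583, c1273, c8563, c17769, c18625, c27630, c27412, c20753, trivial⟩ (nd (nat_lit 184) (nat_lit 0) (cs (nd (nat_lit 227) (nat_lit 0) (cs (rf (nat_lit 0)) (rf (nat_lit 1)))) (cs (rf (nat_lit 2)) (cs (nd (nat_lit 207) (nat_lit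 0) (cs (rf (nat_lit 3)) (cs (rf (nat_lit 4)) (nd (nat_lit 182) (nat_lit 0) (cs (rf (nat_lit 5)) (cs (nd (nat_lit 204) (nat_lit 0) (cs (nd (nat_lit 205) (nat_lit 0) (cs (lf (nat_lit 23) (nat_lit 181)) (rf (nat_lit 6)))) (cs (nd (nat_lit 205) (nat_lit 0) (cs (lf (nat_lit 23) (nat_lit 181)) (rf (nat_lit 7)))) (cs (nd (nat_lit 226) (nat_lit 0) (cs (nd (nat_lit 227) (nat_lit 0) (cs (lf (nat_lit 15) (nat_lit 204)) (lf (nat_lit 12) (nat_lit 203)))) (cs (rf (nat_lit 8)) (nd (nat_lit 160) (nat_lit 0) (cs (rf (nat_lit 9)) (cs (nd (nat_lit 139) (nat_lit 0) (cs (lf (nat_lit 34) (nat_lit 138)) (nd (nat_lit 138) (nat_lit 0) (cs (lf (nat_lit 35) (nat_lit 116)) (rf (nat_lit 10)))))) (cs (nd (nat_lit 225) (nat_lit 0) (cs (lf (nat_lit 41) (nat_lit 159)) (nd (nat_lit 139) (nat_lit 0) (cs (lf (nat_lit 34) (nat_lit 138)) (nd (nat_lit 159) (nat_lit 0) (cs (lf (nat_lit 47) (nat_lit 137)) (nd (nat_lit 248) (nat_lit 0) (cs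 (lf (nat_lit 46) (nat_lit 159)) (nd (nat_lit 271) (nat_lit 0) (cs (lf (nat_lit 28) (nat_lit 182)) (nd (nat_lit 270) (nat_lit 0) (cs (lf (nat_lit 29) (nat_lit 204)) (nd (nat_lit 292) (nat_lit 0) (cs (lf (nat_lit 47) (nat_lit 203)) (rf (nat_lit 11)))))))))))))))) (nd (nat_lit 225) (nat_lit 0) (cs (lf (nat_lit 41) (nat_lit 159)) (rf (nat_lit 12))))))))))) (nd (nat_lit 226) (nat_lit 0) (cs (rf (nat_lit 8)) (cs (nd (nat_lit 205) (nat_lit 0) (cs (lf (nat_lit 11) (nat_lit 203)) (rf (nat_lit 6)))) (nd (nat_lit 205) (nat_lit 0) (cs (lf (nat_lit 11) (nat_lit 203)) (lf (nat_lit 10) (nat_lit 204))))))))))) (cs (nd (nat_lit 183) (nat_lit 0) (cs (lf (nat_lit 21) (nat_lit 182)) (lf (nat_lit 3) (nat_lit 182)))) (nd (nat_lit 183) (nat_lit 0) (cs (lf (nat_lit 0) (nat_lit 181)) (lf (nat_lit 3) (nat_lit 182))))))))))) (cs (nd (nat_lit 162) (nat_lit 0) (cs (rf (nat_lit 13)) (cs (rf (nat_lit 14)) (cs (rf (nat_lit 15)) (rf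 (nat_lit 16)))))) (cs (rf (nat_lit 17)) (nd (nat_lit 162) (nat_lit 0) (cs (rf (nat_lit 13)) (cs (rf (nat_lit 15)) (cs (rf (nat_lit 18)) (nd (nat_lit 141) (nat_lit 0) (cs (lf (nat_lit 34) (nat_lit 140)) (nd (nat_lit 119) (nat_lit 0) (cs (lf (nat_lit 33) (nat_lit 118)) (rf (nat_lit 19)))))))))))))))) q27634 (by decide +kernel)
def q27781 : Q := Q.p (nat_lit 0x800002400008000014000000000000000000000000000000000000000000000000000) (nat_lit 0xa00017c0001b00015e0000b80003f0000680000a0000000000000000000000000000000000) (nat_lit 13)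
theorem c27781 : QOK q27781 := cut [q18354, q27760, q27770, q3763, q3425, q23601, q24654, q26626] ⟨c18354, c27760, c27770, c3763, c3425, c23601, c24654, c26626, trivial⟩ (nd (nat_lit 205) (nat_lit 0) (cs (nd (nat_lit 207) (nat_lit 0) (cs (lf (nat_lit 4) (nat_lit 205)) (rf (nat_lit 0)))) (cs (nd (nat_lit 251) (nat_lit 0) (cs (nd (nat_lit 207) (nat_lit 0) (cs (lf (nat_lit 4) (nat_lit 205)) (nd (nat_lit 226) (nat_lit 0) (cs (lf (nat_lit 10) (nat_lit 204)) (nd (nat_lit 204) (nat_lit 0) (cs (lf (nat_lit 11) (nat_lit 203)) (nd (nat_lit 181) (nat_lit 0) (cs (lf (nat_lit 22) (nat_lit 181)) (nd (nat_lit 203) (nat_lit 0) (cs (lf (nat_lit 23) (nat_lit 180)) (nd (nat_lit 137) (nat_lit 0) (cs (lf (nat_lit 25) (nat_lit 137)) (nd (nat_lit 248) (nat_lit 0) (cs (lf (nat_lit 42) (nat_lit 181)) (nd (nat_lit 184) (nat_lit 0) (cs (lf (nat_lit 17) (nat_lit 181)) (nd (nat_lit 273) (nat_lit 0) (cs (lf (nat_lit 26) (nat_lit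 184)) (rf (nat_lit 1)))))))))))))))))))) (cs (rf (nat_lit 2)) (nd (nat_lit 207) (nat_lit 0) (cs (lf (nat_lit 4) (nat_lit 205)) (nd (nat_lit 226) (nat_lit 0) (cs (lf (nat_lit 10) (nat_lit 204)) (nd (nat_lit 204) (nat_lit 0) (cs (lf (nat_lit 11) (nat_lit 203)) (nd (nat_lit 181) (nat_lit 0) (cs (lf (nat_lit 22) (nat_lit 181)) (nd (nat_lit 180) (nat_lit 0) (cs (lf (nat_lit 21) (nat_lit 180)) (nd (nat_lit 252) (nat_lit 0) (cs (lf (nat_lit 17) (nat_lit 228)) (rf (nat_lit 3))))))))))))))))) (cs (nd (nat_lit 207) (nat_lit 0) (cs (lf (nat_lit 4) (nat_lit 205)) (nd (nat_lit 183) (nat_lit 0) (cs (lf (nat_lit 23) (nat_lit 182)) (rf (nat_lit 4)))))) (nd (nat_lit 228) (nat_lit 0) (cs (rf (nat_lit 5)) (cs (rf (nat_lit 6)) (rf (nat_lit 7))))))))) q27781 (by decide +kernel)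
def q27844 : Q := Q.p (nat_lit 0x800002400008000014000000000000000000000000000000000000000000000000000) (nat_lit 0x8000ee0001780001a00011c0000a00003c0000e0000380000000000000000000000000000000000) (nat_lit 9)
theorem c27844 : QOK q27844 := cut [q23601, q24654, q17375, q26187, q14433, q26194, q26276, q17597, q23881, q3279] ⟨c23601, c24654, c17375, c26187, c14433, c26194, c26276, c17597, c23881, c3279, trivial⟩ (nd (nat_lit 228) (nat_lit 0) (cs (rf (nat_lit 0)) (cs (rf (nat_lit 1)) (cs (nd (nat_lit 272) (nat_lit 0) (cs (rf (nat_lit 2)) (cs (rf (nat_lit 3)) (nd (nat_lit 273) (nat_lit 0) (cs (lf (nat_lit 29) (nat_lit 206)) (rf (nat_lit 4))))))) (cs (rf (nat_lit 5)) (cs (rf (nat_lit 6)) (nd (nat_lit 183) (nat_lit 0) (cs (nd (nat_lit 161) (nat_lit 0) (cs (lf (nat_lit 45) (nat_lit 161)) (nd (nat_lit 205) (nat_lit 0) (cs (lf (nat_lit 42) (nat_lit 183)) (lf (nat_lit 24) (nat_lit 139)))))) (cs (nd (nat_lit 184)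 (nat_lit 0) (cs (lf (nat_lit 47) (nat_lit 161)) (rf (nat_lit 7)))) (cs (nd (nat_lit 205) (nat_lit 0) (cs (lf (nat_lit 42) (nat_lit 183)) (rf (nat_lit 8)))) (nd (nat_lit 205) (nat_lit 0) (cs (lf (nat_lit 42) (nat_lit 183)) (nd (nat_lit 207) (nat_lit 0) (cs (lf (nat_lit 23) (nat_lit 182)) (nd (nat_lit 227) (nat_lit 0) (cs (lf (nat_lit 11) (nat_lit 204)) (nd (nat_lit 251) (nat_lit 0) (cs (lf (nat_lit 19) (nat_lit 227)) (nd (nat_lit 184) (nat_lit 0) (cs (lf (nat_lit 29) (nat_lit 184)) (rf (nat_lit 9)))))))))))))))))))))) q27844 (by decide +kernel)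
def q28369 : Q := Q.p (nat_lit 0xc0000000000200000800002000000000000000000000000000000000000000000000000000000000000000) (nat_lit 0x50a003df800f3e00ff7800fdc00ff3800f90002e0000900000000000000000000000000000000000000000000000000000) (nat_lit 15)
theorem c28369 : QOK q28369 := cut [q15042, q28111, q28124, q28119, q28125, q28104, q28107, q28129, q28132, q28137, q28276, q28280, q28298, q28305, q28145, q28308, q11755, q28045, q28312, q28316, q28324, q11623, q28335, q28338, q27995, q28110, q28343, q28353, q28037, q28044, q28357] ⟨c15042, c28111, c28124, c28119, c28125, c28104, c28107, c28129, c28132, c28137, c28276, c28280, c28298, c28305, c28145, c28308, c11755, c28045, c28312, c28316, c28324, c11623, c28335, c28338, c27995, c28110, c28343, c28353, c28037, c28044, c28357, trivial⟩ (nd (nat_lit 298) (nat_lit 0) (cs (rf (nat_lit 0)) (cs (nd (nat_lit 299) (nat_lit 0) (cs (rf (nat_lit 1)) (cs (rf (nat_lit 2))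 (cs (nd (nat_lit 322) (nat_lit 0) (cs (nd (nat_lit 296) (nat_lit 0) (cs (lf (nat_lit 4) (nat_lit 296)) (rf (nat_lit 3)))) (nd (nat_lit 323) (nat_lit 0) (cs (lf (nat_lit 3) (nat_lit 297)) (rf (nat_lit 4)))))) (cs (nd (nat_lit 277) (nat_lit 0) (cs (rf (nat_lit 5)) (cs (rf (nat_lit 6)) (rf (nat_lit 7))))) (cs (nd (nat_lit 296) (nat_lit 0) (cs (rf (nat_lit 3)) (cs (nd (nat_lit 362) (nat_lit 0) (cs (rf (nat_lit 8)) (nd (nat_lit 277) (nat_lit 0) (cs (lf (nat_lit 17) (nat_lit 274)) (nd (nat_lit 364) (nat_lit 0) (cs (rf (nat_lit 9)) (lf (nat_lit 38) (nat_lit 276)))))))) (cs (rf (nat_lit 10)) (rf (nat_lit 11)))))) (cs (rf (nat_lit 12)) (rf (nat_lit 13))))))))) (cs (nd (nat_lit 276) (nat_lit 0) (cs (lf (nat_lit 43) (nat_lit 253)) (nd (nat_lit 296) (nat_lit 0) (cs (rf (nat_lit 14)) (cs (nd (nat_lit 295) (nat_lit 0) (cs (lf (nat_lit 12) (nat_lit 272)) (rf (nat_lit 15)))) (nd (nat_lit 299) (nat_lit 0) (cs (rf (nat_lit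 16)) (cs (nd (nat_lit 344) (nat_lit 0) (cs (rf (nat_lit 17)) (cs (nd (nat_lit 277) (nat_lit 0) (cs (lf (nat_lit 6) (nat_lit 274)) (nd (nat_lit 366) (nat_lit 0) (cs (lf (nat_lit 26) (nat_lit 277)) (rf (nat_lit 18)))))) (cs (nd (nat_lit 277) (nat_lit 0) (cs (lf (nat_lit 6) (nat_lit 274)) (nd (nat_lit 318) (nat_lit 0) (cs (lf (nat_lit 11) (nat_lit 295)) (nd (nat_lit 362) (nat_lit 0) (cs (lf (nat_lit 31) (nat_lit 274)) (nd (nat_lit 341) (nat_lit 0) (cs (lf (nat_lit 10) (nat_lit 340)) (rf (nat_lit 19)))))))))) (cs (nd (nat_lit 317) (nat_lit 0) (cs (lf (nat_lit 10) (nat_lit 295)) (nd (nat_lit 277) (nat_lit 0) (cs (lf (nat_lit 6) (nat_lit 274)) (nd (nat_lit 321) (nat_lit 0) (cs (lf (nat_lit 5) (nat_lit 296)) (lf (nat_lit 29) (nat_lit 277)))))))) (nd (nat_lit 277) (nat_lit 0) (cs (lf (nat_lit 6) (nat_lit 274)) (nd (nat_lit 322) (nat_lit 0) (cs (lf (nat_lit 4) (nat_lit 296)) (nd (nat_lit 317) (nat_lit 0) (cs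 (lf (nat_lit 10) (nat_lit 295)) (rf (nat_lit 20))))))))))))) (nd (nat_lit 300) (nat_lit 0) (cs (lf (nat_lit 18) (nat_lit 275)) (rf (nat_lit 21)))))))))))) (nd (nat_lit 344) (nat_lit 0) (cs (rf (nat_lit 17)) (cs (nd (nat_lit 364) (nat_lit 0) (cs (lf (nat_lit 44) (nat_lit 275)) (rf (nat_lit 22)))) (cs (nd (nat_lit 364) (nat_lit 0) (cs (lf (nat_lit 44) (nat_lit 275)) (rf (nat_lit 23)))) (cs (nd (nat_lit 341) (nat_lit 0) (cs (rf (nat_lit 24)) (cs (nd (nat_lit 366) (nat_lit 0) (cs (lf (nat_lit 5) (nat_lit 341)) (nd (nat_lit 299) (nat_lit 0) (cs (nd (nat_lit 277) (nat_lit 0) (cs (lf (nat_lit 26) (nat_lit 277)) (nd (nat_lit 320) (nat_lit 0) (cs (lf (nat_lit 30) (nat_lit 276)) (rf (nat_lit 25)))))) (cs (nd (nat_lit 320) (nat_lit 0) (cs (lf (nat_lit 42) (nat_lit 275)) (nd (nat_lit 362) (nat_lit 0) (cs (lf (nat_lit 10) (nat_lit 340)) (nd (nat_lit 322) (nat_lit 0) (cs (lf (nat_lit 17) (nat_lit 319)) (rf (nat_lit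 26)))))))) (nd (nat_lit 322) (nat_lit 0) (cs (lf (nat_lit 17) (nat_lit 319)) (nd (nat_lit 321) (nat_lit 0) (cs (lf (nat_lit 42) (nat_lit 299)) (lf (nat_lit 0) (nat_lit 296))))))))))) (rf (nat_lit 27))))) (nd (nat_lit 323) (nat_lit 0) (cs (rf (nat_lit 28)) (cs (rf (nat_lit 29)) (cs (nd (nat_lit 320) (nat_lit 0) (cs (lf (nat_lit 42) (nat_lit 275)) (nd (nat_lit 345) (nat_lit 0) (cs (lf (nat_lit 17) (nat_lit 320)) (nd (nat_lit 321) (nat_lit 0) (cs (nd (nat_lit 295) (nat_lit 0) (cs (rf (nat_lit 30)) (lf (nat_lit 1) (nat_lit 295)))) (lf (nat_lit 18) (nat_lit 320)))))))) (nd (nat_lit 322) (nat_lit 0) (cs (lf (nat_lit 12) (nat_lit 319)) (nd (nat_lit 320) (nat_lit 0) (cs (lf (nat_lit 42) (nat_lit 275)) (lf (nat_lit 20) (nat_lit 297))))))))))))))))))) q28369 (by decide +kernel)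
def q28715 : Q := Q.p (nat_lit 0xc0000000000200000800002000000000000000000000000000000000000000000000000000000000000000) (nat_lit 0x200003c8001fe0003f800fee001f3800ff7c007de001f3c00790000a0000000000000000000000000000000000000000000000000000000000) (nat_lit 15)
theorem c28715 : QOK q28715 := cut [q28038, q28065, q28377, q28378, q28387, q28407, q28531, q27996, q28530, q28533, q28484, q28539, q28001, q28547, q28563, q28564, q28641, q28647, q28709, q28714] ⟨c28038, c28065, c28377, c28378, c28387, c28407, c28531, c27996, c28530, c28533, c28484, c28539, c28001, c28547, c28563, c28564, c28641, c28647, c28709, c28714, trivial⟩ (nd (nat_lit 344) (nat_lit 0) (cs (nd (nat_lit 367) (nat_lit 0) (cs (rf (nat_lit 0)) (cs (rf (nat_lit 1)) (nd (nat_lit 345) (nat_lit 0) (cs (lf (nat_lit 5) (nat_lit 342)) (nd (nat_lit 278) (nat_lit 0) (cs (nd (nat_lit 323) (nat_lit 0) (cs (lf (nat_lit 17) (nat_lit 320)) (nd (nat_lit 301)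 (nat_lit 0) (cs (nd (nat_lit 280) (nat_lit 0) (cs (lf (nat_lit 34) (nat_lit 279)) (nd (nat_lit 279) (nat_lit 0) (cs (lf (nat_lit 47) (nat_lit 256)) (lf (nat_lit 35) (nat_lit 257)))))) (lf (nat_lit 46) (nat_lit 278)))))) (cs (nd (nat_lit 277) (nat_lit 0) (cs (rf (nat_lit 2)) (cs (nd (nat_lit 299) (nat_lit 0) (cs (rf (nat_lit 3)) (nd (nat_lit 321) (nat_lit 0) (cs (lf (nat_lit 35) (nat_lit 255)) (nd (nat_lit 320) (nat_lit 0) (cs (lf (nat_lit 36) (nat_lit 254)) (lf (nat_lit 18) (nat_lit 320)))))))) (nd (nat_lit 276) (nat_lit 0) (cs (lf (nat_lit 23) (nat_lit 252)) (nd (nat_lit 298) (nat_lit 0) (cs (lf (nat_lit 6) (nat_lit 275)) (lf (nat_lit 43) (nat_lit 253))))))))) (nd (nat_lit 324) (nat_lit 0) (cs (lf (nat_lit 16) (nat_lit 320)) (nd (nat_lit 346) (nat_lit 0) (cs (lf (nat_lit 17) (nat_lit 321)) (rf (nat_lit 4)))))))))))))) (cs (rf (nat_lit 5)) (cs (rf (nat_lit 6)) (cs (nd (nat_lit 322) (nat_lit 0) (cs (rf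 (nat_lit 7)) (cs (nd (nat_lit 366) (nat_lit 0) (cs (rf (nat_lit 8)) (cs (nd (nat_lit 341) (nat_lit 0) (cs (lf (nat_lit 5) (nat_lit 341)) (rf (nat_lit 9)))) (nd (nat_lit 300) (nat_lit 0) (cs (rf (nat_lit 10)) (rf (nat_lit 11))))))) (nd (nat_lit 300) (nat_lit 0) (cs (rf (nat_lit 12)) (cs (rf (nat_lit 13)) (cs (rf (nat_lit 14)) (rf (nat_lit 15))))))))) (cs (rf (nat_lit 16)) (cs (rf (nat_lit 17)) (cs (rf (nat_lit 18)) (rf (nat_lit 19)))))))))) q28715 (by decide +kernel)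
def q28912 : Q := Q.p (nat_lit 0xc0000000000200000800002000000000000000000000000000000000000000000000000000000000000000) (nat_lit 0x20000380003f8003fe001ff80003e001f78003dc001f3800394000e1000380000000000000000000000000000000000000000000000000000) (nat_lit 15)
theorem c28912 : QOK q28912 := cut [q15042, q28727, q28119, q28739, q28743, q28769, q28725, q28771, q28773, q28785, q28790, q28792, q28793, q28791, q28897, q28903, q28909] ⟨c15042, c28727, c28119, c28739, c28743, c28769, c28725, c28771, c28773, c28785, c28790, c28792, c28793, c28791, c28897, c28903, c28909, trivial⟩ (nd (nat_lit 298) (nat_lit 0) (cs (rf (nat_lit 0)) (cs (nd (nat_lit 299) (nat_lit 0) (cs (rf (nat_lit 1)) (cs (nd (nat_lit 296) (nat_lit 0) (cs (rf (nat_lit 2)) (nd (nat_lit 277) (nat_lit 0) (cs (lf (nat_lit 17) (nat_lit 274)) (nd (nat_lit 321) (nat_lit 0) (cs (lf (nat_lit 5) (nat_lit 296)) (lf (nat_lit 41) (nat_lit 276)))))))) (cs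 (rf (nat_lit 3)) (cs (rf (nat_lit 4)) (cs (rf (nat_lit 5)) (nd (nat_lit 321) (nat_lit 0) (cs (rf (nat_lit 6)) (cs (rf (nat_lit 7)) (rf (nat_lit 8))))))))))) (cs (rf (nat_lit 9)) (nd (nat_lit 321) (nat_lit 0) (cs (nd (nat_lit 322) (nat_lit 0) (cs (rf (nat_lit 10)) (cs (rf (nat_lit 11)) (nd (nat_lit 323) (nat_lit 0) (cs (lf (nat_lit 6) (nat_lit 320)) (rf (nat_lit 12))))))) (cs (nd (nat_lit 340) (nat_lit 0) (cs (nd (nat_lit 362) (nat_lit 0) (cs (nd (nat_lit 296) (nat_lit 0) (cs (lf (nat_lit 32) (nat_lit 274)) (rf (nat_lit 13)))) (cs (nd (nat_lit 364) (nat_lit 0) (cs (lf (nat_lit 44) (nat_lit 275)) (nd (nat_lit 386) (nat_lit 0) (cs (nd (nat_lit 363) (nat_lit 0) (cs (lf (nat_lit 12) (nat_lit 339)) (nd (nat_lit 365) (nat_lit 0) (cs (nd (nat_lit 383) (nat_lit 0) (cs (nd (nat_lit 388) (nat_lit 0) (cs (nd (nat_lit 366) (nat_lit 0) (cs (nd (nat_lit 367) (nat_lit 0) (cs (lf (nat_lit 18) (nat_lit 342)) (lf (nat_lit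 11) (nat_lit 363)))) (lf (nat_lit 5) (nat_lit 363)))) (lf (nat_lit 4) (nat_lit 362)))) (lf (nat_lit 10) (nat_lit 361)))) (lf (nat_lit 23) (nat_lit 339)))))) (lf (nat_lit 30) (nat_lit 320)))))) (rf (nat_lit 14))))) (cs (nd (nat_lit 322) (nat_lit 0) (cs (lf (nat_lit 13) (nat_lit 318)) (rf (nat_lit 10)))) (nd (nat_lit 341) (nat_lit 0) (cs (lf (nat_lit 17) (nat_lit 318)) (rf (nat_lit 15))))))) (cs (nd (nat_lit 299) (nat_lit 0) (cs (rf (nat_lit 6)) (cs (rf (nat_lit 7)) (rf (nat_lit 8))))) (nd (nat_lit 364) (nat_lit 0) (cs (lf (nat_lit 44) (nat_lit 275)) (rf (nat_lit 16)))))))))))) q28912 (by decide +kernel)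
def q29095 : Q := Q.p (nat_lit 0xc0000000000200000800002000000000000000000000000000000000000000000000000000000000000000) (nat_lit 0x140001ff8003fc001ff8007ff001f38007d70007d0001f0000790001c0000000000000000000000000000000000000000000000000000000000) (nat_lit 15)
theorem c29095 : QOK q29095 := cut [q28647, q28935, q28936, q27955, q28039, q28093, q28406, q28981, q29006, q28038, q28646, q29013, q28338, q29026, q29029, q29036, q28947, q29093, q28334, q28963] ⟨c28647, c28935, c28936, c27955, c28039, c28093, c28406, c28981, c29006, c28038, c28646, c29013, c28338, c29026, c29029, c29036, c28947, c29093, c28334, c28963, trivial⟩ (nd (nat_lit 344) (nat_lit 0) (cs (rf (nat_lit 0)) (cs (rf (nat_lit 1)) (cs (rf (nat_lit 2)) (cs (nd (nat_lit 345) (nat_lit 0) (cs (rf (nat_lit 3)) (cs (rf (nat_lit 4)) (cs (rf (nat_lit 5)) (rf (nat_lit 6)))))) (cs (rf (nat_lit 7)) (cs (rf (nat_lit 8)) (cs (nd (nat_lit 367) (nat_lit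 0) (cs (rf (nat_lit 9)) (cs (rf (nat_lit 10)) (nd (nat_lit 345) (nat_lit 0) (cs (lf (nat_lit 5) (nat_lit 342)) (nd (nat_lit 411) (nat_lit 0) (cs (nd (nat_lit 389) (nat_lit 0) (cs (nd (nat_lit 324) (nat_lit 0) (cs (rf (nat_lit 11)) (lf (nat_lit 34) (nat_lit 323)))) (lf (nat_lit 47) (nat_lit 322)))) (cs (nd (nat_lit 364) (nat_lit 0) (cs (rf (nat_lit 12)) (nd (nat_lit 365) (nat_lit 0) (cs (lf (nat_lit 6) (nat_lit 342)) (nd (nat_lit 408) (nat_lit 0) (cs (nd (nat_lit 386) (nat_lit 0) (cs (lf (nat_lit 30) (nat_lit 342)) (nd (nat_lit 409) (nat_lit 0) (cs (lf (nat_lit 29) (nat_lit 342)) (nd (nat_lit 410) (nat_lit 0) (cs (nd (nat_lit 387) (nat_lit 0) (cs (lf (nat_lit 35) (nat_lit 321)) (lf (nat_lit 29) (nat_lit 343)))) (lf (nat_lit 23) (nat_lit 385)))))))) (cs (nd (nat_lit 386) (nat_lit 0) (cs (lf (nat_lit 30) (nat_lit 342)) (rf (nat_lit 13)))) (cs (nd (nat_lit 409) (nat_lit 0) (cs (rf (nat_lit 14)) (nd (nat_lit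 410) (nat_lit 0) (cs (nd (nat_lit 430) (nat_lit 0) (cs (nd (nat_lit 412) (nat_lit 0) (cs (nd (nat_lit 435) (nat_lit 0) (cs (nd (nat_lit 413) (nat_lit 0) (cs (rf (nat_lit 15)) (lf (nat_lit 5) (nat_lit 410)))) (lf (nat_lit 4) (nat_lit 409)))) (lf (nat_lit 10) (nat_lit 408)))) (lf (nat_lit 11) (nat_lit 407)))) (cs (nd (nat_lit 434) (nat_lit 0) (cs (nd (nat_lit 412) (nat_lit 0) (cs (nd (nat_lit 431) (nat_lit 0) (cs (nd (nat_lit 413) (nat_lit 0) (cs (rf (nat_lit 15)) (lf (nat_lit 10) (nat_lit 409)))) (lf (nat_lit 11) (nat_lit 408)))) (lf (nat_lit 5) (nat_lit 409)))) (lf (nat_lit 4) (nat_lit 408)))) (cs (nd (nat_lit 429) (nat_lit 0) (cs (lf (nat_lit 10) (nat_lit 407)) (nd (nat_lit 407) (nat_lit 0) (cs (lf (nat_lit 11) (nat_lit 406)) (nd (nat_lit 384) (nat_lit 0) (cs (nd (nat_lit 406) (nat_lit 0) (cs (nd (nat_lit 432) (nat_lit 0) (cs (lf (nat_lit 4) (nat_lit 406)) (lf (nat_lit 5) (nat_lit 407)))) (lf (nat_lit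 23) (nat_lit 383)))) (lf (nat_lit 22) (nat_lit 384)))))))) (nd (nat_lit 433) (nat_lit 0) (cs (lf (nat_lit 5) (nat_lit 408)) (nd (nat_lit 407) (nat_lit 0) (cs (lf (nat_lit 4) (nat_lit 407)) (nd (nat_lit 428) (nat_lit 0) (cs (nd (nat_lit 406) (nat_lit 0) (cs (nd (nat_lit 384) (nat_lit 0) (cs (lf (nat_lit 23) (nat_lit 383)) (lf (nat_lit 22) (nat_lit 384)))) (lf (nat_lit 11) (nat_lit 405)))) (lf (nat_lit 10) (nat_lit 406)))))))))))))) (cs (nd (nat_lit 320) (nat_lit 0) (cs (lf (nat_lit 45) (nat_lit 275)) (nd (nat_lit 409) (nat_lit 0) (cs (lf (nat_lit 43) (nat_lit 320)) (nd (nat_lit 386) (nat_lit 0) (cs (rf (nat_lit 16)) (lf (nat_lit 29) (nat_lit 342)))))))) (nd (nat_lit 386) (nat_lit 0) (cs (lf (nat_lit 30) (nat_lit 342)) (nd (nat_lit 409) (nat_lit 0) (cs (lf (nat_lit 29) (nat_lit 342)) (rf (nat_lit 14))))))))))))))) (cs (nd (nat_lit 364) (nat_lit 0) (cs (lf (nat_lit 11) (nat_lit 341)) (nd (nat_lit 298)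 (nat_lit 0) (cs (lf (nat_lit 44) (nat_lit 275)) (nd (nat_lit 346) (nat_lit 0) (cs (lf (nat_lit 10) (nat_lit 342)) (nd (nat_lit 324) (nat_lit 0) (cs (lf (nat_lit 17) (nat_lit 321)) (lf (nat_lit 31) (nat_lit 323)))))))))) (nd (nat_lit 363) (nat_lit 0) (cs (lf (nat_lit 10) (nat_lit 341)) (nd (nat_lit 341) (nat_lit 0) (cs (lf (nat_lit 11) (nat_lit 340)) (nd (nat_lit 389) (nat_lit 0) (cs (rf (nat_lit 11)) (lf (nat_lit 47) (nat_lit 322))))))))))))))))) (cs (rf (nat_lit 17)) (nd (nat_lit 345) (nat_lit 0) (cs (rf (nat_lit 4)) (cs (rf (nat_lit 18)) (rf (nat_lit 19)))))))))))))) q29095 (by decide +kernel)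
def q29131 : Q := Q.p (nat_lit 0xc0000000000200000800002000000000000000000000000000000000000000000000000000000000000000) (nat_lit 0xfc0003e000fff001f38007f7000790001f000079000080000000000000000000000000000000000000000000000000000000000) (nat_lit 15)
theorem c29131 : QOK q29131 := cut [q28407, q28935, q29006, q29096, q28406, q28987, q28661, q29100, q28038, q28065, q28054, q28663, q28708, q29129] ⟨c28407, c28935, c29006, c29096, c28406, c28987, c28661, c29100, c28038, c28065, c28054, c28663, c28708, c29129, trivial⟩ (nd (nat_lit 344) (nat_lit 0) (cs (rf (nat_lit 0)) (cs (rf (nat_lit 1)) (cs (rf (nat_lit 2)) (cs (rf (nat_lit 3)) (cs (nd (nat_lit 345) (nat_lit 0) (cs (rf (nat_lit 4)) (cs (rf (nat_lit 5)) (cs (nd (nat_lit 364) (nat_lit 0) (cs (lf (nat_lit 11) (nat_lit 341)) (nd (nat_lit 346) (nat_lit 0) (cs (lf (nat_lit 10) (nat_lit 342)) (nd (nat_lit 324) (nat_lit 0) (cs (lf (nat_lit 17) (nat_lit 321))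 (rf (nat_lit 6)))))))) (nd (nat_lit 363) (nat_lit 0) (cs (lf (nat_lit 10) (nat_lit 341)) (nd (nat_lit 341) (nat_lit 0) (cs (lf (nat_lit 11) (nat_lit 340)) (nd (nat_lit 322) (nat_lit 0) (cs (lf (nat_lit 17) (nat_lit 319)) (nd (nat_lit 321) (nat_lit 0) (cs (lf (nat_lit 12) (nat_lit 318)) (rf (nat_lit 7)))))))))))))) (cs (nd (nat_lit 367) (nat_lit 0) (cs (rf (nat_lit 8)) (cs (rf (nat_lit 9)) (nd (nat_lit 345) (nat_lit 0) (cs (lf (nat_lit 5) (nat_lit 342)) (nd (nat_lit 364) (nat_lit 0) (cs (lf (nat_lit 11) (nat_lit 341)) (nd (nat_lit 346) (nat_lit 0) (cs (lf (nat_lit 10) (nat_lit 342)) (nd (nat_lit 325) (nat_lit 0) (cs (lf (nat_lit 16) (nat_lit 321)) (nd (nat_lit 321) (nat_lit 0) (cs (lf (nat_lit 23) (nat_lit 320)) (nd (nat_lit 347) (nat_lit 0) (cs (lf (nat_lit 17) (nat_lit 322)) (lf (nat_lit 22) (nat_lit 321))))))))))))))))) (nd (nat_lit 345) (nat_lit 0) (cs (rf (nat_lit 10)) (cs (rf (nat_lit 11)) (cs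 (rf (nat_lit 12)) (rf (nat_lit 13))))))))))))) q29131 (by decide +kernel)
def q29496 : Q := Q.p (nat_lit 0xc0000000000200000800002000000000000000000000000000000000000000000000000000000000000000) (nat_lit 0x80000a8007ff000ff8003bf000f38001f7c007de003f3c00390000e0000300000000000000000000000000000000000000000000000000000) (nat_lit 15)
theorem c29496 : QOK q29496 := cut [q29185, q28909, q28137, q28469, q29198, q29208, q29216, q29222, q29233, q29246, q29309, q29394, q29431, q29472, q29474, q29480, q29488, q15042, q28787, q29492] ⟨c29185, c28909, c28137, c28469, c29198, c29208, c29216, c29222, c29233, c29246, c29309, c29394, c29431, c29472, c29474, c29480, c29488, c15042, c28787, c29492, trivial⟩ (nd (nat_lit 321) (nat_lit 0) (cs (rf (nat_lit 0)) (cs (nd (nat_lit 364) (nat_lit 0) (cs (rf (nat_lit 1)) (cs (nd (nat_lit 299) (nat_lit 0) (cs (lf (nat_lit 36) (nat_lit 276)) (nd (nat_lit 362) (nat_lit 0) (cs (rf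 (nat_lit 2)) (cs (nd (nat_lit 340) (nat_lit 0) (cs (nd (nat_lit 298) (nat_lit 0) (cs (lf (nat_lit 44) (nat_lit 275)) (nd (nat_lit 341) (nat_lit 0) (cs (lf (nat_lit 11) (nat_lit 339)) (nd (nat_lit 365) (nat_lit 0) (cs (lf (nat_lit 47) (nat_lit 276)) (lf (nat_lit 0) (nat_lit 339)))))))) (cs (nd (nat_lit 296) (nat_lit 0) (cs (lf (nat_lit 32) (nat_lit 274)) (nd (nat_lit 298) (nat_lit 0) (cs (lf (nat_lit 44) (nat_lit 275)) (nd (nat_lit 276) (nat_lit 0) (cs (lf (nat_lit 42) (nat_lit 276)) (nd (nat_lit 300) (nat_lit 0) (cs (lf (nat_lit 18) (nat_lit 275)) (nd (nat_lit 295) (nat_lit 0) (cs (lf (nat_lit 12) (nat_lit 272)) (nd (nat_lit 278) (nat_lit 0) (cs (lf (nat_lit 17) (nat_lit 275)) (nd (nat_lit 234) (nat_lit 0) (cs (rf (nat_lit 3)) (lf (nat_lit 37) (nat_lit 233)))))))))))))))) (rf (nat_lit 4))))) (cs (nd (nat_lit 298) (nat_lit 0) (cs (lf (nat_lit 44) (nat_lit 275)) (nd (nat_lit 365) (nat_lit 0) (cs (lf (nat_lit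 47) (nat_lit 276)) (nd (nat_lit 278) (nat_lit 0) (cs (lf (nat_lit 34) (nat_lit 277)) (nd (nat_lit 363) (nat_lit 0) (cs (rf (nat_lit 5)) (lf (nat_lit 17) (nat_lit 340)))))))))) (nd (nat_lit 298) (nat_lit 0) (cs (lf (nat_lit 44) (nat_lit 275)) (rf (nat_lit 6)))))))))) (cs (rf (nat_lit 7)) (rf (nat_lit 8)))))) (cs (rf (nat_lit 9)) (cs (rf (nat_lit 10)) (cs (rf (nat_lit 11)) (cs (rf (nat_lit 12)) (cs (rf (nat_lit 13)) (cs (rf (nat_lit 14)) (cs (rf (nat_lit 15)) (cs (rf (nat_lit 16)) (nd (nat_lit 364) (nat_lit 0) (cs (rf (nat_lit 1)) (cs (rf (nat_lit 7)) (cs (rf (nat_lit 8)) (nd (nat_lit 298) (nat_lit 0) (cs (rf (nat_lit 17)) (cs (nd (nat_lit 320) (nat_lit 0) (cs (lf (nat_lit 42) (nat_lit 275)) (rf (nat_lit 18)))) (nd (nat_lit 299) (nat_lit 0) (cs (lf (nat_lit 36) (nat_lit 276)) (rf (nat_lit 19)))))))))))))))))))))) q29496 (by decide +kernel)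
def q29878 : Q := Q.p (nat_lit 0xc0000000000200000800002000000000000000000000000000000000000000000000000000000000000000) (nat_lit 0xb00003fc001fe0003fe003ff80033e000778003dc001f380019400061000180000000000000000000000000000000000000000000000000000) (nat_lit 15)
theorem c29878 : QOK q29878 := cut [q15042, q28779, q28782, q29491, q29791, q28111, q28769, q29245, q29492, q23396, q29801, q29867, q29671] ⟨c15042, c28779, c28782, c29491, c29791, c28111, c28769, c29245, c29492, c23396, c29801, c29867, c29671, trivial⟩ (nd (nat_lit 298) (nat_lit 0) (cs (rf (nat_lit 0)) (cs (nd (nat_lit 276) (nat_lit 0) (cs (lf (nat_lit 43) (nat_lit 253)) (nd (nat_lit 299) (nat_lit 0) (cs (rf (nat_lit 1)) (cs (rf (nat_lit 2)) (cs (nd (nat_lit 321) (nat_lit 0) (cs (lf (nat_lit 42) (nat_lit 276)) (nd (nat_lit 300) (nat_lit 0) (cs (lf (nat_lit 18) (nat_lit 275)) (rf (nat_lit 3)))))) (nd (nat_lit 321) (nat_lit 0) (cs (lf (nat_lit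 42) (nat_lit 276)) (nd (nat_lit 300) (nat_lit 0) (cs (lf (nat_lit 18) (nat_lit 275)) (nd (nat_lit 278) (nat_lit 0) (cs (lf (nat_lit 17) (nat_lit 275)) (rf (nat_lit 4)))))))))))))) (cs (nd (nat_lit 299) (nat_lit 0) (cs (rf (nat_lit 5)) (cs (rf (nat_lit 6)) (cs (nd (nat_lit 321) (nat_lit 0) (cs (nd (nat_lit 277) (nat_lit 0) (cs (lf (nat_lit 41) (nat_lit 276)) (nd (nat_lit 296) (nat_lit 0) (cs (lf (nat_lit 5) (nat_lit 296)) (nd (nat_lit 317) (nat_lit 0) (cs (lf (nat_lit 10) (nat_lit 295)) (nd (nat_lit 295) (nat_lit 0) (cs (lf (nat_lit 11) (nat_lit 294)) (lf (nat_lit 16) (nat_lit 273)))))))))) (cs (rf (nat_lit 7)) (rf (nat_lit 8))))) (cs (nd (nat_lit 300) (nat_lit 0) (cs (rf (nat_lit 9)) (cs (nd (nat_lit 276) (nat_lit 0) (cs (lf (nat_lit 18) (nat_lit 275)) (nd (nat_lit 321) (nat_lit 0) (cs (lf (nat_lit 42) (nat_lit 276)) (rf (nat_lit 3)))))) (rf (nat_lit 10))))) (cs (rf (nat_lit 11)) (nd (nat_lit 300) (nat_lit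 0) (cs (rf (nat_lit 9)) (cs (rf (nat_lit 10)) (nd (nat_lit 276) (nat_lit 0) (cs (lf (nat_lit 18) (nat_lit 275)) (nd (nat_lit 321) (nat_lit 0) (cs (lf (nat_lit 42) (nat_lit 276)) (nd (nat_lit 277) (nat_lit 0) (cs (lf (nat_lit 41) (nat_lit 276)) (nd (nat_lit 344) (nat_lit 0) (cs (lf (nat_lit 29) (nat_lit 277)) (nd (nat_lit 255) (nat_lit 0) (cs (lf (nat_lit 28) (nat_lit 255)) (nd (nat_lit 234) (nat_lit 0) (cs (lf (nat_lit 34) (nat_lit 233)) (nd (nat_lit 233) (nat_lit 0) (cs (lf (nat_lit 35) (nat_lit 211)) (lf (nat_lit 36) (nat_lit 210))))))))))))))))))))))))) (nd (nat_lit 364) (nat_lit 0) (cs (lf (nat_lit 44) (nat_lit 275)) (rf (nat_lit 12)))))))) q29878 (by decide +kernel)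
def q29950 : Q := Q.p (nat_lit 0xc0000000000200000800002000000000000000000000000000000000000000000000000000000000000000) (nat_lit 0x20000380000f80003f0007ff000f38007e70007d0001f0000790000a0000000000000000000000000000000000000000000000000000000000) (nat_lit 14)
theorem c29950 : QOK q29950 := cut [q28045, q28936, q29006, q29096, q27995, q28353, q28001, q28930, q28932, q29879, q27991, q27996, q28564, q28539, q29893, q28908, q28337, q29923, q29924, q29929, q29948, q28054, q29092, q29129] ⟨c28045, c28936, c29006, c29096, c27995, c28353, c28001, c28930, c28932, c29879, c27991, c27996, c28564, c28539, c29893, c28908, c28337, c29923, c29924, c29929, c29948, c28054, c29092, c29129, trivial⟩ (nd (nat_lit 344) (nat_lit 0) (cs (rf (nat_lit 0)) (cs (rf (nat_lit 1)) (cs (rf (nat_lit 2)) (cs (rf (nat_lit 3)) (cs (nd (nat_lit 341) (nat_lit 0) (cs (rf (nat_lit 4)) (cs (rf (nat_lit 5)) (nd (nat_lit 322) (nat_lit 0) (cs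 (lf (nat_lit 17) (nat_lit 319)) (nd (nat_lit 300) (nat_lit 0) (cs (rf (nat_lit 6)) (cs (rf (nat_lit 7)) (cs (rf (nat_lit 8)) (nd (nat_lit 366) (nat_lit 0) (cs (lf (nat_lit 5) (nat_lit 341)) (nd (nat_lit 365) (nat_lit 0) (cs (lf (nat_lit 41) (nat_lit 299)) (nd (nat_lit 279) (nat_lit 0) (cs (lf (nat_lit 34) (nat_lit 278)) (nd (nat_lit 362) (nat_lit 0) (cs (lf (nat_lit 10) (nat_lit 340)) (nd (nat_lit 299) (nat_lit 0) (cs (lf (nat_lit 47) (nat_lit 277)) (nd (nat_lit 321) (nat_lit 0) (cs (lf (nat_lit 29) (nat_lit 299)) (rf (nat_lit 9))))))))))))))))))))))) (cs (nd (nat_lit 322) (nat_lit 0) (cs (rf (nat_lit 10)) (cs (rf (nat_lit 11)) (cs (nd (nat_lit 300) (nat_lit 0) (cs (rf (nat_lit 6)) (cs (rf (nat_lit 12)) (cs (nd (nat_lit 366) (nat_lit 0) (cs (rf (nat_lit 13)) (cs (nd (nat_lit 279) (nat_lit 0) (cs (lf (nat_lit 34) (nat_lit 278)) (rf (nat_lit 14)))) (cs (nd (nat_lit 279) (nat_lit 0) (cs (lf (nat_lit 34)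 (nat_lit 278)) (nd (nat_lit 299) (nat_lit 0) (cs (lf (nat_lit 47) (nat_lit 277)) (nd (nat_lit 321) (nat_lit 0) (cs (lf (nat_lit 42) (nat_lit 299)) (nd (nat_lit 296) (nat_lit 0) (cs (lf (nat_lit 2) (nat_lit 296)) (nd (nat_lit 341) (nat_lit 0) (cs (lf (nat_lit 12) (nat_lit 318)) (nd (nat_lit 363) (nat_lit 0) (cs (lf (nat_lit 11) (nat_lit 340)) (nd (nat_lit 364) (nat_lit 0) (cs (lf (nat_lit 6) (nat_lit 341)) (rf (nat_lit 15)))))))))))))))) (cs (nd (nat_lit 299) (nat_lit 0) (cs (lf (nat_lit 47) (nat_lit 277)) (nd (nat_lit 365) (nat_lit 0) (cs (lf (nat_lit 41) (nat_lit 299)) (nd (nat_lit 279) (nat_lit 0) (cs (lf (nat_lit 34) (nat_lit 278)) (nd (nat_lit 341) (nat_lit 0) (cs (lf (nat_lit 0) (nat_lit 340)) (nd (nat_lit 363) (nat_lit 0) (cs (lf (nat_lit 11) (nat_lit 340)) (nd (nat_lit 364) (nat_lit 0) (cs (nd (nat_lit 384) (nat_lit 0) (cs (lf (nat_lit 10) (nat_lit 362)) (nd (nat_lit 321) (nat_lit 0) (cs (lf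 (nat_lit 41) (nat_lit 298)) (rf (nat_lit 9)))))) (lf (nat_lit 17) (nat_lit 341)))))))))))))) (nd (nat_lit 363) (nat_lit 0) (cs (nd (nat_lit 341) (nat_lit 0) (cs (lf (nat_lit 11) (nat_lit 340)) (nd (nat_lit 365) (nat_lit 0) (cs (lf (nat_lit 41) (nat_lit 299)) (lf (nat_lit 0) (nat_lit 340)))))) (cs (nd (nat_lit 364) (nat_lit 0) (cs (lf (nat_lit 6) (nat_lit 341)) (rf (nat_lit 16)))) (nd (nat_lit 364) (nat_lit 0) (cs (lf (nat_lit 6) (nat_lit 341)) (nd (nat_lit 277) (nat_lit 0) (cs (lf (nat_lit 46) (nat_lit 277)) (nd (nat_lit 279) (nat_lit 0) (cs (lf (nat_lit 34) (nat_lit 278)) (nd (nat_lit 387) (nat_lit 0) (cs (lf (nat_lit 40) (nat_lit 299)) (nd (nat_lit 388) (nat_lit 0) (cs (lf (nat_lit 41) (nat_lit 321)) (nd (nat_lit 389) (nat_lit 0) (cs (lf (nat_lit 29) (nat_lit 322)) (lf (nat_lit 21) (nat_lit 363)))))))))))))))))))))) (cs (rf (nat_lit 17)) (rf (nat_lit 18))))))) (rf (nat_lit 19)))))) (cs (rf (nat_lit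 20)) (nd (nat_lit 345) (nat_lit 0) (cs (rf (nat_lit 21)) (cs (rf (nat_lit 22)) (rf (nat_lit 23))))))))))))) q29950 (by decide +kernel)
def q29999 : Q := Q.p (nat_lit 0xc0000000000200000800002000000000000000000000000000000000000000000000000000000000000000) (nat_lit 0x280000fc000fe0003fc003fe000710003f70007dc001f0000790000e0000380000000000000000000000000000000000000000000000000000) (nat_lit 13)
theorem c29999 : QOK q29999 := cut [q15042, q28785, q29955, q28335, q28111, q29838, q29967, q28725, q29091, q29129, q29978, q29988, q29644, q29710] ⟨c15042, c28785, c29955, c28335, c28111, c29838, c29967, c28725, c29091, c29129, c29978, c29988, c29644, c29710, trivial⟩ (nd (nat_lit 298) (nat_lit 0) (cs (rf (nat_lit 0)) (cs (rf (nat_lit 1)) (cs (rf (nat_lit 2)) (nd (nat_lit 364) (nat_lit 0) (cs (lf (nat_lit 44) (nat_lit 275)) (nd (nat_lit 386) (nat_lit 0) (cs (nd (nat_lit 344) (nat_lit 0) (cs (rf (nat_lit 3)) (cs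 (nd (nat_lit 299) (nat_lit 0) (cs (rf (nat_lit 4)) (cs (nd (nat_lit 300) (nat_lit 0) (cs (nd (nat_lit 278) (nat_lit 0) (cs (lf (nat_lit 17) (nat_lit 275)) (nd (nat_lit 322) (nat_lit 0) (cs (lf (nat_lit 5) (nat_lit 297)) (lf (nat_lit 41) (nat_lit 277)))))) (cs (nd (nat_lit 278) (nat_lit 0) (cs (lf (nat_lit 17) (nat_lit 275)) (nd (nat_lit 296) (nat_lit 0) (cs (lf (nat_lit 16) (nat_lit 274)) (nd (nat_lit 318) (nat_lit 0) (cs (lf (nat_lit 11) (nat_lit 295)) (nd (nat_lit 362) (nat_lit 0) (cs (lf (nat_lit 31) (nat_lit 274)) (rf (nat_lit 5)))))))))) (cs (nd (nat_lit 322) (nat_lit 0) (cs (lf (nat_lit 5) (nat_lit 297)) (nd (nat_lit 366) (nat_lit 0) (cs (lf (nat_lit 47) (nat_lit 277)) (nd (nat_lit 279) (nat_lit 0) (cs (lf (nat_lit 34) (nat_lit 278)) (nd (nat_lit 367) (nat_lit 0) (cs (lf (nat_lit 29) (nat_lit 300)) (nd (nat_lit 365) (nat_lit 0) (cs (lf (nat_lit 41) (nat_lit 299)) (lf (nat_lit 18) (nat_lit 342))))))))))))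 (cs (nd (nat_lit 322) (nat_lit 0) (cs (lf (nat_lit 5) (nat_lit 297)) (nd (nat_lit 277) (nat_lit 0) (cs (lf (nat_lit 42) (nat_lit 277)) (rf (nat_lit 6)))))) (nd (nat_lit 322) (nat_lit 0) (cs (lf (nat_lit 5) (nat_lit 297)) (nd (nat_lit 277) (nat_lit 0) (cs (lf (nat_lit 42) (nat_lit 277)) (nd (nat_lit 278) (nat_lit 0) (cs (lf (nat_lit 41) (nat_lit 277)) (lf (nat_lit 12) (nat_lit 274))))))))))))) (cs (nd (nat_lit 321) (nat_lit 0) (cs (rf (nat_lit 7)) (lf (nat_lit 39) (nat_lit 298)))) (nd (nat_lit 321) (nat_lit 0) (cs (lf (nat_lit 36) (nat_lit 276)) (lf (nat_lit 39) (nat_lit 298)))))))) (cs (nd (nat_lit 345) (nat_lit 0) (cs (rf (nat_lit 8)) (cs (rf (nat_lit 9)) (rf (nat_lit 10))))) (cs (nd (nat_lit 345) (nat_lit 0) (cs (lf (nat_lit 11) (nat_lit 341)) (rf (nat_lit 10)))) (rf (nat_lit 11))))))) (cs (nd (nat_lit 321) (nat_lit 0) (cs (lf (nat_lit 30) (nat_lit 320)) (nd (nat_lit 299) (nat_lit 0) (cs (lf (nat_lit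 36) (nat_lit 276)) (rf (nat_lit 7)))))) (nd (nat_lit 408) (nat_lit 0) (cs (rf (nat_lit 12)) (cs (rf (nat_lit 13)) (nd (nat_lit 430) (nat_lit 0) (cs (lf (nat_lit 34) (nat_lit 342)) (nd (nat_lit 431) (nat_lit 0) (cs (lf (nat_lit 29) (nat_lit 364)) (lf (nat_lit 28) (nat_lit 342)))))))))))))))))) q29999 (by decide +kernel)
def q30432 : Q := Q.p (nat_lit 0xc0000000000200000800002000000000000000000000000000000000000000000000000000000000000000) (nat_lit 0x500003e8003fe000ff8007ff001f38003f7000758000f000001000000000000000000000000000000000000000000000000000000000000000) (nat_lit 15)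
theorem c30432 : QOK q30432 := cut [q11848, q30019, q30022, q30028, q29737, q30045, q30050, q30065, q30071, q30068, q30075, q30126, q30210, q30209, q30189, q30194, q30217, q30220, q30221, q30224, q30232, q30249, q30206, q30316, q30353, q30366, q30121, q30123, q30125, q29000, q28016, q30370, q30412, q30431] ⟨c11848, c30019, c30022, c30028, c29737, c30045, c30050, c30065, c30071, c30068, c30075, c30126, c30210, c30209, c30189, c30194, c30217, c30220, c30221, c30224, c30232, c30249, c30206, c30316, c30353, c30366, c30121, c30123, c30125, c29000, c28016, c30370, c30412, c30431, trivial⟩ (nd (nat_lit 365) (nat_lit 0) (cs (nd (nat_lit 320) (nat_lit 0) (cs (rf (nat_lit 0)) (cs (rf (nat_lit 1)) (nd (nat_lit 387) (nat_lit 0) (cs (lf (nat_lit 42) (nat_lit 320)) (nd (nat_lit 366) (nat_lit 0) (cs (rf (nat_lit 2)) (cs (nd (nat_lit 386) (nat_lit 0) (cs (rf (nat_lit 3)) (cs (nd (nat_lit 340) (nat_lit 0) (cs (lf (nat_lit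 1) (nat_lit 340)) (nd (nat_lit 385) (nat_lit 0) (cs (lf (nat_lit 12) (nat_lit 362)) (nd (nat_lit 407) (nat_lit 0) (cs (nd (nat_lit 388) (nat_lit 0) (cs (lf (nat_lit 11) (nat_lit 384)) (rf (nat_lit 4)))) (lf (nat_lit 38) (nat_lit 319)))))))) (nd (nat_lit 384) (nat_lit 0) (cs (lf (nat_lit 13) (nat_lit 362)) (nd (nat_lit 321) (nat_lit 0) (cs (lf (nat_lit 41) (nat_lit 320)) (nd (nat_lit 341) (nat_lit 0) (cs (lf (nat_lit 0) (nat_lit 340)) (nd (nat_lit 322) (nat_lit 0) (cs (lf (nat_lit 6) (nat_lit 319)) (lf (nat_lit 35) (nat_lit 299))))))))))))) (cs (nd (nat_lit 386) (nat_lit 0) (cs (rf (nat_lit 3)) (nd (nat_lit 367) (nat_lit 0) (cs (lf (nat_lit 18) (nat_lit 342)) (nd (nat_lit 385) (nat_lit 0) (cs (lf (nat_lit 12) (nat_lit 362)) (lf (nat_lit 9) (nat_lit 363)))))))) (rf (nat_lit 5))))))))))) (cs (nd (nat_lit 387) (nat_lit 0) (cs (rf (nat_lit 6)) (cs (rf (nat_lit 7)) (cs (rf (nat_lit 8)) (nd (nat_lit 409) (nat_lit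 0) (cs (rf (nat_lit 9)) (rf (nat_lit 10)))))))) (cs (rf (nat_lit 11)) (cs (rf (nat_lit 12)) (cs (nd (nat_lit 387) (nat_lit 0) (cs (rf (nat_lit 6)) (cs (rf (nat_lit 13)) (cs (nd (nat_lit 386) (nat_lit 0) (cs (rf (nat_lit 14)) (cs (rf (nat_lit 15)) (cs (nd (nat_lit 366) (nat_lit 0) (cs (rf (nat_lit 5)) (cs (nd (nat_lit 388) (nat_lit 0) (cs (nd (nat_lit 340) (nat_lit 0) (cs (lf (nat_lit 1) (nat_lit 340)) (rf (nat_lit 16)))) (cs (rf (nat_lit 17)) (rf (nat_lit 18))))) (rf (nat_lit 19))))) (nd (nat_lit 366) (nat_lit 0) (cs (rf (nat_lit 5)) (cs (rf (nat_lit 19)) (nd (nat_lit 385) (nat_lit 0) (cs (lf (nat_lit 12) (nat_lit 362)) (nd (nat_lit 388) (nat_lit 0) (cs (rf (nat_lit 4)) (cs (nd (nat_lit 340) (nat_lit 0) (cs (lf (nat_lit 1) (nat_lit 340)) (rf (nat_lit 20)))) (nd (nat_lit 407) (nat_lit 0) (cs (lf (nat_lit 11) (nat_lit 384)) (nd (nat_lit 410) (nat_lit 0) (cs (lf (nat_lit 42) (nat_lit 343)) (nd (nat_lit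 389) (nat_lit 0) (cs (lf (nat_lit 10) (nat_lit 385)) (nd (nat_lit 363) (nat_lit 0) (cs (lf (nat_lit 1) (nat_lit 363)) (lf (nat_lit 23) (nat_lit 362)))))))))))))))))))))) (rf (nat_lit 21)))))) (cs (nd (nat_lit 387) (nat_lit 0) (cs (rf (nat_lit 7)) (cs (rf (nat_lit 22)) (rf (nat_lit 13))))) (cs (rf (nat_lit 23)) (cs (rf (nat_lit 24)) (cs (rf (nat_lit 25)) (cs (nd (nat_lit 341) (nat_lit 0) (cs (rf (nat_lit 26)) (cs (rf (nat_lit 27)) (cs (rf (nat_lit 28)) (nd (nat_lit 344) (nat_lit 0) (cs (nd (nat_lit 366) (nat_lit 0) (cs (lf (nat_lit 5) (nat_lit 341)) (rf (nat_lit 29)))) (cs (nd (nat_lit 362) (nat_lit 0) (cs (lf (nat_lit 10) (nat_lit 340)) (nd (nat_lit 322) (nat_lit 0) (cs (lf (nat_lit 17) (nat_lit 319)) (rf (nat_lit 30)))))) (nd (nat_lit 366) (nat_lit 0) (cs (lf (nat_lit 5) (nat_lit 341)) (nd (nat_lit 363) (nat_lit 0) (cs (lf (nat_lit 11) (nat_lit 340)) (nd (nat_lit 364) (nat_lit 0) (cs (lf (nat_lit 6)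 (nat_lit 341)) (rf (nat_lit 31))))))))))))))) (cs (rf (nat_lit 32)) (rf (nat_lit 33)))))))))))))) q30432 (by decide +kernel)
def q30530 : Q := Q.p (nat_lit 0xc0000000000200000800002000000000010000000000000000000000000000000000000000000000000000) (nat_lit 0xf00007c0003f6000738001f78007dc003f3800390000f00003e0000100000000000000000000000000000000000000000000000) (nat_lit 12)
theorem c30530 : QOK q30530 := cut [q29185, q29246, q29472, q29474, q29480, q29488, q30445, q11848, q30449, q30062, q30456, q30461, q30466, q30479, q28696, q30505, q30509, q29582, q30508] ⟨c29185, c29246, c29472, c29474, c29480, c29488, c30445, c11848, c30449, c30062, c30456, c30461, c30466, c30479, c28696, c30505, c30509, c29582, c30508, trivial⟩ (nd (nat_lit 321) (nat_lit 0) (cs (rf (nat_lit 0)) (cs (rf (nat_lit 1)) (cs (rf (nat_lit 2)) (cs (rf (nat_lit 3)) (cs (rf (nat_lit 4)) (cs (rf (nat_lit 5)) (cs (rf (nat_lit 6)) (cs (nd (nat_lit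 320) (nat_lit 0) (cs (rf (nat_lit 7)) (nd (nat_lit 344) (nat_lit 0) (cs (rf (nat_lit 8)) (cs (nd (nat_lit 322) (nat_lit 0) (cs (rf (nat_lit 9)) (cs (rf (nat_lit 10)) (rf (nat_lit 11))))) (cs (rf (nat_lit 12)) (cs (nd (nat_lit 345) (nat_lit 0) (cs (lf (nat_lit 18) (nat_lit 320)) (nd (nat_lit 323) (nat_lit 0) (cs (lf (nat_lit 17) (nat_lit 320)) (nd (nat_lit 322) (nat_lit 0) (cs (lf (nat_lit 11) (nat_lit 319)) (nd (nat_lit 301) (nat_lit 0) (cs (lf (nat_lit 17) (nat_lit 298)) (nd (nat_lit 257) (nat_lit 0) (cs (nd (nat_lit 367) (nat_lit 0) (cs (lf (nat_lit 5) (nat_lit 342)) (nd (nat_lit 300) (nat_lit 0) (cs (lf (nat_lit 42) (nat_lit 300)) (lf (nat_lit 47) (nat_lit 278)))))) (lf (nat_lit 37) (nat_lit 256)))))))))))) (cs (rf (nat_lit 13)) (nd (nat_lit 322) (nat_lit 0) (cs (rf (nat_lit 11)) (cs (nd (nat_lit 345) (nat_lit 0) (cs (lf (nat_lit 18) (nat_lit 320)) (rf (nat_lit 14)))) (cs (nd (nat_lit 345) (nat_lit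 0) (cs (lf (nat_lit 18) (nat_lit 320)) (nd (nat_lit 367) (nat_lit 0) (cs (lf (nat_lit 5) (nat_lit 342)) (nd (nat_lit 389) (nat_lit 0) (cs (lf (nat_lit 42) (nat_lit 322)) (nd (nat_lit 323) (nat_lit 0) (cs (lf (nat_lit 17) (nat_lit 320)) (nd (nat_lit 388) (nat_lit 0) (cs (lf (nat_lit 41) (nat_lit 322)) (nd (nat_lit 301) (nat_lit 0) (cs (lf (nat_lit 17) (nat_lit 298)) (lf (nat_lit 40) (nat_lit 300)))))))))))))) (nd (nat_lit 345) (nat_lit 0) (cs (lf (nat_lit 18) (nat_lit 320)) (nd (nat_lit 367) (nat_lit 0) (cs (lf (nat_lit 5) (nat_lit 342)) (nd (nat_lit 389) (nat_lit 0) (cs (lf (nat_lit 42) (nat_lit 322)) (nd (nat_lit 323) (nat_lit 0) (cs (lf (nat_lit 6) (nat_lit 320)) (lf (nat_lit 47) (nat_lit 300)))))))))))))))))))))) (cs (rf (nat_lit 15)) (nd (nat_lit 320) (nat_lit 0) (cs (rf (nat_lit 7)) (nd (nat_lit 344) (nat_lit 0) (cs (rf (nat_lit 8)) (cs (rf (nat_lit 13)) (cs (rf (nat_lit 16)) (cs (nd (nat_lit 345)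 (nat_lit 0) (cs (lf (nat_lit 18) (nat_lit 320)) (nd (nat_lit 323) (nat_lit 0) (cs (lf (nat_lit 17) (nat_lit 320)) (nd (nat_lit 341) (nat_lit 0) (cs (lf (nat_lit 16) (nat_lit 319)) (nd (nat_lit 340) (nat_lit 0) (cs (lf (nat_lit 12) (nat_lit 317)) (nd (nat_lit 367) (nat_lit 0) (cs (lf (nat_lit 5) (nat_lit 342)) (rf (nat_lit 17)))))))))))) (nd (nat_lit 366) (nat_lit 0) (cs (rf (nat_lit 18)) (cs (nd (nat_lit 345) (nat_lit 0) (cs (lf (nat_lit 18) (nat_lit 320)) (nd (nat_lit 367) (nat_lit 0) (cs (lf (nat_lit 5) (nat_lit 342)) (nd (nat_lit 323) (nat_lit 0) (cs (lf (nat_lit 17) (nat_lit 320)) (nd (nat_lit 301) (nat_lit 0) (cs (lf (nat_lit 36) (nat_lit 278)) (nd (nat_lit 302) (nat_lit 0) (cs (lf (nat_lit 14) (nat_lit 298)) (lf (nat_lit 35) (nat_lit 279)))))))))))) (nd (nat_lit 277) (nat_lit 0) (cs (lf (nat_lit 25) (nat_lit 277)) (nd (nat_lit 388) (nat_lit 0) (cs (lf (nat_lit 42) (nat_lit 321)) (nd (nat_lit 345)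 (nat_lit 0) (cs (lf (nat_lit 18) (nat_lit 320)) (nd (nat_lit 323) (nat_lit 0) (cs (lf (nat_lit 17) (nat_lit 320)) (nd (nat_lit 367) (nat_lit 0) (cs (lf (nat_lit 5) (nat_lit 342)) (lf (nat_lit 36) (nat_lit 300)))))))))))))))))))))))))))))))) q30530 (by decide +kernel)
def q30573 : Q := Q.p (nat_lit 0xc0000000000200000800002000000000000000000000000000000000000000000000000000000000000000) (nat_lit 0xe0000b80002f8007fe001f30007f70007d8001f0000790001e0000000000000000000000000000000000000000000000000000000000) (nat_lit 15)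
theorem c30573 : QOK q30573 := cut [q28045, q28066, q28068, q28098, q28981, q27991, q27996, q15042, q27997, q28001, q28005, q28010, q28564, q29923, q29924, q28015, q30347, q30555, q30572] ⟨c28045, c28066, c28068, c28098, c28981, c27991, c27996, c15042, c27997, c28001, c28005, c28010, c28564, c29923, c29924, c28015, c30347, c30555, c30572, trivial⟩ (nd (nat_lit 344) (nat_lit 0) (cs (rf (nat_lit 0)) (cs (rf (nat_lit 1)) (cs (rf (nat_lit 2)) (cs (rf (nat_lit 3)) (cs (rf (nat_lit 4)) (cs (nd (nat_lit 322) (nat_lit 0) (cs (rf (nat_lit 5)) (cs (rf (nat_lit 6)) (cs (nd (nat_lit 298) (nat_lit 0) (cs (rf (nat_lit 7)) (cs (nd (nat_lit 300) (nat_lit 0) (cs (nd (nat_lit 278) (nat_lit 0) (cs (lf (nat_lit 41) (nat_lit 277)) (rf (nat_lit 8)))) (cs (rf (nat_lit 9)) (nd (nat_lit 299) (nat_lit 0) (cs (lf (nat_lit 5) (nat_lit 297)) (rf (nat_lit 10))))))) (nd (nat_lit 320) (nat_lit 0) (cs (lf (nat_lit 42) (nat_lit 275))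 (rf (nat_lit 11))))))) (nd (nat_lit 300) (nat_lit 0) (cs (rf (nat_lit 9)) (cs (rf (nat_lit 12)) (cs (rf (nat_lit 13)) (cs (rf (nat_lit 14)) (nd (nat_lit 365) (nat_lit 0) (cs (rf (nat_lit 15)) (cs (nd (nat_lit 366) (nat_lit 0) (cs (nd (nat_lit 367) (nat_lit 0) (cs (lf (nat_lit 29) (nat_lit 300)) (lf (nat_lit 18) (nat_lit 342)))) (nd (nat_lit 364) (nat_lit 0) (cs (nd (nat_lit 363) (nat_lit 0) (cs (lf (nat_lit 12) (nat_lit 340)) (nd (nat_lit 320) (nat_lit 0) (cs (lf (nat_lit 45) (nat_lit 275)) (nd (nat_lit 340) (nat_lit 0) (cs (lf (nat_lit 22) (nat_lit 340)) (nd (nat_lit 385) (nat_lit 0) (cs (lf (nat_lit 11) (nat_lit 362)) (nd (nat_lit 407) (nat_lit 0) (cs (lf (nat_lit 30) (nat_lit 341)) (lf (nat_lit 39) (nat_lit 319)))))))))))) (cs (nd (nat_lit 298) (nat_lit 0) (cs (lf (nat_lit 44) (nat_lit 275)) (nd (nat_lit 299) (nat_lit 0) (cs (lf (nat_lit 47) (nat_lit 277)) (nd (nat_lit 321) (nat_lit 0) (cs (lf (nat_lit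 47) (nat_lit 276)) (lf (nat_lit 41) (nat_lit 298)))))))) (cs (nd (nat_lit 277) (nat_lit 0) (cs (lf (nat_lit 46) (nat_lit 277)) (nd (nat_lit 279) (nat_lit 0) (cs (lf (nat_lit 34) (nat_lit 278)) (nd (nat_lit 340) (nat_lit 0) (cs (lf (nat_lit 1) (nat_lit 340)) (nd (nat_lit 363) (nat_lit 0) (cs (lf (nat_lit 12) (nat_lit 340)) (nd (nat_lit 385) (nat_lit 0) (cs (lf (nat_lit 11) (nat_lit 362)) (nd (nat_lit 407) (nat_lit 0) (cs (lf (nat_lit 30) (nat_lit 341)) (nd (nat_lit 386) (nat_lit 0) (cs (lf (nat_lit 36) (nat_lit 319)) (rf (nat_lit 16)))))))))))))))) (cs (nd (nat_lit 362) (nat_lit 0) (cs (nd (nat_lit 279) (nat_lit 0) (cs (lf (nat_lit 34) (nat_lit 278)) (nd (nat_lit 340) (nat_lit 0) (cs (lf (nat_lit 1) (nat_lit 340)) (nd (nat_lit 296) (nat_lit 0) (cs (lf (nat_lit 32) (nat_lit 274)) (nd (nat_lit 299) (nat_lit 0) (cs (lf (nat_lit 47) (nat_lit 277)) (nd (nat_lit 321) (nat_lit 0) (cs (lf (nat_lit 41) (nat_lit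 298)) (lf (nat_lit 2) (nat_lit 296)))))))))))) (lf (nat_lit 13) (nat_lit 340)))) (nd (nat_lit 277) (nat_lit 0) (cs (lf (nat_lit 46) (nat_lit 277)) (nd (nat_lit 320) (nat_lit 0) (cs (lf (nat_lit 45) (nat_lit 275)) (nd (nat_lit 363) (nat_lit 0) (cs (lf (nat_lit 12) (nat_lit 340)) (rf (nat_lit 17))))))))))))))) (nd (nat_lit 387) (nat_lit 0) (cs (lf (nat_lit 30) (nat_lit 321)) (lf (nat_lit 39) (nat_lit 299)))))))))))))))) (rf (nat_lit 18))))))))) q30573 (by decide +kernel)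
def q30695 : Q := Q.p (nat_lit 0xc0000100000200000800002000000000000000000000000000000000000000000000000000000000000000) (nat_lit 0x200000ff0007fc001ff800738001e60001900007000019000000000000000000000000000000000000000000000000000000000000000) (nat_lit 14)
theorem c30695 : QOK q30695 := cut [q29152, q29426, q30593, q29144, q29245, q30627, q30631, q30634, q30639, q30648, q29132, q29136, q30588, q30651, q30062, q28559, q13543, q30670, q30677, q30592, q30689, q28477] ⟨c29152, c29426, c30593, c29144, c29245, c30627, c30631, c30634, c30639, c30648, c29132, c29136, c30588, c30651, c30062, c28559, c13543, c30670, c30677, c30592, c30689, c28477, trivial⟩ (nd (nat_lit 321) (nat_lit 0) (cs (rf (nat_lit 0)) (cs (rf (nat_lit 1)) (cs (rf (nat_lit 2)) (cs (nd (nat_lit 299) (nat_lit 0) (cs (rf (nat_lit 3)) (cs (rf (nat_lit 4)) (nd (nat_lit 365) (nat_lit 0) (cs (rf (nat_lit 5)) (cs (nd (nat_lit 364) (nat_lit 0) (cs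 (lf (nat_lit 30) (nat_lit 298)) (rf (nat_lit 6)))) (nd (nat_lit 366) (nat_lit 0) (cs (lf (nat_lit 29) (nat_lit 299)) (rf (nat_lit 7)))))))))) (cs (rf (nat_lit 8)) (cs (nd (nat_lit 299) (nat_lit 0) (cs (rf (nat_lit 3)) (cs (rf (nat_lit 4)) (nd (nat_lit 365) (nat_lit 0) (cs (rf (nat_lit 5)) (cs (rf (nat_lit 7)) (rf (nat_lit 9)))))))) (cs (nd (nat_lit 341) (nat_lit 0) (cs (rf (nat_lit 10)) (cs (rf (nat_lit 11)) (nd (nat_lit 344) (nat_lit 0) (cs (rf (nat_lit 12)) (cs (nd (nat_lit 366) (nat_lit 0) (cs (lf (nat_lit 5) (nat_lit 341)) (nd (nat_lit 388) (nat_lit 0) (cs (lf (nat_lit 42) (nat_lit 321)) (rf (nat_lit 13)))))) (nd (nat_lit 322) (nat_lit 0) (cs (rf (nat_lit 14)) (nd (nat_lit 362) (nat_lit 0) (cs (lf (nat_lit 10) (nat_lit 340)) (nd (nat_lit 366) (nat_lit 0) (cs (lf (nat_lit 5) (nat_lit 341)) (nd (nat_lit 388) (nat_lit 0) (cs (lf (nat_lit 42) (nat_lit 321)) (nd (nat_lit 387) (nat_lit 0) (cs (lf (nat_lit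 41) (nat_lit 321)) (nd (nat_lit 300) (nat_lit 0) (cs (lf (nat_lit 40) (nat_lit 299)) (nd (nat_lit 278) (nat_lit 0) (cs (lf (nat_lit 36) (nat_lit 255)) (nd (nat_lit 389) (nat_lit 0) (cs (lf (nat_lit 29) (nat_lit 322)) (rf (nat_lit 15)))))))))))))))))))))))) (cs (nd (nat_lit 341) (nat_lit 0) (cs (rf (nat_lit 10)) (cs (rf (nat_lit 11)) (nd (nat_lit 344) (nat_lit 0) (cs (rf (nat_lit 12)) (cs (rf (nat_lit 13)) (nd (nat_lit 364) (nat_lit 0) (cs (nd (nat_lit 366) (nat_lit 0) (cs (lf (nat_lit 5) (nat_lit 341)) (nd (nat_lit 277) (nat_lit 0) (cs (lf (nat_lit 25) (nat_lit 277)) (nd (nat_lit 322) (nat_lit 0) (cs (lf (nat_lit 17) (nat_lit 319)) (nd (nat_lit 363) (nat_lit 0) (cs (lf (nat_lit 11) (nat_lit 340)) (nd (nat_lit 385) (nat_lit 0) (cs (lf (nat_lit 30) (nat_lit 319)) (nd (nat_lit 365) (nat_lit 0) (cs (rf (nat_lit 16)) (lf (nat_lit 11) (nat_lit 362)))))))))))))) (cs (nd (nat_lit 322) (nat_lit 0) (cs (rf (nat_lit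 14)) (nd (nat_lit 366) (nat_lit 0) (cs (lf (nat_lit 5) (nat_lit 341)) (nd (nat_lit 362) (nat_lit 0) (cs (lf (nat_lit 10) (nat_lit 340)) (nd (nat_lit 386) (nat_lit 0) (cs (lf (nat_lit 30) (nat_lit 320)) (nd (nat_lit 387) (nat_lit 0) (cs (lf (nat_lit 29) (nat_lit 320)) (nd (nat_lit 300) (nat_lit 0) (cs (lf (nat_lit 40) (nat_lit 299)) (rf (nat_lit 17)))))))))))))) (rf (nat_lit 18))))))))))) (cs (nd (nat_lit 341) (nat_lit 0) (cs (rf (nat_lit 10)) (cs (rf (nat_lit 19)) (rf (nat_lit 20))))) (nd (nat_lit 341) (nat_lit 0) (cs (rf (nat_lit 10)) (cs (rf (nat_lit 11)) (nd (nat_lit 344) (nat_lit 0) (cs (rf (nat_lit 13)) (nd (nat_lit 366) (nat_lit 0) (cs (lf (nat_lit 5) (nat_lit 341)) (nd (nat_lit 388) (nat_lit 0) (cs (lf (nat_lit 42) (nat_lit 321)) (rf (nat_lit 21))))))))))))))))))))) q30695 (by decide +kernel)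
def q30881 : Q := Q.p (nat_lit 0xc0000100000200000800002000000000000000000000000000000000000000000000000000000000000000) (nat_lit 0xe0000ff0007f80007e000738001e6000790000f000039000000000000000000000000000000000000000000000000000000000000000) (nat_lit 14)
theorem c30881 : QOK q30881 := cut [q29152, q30738, q30748, q29132, q29136, q30479, q30651, q30062, q28377, q30777, q30796, q30819, q30841, q30842, q28023, q30879, q30689, q29137, q30677] ⟨c29152, c30738, c30748, c29132, c29136, c30479, c30651, c30062, c28377, c30777, c30796, c30819, c30841, c30842, c28023, c30879, c30689, c29137, c30677, trivial⟩ (nd (nat_lit 321) (nat_lit 0) (cs (rf (nat_lit 0)) (cs (rf (nat_lit 1)) (cs (rf (nat_lit 2)) (cs (nd (nat_lit 341) (nat_lit 0) (cs (rf (nat_lit 3)) (cs (rf (nat_lit 4)) (nd (nat_lit 344) (nat_lit 0) (cs (rf (nat_lit 5)) (cs (rf (nat_lit 6)) (nd (nat_lit 322) (nat_lit 0) (cs (rf (nat_lit 7)) (nd (nat_lit 363)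 (nat_lit 0) (cs (lf (nat_lit 11) (nat_lit 340)) (nd (nat_lit 407) (nat_lit 0) (cs (lf (nat_lit 31) (nat_lit 319)) (nd (nat_lit 277) (nat_lit 0) (cs (nd (nat_lit 278) (nat_lit 0) (cs (rf (nat_lit 8)) (nd (nat_lit 300) (nat_lit 0) (cs (lf (nat_lit 36) (nat_lit 255)) (lf (nat_lit 47) (nat_lit 255)))))) (nd (nat_lit 299) (nat_lit 0) (cs (lf (nat_lit 41) (nat_lit 276)) (lf (nat_lit 29) (nat_lit 277)))))))))))))))))) (cs (rf (nat_lit 9)) (cs (rf (nat_lit 10)) (cs (rf (nat_lit 11)) (cs (nd (nat_lit 341) (nat_lit 0) (cs (rf (nat_lit 3)) (cs (rf (nat_lit 4)) (nd (nat_lit 344) (nat_lit 0) (cs (rf (nat_lit 5)) (cs (rf (nat_lit 6)) (nd (nat_lit 322) (nat_lit 0) (cs (rf (nat_lit 7)) (nd (nat_lit 387) (nat_lit 0) (cs (nd (nat_lit 365) (nat_lit 0) (cs (lf (nat_lit 35) (nat_lit 299)) (lf (nat_lit 42) (nat_lit 320)))) (cs (nd (nat_lit 386) (nat_lit 0) (cs (nd (nat_lit 364) (nat_lit 0) (cs (lf (nat_lit 29) (nat_lit 320))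 (lf (nat_lit 35) (nat_lit 298)))) (cs (rf (nat_lit 12)) (cs (rf (nat_lit 13)) (nd (nat_lit 364) (nat_lit 0) (cs (lf (nat_lit 29) (nat_lit 320)) (lf (nat_lit 30) (nat_lit 320)))))))) (nd (nat_lit 362) (nat_lit 0) (cs (lf (nat_lit 10) (nat_lit 340)) (nd (nat_lit 365) (nat_lit 0) (cs (lf (nat_lit 35) (nat_lit 299)) (rf (nat_lit 14))))))))))))))))) (cs (rf (nat_lit 15)) (nd (nat_lit 341) (nat_lit 0) (cs (rf (nat_lit 3)) (cs (rf (nat_lit 16)) (nd (nat_lit 344) (nat_lit 0) (cs (rf (nat_lit 5)) (cs (rf (nat_lit 6)) (nd (nat_lit 322) (nat_lit 0) (cs (rf (nat_lit 7)) (nd (nat_lit 365) (nat_lit 0) (cs (nd (nat_lit 387) (nat_lit 0) (cs (lf (nat_lit 30) (nat_lit 321)) (rf (nat_lit 14)))) (cs (rf (nat_lit 17)) (nd (nat_lit 364) (nat_lit 0) (cs (rf (nat_lit 18)) (cs (nd (nat_lit 278) (nat_lit 0) (cs (lf (nat_lit 37) (nat_lit 277)) (nd (nat_lit 363) (nat_lit 0) (cs (lf (nat_lit 11) (nat_lit 340)) (nd (nat_lit 385)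 (nat_lit 0) (cs (lf (nat_lit 30) (nat_lit 319)) (nd (nat_lit 366) (nat_lit 0) (cs (lf (nat_lit 11) (nat_lit 362)) (nd (nat_lit 388) (nat_lit 0) (cs (lf (nat_lit 42) (nat_lit 321)) (lf (nat_lit 47) (nat_lit 299)))))))))))) (nd (nat_lit 278) (nat_lit 0) (cs (lf (nat_lit 37) (nat_lit 277)) (nd (nat_lit 386) (nat_lit 0) (cs (lf (nat_lit 30) (nat_lit 320)) (nd (nat_lit 385) (nat_lit 0) (cs (lf (nat_lit 41) (nat_lit 319)) (nd (nat_lit 384) (nat_lit 0) (cs (lf (nat_lit 12) (nat_lit 361)) (nd (nat_lit 363) (nat_lit 0) (cs (lf (nat_lit 11) (nat_lit 340)) (lf (nat_lit 6) (nat_lit 362)))))))))))))))))))))))))))))))))))) q30881 (by decide +kernel)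
def q30971 : Q := Q.p (nat_lit 0xc0000000000200000800002000000000010000000000000000000000000000000000000000000000000000) (nat_lit 0xf80007e0001f8000f30001f38007dc003f3800390000f00003e0000100000000000000000000000000000000000000000000000) (nat_lit 14)
theorem c30971 : QOK q30971 := cut [q29185, q29246, q29431, q29472, q29474, q29480, q29488, q30445, q30505, q13978, q29182, q29393, q30456, q29100, q30953, q28559, q27966, q28696, q11848, q28009, q28787, q30639, q29184, q29158, q29245, q29470] ⟨c29185, c29246, c29431, c29472, c29474, c29480, c29488, c30445, c30505, c13978, c29182, c29393, c30456, c29100, c30953, c28559, c27966, c28696, c11848, c28009, c28787, c30639, c29184, c29158, c29245, c29470, trivial⟩ (nd (nat_lit 321) (nat_lit 0) (cs (rf (nat_lit 0)) (cs (rf (nat_lit 1)) (cs (rf (nat_lit 2)) (cs (rf (nat_lit 3)) (cs (rf (nat_lit 4)) (cs (rf (nat_lit 5)) (cs (rf (nat_lit 6)) (cs (rf (nat_lit 7)) (cs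 (rf (nat_lit 8)) (cs (nd (nat_lit 322) (nat_lit 0) (cs (rf (nat_lit 9)) (cs (rf (nat_lit 10)) (cs (rf (nat_lit 11)) (nd (nat_lit 344) (nat_lit 0) (cs (rf (nat_lit 12)) (cs (nd (nat_lit 341) (nat_lit 0) (cs (lf (nat_lit 12) (nat_lit 318)) (nd (nat_lit 367) (nat_lit 0) (cs (lf (nat_lit 4) (nat_lit 341)) (nd (nat_lit 345) (nat_lit 0) (cs (lf (nat_lit 5) (nat_lit 342)) (rf (nat_lit 13)))))))) (cs (nd (nat_lit 364) (nat_lit 0) (cs (nd (nat_lit 340) (nat_lit 0) (cs (lf (nat_lit 13) (nat_lit 318)) (rf (nat_lit 14)))) (cs (nd (nat_lit 345) (nat_lit 0) (cs (lf (nat_lit 11) (nat_lit 341)) (nd (nat_lit 346) (nat_lit 0) (cs (lf (nat_lit 10) (nat_lit 342)) (lf (nat_lit 18) (nat_lit 321)))))) (nd (nat_lit 320) (nat_lit 0) (cs (lf (nat_lit 45) (nat_lit 275)) (nd (nat_lit 386) (nat_lit 0) (cs (lf (nat_lit 30) (nat_lit 320)) (nd (nat_lit 387) (nat_lit 0) (cs (lf (nat_lit 29) (nat_lit 320)) (nd (nat_lit 300) (nat_lit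 0) (cs (lf (nat_lit 31) (nat_lit 299)) (nd (nat_lit 278) (nat_lit 0) (cs (lf (nat_lit 36) (nat_lit 255)) (nd (nat_lit 385) (nat_lit 0) (cs (lf (nat_lit 41) (nat_lit 319)) (nd (nat_lit 257) (nat_lit 0) (cs (lf (nat_lit 34) (nat_lit 256)) (rf (nat_lit 15))))))))))))))))))) (nd (nat_lit 345) (nat_lit 0) (cs (rf (nat_lit 16)) (rf (nat_lit 17)))))))))))) (cs (nd (nat_lit 320) (nat_lit 0) (cs (rf (nat_lit 18)) (cs (nd (nat_lit 298) (nat_lit 0) (cs (lf (nat_lit 45) (nat_lit 253)) (nd (nat_lit 365) (nat_lit 0) (cs (lf (nat_lit 42) (nat_lit 298)) (nd (nat_lit 322) (nat_lit 0) (cs (lf (nat_lit 18) (nat_lit 297)) (rf (nat_lit 19)))))))) (cs (nd (nat_lit 298) (nat_lit 0) (cs (lf (nat_lit 42) (nat_lit 275)) (rf (nat_lit 20)))) (rf (nat_lit 21)))))) (nd (nat_lit 322) (nat_lit 0) (cs (rf (nat_lit 10)) (cs (rf (nat_lit 22)) (nd (nat_lit 299) (nat_lit 0) (cs (rf (nat_lit 23)) (cs (rf (nat_lit 24)) (rf (nat_lit 25))))))))))))))))))))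 q30971 (by decide +kernel)
def q31159 : Q := Q.p (nat_lit 0xc0000000000200000800000000000000000000000000000000000000000000000000000000000000000000) (nat_lit 0xb00003fc001fe0007fc007ff000f3c00ff7003fd8003e0000780001e0000200000000000000000000000000000000000000000000000000000) (nat_lit 14)
theorem c31159 : QOK q31159 := cut [q29472, q31015, q29222, q29671, q29767, q29096, q30953, q30589, q31016, q30449, q29244, q29292, q28137, q28335, q28338, q31027, q31037, q31039, q31124, q15034, q30711, q15033, q30455, q31134, q31136, q29245, q30433, q31138, q30648, q30989, q31156, q30590] ⟨c29472, c31015, c29222, c29671, c29767, c29096, c30953, c30589, c31016, c30449, c29244, c29292, c28137, c28335, c28338, c31027, c31037, c31039, c31124, c15034, c30711, c15033, c30455, c31134, c31136, c29245, c30433, c31138, c30648, c30989, c31156, c30590, trivial⟩ (nd (nat_lit 321) (nat_lit 0) (cs (rf (nat_lit 0)) (cs (rf (nat_lit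 1)) (cs (nd (nat_lit 364) (nat_lit 0) (cs (rf (nat_lit 2)) (cs (rf (nat_lit 3)) (cs (rf (nat_lit 4)) (nd (nat_lit 344) (nat_lit 0) (cs (rf (nat_lit 5)) (cs (rf (nat_lit 6)) (cs (nd (nat_lit 366) (nat_lit 0) (cs (rf (nat_lit 7)) (nd (nat_lit 298) (nat_lit 0) (cs (lf (nat_lit 44) (nat_lit 275)) (rf (nat_lit 8)))))) (nd (nat_lit 277) (nat_lit 0) (cs (lf (nat_lit 37) (nat_lit 276)) (nd (nat_lit 320) (nat_lit 0) (cs (lf (nat_lit 45) (nat_lit 275)) (rf (nat_lit 9)))))))))))))) (cs (nd (nat_lit 299) (nat_lit 0) (cs (rf (nat_lit 10)) (cs (nd (nat_lit 364) (nat_lit 0) (cs (rf (nat_lit 11)) (cs (nd (nat_lit 298) (nat_lit 0) (cs (lf (nat_lit 44) (nat_lit 275)) (nd (nat_lit 296) (nat_lit 0) (cs (lf (nat_lit 5) (nat_lit 296)) (nd (nat_lit 318) (nat_lit 0) (cs (lf (nat_lit 11) (nat_lit 295)) (nd (nat_lit 362) (nat_lit 0) (cs (lf (nat_lit 31) (nat_lit 274)) (rf (nat_lit 12)))))))))) (nd (nat_lit 344) (nat_lit 0) (cs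 (rf (nat_lit 13)) (cs (rf (nat_lit 14)) (nd (nat_lit 322) (nat_lit 0) (cs (nd (nat_lit 386) (nat_lit 0) (cs (lf (nat_lit 30) (nat_lit 320)) (nd (nat_lit 366) (nat_lit 0) (cs (lf (nat_lit 42) (nat_lit 299)) (rf (nat_lit 15)))))) (nd (nat_lit 323) (nat_lit 0) (cs (lf (nat_lit 6) (nat_lit 320)) (nd (nat_lit 298) (nat_lit 0) (cs (lf (nat_lit 0) (nat_lit 296)) (lf (nat_lit 3) (nat_lit 297)))))))))))))) (cs (rf (nat_lit 16)) (rf (nat_lit 17)))))) (cs (rf (nat_lit 18)) (cs (nd (nat_lit 341) (nat_lit 0) (cs (rf (nat_lit 19)) (cs (nd (nat_lit 344) (nat_lit 0) (cs (rf (nat_lit 20)) (cs (nd (nat_lit 322) (nat_lit 0) (cs (rf (nat_lit 21)) (rf (nat_lit 22)))) (cs (nd (nat_lit 366) (nat_lit 0) (cs (lf (nat_lit 5) (nat_lit 341)) (nd (nat_lit 388) (nat_lit 0) (cs (lf (nat_lit 42) (nat_lit 321)) (nd (nat_lit 363) (nat_lit 0) (cs (lf (nat_lit 11) (nat_lit 340)) (nd (nat_lit 345) (nat_lit 0) (cs (lf (nat_lit 10) (nat_lit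 341)) (nd (nat_lit 346) (nat_lit 0) (cs (lf (nat_lit 23) (nat_lit 320)) (nd (nat_lit 347) (nat_lit 0) (cs (lf (nat_lit 22) (nat_lit 321)) (lf (nat_lit 11) (nat_lit 343)))))))))))))) (rf (nat_lit 23)))))) (rf (nat_lit 24))))) (cs (nd (nat_lit 299) (nat_lit 0) (cs (rf (nat_lit 10)) (cs (rf (nat_lit 25)) (nd (nat_lit 365) (nat_lit 0) (cs (rf (nat_lit 26)) (rf (nat_lit 27))))))) (cs (nd (nat_lit 299) (nat_lit 0) (cs (rf (nat_lit 25)) (cs (rf (nat_lit 16)) (nd (nat_lit 365) (nat_lit 0) (cs (rf (nat_lit 28)) (cs (rf (nat_lit 29)) (rf (nat_lit 27)))))))) (cs (rf (nat_lit 30)) (nd (nat_lit 341) (nat_lit 0) (cs (rf (nat_lit 19)) (cs (rf (nat_lit 24)) (nd (nat_lit 344) (nat_lit 0) (cs (rf (nat_lit 31)) (rf (nat_lit 23))))))))))))))))) q31159 (by decide +kernel)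
def q31175 : Q := Q.p (nat_lit 0xc0000000000200000800002000000000000000000000000000000000000000000000000000000000000000) (nat_lit 0x20000380000f80003e000ffe001f3800ff00007d0001f0000790001a0000000000000000000000000000000000000000000000000000000000) (nat_lit 15)
theorem c31175 : QOK q31175 := cut [q27967, q28709, q28714, q29093, q29948, q30698, q30710, q30711, q27990, q28067, q28980, q11848, q30682] ⟨c27967, c28709, c28714, c29093, c29948, c30698, c30710, c30711, c27990, c28067, c28980, c11848, c30682, trivial⟩ (nd (nat_lit 344) (nat_lit 0) (cs (rf (nat_lit 0)) (cs (rf (nat_lit 1)) (cs (rf (nat_lit 2)) (cs (rf (nat_lit 3)) (cs (rf (nat_lit 4)) (cs (rf (nat_lit 5)) (cs (rf (nat_lit 6)) (cs (rf (nat_lit 7)) (nd (nat_lit 323) (nat_lit 0) (cs (nd (nat_lit 322) (nat_lit 0) (cs (lf (nat_lit 12) (nat_lit 319)) (rf (nat_lit 8)))) (cs (rf (nat_lit 9)) (cs (rf (nat_lit 10)) (nd (nat_lit 320) (nat_lit 0) (cs (rf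 (nat_lit 11)) (cs (nd (nat_lit 322) (nat_lit 0) (cs (lf (nat_lit 12) (nat_lit 319)) (nd (nat_lit 298) (nat_lit 0) (cs (lf (nat_lit 45) (nat_lit 253)) (lf (nat_lit 20) (nat_lit 297)))))) (nd (nat_lit 341) (nat_lit 0) (cs (lf (nat_lit 16) (nat_lit 319)) (nd (nat_lit 362) (nat_lit 0) (cs (lf (nat_lit 10) (nat_lit 340)) (nd (nat_lit 340) (nat_lit 0) (cs (lf (nat_lit 11) (nat_lit 339)) (nd (nat_lit 321) (nat_lit 0) (cs (lf (nat_lit 12) (nat_lit 317)) (nd (nat_lit 345) (nat_lit 0) (cs (lf (nat_lit 18) (nat_lit 320)) (nd (nat_lit 365) (nat_lit 0) (cs (lf (nat_lit 5) (nat_lit 340)) (nd (nat_lit 387) (nat_lit 0) (cs (lf (nat_lit 42) (nat_lit 320)) (nd (nat_lit 386) (nat_lit 0) (cs (lf (nat_lit 41) (nat_lit 320)) (nd (nat_lit 299) (nat_lit 0) (cs (lf (nat_lit 40) (nat_lit 298)) (rf (nat_lit 12)))))))))))))))))))))))))))))))))))) q31175 (by decide +kernel)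
def q31576 : Q := Q.p (nat_lit 0x40000400000200000800002000000000000000000000000000000000000000000000000000000000000000) (nat_lit 0x1780007e0003fb001fb0003fd0007f0000f90003e0000280000000000000000000000000000000000000000000000000000) (nat_lit 15)
theorem c31576 : QOK q31576 := cut [q28638, q31330, q29927, q31332, q31340, q31345, q31353, q31355, q30459, q31327, q31358, q31365, q31376, q31380, q31399, q31401, q31403, q31407, q31500, q28125, q30055, q30060, q13976, q31569, q29183, q31318] ⟨c28638, c31330, c29927, c31332, c31340, c31345, c31353, c31355, c30459, c31327, c31358, c31365, c31376, c31380, c31399, c31401, c31403, c31407, c31500, c28125, c30055, c30060, c13976, c31569, c29183, c31318, trivial⟩ (nd (nat_lit 323) (nat_lit 0) (cs (nd (nat_lit 300) (nat_lit 0) (cs (rf (nat_lit 0)) (cs (rf (nat_lit 1)) (nd (nat_lit 344) (nat_lit 0) (cs (rf (nat_lit 2)) (cs (nd (nat_lit 341) (nat_lit 0) (cs (rf (nat_lit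 3)) (lf (nat_lit 14) (nat_lit 319)))) (nd (nat_lit 343) (nat_lit 0) (cs (lf (nat_lit 12) (nat_lit 319)) (nd (nat_lit 278) (nat_lit 0) (cs (lf (nat_lit 41) (nat_lit 277)) (nd (nat_lit 256) (nat_lit 0) (cs (lf (nat_lit 29) (nat_lit 256)) (lf (nat_lit 40) (nat_lit 255)))))))))))))) (cs (nd (nat_lit 344) (nat_lit 0) (cs (rf (nat_lit 4)) (cs (nd (nat_lit 300) (nat_lit 0) (cs (rf (nat_lit 3)) (cs (nd (nat_lit 343) (nat_lit 0) (cs (lf (nat_lit 12) (nat_lit 319)) (nd (nat_lit 298) (nat_lit 0) (cs (lf (nat_lit 2) (nat_lit 297)) (nd (nat_lit 276) (nat_lit 0) (cs (lf (nat_lit 43) (nat_lit 253)) (rf (nat_lit 5)))))))) (cs (rf (nat_lit 6)) (rf (nat_lit 7)))))) (cs (nd (nat_lit 301) (nat_lit 0) (cs (rf (nat_lit 8)) (cs (nd (nat_lit 300) (nat_lit 0) (cs (rf (nat_lit 9)) (cs (nd (nat_lit 366) (nat_lit 0) (cs (lf (nat_lit 30) (nat_lit 300)) (nd (nat_lit 367) (nat_lit 0) (cs (lf (nat_lit 29) (nat_lit 300)) (nd (nat_lit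 278) (nat_lit 0) (cs (lf (nat_lit 28) (nat_lit 278)) (rf (nat_lit 10)))))))) (cs (nd (nat_lit 366) (nat_lit 0) (cs (lf (nat_lit 30) (nat_lit 300)) (nd (nat_lit 367) (nat_lit 0) (cs (lf (nat_lit 29) (nat_lit 300)) (nd (nat_lit 345) (nat_lit 0) (cs (lf (nat_lit 47) (nat_lit 278)) (nd (nat_lit 280) (nat_lit 0) (cs (lf (nat_lit 34) (nat_lit 279)) (nd (nat_lit 365) (nat_lit 0) (cs (lf (nat_lit 41) (nat_lit 299)) (nd (nat_lit 347) (nat_lit 0) (cs (nd (nat_lit 298) (nat_lit 0) (cs (lf (nat_lit 2) (nat_lit 297)) (nd (nat_lit 276) (nat_lit 0) (cs (lf (nat_lit 43) (nat_lit 253)) (rf (nat_lit 11)))))) (lf (nat_lit 7) (nat_lit 343)))))))))))))) (rf (nat_lit 12)))))) (cs (rf (nat_lit 13)) (cs (rf (nat_lit 14)) (rf (nat_lit 15))))))) (nd (nat_lit 300) (nat_lit 0) (cs (rf (nat_lit 9)) (cs (rf (nat_lit 1)) (cs (nd (nat_lit 341) (nat_lit 0) (cs (lf (nat_lit 14) (nat_lit 319)) (rf (nat_lit 16)))) (nd (nat_lit 298) (nat_lit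 0) (cs (lf (nat_lit 2) (nat_lit 297)) (nd (nat_lit 276) (nat_lit 0) (cs (lf (nat_lit 43) (nat_lit 253)) (rf (nat_lit 17)))))))))))))) (cs (rf (nat_lit 18)) (cs (nd (nat_lit 343) (nat_lit 0) (cs (rf (nat_lit 19)) (cs (rf (nat_lit 20)) (cs (rf (nat_lit 21)) (nd (nat_lit 321) (nat_lit 0) (cs (rf (nat_lit 22)) (lf (nat_lit 6) (nat_lit 320)))))))) (cs (rf (nat_lit 23)) (nd (nat_lit 321) (nat_lit 0) (cs (rf (nat_lit 24)) (cs (nd (nat_lit 324) (nat_lit 0) (cs (rf (nat_lit 25)) (lf (nat_lit 10) (nat_lit 320)))) (nd (nat_lit 324) (nat_lit 0) (cs (lf (nat_lit 10) (nat_lit 320)) (nd (nat_lit 302) (nat_lit 0) (cs (lf (nat_lit 17) (nat_lit 299)) (nd (nat_lit 301) (nat_lit 0) (cs (lf (nat_lit 12) (nat_lit 298)) (nd (nat_lit 346) (nat_lit 0) (cs (lf (nat_lit 5) (nat_lit 321)) (nd (nat_lit 279) (nat_lit 0) (cs (lf (nat_lit 42) (nat_lit 279)) (lf (nat_lit 24) (nat_lit 257))))))))))))))))))))) q31576 (by decide +kernel)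
def q31831 : Q := Q.p (nat_lit 0x40000400000200000800002000000000000000000000000000000000000000000000000000000000000000) (nat_lit 0x20000380007fe001ff000fee001fb000fae001fd0003f0001f90000e4000280000000000000000000000000000000000000000000000000000) (nat_lit 15)
theorem c31831 : QOK q31831 := cut [q27996, q31603, q31628, q31690, q31714, q31762, q30710, q31725, q28001, q28547, q28564, q29923, q27991, q29929, q31340, q31332, q31353, q31355, q31345, q30459, q31380, q31399, q31401, q31376, q31785, q31365, q31403, q31407, q28324, q28533, q28914, q28932, q31828, q28696, q31616, q31621] ⟨c27996, c31603, c31628, c31690, c31714, c31762, c30710, c31725, c28001, c28547, c28564, c29923, c27991, c29929, c31340, c31332, c31353, c31355, c31345, c30459, c31380, c31399, c31401, c31376, c31785, c31365, c31403, c31407, c28324, c28533, c28914, c28932, c31828, c28696, c31616, c31621, trivial⟩ (nd (nat_lit 344) (nat_lit 0)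 (cs (nd (nat_lit 343) (nat_lit 0) (cs (rf (nat_lit 0)) (cs (rf (nat_lit 1)) (rf (nat_lit 2))))) (cs (rf (nat_lit 3)) (cs (rf (nat_lit 4)) (cs (rf (nat_lit 5)) (cs (nd (nat_lit 343) (nat_lit 0) (cs (rf (nat_lit 0)) (cs (rf (nat_lit 6)) (cs (rf (nat_lit 7)) (nd (nat_lit 300) (nat_lit 0) (cs (rf (nat_lit 8)) (cs (rf (nat_lit 9)) (cs (rf (nat_lit 10)) (rf (nat_lit 11)))))))))) (cs (nd (nat_lit 343) (nat_lit 0) (cs (rf (nat_lit 12)) (cs (rf (nat_lit 0)) (cs (rf (nat_lit 13)) (rf (nat_lit 7)))))) (cs (nd (nat_lit 343) (nat_lit 0) (cs (rf (nat_lit 0)) (cs (rf (nat_lit 2)) (rf (nat_lit 7))))) (cs (nd (nat_lit 323) (nat_lit 0) (cs (rf (nat_lit 14)) (cs (nd (nat_lit 300) (nat_lit 0) (cs (rf (nat_lit 15)) (cs (rf (nat_lit 16)) (cs (rf (nat_lit 17)) (nd (nat_lit 343) (nat_lit 0) (cs (lf (nat_lit 12) (nat_lit 319)) (nd (nat_lit 298) (nat_lit 0) (cs (lf (nat_lit 2) (nat_lit 297)) (rf (nat_lit 18)))))))))) (cs (nd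 (nat_lit 301) (nat_lit 0) (cs (rf (nat_lit 19)) (cs (rf (nat_lit 20)) (cs (rf (nat_lit 21)) (cs (rf (nat_lit 22)) (nd (nat_lit 300) (nat_lit 0) (cs (rf (nat_lit 23)) (cs (rf (nat_lit 24)) (nd (nat_lit 298) (nat_lit 0) (cs (lf (nat_lit 2) (nat_lit 297)) (nd (nat_lit 366) (nat_lit 0) (cs (lf (nat_lit 30) (nat_lit 300)) (nd (nat_lit 367) (nat_lit 0) (cs (lf (nat_lit 29) (nat_lit 300)) (nd (nat_lit 345) (nat_lit 0) (cs (lf (nat_lit 47) (nat_lit 278)) (nd (nat_lit 280) (nat_lit 0) (cs (lf (nat_lit 34) (nat_lit 279)) (nd (nat_lit 365) (nat_lit 0) (cs (lf (nat_lit 41) (nat_lit 299)) (nd (nat_lit 347) (nat_lit 0) (cs (rf (nat_lit 25)) (lf (nat_lit 7) (nat_lit 343)))))))))))))))))))))))) (nd (nat_lit 300) (nat_lit 0) (cs (rf (nat_lit 26)) (rf (nat_lit 27)))))))) (cs (nd (nat_lit 343) (nat_lit 0) (cs (rf (nat_lit 28)) (cs (rf (nat_lit 2)) (nd (nat_lit 341) (nat_lit 0) (cs (rf (nat_lit 29)) (cs (rf (nat_lit 30))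 (nd (nat_lit 300) (nat_lit 0) (cs (rf (nat_lit 8)) (cs (rf (nat_lit 31)) (cs (nd (nat_lit 318) (nat_lit 0) (cs (lf (nat_lit 22) (nat_lit 318)) (nd (nat_lit 362) (nat_lit 0) (cs (lf (nat_lit 10) (nat_lit 340)) (nd (nat_lit 366) (nat_lit 0) (cs (lf (nat_lit 5) (nat_lit 341)) (nd (nat_lit 387) (nat_lit 0) (cs (lf (nat_lit 40) (nat_lit 299)) (nd (nat_lit 279) (nat_lit 0) (cs (lf (nat_lit 34) (nat_lit 278)) (nd (nat_lit 388) (nat_lit 0) (cs (lf (nat_lit 41) (nat_lit 321)) (nd (nat_lit 321) (nat_lit 0) (cs (lf (nat_lit 42) (nat_lit 321)) (lf (nat_lit 47) (nat_lit 299)))))))))))))))) (nd (nat_lit 366) (nat_lit 0) (cs (lf (nat_lit 5) (nat_lit 341)) (nd (nat_lit 279) (nat_lit 0) (cs (lf (nat_lit 34) (nat_lit 278)) (nd (nat_lit 278) (nat_lit 0) (cs (lf (nat_lit 35) (nat_lit 256)) (nd (nat_lit 318) (nat_lit 0) (cs (lf (nat_lit 22) (nat_lit 318)) (nd (nat_lit 299) (nat_lit 0) (cs (lf (nat_lit 13) (nat_lit 275))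 (nd (nat_lit 321) (nat_lit 0) (cs (lf (nat_lit 42) (nat_lit 299)) (lf (nat_lit 36) (nat_lit 255)))))))))))))))))))))))) (cs (rf (nat_lit 32)) (nd (nat_lit 343) (nat_lit 0) (cs (rf (nat_lit 0)) (cs (rf (nat_lit 1)) (nd (nat_lit 345) (nat_lit 0) (cs (rf (nat_lit 33)) (cs (rf (nat_lit 34)) (rf (nat_lit 35))))))))))))))))))) q31831 (by decide +kernel)
def q31958 : Q := Q.p (nat_lit 0x40000400000200000800002000000000000000000000000000000000000000000000000000000000000000) (nat_lit 0x280000e40003b0001ec000fb00003f0003d0003f000039c000e4000180000000000000000000000000000000000000000000000000000) (nat_lit 14)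
theorem c31958 : QOK q31958 := cut [q31690, q31667, q31655, q31661, q31856, q31864, q28559, q31869, q31632, q28001, q31884, q31916, q31890, q31923, q28377, q31931, q31659, q31668, q31671, q31689, q29893, q31639, q31650, q25367] ⟨c31690, c31667, c31655, c31661, c31856, c31864, c28559, c31869, c31632, c28001, c31884, c31916, c31890, c31923, c28377, c31931, c31659, c31668, c31671, c31689, c29893, c31639, c31650, c25367, trivial⟩ (nd (nat_lit 344) (nat_lit 0) (cs (rf (nat_lit 0)) (cs (nd (nat_lit 300) (nat_lit 0) (cs (rf (nat_lit 1)) (cs (nd (nat_lit 366) (nat_lit 0) (cs (rf (nat_lit 2)) (nd (nat_lit 319) (nat_lit 0) (cs (lf (nat_lit 28) (nat_lit 253)) (nd (nat_lit 318) (nat_lit 0) (cs (lf (nat_lit 41) (nat_lit 252)) (nd (nat_lit 299) (nat_lit 0) (cs (rf (nat_lit 3)) (lf (nat_lit 8) (nat_lit 296)))))))))) (cs (rf (nat_lit 4)) (cs (rf (nat_lit 5)) (nd (nat_lit 278) (nat_lit 0) (cs (rf (nat_lit 6)) (rf (nat_lit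 7))))))))) (cs (nd (nat_lit 300) (nat_lit 0) (cs (nd (nat_lit 278) (nat_lit 0) (cs (rf (nat_lit 6)) (nd (nat_lit 345) (nat_lit 0) (cs (lf (nat_lit 29) (nat_lit 278)) (rf (nat_lit 8)))))) (cs (rf (nat_lit 4)) (cs (nd (nat_lit 319) (nat_lit 0) (cs (lf (nat_lit 28) (nat_lit 253)) (nd (nat_lit 230) (nat_lit 0) (cs (lf (nat_lit 46) (nat_lit 230)) (nd (nat_lit 318) (nat_lit 0) (cs (lf (nat_lit 41) (nat_lit 252)) (nd (nat_lit 298) (nat_lit 0) (cs (lf (nat_lit 7) (nat_lit 296)) (nd (nat_lit 343) (nat_lit 0) (cs (lf (nat_lit 21) (nat_lit 318)) (rf (nat_lit 9)))))))))))) (rf (nat_lit 10)))))) (cs (rf (nat_lit 11)) (cs (nd (nat_lit 277) (nat_lit 0) (cs (nd (nat_lit 319) (nat_lit 0) (cs (lf (nat_lit 28) (nat_lit 253)) (nd (nat_lit 252) (nat_lit 0) (cs (lf (nat_lit 47) (nat_lit 230)) (nd (nat_lit 276) (nat_lit 0) (cs (lf (nat_lit 18) (nat_lit 252)) (rf (nat_lit 12)))))))) (cs (nd (nat_lit 319) (nat_lit 0) (cs (lf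 (nat_lit 28) (nat_lit 253)) (nd (nat_lit 230) (nat_lit 0) (cs (lf (nat_lit 46) (nat_lit 230)) (nd (nat_lit 340) (nat_lit 0) (cs (lf (nat_lit 40) (nat_lit 252)) (nd (nat_lit 341) (nat_lit 0) (cs (lf (nat_lit 41) (nat_lit 274)) (nd (nat_lit 321) (nat_lit 0) (cs (lf (nat_lit 15) (nat_lit 318)) (nd (nat_lit 299) (nat_lit 0) (cs (lf (nat_lit 24) (nat_lit 255)) (rf (nat_lit 13)))))))))))))) (cs (nd (nat_lit 278) (nat_lit 0) (cs (rf (nat_lit 14)) (nd (nat_lit 300) (nat_lit 0) (cs (lf (nat_lit 47) (nat_lit 255)) (nd (nat_lit 345) (nat_lit 0) (cs (lf (nat_lit 29) (nat_lit 278)) (rf (nat_lit 15)))))))) (nd (nat_lit 319) (nat_lit 0) (cs (lf (nat_lit 28) (nat_lit 253)) (nd (nat_lit 340) (nat_lit 0) (cs (lf (nat_lit 40) (nat_lit 252)) (nd (nat_lit 341) (nat_lit 0) (cs (lf (nat_lit 41) (nat_lit 274)) (nd (nat_lit 321) (nat_lit 0) (cs (lf (nat_lit 15) (nat_lit 318)) (nd (nat_lit 255) (nat_lit 0) (cs (lf (nat_lit 26)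 (nat_lit 255)) (nd (nat_lit 278) (nat_lit 0) (cs (lf (nat_lit 44) (nat_lit 255)) (nd (nat_lit 276) (nat_lit 0) (cs (lf (nat_lit 11) (nat_lit 274)) (nd (nat_lit 298) (nat_lit 0) (cs (lf (nat_lit 30) (nat_lit 275)) (lf (nat_lit 6) (nat_lit 275)))))))))))))))))))))) (cs (nd (nat_lit 300) (nat_lit 0) (cs (rf (nat_lit 16)) (cs (rf (nat_lit 1)) (cs (rf (nat_lit 17)) (cs (rf (nat_lit 18)) (cs (rf (nat_lit 19)) (nd (nat_lit 366) (nat_lit 0) (cs (rf (nat_lit 20)) (cs (rf (nat_lit 21)) (cs (rf (nat_lit 22)) (nd (nat_lit 365) (nat_lit 0) (cs (lf (nat_lit 41) (nat_lit 299)) (nd (nat_lit 279) (nat_lit 0) (cs (lf (nat_lit 34) (nat_lit 278)) (nd (nat_lit 299) (nat_lit 0) (cs (lf (nat_lit 47) (nat_lit 277)) (nd (nat_lit 321) (nat_lit 0) (cs (lf (nat_lit 42) (nat_lit 299)) (nd (nat_lit 298) (nat_lit 0) (cs (lf (nat_lit 0) (nat_lit 296)) (nd (nat_lit 276) (nat_lit 0) (cs (lf (nat_lit 43) (nat_lit 253)) (lf (nat_lit 43)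 (nat_lit 276)))))))))))))))))))))))) (cs (nd (nat_lit 300) (nat_lit 0) (cs (rf (nat_lit 17)) (cs (rf (nat_lit 5)) (rf (nat_lit 10))))) (nd (nat_lit 319) (nat_lit 0) (cs (lf (nat_lit 28) (nat_lit 253)) (nd (nat_lit 340) (nat_lit 0) (cs (lf (nat_lit 40) (nat_lit 252)) (nd (nat_lit 341) (nat_lit 0) (cs (lf (nat_lit 41) (nat_lit 274)) (nd (nat_lit 343) (nat_lit 0) (cs (lf (nat_lit 16) (nat_lit 318)) (rf (nat_lit 23)))))))))))))))))) q31958 (by decide +kernel)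
def q32204 : Q := Q.p (nat_lit 0x2000000000010000040000100000000000000000000000000000000000000000) (nat_lit 0xbc0009f80037c001cf001fbe007ef000fdc0017000058000000000000000000000000) (nat_lit 17)
theorem c32204 : QOK q32204 := cut [q4850, q21364, q32085, q32138, q32147, q32154, q9393, q32170, q20911, q19971, q4454, q21363, q20910, q9391, q32197] ⟨c4850, c21364, c32085, c32138, c32147, c32154, c9393, c32170, c20911, c19971, c4454, c21363, c20910, c9391, c32197, trivial⟩ (nd (nat_lit 165) (nat_lit 0) (cs (rf (nat_lit 0)) (cs (rf (nat_lit 1)) (cs (nd (nat_lit 166) (nat_lit 0) (cs (rf (nat_lit 2)) (cs (rf (nat_lit 3)) (cs (nd (nat_lit 167) (nat_lit 0) (cs (lf (nat_lit 11) (nat_lit 163)) (nd (nat_lit 145) (nat_lit 0) (cs (lf (nat_lit 17) (nat_lit 142)) (nd (nat_lit 189) (nat_lit 0) (cs (lf (nat_lit 5) (nat_lit 164)) (nd (nat_lit 187) (nat_lit 0) (cs (lf (nat_lit 6) (nat_lit 164)) (nd (nat_lit 230) (nat_lit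 0) (cs (lf (nat_lit 30) (nat_lit 164)) (nd (nat_lit 229) (nat_lit 0) (cs (lf (nat_lit 41) (nat_lit 163)) (nd (nat_lit 207) (nat_lit 0) (cs (lf (nat_lit 36) (nat_lit 141)) (lf (nat_lit 7) (nat_lit 185)))))))))))))))) (cs (rf (nat_lit 4)) (cs (rf (nat_lit 5)) (nd (nat_lit 167) (nat_lit 0) (cs (lf (nat_lit 11) (nat_lit 163)) (nd (nat_lit 189) (nat_lit 0) (cs (lf (nat_lit 5) (nat_lit 164)) (nd (nat_lit 163) (nat_lit 0) (cs (lf (nat_lit 4) (nat_lit 163)) (nd (nat_lit 187) (nat_lit 0) (cs (lf (nat_lit 6) (nat_lit 164)) (nd (nat_lit 162) (nat_lit 0) (cs (lf (nat_lit 0) (nat_lit 161)) (nd (nat_lit 184) (nat_lit 0) (cs (lf (nat_lit 11) (nat_lit 161)) (nd (nat_lit 140) (nat_lit 0) (cs (lf (nat_lit 23) (nat_lit 139)) (nd (nat_lit 230) (nat_lit 0) (cs (lf (nat_lit 30) (nat_lit 164)) (nd (nat_lit 229) (nat_lit 0) (cs (lf (nat_lit 41) (nat_lit 163)) (nd (nat_lit 207) (nat_lit 0) (cs (lf (nat_lit 36) (nat_lit 141))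 (lf (nat_lit 27) (nat_lit 140)))))))))))))))))))))))))))) (nd (nat_lit 166) (nat_lit 0) (cs (rf (nat_lit 2)) (cs (rf (nat_lit 4)) (cs (nd (nat_lit 188) (nat_lit 0) (cs (nd (nat_lit 163) (nat_lit 0) (cs (lf (nat_lit 5) (nat_lit 163)) (nd (nat_lit 184) (nat_lit 0) (cs (lf (nat_lit 10) (nat_lit 162)) (nd (nat_lit 162) (nat_lit 0) (cs (lf (nat_lit 11) (nat_lit 161)) (lf (nat_lit 4) (nat_lit 162)))))))) (cs (nd (nat_lit 163) (nat_lit 0) (cs (lf (nat_lit 5) (nat_lit 163)) (rf (nat_lit 6)))) (cs (nd (nat_lit 187) (nat_lit 0) (cs (rf (nat_lit 7)) (cs (nd (nat_lit 121) (nat_lit 0) (cs (lf (nat_lit 37) (nat_lit 120)) (nd (nat_lit 185) (nat_lit 0) (cs (lf (nat_lit 12) (nat_lit 162)) (rf (nat_lit 8)))))) (nd (nat_lit 184) (nat_lit 0) (cs (lf (nat_lit 13) (nat_lit 162)) (nd (nat_lit 121) (nat_lit 0) (cs (lf (nat_lit 37) (nat_lit 120)) (rf (nat_lit 9))))))))) (cs (nd (nat_lit 185) (nat_lit 0) (cs (nd (nat_lit 184)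 (nat_lit 0) (cs (lf (nat_lit 12) (nat_lit 161)) (lf (nat_lit 9) (nat_lit 162)))) (nd (nat_lit 143) (nat_lit 0) (cs (rf (nat_lit 10)) (cs (rf (nat_lit 11)) (nd (nat_lit 210) (nat_lit 0) (cs (lf (nat_lit 42) (nat_lit 143)) (nd (nat_lit 187) (nat_lit 0) (cs (lf (nat_lit 5) (nat_lit 185)) (rf (nat_lit 12))))))))))) (nd (nat_lit 163) (nat_lit 0) (cs (lf (nat_lit 5) (nat_lit 163)) (nd (nat_lit 162) (nat_lit 0) (cs (lf (nat_lit 4) (nat_lit 162)) (rf (nat_lit 13))))))))))) (cs (nd (nat_lit 167) (nat_lit 0) (cs (lf (nat_lit 11) (nat_lit 163)) (nd (nat_lit 189) (nat_lit 0) (cs (lf (nat_lit 5) (nat_lit 164)) (nd (nat_lit 163) (nat_lit 0) (cs (lf (nat_lit 4) (nat_lit 163)) (nd (nat_lit 168) (nat_lit 0) (cs (lf (nat_lit 10) (nat_lit 164)) (nd (nat_lit 146) (nat_lit 0) (cs (lf (nat_lit 17) (nat_lit 143)) (nd (nat_lit 102) (nat_lit 0) (cs (nd (nat_lit 211) (nat_lit 0) (cs (nd (nat_lit 143) (nat_lit 0) (cs (nd (nat_lit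 144) (nat_lit 0) (cs (lf (nat_lit 12) (nat_lit 140)) (lf (nat_lit 18) (nat_lit 143)))) (lf (nat_lit 23) (nat_lit 142)))) (lf (nat_lit 30) (nat_lit 145)))) (lf (nat_lit 37) (nat_lit 101)))))))))))))) (cs (rf (nat_lit 14)) (nd (nat_lit 167) (nat_lit 0) (cs (lf (nat_lit 11) (nat_lit 163)) (nd (nat_lit 145) (nat_lit 0) (cs (lf (nat_lit 17) (nat_lit 142)) (nd (nat_lit 168) (nat_lit 0) (cs (lf (nat_lit 10) (nat_lit 164)) (nd (nat_lit 143) (nat_lit 0) (cs (lf (nat_lit 23) (nat_lit 142)) (nd (nat_lit 144) (nat_lit 0) (cs (lf (nat_lit 18) (nat_lit 143)) (lf (nat_lit 12) (nat_lit 141)))))))))))))))))))))) q32204 (by decide +kernel)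
def q32385 : Q := Q.p (nat_lit 0x2000000000010000040000100000400000000000000000000000000000000000) (nat_lit 0x20000380001e000038000060003be001ef0007be0001f0000780001a000020000000000000) (nat_lit 15)
theorem c32385 : QOK q32385 := cut [q32327, q2270, q3803, q32056, q32326, q2254, q32345, q556, q32287, q32356, q32357, q32360, q32365, q32371, q32368, q4504, q32296] ⟨c32327, c2270, c3803, c32056, c32326, c2254, c32345, c556, c32287, c32356, c32357, c32360, c32365, c32371, c32368, c4504, c32296, trivial⟩ (nd (nat_lit 163) (nat_lit 0) (cs (rf (nat_lit 0)) (cs (nd (nat_lit 162) (nat_lit 0) (cs (rf (nat_lit 1)) (cs (rf (nat_lit 2)) (cs (rf (nat_lit 3)) (cs (rf (nat_lit 4)) (nd (nat_lit 165) (nat_lit 0) (cs (rf (nat_lit 5)) (cs (nd (nat_lit 184) (nat_lit 0) (cs (lf (nat_lit 11) (nat_lit 161)) (nd (nat_lit 140) (nat_lit 0) (cs (lf (nat_lit 23) (nat_lit 139)) (nd (nat_lit 118) (nat_lit 0) (cs (nd (nat_lit 187)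 (nat_lit 0) (cs (lf (nat_lit 5) (nat_lit 162)) (nd (nat_lit 98) (nat_lit 0) (cs (lf (nat_lit 25) (nat_lit 98)) (nd (nat_lit 97) (nat_lit 0) (cs (lf (nat_lit 34) (nat_lit 96)) (nd (nat_lit 96) (nat_lit 0) (cs (lf (nat_lit 35) (nat_lit 74)) (lf (nat_lit 29) (nat_lit 96)))))))))) (cs (nd (nat_lit 119) (nat_lit 0) (cs (lf (nat_lit 35) (nat_lit 96)) (nd (nat_lit 187) (nat_lit 0) (cs (lf (nat_lit 5) (nat_lit 162)) (nd (nat_lit 120) (nat_lit 0) (cs (lf (nat_lit 24) (nat_lit 98)) (nd (nat_lit 117) (nat_lit 0) (cs (lf (nat_lit 47) (nat_lit 95)) (lf (nat_lit 5) (nat_lit 117)))))))))) (nd (nat_lit 95) (nat_lit 0) (cs (lf (nat_lit 46) (nat_lit 95)) (nd (nat_lit 96) (nat_lit 0) (cs (lf (nat_lit 47) (nat_lit 73)) (lf (nat_lit 29) (nat_lit 96))))))))))))) (cs (rf (nat_lit 6)) (nd (nat_lit 143) (nat_lit 0) (cs (lf (nat_lit 17) (nat_lit 140)) (nd (nat_lit 140) (nat_lit 0) (cs (lf (nat_lit 23) (nat_lit 139)) (nd (nat_lit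 184) (nat_lit 0) (cs (lf (nat_lit 11) (nat_lit 161)) (nd (nat_lit 185) (nat_lit 0) (cs (lf (nat_lit 6) (nat_lit 162)) (nd (nat_lit 120) (nat_lit 0) (cs (lf (nat_lit 36) (nat_lit 97)) (nd (nat_lit 118) (nat_lit 0) (cs (lf (nat_lit 24) (nat_lit 96)) (nd (nat_lit 117) (nat_lit 0) (cs (lf (nat_lit 47) (nat_lit 95)) (lf (nat_lit 2) (nat_lit 117))))))))))))))))))))))))) (cs (nd (nat_lit 120) (nat_lit 0) (cs (rf (nat_lit 7)) (cs (rf (nat_lit 8)) (cs (rf (nat_lit 9)) (nd (nat_lit 98) (nat_lit 0) (cs (lf (nat_lit 41) (nat_lit 97)) (rf (nat_lit 10)))))))) (cs (nd (nat_lit 162) (nat_lit 0) (cs (rf (nat_lit 2)) (cs (nd (nat_lit 165) (nat_lit 0) (cs (rf (nat_lit 6)) (cs (nd (nat_lit 187) (nat_lit 0) (cs (lf (nat_lit 5) (nat_lit 162)) (rf (nat_lit 11)))) (nd (nat_lit 139) (nat_lit 0) (cs (lf (nat_lit 22) (nat_lit 139)) (rf (nat_lit 12))))))) (rf (nat_lit 13))))) (nd (nat_lit 141) (nat_lit 0) (cs (lf (nat_lit 47)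 (nat_lit 119)) (nd (nat_lit 162) (nat_lit 0) (cs (rf (nat_lit 3)) (cs (rf (nat_lit 14)) (nd (nat_lit 140) (nat_lit 0) (cs (rf (nat_lit 15)) (cs (nd (nat_lit 143) (nat_lit 0) (cs (lf (nat_lit 6) (nat_lit 140)) (nd (nat_lit 117) (nat_lit 0) (cs (lf (nat_lit 22) (nat_lit 117)) (nd (nat_lit 139) (nat_lit 0) (cs (lf (nat_lit 0) (nat_lit 138)) (lf (nat_lit 23) (nat_lit 116)))))))) (nd (nat_lit 143) (nat_lit 0) (cs (lf (nat_lit 6) (nat_lit 140)) (nd (nat_lit 117) (nat_lit 0) (cs (lf (nat_lit 22) (nat_lit 117)) (nd (nat_lit 165) (nat_lit 0) (cs (lf (nat_lit 18) (nat_lit 140)) (nd (nat_lit 184) (nat_lit 0) (cs (lf (nat_lit 11) (nat_lit 161)) (nd (nat_lit 206) (nat_lit 0) (cs (lf (nat_lit 30) (nat_lit 140)) (nd (nat_lit 187) (nat_lit 0) (cs (lf (nat_lit 5) (nat_lit 162)) (rf (nat_lit 16))))))))))))))))))))))))))) q32385 (by decide +kernel)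
def q32471 : Q := Q.p (nat_lit 0x100000400000c0000000000000000000000000000000000000000) (nat_lit 0x20000080000af000138000f00001800002000000000000000000000000) (nat_lit 8)
theorem c32471 : QOK q32471 := cut [q32462, q32463, q32466, q32467, q32470] ⟨c32462, c32463, c32466, c32467, c32470, trivial⟩ (nd (nat_lit 161) (nat_lit 0) (cs (rf (nat_lit 0)) (cs (rf (nat_lit 1)) (cs (rf (nat_lit 2)) (cs (rf (nat_lit 3)) (rf (nat_lit 4))))))) q32471 (by decide +kernel)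
def q32666 : Q := Q.p (nat_lit 0x2000000000000000070000040000000000000000000000000000000000000000) (nat_lit 0x80000380001e000038001cf800380001c00000380000e00002800000000000000000000000) (nat_lit 8)
theorem c32666 : QOK q32666 := cut [q32652, q32664, q32665] ⟨c32652, c32664, c32665, trivial⟩ (nd (nat_lit 206) (nat_lit 0) (cs (nd (nat_lit 205) (nat_lit 0) (cs (lf (nat_lit 6) (nat_lit 183)) (rf (nat_lit 0)))) (cs (rf (nat_lit 1)) (rf (nat_lit 2))))) q32666 (by decide +kernel)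
def q32762 : Q := Q.p (nat_lit 0x2000000000010000050000140000000000000000000000000000000000000000) (nat_lit 0x280001e0000380000e0003a0000680003bc0003e00003e0000a000000000000000000) (nat_lit 13)
theorem c32762 : QOK q32762 := cut [q32671, q32712, q19066, q32674, q32723, q32744, q5874, q3148, q32747, q32761] ⟨c32671, c32712, c19066, c32674, c32723, c32744, c5874, c3148, c32747, c32761, trivial⟩ (nd (nat_lit 140) (nat_lit 0) (cs (rf (nat_lit 0)) (cs (rf (nat_lit 1)) (cs (nd (nat_lit 163) (nat_lit 0) (cs (nd (nat_lit 118) (nat_lit 0) (cs (rf (nat_lit 2)) (cs (rf (nat_lit 3)) (nd (nat_lit 119) (nat_lit 0) (cs (lf (nat_lit 35) (nat_lit 96)) (nd (nat_lit 185) (nat_lit 0) (cs (lf (nat_lit 25) (nat_lit 119)) (lf (nat_lit 29) (nat_lit 118))))))))) (nd (nat_lit 165) (nat_lit 0) (cs (lf (nat_lit 23) (nat_lit 139)) (rf (nat_lit 4)))))) (cs (rf (nat_lit 5)) (cs (nd (nat_lit 119) (nat_lit 0) (cs (rf (nat_lit 6)) (cs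 (nd (nat_lit 141) (nat_lit 0) (cs (lf (nat_lit 30) (nat_lit 118)) (nd (nat_lit 163) (nat_lit 0) (cs (lf (nat_lit 27) (nat_lit 119)) (rf (nat_lit 7)))))) (nd (nat_lit 118) (nat_lit 0) (cs (lf (nat_lit 35) (nat_lit 96)) (nd (nat_lit 95) (nat_lit 0) (cs (lf (nat_lit 46) (nat_lit 95)) (nd (nat_lit 96) (nat_lit 0) (cs (lf (nat_lit 47) (nat_lit 73)) (nd (nat_lit 93) (nat_lit 0) (cs (nd (nat_lit 120) (nat_lit 0) (cs (nd (nat_lit 163) (nat_lit 0) (cs (lf (nat_lit 29) (nat_lit 96)) (nd (nat_lit 165) (nat_lit 0) (cs (lf (nat_lit 23) (nat_lit 139)) (rf (nat_lit 8)))))) (lf (nat_lit 18) (nat_lit 95)))) (lf (nat_lit 1) (nat_lit 93))))))))))))) (rf (nat_lit 9)))))))) q32762 (by decide +kernel)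
def q33024 : Q := Q.p (nat_lit 0x2000000000010000040000140000000000000000000000000000000000000000) (nat_lit 0x200001e0000380000e000f98001e80007fe001ff800fff000fe0001f00007c0000000) (nat_lit 15)
theorem c33024 : QOK q33024 := cut [q32985, q32986, q17806, q17588, q32990, q32998, q33006, q33011, q33013, q33018, q33021, q33023] ⟨c32985, c32986, c17806, c17588, c32990, c32998, c33006, c33011, c33013, c33018, c33021, c33023, trivial⟩ (nd (nat_lit 121) (nat_lit 0) (cs (rf (nat_lit 0)) (cs (nd (nat_lit 165) (nat_lit 0) (cs (rf (nat_lit 1)) (cs (nd (nat_lit 163) (nat_lit 0) (cs (nd (nat_lit 184) (nat_lit 0) (cs (lf (nat_lit 11) (nat_lit 161)) (nd (nat_lit 206) (nat_lit 0) (cs (rf (nat_lit 2)) (cs (nd (nat_lit 187) (nat_lit 0) (cs (lf (nat_lit 5) (nat_lit 162)) (nd (nat_lit 205) (nat_lit 0) (cs (lf (nat_lit 14) (nat_lit 183)) (nd (nat_lit 228) (nat_lit 0) (cs (lf (nat_lit 35) (nat_lit 140)) (rf (nat_lit 3))))))))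 (nd (nat_lit 140) (nat_lit 0) (cs (lf (nat_lit 23) (nat_lit 139)) (nd (nat_lit 187) (nat_lit 0) (cs (lf (nat_lit 5) (nat_lit 162)) (rf (nat_lit 4))))))))))) (cs (nd (nat_lit 183) (nat_lit 0) (cs (lf (nat_lit 10) (nat_lit 161)) (nd (nat_lit 140) (nat_lit 0) (cs (lf (nat_lit 23) (nat_lit 139)) (nd (nat_lit 166) (nat_lit 0) (cs (lf (nat_lit 22) (nat_lit 140)) (rf (nat_lit 5)))))))) (cs (rf (nat_lit 6)) (cs (rf (nat_lit 7)) (nd (nat_lit 183) (nat_lit 0) (cs (lf (nat_lit 10) (nat_lit 161)) (rf (nat_lit 8))))))))) (rf (nat_lit 9))))) (cs (rf (nat_lit 10)) (rf (nat_lit 11)))))) q33024 (by decide +kernel)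
def q33065 : Q := Q.p (nat_lit 0x10000040000140000000000000000000000000000000000000000) (nat_lit 0x80000200003c001cf000fbc003e80007f8003f60000c000030000080000000000000) (nat_lit 11)
theorem c33065 : QOK q33065 := cut [q617, q32618, q32619, q33032, q33046, q33064] ⟨c617, c32618, c32619, c33032, c33046, c33064, trivial⟩ (nd (nat_lit 142) (nat_lit 0) (cs (rf (nat_lit 0)) (cs (nd (nat_lit 207) (nat_lit 0) (cs (lf (nat_lit 41) (nat_lit 141)) (nd (nat_lit 185) (nat_lit 0) (cs (lf (nat_lit 36) (nat_lit 119)) (nd (nat_lit 184) (nat_lit 0) (cs (rf (nat_lit 1)) (cs (rf (nat_lit 2)) (rf (nat_lit 3))))))))) (cs (rf (nat_lit 4)) (rf (nat_lit 5)))))) q33065 (by decide +kernel)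
def q33348 : Q := Q.p (nat_lit 0x10000040000140000000000000000000000000000000000000000) (nat_lit 0x280000a00033e001cf001fbe007e8001fdc007fe0007fc000fa000080000000000000) (nat_lit 16)
theorem c33348 : QOK q33348 := cut [q32057, q33125, q33126, q33006, q33011, q33130, q33134, q33164, q9435, q33168, q33184, q524, q33069, q32986, q33280, q33281, q33282, q33258, q33261, q527, q32527, q33094, q32630, q33284, q33058, q33305, q4816, q33310, q33347] ⟨c32057, c33125, c33126, c33006, c33011, c33130, c33134, c33164, c9435, c33168, c33184, c524, c33069, c32986, c33280, c33281, c33282, c33258, c33261, c527, c32527, c33094, c32630, c33284, c33058, c33305, c4816, c33310, c33347, trivial⟩ (nd (nat_lit 165) (nat_lit 0) (cs (nd (nat_lit 163) (nat_lit 0) (cs (rf (nat_lit 0)) (cs (rf (nat_lit 1)) (nd (nat_lit 183) (nat_lit 0) (cs (lf (nat_lit 10) (nat_lit 161)) (nd (nat_lit 139) (nat_lit 0) (cs (lf (nat_lit 22) (nat_lit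 139)) (rf (nat_lit 2))))))))) (cs (nd (nat_lit 163) (nat_lit 0) (cs (rf (nat_lit 3)) (cs (rf (nat_lit 4)) (cs (rf (nat_lit 1)) (cs (nd (nat_lit 139) (nat_lit 0) (cs (lf (nat_lit 22) (nat_lit 139)) (nd (nat_lit 184) (nat_lit 0) (cs (lf (nat_lit 11) (nat_lit 161)) (rf (nat_lit 5)))))) (nd (nat_lit 139) (nat_lit 0) (cs (lf (nat_lit 22) (nat_lit 139)) (rf (nat_lit 6))))))))) (cs (rf (nat_lit 7)) (cs (nd (nat_lit 166) (nat_lit 0) (cs (nd (nat_lit 163) (nat_lit 0) (cs (rf (nat_lit 8)) (rf (nat_lit 2)))) (cs (nd (nat_lit 167) (nat_lit 0) (cs (lf (nat_lit 11) (nat_lit 163)) (rf (nat_lit 9)))) (cs (nd (nat_lit 167) (nat_lit 0) (cs (rf (nat_lit 9)) (cs (nd (nat_lit 189) (nat_lit 0) (cs (lf (nat_lit 5) (nat_lit 164)) (nd (nat_lit 163) (nat_lit 0) (cs (lf (nat_lit 4) (nat_lit 163)) (nd (nat_lit 183) (nat_lit 0) (cs (lf (nat_lit 10) (nat_lit 161)) (rf (nat_lit 2)))))))) (cs (nd (nat_lit 146) (nat_lit 0) (cs (lf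 (nat_lit 16) (nat_lit 142)) (nd (nat_lit 168) (nat_lit 0) (cs (lf (nat_lit 17) (nat_lit 143)) (nd (nat_lit 143) (nat_lit 0) (cs (lf (nat_lit 23) (nat_lit 142)) (nd (nat_lit 144) (nat_lit 0) (cs (lf (nat_lit 13) (nat_lit 140)) (lf (nat_lit 18) (nat_lit 143)))))))))) (rf (nat_lit 10)))))) (nd (nat_lit 167) (nat_lit 0) (cs (lf (nat_lit 11) (nat_lit 163)) (rf (nat_lit 10)))))))) (cs (nd (nat_lit 207) (nat_lit 0) (cs (rf (nat_lit 11)) (cs (rf (nat_lit 12)) (cs (nd (nat_lit 121) (nat_lit 0) (cs (rf (nat_lit 13)) (cs (rf (nat_lit 14)) (cs (rf (nat_lit 15)) (rf (nat_lit 16)))))) (nd (nat_lit 166) (nat_lit 0) (cs (rf (nat_lit 17)) (cs (rf (nat_lit 18)) (cs (nd (nat_lit 206) (nat_lit 0) (cs (rf (nat_lit 19)) (cs (rf (nat_lit 20)) (cs (rf (nat_lit 21)) (nd (nat_lit 184) (nat_lit 0) (cs (rf (nat_lit 22)) (rf (nat_lit 23)))))))) (nd (nat_lit 167) (nat_lit 0) (cs (lf (nat_lit 11) (nat_lit 163)) (nd (nat_lit 145)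 (nat_lit 0) (cs (lf (nat_lit 17) (nat_lit 142)) (nd (nat_lit 168) (nat_lit 0) (cs (lf (nat_lit 10) (nat_lit 164)) (nd (nat_lit 191) (nat_lit 0) (cs (lf (nat_lit 4) (nat_lit 165)) (nd (nat_lit 169) (nat_lit 0) (cs (lf (nat_lit 5) (nat_lit 166)) (nd (nat_lit 144) (nat_lit 0) (cs (lf (nat_lit 23) (nat_lit 143)) (lf (nat_lit 18) (nat_lit 144)))))))))))))))))))))) (cs (nd (nat_lit 142) (nat_lit 0) (cs (rf (nat_lit 24)) (cs (nd (nat_lit 207) (nat_lit 0) (cs (lf (nat_lit 41) (nat_lit 141)) (nd (nat_lit 143) (nat_lit 0) (cs (lf (nat_lit 35) (nat_lit 120)) (nd (nat_lit 144) (nat_lit 0) (cs (lf (nat_lit 13) (nat_lit 140)) (nd (nat_lit 145) (nat_lit 0) (cs (lf (nat_lit 6) (nat_lit 142)) (nd (nat_lit 123) (nat_lit 0) (cs (lf (nat_lit 17) (nat_lit 120)) (nd (nat_lit 167) (nat_lit 0) (cs (lf (nat_lit 5) (nat_lit 142)) (nd (nat_lit 166) (nat_lit 0) (cs (lf (nat_lit 11) (nat_lit 163)) (nd (nat_lit 79) (nat_lit 0) (cs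 (lf (nat_lit 37) (nat_lit 78)) (nd (nat_lit 189) (nat_lit 0) (cs (lf (nat_lit 5) (nat_lit 164)) (nd (nat_lit 122) (nat_lit 0) (cs (lf (nat_lit 42) (nat_lit 122)) (lf (nat_lit 47) (nat_lit 100)))))))))))))))))))))) (nd (nat_lit 207) (nat_lit 0) (cs (lf (nat_lit 41) (nat_lit 141)) (nd (nat_lit 120) (nat_lit 0) (cs (lf (nat_lit 40) (nat_lit 119)) (rf (nat_lit 25))))))))) (cs (nd (nat_lit 163) (nat_lit 0) (cs (rf (nat_lit 26)) (cs (rf (nat_lit 6)) (nd (nat_lit 139) (nat_lit 0) (cs (lf (nat_lit 22) (nat_lit 139)) (rf (nat_lit 27))))))) (rf (nat_lit 28)))))))))) q33348 (by decide +kernel)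
def q33450 : Q := Q.p (nat_lit 0x2000000000010000040000140000200000000000000000000000000000000000) (nat_lit 0x280001e0000380000e0003be0006900001e0001f80003e0000e000000000000000000) (nat_lit 12)
theorem c33450 : QOK q33450 := cut [q2879, q12357, q32744, q32515, q33403, q27624, q17699, q33412, q32990, q33423] ⟨c2879, c12357, c32744, c32515, c33403, c27624, c17699, c33412, c32990, c33423, trivial⟩ (nd (nat_lit 163) (nat_lit 0) (cs (rf (nat_lit 0)) (cs (nd (nat_lit 140) (nat_lit 0) (cs (rf (nat_lit 1)) (cs (nd (nat_lit 184) (nat_lit 0) (cs (rf (nat_lit 2)) (cs (nd (nat_lit 118) (nat_lit 0) (cs (rf (nat_lit 3)) (cs (nd (nat_lit 138) (nat_lit 0) (cs (nd (nat_lit 183) (nat_lit 0) (cs (lf (nat_lit 41) (nat_lit 117)) (rf (nat_lit 4)))) (lf (nat_lit 1) (nat_lit 138)))) (nd (nat_lit 95) (nat_lit 0) (cs (lf (nat_lit 46) (nat_lit 95)) (nd (nat_lit 183) (nat_lit 0) (cs (lf (nat_lit 41) (nat_lit 117)) (rf (nat_lit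 5))))))))) (nd (nat_lit 206) (nat_lit 0) (cs (lf (nat_lit 30) (nat_lit 140)) (rf (nat_lit 6))))))) (nd (nat_lit 165) (nat_lit 0) (cs (lf (nat_lit 18) (nat_lit 140)) (nd (nat_lit 184) (nat_lit 0) (cs (lf (nat_lit 11) (nat_lit 161)) (nd (nat_lit 187) (nat_lit 0) (cs (lf (nat_lit 5) (nat_lit 162)) (rf (nat_lit 7))))))))))) (nd (nat_lit 140) (nat_lit 0) (cs (rf (nat_lit 1)) (cs (nd (nat_lit 97) (nat_lit 0) (cs (lf (nat_lit 25) (nat_lit 97)) (nd (nat_lit 165) (nat_lit 0) (cs (lf (nat_lit 18) (nat_lit 140)) (nd (nat_lit 184) (nat_lit 0) (cs (lf (nat_lit 11) (nat_lit 161)) (nd (nat_lit 187) (nat_lit 0) (cs (lf (nat_lit 5) (nat_lit 162)) (nd (nat_lit 206) (nat_lit 0) (cs (lf (nat_lit 30) (nat_lit 140)) (rf (nat_lit 8)))))))))))) (nd (nat_lit 118) (nat_lit 0) (cs (nd (nat_lit 96) (nat_lit 0) (cs (lf (nat_lit 24) (nat_lit 74)) (nd (nat_lit 75) (nat_lit 0) (cs (lf (nat_lit 34) (nat_lit 74)) (nd (nat_lit 95) (nat_lit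 0) (cs (lf (nat_lit 47) (nat_lit 73)) (nd (nat_lit 184) (nat_lit 0) (cs (lf (nat_lit 46) (nat_lit 95)) (rf (nat_lit 9)))))))))) (cs (nd (nat_lit 119) (nat_lit 0) (cs (lf (nat_lit 24) (nat_lit 97)) (nd (nat_lit 138) (nat_lit 0) (cs (lf (nat_lit 1) (nat_lit 138)) (nd (nat_lit 184) (nat_lit 0) (cs (lf (nat_lit 30) (nat_lit 118)) (nd (nat_lit 183) (nat_lit 0) (cs (lf (nat_lit 41) (nat_lit 117)) (nd (nat_lit 181) (nat_lit 0) (cs (lf (nat_lit 13) (nat_lit 159)) (nd (nat_lit 117) (nat_lit 0) (cs (lf (nat_lit 47) (nat_lit 95)) (nd (nat_lit 116) (nat_lit 0) (cs (lf (nat_lit 11) (nat_lit 115)) (lf (nat_lit 0) (nat_lit 115)))))))))))))))) (cs (nd (nat_lit 138) (nat_lit 0) (cs (lf (nat_lit 1) (nat_lit 138)) (nd (nat_lit 96) (nat_lit 0) (cs (lf (nat_lit 24) (nat_lit 74)) (nd (nat_lit 95) (nat_lit 0) (cs (lf (nat_lit 47) (nat_lit 73)) (nd (nat_lit 117) (nat_lit 0) (cs (lf (nat_lit 42) (nat_lit 95)) (nd (nat_lit 116)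 (nat_lit 0) (cs (lf (nat_lit 0) (nat_lit 115)) (nd (nat_lit 160) (nat_lit 0) (cs (nd (nat_lit 119) (nat_lit 0) (cs (lf (nat_lit 11) (nat_lit 115)) (nd (nat_lit 94) (nat_lit 0) (cs (lf (nat_lit 18) (nat_lit 94)) (lf (nat_lit 0) (nat_lit 93)))))) (lf (nat_lit 30) (nat_lit 94)))))))))))))) (nd (nat_lit 96) (nat_lit 0) (cs (lf (nat_lit 24) (nat_lit 74)) (nd (nat_lit 97) (nat_lit 0) (cs (lf (nat_lit 35) (nat_lit 74)) (lf (nat_lit 25) (nat_lit 97)))))))))))))))) q33450 (by decide +kernel)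
def q33774 : Q := Q.p (nat_lit 0x10000040000040000500000000000000000000000000000000000) (nat_lit 0x20000080000a80003200018e0007fe003ff001ffe000fe0003c0000b00) (nat_lit 15)
theorem c33774 : QOK q33774 := cut [q33524, q20129, q33538, q33547, q33553, q33567, q33572, q33581, q33587, q33599, q33623, q33624, q33648, q33654, q33656, q33666, q33670, q33659, q33673, q33676, q33737, q33772, q615] ⟨c33524, c20129, c33538, c33547, c33553, c33567, c33572, c33581, c33587, c33599, c33623, c33624, c33648, c33654, c33656, c33666, c33670, c33659, c33673, c33676, c33737, c33772, c615, trivial⟩ (nd (nat_lit 120) (nat_lit 0) (cs (nd (nat_lit 97) (nat_lit 0) (cs (nd (nat_lit 98) (nat_lit 0) (cs (nd (nat_lit 77) (nat_lit 0) (cs (nd (nat_lit 99) (nat_lit 0) (cs (rf (nat_lit 0)) (lf (nat_lit 30) (nat_lit 76)))) (cs (nd (nat_lit 76) (nat_lit 0) (cs (lf (nat_lit 35) (nat_lit 54)) (nd (nat_lit 78) (nat_lit 0) (cs (nd (nat_lit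 95) (nat_lit 0) (cs (nd (nat_lit 165) (nat_lit 0) (cs (lf (nat_lit 28) (nat_lit 76)) (nd (nat_lit 164) (nat_lit 0) (cs (rf (nat_lit 1)) (lf (nat_lit 29) (nat_lit 98)))))) (lf (nat_lit 13) (nat_lit 73)))) (lf (nat_lit 6) (nat_lit 75)))))) (cs (nd (nat_lit 99) (nat_lit 0) (cs (lf (nat_lit 30) (nat_lit 76)) (rf (nat_lit 2)))) (nd (nat_lit 55) (nat_lit 0) (cs (lf (nat_lit 33) (nat_lit 54)) (nd (nat_lit 99) (nat_lit 0) (cs (lf (nat_lit 36) (nat_lit 32)) (rf (nat_lit 2)))))))))) (cs (nd (nat_lit 76) (nat_lit 0) (cs (rf (nat_lit 3)) (cs (nd (nat_lit 75) (nat_lit 0) (cs (lf (nat_lit 47) (nat_lit 53)) (nd (nat_lit 143) (nat_lit 0) (cs (lf (nat_lit 29) (nat_lit 76)) (nd (nat_lit 96) (nat_lit 0) (cs (nd (nat_lit 95) (nat_lit 0) (cs (rf (nat_lit 4)) (lf (nat_lit 12) (nat_lit 72)))) (lf (nat_lit 32) (nat_lit 74)))))))) (nd (nat_lit 53) (nat_lit 0) (cs (lf (nat_lit 46) (nat_lit 53)) (nd (nat_lit 55) (nat_lit 0) (cs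 (nd (nat_lit 54) (nat_lit 0) (cs (lf (nat_lit 47) (nat_lit 31)) (lf (nat_lit 35) (nat_lit 32)))) (lf (nat_lit 34) (nat_lit 54))))))))) (rf (nat_lit 5))))) (cs (nd (nat_lit 96) (nat_lit 0) (cs (rf (nat_lit 6)) (cs (nd (nat_lit 95) (nat_lit 0) (cs (rf (nat_lit 7)) (cs (nd (nat_lit 98) (nat_lit 0) (cs (rf (nat_lit 4)) (nd (nat_lit 76) (nat_lit 0) (cs (nd (nat_lit 143) (nat_lit 0) (cs (lf (nat_lit 29) (nat_lit 76)) (nd (nat_lit 53) (nat_lit 0) (cs (lf (nat_lit 46) (nat_lit 53)) (rf (nat_lit 8)))))) (lf (nat_lit 17) (nat_lit 73)))))) (cs (rf (nat_lit 9)) (cs (rf (nat_lit 10)) (rf (nat_lit 11))))))) (cs (rf (nat_lit 12)) (rf (nat_lit 13)))))) (rf (nat_lit 14))))) (cs (nd (nat_lit 119) (nat_lit 0) (cs (nd (nat_lit 118) (nat_lit 0) (cs (nd (nat_lit 121) (nat_lit 0) (cs (lf (nat_lit 11) (nat_lit 117)) (nd (nat_lit 143) (nat_lit 0) (cs (lf (nat_lit 32) (nat_lit 120)) (lf (nat_lit 5) (nat_lit 118)))))) (cs (rf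 (nat_lit 15)) (rf (nat_lit 16))))) (cs (nd (nat_lit 118) (nat_lit 0) (cs (nd (nat_lit 117) (nat_lit 0) (cs (lf (nat_lit 5) (nat_lit 117)) (rf (nat_lit 17)))) (cs (rf (nat_lit 15)) (nd (nat_lit 121) (nat_lit 0) (cs (lf (nat_lit 11) (nat_lit 117)) (rf (nat_lit 18))))))) (rf (nat_lit 19))))) (cs (rf (nat_lit 20)) (cs (rf (nat_lit 21)) (nd (nat_lit 164) (nat_lit 0) (cs (rf (nat_lit 22)) (rf (nat_lit 1))))))))) q33774 (by decide +kernel)
def q34123 : Q := Q.p (nat_lit 0x60000500000400000000000000000000000000000) (nat_lit 0xc0000300003c0000f80001c0002f80003c0000f00003c00005000000000000) (nat_lit 12)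
theorem c34123 : QOK q34123 := cut [q34076, q34086, q34089, q34122] ⟨c34076, c34086, c34089, c34122, trivial⟩ (nd (nat_lit 160) (nat_lit 0) (cs (nd (nat_lit 141) (nat_lit 0) (cs (lf (nat_lit 12) (nat_lit 137)) (lf (nat_lit 9) (nat_lit 138)))) (cs (rf (nat_lit 0)) (cs (nd (nat_lit 139) (nat_lit 0) (cs (lf (nat_lit 7) (nat_lit 138)) (nd (nat_lit 117) (nat_lit 0) (cs (nd (nat_lit 95) (nat_lit 0) (cs (lf (nat_lit 24) (nat_lit 73)) (lf (nat_lit 41) (nat_lit 94)))) (cs (nd (nat_lit 183) (nat_lit 0) (cs (lf (nat_lit 30) (nat_lit 117)) (rf (nat_lit 1)))) (rf (nat_lit 2))))))) (rf (nat_lit 3)))))) q34123 (by decide +kernel)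
def q34446 : Q := Q.p (nat_lit 0x10000040000040000500000000000000000000000000000000000) (nat_lit 0x180000f00008c000e38001ac0007f80001c00007000000000000000000) (nat_lit 13)
theorem c34446 : QOK q34446 := cut [q33514, q34418, q34442, q34445] ⟨c33514, c34418, c34442, c34445, trivial⟩ (nd (nat_lit 141) (nat_lit 0) (cs (rf (nat_lit 0)) (cs (rf (nat_lit 1)) (cs (rf (nat_lit 2)) (rf (nat_lit 3)))))) q34446 (by decide +kernel)
def q34570 : Q := Q.p (nat_lit 0x14000040000040000100000000000000000000000000000000000) (nat_lit 0x30000080000b8000f38003ec000fb8000a000008000000000000000000) (nat_lit 10)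
theorem c34570 : QOK q34570 := cut [q34536, q34539, q34546, q34555, q33511, q33514, q34426, q33466, q34562] ⟨c34536, c34539, c34546, c34555, c33511, c33514, c34426, c33466, c34562, trivial⟩ (nd (nat_lit 141) (nat_lit 0) (cs (nd (nat_lit 119) (nat_lit 0) (cs (lf (nat_lit 31) (nat_lit 118)) (nd (nat_lit 75) (nat_lit 0) (cs (lf (nat_lit 37) (nat_lit 74)) (rf (nat_lit 0)))))) (cs (rf (nat_lit 1)) (cs (nd (nat_lit 184) (nat_lit 0) (cs (lf (nat_lit 35) (nat_lit 118)) (nd (nat_lit 207) (nat_lit 0) (cs (lf (nat_lit 29) (nat_lit 140)) (nd (nat_lit 139) (nat_lit 0) (cs (lf (nat_lit 47) (nat_lit 117)) (nd (nat_lit 161) (nat_lit 0) (cs (lf (nat_lit 42) (nat_lit 139)) (nd (nat_lit 160) (nat_lit 0) (cs (lf (nat_lit 12) (nat_lit 137)) (nd (nat_lit 185) (nat_lit 0) (cs (lf (nat_lit 18) (nat_lit 161)) (lf (nat_lit 21) (nat_lit 160)))))))))))))) (cs (nd (nat_lit 142) (nat_lit 0) (cs (nd (nat_lit 184) (nat_lit 0) (cs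 (lf (nat_lit 35) (nat_lit 118)) (nd (nat_lit 207) (nat_lit 0) (cs (lf (nat_lit 29) (nat_lit 140)) (nd (nat_lit 139) (nat_lit 0) (cs (lf (nat_lit 47) (nat_lit 117)) (nd (nat_lit 121) (nat_lit 0) (cs (lf (nat_lit 16) (nat_lit 117)) (rf (nat_lit 2)))))))))) (cs (rf (nat_lit 3)) (nd (nat_lit 119) (nat_lit 0) (cs (lf (nat_lit 44) (nat_lit 119)) (lf (nat_lit 31) (nat_lit 118))))))) (cs (nd (nat_lit 142) (nat_lit 0) (cs (rf (nat_lit 4)) (cs (rf (nat_lit 5)) (cs (rf (nat_lit 6)) (cs (rf (nat_lit 3)) (nd (nat_lit 143) (nat_lit 0) (cs (lf (nat_lit 11) (nat_lit 139)) (nd (nat_lit 165) (nat_lit 0) (cs (lf (nat_lit 5) (nat_lit 140)) (nd (nat_lit 139) (nat_lit 0) (cs (lf (nat_lit 4) (nat_lit 139)) (rf (nat_lit 7))))))))))))) (nd (nat_lit 119) (nat_lit 0) (cs (lf (nat_lit 31) (nat_lit 118)) (nd (nat_lit 75) (nat_lit 0) (cs (lf (nat_lit 37) (nat_lit 74)) (nd (nat_lit 142) (nat_lit 0) (cs (lf (nat_lit 44) (nat_lit 119))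 (nd (nat_lit 143) (nat_lit 0) (cs (lf (nat_lit 11) (nat_lit 139)) (nd (nat_lit 121) (nat_lit 0) (cs (lf (nat_lit 17) (nat_lit 118)) (nd (nat_lit 120) (nat_lit 0) (cs (lf (nat_lit 12) (nat_lit 117)) (nd (nat_lit 144) (nat_lit 0) (cs (lf (nat_lit 18) (nat_lit 119)) (rf (nat_lit 8)))))))))))))))))))))) q34570 (by decide +kernel)
def q35012 : Q := Q.p (nat_lit 0x2000000000010000040000040000100000000000000000000000000000000000) (nat_lit 0x200001e0000380000f0000b4000738003ef800ffc001ff0007fc000b80000e0000200) (nat_lit 14)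
theorem c35012 : QOK q35012 := cut [q34856, q34857, q34191, q34778, q34394, q24124, q34875, q34881, q32759, q34909, q9062, q34919, q35007, q34837, q34298, q34841] ⟨c34856, c34857, c34191, c34778, c34394, c24124, c34875, c34881, c32759, c34909, c9062, c34919, c35007, c34837, c34298, c34841, trivial⟩ (nd (nat_lit 118) (nat_lit 0) (cs (nd (nat_lit 119) (nat_lit 0) (cs (rf (nat_lit 0)) (cs (rf (nat_lit 1)) (nd (nat_lit 96) (nat_lit 0) (cs (rf (nat_lit 2)) (cs (nd (nat_lit 73) (nat_lit 0) (cs (lf (nat_lit 46) (nat_lit 73)) (nd (nat_lit 74) (nat_lit 0) (cs (lf (nat_lit 47) (nat_lit 51)) (nd (nat_lit 52) (nat_lit 0) (cs (lf (nat_lit 29) (nat_lit 52)) (nd (nat_lit 53) (nat_lit 0) (cs (lf (nat_lit 35) (nat_lit 30)) (lf (nat_lit 34) (nat_lit 52)))))))))) (cs (nd (nat_lit 75) (nat_lit 0) (cs (lf (nat_lit 34) (nat_lit 74)) (nd (nat_lit 74) (nat_lit 0) (cs (lf (nat_lit 35) (nat_lit 52)) (nd (nat_lit 141) (nat_lit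 0) (cs (lf (nat_lit 24) (nat_lit 52)) (rf (nat_lit 3)))))))) (nd (nat_lit 73) (nat_lit 0) (cs (lf (nat_lit 46) (nat_lit 73)) (nd (nat_lit 74) (nat_lit 0) (cs (lf (nat_lit 47) (nat_lit 51)) (rf (nat_lit 4))))))))))))) (cs (nd (nat_lit 96) (nat_lit 0) (cs (rf (nat_lit 5)) (cs (rf (nat_lit 6)) (cs (rf (nat_lit 7)) (nd (nat_lit 95) (nat_lit 0) (cs (lf (nat_lit 47) (nat_lit 73)) (nd (nat_lit 184) (nat_lit 0) (cs (lf (nat_lit 46) (nat_lit 95)) (rf (nat_lit 8)))))))))) (cs (nd (nat_lit 119) (nat_lit 0) (cs (rf (nat_lit 0)) (cs (rf (nat_lit 1)) (rf (nat_lit 9))))) (cs (nd (nat_lit 184) (nat_lit 0) (cs (rf (nat_lit 8)) (cs (nd (nat_lit 117) (nat_lit 0) (cs (lf (nat_lit 47) (nat_lit 95)) (nd (nat_lit 185) (nat_lit 0) (cs (lf (nat_lit 29) (nat_lit 118)) (nd (nat_lit 187) (nat_lit 0) (cs (lf (nat_lit 23) (nat_lit 161)) (nd (nat_lit 165) (nat_lit 0) (cs (lf (nat_lit 17) (nat_lit 162)) (nd (nat_lit 143) (nat_lit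 0) (cs (lf (nat_lit 36) (nat_lit 120)) (nd (nat_lit 142) (nat_lit 0) (cs (lf (nat_lit 20) (nat_lit 117)) (nd (nat_lit 120) (nat_lit 0) (cs (rf (nat_lit 10)) (lf (nat_lit 2) (nat_lit 117)))))))))))))))) (nd (nat_lit 117) (nat_lit 0) (cs (lf (nat_lit 47) (nat_lit 95)) (rf (nat_lit 11))))))) (cs (rf (nat_lit 12)) (nd (nat_lit 97) (nat_lit 0) (cs (rf (nat_lit 13)) (cs (nd (nat_lit 119) (nat_lit 0) (cs (lf (nat_lit 30) (nat_lit 96)) (rf (nat_lit 14)))) (cs (rf (nat_lit 15)) (nd (nat_lit 184) (nat_lit 0) (cs (lf (nat_lit 34) (nat_lit 96)) (nd (nat_lit 95) (nat_lit 0) (cs (lf (nat_lit 46) (nat_lit 95)) (nd (nat_lit 73) (nat_lit 0) (cs (rf (nat_lit 8)) (lf (nat_lit 45) (nat_lit 73)))))))))))))))))) q35012 (by decide +kernel)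
def q35132 : Q := Q.p (nat_lit 0x10000040000040000100000000000000000000000000000000000) (nat_lit 0x28003ca0007b8003f38003ef800ffc001ff8007fc001fe000068000080) (nat_lit 16)
theorem c35132 : QOK q35132 := cut [q34794, q24124, q33653, q33680, q34797, q34819, q34844, q33670, q19593, q32919, q34886, q33676, q33695, q34013, q34894, q35022, q35023, q35082, q34791, q34366, q34857, q34258, q35086, q35121, q35128, q35130] ⟨c34794, c24124, c33653, c33680, c34797, c34819, c34844, c33670, c19593, c32919, c34886, c33676, c33695, c34013, c34894, c35022, c35023, c35082, c34791, c34366, c34857, c34258, c35086, c35121, c35128, c35130, trivial⟩ (nd (nat_lit 118) (nat_lit 0) (cs (rf (nat_lit 0)) (cs (nd (nat_lit 96) (nat_lit 0) (cs (rf (nat_lit 1)) (cs (rf (nat_lit 2)) (cs (rf (nat_lit 3)) (nd (nat_lit 73) (nat_lit 0) (cs (lf (nat_lit 46) (nat_lit 73)) (rf (nat_lit 4)))))))) (cs (rf (nat_lit 5)) (cs (nd (nat_lit 119) (nat_lit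 0) (cs (rf (nat_lit 6)) (cs (nd (nat_lit 120) (nat_lit 0) (cs (rf (nat_lit 7)) (cs (nd (nat_lit 117) (nat_lit 0) (cs (rf (nat_lit 8)) (cs (rf (nat_lit 9)) (nd (nat_lit 94) (nat_lit 0) (cs (lf (nat_lit 22) (nat_lit 94)) (rf (nat_lit 10))))))) (cs (nd (nat_lit 142) (nat_lit 0) (cs (rf (nat_lit 11)) (cs (rf (nat_lit 12)) (rf (nat_lit 13))))) (rf (nat_lit 14)))))) (cs (rf (nat_lit 15)) (nd (nat_lit 184) (nat_lit 0) (cs (lf (nat_lit 35) (nat_lit 96)) (nd (nat_lit 95) (nat_lit 0) (cs (lf (nat_lit 46) (nat_lit 95)) (nd (nat_lit 183) (nat_lit 0) (cs (lf (nat_lit 41) (nat_lit 117)) (nd (nat_lit 185) (nat_lit 0) (cs (lf (nat_lit 29) (nat_lit 118)) (rf (nat_lit 16)))))))))))))) (cs (rf (nat_lit 17)) (cs (nd (nat_lit 96) (nat_lit 0) (cs (rf (nat_lit 1)) (cs (rf (nat_lit 4)) (nd (nat_lit 161) (nat_lit 0) (cs (lf (nat_lit 41) (nat_lit 95)) (rf (nat_lit 18))))))) (cs (nd (nat_lit 119) (nat_lit 0) (cs (rf (nat_lit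 19)) (cs (rf (nat_lit 20)) (rf (nat_lit 15))))) (nd (nat_lit 161) (nat_lit 0) (cs (rf (nat_lit 21)) (cs (rf (nat_lit 22)) (cs (rf (nat_lit 23)) (cs (rf (nat_lit 24)) (rf (nat_lit 25))))))))))))))) q35132 (by decide +kernel)
def q35161 : Q := Q.p (nat_lit 0x2000000000000000050000040000100000000000000000000000000000000000) (nat_lit 0x20000380001e000038000078000a8000030000080000600000800000000000000000000000) (nat_lit 11)
theorem c35161 : QOK q35161 := cut [q35153, q32770, q35023] ⟨c35153, c32770, c35023, trivial⟩ (nd (nat_lit 205) (nat_lit 0) (cs (nd (nat_lit 206) (nat_lit 0) (cs (lf (nat_lit 41) (nat_lit 139)) (nd (nat_lit 185) (nat_lit 0) (cs (lf (nat_lit 6) (nat_lit 183)) (nd (nat_lit 203) (nat_lit 0) (cs (lf (nat_lit 13) (nat_lit 181)) (nd (nat_lit 139) (nat_lit 0) (cs (lf (nat_lit 47) (nat_lit 117)) (rf (nat_lit 0)))))))))) (cs (nd (nat_lit 206) (nat_lit 0) (cs (lf (nat_lit 41) (nat_lit 139)) (rf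 (nat_lit 1)))) (nd (nat_lit 183) (nat_lit 0) (cs (lf (nat_lit 36) (nat_lit 117)) (nd (nat_lit 185) (nat_lit 0) (cs (lf (nat_lit 11) (nat_lit 182)) (rf (nat_lit 2))))))))) q35161 (by decide +kernel)
def q35394 : Q := Q.p (nat_lit 0x10000040000060000100000000000000000000000000000000000) (nat_lit 0xc0000300001c0003fe000ff000afe0011e000efc003ff000dfc0021c00007000000000000) (nat_lit 15)
theorem c35394 : QOK q35394 := cut [q35165, q34076, q35216, q35240, q34196, q3674, q34462, q35249, q34075, q35260, q34097, q34113, q35272, q34096, q34112, q35278, q35292, q35349, q34122, q34806, q35380, q34516, q35180, q35382] ⟨c35165, c34076, c35216, c35240, c34196, c3674, c34462, c35249, c34075, c35260, c34097, c34113, c35272, c34096, c34112, c35278, c35292, c35349, c34122, c34806, c35380, c34516, c35180, c35382, trivial⟩ (nd (nat_lit 183) (nat_lit 0) (cs (rf (nat_lit 0)) (cs (nd (nat_lit 205) (nat_lit 0) (cs (lf (nat_lit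 30) (nat_lit 139)) (nd (nat_lit 160) (nat_lit 0) (cs (rf (nat_lit 1)) (cs (nd (nat_lit 116) (nat_lit 0) (cs (rf (nat_lit 2)) (cs (nd (nat_lit 118) (nat_lit 0) (cs (lf (nat_lit 36) (nat_lit 95)) (rf (nat_lit 3)))) (nd (nat_lit 118) (nat_lit 0) (cs (lf (nat_lit 36) (nat_lit 95)) (nd (nat_lit 142) (nat_lit 0) (cs (rf (nat_lit 4)) (cs (nd (nat_lit 207) (nat_lit 0) (cs (rf (nat_lit 5)) (rf (nat_lit 6)))) (nd (nat_lit 141) (nat_lit 0) (cs (lf (nat_lit 6) (nat_lit 139)) (nd (nat_lit 117) (nat_lit 0) (cs (lf (nat_lit 0) (nat_lit 115)) (lf (nat_lit 3) (nat_lit 116)))))))))))))) (cs (nd (nat_lit 96) (nat_lit 0) (cs (lf (nat_lit 37) (nat_lit 95)) (nd (nat_lit 141) (nat_lit 0) (cs (lf (nat_lit 12) (nat_lit 137)) (nd (nat_lit 142) (nat_lit 0) (cs (lf (nat_lit 6) (nat_lit 139)) (nd (nat_lit 164) (nat_lit 0) (cs (lf (nat_lit 47) (nat_lit 119)) (rf (nat_lit 7)))))))))) (nd (nat_lit 159) (nat_lit 0) (cs (rf (nat_lit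 8)) (cs (nd (nat_lit 96) (nat_lit 0) (cs (lf (nat_lit 37) (nat_lit 95)) (rf (nat_lit 9)))) (cs (nd (nat_lit 137) (nat_lit 0) (cs (lf (nat_lit 23) (nat_lit 136)) (nd (nat_lit 115) (nat_lit 0) (cs (rf (nat_lit 10)) (cs (rf (nat_lit 11)) (cs (nd (nat_lit 116) (nat_lit 0) (cs (rf (nat_lit 2)) (cs (nd (nat_lit 96) (nat_lit 0) (cs (lf (nat_lit 37) (nat_lit 95)) (nd (nat_lit 181) (nat_lit 0) (cs (lf (nat_lit 35) (nat_lit 93)) (nd (nat_lit 92) (nat_lit 0) (cs (lf (nat_lit 46) (nat_lit 92)) (nd (nat_lit 204) (nat_lit 0) (cs (nd (nat_lit 203) (nat_lit 0) (cs (lf (nat_lit 29) (nat_lit 137)) (nd (nat_lit 224) (nat_lit 0) (cs (lf (nat_lit 40) (nat_lit 136)) (nd (nat_lit 225) (nat_lit 0) (cs (lf (nat_lit 41) (nat_lit 158)) (lf (nat_lit 6) (nat_lit 202)))))))) (lf (nat_lit 28) (nat_lit 115)))))))))) (cs (nd (nat_lit 182) (nat_lit 0) (cs (lf (nat_lit 25) (nat_lit 116)) (rf (nat_lit 12)))) (nd (nat_lit 94) (nat_lit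 0) (cs (lf (nat_lit 30) (nat_lit 93)) (lf (nat_lit 26) (nat_lit 94)))))))) (cs (nd (nat_lit 93) (nat_lit 0) (cs (rf (nat_lit 13)) (cs (rf (nat_lit 14)) (cs (nd (nat_lit 96) (nat_lit 0) (cs (lf (nat_lit 37) (nat_lit 95)) (rf (nat_lit 15)))) (nd (nat_lit 96) (nat_lit 0) (cs (lf (nat_lit 37) (nat_lit 95)) (nd (nat_lit 70) (nat_lit 0) (cs (lf (nat_lit 46) (nat_lit 70)) (nd (nat_lit 94) (nat_lit 0) (cs (lf (nat_lit 35) (nat_lit 71)) (nd (nat_lit 116) (nat_lit 0) (cs (lf (nat_lit 30) (nat_lit 93)) (lf (nat_lit 26) (nat_lit 94)))))))))))))) (nd (nat_lit 96) (nat_lit 0) (cs (lf (nat_lit 37) (nat_lit 95)) (nd (nat_lit 93) (nat_lit 0) (cs (lf (nat_lit 29) (nat_lit 93)) (rf (nat_lit 15))))))))))))) (cs (nd (nat_lit 96) (nat_lit 0) (cs (lf (nat_lit 37) (nat_lit 95)) (rf (nat_lit 16)))) (rf (nat_lit 17))))))))))))) (cs (nd (nat_lit 160) (nat_lit 0) (cs (rf (nat_lit 1)) (cs (rf (nat_lit 18)) (cs (rf (nat_lit 19))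 (rf (nat_lit 20)))))) (nd (nat_lit 205) (nat_lit 0) (cs (lf (nat_lit 30) (nat_lit 139)) (nd (nat_lit 139) (nat_lit 0) (cs (rf (nat_lit 21)) (cs (rf (nat_lit 22)) (nd (nat_lit 206) (nat_lit 0) (cs (lf (nat_lit 29) (nat_lit 139)) (nd (nat_lit 187) (nat_lit 0) (cs (lf (nat_lit 14) (nat_lit 183)) (nd (nat_lit 204) (nat_lit 0) (cs (lf (nat_lit 41) (nat_lit 138)) (nd (nat_lit 138) (nat_lit 0) (cs (lf (nat_lit 47) (nat_lit 116)) (nd (nat_lit 137) (nat_lit 0) (cs (lf (nat_lit 0) (nat_lit 136)) (nd (nat_lit 114) (nat_lit 0) (cs (lf (nat_lit 22) (nat_lit 114)) (nd (nat_lit 159) (nat_lit 0) (cs (lf (nat_lit 11) (nat_lit 136)) (nd (nat_lit 141) (nat_lit 0) (cs (lf (nat_lit 10) (nat_lit 137)) (nd (nat_lit 119) (nat_lit 0) (cs (lf (nat_lit 17) (nat_lit 116)) (rf (nat_lit 23))))))))))))))))))))))))))))) q35394 (by decide +kernel)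
def q35423 : Q := Q.p (nat_lit 0x10000040000060000100000000000000000000000000000000000) (nat_lit 0xc0002b0000fc0009f80031c001ef8003fc001df80007c0000f000028000000) (nat_lit 13)
theorem c35423 : QOK q35423 := cut [q34076, q34122, q34806, q34258, q35408, q35118, q35119, q35014, q35420] ⟨c34076, c34122, c34806, c34258, c35408, c35118, c35119, c35014, c35420, trivial⟩ (nd (nat_lit 160) (nat_lit 0) (cs (rf (nat_lit 0)) (cs (rf (nat_lit 1)) (cs (rf (nat_lit 2)) (nd (nat_lit 118) (nat_lit 0) (cs (rf (nat_lit 3)) (cs (rf (nat_lit 4)) (cs (nd (nat_lit 117) (nat_lit 0) (cs (rf (nat_lit 5)) (cs (rf (nat_lit 6)) (nd (nat_lit 95) (nat_lit 0) (cs (lf (nat_lit 42) (nat_lit 95)) (nd (nat_lit 139) (nat_lit 0) (cs (lf (nat_lit 41) (nat_lit 94)) (nd (nat_lit 74) (nat_lit 0) (cs (lf (nat_lit 37) (nat_lit 73)) (nd (nat_lit 141) (nat_lit 0) (cs (lf (nat_lit 6) (nat_lit 138)) (nd (nat_lit 116) (nat_lit 0) (cs (lf (nat_lit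 0) (nat_lit 115)) (nd (nat_lit 94) (nat_lit 0) (cs (lf (nat_lit 47) (nat_lit 72)) (nd (nat_lit 119) (nat_lit 0) (cs (lf (nat_lit 23) (nat_lit 93)) (lf (nat_lit 18) (nat_lit 94))))))))))))))))))) (nd (nat_lit 117) (nat_lit 0) (cs (rf (nat_lit 7)) (cs (rf (nat_lit 5)) (rf (nat_lit 8))))))))))))) q35423 (by decide +kernel)
def q35549 : Q := Q.p (nat_lit 0x10000040000040000100000000000000000000000000000000000) (nat_lit 0x80000700009f00073c001ef800ffc001ff8007fc0003e0000f8000200) (nat_lit 15)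
theorem c35549 : QOK q35549 := cut [q35007, q35461, q35462, q35466, q35468, q34844, q34723, q35087, q33776, q32972, q33670, q34894, q35548] ⟨c35007, c35461, c35462, c35466, c35468, c34844, c34723, c35087, c33776, c32972, c33670, c34894, c35548, trivial⟩ (nd (nat_lit 118) (nat_lit 0) (cs (rf (nat_lit 0)) (cs (rf (nat_lit 1)) (cs (rf (nat_lit 2)) (cs (rf (nat_lit 3)) (cs (rf (nat_lit 4)) (cs (nd (nat_lit 119) (nat_lit 0) (cs (rf (nat_lit 5)) (cs (nd (nat_lit 141) (nat_lit 0) (cs (rf (nat_lit 6)) (cs (nd (nat_lit 138) (nat_lit 0) (cs (nd (nat_lit 139) (nat_lit 0) (cs (lf (nat_lit 17) (nat_lit 116)) (lf (nat_lit 12) (nat_lit 115)))) (cs (nd (nat_lit 184) (nat_lit 0) (cs (lf (nat_lit 30) (nat_lit 118)) (nd (nat_lit 183) (nat_lit 0) (cs (lf (nat_lit 41) (nat_lit 117)) (nd (nat_lit 161) (nat_lit 0) (cs (lf (nat_lit 36) (nat_lit 95)) (nd (nat_lit 160) (nat_lit 0) (cs (lf (nat_lit 12) (nat_lit 137)) (nd (nat_lit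 116) (nat_lit 0) (cs (lf (nat_lit 24) (nat_lit 94)) (nd (nat_lit 117) (nat_lit 0) (cs (lf (nat_lit 11) (nat_lit 115)) (lf (nat_lit 0) (nat_lit 115)))))))))))))) (nd (nat_lit 184) (nat_lit 0) (cs (lf (nat_lit 30) (nat_lit 118)) (nd (nat_lit 183) (nat_lit 0) (cs (lf (nat_lit 41) (nat_lit 117)) (nd (nat_lit 96) (nat_lit 0) (cs (lf (nat_lit 40) (nat_lit 95)) (nd (nat_lit 52) (nat_lit 0) (cs (lf (nat_lit 25) (nat_lit 52)) (nd (nat_lit 120) (nat_lit 0) (cs (nd (nat_lit 121) (nat_lit 0) (cs (lf (nat_lit 6) (nat_lit 118)) (nd (nat_lit 143) (nat_lit 0) (cs (lf (nat_lit 5) (nat_lit 118)) (nd (nat_lit 99) (nat_lit 0) (cs (lf (nat_lit 17) (nat_lit 96)) (rf (nat_lit 7)))))))) (lf (nat_lit 13) (nat_lit 116))))))))))))))) (cs (nd (nat_lit 142) (nat_lit 0) (cs (lf (nat_lit 44) (nat_lit 119)) (nd (nat_lit 116) (nat_lit 0) (cs (lf (nat_lit 1) (nat_lit 116)) (nd (nat_lit 184) (nat_lit 0) (cs (lf (nat_lit 30) (nat_lit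 118)) (nd (nat_lit 183) (nat_lit 0) (cs (lf (nat_lit 41) (nat_lit 117)) (nd (nat_lit 161) (nat_lit 0) (cs (lf (nat_lit 36) (nat_lit 95)) (rf (nat_lit 8)))))))))))) (nd (nat_lit 184) (nat_lit 0) (cs (lf (nat_lit 30) (nat_lit 118)) (nd (nat_lit 183) (nat_lit 0) (cs (lf (nat_lit 41) (nat_lit 117)) (nd (nat_lit 161) (nat_lit 0) (cs (lf (nat_lit 36) (nat_lit 95)) (nd (nat_lit 142) (nat_lit 0) (cs (lf (nat_lit 6) (nat_lit 139)) (rf (nat_lit 8)))))))))))))) (nd (nat_lit 97) (nat_lit 0) (cs (rf (nat_lit 9)) (nd (nat_lit 120) (nat_lit 0) (cs (rf (nat_lit 10)) (cs (rf (nat_lit 11)) (nd (nat_lit 142) (nat_lit 0) (cs (lf (nat_lit 43) (nat_lit 97)) (nd (nat_lit 117) (nat_lit 0) (cs (lf (nat_lit 5) (nat_lit 117)) (nd (nat_lit 98) (nat_lit 0) (cs (lf (nat_lit 17) (nat_lit 95)) (lf (nat_lit 12) (nat_lit 94)))))))))))))))) (rf (nat_lit 12))))))))) q35549 (by decide +kernel)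
def q35561 : Q := Q.p (nat_lit 0x400001e0000000000000000000000000000000000000000) (nat_lit 0x72c000e000039c0000000000000000000000000000000000) (nat_lit 8)
theorem c35561 : QOK q35561 := cut [q35560] ⟨c35560, trivial⟩ (nd (nat_lit 182) (nat_lit 0) (cs (lf (nat_lit 10) (nat_lit 160)) (rf (nat_lit 0)))) q35561 (by decide +kernel)
def q35616 : Q := Q.p (nat_lit 0x10000040000140000000000000000000000000000000000000000) (nat_lit 0x200000800018e0006b0003fe000380000e000038000020000000000000) (nat_lit 8)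
theorem c35616 : QOK q35616 := cut [q3803, q32493, q35615] ⟨c3803, c32493, c35615, trivial⟩ (nd (nat_lit 163) (nat_lit 0) (cs (rf (nat_lit 0)) (cs (rf (nat_lit 1)) (rf (nat_lit 2))))) q35616 (by decide +kernel)
def q35999 : Q := Q.p (nat_lit 0x10000040000040000700000000000000000000000000000000000) (nat_lit 0x140000700001c0003f8000fc0009f8000b80000f0003ee000fc000ff0000c0000000000000) (nat_lit 14)
theorem c35999 : QOK q35999 := cut [q9145, q35883, q35961, q35978] ⟨c9145, c35883, c35961, c35978, trivial⟩ (nd (nat_lit 139) (nat_lit 0) (cs (rf (nat_lit 0)) (cs (rf (nat_lit 1)) (cs (rf (nat_lit 2)) (rf (nat_lit 3)))))) q35999 (by decide +kernel)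
def q36080 : Q := Q.p (nat_lit 0x10000040000040000500000000000000000000000000000000000) (nat_lit 0x200002c0000e00039f0007b800027000ff8001fe0007fc000a8000000000000) (nat_lit 15)
theorem c36080 : QOK q36080 := cut [q36006, q36026, q36010, q36023, q36025, q35468, q34837, q36027, q36032, q34262, q34265, q34279, q34327, q34343, q34933, q36068, q556, q11202, q36078] ⟨c36006, c36026, c36010, c36023, c36025, c35468, c34837, c36027, c36032, c34262, c34265, c34279, c34327, c34343, c34933, c36068, c556, c11202, c36078, trivial⟩ (nd (nat_lit 164) (nat_lit 0) (cs (rf (nat_lit 0)) (cs (rf (nat_lit 1)) (cs (nd (nat_lit 205) (nat_lit 0) (cs (rf (nat_lit 2)) (cs (rf (nat_lit 3)) (cs (rf (nat_lit 4)) (cs (nd (nat_lit 118) (nat_lit 0) (cs (rf (nat_lit 5)) (cs (nd (nat_lit 97) (nat_lit 0) (cs (rf (nat_lit 6)) (cs (nd (nat_lit 207) (nat_lit 0) (cs (lf (nat_lit 41) (nat_lit 141)) (rf (nat_lit 7)))) (nd (nat_lit 119) (nat_lit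 0) (cs (lf (nat_lit 45) (nat_lit 97)) (lf (nat_lit 30) (nat_lit 96))))))) (cs (nd (nat_lit 207) (nat_lit 0) (cs (lf (nat_lit 41) (nat_lit 141)) (nd (nat_lit 183) (nat_lit 0) (cs (lf (nat_lit 39) (nat_lit 117)) (rf (nat_lit 8)))))) (nd (nat_lit 97) (nat_lit 0) (cs (rf (nat_lit 7)) (cs (nd (nat_lit 207) (nat_lit 0) (cs (lf (nat_lit 41) (nat_lit 141)) (nd (nat_lit 120) (nat_lit 0) (cs (lf (nat_lit 46) (nat_lit 97)) (nd (nat_lit 99) (nat_lit 0) (cs (lf (nat_lit 34) (nat_lit 98)) (nd (nat_lit 98) (nat_lit 0) (cs (lf (nat_lit 35) (nat_lit 76)) (lf (nat_lit 47) (nat_lit 75)))))))))) (cs (nd (nat_lit 207) (nat_lit 0) (cs (lf (nat_lit 41) (nat_lit 141)) (nd (nat_lit 120) (nat_lit 0) (cs (lf (nat_lit 46) (nat_lit 97)) (nd (nat_lit 99) (nat_lit 0) (cs (lf (nat_lit 34) (nat_lit 98)) (nd (nat_lit 98) (nat_lit 0) (cs (lf (nat_lit 35) (nat_lit 76)) (nd (nat_lit 96) (nat_lit 0) (cs (lf (nat_lit 11) (nat_lit 95)) (nd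 (nat_lit 73) (nat_lit 0) (cs (lf (nat_lit 46) (nat_lit 73)) (lf (nat_lit 22) (nat_lit 73)))))))))))))) (cs (nd (nat_lit 96) (nat_lit 0) (cs (lf (nat_lit 35) (nat_lit 74)) (nd (nat_lit 116) (nat_lit 0) (cs (rf (nat_lit 9)) (cs (rf (nat_lit 10)) (cs (rf (nat_lit 11)) (nd (nat_lit 161) (nat_lit 0) (cs (lf (nat_lit 41) (nat_lit 95)) (nd (nat_lit 163) (nat_lit 0) (cs (lf (nat_lit 5) (nat_lit 161)) (nd (nat_lit 95) (nat_lit 0) (cs (lf (nat_lit 47) (nat_lit 73)) (nd (nat_lit 98) (nat_lit 0) (cs (lf (nat_lit 10) (nat_lit 94)) (nd (nat_lit 77) (nat_lit 0) (cs (lf (nat_lit 16) (nat_lit 73)) (nd (nat_lit 99) (nat_lit 0) (cs (lf (nat_lit 17) (nat_lit 74)) (rf (nat_lit 12)))))))))))))))))))) (nd (nat_lit 96) (nat_lit 0) (cs (lf (nat_lit 35) (nat_lit 74)) (nd (nat_lit 98) (nat_lit 0) (cs (rf (nat_lit 13)) (cs (rf (nat_lit 14)) (nd (nat_lit 207) (nat_lit 0) (cs (lf (nat_lit 41) (nat_lit 141)) (nd (nat_lit 161) (nat_lit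 0) (cs (lf (nat_lit 41) (nat_lit 95)) (nd (nat_lit 95) (nat_lit 0) (cs (lf (nat_lit 47) (nat_lit 73)) (nd (nat_lit 187) (nat_lit 0) (cs (lf (nat_lit 2) (nat_lit 161)) (nd (nat_lit 120) (nat_lit 0) (cs (lf (nat_lit 28) (nat_lit 98)) (lf (nat_lit 5) (nat_lit 95)))))))))))))))))))))))))) (rf (nat_lit 15))))))) (nd (nat_lit 120) (nat_lit 0) (cs (rf (nat_lit 16)) (cs (rf (nat_lit 17)) (cs (nd (nat_lit 207) (nat_lit 0) (cs (lf (nat_lit 41) (nat_lit 141)) (nd (nat_lit 141) (nat_lit 0) (cs (lf (nat_lit 47) (nat_lit 119)) (nd (nat_lit 99) (nat_lit 0) (cs (lf (nat_lit 34) (nat_lit 98)) (nd (nat_lit 98) (nat_lit 0) (cs (lf (nat_lit 35) (nat_lit 76)) (nd (nat_lit 165) (nat_lit 0) (cs (lf (nat_lit 29) (nat_lit 98)) (nd (nat_lit 163) (nat_lit 0) (cs (lf (nat_lit 18) (nat_lit 140)) (lf (nat_lit 36) (nat_lit 75)))))))))))))) (rf (nat_lit 18)))))))))) q36080 (by decide +kernel)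
def q36140 : Q := Q.p (nat_lit 0x10000040000040000500000000000000000000000000000000000) (nat_lit 0x2f0000fe0009f0001bc0000f800ffe001ff8007fe000bf0000f4000080) (nat_lit 15)
theorem c36140 : QOK q36140 := cut [q34347, q35461, q35466, q35468, q35689, q35858, q35860, q36110, q35855, q35857, q34189, q24124, q34875, q34881, q34926, q34937, q36115, q33680, q35683, q35420, q35700, q35769, q35698, q35975, q36084] ⟨c34347, c35461, c35466, c35468, c35689, c35858, c35860, c36110, c35855, c35857, c34189, c24124, c34875, c34881, c34926, c34937, c36115, c33680, c35683, c35420, c35700, c35769, c35698, c35975, c36084, trivial⟩ (nd (nat_lit 118) (nat_lit 0) (cs (rf (nat_lit 0)) (cs (rf (nat_lit 1)) (cs (rf (nat_lit 2)) (cs (rf (nat_lit 3)) (cs (rf (nat_lit 4)) (cs (rf (nat_lit 5)) (cs (rf (nat_lit 6)) (cs (rf (nat_lit 7)) (cs (nd (nat_lit 95) (nat_lit 0) (cs (rf (nat_lit 8)) (cs (rf (nat_lit 9)) (nd (nat_lit 96) (nat_lit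 0) (cs (lf (nat_lit 47) (nat_lit 73)) (nd (nat_lit 97) (nat_lit 0) (cs (lf (nat_lit 35) (nat_lit 74)) (nd (nat_lit 119) (nat_lit 0) (cs (lf (nat_lit 30) (nat_lit 96)) (rf (nat_lit 10))))))))))) (cs (nd (nat_lit 96) (nat_lit 0) (cs (rf (nat_lit 11)) (cs (rf (nat_lit 12)) (cs (rf (nat_lit 13)) (cs (rf (nat_lit 14)) (cs (rf (nat_lit 15)) (nd (nat_lit 73) (nat_lit 0) (cs (lf (nat_lit 46) (nat_lit 73)) (nd (nat_lit 74) (nat_lit 0) (cs (lf (nat_lit 47) (nat_lit 51)) (nd (nat_lit 139) (nat_lit 0) (cs (lf (nat_lit 41) (nat_lit 73)) (nd (nat_lit 117) (nat_lit 0) (cs (lf (nat_lit 36) (nat_lit 51)) (nd (nat_lit 184) (nat_lit 0) (cs (lf (nat_lit 42) (nat_lit 117)) (rf (nat_lit 16)))))))))))))))))) (nd (nat_lit 96) (nat_lit 0) (cs (rf (nat_lit 17)) (cs (rf (nat_lit 13)) (cs (rf (nat_lit 18)) (cs (nd (nat_lit 117) (nat_lit 0) (cs (rf (nat_lit 19)) (cs (rf (nat_lit 20)) (cs (rf (nat_lit 21)) (nd (nat_lit 161) (nat_lit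 0) (cs (lf (nat_lit 41) (nat_lit 95)) (nd (nat_lit 139) (nat_lit 0) (cs (rf (nat_lit 22)) (nd (nat_lit 138) (nat_lit 0) (cs (rf (nat_lit 23)) (cs (nd (nat_lit 206) (nat_lit 0) (cs (lf (nat_lit 43) (nat_lit 117)) (nd (nat_lit 119) (nat_lit 0) (cs (nd (nat_lit 164) (nat_lit 0) (cs (lf (nat_lit 19) (nat_lit 138)) (nd (nat_lit 207) (nat_lit 0) (cs (lf (nat_lit 41) (nat_lit 141)) (nd (nat_lit 205) (nat_lit 0) (cs (lf (nat_lit 17) (nat_lit 183)) (nd (nat_lit 226) (nat_lit 0) (cs (lf (nat_lit 10) (nat_lit 204)) (nd (nat_lit 204) (nat_lit 0) (cs (lf (nat_lit 11) (nat_lit 203)) (nd (nat_lit 182) (nat_lit 0) (cs (lf (nat_lit 23) (nat_lit 181)) (lf (nat_lit 32) (nat_lit 116)))))))))))))) (lf (nat_lit 6) (nat_lit 116)))))) (nd (nat_lit 119) (nat_lit 0) (cs (lf (nat_lit 12) (nat_lit 115)) (lf (nat_lit 6) (nat_lit 116))))))))))))))) (nd (nat_lit 183) (nat_lit 0) (cs (lf (nat_lit 40) (nat_lit 95)) (nd (nat_lit 184)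 (nat_lit 0) (cs (lf (nat_lit 41) (nat_lit 117)) (rf (nat_lit 24)))))))))))))))))))))) q36140 (by decide +kernel)
def q36365 : Q := Q.p (nat_lit 0x10000040000040000500000000000000000000000000000000000) (nat_lit 0x200003e0000f80009f0003be0002f00037e000ff8001fc00000000000000000) (nat_lit 15)
theorem c36365 : QOK q36365 := cut [q35888, q36177, q36144, q35964, q36142, q36189, q36199, q36212, q36246, q36324, q36346, q36321, q35977, q36323, q36175, q36235, q34438, q36167, q36168] ⟨c35888, c36177, c36144, c35964, c36142, c36189, c36199, c36212, c36246, c36324, c36346, c36321, c35977, c36323, c36175, c36235, c34438, c36167, c36168, trivial⟩ (nd (nat_lit 139) (nat_lit 0) (cs (nd (nat_lit 117) (nat_lit 0) (cs (rf (nat_lit 0)) (cs (rf (nat_lit 1)) (nd (nat_lit 206) (nat_lit 0) (cs (lf (nat_lit 43) (nat_lit 117)) (nd (nat_lit 73) (nat_lit 0) (cs (lf (nat_lit 25) (nat_lit 73)) (nd (nat_lit 141) (nat_lit 0) (cs (lf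 (nat_lit 23) (nat_lit 116)) (nd (nat_lit 120) (nat_lit 0) (cs (lf (nat_lit 17) (nat_lit 117)) (nd (nat_lit 164) (nat_lit 0) (cs (lf (nat_lit 5) (nat_lit 139)) (nd (nat_lit 138) (nat_lit 0) (cs (lf (nat_lit 4) (nat_lit 138)) (nd (nat_lit 159) (nat_lit 0) (cs (lf (nat_lit 10) (nat_lit 137)) (rf (nat_lit 2))))))))))))))))))) (cs (nd (nat_lit 141) (nat_lit 0) (cs (rf (nat_lit 3)) (cs (rf (nat_lit 4)) (cs (rf (nat_lit 5)) (cs (rf (nat_lit 6)) (rf (nat_lit 7))))))) (cs (rf (nat_lit 8)) (cs (rf (nat_lit 9)) (cs (rf (nat_lit 10)) (cs (nd (nat_lit 117) (nat_lit 0) (cs (rf (nat_lit 0)) (cs (rf (nat_lit 11)) (nd (nat_lit 141) (nat_lit 0) (cs (lf (nat_lit 23) (nat_lit 116)) (nd (nat_lit 120) (nat_lit 0) (cs (lf (nat_lit 17) (nat_lit 117)) (rf (nat_lit 12))))))))) (cs (nd (nat_lit 117) (nat_lit 0) (cs (rf (nat_lit 0)) (cs (nd (nat_lit 206) (nat_lit 0) (cs (lf (nat_lit 43) (nat_lit 117)) (nd (nat_lit 141) (nat_lit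 0) (cs (lf (nat_lit 23) (nat_lit 116)) (nd (nat_lit 120) (nat_lit 0) (cs (lf (nat_lit 17) (nat_lit 117)) (nd (nat_lit 160) (nat_lit 0) (cs (lf (nat_lit 10) (nat_lit 138)) (nd (nat_lit 164) (nat_lit 0) (cs (lf (nat_lit 5) (nat_lit 139)) (rf (nat_lit 2)))))))))))) (cs (rf (nat_lit 13)) (nd (nat_lit 95) (nat_lit 0) (cs (lf (nat_lit 24) (nat_lit 73)) (nd (nat_lit 141) (nat_lit 0) (cs (lf (nat_lit 23) (nat_lit 116)) (nd (nat_lit 120) (nat_lit 0) (cs (lf (nat_lit 17) (nat_lit 117)) (nd (nat_lit 164) (nat_lit 0) (cs (lf (nat_lit 5) (nat_lit 139)) (nd (nat_lit 161) (nat_lit 0) (cs (lf (nat_lit 11) (nat_lit 138)) (nd (nat_lit 72) (nat_lit 0) (cs (lf (nat_lit 46) (nat_lit 72)) (nd (nat_lit 207) (nat_lit 0) (cs (lf (nat_lit 41) (nat_lit 141)) (nd (nat_lit 96) (nat_lit 0) (cs (lf (nat_lit 35) (nat_lit 73)) (nd (nat_lit 183) (nat_lit 0) (cs (lf (nat_lit 37) (nat_lit 95)) (nd (nat_lit 182) (nat_lit 0) (cs (lf (nat_lit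 41) (nat_lit 116)) (nd (nat_lit 205) (nat_lit 0) (cs (lf (nat_lit 30) (nat_lit 139)) (lf (nat_lit 20) (nat_lit 182)))))))))))))))))))))))))))) (cs (nd (nat_lit 117) (nat_lit 0) (cs (rf (nat_lit 14)) (cs (rf (nat_lit 15)) (rf (nat_lit 11))))) (cs (nd (nat_lit 117) (nat_lit 0) (cs (rf (nat_lit 14)) (cs (rf (nat_lit 1)) (rf (nat_lit 13))))) (nd (nat_lit 141) (nat_lit 0) (cs (rf (nat_lit 16)) (cs (rf (nat_lit 17)) (rf (nat_lit 18))))))))))))))) q36365 (by decide +kernel)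
def q36366 : Q := Q.p (nat_lit 0x10000040000040000700000000000000000000000000000000000) (nat_lit 0x380000e00009c0003be0000f00035c0001400001000000000000000000) (nat_lit 13)
theorem c36366 : QOK q36366 := cut [q35964, q36142, q36189, q36199, q36212] ⟨c35964, c36142, c36189, c36199, c36212, trivial⟩ (nd (nat_lit 139) (nat_lit 0) (cs (rf (nat_lit 0)) (cs (rf (nat_lit 1)) (cs (rf (nat_lit 2)) (cs (rf (nat_lit 3)) (rf (nat_lit 4))))))) q36366 (by decide +kernel)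
def q36369 : Q := Q.p (nat_lit 0x40000040000700000000000000000000000000000000000) (nat_lit 0x600009c0003b0000080003700001800002000000000000000000) (nat_lit 8)
theorem c36369 : QOK q36369 := cut [q35867, q35890, q36189] ⟨c35867, c35890, c36189, trivial⟩ (nd (nat_lit 139) (nat_lit 0) (cs (rf (nat_lit 0)) (cs (rf (nat_lit 1)) (rf (nat_lit 2))))) q36369 (by decide +kernel)
def q36908 : Q := Q.p (nat_lit 0x10000040000040000400000000000000000000000000000000000) (nat_lit 0x20001cc000f90003f9c00fbe007ff000fe8000fa0001e0000000000000) (nat_lit 14)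
theorem c36908 : QOK q36908 := cut [q35670, q8399, q36818, q36819, q33040, q36813, q16680, q36864, q5780, q5702, q32510, q32536, q36162, q36872, q32513, q34444, q35041, q33044, q36901, q36904] ⟨c35670, c8399, c36818, c36819, c33040, c36813, c16680, c36864, c5780, c5702, c32510, c32536, c36162, c36872, c32513, c34444, c35041, c33044, c36901, c36904, trivial⟩ (nd (nat_lit 143) (nat_lit 0) (cs (rf (nat_lit 0)) (cs (nd (nat_lit 144) (nat_lit 0) (cs (nd (nat_lit 141) (nat_lit 0) (cs (lf (nat_lit 10) (nat_lit 140)) (rf (nat_lit 1)))) (cs (rf (nat_lit 2)) (cs (rf (nat_lit 3)) (nd (nat_lit 145) (nat_lit 0) (cs (rf (nat_lit 4)) (cs (rf (nat_lit 5)) (nd (nat_lit 119) (nat_lit 0) (cs (lf (nat_lit 22) (nat_lit 119)) (nd (nat_lit 141) (nat_lit 0) (cs (lf (nat_lit 44) (nat_lit 119)) (lf (nat_lit 23) (nat_lit 118))))))))))))) (cs (nd (nat_lit 144) (nat_lit 0) (cs (rf (nat_lit 3)) (cs (nd (nat_lit 141) (nat_lit 0)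 (cs (lf (nat_lit 10) (nat_lit 140)) (nd (nat_lit 166) (nat_lit 0) (cs (lf (nat_lit 5) (nat_lit 141)) (rf (nat_lit 6)))))) (cs (rf (nat_lit 7)) (nd (nat_lit 141) (nat_lit 0) (cs (rf (nat_lit 8)) (lf (nat_lit 10) (nat_lit 140)))))))) (cs (nd (nat_lit 141) (nat_lit 0) (cs (rf (nat_lit 9)) (cs (rf (nat_lit 10)) (cs (nd (nat_lit 140) (nat_lit 0) (cs (rf (nat_lit 11)) (cs (rf (nat_lit 12)) (rf (nat_lit 13))))) (nd (nat_lit 140) (nat_lit 0) (cs (rf (nat_lit 14)) (cs (rf (nat_lit 15)) (rf (nat_lit 13))))))))) (cs (nd (nat_lit 144) (nat_lit 0) (cs (rf (nat_lit 2)) (cs (rf (nat_lit 7)) (cs (nd (nat_lit 121) (nat_lit 0) (cs (lf (nat_lit 32) (nat_lit 120)) (nd (nat_lit 165) (nat_lit 0) (cs (lf (nat_lit 39) (nat_lit 120)) (nd (nat_lit 99) (nat_lit 0) (cs (rf (nat_lit 16)) (cs (nd (nat_lit 100) (nat_lit 0) (cs (lf (nat_lit 35) (nat_lit 77)) (nd (nat_lit 76) (nat_lit 0) (cs (lf (nat_lit 46) (nat_lit 76)) (nd (nat_lit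 166) (nat_lit 0) (cs (lf (nat_lit 29) (nat_lit 99)) (nd (nat_lit 167) (nat_lit 0) (cs (lf (nat_lit 18) (nat_lit 142)) (nd (nat_lit 122) (nat_lit 0) (cs (nd (nat_lit 123) (nat_lit 0) (cs (lf (nat_lit 6) (nat_lit 120)) (nd (nat_lit 101) (nat_lit 0) (cs (lf (nat_lit 35) (nat_lit 78)) (nd (nat_lit 102) (nat_lit 0) (cs (lf (nat_lit 6) (nat_lit 99)) (lf (nat_lit 12) (nat_lit 98)))))))) (lf (nat_lit 29) (nat_lit 100)))))))))))) (nd (nat_lit 166) (nat_lit 0) (cs (lf (nat_lit 24) (nat_lit 77)) (lf (nat_lit 29) (nat_lit 99))))))))))) (cs (nd (nat_lit 164) (nat_lit 0) (cs (lf (nat_lit 35) (nat_lit 120)) (nd (nat_lit 145) (nat_lit 0) (cs (lf (nat_lit 11) (nat_lit 141)) (rf (nat_lit 5)))))) (nd (nat_lit 164) (nat_lit 0) (cs (lf (nat_lit 35) (nat_lit 120)) (rf (nat_lit 17))))))))) (cs (rf (nat_lit 18)) (nd (nat_lit 164) (nat_lit 0) (cs (lf (nat_lit 35) (nat_lit 120)) (nd (nat_lit 207) (nat_lit 0) (cs (lf (nat_lit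 41) (nat_lit 141)) (nd (nat_lit 141) (nat_lit 0) (cs (lf (nat_lit 47) (nat_lit 119)) (rf (nat_lit 19))))))))))))))) q36908 (by decide +kernel)
def q36954 : Q := Q.p (nat_lit 0x60000400000000000000000000000000000000000) (nat_lit 0xc0000300003c0001f80009e000bf80001c0000700001c00005000000000000) (nat_lit 12)
theorem c36954 : QOK q36954 := cut [q17619, q36953] ⟨c17619, c36953, trivial⟩ (nd (nat_lit 160) (nat_lit 0) (cs (nd (nat_lit 141) (nat_lit 0) (cs (lf (nat_lit 15) (nat_lit 138)) (nd (nat_lit 140) (nat_lit 0) (cs (lf (nat_lit 6) (nat_lit 139)) (lf (nat_lit 9) (nat_lit 138)))))) (cs (nd (nat_lit 163) (nat_lit 0) (cs (lf (nat_lit 16) (nat_lit 138)) (rf (nat_lit 0)))) (rf (nat_lit 1))))) q36954 (by decide +kernel)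
def q36993 : Q := Q.p (nat_lit 0x10000040000060000400000000000000000000000000000000000) (nat_lit 0xc0003f0000fc0009f80011c000bf8001fc0007f0000fc0002d000000000000) (nat_lit 15)
theorem c36993 : QOK q36993 := cut [q34469, q36164, q34070, q34071, q34258, q35014, q35420, q35692, q36973, q34089, q34211, q35133, q35013, q36151, q34076, q34122] ⟨c34469, c36164, c34070, c34071, c34258, c35014, c35420, c35692, c36973, c34089, c34211, c35133, c35013, c36151, c34076, c34122, trivial⟩ (nd (nat_lit 140) (nat_lit 0) (cs (rf (nat_lit 0)) (cs (nd (nat_lit 141) (nat_lit 0) (cs (lf (nat_lit 6) (nat_lit 139)) (rf (nat_lit 1)))) (cs (nd (nat_lit 118) (nat_lit 0) (cs (rf (nat_lit 2)) (cs (rf (nat_lit 3)) (cs (rf (nat_lit 4)) (cs (nd (nat_lit 117) (nat_lit 0) (cs (rf (nat_lit 5)) (cs (rf (nat_lit 6)) (cs (nd (nat_lit 139) (nat_lit 0) (cs (rf (nat_lit 7)) (cs (nd (nat_lit 205) (nat_lit 0) (cs (nd (nat_lit 206) (nat_lit 0)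 (cs (lf (nat_lit 43) (nat_lit 117)) (nd (nat_lit 207) (nat_lit 0) (cs (lf (nat_lit 17) (nat_lit 183)) (nd (nat_lit 164) (nat_lit 0) (cs (lf (nat_lit 41) (nat_lit 141)) (nd (nat_lit 226) (nat_lit 0) (cs (lf (nat_lit 10) (nat_lit 204)) (nd (nat_lit 204) (nat_lit 0) (cs (lf (nat_lit 11) (nat_lit 203)) (nd (nat_lit 182) (nat_lit 0) (cs (lf (nat_lit 23) (nat_lit 181)) (lf (nat_lit 33) (nat_lit 138)))))))))))))) (lf (nat_lit 31) (nat_lit 117)))) (rf (nat_lit 8))))) (nd (nat_lit 139) (nat_lit 0) (cs (rf (nat_lit 9)) (cs (rf (nat_lit 8)) (cs (nd (nat_lit 183) (nat_lit 0) (cs (lf (nat_lit 30) (nat_lit 117)) (nd (nat_lit 182) (nat_lit 0) (cs (lf (nat_lit 41) (nat_lit 116)) (nd (nat_lit 95) (nat_lit 0) (cs (lf (nat_lit 24) (nat_lit 73)) (lf (nat_lit 40) (nat_lit 94)))))))) (nd (nat_lit 95) (nat_lit 0) (cs (lf (nat_lit 24) (nat_lit 73)) (nd (nat_lit 160) (nat_lit 0) (cs (lf (nat_lit 41) (nat_lit 94)) (nd (nat_lit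 158) (nat_lit 0) (cs (lf (nat_lit 13) (nat_lit 136)) (rf (nat_lit 10)))))))))))))))) (nd (nat_lit 95) (nat_lit 0) (cs (rf (nat_lit 11)) (cs (nd (nat_lit 73) (nat_lit 0) (cs (lf (nat_lit 45) (nat_lit 73)) (nd (nat_lit 117) (nat_lit 0) (cs (lf (nat_lit 42) (nat_lit 95)) (lf (nat_lit 24) (nat_lit 51)))))) (cs (nd (nat_lit 117) (nat_lit 0) (cs (lf (nat_lit 42) (nat_lit 95)) (rf (nat_lit 12)))) (nd (nat_lit 184) (nat_lit 0) (cs (lf (nat_lit 46) (nat_lit 95)) (nd (nat_lit 97) (nat_lit 0) (cs (lf (nat_lit 34) (nat_lit 96)) (nd (nat_lit 96) (nat_lit 0) (cs (lf (nat_lit 35) (nat_lit 74)) (nd (nat_lit 139) (nat_lit 0) (cs (lf (nat_lit 36) (nat_lit 73)) (nd (nat_lit 206) (nat_lit 0) (cs (lf (nat_lit 42) (nat_lit 139)) (rf (nat_lit 13))))))))))))))))))))) (nd (nat_lit 160) (nat_lit 0) (cs (rf (nat_lit 14)) (cs (rf (nat_lit 15)) (nd (nat_lit 141) (nat_lit 0) (cs (lf (nat_lit 9) (nat_lit 138)) (rf (nat_lit 1)))))))))))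 q36993 (by decide +kernel)
def q37073 : Q := Q.p (nat_lit 0x10000040000040000400000000000000000000000000000000000) (nat_lit 0x380014f00059c003f3e00fbf001ffc00ffc000ff000000000000000000) (nat_lit 15)
theorem c37073 : QOK q37073 := cut [q6150, q37066, q33511, q33514, q34409, q34427, q37067, q33510, q34442, q36164, q34418, q34445] ⟨c6150, c37066, c33511, c33514, c34409, c34427, c37067, c33510, c34442, c36164, c34418, c34445, trivial⟩ (nd (nat_lit 141) (nat_lit 0) (cs (nd (nat_lit 164) (nat_lit 0) (cs (lf (nat_lit 47) (nat_lit 119)) (nd (nat_lit 207) (nat_lit 0) (cs (lf (nat_lit 41) (nat_lit 141)) (nd (nat_lit 143) (nat_lit 0) (cs (lf (nat_lit 35) (nat_lit 120)) (rf (nat_lit 0)))))))) (cs (rf (nat_lit 1)) (cs (nd (nat_lit 140) (nat_lit 0) (cs (rf (nat_lit 2)) (cs (rf (nat_lit 3)) (cs (rf (nat_lit 4)) (cs (rf (nat_lit 5)) (rf (nat_lit 6))))))) (cs (nd (nat_lit 140) (nat_lit 0) (cs (rf (nat_lit 7)) (cs (rf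 (nat_lit 8)) (cs (rf (nat_lit 9)) (rf (nat_lit 6)))))) (cs (nd (nat_lit 140) (nat_lit 0) (cs (rf (nat_lit 7)) (cs (rf (nat_lit 4)) (cs (rf (nat_lit 10)) (rf (nat_lit 9)))))) (cs (nd (nat_lit 140) (nat_lit 0) (cs (rf (nat_lit 3)) (cs (rf (nat_lit 10)) (cs (rf (nat_lit 8)) (rf (nat_lit 11)))))) (nd (nat_lit 140) (nat_lit 0) (cs (rf (nat_lit 2)) (cs (rf (nat_lit 8)) (rf (nat_lit 9)))))))))))) q37073 (by decide +kernel)
def q37187 : Q := Q.p (nat_lit 0x10000040000040000400000000000000000000000000000000000) (nat_lit 0x700003e0000f80079f001fbe000bf0003fc000ff0003f80009c000000000000) (nat_lit 14)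
theorem c37187 : QOK q37187 := cut [q18163, q35564, q36703, q36705, q32494, q37168, q33058] ⟨c18163, c35564, c36703, c36705, c32494, c37168, c33058, trivial⟩ (nd (nat_lit 164) (nat_lit 0) (cs (rf (nat_lit 0)) (cs (rf (nat_lit 1)) (cs (rf (nat_lit 2)) (cs (rf (nat_lit 3)) (nd (nat_lit 163) (nat_lit 0) (cs (rf (nat_lit 4)) (cs (rf (nat_lit 5)) (nd (nat_lit 165) (nat_lit 0) (cs (rf (nat_lit 6)) (cs (nd (nat_lit 143) (nat_lit 0) (cs (lf (nat_lit 35) (nat_lit 120)) (nd (nat_lit 183) (nat_lit 0) (cs (lf (nat_lit 10) (nat_lit 161)) (nd (nat_lit 207) (nat_lit 0) (cs (lf (nat_lit 41) (nat_lit 141)) (nd (nat_lit 140) (nat_lit 0) (cs (lf (nat_lit 23) (nat_lit 139)) (nd (nat_lit 166) (nat_lit 0) (cs (lf (nat_lit 22) (nat_lit 140)) (nd (nat_lit 189) (nat_lit 0) (cs (lf (nat_lit 4) (nat_lit 163)) (nd (nat_lit 167) (nat_lit 0) (cs (lf (nat_lit 5) (nat_lit 164)) (lf (nat_lit 18) (nat_lit 142)))))))))))))))) (nd (nat_lit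 140) (nat_lit 0) (cs (lf (nat_lit 23) (nat_lit 139)) (nd (nat_lit 183) (nat_lit 0) (cs (lf (nat_lit 10) (nat_lit 161)) (nd (nat_lit 188) (nat_lit 0) (cs (lf (nat_lit 4) (nat_lit 162)) (nd (nat_lit 166) (nat_lit 0) (cs (lf (nat_lit 5) (nat_lit 163)) (lf (nat_lit 22) (nat_lit 140))))))))))))))))))))) q37187 (by decide +kernel)
def q37204 : Q := Q.p (nat_lit 0x10000040000040000400000000000000000000000000000000000) (nat_lit 0x9f000fb8003bf000380003e00003e000020000000000000) (nat_lit 14)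
theorem c37204 : QOK q37204 := cut [q18163, q35613, q556, q11202, q5673, q8320, q37203] ⟨c18163, c35613, c556, c11202, c5673, c8320, c37203, trivial⟩ (nd (nat_lit 164) (nat_lit 0) (cs (rf (nat_lit 0)) (cs (rf (nat_lit 1)) (cs (nd (nat_lit 120) (nat_lit 0) (cs (rf (nat_lit 2)) (cs (rf (nat_lit 3)) (cs (nd (nat_lit 99) (nat_lit 0) (cs (lf (nat_lit 34) (nat_lit 98)) (nd (nat_lit 98) (nat_lit 0) (cs (lf (nat_lit 35) (nat_lit 76)) (nd (nat_lit 165) (nat_lit 0) (cs (lf (nat_lit 29) (nat_lit 98)) (nd (nat_lit 75) (nat_lit 0) (cs (lf (nat_lit 46) (nat_lit 75)) (nd (nat_lit 76) (nat_lit 0) (cs (lf (nat_lit 47) (nat_lit 53)) (nd (nat_lit 73) (nat_lit 0) (cs (nd (nat_lit 100) (nat_lit 0) (cs (nd (nat_lit 163) (nat_lit 0) (cs (rf (nat_lit 4)) (lf (nat_lit 40) (nat_lit 75)))) (lf (nat_lit 18) (nat_lit 75)))) (lf (nat_lit 1) (nat_lit 73)))))))))))))) (nd (nat_lit 141) (nat_lit 0) (cs (lf (nat_lit 47) (nat_lit 119))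 (nd (nat_lit 99) (nat_lit 0) (cs (lf (nat_lit 34) (nat_lit 98)) (nd (nat_lit 98) (nat_lit 0) (cs (lf (nat_lit 35) (nat_lit 76)) (nd (nat_lit 165) (nat_lit 0) (cs (rf (nat_lit 5)) (lf (nat_lit 29) (nat_lit 98)))))))))))))) (rf (nat_lit 6)))))) q37204 (by decide +kernel)
def q37480 : Q := Q.p (nat_lit 0x2000000000010000048000060000000000000000000000000000000000000000) (nat_lit 0x200001f80003f0000fc000b300031c0000f0000300000c00000000000000000000000) (nat_lit 12)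
theorem c37480 : QOK q37480 := cut [q33487, q5968, q6106, q18485, q27160, q16275, q17907, q37476, q37479] ⟨c33487, c5968, c6106, c18485, c27160, c16275, c17907, c37476, c37479, trivial⟩ (nd (nat_lit 184) (nat_lit 0) (cs (rf (nat_lit 0)) (cs (nd (nat_lit 206) (nat_lit 0) (cs (rf (nat_lit 1)) (cs (nd (nat_lit 205) (nat_lit 0) (cs (nd (nat_lit 207) (nat_lit 0) (cs (lf (nat_lit 17) (nat_lit 183)) (rf (nat_lit 2)))) (cs (nd (nat_lit 139) (nat_lit 0) (cs (rf (nat_lit 3)) (nd (nat_lit 138) (nat_lit 0) (cs (lf (nat_lit 47) (nat_lit 116)) (nd (nat_lit 204) (nat_lit 0) (cs (lf (nat_lit 41) (nat_lit 138)) (nd (nat_lit 203) (nat_lit 0) (cs (lf (nat_lit 12) (nat_lit 180)) (nd (nat_lit 136) (nat_lit 0) (cs (lf (nat_lit 1) (nat_lit 136)) (nd (nat_lit 225) (nat_lit 0) (cs (lf (nat_lit 11) (nat_lit 202)) (nd (nat_lit 181) (nat_lit 0) (cs (lf (nat_lit 23) (nat_lit 180)) (nd (nat_lit 159) (nat_lit 0) (cs (lf (nat_lit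 46) (nat_lit 136)) (lf (nat_lit 34) (nat_lit 137)))))))))))))))))) (nd (nat_lit 187) (nat_lit 0) (cs (lf (nat_lit 14) (nat_lit 183)) (nd (nat_lit 227) (nat_lit 0) (cs (lf (nat_lit 30) (nat_lit 161)) (rf (nat_lit 4))))))))) (nd (nat_lit 227) (nat_lit 0) (cs (rf (nat_lit 5)) (cs (nd (nat_lit 205) (nat_lit 0) (cs (lf (nat_lit 30) (nat_lit 161)) (nd (nat_lit 226) (nat_lit 0) (cs (lf (nat_lit 41) (nat_lit 160)) (lf (nat_lit 7) (nat_lit 204)))))) (nd (nat_lit 228) (nat_lit 0) (cs (lf (nat_lit 42) (nat_lit 161)) (nd (nat_lit 229) (nat_lit 0) (cs (lf (nat_lit 29) (nat_lit 162)) (nd (nat_lit 226) (nat_lit 0) (cs (lf (nat_lit 16) (nat_lit 204)) (rf (nat_lit 6)))))))))))))) (cs (rf (nat_lit 7)) (rf (nat_lit 8)))))) q37480 (by decide +kernel)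
def q37544 : Q := Q.p (nat_lit 0x800010000018000060000000000000000000000000000000000000000) (nat_lit 0x1fe000370000de0000700001c000050000000000000000000000000000000000) (nat_lit 10)
theorem c37544 : QOK q37544 := cut [q37500, q37501, q37515, q37419, q37535] ⟨c37500, c37501, c37515, c37419, c37535, trivial⟩ (nd (nat_lit 228) (nat_lit 0) (cs (rf (nat_lit 0)) (cs (nd (nat_lit 206) (nat_lit 0) (cs (lf (nat_lit 41) (nat_lit 161)) (rf (nat_lit 1)))) (cs (nd (nat_lit 206) (nat_lit 0) (cs (lf (nat_lit 42) (nat_lit 161)) (rf (nat_lit 1)))) (nd (nat_lit 226) (nat_lit 0) (cs (nd (nat_lit 229) (nat_lit 0) (cs (lf (nat_lit 16) (nat_lit 204)) (nd (nat_lit 203) (nat_lit 0) (cs (lf (nat_lit 22) (nat_lit 203)) (nd (nat_lit 251) (nat_lit 0) (cs (nd (nat_lit 225) (nat_lit 0) (cs (lf (nat_lit 23) (nat_lit 202)) (lf (nat_lit 4) (nat_lit 225)))) (lf (nat_lit 5) (nat_lit 226)))))))) (cs (nd (nat_lit 229) (nat_lit 0) (cs (lf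 (nat_lit 16) (nat_lit 204)) (nd (nat_lit 247) (nat_lit 0) (cs (lf (nat_lit 10) (nat_lit 225)) (nd (nat_lit 225) (nat_lit 0) (cs (lf (nat_lit 11) (nat_lit 224)) (nd (nat_lit 251) (nat_lit 0) (cs (lf (nat_lit 4) (nat_lit 225)) (lf (nat_lit 5) (nat_lit 226)))))))))) (cs (nd (nat_lit 225) (nat_lit 0) (cs (nd (nat_lit 202) (nat_lit 0) (cs (lf (nat_lit 22) (nat_lit 202)) (nd (nat_lit 250) (nat_lit 0) (cs (lf (nat_lit 5) (nat_lit 225)) (rf (nat_lit 2)))))) (cs (nd (nat_lit 181) (nat_lit 0) (cs (rf (nat_lit 3)) (cs (nd (nat_lit 250) (nat_lit 0) (cs (lf (nat_lit 5) (nat_lit 225)) (nd (nat_lit 203) (nat_lit 0) (cs (lf (nat_lit 23) (nat_lit 202)) (nd (nat_lit 246) (nat_lit 0) (cs (lf (nat_lit 10) (nat_lit 224)) (nd (nat_lit 159) (nat_lit 0) (cs (lf (nat_lit 29) (nat_lit 159)) (nd (nat_lit 160) (nat_lit 0) (cs (lf (nat_lit 11) (nat_lit 158)) (lf (nat_lit 35) (nat_lit 137)))))))))))) (cs (nd (nat_lit 203) (nat_lit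 0) (cs (lf (nat_lit 23) (nat_lit 202)) (nd (nat_lit 250) (nat_lit 0) (cs (lf (nat_lit 5) (nat_lit 225)) (nd (nat_lit 159) (nat_lit 0) (cs (lf (nat_lit 29) (nat_lit 159)) (nd (nat_lit 158) (nat_lit 0) (cs (lf (nat_lit 47) (nat_lit 136)) (lf (nat_lit 20) (nat_lit 158)))))))))) (nd (nat_lit 202) (nat_lit 0) (cs (lf (nat_lit 22) (nat_lit 202)) (nd (nat_lit 250) (nat_lit 0) (cs (lf (nat_lit 5) (nat_lit 225)) (nd (nat_lit 247) (nat_lit 0) (cs (lf (nat_lit 11) (nat_lit 224)) (nd (nat_lit 182) (nat_lit 0) (cs (lf (nat_lit 12) (nat_lit 158)) (nd (nat_lit 204) (nat_lit 0) (cs (lf (nat_lit 30) (nat_lit 160)) (lf (nat_lit 36) (nat_lit 159)))))))))))))))) (cs (rf (nat_lit 4)) (nd (nat_lit 246) (nat_lit 0) (cs (lf (nat_lit 10) (nat_lit 224)) (nd (nat_lit 224) (nat_lit 0) (cs (lf (nat_lit 11) (nat_lit 223)) (nd (nat_lit 250) (nat_lit 0) (cs (lf (nat_lit 5) (nat_lit 225)) (lf (nat_lit 4) (nat_lit 224)))))))))))) (nd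 (nat_lit 229) (nat_lit 0) (cs (lf (nat_lit 16) (nat_lit 204)) (nd (nat_lit 204) (nat_lit 0) (cs (lf (nat_lit 23) (nat_lit 203)) (nd (nat_lit 248) (nat_lit 0) (cs (lf (nat_lit 11) (nat_lit 225)) (lf (nat_lit 33) (nat_lit 160)))))))))))))))) q37544 (by decide +kernel)
def q37798 : Q := Q.p (nat_lit 0x10000048000060000000000000000000000000000000000000000) (nat_lit 0xf40003f0000fe0003700031c0004f00003e0000f00001c00004000000000000) (nat_lit 13)
theorem c37798 : QOK q37798 := cut [q37449, q37479, q37488, q37498] ⟨c37449, c37479, c37488, c37498, trivial⟩ (nd (nat_lit 184) (nat_lit 0) (cs (rf (nat_lit 0)) (cs (rf (nat_lit 1)) (cs (rf (nat_lit 2)) (rf (nat_lit 3)))))) q37798 (by decide +kernel)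
def q37815 : Q := Q.p (nat_lit 0x400001e0000000000000000000000000000000000000000) (nat_lit 0x73c000e00003800000000000000000000000000000000000) (nat_lit 7)
theorem c37815 : QOK q37815 := cut [q37814] ⟨c37814, trivial⟩ (nd (nat_lit 183) (nat_lit 0) (cs (lf (nat_lit 11) (nat_lit 160)) (rf (nat_lit 0)))) q37815 (by decide +kernel)
def q38173 : Q := Q.p (nat_lit 0x10000040000060000000000000000000000000000000000000000) (nat_lit 0x5a0001f8000fe0003f8000fe0009fc0039f003efc003fe001ff80007c00014000000000000) (nat_lit 16)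
theorem c38173 : QOK q38173 := cut [q37641, q37828, q37888, q36515, q36683, q37877, q18163, q35613, q37092, q37901, q37914, q37994, q6338, q37999, q38005, q38007, q38019, q38021, q38022, q38035, q38139, q38159, q37655, q38138, q38168, q37239, q37286, q37339, q38032, q38169, q38172] ⟨c37641, c37828, c37888, c36515, c36683, c37877, c18163, c35613, c37092, c37901, c37914, c37994, c6338, c37999, c38005, c38007, c38019, c38021, c38022, c38035, c38139, c38159, c37655, c38138, c38168, c37239, c37286, c37339, c38032, c38169, c38172, trivial⟩ (nd (nat_lit 183) (nat_lit 0) (cs (rf (nat_lit 0)) (cs (nd (nat_lit 164) (nat_lit 0) (cs (nd (nat_lit 163) (nat_lit 0) (cs (lf (nat_lit 5) (nat_lit 161)) (rf (nat_lit 1)))) (cs (rf (nat_lit 2)) (cs (nd (nat_lit 139) (nat_lit 0) (cs (rf (nat_lit 3)) (cs (rf (nat_lit 4)) (rf (nat_lit 5))))) (cs (nd (nat_lit 142) (nat_lit 0) (cs (rf (nat_lit 6)) (cs (rf (nat_lit 7)) (nd (nat_lit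 207) (nat_lit 0) (cs (lf (nat_lit 41) (nat_lit 141)) (nd (nat_lit 141) (nat_lit 0) (cs (lf (nat_lit 47) (nat_lit 119)) (nd (nat_lit 163) (nat_lit 0) (cs (lf (nat_lit 12) (nat_lit 138)) (nd (nat_lit 139) (nat_lit 0) (cs (lf (nat_lit 23) (nat_lit 138)) (rf (nat_lit 8))))))))))))) (nd (nat_lit 163) (nat_lit 0) (cs (lf (nat_lit 5) (nat_lit 161)) (nd (nat_lit 143) (nat_lit 0) (cs (lf (nat_lit 16) (nat_lit 139)) (nd (nat_lit 165) (nat_lit 0) (cs (lf (nat_lit 17) (nat_lit 140)) (lf (nat_lit 10) (nat_lit 161))))))))))))) (cs (nd (nat_lit 182) (nat_lit 0) (cs (rf (nat_lit 9)) (cs (rf (nat_lit 10)) (rf (nat_lit 11))))) (cs (nd (nat_lit 163) (nat_lit 0) (cs (nd (nat_lit 160) (nat_lit 0) (cs (rf (nat_lit 12)) (cs (nd (nat_lit 141) (nat_lit 0) (cs (lf (nat_lit 17) (nat_lit 138)) (rf (nat_lit 13)))) (cs (nd (nat_lit 141) (nat_lit 0) (cs (lf (nat_lit 17) (nat_lit 138)) (rf (nat_lit 14)))) (cs (nd (nat_lit 182) (nat_lit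 0) (cs (lf (nat_lit 11) (nat_lit 159)) (nd (nat_lit 138) (nat_lit 0) (cs (lf (nat_lit 23) (nat_lit 137)) (nd (nat_lit 141) (nat_lit 0) (cs (lf (nat_lit 17) (nat_lit 138)) (nd (nat_lit 116) (nat_lit 0) (cs (lf (nat_lit 24) (nat_lit 94)) (nd (nat_lit 93) (nat_lit 0) (cs (lf (nat_lit 46) (nat_lit 93)) (nd (nat_lit 117) (nat_lit 0) (cs (lf (nat_lit 35) (nat_lit 94)) (nd (nat_lit 139) (nat_lit 0) (cs (lf (nat_lit 41) (nat_lit 116)) (nd (nat_lit 118) (nat_lit 0) (cs (lf (nat_lit 35) (nat_lit 95)) (nd (nat_lit 184) (nat_lit 0) (cs (lf (nat_lit 29) (nat_lit 117)) (rf (nat_lit 15)))))))))))))))))))) (rf (nat_lit 16))))))) (cs (rf (nat_lit 17)) (rf (nat_lit 18))))) (cs (rf (nat_lit 19)) (cs (rf (nat_lit 20)) (cs (rf (nat_lit 21)) (cs (nd (nat_lit 163) (nat_lit 0) (cs (rf (nat_lit 17)) (cs (rf (nat_lit 18)) (nd (nat_lit 160) (nat_lit 0) (cs (rf (nat_lit 13)) (cs (rf (nat_lit 14)) (cs (rf (nat_lit 16)) (nd (nat_lit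 138) (nat_lit 0) (cs (lf (nat_lit 23) (nat_lit 137)) (nd (nat_lit 181) (nat_lit 0) (cs (lf (nat_lit 10) (nat_lit 159)) (rf (nat_lit 22))))))))))))) (cs (nd (nat_lit 182) (nat_lit 0) (cs (rf (nat_lit 11)) (cs (rf (nat_lit 23)) (cs (rf (nat_lit 24)) (nd (nat_lit 205) (nat_lit 0) (cs (rf (nat_lit 25)) (cs (rf (nat_lit 26)) (cs (rf (nat_lit 27)) (cs (rf (nat_lit 28)) (rf (nat_lit 29))))))))))) (rf (nat_lit 30)))))))))))) q38173 (by decide +kernel)
def q38210 : Q := Q.p (nat_lit 0x10000040000060000000000000000000000000000000000000000) (nat_lit 0xc0001b0000fc000bfc0009f0000fc0003c0000f00001c00005000000000000) (nat_lit 15)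
theorem c38210 : QOK q38210 := cut [q38174, q38204, q38209] ⟨c38174, c38204, c38209, trivial⟩ (nd (nat_lit 160) (nat_lit 0) (cs (rf (nat_lit 0)) (cs (nd (nat_lit 185) (nat_lit 0) (cs (lf (nat_lit 3) (nat_lit 160)) (nd (nat_lit 184) (nat_lit 0) (cs (lf (nat_lit 18) (nat_lit 161)) (lf (nat_lit 21) (nat_lit 160)))))) (cs (rf (nat_lit 1)) (rf (nat_lit 2)))))) q38210 (by decide +kernel)
def q38222 : Q := Q.p (nat_lit 0x10000040000060000000000000000000000000000000000000000) (nat_lit 0xc0001b0000fc0003fc0019f000efc0003c0000f00001c00005000000000000) (nat_lit 15)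
theorem c38222 : QOK q38222 := cut [q38204, q38209, q38217, q38221] ⟨c38204, c38209, c38217, c38221, trivial⟩ (nd (nat_lit 160) (nat_lit 0) (cs (rf (nat_lit 0)) (cs (rf (nat_lit 1)) (cs (rf (nat_lit 2)) (rf (nat_lit 3)))))) q38222 (by decide +kernel)
def q38224 : Q := Q.p (nat_lit 0x10000040000060000000000000000000000000000000000000000) (nat_lit 0x20000080001be000190000e00001800002000000000000000000000000) (nat_lit 8)
theorem c38224 : QOK q38224 := cut [q32463, q32466, q38212, q38223] ⟨c32463, c32466, c38212, c38223, trivial⟩ (nd (nat_lit 163) (nat_lit 0) (cs (rf (nat_lit 0)) (cs (rf (nat_lit 1)) (cs (rf (nat_lit 2)) (rf (nat_lit 3)))))) q38224 (by decide +kernel)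
def q38378 : Q := Q.p (nat_lit 0x10000050000040000000000000000000000000000000000000000) (nat_lit 0x80000700007c0003f8000be000af0000bc000ff8003fc0007f00009c00005000000000000) (nat_lit 15)
theorem c38378 : QOK q38378 := cut [q33487, q38237, q36506, q37653, q8669, q34516, q36584, q38244, q8715, q37717, q37601, q37436, q38025, q37287, q38259, q37470, q7202, q38301, q38351, q36593, q8698, q12620, q9139, q9071, q38278, q38363, q37448, q24100, q38367, q38368, q38372, q36607, q37792, q38377] ⟨c33487, c38237, c36506, c37653, c8669, c34516, c36584, c38244, c8715, c37717, c37601, c37436, c38025, c37287, c38259, c37470, c7202, c38301, c38351, c36593, c8698, c12620, c9139, c9071, c38278, c38363, c37448, c24100, c38367, c38368, c38372, c36607, c37792, c38377, trivial⟩ (nd (nat_lit 161) (nat_lit 0) (cs (rf (nat_lit 0)) (cs (nd (nat_lit 183) (nat_lit 0) (cs (nd (nat_lit 185) (nat_lit 0) (cs (lf (nat_lit 18) (nat_lit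 161)) (nd (nat_lit 182) (nat_lit 0) (cs (lf (nat_lit 4) (nat_lit 182)) (rf (nat_lit 1)))))) (cs (nd (nat_lit 205) (nat_lit 0) (cs (rf (nat_lit 2)) (cs (rf (nat_lit 3)) (nd (nat_lit 139) (nat_lit 0) (cs (rf (nat_lit 4)) (cs (rf (nat_lit 5)) (cs (rf (nat_lit 6)) (rf (nat_lit 7))))))))) (nd (nat_lit 185) (nat_lit 0) (cs (lf (nat_lit 18) (nat_lit 161)) (rf (nat_lit 8))))))) (cs (nd (nat_lit 183) (nat_lit 0) (cs (rf (nat_lit 9)) (cs (nd (nat_lit 160) (nat_lit 0) (cs (rf (nat_lit 10)) (cs (nd (nat_lit 182) (nat_lit 0) (cs (rf (nat_lit 11)) (cs (rf (nat_lit 12)) (nd (nat_lit 205) (nat_lit 0) (cs (rf (nat_lit 2)) (cs (rf (nat_lit 13)) (nd (nat_lit 138) (nat_lit 0) (cs (lf (nat_lit 24) (nat_lit 116)) (nd (nat_lit 118) (nat_lit 0) (cs (lf (nat_lit 37) (nat_lit 117)) (nd (nat_lit 137) (nat_lit 0) (cs (lf (nat_lit 18) (nat_lit 137)) (nd (nat_lit 135) (nat_lit 0) (cs (lf (nat_lit 1) (nat_lit 135)) (nd (nat_lit 204)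 (nat_lit 0) (cs (lf (nat_lit 47) (nat_lit 115)) (nd (nat_lit 203) (nat_lit 0) (cs (lf (nat_lit 12) (nat_lit 180)) (lf (nat_lit 41) (nat_lit 137)))))))))))))))))))) (rf (nat_lit 14))))) (cs (nd (nat_lit 205) (nat_lit 0) (cs (rf (nat_lit 2)) (cs (rf (nat_lit 3)) (nd (nat_lit 139) (nat_lit 0) (cs (rf (nat_lit 15)) (cs (rf (nat_lit 7)) (nd (nat_lit 118) (nat_lit 0) (cs (rf (nat_lit 16)) (lf (nat_lit 37) (nat_lit 117)))))))))) (cs (rf (nat_lit 17)) (cs (rf (nat_lit 18)) (cs (nd (nat_lit 205) (nat_lit 0) (cs (rf (nat_lit 2)) (cs (rf (nat_lit 19)) (nd (nat_lit 139) (nat_lit 0) (cs (rf (nat_lit 4)) (cs (rf (nat_lit 5)) (cs (rf (nat_lit 6)) (nd (nat_lit 140) (nat_lit 0) (cs (rf (nat_lit 20)) (nd (nat_lit 141) (nat_lit 0) (cs (rf (nat_lit 21)) (cs (nd (nat_lit 138) (nat_lit 0) (cs (lf (nat_lit 47) (nat_lit 116)) (nd (nat_lit 142) (nat_lit 0) (cs (lf (nat_lit 6) (nat_lit 139)) (rf (nat_lit 22)))))) (nd (nat_lit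 159) (nat_lit 0) (cs (lf (nat_lit 13) (nat_lit 137)) (nd (nat_lit 138) (nat_lit 0) (cs (lf (nat_lit 47) (nat_lit 116)) (nd (nat_lit 204) (nat_lit 0) (cs (lf (nat_lit 41) (nat_lit 138)) (nd (nat_lit 119) (nat_lit 0) (cs (rf (nat_lit 23)) (lf (nat_lit 17) (nat_lit 116)))))))))))))))))))))) (cs (nd (nat_lit 160) (nat_lit 0) (cs (rf (nat_lit 14)) (cs (nd (nat_lit 159) (nat_lit 0) (cs (lf (nat_lit 0) (nat_lit 158)) (nd (nat_lit 140) (nat_lit 0) (cs (lf (nat_lit 17) (nat_lit 137)) (nd (nat_lit 96) (nat_lit 0) (cs (lf (nat_lit 37) (nat_lit 95)) (rf (nat_lit 24)))))))) (rf (nat_lit 25))))) (cs (nd (nat_lit 139) (nat_lit 0) (cs (rf (nat_lit 26)) (cs (nd (nat_lit 138) (nat_lit 0) (cs (rf (nat_lit 27)) (cs (rf (nat_lit 28)) (nd (nat_lit 136) (nat_lit 0) (cs (lf (nat_lit 1) (nat_lit 136)) (nd (nat_lit 205) (nat_lit 0) (cs (lf (nat_lit 47) (nat_lit 116)) (rf (nat_lit 29))))))))) (nd (nat_lit 117) (nat_lit 0) (cs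 (lf (nat_lit 24) (nat_lit 95)) (rf (nat_lit 30))))))) (nd (nat_lit 205) (nat_lit 0) (cs (rf (nat_lit 2)) (cs (rf (nat_lit 31)) (rf (nat_lit 32)))))))))))))) (rf (nat_lit 33)))))) q38378 (by decide +kernel)
def q38428 : Q := Q.p (nat_lit 0x10000070000040000000000000000000000000000000000000000) (nat_lit 0x60000180000f80000e0000bc0000c0000300000c00000000000000000000000) (nat_lit 9)
theorem c38428 : QOK q38428 := cut [q32668, q38416, q38427] ⟨c32668, c38416, c38427, trivial⟩ (nd (nat_lit 183) (nat_lit 0) (cs (rf (nat_lit 0)) (cs (rf (nat_lit 1)) (rf (nat_lit 2))))) q38428 (by decide +kernel)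
def q38437 : Q := Q.p (nat_lit 0x2000000000000000070000040000000000000000000000000000000000000000) (nat_lit 0x200001e0000380000f0000000000a0000780000f8000380000a000000000000000000) (nat_lit 9)
theorem c38437 : QOK q38437 := cut [q19045, q35181, q35450, q16276, q34590, q34592, q20723] ⟨c19045, c35181, c35450, c16276, c34590, c34592, c20723, trivial⟩ (nd (nat_lit 140) (nat_lit 0) (cs (rf (nat_lit 0)) (cs (rf (nat_lit 1)) (cs (rf (nat_lit 2)) (nd (nat_lit 206) (nat_lit 0) (cs (rf (nat_lit 3)) (cs (rf (nat_lit 4)) (cs (rf (nat_lit 5)) (nd (nat_lit 117) (nat_lit 0) (cs (lf (nat_lit 46) (nat_lit 117)) (rf (nat_lit 6)))))))))))) q38437 (by decide +kernel)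
def q38612 : Q := Q.p (nat_lit 0x2000000000010000050000040000000000000000000000000000000000000000) (nat_lit 0x80000380001e000038001ce0003ac001eb8000bf0002f0000380000e000008000000000000) (nat_lit 12)
theorem c38612 : QOK q38612 := cut [q19014, q32664, q32665, q2160, q32712, q33503, q34752, q35162, q16276, q34590, q34592, q38241] ⟨c19014, c32664, c32665, c2160, c32712, c33503, c34752, c35162, c16276, c34590, c34592, c38241, trivial⟩ (nd (nat_lit 185) (nat_lit 0) (cs (rf (nat_lit 0)) (cs (nd (nat_lit 206) (nat_lit 0) (cs (rf (nat_lit 1)) (cs (rf (nat_lit 2)) (nd (nat_lit 187) (nat_lit 0) (cs (lf (nat_lit 11) (nat_lit 183)) (nd (nat_lit 165) (nat_lit 0) (cs (lf (nat_lit 17) (nat_lit 162)) (nd (nat_lit 121) (nat_lit 0) (cs (lf (nat_lit 37) (nat_lit 120)) (rf (nat_lit 3))))))))))) (nd (nat_lit 140) (nat_lit 0) (cs (rf (nat_lit 4)) (cs (rf (nat_lit 5)) (cs (rf (nat_lit 6)) (cs (rf (nat_lit 7)) (nd (nat_lit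 206) (nat_lit 0) (cs (rf (nat_lit 8)) (cs (rf (nat_lit 9)) (cs (rf (nat_lit 10)) (nd (nat_lit 139) (nat_lit 0) (cs (lf (nat_lit 47) (nat_lit 117)) (nd (nat_lit 205) (nat_lit 0) (cs (lf (nat_lit 41) (nat_lit 139)) (nd (nat_lit 119) (nat_lit 0) (cs (lf (nat_lit 34) (nat_lit 118)) (nd (nat_lit 207) (nat_lit 0) (cs (lf (nat_lit 29) (nat_lit 140)) (nd (nat_lit 183) (nat_lit 0) (cs (lf (nat_lit 23) (nat_lit 182)) (nd (nat_lit 161) (nat_lit 0) (cs (lf (nat_lit 23) (nat_lit 160)) (rf (nat_lit 11)))))))))))))))))))))))))) q38612 (by decide +kernel)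
def q38849 : Q := Q.p (nat_lit 0x10000040000060000000000000000000000000000000000000000) (nat_lit 0x500001f0000fc0003f8000fe0009fc0019f0001fc001fe0001f00005c00005000000000000) (nat_lit 14)
theorem c38849 : QOK q38849 := cut [q38035, q38770, q37901, q38136, q38138, q27607, q38071, q38038, q35260, q38003, q36031, q38062, q5166, q24432, q38779, q38787, q27605, q38063, q38826, q38829, q38830, q38831, q38832, q36506, q37223, q38819, q38846, q38847, q38848] ⟨c38035, c38770, c37901, c38136, c38138, c27607, c38071, c38038, c35260, c38003, c36031, c38062, c5166, c24432, c38779, c38787, c27605, c38063, c38826, c38829, c38830, c38831, c38832, c36506, c37223, c38819, c38846, c38847, c38848, trivial⟩ (nd (nat_lit 183) (nat_lit 0) (cs (rf (nat_lit 0)) (cs (rf (nat_lit 1)) (cs (nd (nat_lit 182) (nat_lit 0) (cs (rf (nat_lit 2)) (cs (rf (nat_lit 3)) (cs (rf (nat_lit 4)) (cs (nd (nat_lit 160) (nat_lit 0) (cs (rf (nat_lit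 5)) (cs (rf (nat_lit 6)) (cs (nd (nat_lit 163) (nat_lit 0) (cs (lf (nat_lit 6) (nat_lit 160)) (rf (nat_lit 7)))) (cs (nd (nat_lit 159) (nat_lit 0) (cs (rf (nat_lit 8)) (cs (rf (nat_lit 9)) (nd (nat_lit 204) (nat_lit 0) (cs (nd (nat_lit 137) (nat_lit 0) (cs (lf (nat_lit 23) (nat_lit 136)) (lf (nat_lit 42) (nat_lit 137)))) (cs (nd (nat_lit 164) (nat_lit 0) (cs (rf (nat_lit 10)) (nd (nat_lit 205) (nat_lit 0) (cs (nd (nat_lit 203) (nat_lit 0) (cs (rf (nat_lit 11)) (cs (nd (nat_lit 136) (nat_lit 0) (cs (lf (nat_lit 22) (nat_lit 136)) (nd (nat_lit 206) (nat_lit 0) (cs (lf (nat_lit 19) (nat_lit 182)) (nd (nat_lit 228) (nat_lit 0) (cs (rf (nat_lit 12)) (lf (nat_lit 5) (nat_lit 203)))))))) (nd (nat_lit 206) (nat_lit 0) (cs (lf (nat_lit 19) (nat_lit 182)) (nd (nat_lit 202) (nat_lit 0) (cs (rf (nat_lit 13)) (lf (nat_lit 12) (nat_lit 179))))))))) (rf (nat_lit 14)))))) (rf (nat_lit 15)))))))) (nd (nat_lit 204) (nat_lit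 0) (cs (rf (nat_lit 15)) (cs (nd (nat_lit 163) (nat_lit 0) (cs (lf (nat_lit 6) (nat_lit 160)) (nd (nat_lit 226) (nat_lit 0) (cs (lf (nat_lit 30) (nat_lit 160)) (nd (nat_lit 227) (nat_lit 0) (cs (lf (nat_lit 29) (nat_lit 160)) (nd (nat_lit 225) (nat_lit 0) (cs (lf (nat_lit 41) (nat_lit 159)) (nd (nat_lit 203) (nat_lit 0) (cs (lf (nat_lit 36) (nat_lit 137)) (nd (nat_lit 202) (nat_lit 0) (cs (lf (nat_lit 12) (nat_lit 179)) (lf (nat_lit 18) (nat_lit 202)))))))))))))) (cs (nd (nat_lit 226) (nat_lit 0) (cs (lf (nat_lit 30) (nat_lit 160)) (nd (nat_lit 225) (nat_lit 0) (cs (lf (nat_lit 41) (nat_lit 159)) (nd (nat_lit 138) (nat_lit 0) (cs (lf (nat_lit 40) (nat_lit 137)) (rf (nat_lit 16)))))))) (cs (nd (nat_lit 205) (nat_lit 0) (cs (rf (nat_lit 14)) (nd (nat_lit 163) (nat_lit 0) (cs (lf (nat_lit 6) (nat_lit 160)) (nd (nat_lit 206) (nat_lit 0) (cs (lf (nat_lit 19) (nat_lit 182)) (nd (nat_lit 138) (nat_lit 0) (cs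 (lf (nat_lit 24) (nat_lit 116)) (rf (nat_lit 17)))))))))) (nd (nat_lit 163) (nat_lit 0) (cs (lf (nat_lit 6) (nat_lit 160)) (nd (nat_lit 226) (nat_lit 0) (cs (lf (nat_lit 30) (nat_lit 160)) (nd (nat_lit 227) (nat_lit 0) (cs (lf (nat_lit 29) (nat_lit 160)) (nd (nat_lit 205) (nat_lit 0) (cs (lf (nat_lit 35) (nat_lit 139)) (lf (nat_lit 47) (nat_lit 138)))))))))))))))))))) (nd (nat_lit 163) (nat_lit 0) (cs (lf (nat_lit 6) (nat_lit 160)) (nd (nat_lit 181) (nat_lit 0) (cs (lf (nat_lit 9) (nat_lit 159)) (lf (nat_lit 15) (nat_lit 159))))))))))) (cs (rf (nat_lit 18)) (cs (rf (nat_lit 19)) (cs (rf (nat_lit 20)) (cs (rf (nat_lit 21)) (cs (rf (nat_lit 22)) (cs (nd (nat_lit 205) (nat_lit 0) (cs (rf (nat_lit 23)) (cs (rf (nat_lit 24)) (nd (nat_lit 182) (nat_lit 0) (cs (rf (nat_lit 2)) (cs (nd (nat_lit 163) (nat_lit 0) (cs (lf (nat_lit 6) (nat_lit 160)) (nd (nat_lit 206) (nat_lit 0) (cs (lf (nat_lit 19) (nat_lit 182))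 (nd (nat_lit 139) (nat_lit 0) (cs (lf (nat_lit 29) (nat_lit 139)) (nd (nat_lit 204) (nat_lit 0) (cs (lf (nat_lit 41) (nat_lit 138)) (nd (nat_lit 118) (nat_lit 0) (cs (lf (nat_lit 34) (nat_lit 117)) (rf (nat_lit 25)))))))))))) (nd (nat_lit 206) (nat_lit 0) (cs (lf (nat_lit 19) (nat_lit 182)) (nd (nat_lit 180) (nat_lit 0) (cs (lf (nat_lit 1) (nat_lit 180)) (nd (nat_lit 228) (nat_lit 0) (cs (lf (nat_lit 24) (nat_lit 139)) (rf (nat_lit 12)))))))))))))) (cs (rf (nat_lit 26)) (cs (rf (nat_lit 27)) (rf (nat_lit 28)))))))))))))) q38849 (by decide +kernel)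
def q38855 : Q := Q.p (nat_lit 0x14000010000060000000000000000000000000000000000000000) (nat_lit 0xbc0003e00009c00000000000000080000000000000000000000000000000000) (nat_lit 8)
theorem c38855 : QOK q38855 := cut [q37501] ⟨c37501, trivial⟩ (nd (nat_lit 228) (nat_lit 0) (cs (lf (nat_lit 47) (nat_lit 139)) (nd (nat_lit 227) (nat_lit 0) (cs (lf (nat_lit 41) (nat_lit 161)) (rf (nat_lit 0)))))) q38855 (by decide +kernel)
def q38871 : Q := Q.p (nat_lit 0x10000050000060000000000000000000000000000000000000000) (nat_lit 0xfc0003f0000fc0002f80031e0005f80003c0000f00001c00005000000000000) (nat_lit 12)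
theorem c38871 : QOK q38871 := cut [q17608, q36953, q37479, q37498, q37654, q38870] ⟨c17608, c36953, c37479, c37498, c37654, c38870, trivial⟩ (nd (nat_lit 160) (nat_lit 0) (cs (rf (nat_lit 0)) (cs (rf (nat_lit 1)) (cs (nd (nat_lit 183) (nat_lit 0) (cs (rf (nat_lit 2)) (cs (rf (nat_lit 3)) (rf (nat_lit 4))))) (rf (nat_lit 5)))))) q38871 (by decide +kernel)
def q38880 : Q := Q.p (nat_lit 0x40000060000000000000000000000000000000000000000) (nat_lit 0xc0000300003c0003f80019e0001f80001c0000700001c00005000000000000) (nat_lit 12)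
theorem c38880 : QOK q38880 := cut [q36953, q38174, q38875, q38878] ⟨c36953, c38174, c38875, c38878, trivial⟩ (nd (nat_lit 160) (nat_lit 0) (cs (rf (nat_lit 0)) (cs (rf (nat_lit 1)) (cs (rf (nat_lit 2)) (nd (nat_lit 163) (nat_lit 0) (cs (lf (nat_lit 4) (nat_lit 160)) (rf (nat_lit 3)))))))) q38880 (by decide +kernel)

end Crest.Agent.H3.Snaky.CR
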