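import Crest.Agent.H3.Snaky.Cert
import Crest.Agent.H3.Snaky.CR.CR0
import Crest.Agent.H3.Snaky.CR.CR1
import Crest.Agent.H3.Snaky.CR.CR2
import Crest.Agent.H3.Snaky.CR.CR3
import Crest.Agent.H3.Snaky.CR.CR4
import Crest.Agent.H3.Snaky.CR.CR5
import Crest.Agent.H3.Snaky.CR.CR6
import Crest.Agent.H3.Snaky.CR.CR7
import Crest.Agent.H3.Snaky.CR.CR8
import Crest.Agent.H3.Snaky.CR.CR9
import Crest.Agent.H3.Snaky.CR.CR10
import Crest.Agent.H3.Snaky.CR.CR11
import Crest.Agent.H3.Snaky.CR.CR12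
import Crest.Agent.H3.Snaky.CR.CR13
import Crest.Agent.H3.Snaky.CR.CR14
import Crest.Agent.H3.Snaky.CR.CR15
import Crest.Agent.H3.Snaky.CR.CR16
import Crest.Agent.H3.Snaky.CR.CR20
import Crest.Agent.H3.Snaky.CR.CR21
import Crest.Agent.H3.Snaky.CR.CR22
import Crest.Agent.H3.Snaky.CR.CR23
import Crest.Agent.H3.Snaky.CR.CR24
import Crest.Agent.H3.Snaky.CR.CR25
import Crest.Agent.H3.Snaky.CR.CR26
import Crest.Agent.H3.Snaky.CR.CR27
import Crest.Agent.H3.Snaky.CR.CR28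
import Crest.Agent.H3.Snaky.CR.CR29
import Crest.Agent.H3.Snaky.CR.CR30
import Crest.Agent.H3.Snaky.CR.CR31
import Crest.Agent.H3.Snaky.CR.CR32
import Crest.Agent.H3.Snaky.CR.CR33
import Crest.Agent.H3.Snaky.CR.CR34
import Crest.Agent.H3.Snaky.CR.CR39
import Crest.Agent.H3.Snaky.CR.CR40
import Crest.Agent.H3.Snaky.CR.CR41
import Crest.Agent.H3.Snaky.CR.CR42
import Crest.Agent.H3.Snaky.CR.CR43
import Crest.Agent.H3.Snaky.CR.CR44
import Crest.Agent.H3.Snaky.CR.CR45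
import Crest.Agent.H3.Snaky.CR.CR46
import Crest.Agent.H3.Snaky.CR.CR47
import Crest.Agent.H3.Snaky.CR.CR48
import Crest.Agent.H3.Snaky.CR.CR54
import Crest.Agent.H3.Snaky.CR.CR55
import Crest.Agent.H3.Snaky.CR.CR56
import Crest.Agent.H3.Snaky.CR.CR57
import Crest.Agent.H3.Snaky.CR.CR58
import Crest.Agent.H3.Snaky.CR.CR59
import Crest.Agent.H3.Snaky.CR.CR64
import Crest.Agent.H3.Snaky.CR.CR65
import Crest.Agent.H3.Snaky.CR.CR66
import Crest.Agent.H3.Snaky.CR.CR67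

set_option autoImplicit false
set_option maxRecDepth 100000

namespace Crest.Agent.H3.Snaky.CR

open T

def q38961 : Q := Q.p (nat_lit 0x480000e0000000000000000000000000000000000000000) (nat_lit 0x734000f000038c0000000000000000000000000000000000) (nat_lit 8)
theorem c38961 : QOK q38961 := cut [q37814] ⟨c37814, trivial⟩ (nd (nat_lit 164) (nat_lit 0) (cs (lf (nat_lit 11) (nat_lit 160)) (nd (nat_lit 138) (nat_lit 0) (cs (lf (nat_lit 22) (nat_lit 138)) (rf (nat_lit 0)))))) q38961 (by decide +kernel)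
def q39031 : Q := Q.p (nat_lit 0x10000040000040000000000000000000000000000000000000000) (nat_lit 0x300000c00003c0004f0007b0000fb0007fe001ff0002e8000ba0000e0000000000000) (nat_lit 15)
theorem c39031 : QOK q39031 := cut [q32489, q39006, q32493, q35615, q37167, q39007, q32821, q35557, q35584, q35611, q33126, q39009, q619, q4533, q617, q18163, q12357, q35574, q32544, q32574, q32576, q3871, q32511, q32570, q32532, q37100, q9174] ⟨c32489, c39006, c32493, c35615, c37167, c39007, c32821, c35557, c35584, c35611, c33126, c39009, c619, c4533, c617, c18163, c12357, c35574, c32544, c32574, c32576, c3871, c32511, c32570, c32532, c37100, c9174, trivial⟩ (nd (nat_lit 163) (nat_lit 0) (cs (rf (nat_lit 0)) (cs (rf (nat_lit 1)) (cs (nd (nat_lit 164) (nat_lit 0) (cs (rf (nat_lit 2)) (cs (rf (nat_lit 3)) (cs (rf (nat_lit 4)) (rf (nat_lit 5)))))) (cs (nd (nat_lit 164) (nat_lit 0) (cs (rf (nat_lit 2)) (cs (rf (nat_lit 6)) (cs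 (rf (nat_lit 7)) (cs (rf (nat_lit 8)) (cs (rf (nat_lit 9)) (cs (nd (nat_lit 165) (nat_lit 0) (cs (rf (nat_lit 10)) (nd (nat_lit 139) (nat_lit 0) (cs (lf (nat_lit 22) (nat_lit 139)) (rf (nat_lit 11)))))) (cs (nd (nat_lit 142) (nat_lit 0) (cs (rf (nat_lit 12)) (rf (nat_lit 13)))) (nd (nat_lit 142) (nat_lit 0) (cs (rf (nat_lit 14)) (cs (rf (nat_lit 12)) (cs (rf (nat_lit 15)) (nd (nat_lit 140) (nat_lit 0) (cs (rf (nat_lit 16)) (cs (rf (nat_lit 17)) (nd (nat_lit 207) (nat_lit 0) (cs (lf (nat_lit 41) (nat_lit 141)) (nd (nat_lit 121) (nat_lit 0) (cs (lf (nat_lit 34) (nat_lit 120)) (nd (nat_lit 165) (nat_lit 0) (cs (lf (nat_lit 23) (nat_lit 139)) (rf (nat_lit 11))))))))))))))))))))))) (nd (nat_lit 141) (nat_lit 0) (cs (rf (nat_lit 18)) (cs (rf (nat_lit 19)) (cs (rf (nat_lit 20)) (nd (nat_lit 142) (nat_lit 0) (cs (rf (nat_lit 21)) (cs (rf (nat_lit 22)) (cs (rf (nat_lit 23)) (nd (nat_lit 164) (nat_lit 0) (cs (rf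 (nat_lit 24)) (cs (nd (nat_lit 161) (nat_lit 0) (cs (lf (nat_lit 12) (nat_lit 138)) (nd (nat_lit 207) (nat_lit 0) (cs (lf (nat_lit 41) (nat_lit 141)) (nd (nat_lit 139) (nat_lit 0) (cs (lf (nat_lit 23) (nat_lit 138)) (nd (nat_lit 140) (nat_lit 0) (cs (lf (nat_lit 18) (nat_lit 139)) (rf (nat_lit 25)))))))))) (nd (nat_lit 161) (nat_lit 0) (cs (lf (nat_lit 12) (nat_lit 138)) (nd (nat_lit 139) (nat_lit 0) (cs (lf (nat_lit 23) (nat_lit 138)) (nd (nat_lit 140) (nat_lit 0) (cs (lf (nat_lit 18) (nat_lit 139)) (nd (nat_lit 116) (nat_lit 0) (cs (lf (nat_lit 22) (nat_lit 116)) (nd (nat_lit 120) (nat_lit 0) (cs (lf (nat_lit 17) (nat_lit 117)) (rf (nat_lit 26)))))))))))))))))))))))))))) q39031 (by decide +kernel)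
def q39108 : Q := Q.p (nat_lit 0x10000060000040000000000000000000000000000000000000000) (nat_lit 0x20001cf00039e0006bc000900002400000000000000000000000000000) (nat_lit 10)
theorem c39108 : QOK q39108 := cut [q38418, q39102, q39106, q20720] ⟨c38418, c39102, c39106, c20720, trivial⟩ (nd (nat_lit 187) (nat_lit 0) (cs (rf (nat_lit 0)) (cs (nd (nat_lit 184) (nat_lit 0) (cs (lf (nat_lit 23) (nat_lit 161)) (nd (nat_lit 165) (nat_lit 0) (cs (lf (nat_lit 17) (nat_lit 162)) (nd (nat_lit 121) (nat_lit 0) (cs (lf (nat_lit 37) (nat_lit 120)) (rf (nat_lit 1)))))))) (cs (rf (nat_lit 2)) (nd (nat_lit 184) (nat_lit 0) (cs (lf (nat_lit 23) (nat_lit 161)) (rf (nat_lit 3)))))))) q39108 (by decide +kernel)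
def q39171 : Q := Q.p (nat_lit 0x2000000000010000060000040000000000000000000000000000000000000000) (nat_lit 0xe0001bc001cfc00f9e000f9c001f00002800000000000000000000000000000) (nat_lit 11)
theorem c39171 : QOK q39171 := cut [q38418, q39068, q39102, q39088, q3687, q39153, q39159, q21050, q39169] ⟨c38418, c39068, c39102, c39088, c3687, c39153, c39159, c21050, c39169, trivial⟩ (nd (nat_lit 187) (nat_lit 0) (cs (rf (nat_lit 0)) (cs (nd (nat_lit 184) (nat_lit 0) (cs (rf (nat_lit 1)) (cs (rf (nat_lit 2)) (cs (nd (nat_lit 165) (nat_lit 0) (cs (lf (nat_lit 17) (nat_lit 162)) (nd (nat_lit 183) (nat_lit 0) (cs (lf (nat_lit 16) (nat_lit 161)) (nd (nat_lit 121) (nat_lit 0) (cs (lf (nat_lit 37) (nat_lit 120)) (nd (nat_lit 182) (nat_lit 0) (cs (lf (nat_lit 4) (nat_lit 182)) (nd (nat_lit 203) (nat_lit 0) (cs (lf (nat_lit 10) (nat_lit 181)) (nd (nat_lit 181) (nat_lit 0) (cs (lf (nat_lit 11) (nat_lit 180)) (lf (nat_lit 17)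 (nat_lit 159)))))))))))))) (nd (nat_lit 163) (nat_lit 0) (cs (rf (nat_lit 3)) (cs (nd (nat_lit 206) (nat_lit 0) (cs (lf (nat_lit 11) (nat_lit 183)) (nd (nat_lit 165) (nat_lit 0) (cs (lf (nat_lit 17) (nat_lit 162)) (nd (nat_lit 121) (nat_lit 0) (cs (lf (nat_lit 37) (nat_lit 120)) (nd (nat_lit 228) (nat_lit 0) (cs (lf (nat_lit 30) (nat_lit 162)) (nd (nat_lit 229) (nat_lit 0) (cs (lf (nat_lit 29) (nat_lit 162)) (nd (nat_lit 207) (nat_lit 0) (cs (lf (nat_lit 47) (nat_lit 140)) (rf (nat_lit 4)))))))))))))) (nd (nat_lit 141) (nat_lit 0) (cs (lf (nat_lit 24) (nat_lit 119)) (nd (nat_lit 165) (nat_lit 0) (cs (lf (nat_lit 17) (nat_lit 162)) (nd (nat_lit 143) (nat_lit 0) (cs (lf (nat_lit 36) (nat_lit 120)) (rf (nat_lit 5))))))))))))))) (cs (nd (nat_lit 188) (nat_lit 0) (cs (lf (nat_lit 22) (nat_lit 162)) (nd (nat_lit 166) (nat_lit 0) (cs (lf (nat_lit 17) (nat_lit 163)) (nd (nat_lit 165) (nat_lit 0) (cs (lf (nat_lit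 12) (nat_lit 162)) (nd (nat_lit 121) (nat_lit 0) (cs (lf (nat_lit 37) (nat_lit 120)) (nd (nat_lit 211) (nat_lit 0) (cs (lf (nat_lit 4) (nat_lit 185)) (nd (nat_lit 189) (nat_lit 0) (cs (lf (nat_lit 5) (nat_lit 186)) (rf (nat_lit 6)))))))))))))) (nd (nat_lit 188) (nat_lit 0) (cs (rf (nat_lit 7)) (rf (nat_lit 8)))))))) q39171 (by decide +kernel)
def q39448 : Q := Q.p (nat_lit 0x2000000000010000050000040000000000000000000000000000000000000000) (nat_lit 0x200001e00003800007000fac001f80007ff801ffc00fff000fe0001f00007c0000000) (nat_lit 16)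
theorem c39448 : QOK q39448 := cut [q32764, q39347, q39391, q456, q32721, q32724, q21363, q17757, q33350, q2254, q32646, q32822, q33351, q33359, q5868, q39390, q33126, q32985, q33023, q32986, q33364, q39407, q32650, q32767, q39422, q39431, q39433, q39441, q4820] ⟨c32764, c39347, c39391, c456, c32721, c32724, c21363, c17757, c33350, c2254, c32646, c32822, c33351, c33359, c5868, c39390, c33126, c32985, c33023, c32986, c33364, c39407, c32650, c32767, c39422, c39431, c39433, c39441, c4820, trivial⟩ (nd (nat_lit 164) (nat_lit 0) (cs (rf (nat_lit 0)) (cs (rf (nat_lit 1)) (cs (rf (nat_lit 2)) (cs (nd (nat_lit 165) (nat_lit 0) (cs (rf (nat_lit 3)) (cs (rf (nat_lit 4)) (cs (rf (nat_lit 5)) (nd (nat_lit 143) (nat_lit 0) (cs (rf (nat_lit 6)) (nd (nat_lit 163) (nat_lit 0) (cs (lf (nat_lit 17) (nat_lit 140)) (nd (nat_lit 139) (nat_lit 0) (cs (lf (nat_lit 22) (nat_lit 139)) (rf (nat_lit 7)))))))))))) (cs (nd (nat_lit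 165) (nat_lit 0) (cs (rf (nat_lit 3)) (cs (rf (nat_lit 4)) (cs (rf (nat_lit 8)) (nd (nat_lit 163) (nat_lit 0) (cs (rf (nat_lit 9)) (cs (rf (nat_lit 10)) (nd (nat_lit 119) (nat_lit 0) (cs (rf (nat_lit 11)) (cs (rf (nat_lit 12)) (cs (rf (nat_lit 13)) (nd (nat_lit 140) (nat_lit 0) (cs (lf (nat_lit 23) (nat_lit 139)) (nd (nat_lit 187) (nat_lit 0) (cs (lf (nat_lit 5) (nat_lit 162)) (nd (nat_lit 118) (nat_lit 0) (cs (lf (nat_lit 35) (nat_lit 96)) (nd (nat_lit 96) (nat_lit 0) (cs (rf (nat_lit 14)) (lf (nat_lit 29) (nat_lit 96))))))))))))))))))))) (cs (nd (nat_lit 165) (nat_lit 0) (cs (rf (nat_lit 8)) (cs (rf (nat_lit 15)) (nd (nat_lit 163) (nat_lit 0) (cs (lf (nat_lit 11) (nat_lit 161)) (rf (nat_lit 16))))))) (cs (nd (nat_lit 121) (nat_lit 0) (cs (rf (nat_lit 17)) (cs (rf (nat_lit 18)) (cs (nd (nat_lit 165) (nat_lit 0) (cs (rf (nat_lit 19)) (cs (rf (nat_lit 20)) (nd (nat_lit 143) (nat_lit 0) (cs (lf (nat_lit 36)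 (nat_lit 98)) (rf (nat_lit 21))))))) (nd (nat_lit 143) (nat_lit 0) (cs (lf (nat_lit 33) (nat_lit 120)) (nd (nat_lit 165) (nat_lit 0) (cs (lf (nat_lit 39) (nat_lit 120)) (rf (nat_lit 21)))))))))) (cs (nd (nat_lit 163) (nat_lit 0) (cs (rf (nat_lit 22)) (cs (rf (nat_lit 23)) (cs (rf (nat_lit 24)) (cs (rf (nat_lit 25)) (cs (rf (nat_lit 26)) (rf (nat_lit 27)))))))) (nd (nat_lit 165) (nat_lit 0) (cs (rf (nat_lit 3)) (cs (rf (nat_lit 4)) (cs (rf (nat_lit 5)) (nd (nat_lit 143) (nat_lit 0) (cs (rf (nat_lit 6)) (nd (nat_lit 163) (nat_lit 0) (cs (lf (nat_lit 17) (nat_lit 140)) (nd (nat_lit 187) (nat_lit 0) (cs (lf (nat_lit 5) (nat_lit 162)) (nd (nat_lit 185) (nat_lit 0) (cs (lf (nat_lit 6) (nat_lit 162)) (rf (nat_lit 28))))))))))))))))))))))) q39448 (by decide +kernel)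
def q39503 : Q := Q.p (nat_lit 0x100000500000c0000000000000000000000000000000000000000) (nat_lit 0x1000004000027000138001ff0003a0000e800020000000000000000000) (nat_lit 11)
theorem c39503 : QOK q39503 := cut [q6771, q38551, q38950, q39493, q39497, q32569] ⟨c6771, c38551, c38950, c39493, c39497, c32569, trivial⟩ (nd (nat_lit 161) (nat_lit 0) (cs (rf (nat_lit 0)) (cs (nd (nat_lit 139) (nat_lit 0) (cs (rf (nat_lit 1)) (cs (rf (nat_lit 2)) (nd (nat_lit 95) (nat_lit 0) (cs (lf (nat_lit 25) (nat_lit 95)) (nd (nat_lit 206) (nat_lit 0) (cs (lf (nat_lit 42) (nat_lit 139)) (rf (nat_lit 3))))))))) (nd (nat_lit 141) (nat_lit 0) (cs (rf (nat_lit 4)) (cs (nd (nat_lit 206) (nat_lit 0) (cs (lf (nat_lit 30) (nat_lit 140)) (nd (nat_lit 142) (nat_lit 0) (cs (lf (nat_lit 12) (nat_lit 138)) (rf (nat_lit 5)))))) (nd (nat_lit 142) (nat_lit 0) (cs (lf (nat_lit 12) (nat_lit 138)) (nd (nat_lit 119) (nat_lit 0) (cs (lf (nat_lit 36)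 (nat_lit 96)) (lf (nat_lit 44) (nat_lit 119)))))))))))) q39503 (by decide +kernel)
def q39560 : Q := Q.p (nat_lit 0x2000000000000000010000040000100000000000000000000000000000000000) (nat_lit 0x20000380001e000038000060000080000a000028000060000380000e000028000000000000) (nat_lit 11)
theorem c39560 : QOK q39560 := cut [q35454, q39361, q24125, q39555] ⟨c35454, c39361, c24125, c39555, trivial⟩ (nd (nat_lit 118) (nat_lit 0) (cs (rf (nat_lit 0)) (cs (rf (nat_lit 1)) (cs (nd (nat_lit 183) (nat_lit 0) (cs (lf (nat_lit 41) (nat_lit 117)) (rf (nat_lit 2)))) (nd (nat_lit 205) (nat_lit 0) (cs (lf (nat_lit 40) (nat_lit 117)) (nd (nat_lit 206) (nat_lit 0) (cs (lf (nat_lit 41) (nat_lit 139)) (nd (nat_lit 139) (nat_lit 0) (cs (lf (nat_lit 47) (nat_lit 117)) (nd (nat_lit 228) (nat_lit 0) (cs (lf (nat_lit 46) (nat_lit 139)) (rf (nat_lit 3)))))))))))))) q39560 (by decide +kernel)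
def q39641 : Q := Q.p (nat_lit 0x10000050000040000000000000000000000000000000000000000) (nat_lit 0xc0001300005c007af800fbc003ff8007fc007ff0002fc00005000000000000) (nat_lit 14)
theorem c39641 : QOK q39641 := cut [q33487, q38377, q36613, q38530, q38551, q38448, q36515, q32838, q32845, q32871, q38447, q19216, q17870, q35905, q38950, q38963, q39493, q38535, q32463, q32556, q38618, q6338, q32461, q39064, q39497, q38209, q38217, q38221, q38992] ⟨c33487, c38377, c36613, c38530, c38551, c38448, c36515, c32838, c32845, c32871, c38447, c19216, c17870, c35905, c38950, c38963, c39493, c38535, c32463, c32556, c38618, c6338, c32461, c39064, c39497, c38209, c38217, c38221, c38992, trivial⟩ (nd (nat_lit 161) (nat_lit 0) (cs (rf (nat_lit 0)) (cs (rf (nat_lit 1)) (cs (nd (nat_lit 139) (nat_lit 0) (cs (rf (nat_lit 2)) (cs (rf (nat_lit 3)) (cs (rf (nat_lit 4)) (cs (nd (nat_lit 119) (nat_lit 0) (cs (nd (nat_lit 206) (nat_lit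 0) (cs (lf (nat_lit 42) (nat_lit 139)) (nd (nat_lit 140) (nat_lit 0) (cs (lf (nat_lit 34) (nat_lit 118)) (rf (nat_lit 5)))))) (cs (nd (nat_lit 187) (nat_lit 0) (cs (lf (nat_lit 20) (nat_lit 161)) (nd (nat_lit 164) (nat_lit 0) (cs (rf (nat_lit 6)) (nd (nat_lit 121) (nat_lit 0) (cs (nd (nat_lit 120) (nat_lit 0) (cs (rf (nat_lit 7)) (cs (rf (nat_lit 8)) (cs (rf (nat_lit 9)) (nd (nat_lit 206) (nat_lit 0) (cs (lf (nat_lit 42) (nat_lit 139)) (nd (nat_lit 118) (nat_lit 0) (cs (lf (nat_lit 10) (nat_lit 117)) (nd (nat_lit 96) (nat_lit 0) (cs (lf (nat_lit 23) (nat_lit 95)) (nd (nat_lit 100) (nat_lit 0) (cs (lf (nat_lit 16) (nat_lit 96)) (nd (nat_lit 122) (nat_lit 0) (cs (lf (nat_lit 17) (nat_lit 97)) (lf (nat_lit 22) (nat_lit 96)))))))))))))))) (cs (nd (nat_lit 118) (nat_lit 0) (cs (nd (nat_lit 206) (nat_lit 0) (cs (lf (nat_lit 42) (nat_lit 139)) (nd (nat_lit 140) (nat_lit 0) (cs (lf (nat_lit 35) (nat_lit 96)) (rf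 (nat_lit 10)))))) (cs (nd (nat_lit 143) (nat_lit 0) (cs (lf (nat_lit 38) (nat_lit 120)) (nd (nat_lit 120) (nat_lit 0) (cs (lf (nat_lit 5) (nat_lit 118)) (nd (nat_lit 100) (nat_lit 0) (cs (lf (nat_lit 16) (nat_lit 96)) (nd (nat_lit 206) (nat_lit 0) (cs (lf (nat_lit 42) (nat_lit 139)) (nd (nat_lit 122) (nat_lit 0) (cs (lf (nat_lit 17) (nat_lit 97)) (rf (nat_lit 11)))))))))))) (nd (nat_lit 143) (nat_lit 0) (cs (lf (nat_lit 38) (nat_lit 120)) (nd (nat_lit 120) (nat_lit 0) (cs (lf (nat_lit 10) (nat_lit 117)) (lf (nat_lit 5) (nat_lit 118))))))))) (nd (nat_lit 143) (nat_lit 0) (cs (lf (nat_lit 33) (nat_lit 120)) (lf (nat_lit 38) (nat_lit 120))))))))))) (cs (nd (nat_lit 206) (nat_lit 0) (cs (lf (nat_lit 42) (nat_lit 139)) (nd (nat_lit 185) (nat_lit 0) (cs (lf (nat_lit 18) (nat_lit 161)) (nd (nat_lit 163) (nat_lit 0) (cs (lf (nat_lit 37) (nat_lit 118)) (nd (nat_lit 164) (nat_lit 0) (cs (lf (nat_lit 23) (nat_lit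 138)) (rf (nat_lit 12)))))))))) (nd (nat_lit 185) (nat_lit 0) (cs (lf (nat_lit 18) (nat_lit 161)) (nd (nat_lit 141) (nat_lit 0) (cs (lf (nat_lit 26) (nat_lit 119)) (nd (nat_lit 142) (nat_lit 0) (cs (lf (nat_lit 44) (nat_lit 119)) (nd (nat_lit 140) (nat_lit 0) (cs (lf (nat_lit 6) (nat_lit 139)) (rf (nat_lit 13)))))))))))))) (nd (nat_lit 117) (nat_lit 0) (cs (lf (nat_lit 24) (nat_lit 95)) (nd (nat_lit 163) (nat_lit 0) (cs (rf (nat_lit 14)) (cs (rf (nat_lit 15)) (cs (rf (nat_lit 16)) (nd (nat_lit 118) (nat_lit 0) (cs (rf (nat_lit 17)) (nd (nat_lit 185) (nat_lit 0) (cs (lf (nat_lit 18) (nat_lit 161)) (nd (nat_lit 119) (nat_lit 0) (cs (lf (nat_lit 25) (nat_lit 119)) (nd (nat_lit 120) (nat_lit 0) (cs (lf (nat_lit 11) (nat_lit 116)) (nd (nat_lit 140) (nat_lit 0) (cs (lf (nat_lit 35) (nat_lit 96)) (lf (nat_lit 6) (nat_lit 117))))))))))))))))))))))) (cs (nd (nat_lit 163) (nat_lit 0) (cs (rf (nat_lit 18)) (cs (rf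 (nat_lit 19)) (cs (rf (nat_lit 20)) (nd (nat_lit 160) (nat_lit 0) (cs (rf (nat_lit 21)) (cs (rf (nat_lit 22)) (cs (rf (nat_lit 23)) (nd (nat_lit 137) (nat_lit 0) (cs (lf (nat_lit 22) (nat_lit 137)) (nd (nat_lit 181) (nat_lit 0) (cs (lf (nat_lit 10) (nat_lit 159)) (nd (nat_lit 141) (nat_lit 0) (cs (lf (nat_lit 17) (nat_lit 138)) (rf (nat_lit 24)))))))))))))))) (nd (nat_lit 160) (nat_lit 0) (cs (rf (nat_lit 25)) (cs (rf (nat_lit 26)) (cs (rf (nat_lit 27)) (rf (nat_lit 28))))))))))) q39641 (by decide +kernel)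
def q39653 : Q := Q.p (nat_lit 0x100000400000c0000000000000000000000000000000000000000) (nat_lit 0x400003f000338000ef0003a0000e800020000000000000000000) (nat_lit 8)
theorem c39653 : QOK q39653 := cut [q6771, q38215, q38223, q39651, q6338, q38214, q38220] ⟨c6771, c38215, c38223, c39651, c6338, c38214, c38220, trivial⟩ (nd (nat_lit 161) (nat_lit 0) (cs (rf (nat_lit 0)) (cs (rf (nat_lit 1)) (cs (rf (nat_lit 2)) (cs (rf (nat_lit 3)) (nd (nat_lit 160) (nat_lit 0) (cs (rf (nat_lit 4)) (cs (rf (nat_lit 5)) (rf (nat_lit 6)))))))))) q39653 (by decide +kernel)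
def q39722 : Q := Q.p (nat_lit 0x2000000000010000050000040000000000000000000000000000000000000000) (nat_lit 0x20000380001e000038000060001ac0007b8001fe0003f80007c00004000000000000000000) (nat_lit 12)
theorem c39722 : QOK q39722 := cut [q3734, q19014, q39452, q4465, q21414, q21439, q17777, q24055, q3733, q19013, q38551, q35153, q38448, q39704, q37496, q39713, q39718] ⟨c3734, c19014, c39452, c4465, c21414, c21439, c17777, c24055, c3733, c19013, c38551, c35153, c38448, c39704, c37496, c39713, c39718, trivial⟩ (nd (nat_lit 185) (nat_lit 0) (cs (rf (nat_lit 0)) (cs (rf (nat_lit 1)) (cs (nd (nat_lit 163) (nat_lit 0) (cs (rf (nat_lit 2)) (cs (nd (nat_lit 187) (nat_lit 0) (cs (lf (nat_lit 18) (nat_lit 162)) (nd (nat_lit 165) (nat_lit 0) (cs (lf (nat_lit 17) (nat_lit 162)) (nd (nat_lit 164) (nat_lit 0) (cs (lf (nat_lit 12) (nat_lit 161)) (rf (nat_lit 3)))))))) (nd (nat_lit 140) (nat_lit 0) (cs (rf (nat_lit 4)) (cs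 (rf (nat_lit 5)) (cs (nd (nat_lit 118) (nat_lit 0) (cs (lf (nat_lit 24) (nat_lit 96)) (nd (nat_lit 95) (nat_lit 0) (cs (lf (nat_lit 46) (nat_lit 95)) (nd (nat_lit 205) (nat_lit 0) (cs (lf (nat_lit 40) (nat_lit 117)) (nd (nat_lit 206) (nat_lit 0) (cs (lf (nat_lit 41) (nat_lit 139)) (rf (nat_lit 6)))))))))) (nd (nat_lit 141) (nat_lit 0) (cs (lf (nat_lit 24) (nat_lit 119)) (nd (nat_lit 206) (nat_lit 0) (cs (lf (nat_lit 30) (nat_lit 140)) (nd (nat_lit 205) (nat_lit 0) (cs (lf (nat_lit 41) (nat_lit 139)) (rf (nat_lit 7))))))))))))))) (nd (nat_lit 161) (nat_lit 0) (cs (rf (nat_lit 8)) (cs (rf (nat_lit 9)) (nd (nat_lit 139) (nat_lit 0) (cs (rf (nat_lit 10)) (cs (nd (nat_lit 206) (nat_lit 0) (cs (rf (nat_lit 11)) (nd (nat_lit 140) (nat_lit 0) (cs (nd (nat_lit 119) (nat_lit 0) (cs (lf (nat_lit 34) (nat_lit 118)) (rf (nat_lit 12)))) (cs (nd (nat_lit 205) (nat_lit 0) (cs (lf (nat_lit 41) (nat_lit 139)) (nd (nat_lit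 141) (nat_lit 0) (cs (lf (nat_lit 35) (nat_lit 118)) (nd (nat_lit 142) (nat_lit 0) (cs (lf (nat_lit 6) (nat_lit 139)) (nd (nat_lit 164) (nat_lit 0) (cs (lf (nat_lit 5) (nat_lit 139)) (nd (nat_lit 138) (nat_lit 0) (cs (lf (nat_lit 19) (nat_lit 138)) (nd (nat_lit 116) (nat_lit 0) (cs (lf (nat_lit 23) (nat_lit 115)) (lf (nat_lit 43) (nat_lit 116)))))))))))))) (cs (nd (nat_lit 205) (nat_lit 0) (cs (lf (nat_lit 41) (nat_lit 139)) (nd (nat_lit 118) (nat_lit 0) (cs (lf (nat_lit 40) (nat_lit 117)) (rf (nat_lit 13)))))) (nd (nat_lit 205) (nat_lit 0) (cs (lf (nat_lit 41) (nat_lit 139)) (nd (nat_lit 119) (nat_lit 0) (cs (lf (nat_lit 34) (nat_lit 118)) (nd (nat_lit 118) (nat_lit 0) (cs (lf (nat_lit 35) (nat_lit 96)) (rf (nat_lit 13)))))))))))))) (nd (nat_lit 183) (nat_lit 0) (cs (rf (nat_lit 14)) (cs (nd (nat_lit 164) (nat_lit 0) (cs (lf (nat_lit 17) (nat_lit 161)) (nd (nat_lit 163) (nat_lit 0) (cs (lf (nat_lit 12)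 (nat_lit 160)) (nd (nat_lit 119) (nat_lit 0) (cs (lf (nat_lit 25) (nat_lit 119)) (rf (nat_lit 15)))))))) (rf (nat_lit 16))))))))))))))) q39722 (by decide +kernel)
def q39942 : Q := Q.p (nat_lit 0x10000040000060000000000000000000000000000000000000000) (nat_lit 0x100000700003c0000f00003f000f80003ff0007fc000ff0003f000074000140000000) (nat_lit 15)
theorem c39942 : QOK q39942 := cut [q39864, q35565, q39246, q32546, q39886, q36614, q36626, q39824, q39826, q38948, q39890, q39891, q35636, q38937, q32822, q33791, q36006, q37094, q36689, q37212, q38372, q39941] ⟨c39864, c35565, c39246, c32546, c39886, c36614, c36626, c39824, c39826, c38948, c39890, c39891, c35636, c38937, c32822, c33791, c36006, c37094, c36689, c37212, c38372, c39941, trivial⟩ (nd (nat_lit 139) (nat_lit 0) (cs (rf (nat_lit 0)) (cs (nd (nat_lit 164) (nat_lit 0) (cs (rf (nat_lit 1)) (cs (rf (nat_lit 2)) (nd (nat_lit 163) (nat_lit 0) (cs (lf (nat_lit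 23) (nat_lit 138)) (rf (nat_lit 3))))))) (cs (rf (nat_lit 4)) (cs (nd (nat_lit 117) (nat_lit 0) (cs (rf (nat_lit 5)) (cs (rf (nat_lit 6)) (cs (rf (nat_lit 7)) (cs (rf (nat_lit 8)) (nd (nat_lit 183) (nat_lit 0) (cs (rf (nat_lit 9)) (cs (rf (nat_lit 10)) (cs (nd (nat_lit 94) (nat_lit 0) (cs (lf (nat_lit 46) (nat_lit 94)) (nd (nat_lit 96) (nat_lit 0) (cs (lf (nat_lit 34) (nat_lit 95)) (rf (nat_lit 11)))))) (nd (nat_lit 94) (nat_lit 0) (cs (lf (nat_lit 46) (nat_lit 94)) (nd (nat_lit 184) (nat_lit 0) (cs (lf (nat_lit 29) (nat_lit 117)) (nd (nat_lit 118) (nat_lit 0) (cs (lf (nat_lit 35) (nat_lit 95)) (nd (nat_lit 140) (nat_lit 0) (cs (lf (nat_lit 30) (nat_lit 117)) (nd (nat_lit 185) (nat_lit 0) (cs (lf (nat_lit 29) (nat_lit 118)) (nd (nat_lit 97) (nat_lit 0) (cs (lf (nat_lit 34) (nat_lit 96)) (nd (nat_lit 164) (nat_lit 0) (cs (lf (nat_lit 17) (nat_lit 161)) (nd (nat_lit 163) (nat_lit 0) (cs (lf (nat_lit 11) (nat_lit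 160)) (nd (nat_lit 142) (nat_lit 0) (cs (lf (nat_lit 17) (nat_lit 139)) (nd (nat_lit 120) (nat_lit 0) (cs (lf (nat_lit 36) (nat_lit 97)) (nd (nat_lit 121) (nat_lit 0) (cs (lf (nat_lit 35) (nat_lit 98)) (lf (nat_lit 14) (nat_lit 117))))))))))))))))))))))))))))))))) (cs (nd (nat_lit 164) (nat_lit 0) (cs (rf (nat_lit 1)) (cs (rf (nat_lit 12)) (cs (nd (nat_lit 163) (nat_lit 0) (cs (lf (nat_lit 23) (nat_lit 138)) (rf (nat_lit 13)))) (cs (nd (nat_lit 119) (nat_lit 0) (cs (rf (nat_lit 14)) (cs (nd (nat_lit 138) (nat_lit 0) (cs (lf (nat_lit 19) (nat_lit 138)) (nd (nat_lit 137) (nat_lit 0) (cs (lf (nat_lit 0) (nat_lit 136)) (nd (nat_lit 118) (nat_lit 0) (cs (nd (nat_lit 117) (nat_lit 0) (cs (lf (nat_lit 6) (nat_lit 116)) (lf (nat_lit 9) (nat_lit 115)))) (lf (nat_lit 15) (nat_lit 115)))))))) (nd (nat_lit 142) (nat_lit 0) (cs (lf (nat_lit 46) (nat_lit 119)) (rf (nat_lit 15))))))) (nd (nat_lit 163) (nat_lit 0) (cs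 (lf (nat_lit 23) (nat_lit 138)) (nd (nat_lit 140) (nat_lit 0) (cs (lf (nat_lit 18) (nat_lit 139)) (nd (nat_lit 142) (nat_lit 0) (cs (lf (nat_lit 17) (nat_lit 139)) (nd (nat_lit 207) (nat_lit 0) (cs (lf (nat_lit 41) (nat_lit 141)) (rf (nat_lit 16))))))))))))))) (cs (nd (nat_lit 164) (nat_lit 0) (cs (rf (nat_lit 1)) (cs (rf (nat_lit 17)) (rf (nat_lit 2))))) (cs (nd (nat_lit 117) (nat_lit 0) (cs (rf (nat_lit 5)) (cs (rf (nat_lit 6)) (cs (rf (nat_lit 7)) (cs (rf (nat_lit 8)) (nd (nat_lit 183) (nat_lit 0) (cs (rf (nat_lit 18)) (cs (rf (nat_lit 19)) (cs (rf (nat_lit 10)) (nd (nat_lit 94) (nat_lit 0) (cs (lf (nat_lit 46) (nat_lit 94)) (nd (nat_lit 96) (nat_lit 0) (cs (lf (nat_lit 34) (nat_lit 95)) (nd (nat_lit 184) (nat_lit 0) (cs (lf (nat_lit 29) (nat_lit 117)) (rf (nat_lit 20))))))))))))))))) (rf (nat_lit 21)))))))))) q39942 (by decide +kernel)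
def q39944 : Q := Q.p (nat_lit 0x40000060000000000000000000000000000000000000000) (nat_lit 0xc0000300001c0003780019c000ff8000fc0003f0000fc00005000000000000) (nat_lit 13)
theorem c39944 : QOK q39944 := cut [q38174, q38217, q38976, q38992, q39943] ⟨c38174, c38217, c38976, c38992, c39943, trivial⟩ (nd (nat_lit 160) (nat_lit 0) (cs (rf (nat_lit 0)) (cs (rf (nat_lit 1)) (cs (rf (nat_lit 2)) (cs (rf (nat_lit 3)) (rf (nat_lit 4))))))) q39944 (by decide +kernel)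
def q40193 : Q := Q.p (nat_lit 0x10000040000060000000000000000000000000000000000000000) (nat_lit 0xc0001f0000fc0001fc0019e000ffc001fe0007f0000fc0000f000000000000) (nat_lit 14)
theorem c40193 : QOK q40193 := cut [q36953, q39962, q40033, q40049, q38272, q40052, q33870, q39057, q39059, q37596, q39049, q35358, q39056, q23976, q38070, q38195, q38007, q40051, q40166, q23984, q40184, q27361, q23983, q37663, q34806, q40188, q40192] ⟨c36953, c39962, c40033, c40049, c38272, c40052, c33870, c39057, c39059, c37596, c39049, c35358, c39056, c23976, c38070, c38195, c38007, c40051, c40166, c23984, c40184, c27361, c23983, c37663, c34806, c40188, c40192, trivial⟩ (nd (nat_lit 160) (nat_lit 0) (cs (rf (nat_lit 0)) (cs (rf (nat_lit 1)) (cs (rf (nat_lit 2)) (cs (rf (nat_lit 3)) (cs (nd (nat_lit 138) (nat_lit 0) (cs (rf (nat_lit 4)) (cs (nd (nat_lit 163) (nat_lit 0) (cs (lf (nat_lit 23) (nat_lit 137)) (nd (nat_lit 141) (nat_lit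 0) (cs (lf (nat_lit 17) (nat_lit 138)) (rf (nat_lit 5)))))) (cs (nd (nat_lit 116) (nat_lit 0) (cs (rf (nat_lit 6)) (cs (rf (nat_lit 7)) (cs (rf (nat_lit 8)) (cs (nd (nat_lit 182) (nat_lit 0) (cs (rf (nat_lit 9)) (cs (rf (nat_lit 10)) (nd (nat_lit 93) (nat_lit 0) (cs (lf (nat_lit 46) (nat_lit 93)) (nd (nat_lit 183) (nat_lit 0) (cs (lf (nat_lit 29) (nat_lit 116)) (rf (nat_lit 11))))))))) (nd (nat_lit 95) (nat_lit 0) (cs (nd (nat_lit 73) (nat_lit 0) (cs (nd (nat_lit 117) (nat_lit 0) (cs (lf (nat_lit 30) (nat_lit 94)) (lf (nat_lit 36) (nat_lit 50)))) (lf (nat_lit 33) (nat_lit 72)))) (cs (nd (nat_lit 94) (nat_lit 0) (cs (lf (nat_lit 35) (nat_lit 72)) (rf (nat_lit 12)))) (cs (nd (nat_lit 117) (nat_lit 0) (cs (lf (nat_lit 30) (nat_lit 94)) (nd (nat_lit 73) (nat_lit 0) (cs (lf (nat_lit 36) (nat_lit 50)) (lf (nat_lit 39) (nat_lit 72)))))) (nd (nat_lit 117) (nat_lit 0) (cs (lf (nat_lit 30) (nat_lit 94)) (nd (nat_lit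 139) (nat_lit 0) (cs (lf (nat_lit 29) (nat_lit 95)) (nd (nat_lit 136) (nat_lit 0) (cs (lf (nat_lit 1) (nat_lit 136)) (nd (nat_lit 72) (nat_lit 0) (cs (lf (nat_lit 25) (nat_lit 72)) (nd (nat_lit 96) (nat_lit 0) (cs (lf (nat_lit 35) (nat_lit 73)) (nd (nat_lit 97) (nat_lit 0) (cs (lf (nat_lit 6) (nat_lit 94)) (nd (nat_lit 115) (nat_lit 0) (cs (lf (nat_lit 12) (nat_lit 92)) (lf (nat_lit 15) (nat_lit 93))))))))))))))))))))))))) (nd (nat_lit 182) (nat_lit 0) (cs (nd (nat_lit 163) (nat_lit 0) (cs (lf (nat_lit 11) (nat_lit 159)) (nd (nat_lit 141) (nat_lit 0) (cs (lf (nat_lit 17) (nat_lit 138)) (rf (nat_lit 13)))))) (cs (nd (nat_lit 183) (nat_lit 0) (cs (rf (nat_lit 14)) (cs (rf (nat_lit 15)) (nd (nat_lit 116) (nat_lit 0) (cs (lf (nat_lit 24) (nat_lit 94)) (nd (nat_lit 163) (nat_lit 0) (cs (lf (nat_lit 6) (nat_lit 160)) (nd (nat_lit 141) (nat_lit 0) (cs (lf (nat_lit 17) (nat_lit 138)) (nd (nat_lit 93) (nat_lit 0)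 (cs (lf (nat_lit 46) (nat_lit 93)) (nd (nat_lit 117) (nat_lit 0) (cs (lf (nat_lit 35) (nat_lit 94)) (nd (nat_lit 139) (nat_lit 0) (cs (lf (nat_lit 41) (nat_lit 116)) (nd (nat_lit 184) (nat_lit 0) (cs (lf (nat_lit 29) (nat_lit 117)) (nd (nat_lit 118) (nat_lit 0) (cs (lf (nat_lit 35) (nat_lit 95)) (rf (nat_lit 16))))))))))))))))))))) (cs (nd (nat_lit 163) (nat_lit 0) (cs (lf (nat_lit 11) (nat_lit 159)) (nd (nat_lit 141) (nat_lit 0) (cs (lf (nat_lit 17) (nat_lit 138)) (rf (nat_lit 17)))))) (nd (nat_lit 183) (nat_lit 0) (cs (rf (nat_lit 15)) (nd (nat_lit 116) (nat_lit 0) (cs (lf (nat_lit 24) (nat_lit 94)) (rf (nat_lit 11)))))))))))))) (cs (rf (nat_lit 18)) (cs (nd (nat_lit 138) (nat_lit 0) (cs (rf (nat_lit 19)) (cs (rf (nat_lit 4)) (cs (nd (nat_lit 140) (nat_lit 0) (cs (rf (nat_lit 20)) (nd (nat_lit 141) (nat_lit 0) (cs (lf (nat_lit 12) (nat_lit 137)) (rf (nat_lit 21)))))) (nd (nat_lit 137) (nat_lit 0) (cs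 (rf (nat_lit 22)) (cs (rf (nat_lit 23)) (nd (nat_lit 140) (nat_lit 0) (cs (rf (nat_lit 24)) (cs (rf (nat_lit 20)) (rf (nat_lit 25)))))))))))) (rf (nat_lit 26)))))))))) q40193 (by decide +kernel)
def q40220 : Q := Q.p (nat_lit 0x40000060000000000000000000000000000000000000000) (nat_lit 0xc0000300001c0002f80019c000ff80001c0000700001c00005000000000000) (nat_lit 12)
theorem c40220 : QOK q40220 := cut [q38174, q38217, q38221, q40192] ⟨c38174, c38217, c38221, c40192, trivial⟩ (nd (nat_lit 160) (nat_lit 0) (cs (rf (nat_lit 0)) (cs (rf (nat_lit 1)) (cs (rf (nat_lit 2)) (rf (nat_lit 3)))))) q40220 (by decide +kernel)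
def q40376 : Q := Q.p (nat_lit 0x100000400000c0000000000000000000000000000000000000000) (nat_lit 0x3e0000f0001be00011c001fe001ff8007fc0007e0001c0000000000000) (nat_lit 15)
theorem c40376 : QOK q40376 := cut [q32544, q32576, q32511, q40295, q10277, q32527, q32523, q40307, q6817, q32628, q40330, q40375] ⟨c32544, c32576, c32511, c40295, c10277, c32527, c32523, c40307, c6817, c32628, c40330, c40375, trivial⟩ (nd (nat_lit 141) (nat_lit 0) (cs (rf (nat_lit 0)) (cs (rf (nat_lit 1)) (cs (nd (nat_lit 142) (nat_lit 0) (cs (rf (nat_lit 2)) (cs (nd (nat_lit 143) (nat_lit 0) (cs (lf (nat_lit 6) (nat_lit 140)) (nd (nat_lit 164) (nat_lit 0) (cs (lf (nat_lit 35) (nat_lit 120)) (nd (nat_lit 207) (nat_lit 0) (cs (lf (nat_lit 41) (nat_lit 141)) (rf (nat_lit 3)))))))) (cs (nd (nat_lit 207) (nat_lit 0) (cs (nd (nat_lit 185) (nat_lit 0) (cs (lf (nat_lit 35) (nat_lit 119)) (rf (nat_lit 4)))) (cs (rf (nat_lit 3)) (nd (nat_lit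 206) (nat_lit 0) (cs (rf (nat_lit 5)) (nd (nat_lit 229) (nat_lit 0) (cs (lf (nat_lit 37) (nat_lit 141)) (nd (nat_lit 184) (nat_lit 0) (cs (lf (nat_lit 30) (nat_lit 140)) (lf (nat_lit 24) (nat_lit 140))))))))))) (cs (nd (nat_lit 140) (nat_lit 0) (cs (rf (nat_lit 6)) (cs (rf (nat_lit 7)) (cs (nd (nat_lit 206) (nat_lit 0) (cs (nd (nat_lit 184) (nat_lit 0) (cs (lf (nat_lit 30) (nat_lit 140)) (nd (nat_lit 205) (nat_lit 0) (cs (lf (nat_lit 41) (nat_lit 139)) (nd (nat_lit 118) (nat_lit 0) (cs (lf (nat_lit 40) (nat_lit 117)) (nd (nat_lit 185) (nat_lit 0) (cs (lf (nat_lit 6) (nat_lit 183)) (lf (nat_lit 24) (nat_lit 96)))))))))) (cs (nd (nat_lit 143) (nat_lit 0) (cs (lf (nat_lit 6) (nat_lit 140)) (nd (nat_lit 121) (nat_lit 0) (cs (lf (nat_lit 17) (nat_lit 118)) (nd (nat_lit 120) (nat_lit 0) (cs (lf (nat_lit 12) (nat_lit 117)) (nd (nat_lit 76) (nat_lit 0) (cs (lf (nat_lit 37) (nat_lit 75)) (nd (nat_lit 207) (nat_lit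 0) (cs (rf (nat_lit 8)) (lf (nat_lit 31) (nat_lit 119)))))))))))) (cs (nd (nat_lit 143) (nat_lit 0) (cs (lf (nat_lit 6) (nat_lit 140)) (nd (nat_lit 121) (nat_lit 0) (cs (lf (nat_lit 17) (nat_lit 118)) (nd (nat_lit 120) (nat_lit 0) (cs (lf (nat_lit 12) (nat_lit 117)) (nd (nat_lit 76) (nat_lit 0) (cs (lf (nat_lit 37) (nat_lit 75)) (nd (nat_lit 207) (nat_lit 0) (cs (lf (nat_lit 31) (nat_lit 119)) (nd (nat_lit 184) (nat_lit 0) (cs (lf (nat_lit 29) (nat_lit 140)) (lf (nat_lit 30) (nat_lit 140)))))))))))))) (nd (nat_lit 143) (nat_lit 0) (cs (lf (nat_lit 6) (nat_lit 140)) (nd (nat_lit 121) (nat_lit 0) (cs (lf (nat_lit 17) (nat_lit 118)) (nd (nat_lit 120) (nat_lit 0) (cs (lf (nat_lit 12) (nat_lit 117)) (nd (nat_lit 76) (nat_lit 0) (cs (lf (nat_lit 37) (nat_lit 75)) (nd (nat_lit 184) (nat_lit 0) (cs (lf (nat_lit 30) (nat_lit 140)) (rf (nat_lit 9)))))))))))))))) (nd (nat_lit 143) (nat_lit 0) (cs (lf (nat_lit 6) (nat_lit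 140)) (nd (nat_lit 121) (nat_lit 0) (cs (lf (nat_lit 17) (nat_lit 118)) (rf (nat_lit 10)))))))))) (nd (nat_lit 143) (nat_lit 0) (cs (lf (nat_lit 6) (nat_lit 140)) (nd (nat_lit 121) (nat_lit 0) (cs (lf (nat_lit 32) (nat_lit 120)) (nd (nat_lit 140) (nat_lit 0) (cs (lf (nat_lit 17) (nat_lit 118)) (rf (nat_lit 10))))))))))))) (rf (nat_lit 11)))))) q40376 (by decide +kernel)
def q40544 : Q := Q.p (nat_lit 0x3c00000000000000000000000000000000000000000000000000000000000000) (nat_lit 0xf80003e0001f8000000001b8000060000380000e0000200000000000000000000000000000000000) (nat_lit 11)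
theorem c40544 : QOK q40544 := cut [q40527, q40536, q40537, q40539] ⟨c40527, c40536, c40537, c40539, trivial⟩ (nd (nat_lit 228) (nat_lit 0) (cs (lf (nat_lit 23) (nat_lit 227)) (nd (nat_lit 295) (nat_lit 0) (cs (rf (nat_lit 0)) (cs (rf (nat_lit 1)) (cs (rf (nat_lit 2)) (nd (nat_lit 275) (nat_lit 0) (cs (lf (nat_lit 5) (nat_lit 250)) (nd (nat_lit 231) (nat_lit 0) (cs (lf (nat_lit 17) (nat_lit 228)) (nd (nat_lit 272) (nat_lit 0) (cs (lf (nat_lit 11) (nat_lit 249)) (rf (nat_lit 3)))))))))))))) q40544 (by decide +kernel)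
def q40692 : Q := Q.p (nat_lit 0x3800000000010000040000000000000000000000000000000000000000000000) (nat_lit 0x7e0001fe0007f80007f000078001bf000cf8003bf000ef0000b80002e00000000000000000000000000000) (nat_lit 16)
theorem c40692 : QOK q40692 := cut [q3173, q5510, q527, q6817, q40593, q3392, q40595, q40601, q1835, q7086, q39169, q20676, q40628, q40666, q2065, q40673, q40683, q7872] ⟨c3173, c5510, c527, c6817, c40593, c3392, c40595, c40601, c1835, c7086, c39169, c20676, c40628, c40666, c2065, c40673, c40683, c7872, trivial⟩ (nd (nat_lit 207) (nat_lit 0) (cs (rf (nat_lit 0)) (cs (nd (nat_lit 229) (nat_lit 0) (cs (lf (nat_lit 30) (nat_lit 185)) (nd (nat_lit 185) (nat_lit 0) (cs (lf (nat_lit 29) (nat_lit 185)) (rf (nat_lit 1)))))) (cs (nd (nat_lit 206) (nat_lit 0) (cs (rf (nat_lit 2)) (cs (rf (nat_lit 3)) (nd (nat_lit 250) (nat_lit 0) (cs (rf (nat_lit 4)) (cs (nd (nat_lit 228) (nat_lit 0) (cs (lf (nat_lit 23) (nat_lit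 227)) (rf (nat_lit 5)))) (cs (nd (nat_lit 228) (nat_lit 0) (cs (lf (nat_lit 23) (nat_lit 227)) (nd (nat_lit 231) (nat_lit 0) (cs (lf (nat_lit 17) (nat_lit 228)) (nd (nat_lit 184) (nat_lit 0) (cs (lf (nat_lit 29) (nat_lit 184)) (rf (nat_lit 6)))))))) (rf (nat_lit 7))))))))) (cs (nd (nat_lit 185) (nat_lit 0) (cs (nd (nat_lit 229) (nat_lit 0) (cs (lf (nat_lit 29) (nat_lit 185)) (rf (nat_lit 8)))) (cs (nd (nat_lit 229) (nat_lit 0) (cs (lf (nat_lit 29) (nat_lit 185)) (rf (nat_lit 1)))) (cs (nd (nat_lit 187) (nat_lit 0) (cs (rf (nat_lit 9)) (cs (nd (nat_lit 188) (nat_lit 0) (cs (lf (nat_lit 6) (nat_lit 185)) (rf (nat_lit 10)))) (nd (nat_lit 184) (nat_lit 0) (cs (rf (nat_lit 11)) (cs (nd (nat_lit 206) (nat_lit 0) (cs (lf (nat_lit 11) (nat_lit 183)) (nd (nat_lit 165) (nat_lit 0) (cs (lf (nat_lit 17) (nat_lit 162)) (nd (nat_lit 121) (nat_lit 0) (cs (lf (nat_lit 37) (nat_lit 120)) (nd (nat_lit 162) (nat_lit 0) (cs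 (lf (nat_lit 23) (nat_lit 161)) (nd (nat_lit 140) (nat_lit 0) (cs (lf (nat_lit 24) (nat_lit 118)) (nd (nat_lit 117) (nat_lit 0) (cs (lf (nat_lit 46) (nat_lit 117)) (nd (nat_lit 141) (nat_lit 0) (cs (lf (nat_lit 35) (nat_lit 118)) (nd (nat_lit 228) (nat_lit 0) (cs (lf (nat_lit 37) (nat_lit 140)) (nd (nat_lit 227) (nat_lit 0) (cs (lf (nat_lit 41) (nat_lit 161)) (lf (nat_lit 21) (nat_lit 227)))))))))))))))))))) (nd (nat_lit 161) (nat_lit 0) (cs (lf (nat_lit 22) (nat_lit 161)) (nd (nat_lit 183) (nat_lit 0) (cs (lf (nat_lit 0) (nat_lit 182)) (lf (nat_lit 23) (nat_lit 160)))))))))))) (nd (nat_lit 229) (nat_lit 0) (cs (lf (nat_lit 29) (nat_lit 185)) (rf (nat_lit 12)))))))) (cs (rf (nat_lit 13)) (cs (nd (nat_lit 229) (nat_lit 0) (cs (lf (nat_lit 30) (nat_lit 185)) (nd (nat_lit 185) (nat_lit 0) (cs (lf (nat_lit 29) (nat_lit 185)) (rf (nat_lit 12)))))) (nd (nat_lit 250) (nat_lit 0) (cs (rf (nat_lit 14)) (cs (nd (nat_lit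 229) (nat_lit 0) (cs (lf (nat_lit 30) (nat_lit 185)) (nd (nat_lit 231) (nat_lit 0) (cs (lf (nat_lit 17) (nat_lit 228)) (nd (nat_lit 227) (nat_lit 0) (cs (lf (nat_lit 22) (nat_lit 227)) (nd (nat_lit 249) (nat_lit 0) (cs (lf (nat_lit 23) (nat_lit 226)) (nd (nat_lit 270) (nat_lit 0) (cs (lf (nat_lit 10) (nat_lit 248)) (nd (nat_lit 248) (nat_lit 0) (cs (lf (nat_lit 11) (nat_lit 247)) (nd (nat_lit 292) (nat_lit 0) (cs (lf (nat_lit 30) (nat_lit 226)) (nd (nat_lit 205) (nat_lit 0) (cs (lf (nat_lit 36) (nat_lit 182)) (nd (nat_lit 206) (nat_lit 0) (cs (lf (nat_lit 17) (nat_lit 183)) (rf (nat_lit 15)))))))))))))))))))) (cs (nd (nat_lit 227) (nat_lit 0) (cs (lf (nat_lit 22) (nat_lit 227)) (nd (nat_lit 226) (nat_lit 0) (cs (lf (nat_lit 21) (nat_lit 226)) (nd (nat_lit 205) (nat_lit 0) (cs (lf (nat_lit 8) (nat_lit 204)) (nd (nat_lit 231) (nat_lit 0) (cs (lf (nat_lit 17) (nat_lit 228)) (nd (nat_lit 229) (nat_lit 0) (cs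 (lf (nat_lit 30) (nat_lit 185)) (nd (nat_lit 185) (nat_lit 0) (cs (lf (nat_lit 41) (nat_lit 184)) (rf (nat_lit 16)))))))))))))) (nd (nat_lit 229) (nat_lit 0) (cs (lf (nat_lit 30) (nat_lit 185)) (rf (nat_lit 17))))))))))))))) q40692 (by decide +kernel)
def q41221 : Q := Q.p (nat_lit 0x400000800010000040000000000000000000000000000000000000000000000) (nat_lit 0x780007e0000fc0003f00003c000370000fc000bf0000fc0003f0000540000000000000000000000000000) (nat_lit 15)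
theorem c41221 : QOK q41221 := cut [q41106, q41173, q3436, q41031, q41109, q41174, q41028, q3435, q41179, q40965, q40981, q40987, q40988, q40989, q41025, q41171, q41172, q40986, q41190, q40983, q41198, q26953, q26947, q41211] ⟨c41106, c41173, c3436, c41031, c41109, c41174, c41028, c3435, c41179, c40965, c40981, c40987, c40988, c40989, c41025, c41171, c41172, c40986, c41190, c40983, c41198, c26953, c26947, c41211, trivial⟩ (nd (nat_lit 205) (nat_lit 0) (cs (rf (nat_lit 0)) (cs (rf (nat_lit 1)) (cs (nd (nat_lit 183) (nat_lit 0) (cs (rf (nat_lit 2)) (cs (rf (nat_lit 3)) (cs (nd (nat_lit 249) (nat_lit 0) (cs (lf (nat_lit 29) (nat_lit 183)) (nd (nat_lit 248) (nat_lit 0) (cs (lf (nat_lit 41) (nat_lit 182)) (rf (nat_lit 4)))))) (nd (nat_lit 249) (nat_lit 0) (cs (lf (nat_lit 29) (nat_lit 183)) (nd (nat_lit 248) (nat_lit 0) (cs (lf (nat_lit 41) (nat_lit 182)) (rf (nat_lit 5)))))))))) (cs (nd (nat_lit 183) (nat_lit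 0) (cs (rf (nat_lit 6)) (cs (rf (nat_lit 3)) (cs (nd (nat_lit 161) (nat_lit 0) (cs (lf (nat_lit 28) (nat_lit 161)) (nd (nat_lit 226) (nat_lit 0) (cs (lf (nat_lit 41) (nat_lit 160)) (nd (nat_lit 206) (nat_lit 0) (cs (lf (nat_lit 7) (nat_lit 204)) (nd (nat_lit 224) (nat_lit 0) (cs (rf (nat_lit 7)) (lf (nat_lit 13) (nat_lit 202)))))))))) (nd (nat_lit 249) (nat_lit 0) (cs (lf (nat_lit 29) (nat_lit 183)) (nd (nat_lit 248) (nat_lit 0) (cs (lf (nat_lit 41) (nat_lit 182)) (nd (nat_lit 160) (nat_lit 0) (cs (lf (nat_lit 46) (nat_lit 160)) (rf (nat_lit 8)))))))))))) (cs (nd (nat_lit 249) (nat_lit 0) (cs (rf (nat_lit 9)) (cs (rf (nat_lit 10)) (cs (rf (nat_lit 11)) (cs (rf (nat_lit 12)) (rf (nat_lit 13))))))) (cs (nd (nat_lit 183) (nat_lit 0) (cs (rf (nat_lit 2)) (cs (rf (nat_lit 14)) (cs (rf (nat_lit 15)) (cs (rf (nat_lit 16)) (nd (nat_lit 249) (nat_lit 0) (cs (rf (nat_lit 17)) (cs (rf (nat_lit 4)) (cs (rf (nat_lit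 8)) (rf (nat_lit 18))))))))))) (cs (nd (nat_lit 183) (nat_lit 0) (cs (rf (nat_lit 6)) (cs (rf (nat_lit 3)) (cs (rf (nat_lit 16)) (cs (nd (nat_lit 249) (nat_lit 0) (cs (lf (nat_lit 29) (nat_lit 183)) (rf (nat_lit 18)))) (nd (nat_lit 249) (nat_lit 0) (cs (lf (nat_lit 29) (nat_lit 183)) (rf (nat_lit 19))))))))) (cs (nd (nat_lit 183) (nat_lit 0) (cs (rf (nat_lit 14)) (cs (rf (nat_lit 6)) (cs (nd (nat_lit 249) (nat_lit 0) (cs (lf (nat_lit 29) (nat_lit 183)) (nd (nat_lit 248) (nat_lit 0) (cs (lf (nat_lit 41) (nat_lit 182)) (rf (nat_lit 17)))))) (rf (nat_lit 20)))))) (cs (nd (nat_lit 183) (nat_lit 0) (cs (rf (nat_lit 2)) (cs (rf (nat_lit 3)) (cs (rf (nat_lit 20)) (cs (nd (nat_lit 249) (nat_lit 0) (cs (lf (nat_lit 29) (nat_lit 183)) (nd (nat_lit 162) (nat_lit 0) (cs (lf (nat_lit 34) (nat_lit 161)) (nd (nat_lit 182) (nat_lit 0) (cs (lf (nat_lit 47) (nat_lit 160)) (nd (nat_lit 206) (nat_lit 0) (cs (lf (nat_lit 19)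 (nat_lit 182)) (nd (nat_lit 180) (nat_lit 0) (cs (lf (nat_lit 1) (nat_lit 180)) (nd (nat_lit 271) (nat_lit 0) (cs (lf (nat_lit 46) (nat_lit 182)) (rf (nat_lit 21)))))))))))))) (nd (nat_lit 249) (nat_lit 0) (cs (lf (nat_lit 29) (nat_lit 183)) (rf (nat_lit 22))))))))) (nd (nat_lit 183) (nat_lit 0) (cs (rf (nat_lit 14)) (cs (rf (nat_lit 3)) (cs (rf (nat_lit 15)) (nd (nat_lit 249) (nat_lit 0) (cs (lf (nat_lit 29) (nat_lit 183)) (nd (nat_lit 162) (nat_lit 0) (cs (lf (nat_lit 34) (nat_lit 161)) (nd (nat_lit 182) (nat_lit 0) (cs (lf (nat_lit 47) (nat_lit 160)) (nd (nat_lit 206) (nat_lit 0) (cs (lf (nat_lit 19) (nat_lit 182)) (nd (nat_lit 180) (nat_lit 0) (cs (lf (nat_lit 1) (nat_lit 180)) (nd (nat_lit 271) (nat_lit 0) (cs (lf (nat_lit 46) (nat_lit 182)) (nd (nat_lit 293) (nat_lit 0) (cs (lf (nat_lit 34) (nat_lit 205)) (nd (nat_lit 316) (nat_lit 0) (cs (lf (nat_lit 28) (nat_lit 227)) (rf (nat_lit 23))))))))))))))))))))))))))))))))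 q41221 (by decide +kernel)
def q41718 : Q := Q.p (nat_lit 0x3400000000010000040000000000000000000000000000000000000000000000) (nat_lit 0x700001c4001f10001ef0000b8001bf8000fc003bf800efc001ff0003fc0000500000000000000000000000) (nat_lit 16)
theorem c41718 : QOK q41718 := cut [q40524, q41463, q41563, q40673, q34520, q34521, q41653, q40979, q26834, q18354, q41597, q41602, q26974, q41707, q2074] ⟨c40524, c41463, c41563, c40673, c34520, c34521, c41653, c40979, c26834, c18354, c41597, c41602, c26974, c41707, c2074, trivial⟩ (nd (nat_lit 251) (nat_lit 0) (cs (rf (nat_lit 0)) (cs (rf (nat_lit 1)) (cs (rf (nat_lit 2)) (nd (nat_lit 206) (nat_lit 0) (cs (nd (nat_lit 227) (nat_lit 0) (cs (lf (nat_lit 22) (nat_lit 227)) (nd (nat_lit 275) (nat_lit 0) (cs (lf (nat_lit 5) (nat_lit 250)) (nd (nat_lit 231) (nat_lit 0) (cs (lf (nat_lit 17) (nat_lit 228)) (nd (nat_lit 249) (nat_lit 0) (cs (lf (nat_lit 23) (nat_lit 226)) (nd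 (nat_lit 270) (nat_lit 0) (cs (lf (nat_lit 10) (nat_lit 248)) (nd (nat_lit 248) (nat_lit 0) (cs (lf (nat_lit 11) (nat_lit 247)) (nd (nat_lit 292) (nat_lit 0) (cs (lf (nat_lit 30) (nat_lit 226)) (nd (nat_lit 205) (nat_lit 0) (cs (lf (nat_lit 36) (nat_lit 182)) (nd (nat_lit 207) (nat_lit 0) (cs (lf (nat_lit 17) (nat_lit 183)) (rf (nat_lit 3)))))))))))))))))))) (cs (nd (nat_lit 205) (nat_lit 0) (cs (rf (nat_lit 4)) (cs (nd (nat_lit 275) (nat_lit 0) (cs (lf (nat_lit 5) (nat_lit 250)) (rf (nat_lit 5)))) (cs (rf (nat_lit 6)) (cs (nd (nat_lit 227) (nat_lit 0) (cs (rf (nat_lit 7)) (cs (nd (nat_lit 231) (nat_lit 0) (cs (lf (nat_lit 17) (nat_lit 228)) (nd (nat_lit 187) (nat_lit 0) (cs (lf (nat_lit 14) (nat_lit 183)) (nd (nat_lit 184) (nat_lit 0) (cs (lf (nat_lit 8) (nat_lit 183)) (rf (nat_lit 8)))))))) (nd (nat_lit 249) (nat_lit 0) (cs (lf (nat_lit 23) (nat_lit 226)) (nd (nat_lit 271) (nat_lit 0) (cs (lf (nat_lit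 11) (nat_lit 248)) (lf (nat_lit 35) (nat_lit 183))))))))) (cs (nd (nat_lit 207) (nat_lit 0) (cs (lf (nat_lit 17) (nat_lit 183)) (nd (nat_lit 231) (nat_lit 0) (cs (lf (nat_lit 17) (nat_lit 228)) (rf (nat_lit 9)))))) (nd (nat_lit 249) (nat_lit 0) (cs (rf (nat_lit 10)) (cs (rf (nat_lit 11)) (cs (nd (nat_lit 231) (nat_lit 0) (cs (lf (nat_lit 17) (nat_lit 228)) (nd (nat_lit 275) (nat_lit 0) (cs (lf (nat_lit 5) (nat_lit 250)) (nd (nat_lit 271) (nat_lit 0) (cs (lf (nat_lit 11) (nat_lit 248)) (nd (nat_lit 227) (nat_lit 0) (cs (lf (nat_lit 35) (nat_lit 183)) (nd (nat_lit 182) (nat_lit 0) (cs (lf (nat_lit 46) (nat_lit 182)) (nd (nat_lit 183) (nat_lit 0) (cs (lf (nat_lit 47) (nat_lit 160)) (lf (nat_lit 19) (nat_lit 182)))))))))))))) (nd (nat_lit 226) (nat_lit 0) (cs (lf (nat_lit 22) (nat_lit 226)) (nd (nat_lit 225) (nat_lit 0) (cs (lf (nat_lit 21) (nat_lit 225)) (nd (nat_lit 204) (nat_lit 0) (cs (rf (nat_lit 12))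 (lf (nat_lit 6) (nat_lit 203)))))))))))))))))) (cs (rf (nat_lit 13)) (cs (nd (nat_lit 227) (nat_lit 0) (cs (lf (nat_lit 22) (nat_lit 227)) (nd (nat_lit 275) (nat_lit 0) (cs (lf (nat_lit 5) (nat_lit 250)) (nd (nat_lit 249) (nat_lit 0) (cs (lf (nat_lit 23) (nat_lit 226)) (nd (nat_lit 271) (nat_lit 0) (cs (lf (nat_lit 11) (nat_lit 248)) (nd (nat_lit 205) (nat_lit 0) (cs (lf (nat_lit 35) (nat_lit 183)) (nd (nat_lit 182) (nat_lit 0) (cs (lf (nat_lit 46) (nat_lit 182)) (nd (nat_lit 207) (nat_lit 0) (cs (lf (nat_lit 22) (nat_lit 182)) (lf (nat_lit 17) (nat_lit 183)))))))))))))))) (nd (nat_lit 228) (nat_lit 0) (cs (lf (nat_lit 23) (nat_lit 227)) (nd (nat_lit 231) (nat_lit 0) (cs (lf (nat_lit 17) (nat_lit 228)) (rf (nat_lit 14))))))))))))))) q41718 (by decide +kernel)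
def q41840 : Q := Q.p (nat_lit 0x50000000000000003c00000000010000040000000000000000000000000000000000000000000000) (nat_lit 0x100001ff8003ac001ef8001a0000000001a000008000000000000000000000000000000000000000000000000000) (nat_lit 11)
theorem c41840 : QOK q41840 := cut [q41774, q41725, q41761, q41824, q41825] ⟨c41774, c41725, c41761, c41824, c41825, trivial⟩ (nd (nat_lit 319) (nat_lit 0) (cs (rf (nat_lit 0)) (cs (nd (nat_lit 231) (nat_lit 0) (cs (lf (nat_lit 17) (nat_lit 228)) (nd (nat_lit 275) (nat_lit 0) (cs (lf (nat_lit 5) (nat_lit 250)) (rf (nat_lit 1)))))) (cs (nd (nat_lit 317) (nat_lit 0) (cs (rf (nat_lit 2)) (cs (rf (nat_lit 3)) (nd (nat_lit 275) (nat_lit 0) (cs (lf (nat_lit 5) (nat_lit 250)) (rf (nat_lit 4))))))) (cs (nd (nat_lit 275) (nat_lit 0) (cs (lf (nat_lit 5) (nat_lit 250)) (nd (nat_lit 297) (nat_lit 0) (cs (lf (nat_lit 41) (nat_lit 252)) (nd (nat_lit 317) (nat_lit 0) (cs (lf (nat_lit 17) (nat_lit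 294)) (rf (nat_lit 4)))))))) (cs (nd (nat_lit 231) (nat_lit 0) (cs (lf (nat_lit 17) (nat_lit 228)) (nd (nat_lit 275) (nat_lit 0) (cs (lf (nat_lit 5) (nat_lit 250)) (nd (nat_lit 297) (nat_lit 0) (cs (lf (nat_lit 41) (nat_lit 252)) (nd (nat_lit 342) (nat_lit 0) (cs (lf (nat_lit 28) (nat_lit 253)) (nd (nat_lit 341) (nat_lit 0) (cs (lf (nat_lit 29) (nat_lit 275)) (lf (nat_lit 1) (nat_lit 316)))))))))))) (nd (nat_lit 231) (nat_lit 0) (cs (lf (nat_lit 17) (nat_lit 228)) (nd (nat_lit 275) (nat_lit 0) (cs (lf (nat_lit 5) (nat_lit 250)) (nd (nat_lit 297) (nat_lit 0) (cs (lf (nat_lit 41) (nat_lit 252)) (nd (nat_lit 298) (nat_lit 0) (cs (lf (nat_lit 29) (nat_lit 231)) (lf (nat_lit 13) (nat_lit 294)))))))))))))))) q41840 (by decide +kernel)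
def q42167 : Q := Q.p (nat_lit 0x40000000000000003400000000000000000000000000000000000000000000000000000000000000) (nat_lit 0x220000fc0007f0001ff801fbe007ff001ffe00183c0068c00180000000000000000000000000000000000000000000000000000) (nat_lit 15)
theorem c42167 : QOK q42167 := cut [q41899, q15852, q15854, q41824, q41909, q41913, q15931, q12719, q41937, q41940, q41949, q42090, q42099, q42160, q42163, q42166] ⟨c41899, c15852, c15854, c41824, c41909, c41913, c15931, c12719, c41937, c41940, c41949, c42090, c42099, c42160, c42163, c42166, trivial⟩ (nd (nat_lit 296) (nat_lit 0) (cs (nd (nat_lit 317) (nat_lit 0) (cs (rf (nat_lit 0)) (cs (nd (nat_lit 316) (nat_lit 0) (cs (rf (nat_lit 1)) (cs (rf (nat_lit 2)) (cs (nd (nat_lit 319) (nat_lit 0) (cs (rf (nat_lit 3)) (cs (nd (nat_lit 297) (nat_lit 0) (cs (lf (nat_lit 17) (nat_lit 294)) (nd (nat_lit 341) (nat_lit 0) (cs (lf (nat_lit 5) (nat_lit 316)) (nd (nat_lit 294) (nat_lit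 0) (cs (lf (nat_lit 23) (nat_lit 293)) (nd (nat_lit 337) (nat_lit 0) (cs (lf (nat_lit 10) (nat_lit 315)) (nd (nat_lit 275) (nat_lit 0) (cs (lf (nat_lit 36) (nat_lit 230)) (nd (nat_lit 295) (nat_lit 0) (cs (lf (nat_lit 17) (nat_lit 272)) (nd (nat_lit 272) (nat_lit 0) (cs (lf (nat_lit 23) (nat_lit 271)) (lf (nat_lit 29) (nat_lit 250)))))))))))))))) (cs (nd (nat_lit 297) (nat_lit 0) (cs (lf (nat_lit 17) (nat_lit 294)) (nd (nat_lit 231) (nat_lit 0) (cs (rf (nat_lit 4)) (lf (nat_lit 38) (nat_lit 230)))))) (cs (nd (nat_lit 341) (nat_lit 0) (cs (lf (nat_lit 5) (nat_lit 316)) (nd (nat_lit 363) (nat_lit 0) (cs (lf (nat_lit 42) (nat_lit 296)) (nd (nat_lit 293) (nat_lit 0) (cs (lf (nat_lit 22) (nat_lit 293)) (rf (nat_lit 5)))))))) (cs (nd (nat_lit 337) (nat_lit 0) (cs (lf (nat_lit 10) (nat_lit 315)) (nd (nat_lit 341) (nat_lit 0) (cs (lf (nat_lit 5) (nat_lit 316)) (nd (nat_lit 363) (nat_lit 0) (cs (lf (nat_lit 42)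 (nat_lit 296)) (nd (nat_lit 294) (nat_lit 0) (cs (lf (nat_lit 23) (nat_lit 293)) (nd (nat_lit 295) (nat_lit 0) (cs (lf (nat_lit 18) (nat_lit 294)) (nd (nat_lit 272) (nat_lit 0) (cs (lf (nat_lit 29) (nat_lit 250)) (rf (nat_lit 6)))))))))))))) (nd (nat_lit 293) (nat_lit 0) (cs (lf (nat_lit 22) (nat_lit 293)) (nd (nat_lit 337) (nat_lit 0) (cs (lf (nat_lit 10) (nat_lit 315)) (nd (nat_lit 297) (nat_lit 0) (cs (lf (nat_lit 17) (nat_lit 294)) (nd (nat_lit 275) (nat_lit 0) (cs (rf (nat_lit 7)) (lf (nat_lit 36) (nat_lit 230)))))))))))))))) (rf (nat_lit 8)))))) (cs (rf (nat_lit 9)) (rf (nat_lit 10)))))) (cs (rf (nat_lit 11)) (cs (rf (nat_lit 12)) (cs (rf (nat_lit 13)) (cs (rf (nat_lit 14)) (rf (nat_lit 15)))))))) q42167 (by decide +kernel)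
def q42370 : Q := Q.p (nat_lit 0x10000040000000000000003400000000000000000000000000000000000000000000000000000000000000) (nat_lit 0x1a0001fe0007f8003ee0007b8003fe0007bc0008b0001ae00000000000000000000000000000000000000000000000000000000) (nat_lit 14)
theorem c42370 : QOK q42370 := cut [q42232, q42240, q42247, q42246, q42202, q42205, q42215, q42261, q42288, q42320, q42354, q42363, q42369] ⟨c42232, c42240, c42247, c42246, c42202, c42205, c42215, c42261, c42288, c42320, c42354, c42363, c42369, trivial⟩ (nd (nat_lit 319) (nat_lit 0) (cs (nd (nat_lit 297) (nat_lit 0) (cs (lf (nat_lit 37) (nat_lit 252)) (nd (nat_lit 362) (nat_lit 0) (cs (lf (nat_lit 30) (nat_lit 296)) (nd (nat_lit 316) (nat_lit 0) (cs (nd (nat_lit 363) (nat_lit 0) (cs (rf (nat_lit 0)) (cs (rf (nat_lit 1)) (nd (nat_lit 296) (nat_lit 0) (cs (lf (nat_lit 29) (nat_lit 296)) (nd (nat_lit 295) (nat_lit 0) (cs (lf (nat_lit 47) (nat_lit 273)) (nd (nat_lit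 294) (nat_lit 0) (cs (lf (nat_lit 11) (nat_lit 293)) (lf (nat_lit 0) (nat_lit 293))))))))))) (cs (nd (nat_lit 317) (nat_lit 0) (cs (lf (nat_lit 17) (nat_lit 294)) (nd (nat_lit 341) (nat_lit 0) (cs (lf (nat_lit 5) (nat_lit 316)) (nd (nat_lit 337) (nat_lit 0) (cs (lf (nat_lit 10) (nat_lit 315)) (rf (nat_lit 2)))))))) (cs (nd (nat_lit 317) (nat_lit 0) (cs (lf (nat_lit 17) (nat_lit 294)) (nd (nat_lit 315) (nat_lit 0) (cs (lf (nat_lit 16) (nat_lit 293)) (lf (nat_lit 5) (nat_lit 315)))))) (nd (nat_lit 317) (nat_lit 0) (cs (lf (nat_lit 17) (nat_lit 294)) (nd (nat_lit 296) (nat_lit 0) (cs (lf (nat_lit 12) (nat_lit 293)) (nd (nat_lit 273) (nat_lit 0) (cs (lf (nat_lit 46) (nat_lit 273)) (nd (nat_lit 294) (nat_lit 0) (cs (lf (nat_lit 23) (nat_lit 293)) (nd (nat_lit 361) (nat_lit 0) (cs (lf (nat_lit 41) (nat_lit 295)) (rf (nat_lit 3)))))))))))))))))))) (cs (nd (nat_lit 320) (nat_lit 0) (cs (rf (nat_lit 4)) (cs (nd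 (nat_lit 275) (nat_lit 0) (cs (lf (nat_lit 38) (nat_lit 252)) (nd (nat_lit 276) (nat_lit 0) (cs (lf (nat_lit 1) (nat_lit 250)) (nd (nat_lit 277) (nat_lit 0) (cs (lf (nat_lit 18) (nat_lit 252)) (nd (nat_lit 298) (nat_lit 0) (cs (lf (nat_lit 42) (nat_lit 253)) (nd (nat_lit 317) (nat_lit 0) (cs (lf (nat_lit 17) (nat_lit 295)) (rf (nat_lit 5)))))))))))) (cs (rf (nat_lit 6)) (cs (nd (nat_lit 275) (nat_lit 0) (cs (lf (nat_lit 38) (nat_lit 252)) (nd (nat_lit 251) (nat_lit 0) (cs (lf (nat_lit 5) (nat_lit 250)) (nd (nat_lit 271) (nat_lit 0) (cs (lf (nat_lit 10) (nat_lit 249)) (nd (nat_lit 249) (nat_lit 0) (cs (lf (nat_lit 11) (nat_lit 248)) (nd (nat_lit 226) (nat_lit 0) (cs (lf (nat_lit 22) (nat_lit 226)) (nd (nat_lit 225) (nat_lit 0) (cs (lf (nat_lit 21) (nat_lit 225)) (nd (nat_lit 231) (nat_lit 0) (cs (lf (nat_lit 17) (nat_lit 228)) (rf (nat_lit 7)))))))))))))))) (nd (nat_lit 275) (nat_lit 0) (cs (lf (nat_lit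 38) (nat_lit 252)) (nd (nat_lit 251) (nat_lit 0) (cs (lf (nat_lit 5) (nat_lit 250)) (nd (nat_lit 271) (nat_lit 0) (cs (lf (nat_lit 10) (nat_lit 249)) (nd (nat_lit 249) (nat_lit 0) (cs (lf (nat_lit 11) (nat_lit 248)) (nd (nat_lit 226) (nat_lit 0) (cs (lf (nat_lit 22) (nat_lit 226)) (nd (nat_lit 225) (nat_lit 0) (cs (lf (nat_lit 21) (nat_lit 225)) (nd (nat_lit 231) (nat_lit 0) (cs (lf (nat_lit 17) (nat_lit 228)) (nd (nat_lit 321) (nat_lit 0) (cs (lf (nat_lit 11) (nat_lit 317)) (nd (nat_lit 295) (nat_lit 0) (cs (lf (nat_lit 22) (nat_lit 295)) (nd (nat_lit 317) (nat_lit 0) (cs (lf (nat_lit 23) (nat_lit 294)) (lf (nat_lit 25) (nat_lit 251))))))))))))))))))))))))))) (cs (rf (nat_lit 8)) (cs (rf (nat_lit 9)) (cs (rf (nat_lit 10)) (cs (rf (nat_lit 11)) (rf (nat_lit 12))))))))) q42370 (by decide +kernel)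
def q42654 : Q := Q.p (nat_lit 0x4000010000040000000000000003400000000000000000000000000000000000000000000000000000000000000) (nat_lit 0x20000180001f70007bc001ef80033c000de0000380000800000000000000000000000000000000000000000000000000000000000000) (nat_lit 12)
theorem c42654 : QOK q42654 := cut [q42473, q42638, q42640, q42472, q42515, q42551, q42482, q42586, q42612, q42514, q42651] ⟨c42473, c42638, c42640, c42472, c42515, c42551, c42482, c42586, c42612, c42514, c42651, trivial⟩ (nd (nat_lit 363) (nat_lit 0) (cs (rf (nat_lit 0)) (cs (rf (nat_lit 1)) (cs (nd (nat_lit 385) (nat_lit 0) (cs (lf (nat_lit 24) (nat_lit 296)) (rf (nat_lit 2)))) (nd (nat_lit 385) (nat_lit 0) (cs (rf (nat_lit 3)) (cs (rf (nat_lit 2)) (nd (nat_lit 364) (nat_lit 0) (cs (rf (nat_lit 4)) (cs (rf (nat_lit 5)) (cs (nd (nat_lit 361) (nat_lit 0) (cs (rf (nat_lit 6)) (cs (rf (nat_lit 7)) (cs (rf (nat_lit 8)) (nd (nat_lit 339) (nat_lit 0) (cs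 (rf (nat_lit 9)) (nd (nat_lit 386) (nat_lit 0) (cs (lf (nat_lit 5) (nat_lit 361)) (nd (nat_lit 342) (nat_lit 0) (cs (lf (nat_lit 17) (nat_lit 339)) (nd (nat_lit 320) (nat_lit 0) (cs (nd (nat_lit 321) (nat_lit 0) (cs (lf (nat_lit 35) (nat_lit 298)) (lf (nat_lit 14) (nat_lit 317)))) (lf (nat_lit 36) (nat_lit 297)))))))))))))) (rf (nat_lit 10))))))))))))) q42654 (by decide +kernel)
def q43008 : Q := Q.p (nat_lit 0x10000040000000000000003400000000000000000000000000000000000000000000000000000000000000) (nat_lit 0xe0000380007f0001ff0007fc003ef800798003fe0007b80008800000000000000000000000000000000000000000000000000000000000000) (nat_lit 14)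
theorem c43008 : QOK q43008 := cut [q42825, q42834, q42838, q42492, q42900, q42676, q42491, q42842, q42891, q42839, q42500, q42847, q42852, q42581, q42925, q42985, q42991, q42947, q42261, q42231, q42286] ⟨c42825, c42834, c42838, c42492, c42900, c42676, c42491, c42842, c42891, c42839, c42500, c42847, c42852, c42581, c42925, c42985, c42991, c42947, c42261, c42231, c42286, trivial⟩ (nd (nat_lit 362) (nat_lit 0) (cs (rf (nat_lit 0)) (cs (rf (nat_lit 1)) (cs (rf (nat_lit 2)) (cs (nd (nat_lit 361) (nat_lit 0) (cs (rf (nat_lit 3)) (cs (rf (nat_lit 4)) (cs (nd (nat_lit 383) (nat_lit 0) (cs (lf (nat_lit 36) (nat_lit 295)) (rf (nat_lit 5)))) (nd (nat_lit 383) (nat_lit 0) (cs (rf (nat_lit 6)) (cs (rf (nat_lit 5)) (nd (nat_lit 360) (nat_lit 0) (cs (rf (nat_lit 7)) (cs (rf (nat_lit 8)) (cs (nd (nat_lit 319) (nat_lit 0) (cs (rf (nat_lit 9)) (nd (nat_lit 363) (nat_lit 0) (cs (rf (nat_lit 10)) (cs (rf (nat_lit 11)) (cs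 (rf (nat_lit 12)) (nd (nat_lit 338) (nat_lit 0) (cs (lf (nat_lit 23) (nat_lit 337)) (nd (nat_lit 381) (nat_lit 0) (cs (lf (nat_lit 10) (nat_lit 359)) (nd (nat_lit 316) (nat_lit 0) (cs (nd (nat_lit 341) (nat_lit 0) (cs (lf (nat_lit 17) (nat_lit 338)) (nd (nat_lit 339) (nat_lit 0) (cs (lf (nat_lit 23) (nat_lit 315)) (lf (nat_lit 17) (nat_lit 316)))))) (lf (nat_lit 24) (nat_lit 294)))))))))))))) (nd (nat_lit 359) (nat_lit 0) (cs (rf (nat_lit 13)) (cs (nd (nat_lit 380) (nat_lit 0) (cs (nd (nat_lit 337) (nat_lit 0) (cs (lf (nat_lit 23) (nat_lit 336)) (nd (nat_lit 338) (nat_lit 0) (cs (lf (nat_lit 18) (nat_lit 337)) (nd (nat_lit 319) (nat_lit 0) (cs (rf (nat_lit 9)) (lf (nat_lit 14) (nat_lit 315)))))))) (lf (nat_lit 10) (nat_lit 358)))) (cs (nd (nat_lit 358) (nat_lit 0) (cs (lf (nat_lit 16) (nat_lit 336)) (lf (nat_lit 5) (nat_lit 358)))) (nd (nat_lit 336) (nat_lit 0) (cs (lf (nat_lit 22) (nat_lit 336)) (nd (nat_lit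 358) (nat_lit 0) (cs (lf (nat_lit 23) (nat_lit 335)) (lf (nat_lit 5) (nat_lit 358))))))))))))))))))))) (cs (rf (nat_lit 14)) (cs (rf (nat_lit 15)) (cs (rf (nat_lit 16)) (nd (nat_lit 319) (nat_lit 0) (cs (rf (nat_lit 9)) (cs (nd (nat_lit 385) (nat_lit 0) (cs (nd (nat_lit 384) (nat_lit 0) (cs (lf (nat_lit 29) (nat_lit 318)) (rf (nat_lit 17)))) (cs (nd (nat_lit 320) (nat_lit 0) (cs (rf (nat_lit 18)) (cs (nd (nat_lit 363) (nat_lit 0) (cs (lf (nat_lit 24) (nat_lit 296)) (nd (nat_lit 298) (nat_lit 0) (cs (nd (nat_lit 364) (nat_lit 0) (cs (rf (nat_lit 19)) (lf (nat_lit 38) (nat_lit 297)))) (lf (nat_lit 32) (nat_lit 297)))))) (nd (nat_lit 296) (nat_lit 0) (cs (lf (nat_lit 28) (nat_lit 296)) (nd (nat_lit 295) (nat_lit 0) (cs (lf (nat_lit 18) (nat_lit 295)) (lf (nat_lit 47) (nat_lit 273))))))))) (cs (nd (nat_lit 407) (nat_lit 0) (cs (lf (nat_lit 27) (nat_lit 318)) (nd (nat_lit 363) (nat_lit 0) (cs (lf (nat_lit 42)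 (nat_lit 340)) (lf (nat_lit 45) (nat_lit 318)))))) (nd (nat_lit 407) (nat_lit 0) (cs (lf (nat_lit 27) (nat_lit 318)) (nd (nat_lit 363) (nat_lit 0) (cs (lf (nat_lit 24) (nat_lit 296)) (lf (nat_lit 42) (nat_lit 340)))))))))) (nd (nat_lit 297) (nat_lit 0) (cs (lf (nat_lit 37) (nat_lit 252)) (rf (nat_lit 20))))))))))))))) q43008 (by decide +kernel)
def q43119 : Q := Q.p (nat_lit 0x100000c0000000000000002000000000000000000000000000000000000000000000000000000000000000) (nat_lit 0x280000a0001ff0007f8003ef000600000b00002800000000000000000000000000000000000000000000000000000000000000000000) (nat_lit 12)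
theorem c43119 : QOK q43119 := cut [q42825] ⟨c42825, trivial⟩ (nd (nat_lit 297) (nat_lit 0) (cs (lf (nat_lit 37) (nat_lit 252)) (nd (nat_lit 362) (nat_lit 0) (cs (lf (nat_lit 30) (nat_lit 296)) (rf (nat_lit 0)))))) q43119 (by decide +kernel)
def q43458 : Q := Q.p (nat_lit 0x10000040000000000000003400000000000000000000000000000000000000000000000000000000000000) (nat_lit 0x280000e0000380007f0001ff0007f8003ef0007b8003f600079c0000a00000c00000000000000000000000000000000000000000000000000000000) (nat_lit 14)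
theorem c43458 : QOK q43458 := cut [q42553, q42834, q42838, q42925, q42991, q42928, q42971, q42972, q42369, q42839, q42323, q42345, q42792, q42348, q43321, q43383, q43399, q42350, q43420, q43457] ⟨c42553, c42834, c42838, c42925, c42991, c42928, c42971, c42972, c42369, c42839, c42323, c42345, c42792, c42348, c43321, c43383, c43399, c42350, c43420, c43457, trivial⟩ (nd (nat_lit 362) (nat_lit 0) (cs (rf (nat_lit 0)) (cs (rf (nat_lit 1)) (cs (rf (nat_lit 2)) (cs (rf (nat_lit 3)) (cs (rf (nat_lit 4)) (cs (nd (nat_lit 385) (nat_lit 0) (cs (rf (nat_lit 5)) (cs (rf (nat_lit 6)) (cs (rf (nat_lit 7)) (nd (nat_lit 384) (nat_lit 0) (cs (lf (nat_lit 29) (nat_lit 318)) (nd (nat_lit 319) (nat_lit 0) (cs (lf (nat_lit 35) (nat_lit 296)) (nd (nat_lit 406) (nat_lit 0) (cs (lf (nat_lit 34) (nat_lit 318)) (nd (nat_lit 427) (nat_lit 0) (cs (lf (nat_lit 40) (nat_lit 339)) (nd (nat_lit 428) (nat_lit 0) (cs (lf (nat_lit 41) (nat_lit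 361)) (nd (nat_lit 339) (nat_lit 0) (cs (lf (nat_lit 47) (nat_lit 317)) (lf (nat_lit 46) (nat_lit 339)))))))))))))))))) (cs (nd (nat_lit 319) (nat_lit 0) (cs (rf (nat_lit 8)) (cs (rf (nat_lit 9)) (cs (nd (nat_lit 339) (nat_lit 0) (cs (rf (nat_lit 10)) (cs (rf (nat_lit 11)) (cs (nd (nat_lit 383) (nat_lit 0) (cs (rf (nat_lit 12)) (cs (nd (nat_lit 320) (nat_lit 0) (cs (lf (nat_lit 6) (nat_lit 317)) (nd (nat_lit 384) (nat_lit 0) (cs (lf (nat_lit 41) (nat_lit 317)) (nd (nat_lit 406) (nat_lit 0) (cs (lf (nat_lit 47) (nat_lit 317)) (lf (nat_lit 34) (nat_lit 318)))))))) (nd (nat_lit 342) (nat_lit 0) (cs (nd (nat_lit 320) (nat_lit 0) (cs (lf (nat_lit 6) (nat_lit 317)) (nd (nat_lit 317) (nat_lit 0) (cs (lf (nat_lit 5) (nat_lit 317)) (nd (nat_lit 316) (nat_lit 0) (cs (lf (nat_lit 19) (nat_lit 316)) (rf (nat_lit 13)))))))) (cs (nd (nat_lit 320) (nat_lit 0) (cs (lf (nat_lit 6) (nat_lit 317)) (nd (nat_lit 317) (nat_lit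 0) (cs (lf (nat_lit 5) (nat_lit 317)) (nd (nat_lit 298) (nat_lit 0) (cs (lf (nat_lit 17) (nat_lit 295)) (nd (nat_lit 275) (nat_lit 0) (cs (lf (nat_lit 45) (nat_lit 253)) (nd (nat_lit 361) (nat_lit 0) (cs (lf (nat_lit 35) (nat_lit 295)) (nd (nat_lit 384) (nat_lit 0) (cs (lf (nat_lit 42) (nat_lit 317)) (rf (nat_lit 14)))))))))))))) (cs (nd (nat_lit 361) (nat_lit 0) (cs (lf (nat_lit 36) (nat_lit 295)) (nd (nat_lit 320) (nat_lit 0) (cs (lf (nat_lit 6) (nat_lit 317)) (nd (nat_lit 341) (nat_lit 0) (cs (lf (nat_lit 11) (nat_lit 338)) (nd (nat_lit 384) (nat_lit 0) (cs (lf (nat_lit 30) (nat_lit 318)) (rf (nat_lit 15)))))))))) (nd (nat_lit 361) (nat_lit 0) (cs (lf (nat_lit 36) (nat_lit 295)) (nd (nat_lit 341) (nat_lit 0) (cs (lf (nat_lit 11) (nat_lit 338)) (lf (nat_lit 6) (nat_lit 339))))))))))))) (nd (nat_lit 341) (nat_lit 0) (cs (nd (nat_lit 384) (nat_lit 0) (cs (lf (nat_lit 30) (nat_lit 318)) (nd (nat_lit 383)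 (nat_lit 0) (cs (lf (nat_lit 41) (nat_lit 317)) (nd (nat_lit 361) (nat_lit 0) (cs (lf (nat_lit 36) (nat_lit 295)) (nd (nat_lit 360) (nat_lit 0) (cs (lf (nat_lit 12) (nat_lit 337)) (lf (nat_lit 6) (nat_lit 338)))))))))) (cs (nd (nat_lit 338) (nat_lit 0) (cs (lf (nat_lit 12) (nat_lit 315)) (nd (nat_lit 384) (nat_lit 0) (cs (lf (nat_lit 30) (nat_lit 318)) (nd (nat_lit 383) (nat_lit 0) (cs (lf (nat_lit 41) (nat_lit 317)) (nd (nat_lit 361) (nat_lit 0) (cs (lf (nat_lit 36) (nat_lit 295)) (nd (nat_lit 359) (nat_lit 0) (cs (lf (nat_lit 10) (nat_lit 337)) (nd (nat_lit 363) (nat_lit 0) (cs (lf (nat_lit 18) (nat_lit 338)) (nd (nat_lit 316) (nat_lit 0) (cs (lf (nat_lit 23) (nat_lit 315)) (rf (nat_lit 16)))))))))))))))) (cs (nd (nat_lit 337) (nat_lit 0) (cs (lf (nat_lit 13) (nat_lit 315)) (nd (nat_lit 384) (nat_lit 0) (cs (lf (nat_lit 30) (nat_lit 318)) (nd (nat_lit 383) (nat_lit 0) (cs (lf (nat_lit 41) (nat_lit 317))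 (nd (nat_lit 361) (nat_lit 0) (cs (lf (nat_lit 36) (nat_lit 295)) (nd (nat_lit 342) (nat_lit 0) (cs (lf (nat_lit 6) (nat_lit 339)) (rf (nat_lit 15)))))))))))) (nd (nat_lit 338) (nat_lit 0) (cs (lf (nat_lit 12) (nat_lit 315)) (nd (nat_lit 359) (nat_lit 0) (cs (lf (nat_lit 10) (nat_lit 337)) (nd (nat_lit 363) (nat_lit 0) (cs (lf (nat_lit 5) (nat_lit 338)) (rf (nat_lit 17)))))))))))))))) (rf (nat_lit 18)))))) (rf (nat_lit 19)))))))))) q43458 (by decide +kernel)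
def q43879 : Q := Q.p (nat_lit 0x10000040000000000000003400000000010000040000000000000000000000000000000000000000000000) (nat_lit 0x7f8001fc000ff8001ef800fbc001ef8007bc0018b0001ae00008000020000000000000000000000000000000000000000000000) (nat_lit 14)
theorem c43879 : QOK q43879 := cut [q43529, q43698, q31207, q43661, q43707, q43708, q43735, q43697, q43750, q43795, q43799, q25486, q43659, q43733, q43822, q43823, q43854, q31206, q43826, q43857, q41751, q42419, q41842, q42656, q43254, q13308, q25479, q43749, q43871, q43875, q13309, q13277, q43460, q43704] ⟨c43529, c43698, c31207, c43661, c43707, c43708, c43735, c43697, c43750, c43795, c43799, c25486, c43659, c43733, c43822, c43823, c43854, c31206, c43826, c43857, c41751, c42419, c41842, c42656, c43254, c13308, c25479, c43749, c43871, c43875, c13309, c13277, c43460, c43704, trivial⟩ (nd (nat_lit 341) (nat_lit 0) (cs (rf (nat_lit 0)) (cs (rf (nat_lit 1)) (cs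 (nd (nat_lit 342) (nat_lit 0) (cs (rf (nat_lit 2)) (cs (rf (nat_lit 3)) (cs (rf (nat_lit 4)) (rf (nat_lit 5)))))) (cs (rf (nat_lit 6)) (cs (nd (nat_lit 342) (nat_lit 0) (cs (rf (nat_lit 7)) (cs (rf (nat_lit 5)) (cs (rf (nat_lit 8)) (cs (rf (nat_lit 9)) (cs (rf (nat_lit 10)) (cs (nd (nat_lit 343) (nat_lit 0) (cs (rf (nat_lit 11)) (cs (rf (nat_lit 12)) (cs (rf (nat_lit 13)) (nd (nat_lit 361) (nat_lit 0) (cs (lf (nat_lit 10) (nat_lit 339)) (nd (nat_lit 339) (nat_lit 0) (cs (lf (nat_lit 11) (nat_lit 338)) (nd (nat_lit 383) (nat_lit 0) (cs (lf (nat_lit 30) (nat_lit 317)) (nd (nat_lit 321) (nat_lit 0) (cs (lf (nat_lit 17) (nat_lit 318)) (nd (nat_lit 319) (nat_lit 0) (cs (lf (nat_lit 18) (nat_lit 318)) (nd (nat_lit 338) (nat_lit 0) (cs (lf (nat_lit 12) (nat_lit 315)) (nd (nat_lit 275) (nat_lit 0) (cs (lf (nat_lit 38) (nat_lit 252)) (nd (nat_lit 251) (nat_lit 0) (cs (lf (nat_lit 5) (nat_lit 250)) (nd (nat_lit 316)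 (nat_lit 0) (cs (lf (nat_lit 23) (nat_lit 315)) (nd (nat_lit 272) (nat_lit 0) (cs (lf (nat_lit 11) (nat_lit 249)) (lf (nat_lit 25) (nat_lit 272)))))))))))))))))))))))))) (cs (rf (nat_lit 14)) (rf (nat_lit 15)))))))))) (cs (rf (nat_lit 16)) (cs (nd (nat_lit 317) (nat_lit 0) (cs (nd (nat_lit 342) (nat_lit 0) (cs (lf (nat_lit 18) (nat_lit 317)) (rf (nat_lit 17)))) (cs (nd (nat_lit 342) (nat_lit 0) (cs (lf (nat_lit 18) (nat_lit 317)) (nd (nat_lit 339) (nat_lit 0) (cs (rf (nat_lit 18)) (cs (nd (nat_lit 364) (nat_lit 0) (cs (lf (nat_lit 5) (nat_lit 339)) (nd (nat_lit 338) (nat_lit 0) (cs (lf (nat_lit 4) (nat_lit 338)) (rf (nat_lit 19)))))) (nd (nat_lit 360) (nat_lit 0) (cs (lf (nat_lit 10) (nat_lit 338)) (nd (nat_lit 338) (nat_lit 0) (cs (lf (nat_lit 11) (nat_lit 337)) (rf (nat_lit 19))))))))))) (cs (nd (nat_lit 316) (nat_lit 0) (cs (rf (nat_lit 20)) (cs (rf (nat_lit 21)) (nd (nat_lit 251) (nat_lit 0) (cs (rf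 (nat_lit 22)) (cs (rf (nat_lit 23)) (rf (nat_lit 24)))))))) (nd (nat_lit 342) (nat_lit 0) (cs (lf (nat_lit 18) (nat_lit 317)) (rf (nat_lit 25)))))))) (cs (nd (nat_lit 342) (nat_lit 0) (cs (rf (nat_lit 2)) (cs (rf (nat_lit 7)) (nd (nat_lit 339) (nat_lit 0) (cs (rf (nat_lit 26)) (cs (rf (nat_lit 27)) (rf (nat_lit 28)))))))) (cs (nd (nat_lit 342) (nat_lit 0) (cs (rf (nat_lit 3)) (cs (rf (nat_lit 8)) (cs (rf (nat_lit 9)) (cs (rf (nat_lit 10)) (rf (nat_lit 29))))))) (cs (nd (nat_lit 342) (nat_lit 0) (cs (rf (nat_lit 30)) (cs (rf (nat_lit 14)) (cs (nd (nat_lit 339) (nat_lit 0) (cs (rf (nat_lit 31)) (cs (rf (nat_lit 32)) (cs (nd (nat_lit 317) (nat_lit 0) (cs (rf (nat_lit 17)) (rf (nat_lit 33)))) (rf (nat_lit 28)))))) (rf (nat_lit 29)))))) (nd (nat_lit 342) (nat_lit 0) (cs (rf (nat_lit 30)) (cs (rf (nat_lit 4)) (rf (nat_lit 15)))))))))))))))) q43879 (by decide +kernel)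
def q44027 : Q := Q.p (nat_lit 0x10000040000180000000000000000000000000000000000000000000000000000000000000000000000000) (nat_lit 0xa0000380002e0001ff0007f8001ef0003a0000600000000000000000000000000000000000000000000000000000000000000000000000000) (nat_lit 12)
theorem c44027 : QOK q44027 := cut [q42553, q42838, q44001, q42890, q44022, q44025] ⟨c42553, c42838, c44001, c42890, c44022, c44025, trivial⟩ (nd (nat_lit 362) (nat_lit 0) (cs (rf (nat_lit 0)) (cs (rf (nat_lit 1)) (cs (nd (nat_lit 361) (nat_lit 0) (cs (lf (nat_lit 41) (nat_lit 295)) (nd (nat_lit 384) (nat_lit 0) (cs (lf (nat_lit 46) (nat_lit 295)) (nd (nat_lit 385) (nat_lit 0) (cs (lf (nat_lit 29) (nat_lit 318)) (rf (nat_lit 2)))))))) (cs (nd (nat_lit 361) (nat_lit 0) (cs (lf (nat_lit 41) (nat_lit 295)) (nd (nat_lit 384) (nat_lit 0) (cs (lf (nat_lit 46) (nat_lit 295)) (nd (nat_lit 319) (nat_lit 0) (cs (lf (nat_lit 35) (nat_lit 296)) (nd (nat_lit 320)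 (nat_lit 0) (cs (lf (nat_lit 18) (nat_lit 295)) (nd (nat_lit 341) (nat_lit 0) (cs (lf (nat_lit 30) (nat_lit 318)) (nd (nat_lit 338) (nat_lit 0) (cs (lf (nat_lit 13) (nat_lit 316)) (nd (nat_lit 360) (nat_lit 0) (cs (lf (nat_lit 12) (nat_lit 337)) (rf (nat_lit 3)))))))))))))))) (cs (nd (nat_lit 363) (nat_lit 0) (cs (lf (nat_lit 29) (nat_lit 296)) (rf (nat_lit 4)))) (nd (nat_lit 361) (nat_lit 0) (cs (lf (nat_lit 41) (nat_lit 295)) (rf (nat_lit 5)))))))))) q44027 (by decide +kernel)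
def q44194 : Q := Q.p (nat_lit 0x40000180000000000000000000000000000000000000000000000000000000000000000000000000) (nat_lit 0x280000e8001ff0007f8003ff0007be001e700072e0000800002000000000000000000000000000000000000000000000000000000000) (nat_lit 13)
theorem c44194 : QOK q44194 := cut [q15986, q44040, q43972, q43919, q43927, q44169, q43336, q42825, q43420, q44025, q44179, q41733, q42360, q44191] ⟨c15986, c44040, c43972, c43919, c43927, c44169, c43336, c42825, c43420, c44025, c44179, c41733, c42360, c44191, trivial⟩ (nd (nat_lit 319) (nat_lit 0) (cs (rf (nat_lit 0)) (cs (rf (nat_lit 1)) (cs (nd (nat_lit 340) (nat_lit 0) (cs (rf (nat_lit 2)) (cs (nd (nat_lit 294) (nat_lit 0) (cs (rf (nat_lit 3)) (cs (rf (nat_lit 4)) (rf (nat_lit 5))))) (cs (nd (nat_lit 293) (nat_lit 0) (cs (lf (nat_lit 1) (nat_lit 293)) (nd (nat_lit 362) (nat_lit 0) (cs (lf (nat_lit 47) (nat_lit 273)) (nd (nat_lit 361) (nat_lit 0) (cs (lf (nat_lit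 41) (nat_lit 295)) (nd (nat_lit 363) (nat_lit 0) (cs (lf (nat_lit 29) (nat_lit 296)) (nd (nat_lit 384) (nat_lit 0) (cs (lf (nat_lit 35) (nat_lit 296)) (nd (nat_lit 341) (nat_lit 0) (cs (lf (nat_lit 30) (nat_lit 318)) (rf (nat_lit 6)))))))))))))) (nd (nat_lit 362) (nat_lit 0) (cs (rf (nat_lit 7)) (cs (rf (nat_lit 8)) (rf (nat_lit 9))))))))) (cs (nd (nat_lit 294) (nat_lit 0) (cs (lf (nat_lit 0) (nat_lit 293)) (rf (nat_lit 10)))) (nd (nat_lit 320) (nat_lit 0) (cs (lf (nat_lit 18) (nat_lit 295)) (nd (nat_lit 317) (nat_lit 0) (cs (rf (nat_lit 11)) (cs (rf (nat_lit 12)) (cs (nd (nat_lit 298) (nat_lit 0) (cs (lf (nat_lit 17) (nat_lit 295)) (nd (nat_lit 342) (nat_lit 0) (cs (lf (nat_lit 5) (nat_lit 317)) (nd (nat_lit 339) (nat_lit 0) (cs (lf (nat_lit 11) (nat_lit 316)) (nd (nat_lit 361) (nat_lit 0) (cs (lf (nat_lit 30) (nat_lit 295)) (nd (nat_lit 362) (nat_lit 0) (cs (lf (nat_lit 29) (nat_lit 295)) (nd (nat_lit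 273) (nat_lit 0) (cs (lf (nat_lit 28) (nat_lit 273)) (nd (nat_lit 360) (nat_lit 0) (cs (lf (nat_lit 41) (nat_lit 294)) (nd (nat_lit 363) (nat_lit 0) (cs (lf (nat_lit 16) (nat_lit 338)) (nd (nat_lit 385) (nat_lit 0) (cs (lf (nat_lit 39) (nat_lit 297)) (lf (nat_lit 5) (nat_lit 360)))))))))))))))))))) (rf (nat_lit 13))))))))))))) q44194 (by decide +kernel)
def q44603 : Q := Q.p (nat_lit 0x100003400000000007000000000000000000000000000000000000000000000000000) (nat_lit 0x80000380006f80003c0000f8000000001e0000380000a0000000000000000000000000000000000) (nat_lit 10)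
theorem c44603 : QOK q44603 := cut [q44565, q44573, q44572, q44582, q44585, q44598, q44602] ⟨c44565, c44573, c44572, c44582, c44585, c44598, c44602, trivial⟩ (nd (nat_lit 249) (nat_lit 0) (cs (rf (nat_lit 0)) (cs (rf (nat_lit 1)) (cs (nd (nat_lit 248) (nat_lit 0) (cs (rf (nat_lit 2)) (cs (rf (nat_lit 3)) (rf (nat_lit 4))))) (cs (rf (nat_lit 5)) (rf (nat_lit 6))))))) q44603 (by decide +kernel)
def q44820 : Q := Q.p (nat_lit 0x100003400000000007000000000000000000000000000000000000000000000000000) (nat_lit 0x80000300006f80003c0000fe0000f8003df000300000c0000000000000000000000000000000000) (nat_lit 12)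
theorem c44820 : QOK q44820 := cut [q44565, q44573, q44598, q44602, q44797, q44798, q26652, q27078, q35305, q26739, q44818] ⟨c44565, c44573, c44598, c44602, c44797, c44798, c26652, c27078, c35305, c26739, c44818, trivial⟩ (nd (nat_lit 249) (nat_lit 0) (cs (rf (nat_lit 0)) (cs (rf (nat_lit 1)) (cs (rf (nat_lit 2)) (cs (rf (nat_lit 3)) (nd (nat_lit 247) (nat_lit 0) (cs (rf (nat_lit 4)) (cs (nd (nat_lit 203) (nat_lit 0) (cs (nd (nat_lit 184) (nat_lit 0) (cs (lf (nat_lit 17) (nat_lit 181)) (rf (nat_lit 5)))) (cs (nd (nat_lit 202) (nat_lit 0) (cs (rf (nat_lit 6)) (nd (nat_lit 201) (nat_lit 0) (cs (rf (nat_lit 7)) (cs (rf (nat_lit 8)) (cs (nd (nat_lit 222) (nat_lit 0) (cs (lf (nat_lit 10) (nat_lit 200)) (nd (nat_lit 200) (nat_lit 0) (cs (lf (nat_lit 11) (nat_lit 199)) (nd (nat_lit 177) (nat_lit 0) (cs (nd (nat_lit 176) (nat_lit 0) (cs (nd (nat_lit 225) (nat_lit 0) (cs (lf (nat_lit 5) (nat_lit 200)) (nd (nat_lit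 269) (nat_lit 0) (cs (lf (nat_lit 35) (nat_lit 181)) (lf (nat_lit 47) (nat_lit 180)))))) (lf (nat_lit 21) (nat_lit 176)))) (lf (nat_lit 22) (nat_lit 177)))))))) (nd (nat_lit 222) (nat_lit 0) (cs (lf (nat_lit 10) (nat_lit 200)) (nd (nat_lit 180) (nat_lit 0) (cs (lf (nat_lit 23) (nat_lit 179)) (nd (nat_lit 200) (nat_lit 0) (cs (lf (nat_lit 11) (nat_lit 199)) (nd (nat_lit 225) (nat_lit 0) (cs (lf (nat_lit 5) (nat_lit 200)) (lf (nat_lit 42) (nat_lit 180)))))))))))))))) (nd (nat_lit 225) (nat_lit 0) (cs (lf (nat_lit 11) (nat_lit 202)) (rf (nat_lit 9))))))) (rf (nat_lit 10)))))))))) q44820 (by decide +kernel)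
def q44918 : Q := Q.p (nat_lit 0x100000400001000010000040000000000000000000000000000000000000000000000) (nat_lit 0x80000200000200002e0000f8000bf0000e0000380000200000000000000000000000000000) (nat_lit 9)
theorem c44918 : QOK q44918 := cut [q44549, q44888, q44891, q44897] ⟨c44549, c44888, c44891, c44897, trivial⟩ (nd (nat_lit 206) (nat_lit 0) (cs (rf (nat_lit 0)) (cs (rf (nat_lit 1)) (cs (rf (nat_lit 2)) (rf (nat_lit 3)))))) q44918 (by decide +kernel)
def q45298 : Q := Q.p (nat_lit 0x40000100003400000000000000000000000000000000000000000000000000000000000000) (nat_lit 0x280003fc000fe0003bc000c80000200008800000000000000000000000000000000000000000000000000000000) (nat_lit 12)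
theorem c45298 : QOK q45298 := cut [q14121, q14128, q14184, q45297] ⟨c14121, c14128, c14184, c45297, trivial⟩ (nd (nat_lit 316) (nat_lit 0) (cs (rf (nat_lit 0)) (cs (rf (nat_lit 1)) (cs (rf (nat_lit 2)) (rf (nat_lit 3)))))) q45298 (by decide +kernel)
def q45836 : Q := Q.p (nat_lit 0x100003600000000010000040000000000000000000000000000000000000000000000) (nat_lit 0x40000700001c000ef80001f0003fc000fe000bfc000fc0003f0000e00003800000000000000000000000) (nat_lit 13)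
theorem c45836 : QOK q45836 := cut [q45338, q45347, q34520, q44540, q45646, q45712, q23759, q45640, q22122, q45809, q45344, q44572, q44585, q40980, q44584, q44740, q44567] ⟨c45338, c45347, c34520, c44540, c45646, c45712, c23759, c45640, c22122, c45809, c45344, c44572, c44585, c40980, c44584, c44740, c44567, trivial⟩ (nd (nat_lit 205) (nat_lit 0) (cs (rf (nat_lit 0)) (cs (rf (nat_lit 1)) (cs (nd (nat_lit 206) (nat_lit 0) (cs (rf (nat_lit 2)) (cs (rf (nat_lit 3)) (cs (nd (nat_lit 187) (nat_lit 0) (cs (lf (nat_lit 14) (nat_lit 183)) (nd (nat_lit 184) (nat_lit 0) (cs (lf (nat_lit 8) (nat_lit 183)) (rf (nat_lit 4)))))) (cs (rf (nat_lit 5)) (cs (nd (nat_lit 207) (nat_lit 0) (cs (lf (nat_lit 17) (nat_lit 183)) (nd (nat_lit 226) (nat_lit 0) (cs (lf (nat_lit 10) (nat_lit 204)) (nd (nat_lit 204) (nat_lit 0) (cs (lf (nat_lit 11) (nat_lit 203)) (nd (nat_lit 181) (nat_lit 0) (cs (lf (nat_lit 22) (nat_lit 181)) (nd (nat_lit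 203) (nat_lit 0) (cs (lf (nat_lit 23) (nat_lit 180)) (nd (nat_lit 137) (nat_lit 0) (cs (lf (nat_lit 25) (nat_lit 137)) (nd (nat_lit 228) (nat_lit 0) (cs (lf (nat_lit 5) (nat_lit 203)) (nd (nat_lit 248) (nat_lit 0) (cs (lf (nat_lit 42) (nat_lit 181)) (nd (nat_lit 247) (nat_lit 0) (cs (lf (nat_lit 5) (nat_lit 247)) (nd (nat_lit 271) (nat_lit 0) (cs (lf (nat_lit 36) (nat_lit 183)) (lf (nat_lit 0) (nat_lit 246)))))))))))))))))))))) (nd (nat_lit 227) (nat_lit 0) (cs (rf (nat_lit 6)) (cs (rf (nat_lit 7)) (nd (nat_lit 271) (nat_lit 0) (cs (lf (nat_lit 35) (nat_lit 183)) (nd (nat_lit 182) (nat_lit 0) (cs (lf (nat_lit 46) (nat_lit 182)) (nd (nat_lit 270) (nat_lit 0) (cs (lf (nat_lit 41) (nat_lit 204)) (nd (nat_lit 207) (nat_lit 0) (cs (lf (nat_lit 11) (nat_lit 204)) (nd (nat_lit 269) (nat_lit 0) (cs (lf (nat_lit 12) (nat_lit 246)) (nd (nat_lit 273) (nat_lit 0) (cs (lf (nat_lit 15) (nat_lit 249)) (rf (nat_lit 8)))))))))))))))))))))))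 (cs (rf (nat_lit 9)) (cs (nd (nat_lit 183) (nat_lit 0) (cs (lf (nat_lit 26) (nat_lit 183)) (nd (nat_lit 206) (nat_lit 0) (cs (lf (nat_lit 44) (nat_lit 183)) (nd (nat_lit 207) (nat_lit 0) (cs (lf (nat_lit 17) (nat_lit 183)) (rf (nat_lit 10)))))))) (nd (nat_lit 248) (nat_lit 0) (cs (rf (nat_lit 11)) (cs (rf (nat_lit 12)) (cs (nd (nat_lit 227) (nat_lit 0) (cs (lf (nat_lit 24) (nat_lit 183)) (nd (nat_lit 271) (nat_lit 0) (cs (rf (nat_lit 13)) (cs (nd (nat_lit 206) (nat_lit 0) (cs (lf (nat_lit 35) (nat_lit 183)) (nd (nat_lit 273) (nat_lit 0) (cs (lf (nat_lit 18) (nat_lit 248)) (nd (nat_lit 207) (nat_lit 0) (cs (lf (nat_lit 17) (nat_lit 183)) (nd (nat_lit 204) (nat_lit 0) (cs (lf (nat_lit 16) (nat_lit 182)) (lf (nat_lit 47) (nat_lit 182)))))))))) (nd (nat_lit 204) (nat_lit 0) (cs (lf (nat_lit 47) (nat_lit 182)) (nd (nat_lit 273) (nat_lit 0) (cs (lf (nat_lit 15) (nat_lit 249)) (nd (nat_lit 270) (nat_lit 0) (cs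 (lf (nat_lit 41) (nat_lit 204)) (nd (nat_lit 269) (nat_lit 0) (cs (lf (nat_lit 12) (nat_lit 246)) (nd (nat_lit 291) (nat_lit 0) (cs (lf (nat_lit 11) (nat_lit 268)) (lf (nat_lit 37) (nat_lit 203))))))))))))))))) (nd (nat_lit 183) (nat_lit 0) (cs (lf (nat_lit 26) (nat_lit 183)) (nd (nat_lit 247) (nat_lit 0) (cs (rf (nat_lit 14)) (cs (rf (nat_lit 15)) (nd (nat_lit 204) (nat_lit 0) (cs (rf (nat_lit 16)) (cs (nd (nat_lit 225) (nat_lit 0) (cs (lf (nat_lit 23) (nat_lit 224)) (nd (nat_lit 226) (nat_lit 0) (cs (lf (nat_lit 30) (nat_lit 182)) (nd (nat_lit 269) (nat_lit 0) (cs (lf (nat_lit 11) (nat_lit 246)) (lf (nat_lit 30) (nat_lit 203)))))))) (nd (nat_lit 203) (nat_lit 0) (cs (nd (nat_lit 184) (nat_lit 0) (cs (lf (nat_lit 12) (nat_lit 180)) (lf (nat_lit 7) (nat_lit 182)))) (nd (nat_lit 225) (nat_lit 0) (cs (lf (nat_lit 23) (nat_lit 224)) (nd (nat_lit 269) (nat_lit 0) (cs (lf (nat_lit 11) (nat_lit 246)) (lf (nat_lit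 35) (nat_lit 181)))))))))))))))))))))))))) q45836 (by decide +kernel)
def q46554 : Q := Q.p (nat_lit 0x20000000000100003400000000000000000000000000000000000000000000000000000000000000) (nat_lit 0x140000f00007e0003fe000ffc007ff001ffc00fde003f90007ec0018380028000080000000000000000000000000000000000000000000000000000) (nat_lit 14)
theorem c46554 : QOK q46554 := cut [q45863, q45870, q46156, q46315, q46450, q46489, q45927, q46082, q46515, q46521, q46524, q46533, q45926, q46233, q46313, q45867, q46488, q46083, q46492, q45060, q46093, q46494, q46496, q46503, q46504, q46512, q46551, q45878] ⟨c45863, c45870, c46156, c46315, c46450, c46489, c45927, c46082, c46515, c46521, c46524, c46533, c45926, c46233, c46313, c45867, c46488, c46083, c46492, c45060, c46093, c46494, c46496, c46503, c46504, c46512, c46551, c45878, trivial⟩ (nd (nat_lit 339) (nat_lit 0) (cs (nd (nat_lit 273) (nat_lit 0) (cs (lf (nat_lit 44) (nat_lit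 250)) (nd (nat_lit 274) (nat_lit 0) (cs (lf (nat_lit 12) (nat_lit 249)) (nd (nat_lit 318) (nat_lit 0) (cs (lf (nat_lit 38) (nat_lit 251)) (rf (nat_lit 0)))))))) (cs (nd (nat_lit 273) (nat_lit 0) (cs (lf (nat_lit 44) (nat_lit 250)) (nd (nat_lit 274) (nat_lit 0) (cs (lf (nat_lit 12) (nat_lit 249)) (nd (nat_lit 318) (nat_lit 0) (cs (lf (nat_lit 38) (nat_lit 251)) (rf (nat_lit 1)))))))) (cs (rf (nat_lit 2)) (cs (rf (nat_lit 3)) (cs (rf (nat_lit 4)) (cs (rf (nat_lit 5)) (cs (nd (nat_lit 361) (nat_lit 0) (cs (rf (nat_lit 6)) (cs (rf (nat_lit 7)) (cs (rf (nat_lit 8)) (cs (rf (nat_lit 9)) (cs (rf (nat_lit 10)) (cs (rf (nat_lit 11)) (nd (nat_lit 383) (nat_lit 0) (cs (rf (nat_lit 12)) (cs (rf (nat_lit 13)) (rf (nat_lit 14)))))))))))) (cs (nd (nat_lit 273) (nat_lit 0) (cs (lf (nat_lit 44) (nat_lit 250)) (nd (nat_lit 274) (nat_lit 0) (cs (lf (nat_lit 12) (nat_lit 249)) (nd (nat_lit 275) (nat_lit 0) (cs (lf (nat_lit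 23) (nat_lit 249)) (nd (nat_lit 297) (nat_lit 0) (cs (lf (nat_lit 5) (nat_lit 272)) (nd (nat_lit 319) (nat_lit 0) (cs (lf (nat_lit 42) (nat_lit 252)) (nd (nat_lit 318) (nat_lit 0) (cs (lf (nat_lit 41) (nat_lit 252)) (rf (nat_lit 15)))))))))))))) (cs (nd (nat_lit 361) (nat_lit 0) (cs (rf (nat_lit 16)) (cs (rf (nat_lit 9)) (cs (rf (nat_lit 10)) (cs (rf (nat_lit 11)) (cs (nd (nat_lit 362) (nat_lit 0) (cs (rf (nat_lit 17)) (cs (rf (nat_lit 18)) (nd (nat_lit 363) (nat_lit 0) (cs (rf (nat_lit 19)) (cs (rf (nat_lit 20)) (cs (rf (nat_lit 21)) (nd (nat_lit 342) (nat_lit 0) (cs (rf (nat_lit 22)) (cs (rf (nat_lit 23)) (cs (rf (nat_lit 24)) (cs (rf (nat_lit 25)) (nd (nat_lit 341) (nat_lit 0) (cs (lf (nat_lit 12) (nat_lit 338)) (nd (nat_lit 340) (nat_lit 0) (cs (lf (nat_lit 23) (nat_lit 316)) (nd (nat_lit 384) (nat_lit 0) (cs (lf (nat_lit 42) (nat_lit 317)) (nd (nat_lit 364) (nat_lit 0) (cs (lf (nat_lit 18) (nat_lit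 339)) (nd (nat_lit 320) (nat_lit 0) (cs (lf (nat_lit 17) (nat_lit 317)) (nd (nat_lit 298) (nat_lit 0) (cs (lf (nat_lit 41) (nat_lit 297)) (lf (nat_lit 36) (nat_lit 275)))))))))))))))))))))))))) (rf (nat_lit 26)))))))) (nd (nat_lit 361) (nat_lit 0) (cs (rf (nat_lit 27)) (cs (rf (nat_lit 16)) (cs (rf (nat_lit 8)) (cs (rf (nat_lit 9)) (cs (rf (nat_lit 10)) (cs (rf (nat_lit 11)) (rf (nat_lit 26))))))))))))))))))) q46554 (by decide +kernel)
def q47070 : Q := Q.p (nat_lit 0x180000600000000010000040000000000000000000000000000000000000000000000) (nat_lit 0x300007c0001fc0003e0000700001e0000f0000fc000bf000014000000000000000000000000000000000000000) (nat_lit 12)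
theorem c47070 : QOK q47070 := cut [q46802, q46578, q46957, q46958, q46966, q46981, q46986, q46560, q47001, q47007, q47032, q46588, q47034, q47038, q47050, q46767, q46774, q46617, q46838, q47058, q47064] ⟨c46802, c46578, c46957, c46958, c46966, c46981, c46986, c46560, c47001, c47007, c47032, c46588, c47034, c47038, c47050, c46767, c46774, c46617, c46838, c47058, c47064, trivial⟩ (nd (nat_lit 270) (nat_lit 0) (cs (rf (nat_lit 0)) (cs (nd (nat_lit 293) (nat_lit 0) (cs (nd (nat_lit 227) (nat_lit 0) (cs (rf (nat_lit 1)) (cs (rf (nat_lit 2)) (rf (nat_lit 3))))) (cs (nd (nat_lit 315) (nat_lit 0) (cs (lf (nat_lit 30) (nat_lit 249)) (rf (nat_lit 4)))) (cs (rf (nat_lit 5)) (cs (nd (nat_lit 315) (nat_lit 0) (cs (lf (nat_lit 30) (nat_lit 249)) (nd (nat_lit 316) (nat_lit 0) (cs (lf (nat_lit 29) (nat_lit 249)) (rf (nat_lit 6)))))) (nd (nat_lit 315) (nat_lit 0) (cs (lf (nat_lit 30) (nat_lit 249)) (nd (nat_lit 316) (nat_lit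 0) (cs (lf (nat_lit 29) (nat_lit 249)) (nd (nat_lit 226) (nat_lit 0) (cs (lf (nat_lit 46) (nat_lit 226)) (nd (nat_lit 227) (nat_lit 0) (cs (lf (nat_lit 47) (nat_lit 204)) (rf (nat_lit 3))))))))))))))) (cs (nd (nat_lit 292) (nat_lit 0) (cs (rf (nat_lit 7)) (cs (nd (nat_lit 291) (nat_lit 0) (cs (nd (nat_lit 269) (nat_lit 0) (cs (lf (nat_lit 12) (nat_lit 246)) (nd (nat_lit 227) (nat_lit 0) (cs (lf (nat_lit 36) (nat_lit 204)) (nd (nat_lit 247) (nat_lit 0) (cs (lf (nat_lit 23) (nat_lit 246)) (nd (nat_lit 225) (nat_lit 0) (cs (lf (nat_lit 24) (nat_lit 203)) (nd (nat_lit 224) (nat_lit 0) (cs (lf (nat_lit 47) (nat_lit 202)) (lf (nat_lit 2) (nat_lit 224)))))))))))) (rf (nat_lit 8)))) (rf (nat_lit 9))))) (cs (rf (nat_lit 10)) (cs (nd (nat_lit 227) (nat_lit 0) (cs (rf (nat_lit 1)) (cs (rf (nat_lit 3)) (nd (nat_lit 293) (nat_lit 0) (cs (rf (nat_lit 11)) (cs (rf (nat_lit 2)) (nd (nat_lit 268) (nat_lit 0) (cs (lf (nat_lit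 13) (nat_lit 246)) (rf (nat_lit 12)))))))))) (cs (nd (nat_lit 292) (nat_lit 0) (cs (rf (nat_lit 7)) (cs (rf (nat_lit 9)) (nd (nat_lit 269) (nat_lit 0) (cs (lf (nat_lit 12) (nat_lit 246)) (nd (nat_lit 205) (nat_lit 0) (cs (lf (nat_lit 37) (nat_lit 204)) (rf (nat_lit 13))))))))) (cs (rf (nat_lit 14)) (nd (nat_lit 269) (nat_lit 0) (cs (rf (nat_lit 15)) (cs (rf (nat_lit 16)) (nd (nat_lit 291) (nat_lit 0) (cs (lf (nat_lit 11) (nat_lit 268)) (nd (nat_lit 313) (nat_lit 0) (cs (nd (nat_lit 248) (nat_lit 0) (cs (lf (nat_lit 30) (nat_lit 247)) (rf (nat_lit 17)))) (cs (nd (nat_lit 247) (nat_lit 0) (cs (lf (nat_lit 23) (nat_lit 246)) (nd (nat_lit 314) (nat_lit 0) (cs (lf (nat_lit 29) (nat_lit 247)) (nd (nat_lit 334) (nat_lit 0) (cs (lf (nat_lit 40) (nat_lit 246)) (nd (nat_lit 335) (nat_lit 0) (cs (lf (nat_lit 41) (nat_lit 268)) (nd (nat_lit 292) (nat_lit 0) (cs (lf (nat_lit 30) (nat_lit 269)) (rf (nat_lit 18))))))))))))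 (cs (nd (nat_lit 248) (nat_lit 0) (cs (rf (nat_lit 17)) (cs (nd (nat_lit 247) (nat_lit 0) (cs (lf (nat_lit 23) (nat_lit 246)) (nd (nat_lit 312) (nat_lit 0) (cs (nd (nat_lit 314) (nat_lit 0) (cs (lf (nat_lit 29) (nat_lit 247)) (nd (nat_lit 292) (nat_lit 0) (cs (lf (nat_lit 35) (nat_lit 226)) (rf (nat_lit 19)))))) (lf (nat_lit 41) (nat_lit 246)))))) (rf (nat_lit 20))))) (nd (nat_lit 248) (nat_lit 0) (cs (lf (nat_lit 30) (nat_lit 247)) (rf (nat_lit 20))))))))))))))))))))) q47070 (by decide +kernel)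
def q47117 : Q := Q.p (nat_lit 0x180000600000000010000040000000000000000000000000000000000000000000000) (nat_lit 0x5c000170000dc0000700001c0000f0000fe0009f00001c000040000000000000000000000000000000000) (nat_lit 13)
theorem c47117 : QOK q47117 := cut [q40946, q46578, q45192, q47071, q47072, q47074, q47088, q47104, q46619, q47107, q47110] ⟨c40946, c46578, c45192, c47071, c47072, c47074, c47088, c47104, c46619, c47107, c47110, trivial⟩ (nd (nat_lit 227) (nat_lit 0) (cs (rf (nat_lit 0)) (cs (rf (nat_lit 1)) (nd (nat_lit 294) (nat_lit 0) (cs (rf (nat_lit 2)) (nd (nat_lit 269) (nat_lit 0) (cs (rf (nat_lit 3)) (cs (nd (nat_lit 247) (nat_lit 0) (cs (rf (nat_lit 4)) (cs (rf (nat_lit 5)) (cs (rf (nat_lit 6)) (nd (nat_lit 248) (nat_lit 0) (cs (lf (nat_lit 0) (nat_lit 246)) (rf (nat_lit 7)))))))) (nd (nat_lit 270) (nat_lit 0) (cs (lf (nat_lit 5) (nat_lit 269)) (nd (nat_lit 248) (nat_lit 0) (cs (rf (nat_lit 8)) (cs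 (nd (nat_lit 291) (nat_lit 0) (cs (lf (nat_lit 11) (nat_lit 268)) (nd (nat_lit 247) (nat_lit 0) (cs (lf (nat_lit 23) (nat_lit 246)) (rf (nat_lit 9)))))) (nd (nat_lit 292) (nat_lit 0) (cs (lf (nat_lit 30) (nat_lit 226)) (nd (nat_lit 247) (nat_lit 0) (cs (lf (nat_lit 0) (nat_lit 246)) (rf (nat_lit 10))))))))))))))))))) q47117 (by decide +kernel)
def q47274 : Q := Q.p (nat_lit 0x180003600000000000000000000000000000000000000000000000000000000000000) (nat_lit 0x30003fe000ff0003fe000c700001e0008700001c00007000014000000000000000000000000000000000000000) (nat_lit 13)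
theorem c47274 : QOK q47274 := cut [q46802, q47184, q47211, q47185, q47204, q47213, q47215, q47224, q46629, q47239, q47250, q47268, q46620, q47267, q11170] ⟨c46802, c47184, c47211, c47185, c47204, c47213, c47215, c47224, c46629, c47239, c47250, c47268, c46620, c47267, c11170, trivial⟩ (nd (nat_lit 270) (nat_lit 0) (cs (rf (nat_lit 0)) (cs (rf (nat_lit 1)) (cs (rf (nat_lit 2)) (cs (nd (nat_lit 294) (nat_lit 0) (cs (rf (nat_lit 3)) (cs (rf (nat_lit 4)) (nd (nat_lit 316) (nat_lit 0) (cs (lf (nat_lit 42) (nat_lit 249)) (nd (nat_lit 293) (nat_lit 0) (cs (nd (nat_lit 269) (nat_lit 0) (cs (lf (nat_lit 12) (nat_lit 246)) (rf (nat_lit 5)))) (cs (nd (nat_lit 315) (nat_lit 0) (cs (lf (nat_lit 30) (nat_lit 249)) (nd (nat_lit 314) (nat_lit 0) (cs (lf (nat_lit 41) (nat_lit 248)) (nd (nat_lit 317) (nat_lit 0) (cs (lf (nat_lit 29) (nat_lit 250)) (nd (nat_lit 312) (nat_lit 0) (cs (lf (nat_lit 13) (nat_lit 290)) (rf (nat_lit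 6)))))))))) (nd (nat_lit 315) (nat_lit 0) (cs (lf (nat_lit 30) (nat_lit 249)) (rf (nat_lit 7)))))))))))) (cs (nd (nat_lit 294) (nat_lit 0) (cs (rf (nat_lit 3)) (cs (nd (nat_lit 316) (nat_lit 0) (cs (lf (nat_lit 42) (nat_lit 249)) (nd (nat_lit 295) (nat_lit 0) (cs (nd (nat_lit 296) (nat_lit 0) (cs (lf (nat_lit 18) (nat_lit 271)) (lf (nat_lit 21) (nat_lit 270)))) (cs (nd (nat_lit 315) (nat_lit 0) (cs (lf (nat_lit 41) (nat_lit 249)) (nd (nat_lit 314) (nat_lit 0) (cs (lf (nat_lit 12) (nat_lit 291)) (nd (nat_lit 336) (nat_lit 0) (cs (lf (nat_lit 38) (nat_lit 248)) (nd (nat_lit 317) (nat_lit 0) (cs (lf (nat_lit 11) (nat_lit 313)) (lf (nat_lit 29) (nat_lit 250)))))))))) (nd (nat_lit 317) (nat_lit 0) (cs (lf (nat_lit 29) (nat_lit 250)) (nd (nat_lit 296) (nat_lit 0) (cs (lf (nat_lit 18) (nat_lit 271)) (rf (nat_lit 8))))))))))) (nd (nat_lit 316) (nat_lit 0) (cs (lf (nat_lit 42) (nat_lit 249)) (nd (nat_lit 315) (nat_lit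 0) (cs (lf (nat_lit 41) (nat_lit 249)) (nd (nat_lit 248) (nat_lit 0) (cs (rf (nat_lit 9)) (cs (nd (nat_lit 247) (nat_lit 0) (cs (lf (nat_lit 0) (nat_lit 246)) (nd (nat_lit 317) (nat_lit 0) (cs (lf (nat_lit 29) (nat_lit 250)) (nd (nat_lit 269) (nat_lit 0) (cs (lf (nat_lit 12) (nat_lit 246)) (nd (nat_lit 291) (nat_lit 0) (cs (lf (nat_lit 11) (nat_lit 268)) (nd (nat_lit 313) (nat_lit 0) (cs (lf (nat_lit 30) (nat_lit 247)) (nd (nat_lit 312) (nat_lit 0) (cs (lf (nat_lit 41) (nat_lit 246)) (nd (nat_lit 314) (nat_lit 0) (cs (lf (nat_lit 29) (nat_lit 247)) (lf (nat_lit 16) (nat_lit 290)))))))))))))))) (rf (nat_lit 10)))))))))))) (cs (rf (nat_lit 11)) (nd (nat_lit 248) (nat_lit 0) (cs (rf (nat_lit 12)) (cs (rf (nat_lit 10)) (cs (rf (nat_lit 13)) (nd (nat_lit 247) (nat_lit 0) (cs (lf (nat_lit 0) (nat_lit 246)) (nd (nat_lit 225) (nat_lit 0) (cs (lf (nat_lit 23) (nat_lit 224)) (nd (nat_lit 203) (nat_lit 0) (cs (lf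 (nat_lit 24) (nat_lit 181)) (nd (nat_lit 226) (nat_lit 0) (cs (rf (nat_lit 14)) (lf (nat_lit 42) (nat_lit 203))))))))))))))))))))) q47274 (by decide +kernel)
def q48340 : Q := Q.p (nat_lit 0x20000000000100003400000000000000000000000000000000000000000000000000000000000000) (nat_lit 0x140000700001e0003fe000ff8003fe003ff800fde007fbc003ec0000100018400040000000000000000000000000000000000000000000000000000) (nat_lit 13)
theorem c48340 : QOK q48340 := cut [q47896, q47941, q48071, q48169, q41940, q42166, q46284, q46238, q48217, q47940, q47894, q47934, q12843, q48320, q41899, q47860, q48329, q42163, q41951, q15042, q42698, q42162] ⟨c47896, c47941, c48071, c48169, c41940, c42166, c46284, c46238, c48217, c47940, c47894, c47934, c12843, c48320, c41899, c47860, c48329, c42163, c41951, c15042, c42698, c42162, trivial⟩ (nd (nat_lit 318) (nat_lit 0) (cs (rf (nat_lit 0)) (cs (rf (nat_lit 1)) (cs (rf (nat_lit 2)) (cs (rf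 (nat_lit 3)) (cs (nd (nat_lit 296) (nat_lit 0) (cs (rf (nat_lit 4)) (cs (rf (nat_lit 5)) (cs (rf (nat_lit 6)) (nd (nat_lit 339) (nat_lit 0) (cs (lf (nat_lit 37) (nat_lit 251)) (nd (nat_lit 361) (nat_lit 0) (cs (lf (nat_lit 30) (nat_lit 295)) (nd (nat_lit 338) (nat_lit 0) (cs (rf (nat_lit 7)) (nd (nat_lit 295) (nat_lit 0) (cs (lf (nat_lit 45) (nat_lit 250)) (nd (nat_lit 360) (nat_lit 0) (cs (lf (nat_lit 41) (nat_lit 294)) (nd (nat_lit 362) (nat_lit 0) (cs (lf (nat_lit 29) (nat_lit 295)) (nd (nat_lit 363) (nat_lit 0) (cs (lf (nat_lit 18) (nat_lit 338)) (nd (nat_lit 385) (nat_lit 0) (cs (lf (nat_lit 5) (nat_lit 360)) (lf (nat_lit 26) (nat_lit 296)))))))))))))))))))))) (cs (rf (nat_lit 8)) (cs (nd (nat_lit 296) (nat_lit 0) (cs (rf (nat_lit 5)) (cs (rf (nat_lit 9)) (nd (nat_lit 297) (nat_lit 0) (cs (rf (nat_lit 10)) (cs (rf (nat_lit 11)) (nd (nat_lit 315) (nat_lit 0) (cs (lf (nat_lit 13) (nat_lit 293)) (nd (nat_lit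 275) (nat_lit 0) (cs (lf (nat_lit 36) (nat_lit 230)) (nd (nat_lit 319) (nat_lit 0) (cs (lf (nat_lit 41) (nat_lit 252)) (rf (nat_lit 12)))))))))))))) (cs (rf (nat_lit 13)) (cs (nd (nat_lit 296) (nat_lit 0) (cs (rf (nat_lit 14)) (cs (rf (nat_lit 15)) (rf (nat_lit 16))))) (cs (nd (nat_lit 296) (nat_lit 0) (cs (rf (nat_lit 14)) (cs (rf (nat_lit 17)) (cs (rf (nat_lit 15)) (nd (nat_lit 297) (nat_lit 0) (cs (rf (nat_lit 18)) (cs (rf (nat_lit 10)) (nd (nat_lit 298) (nat_lit 0) (cs (lf (nat_lit 6) (nat_lit 295)) (nd (nat_lit 275) (nat_lit 0) (cs (lf (nat_lit 36) (nat_lit 230)) (nd (nat_lit 342) (nat_lit 0) (cs (rf (nat_lit 19)) (nd (nat_lit 316) (nat_lit 0) (cs (lf (nat_lit 12) (nat_lit 293)) (nd (nat_lit 340) (nat_lit 0) (cs (lf (nat_lit 30) (nat_lit 274)) (rf (nat_lit 20))))))))))))))))))) (nd (nat_lit 296) (nat_lit 0) (cs (rf (nat_lit 14)) (cs (rf (nat_lit 6)) (nd (nat_lit 274) (nat_lit 0) (cs (lf (nat_lit 41)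 (nat_lit 251)) (rf (nat_lit 21)))))))))))))))))) q48340 (by decide +kernel)
def q48424 : Q := Q.p (nat_lit 0x20000000000100003400001000000000000000000000000000000000000000000000000000000000) (nat_lit 0x200000f80003e8001f70007dc000ffc003ec000010000ac0000a000000000000000000000000000000000000000000000000000) (nat_lit 13)
theorem c48424 : QOK q48424 := cut [q47896, q45364, q45166, q46653, q14337, q48370, q45362, q47323, q42163, q48329, q48357, q48364, q48379, q48397, q45418, q41940, q46284] ⟨c47896, c45364, c45166, c46653, c14337, c48370, c45362, c47323, c42163, c48329, c48357, c48364, c48379, c48397, c45418, c41940, c46284, trivial⟩ (nd (nat_lit 318) (nat_lit 0) (cs (rf (nat_lit 0)) (cs (nd (nat_lit 294) (nat_lit 0) (cs (lf (nat_lit 28) (nat_lit 228)) (nd (nat_lit 207) (nat_lit 0) (cs (lf (nat_lit 34) (nat_lit 206)) (nd (nat_lit 205) (nat_lit 0) (cs (lf (nat_lit 46) (nat_lit 205)) (nd (nat_lit 315) (nat_lit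 0) (cs (lf (nat_lit 40) (nat_lit 227)) (nd (nat_lit 316) (nat_lit 0) (cs (lf (nat_lit 41) (nat_lit 249)) (rf (nat_lit 1)))))))))))) (cs (nd (nat_lit 294) (nat_lit 0) (cs (lf (nat_lit 28) (nat_lit 228)) (nd (nat_lit 316) (nat_lit 0) (cs (nd (nat_lit 315) (nat_lit 0) (cs (lf (nat_lit 41) (nat_lit 249)) (nd (nat_lit 293) (nat_lit 0) (cs (lf (nat_lit 36) (nat_lit 227)) (rf (nat_lit 2)))))) (cs (rf (nat_lit 3)) (nd (nat_lit 207) (nat_lit 0) (cs (lf (nat_lit 34) (nat_lit 206)) (nd (nat_lit 205) (nat_lit 0) (cs (lf (nat_lit 46) (nat_lit 205)) (nd (nat_lit 337) (nat_lit 0) (cs (lf (nat_lit 40) (nat_lit 249)) (nd (nat_lit 338) (nat_lit 0) (cs (lf (nat_lit 41) (nat_lit 271)) (lf (nat_lit 6) (nat_lit 315))))))))))))))) (cs (nd (nat_lit 315) (nat_lit 0) (cs (rf (nat_lit 4)) (cs (rf (nat_lit 5)) (nd (nat_lit 316) (nat_lit 0) (cs (rf (nat_lit 6)) (cs (rf (nat_lit 7)) (nd (nat_lit 295) (nat_lit 0) (cs (lf (nat_lit 27)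 (nat_lit 228)) (nd (nat_lit 340) (nat_lit 0) (cs (lf (nat_lit 5) (nat_lit 315)) (nd (nat_lit 362) (nat_lit 0) (cs (lf (nat_lit 42) (nat_lit 295)) (nd (nat_lit 296) (nat_lit 0) (cs (lf (nat_lit 12) (nat_lit 292)) (lf (nat_lit 47) (nat_lit 273)))))))))))))))) (cs (nd (nat_lit 296) (nat_lit 0) (cs (rf (nat_lit 8)) (cs (rf (nat_lit 9)) (cs (rf (nat_lit 10)) (cs (rf (nat_lit 11)) (rf (nat_lit 12))))))) (cs (rf (nat_lit 13)) (cs (nd (nat_lit 296) (nat_lit 0) (cs (rf (nat_lit 10)) (cs (nd (nat_lit 231) (nat_lit 0) (cs (lf (nat_lit 32) (nat_lit 230)) (nd (nat_lit 297) (nat_lit 0) (cs (lf (nat_lit 38) (nat_lit 230)) (nd (nat_lit 298) (nat_lit 0) (cs (lf (nat_lit 6) (nat_lit 295)) (nd (nat_lit 316) (nat_lit 0) (cs (lf (nat_lit 15) (nat_lit 294)) (lf (nat_lit 12) (nat_lit 293)))))))))) (nd (nat_lit 294) (nat_lit 0) (cs (lf (nat_lit 28) (nat_lit 228)) (nd (nat_lit 207) (nat_lit 0) (cs (lf (nat_lit 34) (nat_lit 206))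 (nd (nat_lit 205) (nat_lit 0) (cs (lf (nat_lit 46) (nat_lit 205)) (nd (nat_lit 315) (nat_lit 0) (cs (lf (nat_lit 40) (nat_lit 227)) (nd (nat_lit 316) (nat_lit 0) (cs (lf (nat_lit 41) (nat_lit 249)) (lf (nat_lit 17) (nat_lit 293))))))))))))))) (cs (nd (nat_lit 294) (nat_lit 0) (cs (lf (nat_lit 28) (nat_lit 228)) (nd (nat_lit 207) (nat_lit 0) (cs (lf (nat_lit 34) (nat_lit 206)) (nd (nat_lit 205) (nat_lit 0) (cs (lf (nat_lit 46) (nat_lit 205)) (nd (nat_lit 315) (nat_lit 0) (cs (lf (nat_lit 40) (nat_lit 227)) (nd (nat_lit 316) (nat_lit 0) (cs (lf (nat_lit 41) (nat_lit 249)) (nd (nat_lit 297) (nat_lit 0) (cs (lf (nat_lit 16) (nat_lit 293)) (nd (nat_lit 319) (nat_lit 0) (cs (lf (nat_lit 17) (nat_lit 294)) (rf (nat_lit 14)))))))))))))))) (cs (nd (nat_lit 296) (nat_lit 0) (cs (rf (nat_lit 15)) (cs (rf (nat_lit 8)) (cs (rf (nat_lit 16)) (cs (rf (nat_lit 11)) (rf (nat_lit 12))))))) (nd (nat_lit 294) (nat_lit 0) (cs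 (lf (nat_lit 28) (nat_lit 228)) (nd (nat_lit 207) (nat_lit 0) (cs (lf (nat_lit 34) (nat_lit 206)) (nd (nat_lit 205) (nat_lit 0) (cs (lf (nat_lit 46) (nat_lit 205)) (nd (nat_lit 315) (nat_lit 0) (cs (lf (nat_lit 40) (nat_lit 227)) (nd (nat_lit 316) (nat_lit 0) (cs (lf (nat_lit 41) (nat_lit 249)) (nd (nat_lit 296) (nat_lit 0) (cs (lf (nat_lit 17) (nat_lit 293)) (nd (nat_lit 274) (nat_lit 0) (cs (lf (nat_lit 35) (nat_lit 230)) (nd (nat_lit 341) (nat_lit 0) (cs (lf (nat_lit 4) (nat_lit 315)) (lf (nat_lit 28) (nat_lit 252)))))))))))))))))))))))))))) q48424 (by decide +kernel)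
def q48563 : Q := Q.p (nat_lit 0x40000100003400000000000000000000000000000000000000000000000000000000000000) (nat_lit 0x3bc000fe0003bc000c00000200009800002000000000000000000000000000000000000000000000000000) (nat_lit 12)
theorem c48563 : QOK q48563 := cut [q14124, q41488, q45297, q14247] ⟨c14124, c41488, c45297, c14247, trivial⟩ (nd (nat_lit 316) (nat_lit 0) (cs (rf (nat_lit 0)) (cs (rf (nat_lit 1)) (cs (rf (nat_lit 2)) (nd (nat_lit 317) (nat_lit 0) (cs (lf (nat_lit 29) (nat_lit 250)) (nd (nat_lit 228) (nat_lit 0) (cs (lf (nat_lit 28) (nat_lit 228)) (rf (nat_lit 3)))))))))) q48563 (by decide +kernel)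
def q48690 : Q := Q.p (nat_lit 0x100003400000000010000040000000000000000000000000000000000000000000000) (nat_lit 0x320000f80003f0003fe0007f8001ee000020000b00000e0000a8000000000000000000000000000000000000000000000) (nat_lit 15)
theorem c48690 : QOK q48690 := cut [q45139, q48566, q48639, q14184, q48634, q44498, q14516, q48654, q48665, q45203, q48676, q45365, q46652, q48681, q46555, q48688] ⟨c45139, c48566, c48639, c14184, c48634, c44498, c14516, c48654, c48665, c45203, c48676, c45365, c46652, c48681, c46555, c48688, trivial⟩ (nd (nat_lit 294) (nat_lit 0) (cs (rf (nat_lit 0)) (cs (rf (nat_lit 1)) (cs (rf (nat_lit 2)) (cs (nd (nat_lit 316) (nat_lit 0) (cs (rf (nat_lit 3)) (cs (rf (nat_lit 4)) (cs (nd (nat_lit 337) (nat_lit 0) (cs (lf (nat_lit 40) (nat_lit 249)) (nd (nat_lit 338) (nat_lit 0) (cs (lf (nat_lit 41) (nat_lit 271)) (nd (nat_lit 271) (nat_lit 0) (cs (lf (nat_lit 47) (nat_lit 249)) (nd (nat_lit 273)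 (nat_lit 0) (cs (lf (nat_lit 15) (nat_lit 249)) (nd (nat_lit 339) (nat_lit 0) (cs (lf (nat_lit 29) (nat_lit 272)) (nd (nat_lit 295) (nat_lit 0) (cs (lf (nat_lit 30) (nat_lit 272)) (rf (nat_lit 5)))))))))))))) (nd (nat_lit 337) (nat_lit 0) (cs (lf (nat_lit 40) (nat_lit 249)) (nd (nat_lit 338) (nat_lit 0) (cs (lf (nat_lit 41) (nat_lit 271)) (nd (nat_lit 271) (nat_lit 0) (cs (lf (nat_lit 47) (nat_lit 249)) (nd (nat_lit 273) (nat_lit 0) (cs (lf (nat_lit 15) (nat_lit 249)) (nd (nat_lit 295) (nat_lit 0) (cs (rf (nat_lit 6)) (lf (nat_lit 30) (nat_lit 272)))))))))))))))) (cs (nd (nat_lit 316) (nat_lit 0) (cs (rf (nat_lit 3)) (cs (nd (nat_lit 339) (nat_lit 0) (cs (lf (nat_lit 28) (nat_lit 250)) (nd (nat_lit 338) (nat_lit 0) (cs (lf (nat_lit 29) (nat_lit 272)) (nd (nat_lit 359) (nat_lit 0) (cs (lf (nat_lit 40) (nat_lit 271)) (nd (nat_lit 271) (nat_lit 0) (cs (lf (nat_lit 47) (nat_lit 249)) (rf (nat_lit 7))))))))))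 (cs (nd (nat_lit 339) (nat_lit 0) (cs (lf (nat_lit 28) (nat_lit 250)) (nd (nat_lit 338) (nat_lit 0) (cs (lf (nat_lit 29) (nat_lit 272)) (nd (nat_lit 271) (nat_lit 0) (cs (lf (nat_lit 47) (nat_lit 249)) (nd (nat_lit 273) (nat_lit 0) (cs (lf (nat_lit 15) (nat_lit 249)) (nd (nat_lit 293) (nat_lit 0) (cs (lf (nat_lit 42) (nat_lit 271)) (nd (nat_lit 228) (nat_lit 0) (cs (lf (nat_lit 41) (nat_lit 227)) (lf (nat_lit 36) (nat_lit 205)))))))))))))) (rf (nat_lit 8)))))) (cs (nd (nat_lit 293) (nat_lit 0) (cs (rf (nat_lit 9)) (rf (nat_lit 10)))) (cs (nd (nat_lit 316) (nat_lit 0) (cs (rf (nat_lit 3)) (cs (nd (nat_lit 317) (nat_lit 0) (cs (lf (nat_lit 29) (nat_lit 250)) (nd (nat_lit 318) (nat_lit 0) (cs (rf (nat_lit 11)) (rf (nat_lit 12)))))) (cs (nd (nat_lit 339) (nat_lit 0) (cs (lf (nat_lit 28) (nat_lit 250)) (nd (nat_lit 338) (nat_lit 0) (cs (lf (nat_lit 29) (nat_lit 272)) (rf (nat_lit 13)))))) (nd (nat_lit 337) (nat_lit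 0) (cs (lf (nat_lit 40) (nat_lit 249)) (nd (nat_lit 338) (nat_lit 0) (cs (lf (nat_lit 41) (nat_lit 271)) (rf (nat_lit 13)))))))))) (nd (nat_lit 317) (nat_lit 0) (cs (rf (nat_lit 14)) (cs (nd (nat_lit 316) (nat_lit 0) (cs (lf (nat_lit 29) (nat_lit 250)) (rf (nat_lit 8)))) (rf (nat_lit 15))))))))))))) q48690 (by decide +kernel)
def q48851 : Q := Q.p (nat_lit 0x8000180000080000000000000000000000000000000000000000000000000000000000000) (nat_lit 0x400001c00007000004000070000040000700001c00007000014000000000000000000000000000000000000000) (nat_lit 8)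
theorem c48851 : QOK q48851 := cut [q48702, q48711, q48836, q48839] ⟨c48702, c48711, c48836, c48839, trivial⟩ (nd (nat_lit 269) (nat_lit 0) (cs (rf (nat_lit 0)) (cs (rf (nat_lit 1)) (cs (rf (nat_lit 2)) (rf (nat_lit 3)))))) q48851 (by decide +kernel)
def q48918 : Q := Q.p (nat_lit 0x180003480000000000000000000000000000000000000000000000000000000000000) (nat_lit 0x100000700003c0001f00007f000678000240000f00003c00007000004000000000000000000000000000000000000000) (nat_lit 12)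
theorem c48918 : QOK q48918 := cut [q45667, q48691, q48716, q48717, q48722, q48860, q46785, q48862, q47291, q48708, q48772, q48703, q48874, q48877, q48727, q48884, q48896, q48906, q48738, q48790] ⟨c45667, c48691, c48716, c48717, c48722, c48860, c46785, c48862, c47291, c48708, c48772, c48703, c48874, c48877, c48727, c48884, c48896, c48906, c48738, c48790, trivial⟩ (nd (nat_lit 269) (nat_lit 0) (cs (rf (nat_lit 0)) (cs (rf (nat_lit 1)) (cs (rf (nat_lit 2)) (cs (rf (nat_lit 3)) (cs (rf (nat_lit 4)) (nd (nat_lit 291) (nat_lit 0) (cs (rf (nat_lit 5)) (cs (nd (nat_lit 225) (nat_lit 0) (cs (rf (nat_lit 6)) (nd (nat_lit 273) (nat_lit 0) (cs (lf (nat_lit 15) (nat_lit 249)) (rf (nat_lit 7)))))) (cs (nd (nat_lit 313) (nat_lit 0) (cs (rf (nat_lit 8)) (cs (rf (nat_lit 9)) (cs (rf (nat_lit 10)) (nd (nat_lit 315) (nat_lit 0) (cs (nd (nat_lit 273) (nat_lit 0) (cs (lf (nat_lit 15) (nat_lit 249)) (nd (nat_lit 314) (nat_lit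 0) (cs (lf (nat_lit 29) (nat_lit 247)) (nd (nat_lit 293) (nat_lit 0) (cs (lf (nat_lit 30) (nat_lit 249)) (nd (nat_lit 290) (nat_lit 0) (cs (lf (nat_lit 14) (nat_lit 268)) (lf (nat_lit 18) (nat_lit 290)))))))))) (cs (nd (nat_lit 273) (nat_lit 0) (cs (lf (nat_lit 15) (nat_lit 249)) (nd (nat_lit 312) (nat_lit 0) (cs (lf (nat_lit 41) (nat_lit 246)) (nd (nat_lit 224) (nat_lit 0) (cs (lf (nat_lit 46) (nat_lit 224)) (nd (nat_lit 293) (nat_lit 0) (cs (lf (nat_lit 30) (nat_lit 249)) (rf (nat_lit 11)))))))))) (cs (nd (nat_lit 314) (nat_lit 0) (cs (lf (nat_lit 29) (nat_lit 247)) (nd (nat_lit 293) (nat_lit 0) (cs (lf (nat_lit 30) (nat_lit 249)) (rf (nat_lit 12)))))) (nd (nat_lit 312) (nat_lit 0) (cs (lf (nat_lit 41) (nat_lit 246)) (nd (nat_lit 273) (nat_lit 0) (cs (lf (nat_lit 15) (nat_lit 249)) (nd (nat_lit 224) (nat_lit 0) (cs (lf (nat_lit 46) (nat_lit 224)) (nd (nat_lit 314) (nat_lit 0) (cs (lf (nat_lit 29) (nat_lit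 247)) (rf (nat_lit 13)))))))))))))))))) (cs (nd (nat_lit 225) (nat_lit 0) (cs (rf (nat_lit 6)) (cs (rf (nat_lit 14)) (nd (nat_lit 273) (nat_lit 0) (cs (lf (nat_lit 15) (nat_lit 249)) (nd (nat_lit 204) (nat_lit 0) (cs (lf (nat_lit 34) (nat_lit 203)) (nd (nat_lit 182) (nat_lit 0) (cs (lf (nat_lit 33) (nat_lit 181)) (nd (nat_lit 292) (nat_lit 0) (cs (lf (nat_lit 29) (nat_lit 225)) (rf (nat_lit 15))))))))))))) (cs (nd (nat_lit 313) (nat_lit 0) (cs (rf (nat_lit 8)) (cs (nd (nat_lit 273) (nat_lit 0) (cs (lf (nat_lit 15) (nat_lit 249)) (rf (nat_lit 16)))) (cs (nd (nat_lit 273) (nat_lit 0) (cs (lf (nat_lit 15) (nat_lit 249)) (rf (nat_lit 17)))) (nd (nat_lit 273) (nat_lit 0) (cs (lf (nat_lit 15) (nat_lit 249)) (nd (nat_lit 312) (nat_lit 0) (cs (lf (nat_lit 41) (nat_lit 246)) (nd (nat_lit 290) (nat_lit 0) (cs (nd (nat_lit 293) (nat_lit 0) (cs (lf (nat_lit 14) (nat_lit 268)) (nd (nat_lit 315) (nat_lit 0) (cs (lf (nat_lit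 30) (nat_lit 249)) (nd (nat_lit 314) (nat_lit 0) (cs (lf (nat_lit 23) (nat_lit 289)) (lf (nat_lit 18) (nat_lit 290)))))))) (lf (nat_lit 36) (nat_lit 224)))))))))))) (nd (nat_lit 225) (nat_lit 0) (cs (rf (nat_lit 6)) (cs (rf (nat_lit 18)) (rf (nat_lit 19))))))))))))))))) q48918 (by decide +kernel)
def q49083 : Q := Q.p (nat_lit 0x180003480000000010000040000000000000000000000000000000000000000000000) (nat_lit 0x50000fe000ff00037f000670000240009d0000f4000bf0000a0000000000000000000000000000000000000000) (nat_lit 13)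
theorem c49083 : QOK q49083 := cut [q49075, q44540, q44544, q44915, q44910, q48605, q17126, q41228] ⟨c49075, c44540, c44544, c44915, c44910, c48605, c17126, c41228, trivial⟩ (nd (nat_lit 206) (nat_lit 0) (cs (rf (nat_lit 0)) (cs (nd (nat_lit 205) (nat_lit 0) (cs (rf (nat_lit 1)) (cs (rf (nat_lit 2)) (cs (rf (nat_lit 3)) (nd (nat_lit 273) (nat_lit 0) (cs (lf (nat_lit 15) (nat_lit 249)) (nd (nat_lit 228) (nat_lit 0) (cs (lf (nat_lit 47) (nat_lit 183)) (rf (nat_lit 4)))))))))) (cs (nd (nat_lit 273) (nat_lit 0) (cs (lf (nat_lit 15) (nat_lit 249)) (nd (nat_lit 228) (nat_lit 0) (cs (lf (nat_lit 41) (nat_lit 205)) (rf (nat_lit 5)))))) (cs (nd (nat_lit 228) (nat_lit 0) (cs (lf (nat_lit 41) (nat_lit 205)) (rf (nat_lit 6)))) (nd (nat_lit 228) (nat_lit 0) (cs (lf (nat_lit 41) (nat_lit 205)) (rf (nat_lit 7))))))))) q49083 (by decide +kernel)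
def q49305 : Q := Q.p (nat_lit 0x1000004c0000200000000000000000000000000000000000000000000000000000000) (nat_lit 0x140000700003c0000e0000130001d0000fc0003e0000b0000000000000000000000000000000000000000) (nat_lit 9)
theorem c49305 : QOK q49305 := cut [q49216, q49224, q49303] ⟨c49216, c49224, c49303, trivial⟩ (nd (nat_lit 226) (nat_lit 0) (cs (rf (nat_lit 0)) (cs (rf (nat_lit 1)) (nd (nat_lit 245) (nat_lit 0) (cs (lf (nat_lit 12) (nat_lit 222)) (rf (nat_lit 2))))))) q49305 (by decide +kernel)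
def q49598 : Q := Q.p (nat_lit 0x1000034c0000000010000040000000000000000000000000000000000000000000000) (nat_lit 0x200003d0000fe0003fc0007f0006fe000100003ff000ff800bff000f4000080000000000000000000000000000000000) (nat_lit 13)
theorem c49598 : QOK q49598 := cut [q49462, q49514, q49522, q49541, q49552, q49555, q48835, q49171, q49551, q46785, q48790, q48829, q45697, q49580, q49590, q49596, q49597] ⟨c49462, c49514, c49522, c49541, c49552, c49555, c48835, c49171, c49551, c46785, c48790, c48829, c45697, c49580, c49590, c49596, c49597, trivial⟩ (nd (nat_lit 269) (nat_lit 0) (cs (rf (nat_lit 0)) (cs (rf (nat_lit 1)) (cs (rf (nat_lit 2)) (cs (rf (nat_lit 3)) (cs (rf (nat_lit 4)) (cs (rf (nat_lit 5)) (cs (nd (nat_lit 291) (nat_lit 0) (cs (rf (nat_lit 6)) (cs (rf (nat_lit 7)) (cs (rf (nat_lit 8)) (nd (nat_lit 225) (nat_lit 0) (cs (rf (nat_lit 9)) (cs (rf (nat_lit 10)) (cs (rf (nat_lit 11)) (nd (nat_lit 224) (nat_lit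 0) (cs (rf (nat_lit 12)) (nd (nat_lit 292) (nat_lit 0) (cs (lf (nat_lit 29) (nat_lit 225)) (nd (nat_lit 290) (nat_lit 0) (cs (lf (nat_lit 41) (nat_lit 224)) (nd (nat_lit 226) (nat_lit 0) (cs (lf (nat_lit 35) (nat_lit 203)) (nd (nat_lit 227) (nat_lit 0) (cs (lf (nat_lit 6) (nat_lit 224)) (nd (nat_lit 205) (nat_lit 0) (cs (lf (nat_lit 17) (nat_lit 202)) (nd (nat_lit 248) (nat_lit 0) (cs (nd (nat_lit 223) (nat_lit 0) (cs (nd (nat_lit 201) (nat_lit 0) (cs (lf (nat_lit 23) (nat_lit 200)) (lf (nat_lit 43) (nat_lit 201)))) (lf (nat_lit 0) (nat_lit 222)))) (lf (nat_lit 31) (nat_lit 204)))))))))))))))))))))))) (cs (rf (nat_lit 13)) (cs (rf (nat_lit 14)) (cs (rf (nat_lit 15)) (rf (nat_lit 16))))))))))))) q49598 (by decide +kernel)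
def q49910 : Q := Q.p (nat_lit 0x1000004c0000000010000040000000000000000000000000000000000000000000000) (nat_lit 0x100000780001e0005f8000df000138003ff000ff800bfe0003f80005a000000000000000000000000000000000) (nat_lit 13)
theorem c49910 : QOK q49910 := cut [q49612, q49616, q49711, q49712, q49733, q49240, q49243, q49200, q49206, q49694, q49745, q49680, q49753, q49761, q41051, q45595, q49204, q49812, q49850, q49909] ⟨c49612, c49616, c49711, c49712, c49733, c49240, c49243, c49200, c49206, c49694, c49745, c49680, c49753, c49761, c41051, c45595, c49204, c49812, c49850, c49909, trivial⟩ (nd (nat_lit 245) (nat_lit 0) (cs (rf (nat_lit 0)) (cs (rf (nat_lit 1)) (cs (rf (nat_lit 2)) (cs (rf (nat_lit 3)) (cs (rf (nat_lit 4)) (cs (nd (nat_lit 225) (nat_lit 0) (cs (rf (nat_lit 5)) (cs (rf (nat_lit 6)) (cs (nd (nat_lit 203) (nat_lit 0) (cs (rf (nat_lit 7)) (cs (rf (nat_lit 8)) (cs (nd (nat_lit 267) (nat_lit 0) (cs (nd (nat_lit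 290) (nat_lit 0) (cs (nd (nat_lit 268) (nat_lit 0) (cs (lf (nat_lit 33) (nat_lit 202)) (lf (nat_lit 30) (nat_lit 224)))) (cs (nd (nat_lit 289) (nat_lit 0) (cs (rf (nat_lit 9)) (cs (nd (nat_lit 223) (nat_lit 0) (cs (lf (nat_lit 29) (nat_lit 223)) (nd (nat_lit 288) (nat_lit 0) (cs (lf (nat_lit 41) (nat_lit 222)) (nd (nat_lit 202) (nat_lit 0) (cs (nd (nat_lit 201) (nat_lit 0) (cs (nd (nat_lit 178) (nat_lit 0) (cs (lf (nat_lit 46) (nat_lit 178)) (nd (nat_lit 179) (nat_lit 0) (cs (lf (nat_lit 47) (nat_lit 156)) (lf (nat_lit 18) (nat_lit 178)))))) (lf (nat_lit 35) (nat_lit 179)))) (lf (nat_lit 34) (nat_lit 201)))))))) (cs (nd (nat_lit 312) (nat_lit 0) (cs (rf (nat_lit 10)) (lf (nat_lit 24) (nat_lit 223)))) (nd (nat_lit 311) (nat_lit 0) (cs (lf (nat_lit 35) (nat_lit 223)) (nd (nat_lit 312) (nat_lit 0) (cs (lf (nat_lit 29) (nat_lit 245)) (nd (nat_lit 310) (nat_lit 0) (cs (lf (nat_lit 41) (nat_lit 244)) (rf (nat_lit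 11)))))))))))) (cs (nd (nat_lit 224) (nat_lit 0) (cs (lf (nat_lit 31) (nat_lit 202)) (rf (nat_lit 12)))) (nd (nat_lit 312) (nat_lit 0) (cs (nd (nat_lit 289) (nat_lit 0) (cs (rf (nat_lit 10)) (lf (nat_lit 24) (nat_lit 223)))) (lf (nat_lit 32) (nat_lit 224)))))))) (rf (nat_lit 13)))) (nd (nat_lit 181) (nat_lit 0) (cs (rf (nat_lit 14)) (cs (rf (nat_lit 15)) (cs (rf (nat_lit 16)) (nd (nat_lit 180) (nat_lit 0) (cs (lf (nat_lit 47) (nat_lit 158)) (nd (nat_lit 182) (nat_lit 0) (cs (lf (nat_lit 35) (nat_lit 159)) (nd (nat_lit 248) (nat_lit 0) (cs (lf (nat_lit 29) (nat_lit 181)) (nd (nat_lit 267) (nat_lit 0) (cs (lf (nat_lit 11) (nat_lit 244)) (nd (nat_lit 202) (nat_lit 0) (cs (lf (nat_lit 38) (nat_lit 179)) (nd (nat_lit 201) (nat_lit 0) (cs (lf (nat_lit 6) (nat_lit 179)) (lf (nat_lit 32) (nat_lit 179)))))))))))))))))))))) (rf (nat_lit 17)))))) (cs (rf (nat_lit 18)) (rf (nat_lit 19)))))))))) q49910 (by decide +kernel)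
def q50088 : Q := Q.p (nat_lit 0x1800034e0000000010000040000000000000000000000000000000000000000000000) (nat_lit 0x20000380000e000038000060000600000100003e0000f8000bf0000e0000080000000000000000000000000000000000) (nat_lit 10)
theorem c50088 : QOK q50088 := cut [q49444, q50081, q44549, q44887, q50083] ⟨c49444, c50081, c44549, c44887, c50083, trivial⟩ (nd (nat_lit 228) (nat_lit 0) (cs (rf (nat_lit 0)) (cs (rf (nat_lit 1)) (cs (nd (nat_lit 206) (nat_lit 0) (cs (rf (nat_lit 2)) (cs (rf (nat_lit 3)) (nd (nat_lit 273) (nat_lit 0) (cs (lf (nat_lit 15) (nat_lit 249)) (rf (nat_lit 4))))))) (nd (nat_lit 273) (nat_lit 0) (cs (lf (nat_lit 15) (nat_lit 249)) (nd (nat_lit 206) (nat_lit 0) (cs (lf (nat_lit 41) (nat_lit 205)) (rf (nat_lit 4)))))))))) q50088 (by decide +kernel)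
def q50192 : Q := Q.p (nat_lit 0x1000034e0000200000000040000000000000000000000000000000000000000000000) (nat_lit 0x20000380000e00003b00007c0006e0000100003d0000e4000b80000e0000080000000000000000000000000000000000) (nat_lit 11)
theorem c50192 : QOK q50192 := cut [q50074, q48979, q48954, q50184, q49444, q49448, q50081] ⟨c50074, c48979, c48954, c50184, c49444, c49448, c50081, trivial⟩ (nd (nat_lit 271) (nat_lit 0) (cs (rf (nat_lit 0)) (cs (nd (nat_lit 291) (nat_lit 0) (cs (rf (nat_lit 1)) (cs (nd (nat_lit 293) (nat_lit 0) (cs (rf (nat_lit 2)) (nd (nat_lit 273) (nat_lit 0) (cs (lf (nat_lit 15) (nat_lit 249)) (nd (nat_lit 290) (nat_lit 0) (cs (lf (nat_lit 14) (nat_lit 268)) (nd (nat_lit 269) (nat_lit 0) (cs (lf (nat_lit 41) (nat_lit 224)) (rf (nat_lit 3)))))))))) (nd (nat_lit 269) (nat_lit 0) (cs (lf (nat_lit 20) (nat_lit 246)) (rf (nat_lit 3))))))) (nd (nat_lit 228) (nat_lit 0) (cs (rf (nat_lit 4)) (cs (rf (nat_lit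 5)) (rf (nat_lit 6)))))))) q50192 (by decide +kernel)
def q50496 : Q := Q.p (nat_lit 0x1000000c0000000000000000000000000000000000000000000000000000000000000) (nat_lit 0x40000700005c000370002ff000138001ff000ff8000ff0001f000054000000000000000000000000000000000) (nat_lit 13)
theorem c50496 : QOK q50496 := cut [q50264, q50414, q49206, q49201, q49255, q50418, q46597, q50423, q50426, q49203, q49308, q50437, q50445, q50451, q50453, q49205, q49216, q50310, q50456, q49309, q49355, q50477, q50484, q49197, q49460, q49240, q49243, q49262, q49239, q49242, q49200, q47306] ⟨c50264, c50414, c49206, c49201, c49255, c50418, c46597, c50423, c50426, c49203, c49308, c50437, c50445, c50451, c50453, c49205, c49216, c50310, c50456, c49309, c49355, c50477, c50484, c49197, c49460, c49240, c49243, c49262, c49239, c49242, c49200, c47306, trivial⟩ (nd (nat_lit 225) (nat_lit 0) (cs (rf (nat_lit 0)) (cs (rf (nat_lit 1)) (cs (nd (nat_lit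 203) (nat_lit 0) (cs (rf (nat_lit 2)) (nd (nat_lit 270) (nat_lit 0) (cs (rf (nat_lit 3)) (cs (nd (nat_lit 245) (nat_lit 0) (cs (nd (nat_lit 244) (nat_lit 0) (cs (rf (nat_lit 4)) (lf (nat_lit 17) (nat_lit 222)))) (cs (rf (nat_lit 5)) (nd (nat_lit 248) (nat_lit 0) (cs (rf (nat_lit 6)) (lf (nat_lit 5) (nat_lit 245))))))) (cs (rf (nat_lit 7)) (rf (nat_lit 8)))))))) (cs (nd (nat_lit 203) (nat_lit 0) (cs (rf (nat_lit 9)) (cs (rf (nat_lit 2)) (nd (nat_lit 268) (nat_lit 0) (cs (rf (nat_lit 10)) (cs (nd (nat_lit 202) (nat_lit 0) (cs (nd (nat_lit 267) (nat_lit 0) (cs (nd (nat_lit 266) (nat_lit 0) (cs (lf (nat_lit 12) (nat_lit 243)) (nd (nat_lit 248) (nat_lit 0) (cs (lf (nat_lit 15) (nat_lit 244)) (lf (nat_lit 9) (nat_lit 244)))))) (cs (nd (nat_lit 224) (nat_lit 0) (cs (lf (nat_lit 41) (nat_lit 201)) (nd (nat_lit 265) (nat_lit 0) (cs (lf (nat_lit 13) (nat_lit 243)) (rf (nat_lit 11)))))) (nd (nat_lit 224) (nat_lit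 0) (cs (lf (nat_lit 41) (nat_lit 201)) (rf (nat_lit 12))))))) (cs (nd (nat_lit 224) (nat_lit 0) (cs (rf (nat_lit 11)) (nd (nat_lit 267) (nat_lit 0) (cs (lf (nat_lit 41) (nat_lit 201)) (nd (nat_lit 180) (nat_lit 0) (cs (lf (nat_lit 40) (nat_lit 179)) (lf (nat_lit 24) (nat_lit 158)))))))) (rf (nat_lit 13))))) (rf (nat_lit 14)))))))) (cs (nd (nat_lit 203) (nat_lit 0) (cs (rf (nat_lit 9)) (cs (rf (nat_lit 15)) (cs (rf (nat_lit 2)) (nd (nat_lit 268) (nat_lit 0) (cs (rf (nat_lit 10)) (cs (rf (nat_lit 14)) (nd (nat_lit 270) (nat_lit 0) (cs (rf (nat_lit 3)) (cs (rf (nat_lit 7)) (cs (rf (nat_lit 8)) (nd (nat_lit 226) (nat_lit 0) (cs (rf (nat_lit 16)) (cs (rf (nat_lit 17)) (nd (nat_lit 248) (nat_lit 0) (cs (lf (nat_lit 42) (nat_lit 203)) (nd (nat_lit 271) (nat_lit 0) (cs (lf (nat_lit 18) (nat_lit 247)) (nd (nat_lit 204) (nat_lit 0) (cs (lf (nat_lit 29) (nat_lit 204)) (nd (nat_lit 160) (nat_lit 0) (cs (lf (nat_lit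 37) (nat_lit 159)) (rf (nat_lit 18)))))))))))))))))))))))) (cs (nd (nat_lit 268) (nat_lit 0) (cs (rf (nat_lit 19)) (cs (rf (nat_lit 20)) (cs (rf (nat_lit 21)) (rf (nat_lit 22)))))) (cs (nd (nat_lit 203) (nat_lit 0) (cs (rf (nat_lit 9)) (cs (rf (nat_lit 15)) (cs (rf (nat_lit 2)) (nd (nat_lit 269) (nat_lit 0) (cs (rf (nat_lit 23)) (rf (nat_lit 24)))))))) (nd (nat_lit 245) (nat_lit 0) (cs (rf (nat_lit 25)) (cs (rf (nat_lit 26)) (cs (rf (nat_lit 27)) (nd (nat_lit 226) (nat_lit 0) (cs (rf (nat_lit 28)) (cs (rf (nat_lit 29)) (nd (nat_lit 270) (nat_lit 0) (cs (rf (nat_lit 8)) (cs (nd (nat_lit 269) (nat_lit 0) (cs (lf (nat_lit 19) (nat_lit 246)) (nd (nat_lit 203) (nat_lit 0) (cs (lf (nat_lit 29) (nat_lit 203)) (nd (nat_lit 268) (nat_lit 0) (cs (lf (nat_lit 41) (nat_lit 202)) (lf (nat_lit 36) (nat_lit 180)))))))) (cs (nd (nat_lit 203) (nat_lit 0) (cs (rf (nat_lit 30)) (rf (nat_lit 7)))) (nd (nat_lit 248) (nat_lit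 0) (cs (rf (nat_lit 31)) (lf (nat_lit 5) (nat_lit 245))))))))))))))))))))))) q50496 (by decide +kernel)
def q50530 : Q := Q.p (nat_lit 0x1000034c0000000010000040000000000000000000000000000000000000000000000) (nat_lit 0x500001c0000f00007b0006ff000138003ff000ff800bfe000ff8000f40001c0000500000000000000000000000) (nat_lit 13)
theorem c50530 : QOK q50530 := cut [q49240, q49243, q49262, q49239, q49242, q49200, q49206, q49287, q41051, q45595, q49204, q50183, q50270, q50381, q50412, q49224, q49217, q49225, q47292, q50184, q49647, q50504, q50509, q49205, q49403, q50524, q50158, q50353] ⟨c49240, c49243, c49262, c49239, c49242, c49200, c49206, c49287, c41051, c45595, c49204, c50183, c50270, c50381, c50412, c49224, c49217, c49225, c47292, c50184, c49647, c50504, c50509, c49205, c49403, c50524, c50158, c50353, trivial⟩ (nd (nat_lit 225) (nat_lit 0) (cs (nd (nat_lit 245) (nat_lit 0) (cs (rf (nat_lit 0)) (cs (rf (nat_lit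 1)) (cs (rf (nat_lit 2)) (nd (nat_lit 226) (nat_lit 0) (cs (rf (nat_lit 3)) (cs (rf (nat_lit 4)) (nd (nat_lit 203) (nat_lit 0) (cs (rf (nat_lit 5)) (cs (rf (nat_lit 6)) (cs (rf (nat_lit 7)) (nd (nat_lit 181) (nat_lit 0) (cs (rf (nat_lit 8)) (cs (rf (nat_lit 9)) (cs (rf (nat_lit 10)) (nd (nat_lit 180) (nat_lit 0) (cs (lf (nat_lit 47) (nat_lit 158)) (nd (nat_lit 160) (nat_lit 0) (cs (lf (nat_lit 34) (nat_lit 159)) (nd (nat_lit 248) (nat_lit 0) (cs (lf (nat_lit 29) (nat_lit 181)) (nd (nat_lit 223) (nat_lit 0) (cs (lf (nat_lit 23) (nat_lit 222)) (nd (nat_lit 267) (nat_lit 0) (cs (lf (nat_lit 11) (nat_lit 244)) (nd (nat_lit 202) (nat_lit 0) (cs (lf (nat_lit 33) (nat_lit 179)) (lf (nat_lit 38) (nat_lit 179))))))))))))))))))))))))))))) (cs (rf (nat_lit 11)) (cs (rf (nat_lit 12)) (cs (rf (nat_lit 13)) (cs (rf (nat_lit 14)) (cs (nd (nat_lit 245) (nat_lit 0) (cs (rf (nat_lit 0)) (cs (rf (nat_lit 1)) (cs (rf (nat_lit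 2)) (nd (nat_lit 226) (nat_lit 0) (cs (rf (nat_lit 15)) (cs (rf (nat_lit 3)) (nd (nat_lit 269) (nat_lit 0) (cs (rf (nat_lit 16)) (cs (nd (nat_lit 270) (nat_lit 0) (cs (lf (nat_lit 19) (nat_lit 246)) (nd (nat_lit 248) (nat_lit 0) (cs (nd (nat_lit 223) (nat_lit 0) (cs (nd (nat_lit 204) (nat_lit 0) (cs (lf (nat_lit 36) (nat_lit 181)) (rf (nat_lit 17)))) (lf (nat_lit 23) (nat_lit 222)))) (nd (nat_lit 267) (nat_lit 0) (cs (nd (nat_lit 292) (nat_lit 0) (cs (lf (nat_lit 42) (nat_lit 225)) (nd (nat_lit 293) (nat_lit 0) (cs (lf (nat_lit 29) (nat_lit 226)) (lf (nat_lit 1) (nat_lit 267)))))) (lf (nat_lit 11) (nat_lit 244)))))))) (cs (nd (nat_lit 291) (nat_lit 0) (cs (rf (nat_lit 18)) (cs (rf (nat_lit 19)) (nd (nat_lit 223) (nat_lit 0) (cs (rf (nat_lit 20)) (cs (nd (nat_lit 270) (nat_lit 0) (cs (lf (nat_lit 19) (nat_lit 246)) (nd (nat_lit 292) (nat_lit 0) (cs (lf (nat_lit 29) (nat_lit 225)) (nd (nat_lit 248) (nat_lit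 0) (cs (lf (nat_lit 23) (nat_lit 222)) (nd (nat_lit 266) (nat_lit 0) (cs (lf (nat_lit 10) (nat_lit 244)) (nd (nat_lit 293) (nat_lit 0) (cs (lf (nat_lit 29) (nat_lit 226)) (nd (nat_lit 294) (nat_lit 0) (cs (lf (nat_lit 23) (nat_lit 268)) (lf (nat_lit 17) (nat_lit 269)))))))))))))) (nd (nat_lit 224) (nat_lit 0) (cs (lf (nat_lit 47) (nat_lit 202)) (nd (nat_lit 270) (nat_lit 0) (cs (lf (nat_lit 19) (nat_lit 246)) (rf (nat_lit 21)))))))))))) (nd (nat_lit 270) (nat_lit 0) (cs (lf (nat_lit 19) (nat_lit 246)) (rf (nat_lit 22))))))))))))))) (cs (nd (nat_lit 203) (nat_lit 0) (cs (rf (nat_lit 5)) (cs (rf (nat_lit 23)) (cs (rf (nat_lit 6)) (cs (rf (nat_lit 24)) (rf (nat_lit 25))))))) (nd (nat_lit 245) (nat_lit 0) (cs (rf (nat_lit 0)) (cs (rf (nat_lit 1)) (cs (rf (nat_lit 2)) (nd (nat_lit 226) (nat_lit 0) (cs (rf (nat_lit 3)) (cs (rf (nat_lit 4)) (nd (nat_lit 269) (nat_lit 0) (cs (rf (nat_lit 26)) (cs (rf (nat_lit 27))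 (rf (nat_lit 22)))))))))))))))))))) q50530 (by decide +kernel)
def q50766 : Q := Q.p (nat_lit 0x1000034c0000000000000040000000000000000000000000000000000000000000000) (nat_lit 0x20000380000f00003ee0007f8006ff000138003ff000ff800bff000ff8000b0000000000000000000000000000000000) (nat_lit 13)
theorem c50766 : QOK q50766 := cut [q49462, q50684, q49616, q49943, q50685, q50692, q50059, q50707, q46798, q47043, q49217, q49239, q50036, q50683, q50725, q50630, q49407, q50734, q50744, q50401, q50753, q50761, q49621, q50702, q49753] ⟨c49462, c50684, c49616, c49943, c50685, c50692, c50059, c50707, c46798, c47043, c49217, c49239, c50036, c50683, c50725, c50630, c49407, c50734, c50744, c50401, c50753, c50761, c49621, c50702, c49753, trivial⟩ (nd (nat_lit 269) (nat_lit 0) (cs (rf (nat_lit 0)) (cs (rf (nat_lit 1)) (cs (nd (nat_lit 245) (nat_lit 0) (cs (rf (nat_lit 2)) (cs (rf (nat_lit 3)) (nd (nat_lit 270) (nat_lit 0) (cs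 (lf (nat_lit 19) (nat_lit 246)) (nd (nat_lit 292) (nat_lit 0) (cs (rf (nat_lit 4)) (cs (rf (nat_lit 5)) (nd (nat_lit 248) (nat_lit 0) (cs (rf (nat_lit 6)) (nd (nat_lit 223) (nat_lit 0) (cs (lf (nat_lit 23) (nat_lit 222)) (nd (nat_lit 267) (nat_lit 0) (cs (lf (nat_lit 11) (nat_lit 244)) (nd (nat_lit 268) (nat_lit 0) (cs (lf (nat_lit 5) (nat_lit 267)) (nd (nat_lit 201) (nat_lit 0) (cs (lf (nat_lit 24) (nat_lit 179)) (lf (nat_lit 29) (nat_lit 201)))))))))))))))))))) (cs (rf (nat_lit 7)) (cs (nd (nat_lit 270) (nat_lit 0) (cs (lf (nat_lit 19) (nat_lit 246)) (nd (nat_lit 245) (nat_lit 0) (cs (lf (nat_lit 0) (nat_lit 244)) (nd (nat_lit 225) (nat_lit 0) (cs (rf (nat_lit 8)) (cs (rf (nat_lit 9)) (nd (nat_lit 226) (nat_lit 0) (cs (rf (nat_lit 10)) (rf (nat_lit 11))))))))))) (cs (nd (nat_lit 224) (nat_lit 0) (cs (rf (nat_lit 12)) (cs (rf (nat_lit 13)) (cs (rf (nat_lit 14)) (cs (nd (nat_lit 203) (nat_lit 0) (cs (nd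 (nat_lit 270) (nat_lit 0) (cs (lf (nat_lit 19) (nat_lit 246)) (nd (nat_lit 244) (nat_lit 0) (cs (lf (nat_lit 1) (nat_lit 244)) (nd (nat_lit 225) (nat_lit 0) (cs (lf (nat_lit 29) (nat_lit 203)) (rf (nat_lit 15)))))))) (cs (nd (nat_lit 270) (nat_lit 0) (cs (lf (nat_lit 19) (nat_lit 246)) (nd (nat_lit 244) (nat_lit 0) (cs (lf (nat_lit 1) (nat_lit 244)) (nd (nat_lit 202) (nat_lit 0) (cs (lf (nat_lit 24) (nat_lit 180)) (nd (nat_lit 268) (nat_lit 0) (cs (rf (nat_lit 16)) (lf (nat_lit 35) (nat_lit 180)))))))))) (cs (nd (nat_lit 180) (nat_lit 0) (cs (nd (nat_lit 270) (nat_lit 0) (cs (lf (nat_lit 19) (nat_lit 246)) (nd (nat_lit 244) (nat_lit 0) (cs (lf (nat_lit 1) (nat_lit 244)) (nd (nat_lit 225) (nat_lit 0) (cs (lf (nat_lit 29) (nat_lit 203)) (nd (nat_lit 268) (nat_lit 0) (cs (lf (nat_lit 41) (nat_lit 202)) (nd (nat_lit 204) (nat_lit 0) (cs (lf (nat_lit 35) (nat_lit 181)) (nd (nat_lit 223) (nat_lit 0) (cs (lf (nat_lit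 12) (nat_lit 200)) (rf (nat_lit 17)))))))))))))) (lf (nat_lit 25) (nat_lit 180)))) (cs (nd (nat_lit 202) (nat_lit 0) (cs (lf (nat_lit 24) (nat_lit 180)) (nd (nat_lit 181) (nat_lit 0) (cs (lf (nat_lit 30) (nat_lit 180)) (rf (nat_lit 18)))))) (nd (nat_lit 180) (nat_lit 0) (cs (lf (nat_lit 25) (nat_lit 180)) (nd (nat_lit 270) (nat_lit 0) (cs (lf (nat_lit 19) (nat_lit 246)) (nd (nat_lit 244) (nat_lit 0) (cs (lf (nat_lit 1) (nat_lit 244)) (nd (nat_lit 225) (nat_lit 0) (cs (lf (nat_lit 29) (nat_lit 203)) (rf (nat_lit 19))))))))))))))) (nd (nat_lit 270) (nat_lit 0) (cs (lf (nat_lit 19) (nat_lit 246)) (nd (nat_lit 244) (nat_lit 0) (cs (lf (nat_lit 1) (nat_lit 244)) (rf (nat_lit 20))))))))))) (cs (rf (nat_lit 21)) (nd (nat_lit 270) (nat_lit 0) (cs (lf (nat_lit 19) (nat_lit 246)) (nd (nat_lit 245) (nat_lit 0) (cs (lf (nat_lit 0) (nat_lit 244)) (nd (nat_lit 224) (nat_lit 0) (cs (rf (nat_lit 13)) (cs (nd (nat_lit 291)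 (nat_lit 0) (cs (lf (nat_lit 42) (nat_lit 224)) (nd (nat_lit 267) (nat_lit 0) (cs (rf (nat_lit 22)) (cs (rf (nat_lit 23)) (nd (nat_lit 248) (nat_lit 0) (cs (lf (nat_lit 11) (nat_lit 244)) (nd (nat_lit 223) (nat_lit 0) (cs (lf (nat_lit 23) (nat_lit 222)) (nd (nat_lit 289) (nat_lit 0) (cs (lf (nat_lit 30) (nat_lit 223)) (nd (nat_lit 288) (nat_lit 0) (cs (lf (nat_lit 41) (nat_lit 222)) (lf (nat_lit 14) (nat_lit 266))))))))))))))) (nd (nat_lit 267) (nat_lit 0) (cs (rf (nat_lit 22)) (rf (nat_lit 24))))))))))))))))))) q50766 (by decide +kernel)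
def q50813 : Q := Q.p (nat_lit 0x1000034c0000000000000000000000000000000000000000000000000000000000000) (nat_lit 0x2f8000fe0007f8006ff0001380013f0007f80007e0001f80000a000000000000000000000000000000000) (nat_lit 13)
theorem c50813 : QOK q50813 := cut [q49711, q49924, q49931, q49932, q50070, q49590, q49943, q50057, q50036, q50683, q45791, q50775, q50783, q50786, q50797, q49412] ⟨c49711, c49924, c49931, c49932, c50070, c49590, c49943, c50057, c50036, c50683, c45791, c50775, c50783, c50786, c50797, c49412, trivial⟩ (nd (nat_lit 245) (nat_lit 0) (cs (rf (nat_lit 0)) (cs (rf (nat_lit 1)) (cs (rf (nat_lit 2)) (cs (rf (nat_lit 3)) (cs (rf (nat_lit 4)) (cs (nd (nat_lit 269) (nat_lit 0) (cs (rf (nat_lit 5)) (cs (rf (nat_lit 6)) (rf (nat_lit 7))))) (nd (nat_lit 269) (nat_lit 0) (cs (rf (nat_lit 5)) (cs (rf (nat_lit 6)) (nd (nat_lit 224) (nat_lit 0) (cs (rf (nat_lit 8)) (cs (rf (nat_lit 9)) (cs (nd (nat_lit 225) (nat_lit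 0) (cs (nd (nat_lit 291) (nat_lit 0) (cs (lf (nat_lit 42) (nat_lit 224)) (nd (nat_lit 290) (nat_lit 0) (cs (lf (nat_lit 41) (nat_lit 224)) (nd (nat_lit 203) (nat_lit 0) (cs (lf (nat_lit 40) (nat_lit 202)) (nd (nat_lit 181) (nat_lit 0) (cs (lf (nat_lit 36) (nat_lit 158)) (rf (nat_lit 10)))))))))) (cs (nd (nat_lit 244) (nat_lit 0) (cs (lf (nat_lit 12) (nat_lit 221)) (rf (nat_lit 11)))) (rf (nat_lit 12))))) (nd (nat_lit 268) (nat_lit 0) (cs (nd (nat_lit 244) (nat_lit 0) (cs (lf (nat_lit 0) (nat_lit 243)) (nd (nat_lit 222) (nat_lit 0) (cs (lf (nat_lit 23) (nat_lit 221)) (nd (nat_lit 223) (nat_lit 0) (cs (lf (nat_lit 18) (nat_lit 222)) (rf (nat_lit 13)))))))) (cs (nd (nat_lit 202) (nat_lit 0) (cs (lf (nat_lit 24) (nat_lit 180)) (nd (nat_lit 289) (nat_lit 0) (cs (lf (nat_lit 40) (nat_lit 201)) (nd (nat_lit 179) (nat_lit 0) (cs (lf (nat_lit 46) (nat_lit 179)) (nd (nat_lit 290) (nat_lit 0) (cs (lf (nat_lit 41)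 (nat_lit 223)) (nd (nat_lit 203) (nat_lit 0) (cs (lf (nat_lit 35) (nat_lit 180)) (lf (nat_lit 37) (nat_lit 202)))))))))))) (cs (nd (nat_lit 202) (nat_lit 0) (cs (lf (nat_lit 24) (nat_lit 180)) (nd (nat_lit 244) (nat_lit 0) (cs (lf (nat_lit 0) (nat_lit 243)) (nd (nat_lit 203) (nat_lit 0) (cs (lf (nat_lit 35) (nat_lit 180)) (nd (nat_lit 179) (nat_lit 0) (cs (lf (nat_lit 46) (nat_lit 179)) (nd (nat_lit 222) (nat_lit 0) (cs (lf (nat_lit 23) (nat_lit 221)) (nd (nat_lit 267) (nat_lit 0) (cs (lf (nat_lit 41) (nat_lit 201)) (nd (nat_lit 223) (nat_lit 0) (cs (lf (nat_lit 18) (nat_lit 222)) (rf (nat_lit 14)))))))))))))))) (nd (nat_lit 243) (nat_lit 0) (cs (lf (nat_lit 1) (nat_lit 243)) (nd (nat_lit 202) (nat_lit 0) (cs (lf (nat_lit 24) (nat_lit 180)) (nd (nat_lit 267) (nat_lit 0) (cs (lf (nat_lit 41) (nat_lit 201)) (nd (nat_lit 203) (nat_lit 0) (cs (lf (nat_lit 35) (nat_lit 180)) (nd (nat_lit 225) (nat_lit 0) (cs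 (lf (nat_lit 41) (nat_lit 202)) (rf (nat_lit 15)))))))))))))))))))))))))))))) q50813 (by decide +kernel)
def q51203 : Q := Q.p (nat_lit 0x1000034c0000000000000000000000000000000000000000000000000000000000000) (nat_lit 0x80003fc001fe0007fc006fe000038001ff0007f80007f0001e000050000000000000000000000000000000000) (nat_lit 13)
theorem c51203 : QOK q51203 := cut [q50942, q50856, q49339, q50854, q50945, q50952, q50958, q51038, q51052, q51068, q51093, q50869, q50957, q51057, q51100, q51102, q51091, q51104, q50858, q50853, q49309, q49355, q50477, q50484, q50557, q51115, q51129, q51167, q51202] ⟨c50942, c50856, c49339, c50854, c50945, c50952, c50958, c51038, c51052, c51068, c51093, c50869, c50957, c51057, c51100, c51102, c51091, c51104, c50858, c50853, c49309, c49355, c50477, c50484, c50557, c51115, c51129, c51167, c51202, trivial⟩ (nd (nat_lit 268) (nat_lit 0) (cs (rf (nat_lit 0)) (cs (nd (nat_lit 290) (nat_lit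 0) (cs (rf (nat_lit 1)) (cs (nd (nat_lit 224) (nat_lit 0) (cs (rf (nat_lit 2)) (cs (rf (nat_lit 3)) (nd (nat_lit 291) (nat_lit 0) (cs (lf (nat_lit 29) (nat_lit 224)) (rf (nat_lit 4))))))) (cs (nd (nat_lit 312) (nat_lit 0) (cs (lf (nat_lit 35) (nat_lit 224)) (nd (nat_lit 313) (nat_lit 0) (cs (lf (nat_lit 29) (nat_lit 246)) (rf (nat_lit 5)))))) (rf (nat_lit 6)))))) (cs (rf (nat_lit 7)) (cs (nd (nat_lit 290) (nat_lit 0) (cs (rf (nat_lit 6)) (cs (rf (nat_lit 8)) (cs (rf (nat_lit 9)) (cs (rf (nat_lit 10)) (cs (nd (nat_lit 312) (nat_lit 0) (cs (rf (nat_lit 11)) (cs (rf (nat_lit 12)) (cs (rf (nat_lit 13)) (rf (nat_lit 14)))))) (cs (rf (nat_lit 15)) (cs (nd (nat_lit 312) (nat_lit 0) (cs (rf (nat_lit 11)) (cs (rf (nat_lit 16)) (nd (nat_lit 223) (nat_lit 0) (cs (lf (nat_lit 46) (nat_lit 223)) (nd (nat_lit 313) (nat_lit 0) (cs (lf (nat_lit 29) (nat_lit 246)) (rf (nat_lit 17))))))))) (nd (nat_lit 312) (nat_lit 0) (cs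 (nd (nat_lit 223) (nat_lit 0) (cs (nd (nat_lit 269) (nat_lit 0) (cs (lf (nat_lit 30) (nat_lit 246)) (nd (nat_lit 270) (nat_lit 0) (cs (lf (nat_lit 19) (nat_lit 246)) (rf (nat_lit 18)))))) (lf (nat_lit 46) (nat_lit 223)))) (cs (rf (nat_lit 16)) (nd (nat_lit 223) (nat_lit 0) (cs (lf (nat_lit 46) (nat_lit 223)) (rf (nat_lit 17))))))))))))))) (cs (nd (nat_lit 290) (nat_lit 0) (cs (rf (nat_lit 19)) (cs (rf (nat_lit 1)) (rf (nat_lit 8))))) (cs (nd (nat_lit 225) (nat_lit 0) (cs (rf (nat_lit 20)) (cs (rf (nat_lit 21)) (cs (rf (nat_lit 22)) (rf (nat_lit 23)))))) (cs (nd (nat_lit 290) (nat_lit 0) (cs (rf (nat_lit 19)) (cs (rf (nat_lit 1)) (cs (rf (nat_lit 9)) (nd (nat_lit 224) (nat_lit 0) (cs (rf (nat_lit 24)) (cs (rf (nat_lit 3)) (rf (nat_lit 25))))))))) (cs (nd (nat_lit 290) (nat_lit 0) (cs (rf (nat_lit 1)) (cs (rf (nat_lit 10)) (rf (nat_lit 26))))) (cs (nd (nat_lit 290) (nat_lit 0) (cs (rf (nat_lit 19)) (cs (rf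 (nat_lit 1)) (cs (rf (nat_lit 15)) (rf (nat_lit 26)))))) (cs (rf (nat_lit 27)) (rf (nat_lit 28))))))))))))) q51203 (by decide +kernel)
def q51227 : Q := Q.p (nat_lit 0x1000034c0000000010000040000000000000000000000000000000000000000000000) (nat_lit 0xd00003e0001fc0007f0006ff000130001f8000fe000af80001c000000000000000000000000000000000000000) (nat_lit 13)
theorem c51227 : QOK q51227 := cut [q49514, q49522, q49541, q49552, q49555, q49580, q49590, q49596, q49597, q50761, q49621, q51208, q49652, q49694, q51217, q50699] ⟨c49514, c49522, c49541, c49552, c49555, c49580, c49590, c49596, c49597, c50761, c49621, c51208, c49652, c49694, c51217, c50699, trivial⟩ (nd (nat_lit 269) (nat_lit 0) (cs (rf (nat_lit 0)) (cs (rf (nat_lit 1)) (cs (rf (nat_lit 2)) (cs (rf (nat_lit 3)) (cs (rf (nat_lit 4)) (cs (rf (nat_lit 5)) (cs (rf (nat_lit 6)) (cs (rf (nat_lit 7)) (cs (rf (nat_lit 8)) (cs (rf (nat_lit 9)) (nd (nat_lit 270) (nat_lit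 0) (cs (lf (nat_lit 19) (nat_lit 246)) (nd (nat_lit 245) (nat_lit 0) (cs (lf (nat_lit 0) (nat_lit 244)) (nd (nat_lit 267) (nat_lit 0) (cs (rf (nat_lit 10)) (cs (nd (nat_lit 248) (nat_lit 0) (cs (lf (nat_lit 11) (nat_lit 244)) (nd (nat_lit 226) (nat_lit 0) (cs (lf (nat_lit 17) (nat_lit 223)) (nd (nat_lit 204) (nat_lit 0) (cs (lf (nat_lit 36) (nat_lit 181)) (rf (nat_lit 11)))))))) (cs (nd (nat_lit 289) (nat_lit 0) (cs (rf (nat_lit 12)) (cs (rf (nat_lit 13)) (cs (nd (nat_lit 288) (nat_lit 0) (cs (lf (nat_lit 8) (nat_lit 266)) (nd (nat_lit 223) (nat_lit 0) (cs (lf (nat_lit 41) (nat_lit 222)) (nd (nat_lit 202) (nat_lit 0) (cs (lf (nat_lit 34) (nat_lit 201)) (nd (nat_lit 201) (nat_lit 0) (cs (lf (nat_lit 40) (nat_lit 200)) (lf (nat_lit 35) (nat_lit 179)))))))))) (nd (nat_lit 268) (nat_lit 0) (cs (lf (nat_lit 11) (nat_lit 266)) (rf (nat_lit 14)))))))) (nd (nat_lit 268) (nat_lit 0) (cs (rf (nat_lit 15)) (nd (nat_lit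 292) (nat_lit 0) (cs (lf (nat_lit 5) (nat_lit 267)) (nd (nat_lit 314) (nat_lit 0) (cs (lf (nat_lit 42) (nat_lit 247)) (nd (nat_lit 225) (nat_lit 0) (cs (lf (nat_lit 24) (nat_lit 203)) (lf (nat_lit 45) (nat_lit 225))))))))))))))))))))))))))))) q51227 (by decide +kernel)
def q51391 : Q := Q.p (nat_lit 0x1000030c0000000000000000000000000000000000000000000000000000000000000) (nat_lit 0x440003f8000fe0003f8006ff000138001ff0003b8000fe0003f80003a000000000000000000000000000000000) (nat_lit 13)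
theorem c51391 : QOK q51391 := cut [q51298, q51300, q49605, q50070, q49621, q51301, q51303, q51311, q49225, q51322, q49659, q49663, q51324, q51335, q51337, q51346, q49647, q49703, q49938, q51369, q51372, q51390] ⟨c51298, c51300, c49605, c50070, c49621, c51301, c51303, c51311, c49225, c51322, c49659, c49663, c51324, c51335, c51337, c51346, c49647, c49703, c49938, c51369, c51372, c51390, trivial⟩ (nd (nat_lit 270) (nat_lit 0) (cs (rf (nat_lit 0)) (cs (rf (nat_lit 1)) (cs (nd (nat_lit 245) (nat_lit 0) (cs (rf (nat_lit 2)) (cs (rf (nat_lit 3)) (cs (nd (nat_lit 267) (nat_lit 0) (cs (rf (nat_lit 4)) (cs (nd (nat_lit 248) (nat_lit 0) (cs (lf (nat_lit 11) (nat_lit 244)) (nd (nat_lit 292) (nat_lit 0) (cs (rf (nat_lit 5)) (cs (nd (nat_lit 222) (nat_lit 0) (cs (lf (nat_lit 22) (nat_lit 222)) (rf (nat_lit 6)))) (cs (rf (nat_lit 7)) (nd (nat_lit 226) (nat_lit 0) (cs (lf (nat_lit 17) (nat_lit 223)) (nd (nat_lit 293)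 (nat_lit 0) (cs (lf (nat_lit 29) (nat_lit 226)) (nd (nat_lit 225) (nat_lit 0) (cs (lf (nat_lit 42) (nat_lit 225)) (nd (nat_lit 291) (nat_lit 0) (cs (lf (nat_lit 41) (nat_lit 225)) (nd (nat_lit 223) (nat_lit 0) (cs (lf (nat_lit 23) (nat_lit 222)) (nd (nat_lit 204) (nat_lit 0) (cs (rf (nat_lit 8)) (lf (nat_lit 31) (nat_lit 203)))))))))))))))))))) (cs (nd (nat_lit 289) (nat_lit 0) (cs (rf (nat_lit 9)) (cs (nd (nat_lit 223) (nat_lit 0) (cs (rf (nat_lit 10)) (cs (rf (nat_lit 11)) (cs (rf (nat_lit 12)) (nd (nat_lit 290) (nat_lit 0) (cs (lf (nat_lit 29) (nat_lit 223)) (nd (nat_lit 200) (nat_lit 0) (cs (lf (nat_lit 46) (nat_lit 200)) (nd (nat_lit 288) (nat_lit 0) (cs (lf (nat_lit 41) (nat_lit 222)) (nd (nat_lit 269) (nat_lit 0) (cs (lf (nat_lit 15) (nat_lit 266)) (lf (nat_lit 8) (nat_lit 266)))))))))))))) (cs (rf (nat_lit 13)) (cs (nd (nat_lit 311) (nat_lit 0) (cs (lf (nat_lit 35) (nat_lit 223)) (nd (nat_lit 310)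 (nat_lit 0) (cs (lf (nat_lit 41) (nat_lit 244)) (nd (nat_lit 268) (nat_lit 0) (cs (lf (nat_lit 30) (nat_lit 245)) (nd (nat_lit 265) (nat_lit 0) (cs (lf (nat_lit 13) (nat_lit 243)) (nd (nat_lit 269) (nat_lit 0) (cs (lf (nat_lit 11) (nat_lit 266)) (nd (nat_lit 312) (nat_lit 0) (cs (lf (nat_lit 29) (nat_lit 245)) (rf (nat_lit 14)))))))))))))) (rf (nat_lit 15))))))) (nd (nat_lit 289) (nat_lit 0) (cs (rf (nat_lit 9)) (cs (rf (nat_lit 13)) (cs (rf (nat_lit 15)) (cs (nd (nat_lit 223) (nat_lit 0) (cs (rf (nat_lit 16)) (cs (rf (nat_lit 17)) (nd (nat_lit 290) (nat_lit 0) (cs (lf (nat_lit 29) (nat_lit 223)) (nd (nat_lit 201) (nat_lit 0) (cs (lf (nat_lit 28) (nat_lit 201)) (nd (nat_lit 288) (nat_lit 0) (cs (lf (nat_lit 41) (nat_lit 222)) (nd (nat_lit 178) (nat_lit 0) (cs (lf (nat_lit 46) (nat_lit 178)) (nd (nat_lit 179) (nat_lit 0) (cs (lf (nat_lit 47) (nat_lit 156)) (nd (nat_lit 157) (nat_lit 0) (cs (lf (nat_lit 28)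 (nat_lit 157)) (nd (nat_lit 158) (nat_lit 0) (cs (lf (nat_lit 35) (nat_lit 135)) (lf (nat_lit 34) (nat_lit 157))))))))))))))))))) (cs (nd (nat_lit 311) (nat_lit 0) (cs (lf (nat_lit 35) (nat_lit 223)) (nd (nat_lit 310) (nat_lit 0) (cs (lf (nat_lit 41) (nat_lit 244)) (nd (nat_lit 312) (nat_lit 0) (cs (lf (nat_lit 29) (nat_lit 245)) (nd (nat_lit 268) (nat_lit 0) (cs (lf (nat_lit 30) (nat_lit 245)) (nd (nat_lit 269) (nat_lit 0) (cs (lf (nat_lit 11) (nat_lit 266)) (rf (nat_lit 14)))))))))))) (nd (nat_lit 312) (nat_lit 0) (cs (rf (nat_lit 18)) (nd (nat_lit 223) (nat_lit 0) (cs (lf (nat_lit 28) (nat_lit 223)) (nd (nat_lit 222) (nat_lit 0) (cs (lf (nat_lit 18) (nat_lit 222)) (lf (nat_lit 47) (nat_lit 200)))))))))))))))))) (cs (rf (nat_lit 19)) (rf (nat_lit 20))))))) (rf (nat_lit 21)))))) q51391 (by decide +kernel)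
def q51471 : Q := Q.p (nat_lit 0x1000030c0000000000000000000000000000000000000000000000000000000000000) (nat_lit 0x500003f8000fe0007f8006ff000138001ff0003f8000ee0003b80002a000000000000000000000000000000000) (nat_lit 13)
theorem c51471 : QOK q51471 := cut [q51298, q51300, q51390, q49605, q50070, q51369, q51372, q49647, q51301, q51303, q51311, q51444, q49655, q49960, q49646, q51453, q50567, q50945, q51115, q49621, q49624] ⟨c51298, c51300, c51390, c49605, c50070, c51369, c51372, c49647, c51301, c51303, c51311, c51444, c49655, c49960, c49646, c51453, c50567, c50945, c51115, c49621, c49624, trivial⟩ (nd (nat_lit 270) (nat_lit 0) (cs (rf (nat_lit 0)) (cs (rf (nat_lit 1)) (cs (rf (nat_lit 2)) (nd (nat_lit 245) (nat_lit 0) (cs (rf (nat_lit 3)) (cs (rf (nat_lit 4)) (cs (rf (nat_lit 5)) (cs (rf (nat_lit 6)) (nd (nat_lit 223) (nat_lit 0) (cs (rf (nat_lit 7)) (cs (nd (nat_lit 248) (nat_lit 0) (cs (lf (nat_lit 23) (nat_lit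 222)) (nd (nat_lit 292) (nat_lit 0) (cs (rf (nat_lit 8)) (cs (rf (nat_lit 9)) (cs (rf (nat_lit 10)) (nd (nat_lit 226) (nat_lit 0) (cs (lf (nat_lit 17) (nat_lit 223)) (nd (nat_lit 293) (nat_lit 0) (cs (lf (nat_lit 29) (nat_lit 226)) (nd (nat_lit 225) (nat_lit 0) (cs (lf (nat_lit 42) (nat_lit 225)) (nd (nat_lit 291) (nat_lit 0) (cs (lf (nat_lit 41) (nat_lit 225)) (nd (nat_lit 273) (nat_lit 0) (cs (lf (nat_lit 15) (nat_lit 269)) (nd (nat_lit 269) (nat_lit 0) (cs (lf (nat_lit 36) (nat_lit 203)) (nd (nat_lit 267) (nat_lit 0) (cs (lf (nat_lit 1) (nat_lit 267)) (lf (nat_lit 11) (nat_lit 244)))))))))))))))))))))) (cs (nd (nat_lit 268) (nat_lit 0) (cs (rf (nat_lit 11)) (cs (nd (nat_lit 267) (nat_lit 0) (cs (nd (nat_lit 201) (nat_lit 0) (cs (lf (nat_lit 24) (nat_lit 179)) (nd (nat_lit 266) (nat_lit 0) (cs (lf (nat_lit 12) (nat_lit 243)) (lf (nat_lit 41) (nat_lit 200)))))) (cs (nd (nat_lit 289) (nat_lit 0) (cs (rf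 (nat_lit 12)) (rf (nat_lit 13)))) (nd (nat_lit 265) (nat_lit 0) (cs (lf (nat_lit 13) (nat_lit 243)) (nd (nat_lit 201) (nat_lit 0) (cs (lf (nat_lit 24) (nat_lit 179)) (nd (nat_lit 200) (nat_lit 0) (cs (lf (nat_lit 47) (nat_lit 178)) (nd (nat_lit 222) (nat_lit 0) (cs (rf (nat_lit 14)) (lf (nat_lit 42) (nat_lit 200))))))))))))) (cs (rf (nat_lit 15)) (cs (nd (nat_lit 201) (nat_lit 0) (cs (lf (nat_lit 24) (nat_lit 179)) (nd (nat_lit 290) (nat_lit 0) (cs (lf (nat_lit 27) (nat_lit 201)) (lf (nat_lit 45) (nat_lit 201)))))) (nd (nat_lit 290) (nat_lit 0) (cs (lf (nat_lit 42) (nat_lit 223)) (nd (nat_lit 224) (nat_lit 0) (cs (rf (nat_lit 16)) (cs (rf (nat_lit 17)) (cs (rf (nat_lit 18)) (nd (nat_lit 225) (nat_lit 0) (cs (lf (nat_lit 35) (nat_lit 202)) (nd (nat_lit 289) (nat_lit 0) (cs (lf (nat_lit 41) (nat_lit 223)) (nd (nat_lit 226) (nat_lit 0) (cs (lf (nat_lit 6) (nat_lit 223)) (nd (nat_lit 204) (nat_lit 0) (cs (lf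 (nat_lit 17) (nat_lit 201)) (nd (nat_lit 291) (nat_lit 0) (cs (lf (nat_lit 29) (nat_lit 224)) (lf (nat_lit 31) (nat_lit 203))))))))))))))))))))))) (nd (nat_lit 268) (nat_lit 0) (cs (rf (nat_lit 11)) (cs (rf (nat_lit 15)) (nd (nat_lit 267) (nat_lit 0) (cs (rf (nat_lit 19)) (nd (nat_lit 289) (nat_lit 0) (cs (rf (nat_lit 20)) (nd (nat_lit 288) (nat_lit 0) (cs (lf (nat_lit 41) (nat_lit 222)) (lf (nat_lit 7) (nat_lit 266)))))))))))))))))))))))) q51471 (by decide +kernel)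
def q51543 : Q := Q.p (nat_lit 0x100000480000200000000040000000000000000000000000000000000000000000000) (nat_lit 0xc0000700005c00027c000370003c00007f0003f00003c000050000000000000000000000000000000000) (nat_lit 13)
theorem c51543 : QOK q51543 := cut [q51498, q51510, q44691, q45629, q51007, q45089, q51487, q51528, q51531, q44688, q45598, q51542] ⟨c51498, c51510, c44691, c45629, c51007, c45089, c51487, c51528, c51531, c44688, c45598, c51542, trivial⟩ (nd (nat_lit 248) (nat_lit 0) (cs (rf (nat_lit 0)) (cs (rf (nat_lit 1)) (cs (nd (nat_lit 203) (nat_lit 0) (cs (rf (nat_lit 2)) (cs (nd (nat_lit 269) (nat_lit 0) (cs (rf (nat_lit 3)) (cs (rf (nat_lit 4)) (nd (nat_lit 204) (nat_lit 0) (cs (lf (nat_lit 35) (nat_lit 181)) (nd (nat_lit 205) (nat_lit 0) (cs (nd (nat_lit 270) (nat_lit 0) (cs (lf (nat_lit 29) (nat_lit 203)) (nd (nat_lit 183) (nat_lit 0) (cs (nd (nat_lit 184) (nat_lit 0) (cs (lf (nat_lit 7) (nat_lit 182))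 (nd (nat_lit 228) (nat_lit 0) (cs (lf (nat_lit 45) (nat_lit 183)) (rf (nat_lit 5)))))) (lf (nat_lit 32) (nat_lit 182)))))) (cs (rf (nat_lit 6)) (cs (nd (nat_lit 202) (nat_lit 0) (cs (lf (nat_lit 47) (nat_lit 180)) (nd (nat_lit 270) (nat_lit 0) (cs (lf (nat_lit 29) (nat_lit 203)) (nd (nat_lit 268) (nat_lit 0) (cs (lf (nat_lit 41) (nat_lit 202)) (nd (nat_lit 227) (nat_lit 0) (cs (lf (nat_lit 5) (nat_lit 202)) (nd (nat_lit 226) (nat_lit 0) (cs (lf (nat_lit 0) (nat_lit 201)) (nd (nat_lit 245) (nat_lit 0) (cs (nd (nat_lit 267) (nat_lit 0) (cs (lf (nat_lit 23) (nat_lit 244)) (lf (nat_lit 12) (nat_lit 244)))) (lf (nat_lit 13) (nat_lit 223)))))))))))))) (nd (nat_lit 202) (nat_lit 0) (cs (lf (nat_lit 47) (nat_lit 180)) (nd (nat_lit 268) (nat_lit 0) (cs (lf (nat_lit 41) (nat_lit 202)) (nd (nat_lit 183) (nat_lit 0) (cs (lf (nat_lit 17) (nat_lit 180)) (nd (nat_lit 228) (nat_lit 0) (cs (lf (nat_lit 45) (nat_lit 183))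 (lf (nat_lit 4) (nat_lit 202))))))))))))))))))) (cs (rf (nat_lit 7)) (cs (rf (nat_lit 8)) (nd (nat_lit 181) (nat_lit 0) (cs (rf (nat_lit 9)) (rf (nat_lit 10))))))))) (rf (nat_lit 11)))))) q51543 (by decide +kernel)
def q51690 : Q := Q.p (nat_lit 0x100000580000200010000040000000000000000000000000000000000000000000000) (nat_lit 0x4000170000fc0007f00027f00007c003df000f7800afc0003d000080000000000000000000000000000000000) (nat_lit 12)
theorem c51690 : QOK q51690 := cut [q50175, q51561, q26981, q51563, q51572, q51574, q51577, q46902, q46924, q46745, q20189, q51587, q51644, q40907, q51612, q51653, q49239, q49242, q49941, q51683, q41246, q49330] ⟨c50175, c51561, c26981, c51563, c51572, c51574, c51577, c46902, c46924, c46745, c20189, c51587, c51644, c40907, c51612, c51653, c49239, c49242, c49941, c51683, c41246, c49330, trivial⟩ (nd (nat_lit 226) (nat_lit 0) (cs (nd (nat_lit 204) (nat_lit 0) (cs (rf (nat_lit 0))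 (cs (nd (nat_lit 205) (nat_lit 0) (cs (rf (nat_lit 1)) (cs (nd (nat_lit 206) (nat_lit 0) (cs (lf (nat_lit 6) (nat_lit 203)) (rf (nat_lit 2)))) (nd (nat_lit 223) (nat_lit 0) (cs (lf (nat_lit 13) (nat_lit 201)) (nd (nat_lit 269) (nat_lit 0) (cs (lf (nat_lit 30) (nat_lit 203)) (nd (nat_lit 183) (nat_lit 0) (cs (lf (nat_lit 30) (nat_lit 182)) (rf (nat_lit 3))))))))))) (rf (nat_lit 4))))) (cs (nd (nat_lit 227) (nat_lit 0) (cs (rf (nat_lit 5)) (cs (rf (nat_lit 6)) (nd (nat_lit 224) (nat_lit 0) (cs (rf (nat_lit 7)) (nd (nat_lit 205) (nat_lit 0) (cs (lf (nat_lit 17) (nat_lit 202)) (nd (nat_lit 270) (nat_lit 0) (cs (lf (nat_lit 30) (nat_lit 204)) (rf (nat_lit 8))))))))))) (cs (nd (nat_lit 204) (nat_lit 0) (cs (rf (nat_lit 0)) (cs (rf (nat_lit 4)) (nd (nat_lit 292) (nat_lit 0) (cs (nd (nat_lit 270) (nat_lit 0) (cs (lf (nat_lit 42) (nat_lit 225)) (rf (nat_lit 9)))) (cs (nd (nat_lit 228) (nat_lit 0) (cs (nd (nat_lit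 227) (nat_lit 0) (cs (lf (nat_lit 11) (nat_lit 224)) (lf (nat_lit 6) (nat_lit 225)))) (cs (nd (nat_lit 291) (nat_lit 0) (cs (lf (nat_lit 31) (nat_lit 203)) (nd (nat_lit 294) (nat_lit 0) (cs (rf (nat_lit 10)) (nd (nat_lit 293) (nat_lit 0) (cs (lf (nat_lit 41) (nat_lit 227)) (lf (nat_lit 17) (nat_lit 269)))))))) (nd (nat_lit 269) (nat_lit 0) (cs (lf (nat_lit 30) (nat_lit 203)) (nd (nat_lit 227) (nat_lit 0) (cs (lf (nat_lit 11) (nat_lit 224)) (nd (nat_lit 206) (nat_lit 0) (cs (lf (nat_lit 17) (nat_lit 203)) (rf (nat_lit 11))))))))))) (nd (nat_lit 291) (nat_lit 0) (cs (lf (nat_lit 31) (nat_lit 203)) (nd (nat_lit 270) (nat_lit 0) (cs (lf (nat_lit 42) (nat_lit 225)) (lf (nat_lit 41) (nat_lit 225)))))))))))) (cs (rf (nat_lit 12)) (cs (nd (nat_lit 245) (nat_lit 0) (cs (nd (nat_lit 246) (nat_lit 0) (cs (lf (nat_lit 12) (nat_lit 222)) (lf (nat_lit 17) (nat_lit 223)))) (cs (nd (nat_lit 269) (nat_lit 0) (cs (rf (nat_lit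 13)) (cs (nd (nat_lit 223) (nat_lit 0) (cs (rf (nat_lit 14)) (cs (nd (nat_lit 182) (nat_lit 0) (cs (lf (nat_lit 37) (nat_lit 181)) (nd (nat_lit 224) (nat_lit 0) (cs (lf (nat_lit 0) (nat_lit 222)) (rf (nat_lit 15)))))) (cs (nd (nat_lit 182) (nat_lit 0) (cs (lf (nat_lit 37) (nat_lit 181)) (nd (nat_lit 224) (nat_lit 0) (cs (lf (nat_lit 11) (nat_lit 222)) (rf (nat_lit 15)))))) (nd (nat_lit 224) (nat_lit 0) (cs (lf (nat_lit 11) (nat_lit 222)) (lf (nat_lit 0) (nat_lit 222)))))))) (nd (nat_lit 291) (nat_lit 0) (cs (lf (nat_lit 30) (nat_lit 225)) (nd (nat_lit 292) (nat_lit 0) (cs (lf (nat_lit 29) (nat_lit 225)) (nd (nat_lit 290) (nat_lit 0) (cs (lf (nat_lit 41) (nat_lit 224)) (nd (nat_lit 224) (nat_lit 0) (cs (lf (nat_lit 47) (nat_lit 202)) (nd (nat_lit 223) (nat_lit 0) (cs (lf (nat_lit 11) (nat_lit 222)) (lf (nat_lit 0) (nat_lit 222))))))))))))))) (cs (nd (nat_lit 246) (nat_lit 0) (cs (rf (nat_lit 16)) (cs (rf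 (nat_lit 17)) (rf (nat_lit 18))))) (nd (nat_lit 246) (nat_lit 0) (cs (lf (nat_lit 12) (nat_lit 222)) (rf (nat_lit 18)))))))) (cs (rf (nat_lit 19)) (nd (nat_lit 227) (nat_lit 0) (cs (rf (nat_lit 5)) (cs (rf (nat_lit 6)) (nd (nat_lit 224) (nat_lit 0) (cs (nd (nat_lit 223) (nat_lit 0) (cs (rf (nat_lit 20)) (lf (nat_lit 0) (nat_lit 222)))) (cs (nd (nat_lit 201) (nat_lit 0) (cs (lf (nat_lit 22) (nat_lit 201)) (nd (nat_lit 223) (nat_lit 0) (cs (lf (nat_lit 23) (nat_lit 200)) (lf (nat_lit 0) (nat_lit 222)))))) (nd (nat_lit 246) (nat_lit 0) (cs (lf (nat_lit 12) (nat_lit 223)) (nd (nat_lit 205) (nat_lit 0) (cs (lf (nat_lit 17) (nat_lit 202)) (nd (nat_lit 161) (nat_lit 0) (cs (lf (nat_lit 37) (nat_lit 160)) (nd (nat_lit 202) (nat_lit 0) (cs (lf (nat_lit 23) (nat_lit 201)) (rf (nat_lit 21))))))))))))))))))))))) q51690 (by decide +kernel)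
def q51980 : Q := Q.p (nat_lit 0x100000480000200000000000000000000000000000000000000000000000000000000) (nat_lit 0x140001f00007c0001f00007f000178003df000ff8003fe0003f8000f00001c0000500000000000000000000000) (nat_lit 13)
theorem c51980 : QOK q51980 := cut [q50381, q50414, q50849, q49206, q49211, q50293, q45629, q51007, q50453, q49243, q50013, q49242, q50622, q44688, q49200, q49205, q49403, q45679, q47086, q49407, q49412, q47077, q47102, q49240, q49621, q51902, q49588, q49309, q49355, q50985, q50184, q49312, q50699, q49216, q49344, q49348] ⟨c50381, c50414, c50849, c49206, c49211, c50293, c45629, c51007, c50453, c49243, c50013, c49242, c50622, c44688, c49200, c49205, c49403, c45679, c47086, c49407, c49412, c47077, c47102, c49240, c49621, c51902, c49588, c49309, c49355, c50985, c50184, c49312, c50699, c49216, c49344, c49348, trivial⟩ (nd (nat_lit 246) (nat_lit 0) (cs (rf (nat_lit 0)) (cs (rf (nat_lit 1)) (cs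 (rf (nat_lit 2)) (cs (nd (nat_lit 203) (nat_lit 0) (cs (rf (nat_lit 3)) (cs (rf (nat_lit 4)) (cs (rf (nat_lit 5)) (cs (nd (nat_lit 269) (nat_lit 0) (cs (rf (nat_lit 6)) (cs (rf (nat_lit 7)) (nd (nat_lit 268) (nat_lit 0) (cs (rf (nat_lit 8)) (nd (nat_lit 245) (nat_lit 0) (cs (rf (nat_lit 9)) (cs (rf (nat_lit 10)) (nd (nat_lit 226) (nat_lit 0) (cs (rf (nat_lit 11)) (nd (nat_lit 270) (nat_lit 0) (cs (lf (nat_lit 29) (nat_lit 203)) (nd (nat_lit 204) (nat_lit 0) (cs (lf (nat_lit 35) (nat_lit 181)) (rf (nat_lit 12)))))))))))))))) (nd (nat_lit 181) (nat_lit 0) (cs (lf (nat_lit 41) (nat_lit 180)) (nd (nat_lit 248) (nat_lit 0) (cs (lf (nat_lit 29) (nat_lit 181)) (rf (nat_lit 13))))))))))) (cs (nd (nat_lit 203) (nat_lit 0) (cs (rf (nat_lit 14)) (cs (rf (nat_lit 15)) (cs (rf (nat_lit 3)) (cs (rf (nat_lit 16)) (nd (nat_lit 269) (nat_lit 0) (cs (rf (nat_lit 6)) (cs (rf (nat_lit 17)) (cs (rf (nat_lit 18)) (nd (nat_lit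 202) (nat_lit 0) (cs (lf (nat_lit 47) (nat_lit 180)) (nd (nat_lit 224) (nat_lit 0) (cs (nd (nat_lit 270) (nat_lit 0) (cs (lf (nat_lit 29) (nat_lit 203)) (nd (nat_lit 244) (nat_lit 0) (cs (lf (nat_lit 1) (nat_lit 244)) (nd (nat_lit 268) (nat_lit 0) (cs (lf (nat_lit 41) (nat_lit 202)) (rf (nat_lit 19)))))))) (rf (nat_lit 20))))))))))))))) (cs (nd (nat_lit 203) (nat_lit 0) (cs (rf (nat_lit 15)) (cs (rf (nat_lit 3)) (cs (rf (nat_lit 16)) (nd (nat_lit 269) (nat_lit 0) (cs (rf (nat_lit 6)) (cs (rf (nat_lit 21)) (cs (rf (nat_lit 22)) (cs (nd (nat_lit 245) (nat_lit 0) (cs (rf (nat_lit 23)) (cs (rf (nat_lit 9)) (nd (nat_lit 268) (nat_lit 0) (cs (rf (nat_lit 8)) (nd (nat_lit 267) (nat_lit 0) (cs (rf (nat_lit 24)) (nd (nat_lit 182) (nat_lit 0) (cs (lf (nat_lit 34) (nat_lit 181)) (nd (nat_lit 270) (nat_lit 0) (cs (lf (nat_lit 29) (nat_lit 203)) (nd (nat_lit 289) (nat_lit 0) (cs (lf (nat_lit 11) (nat_lit 266)) (rf (nat_lit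 25))))))))))))))) (nd (nat_lit 270) (nat_lit 0) (cs (lf (nat_lit 29) (nat_lit 203)) (nd (nat_lit 244) (nat_lit 0) (cs (lf (nat_lit 1) (nat_lit 244)) (nd (nat_lit 204) (nat_lit 0) (cs (lf (nat_lit 35) (nat_lit 181)) (nd (nat_lit 291) (nat_lit 0) (cs (lf (nat_lit 34) (nat_lit 203)) (rf (nat_lit 26))))))))))))))))))) (nd (nat_lit 268) (nat_lit 0) (cs (rf (nat_lit 27)) (cs (rf (nat_lit 28)) (cs (nd (nat_lit 203) (nat_lit 0) (cs (lf (nat_lit 36) (nat_lit 180)) (nd (nat_lit 269) (nat_lit 0) (cs (rf (nat_lit 29)) (cs (nd (nat_lit 292) (nat_lit 0) (cs (lf (nat_lit 28) (nat_lit 203)) (nd (nat_lit 291) (nat_lit 0) (cs (lf (nat_lit 29) (nat_lit 225)) (rf (nat_lit 30)))))) (cs (nd (nat_lit 267) (nat_lit 0) (cs (rf (nat_lit 31)) (nd (nat_lit 182) (nat_lit 0) (cs (lf (nat_lit 34) (nat_lit 181)) (nd (nat_lit 270) (nat_lit 0) (cs (lf (nat_lit 29) (nat_lit 203)) (nd (nat_lit 245) (nat_lit 0) (cs (lf (nat_lit 0) (nat_lit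 244)) (rf (nat_lit 32)))))))))) (nd (nat_lit 204) (nat_lit 0) (cs (lf (nat_lit 35) (nat_lit 181)) (nd (nat_lit 226) (nat_lit 0) (cs (lf (nat_lit 30) (nat_lit 203)) (rf (nat_lit 33)))))))))))) (nd (nat_lit 290) (nat_lit 0) (cs (lf (nat_lit 30) (nat_lit 224)) (nd (nat_lit 224) (nat_lit 0) (cs (rf (nat_lit 34)) (rf (nat_lit 35))))))))))))))))) q51980 (by decide +kernel)
def q52005 : Q := Q.p (nat_lit 0x180000480000000010000040000000000000000000000000000000000000000000000) (nat_lit 0x10000040000238000340001c0000f0000be0000c0000100000000000000000000000000000000000) (nat_lit 8)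
theorem c52005 : QOK q52005 := cut [q44797, q45845] ⟨c44797, c45845, trivial⟩ (nd (nat_lit 249) (nat_lit 0x80000000000000000000000000000000000000000000000000000000000000000000) (cs (rf (nat_lit 0)) (rf (nat_lit 1)))) q52005 (by decide +kernel)
def q52206 : Q := Q.p (nat_lit 0x100003480000000000000000000000000000000000000000000000000000000000000) (nat_lit 0xe0000ff0003fe0007f0006ff000370000ff0003f0000fc0001d000000000000000000000000000000000000000) (nat_lit 14)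
theorem c52206 : QOK q52206 := cut [q52082, q52107, q52141, q50059, q51208, q45489, q52149, q52157, q52164, q50685, q52175, q52188, q52191, q52192, q52205] ⟨c52082, c52107, c52141, c50059, c51208, c45489, c52149, c52157, c52164, c50685, c52175, c52188, c52191, c52192, c52205, trivial⟩ (nd (nat_lit 248) (nat_lit 0) (cs (nd (nat_lit 270) (nat_lit 0) (cs (rf (nat_lit 0)) (cs (rf (nat_lit 1)) (cs (rf (nat_lit 2)) (cs (nd (nat_lit 269) (nat_lit 0) (cs (nd (nat_lit 246) (nat_lit 0) (cs (lf (nat_lit 19) (nat_lit 246)) (nd (nat_lit 245) (nat_lit 0) (cs (lf (nat_lit 0) (nat_lit 244)) (rf (nat_lit 3)))))) (cs (nd (nat_lit 246) (nat_lit 0) (cs (lf (nat_lit 19) (nat_lit 246)) (nd (nat_lit 245) (nat_lit 0) (cs (lf (nat_lit 0) (nat_lit 244)) (nd (nat_lit 226) (nat_lit 0) (cs (lf (nat_lit 17) (nat_lit 223)) (nd (nat_lit 204) (nat_lit 0) (cs (lf (nat_lit 36) (nat_lit 181)) (nd (nat_lit 266) (nat_lit 0) (cs (lf (nat_lit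 10) (nat_lit 244)) (rf (nat_lit 4)))))))))))) (cs (nd (nat_lit 291) (nat_lit 0) (cs (rf (nat_lit 5)) (cs (nd (nat_lit 204) (nat_lit 0) (cs (lf (nat_lit 37) (nat_lit 203)) (nd (nat_lit 290) (nat_lit 0) (cs (lf (nat_lit 7) (nat_lit 268)) (nd (nat_lit 225) (nat_lit 0) (cs (lf (nat_lit 41) (nat_lit 224)) (rf (nat_lit 6)))))))) (nd (nat_lit 271) (nat_lit 0) (cs (lf (nat_lit 11) (nat_lit 268)) (rf (nat_lit 7))))))) (cs (nd (nat_lit 271) (nat_lit 0) (cs (lf (nat_lit 23) (nat_lit 246)) (rf (nat_lit 8)))) (nd (nat_lit 291) (nat_lit 0) (cs (rf (nat_lit 5)) (cs (rf (nat_lit 7)) (nd (nat_lit 292) (nat_lit 0) (cs (rf (nat_lit 9)) (cs (nd (nat_lit 204) (nat_lit 0) (cs (lf (nat_lit 37) (nat_lit 203)) (nd (nat_lit 314) (nat_lit 0) (cs (lf (nat_lit 42) (nat_lit 247)) (nd (nat_lit 315) (nat_lit 0) (cs (lf (nat_lit 29) (nat_lit 248)) (nd (nat_lit 290) (nat_lit 0) (cs (lf (nat_lit 0) (nat_lit 289)) (nd (nat_lit 316) (nat_lit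 0) (cs (lf (nat_lit 18) (nat_lit 291)) (lf (nat_lit 3) (nat_lit 290)))))))))))) (nd (nat_lit 204) (nat_lit 0) (cs (lf (nat_lit 37) (nat_lit 203)) (nd (nat_lit 225) (nat_lit 0) (cs (lf (nat_lit 24) (nat_lit 203)) (nd (nat_lit 224) (nat_lit 0) (cs (lf (nat_lit 47) (nat_lit 202)) (nd (nat_lit 290) (nat_lit 0) (cs (lf (nat_lit 41) (nat_lit 224)) (nd (nat_lit 289) (nat_lit 0) (cs (lf (nat_lit 12) (nat_lit 266)) (rf (nat_lit 10))))))))))))))))))))))) (rf (nat_lit 11))))))) (cs (rf (nat_lit 12)) (cs (rf (nat_lit 13)) (rf (nat_lit 14)))))) q52206 (by decide +kernel)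
def q52245 : Q := Q.p (nat_lit 0x140000180000000000000000000000000000000000000000000000000000000000000) (nat_lit 0x40001f00007c0003f0000bf0000780007f0001f80007c0001d000000000000000000000000000000000000000) (nat_lit 11)
theorem c52245 : QOK q52245 := cut [q52241, q52242, q52243, q52244] ⟨c52241, c52242, c52243, c52244, trivial⟩ (nd (nat_lit 246) (nat_lit 0) (cs (rf (nat_lit 0)) (cs (rf (nat_lit 1)) (cs (rf (nat_lit 2)) (rf (nat_lit 3)))))) q52245 (by decide +kernel)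
def q52405 : Q := Q.p (nat_lit 0x100000480000000010000040000000000000000000000000000000000000000000000) (nat_lit 0x200003f40003f00007c0000b8000360003f8000fc000bf0000fc0000c0000000000000000000000000000000000) (nat_lit 14)
theorem c52405 : QOK q52405 := cut [q45097, q48542, q41224, q17894, q52380, q44549, q45099, q52041, q5390, q44584, q44740, q47104, q45089, q48630, q45262, q17127, q41226, q41228, q44887, q52006] ⟨c45097, c48542, c41224, c17894, c52380, c44549, c45099, c52041, c5390, c44584, c44740, c47104, c45089, c48630, c45262, c17127, c41226, c41228, c44887, c52006, trivial⟩ (nd (nat_lit 228) (nat_lit 0) (cs (rf (nat_lit 0)) (cs (rf (nat_lit 1)) (cs (nd (nat_lit 227) (nat_lit 0) (cs (rf (nat_lit 2)) (cs (nd (nat_lit 294) (nat_lit 0) (cs (lf (nat_lit 47) (nat_lit 205)) (nd (nat_lit 229) (nat_lit 0) (cs (lf (nat_lit 35) (nat_lit 206)) (nd (nat_lit 293) (nat_lit 0) (cs (lf (nat_lit 41) (nat_lit 227)) (nd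 (nat_lit 226) (nat_lit 0) (cs (rf (nat_lit 3)) (lf (nat_lit 10) (nat_lit 225)))))))))) (nd (nat_lit 248) (nat_lit 0) (cs (nd (nat_lit 229) (nat_lit 0) (cs (lf (nat_lit 14) (nat_lit 225)) (lf (nat_lit 9) (nat_lit 225)))) (cs (nd (nat_lit 249) (nat_lit 0) (cs (lf (nat_lit 12) (nat_lit 224)) (lf (nat_lit 17) (nat_lit 225)))) (cs (rf (nat_lit 4)) (nd (nat_lit 246) (nat_lit 0) (cs (lf (nat_lit 15) (nat_lit 224)) (nd (nat_lit 226) (nat_lit 0) (cs (lf (nat_lit 12) (nat_lit 223)) (lf (nat_lit 9) (nat_lit 224))))))))))))) (cs (nd (nat_lit 249) (nat_lit 0) (cs (nd (nat_lit 206) (nat_lit 0) (cs (rf (nat_lit 5)) (cs (rf (nat_lit 6)) (nd (nat_lit 271) (nat_lit 0) (cs (lf (nat_lit 41) (nat_lit 205)) (rf (nat_lit 7))))))) (cs (nd (nat_lit 229) (nat_lit 0) (cs (lf (nat_lit 13) (nat_lit 225)) (nd (nat_lit 207) (nat_lit 0) (cs (lf (nat_lit 30) (nat_lit 206)) (rf (nat_lit 8)))))) (nd (nat_lit 248) (nat_lit 0) (cs (rf (nat_lit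 9)) (cs (rf (nat_lit 10)) (nd (nat_lit 269) (nat_lit 0) (cs (lf (nat_lit 11) (nat_lit 246)) (rf (nat_lit 11)))))))))) (cs (nd (nat_lit 205) (nat_lit 0) (cs (nd (nat_lit 183) (nat_lit 0) (cs (lf (nat_lit 45) (nat_lit 183)) (rf (nat_lit 12)))) (cs (rf (nat_lit 13)) (nd (nat_lit 294) (nat_lit 0) (cs (lf (nat_lit 46) (nat_lit 205)) (nd (nat_lit 315) (nat_lit 0) (cs (lf (nat_lit 40) (nat_lit 227)) (nd (nat_lit 316) (nat_lit 0) (cs (lf (nat_lit 41) (nat_lit 249)) (nd (nat_lit 339) (nat_lit 0) (cs (lf (nat_lit 28) (nat_lit 250)) (nd (nat_lit 338) (nat_lit 0) (cs (lf (nat_lit 29) (nat_lit 272)) (nd (nat_lit 249) (nat_lit 0) (cs (lf (nat_lit 46) (nat_lit 249)) (nd (nat_lit 248) (nat_lit 0) (cs (lf (nat_lit 17) (nat_lit 225)) (nd (nat_lit 340) (nat_lit 0) (cs (lf (nat_lit 18) (nat_lit 315)) (rf (nat_lit 14))))))))))))))))))))) (cs (nd (nat_lit 206) (nat_lit 0) (cs (rf (nat_lit 15)) (cs (rf (nat_lit 16)) (rf (nat_lit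 17))))) (nd (nat_lit 206) (nat_lit 0) (cs (rf (nat_lit 16)) (cs (rf (nat_lit 18)) (nd (nat_lit 271) (nat_lit 0) (cs (lf (nat_lit 41) (nat_lit 205)) (nd (nat_lit 249) (nat_lit 0) (cs (lf (nat_lit 36) (nat_lit 183)) (rf (nat_lit 19)))))))))))))))) q52405 (by decide +kernel)
def q52782 : Q := Q.p (nat_lit 0x10000000000080000e00002000000000010000000000000000000000000000000000000000000000000000) (nat_lit 0x400005000ffe003ef0007bc001f70002080000c00007000004000000000000000000000000000000000000000000000000000) (nat_lit 12)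
theorem c52782 : QOK q52782 := cut [q25385, q16980, q25189, q25116, q52698, q52704, q52703, q14763, q52714, q52753, q52720, q52754, q52760, q52767, q31285, q52717, q52781] ⟨c25385, c16980, c25189, c25116, c52698, c52704, c52703, c14763, c52714, c52753, c52720, c52754, c52760, c52767, c31285, c52717, c52781, trivial⟩ (nd (nat_lit 339) (nat_lit 0) (cs (rf (nat_lit 0)) (cs (nd (nat_lit 317) (nat_lit 0) (cs (lf (nat_lit 29) (nat_lit 273)) (nd (nat_lit 296) (nat_lit 0) (cs (lf (nat_lit 30) (nat_lit 273)) (nd (nat_lit 297) (nat_lit 0) (cs (nd (nat_lit 298) (nat_lit 0) (cs (lf (nat_lit 18) (nat_lit 273)) (lf (nat_lit 11) (nat_lit 294)))) (cs (nd (nat_lit 294) (nat_lit 0) (cs (lf (nat_lit 12) (nat_lit 271)) (nd (nat_lit 319) (nat_lit 0) (cs (lf (nat_lit 5) (nat_lit 294)) (nd (nat_lit 316) (nat_lit 0) (cs (lf (nat_lit 11) (nat_lit 293)) (nd (nat_lit 341) (nat_lit 0) (cs (lf (nat_lit 42) (nat_lit 274)) (lf (nat_lit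 18) (nat_lit 316)))))))))) (nd (nat_lit 293) (nat_lit 0) (cs (lf (nat_lit 13) (nat_lit 271)) (nd (nat_lit 298) (nat_lit 0) (cs (lf (nat_lit 18) (nat_lit 273)) (nd (nat_lit 320) (nat_lit 0) (cs (lf (nat_lit 5) (nat_lit 295)) (rf (nat_lit 1))))))))))))))) (cs (nd (nat_lit 338) (nat_lit 0) (cs (nd (nat_lit 317) (nat_lit 0) (cs (lf (nat_lit 41) (nat_lit 272)) (nd (nat_lit 296) (nat_lit 0) (cs (lf (nat_lit 30) (nat_lit 273)) (nd (nat_lit 293) (nat_lit 0) (cs (lf (nat_lit 13) (nat_lit 271)) (rf (nat_lit 2)))))))) (cs (nd (nat_lit 315) (nat_lit 0) (cs (nd (nat_lit 314) (nat_lit 0) (cs (nd (nat_lit 316) (nat_lit 0) (cs (lf (nat_lit 18) (nat_lit 315)) (lf (nat_lit 3) (nat_lit 314)))) (lf (nat_lit 21) (nat_lit 314)))) (cs (nd (nat_lit 316) (nat_lit 0) (cs (lf (nat_lit 18) (nat_lit 315)) (nd (nat_lit 251) (nat_lit 0) (cs (lf (nat_lit 39) (nat_lit 250)) (rf (nat_lit 3)))))) (rf (nat_lit 4))))) (cs (rf (nat_lit 5))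 (nd (nat_lit 360) (nat_lit 0) (cs (rf (nat_lit 6)) (nd (nat_lit 294) (nat_lit 0) (cs (rf (nat_lit 7)) (lf (nat_lit 32) (nat_lit 272)))))))))) (cs (nd (nat_lit 341) (nat_lit 0) (cs (rf (nat_lit 8)) (cs (rf (nat_lit 9)) (cs (nd (nat_lit 338) (nat_lit 0) (cs (rf (nat_lit 10)) (cs (nd (nat_lit 319) (nat_lit 0) (cs (lf (nat_lit 17) (nat_lit 316)) (nd (nat_lit 315) (nat_lit 0) (cs (lf (nat_lit 22) (nat_lit 315)) (nd (nat_lit 337) (nat_lit 0) (cs (lf (nat_lit 23) (nat_lit 314)) (rf (nat_lit 11)))))))) (cs (rf (nat_lit 12)) (nd (nat_lit 319) (nat_lit 0) (cs (lf (nat_lit 17) (nat_lit 316)) (nd (nat_lit 297) (nat_lit 0) (cs (lf (nat_lit 41) (nat_lit 274)) (nd (nat_lit 296) (nat_lit 0) (cs (lf (nat_lit 42) (nat_lit 274)) (nd (nat_lit 294) (nat_lit 0) (cs (lf (nat_lit 12) (nat_lit 271)) (nd (nat_lit 316) (nat_lit 0) (cs (lf (nat_lit 23) (nat_lit 315)) (lf (nat_lit 30) (nat_lit 272)))))))))))))))) (cs (nd (nat_lit 364)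 (nat_lit 0) (cs (nd (nat_lit 342) (nat_lit 0) (cs (lf (nat_lit 5) (nat_lit 339)) (nd (nat_lit 320) (nat_lit 0) (cs (lf (nat_lit 17) (nat_lit 317)) (nd (nat_lit 297) (nat_lit 0) (cs (lf (nat_lit 26) (nat_lit 275)) (lf (nat_lit 45) (nat_lit 275)))))))) (nd (nat_lit 338) (nat_lit 0) (cs (lf (nat_lit 4) (nat_lit 338)) (rf (nat_lit 13)))))) (nd (nat_lit 338) (nat_lit 0) (cs (rf (nat_lit 14)) (cs (rf (nat_lit 15)) (cs (rf (nat_lit 13)) (nd (nat_lit 363) (nat_lit 0) (cs (lf (nat_lit 5) (nat_lit 338)) (nd (nat_lit 360) (nat_lit 0) (cs (lf (nat_lit 11) (nat_lit 337)) (nd (nat_lit 316) (nat_lit 0) (cs (lf (nat_lit 23) (nat_lit 315)) (lf (nat_lit 33) (nat_lit 272))))))))))))))))) (rf (nat_lit 16))))))) q52782 (by decide +kernel)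
def q52798 : Q := Q.p (nat_lit 0x3c000000000080000e00002000000000000000000000000000000000000000000000000000000000000000) (nat_lit 0x40000380003d00007000038c00000000000000000000000000000000000000000000000000000000000000) (nat_lit 9)
theorem c52798 : QOK q52798 := cut [q52795] ⟨c52795, trivial⟩ (nd (nat_lit 320) (nat_lit 0) (cs (lf (nat_lit 16) (nat_lit 316)) (nd (nat_lit 342) (nat_lit 0) (cs (lf (nat_lit 17) (nat_lit 317)) (nd (nat_lit 276) (nat_lit 0) (cs (lf (nat_lit 44) (nat_lit 253)) (rf (nat_lit 0)))))))) q52798 (by decide +kernel)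
def q53031 : Q := Q.p (nat_lit 0x10000000000000000e00002000000000000000000000000000000000000000000000000000000000000000) (nat_lit 0x800007e0001fc003ffc007ee003fbc001f80007180000f00000000000000000000000000000000000000000000000000000000000000) (nat_lit 15)
theorem c53031 : QOK q53031 := cut [q45888, q15619, q12922, q52941, q25476, q52710, q52735, q22741, q25105, q52959, q52960, q22752, q52818, q52963, q52970, q15588, q52751, q52946, q52974, q31266, q52985, q52988, q31229, q12834, q52991, q53008, q53018, q25479, q53028] ⟨c45888, c15619, c12922, c52941, c25476, c52710, c52735, c22741, c25105, c52959, c52960, c22752, c52818, c52963, c52970, c15588, c52751, c52946, c52974, c31266, c52985, c52988, c31229, c12834, c52991, c53008, c53018, c25479, c53028, trivial⟩ (nd (nat_lit 342) (nat_lit 0) (cs (nd (nat_lit 298) (nat_lit 0) (cs (rf (nat_lit 0)) (cs (nd (nat_lit 272) (nat_lit 0) (cs (lf (nat_lit 4) (nat_lit 272))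 (nd (nat_lit 276) (nat_lit 0) (cs (lf (nat_lit 43) (nat_lit 253)) (rf (nat_lit 1)))))) (nd (nat_lit 297) (nat_lit 0) (cs (lf (nat_lit 0) (nat_lit 272)) (rf (nat_lit 2))))))) (cs (nd (nat_lit 341) (nat_lit 0) (cs (rf (nat_lit 3)) (cs (nd (nat_lit 339) (nat_lit 0) (cs (rf (nat_lit 4)) (cs (rf (nat_lit 5)) (rf (nat_lit 6))))) (cs (nd (nat_lit 339) (nat_lit 0) (cs (rf (nat_lit 7)) (cs (rf (nat_lit 5)) (nd (nat_lit 316) (nat_lit 0) (cs (lf (nat_lit 22) (nat_lit 316)) (rf (nat_lit 8))))))) (cs (rf (nat_lit 9)) (cs (rf (nat_lit 10)) (cs (nd (nat_lit 339) (nat_lit 0) (cs (rf (nat_lit 11)) (cs (rf (nat_lit 4)) (cs (rf (nat_lit 12)) (nd (nat_lit 316) (nat_lit 0) (cs (lf (nat_lit 22) (nat_lit 316)) (nd (nat_lit 315) (nat_lit 0) (cs (lf (nat_lit 21) (nat_lit 315)) (rf (nat_lit 13)))))))))) (cs (nd (nat_lit 339) (nat_lit 0) (cs (rf (nat_lit 5)) (rf (nat_lit 14)))) (cs (nd (nat_lit 339) (nat_lit 0) (cs (rf (nat_lit 15))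 (cs (rf (nat_lit 5)) (rf (nat_lit 16))))) (nd (nat_lit 339) (nat_lit 0) (cs (rf (nat_lit 7)) (cs (rf (nat_lit 17)) (cs (rf (nat_lit 14)) (nd (nat_lit 316) (nat_lit 0) (cs (lf (nat_lit 22) (nat_lit 316)) (nd (nat_lit 315) (nat_lit 0) (cs (lf (nat_lit 21) (nat_lit 315)) (nd (nat_lit 365) (nat_lit 0) (cs (lf (nat_lit 4) (nat_lit 339)) (nd (nat_lit 343) (nat_lit 0) (cs (lf (nat_lit 5) (nat_lit 340)) (nd (nat_lit 362) (nat_lit 0) (cs (lf (nat_lit 11) (nat_lit 339)) (nd (nat_lit 319) (nat_lit 0) (cs (lf (nat_lit 37) (nat_lit 274)) (nd (nat_lit 344) (nat_lit 0) (cs (lf (nat_lit 10) (nat_lit 340)) (rf (nat_lit 18))))))))))))))))))))))))))))) (cs (nd (nat_lit 341) (nat_lit 0) (cs (nd (nat_lit 343) (nat_lit 0) (cs (rf (nat_lit 19)) (nd (nat_lit 362) (nat_lit 0) (cs (lf (nat_lit 11) (nat_lit 339)) (rf (nat_lit 20)))))) (cs (rf (nat_lit 21)) (cs (nd (nat_lit 362) (nat_lit 0) (cs (rf (nat_lit 20)) (nd (nat_lit 343)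 (nat_lit 0) (cs (lf (nat_lit 11) (nat_lit 339)) (rf (nat_lit 22)))))) (nd (nat_lit 364) (nat_lit 0) (cs (nd (nat_lit 297) (nat_lit 0) (cs (rf (nat_lit 23)) (lf (nat_lit 26) (nat_lit 275)))) (rf (nat_lit 24)))))))) (cs (nd (nat_lit 341) (nat_lit 0) (cs (rf (nat_lit 25)) (cs (nd (nat_lit 365) (nat_lit 0) (cs (nd (nat_lit 343) (nat_lit 0) (cs (lf (nat_lit 5) (nat_lit 340)) (nd (nat_lit 321) (nat_lit 0) (cs (lf (nat_lit 17) (nat_lit 318)) (nd (nat_lit 320) (nat_lit 0) (cs (lf (nat_lit 12) (nat_lit 317)) (nd (nat_lit 298) (nat_lit 0) (cs (lf (nat_lit 45) (nat_lit 253)) (lf (nat_lit 42) (nat_lit 298)))))))))) (cs (nd (nat_lit 339) (nat_lit 0) (cs (lf (nat_lit 4) (nat_lit 339)) (rf (nat_lit 26)))) (nd (nat_lit 366) (nat_lit 0) (cs (nd (nat_lit 364) (nat_lit 0) (cs (lf (nat_lit 18) (nat_lit 341)) (lf (nat_lit 21) (nat_lit 340)))) (lf (nat_lit 3) (nat_lit 340))))))) (cs (nd (nat_lit 339) (nat_lit 0) (cs (rf (nat_lit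 7)) (cs (rf (nat_lit 4)) (cs (rf (nat_lit 27)) (rf (nat_lit 14)))))) (nd (nat_lit 339) (nat_lit 0) (cs (rf (nat_lit 4)) (cs (rf (nat_lit 16)) (rf (nat_lit 26))))))))) (nd (nat_lit 298) (nat_lit 0) (cs (rf (nat_lit 0)) (cs (nd (nat_lit 272) (nat_lit 0) (cs (lf (nat_lit 4) (nat_lit 272)) (nd (nat_lit 276) (nat_lit 0) (cs (lf (nat_lit 5) (nat_lit 273)) (rf (nat_lit 1)))))) (nd (nat_lit 297) (nat_lit 0) (cs (lf (nat_lit 0) (nat_lit 272)) (rf (nat_lit 28)))))))))))) q53031 (by decide +kernel)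
def q53051 : Q := Q.p (nat_lit 0xe00000400000000000000000000000000000000000000000000000000000000000000) (nat_lit 0x39c0007000038800000000000000000000000000000000000000000000000000000000000000) (nat_lit 7)
theorem c53051 : QOK q53051 := cut [q13007] ⟨c13007, trivial⟩ (nd (nat_lit 276) (nat_lit 0) (cs (lf (nat_lit 22) (nat_lit 250)) (rf (nat_lit 0)))) q53051 (by decide +kernel)
def q53905 : Q := Q.p (nat_lit 0x50000000000000000800002000000000000000000000000000000000000000000000000000000000000000) (nat_lit 0x104000770001dc000ffc003ae001ffc001ac0006300000000000000000000000000000000000000000000000000000000000000000000) (nat_lit 12)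
theorem c53905 : QOK q53905 := cut [q53404, q53411, q53417, q52988, q53415, q53658, q53714, q31266, q53448, q53435, q29497, q22741, q53414, q31242, q53361, q53366] ⟨c53404, c53411, c53417, c52988, c53415, c53658, c53714, c31266, c53448, c53435, c29497, c22741, c53414, c31242, c53361, c53366, trivial⟩ (nd (nat_lit 319) (nat_lit 0) (cs (rf (nat_lit 0)) (cs (rf (nat_lit 1)) (cs (rf (nat_lit 2)) (nd (nat_lit 341) (nat_lit 0) (cs (rf (nat_lit 3)) (cs (rf (nat_lit 4)) (cs (rf (nat_lit 5)) (cs (rf (nat_lit 6)) (cs (nd (nat_lit 343) (nat_lit 0) (cs (rf (nat_lit 7)) (cs (rf (nat_lit 8)) (nd (nat_lit 321) (nat_lit 0) (cs (lf (nat_lit 17) (nat_lit 318)) (nd (nat_lit 386) (nat_lit 0) (cs (nd (nat_lit 317) (nat_lit 0) (cs (lf (nat_lit 22) (nat_lit 317)) (nd (nat_lit 361) (nat_lit 0) (cs (lf (nat_lit 10) (nat_lit 339)) (nd (nat_lit 365) (nat_lit 0) (cs (lf (nat_lit 5) (nat_lit 340)) (nd (nat_lit 387) (nat_lit 0) (cs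 (lf (nat_lit 41) (nat_lit 320)) (nd (nat_lit 410) (nat_lit 0) (cs (lf (nat_lit 28) (nat_lit 321)) (nd (nat_lit 409) (nat_lit 0) (cs (lf (nat_lit 47) (nat_lit 320)) (lf (nat_lit 29) (nat_lit 343)))))))))))))) (cs (nd (nat_lit 365) (nat_lit 0) (cs (lf (nat_lit 5) (nat_lit 340)) (nd (nat_lit 299) (nat_lit 0) (cs (lf (nat_lit 40) (nat_lit 298)) (rf (nat_lit 9)))))) (cs (nd (nat_lit 317) (nat_lit 0) (cs (lf (nat_lit 22) (nat_lit 317)) (nd (nat_lit 364) (nat_lit 0) (cs (lf (nat_lit 30) (nat_lit 320)) (nd (nat_lit 299) (nat_lit 0) (cs (lf (nat_lit 36) (nat_lit 276)) (lf (nat_lit 33) (nat_lit 298)))))))) (nd (nat_lit 364) (nat_lit 0) (cs (lf (nat_lit 30) (nat_lit 320)) (rf (nat_lit 10))))))))))))) (nd (nat_lit 339) (nat_lit 0) (cs (rf (nat_lit 11)) (cs (rf (nat_lit 12)) (nd (nat_lit 317) (nat_lit 0) (cs (lf (nat_lit 23) (nat_lit 316)) (nd (nat_lit 384) (nat_lit 0) (cs (rf (nat_lit 13)) (cs (rf (nat_lit 14)) (cs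 (rf (nat_lit 15)) (nd (nat_lit 320) (nat_lit 0) (cs (lf (nat_lit 17) (nat_lit 317)) (nd (nat_lit 361) (nat_lit 0) (cs (lf (nat_lit 11) (nat_lit 338)) (nd (nat_lit 364) (nat_lit 0) (cs (lf (nat_lit 5) (nat_lit 339)) (nd (nat_lit 295) (nat_lit 0) (cs (lf (nat_lit 28) (nat_lit 295)) (nd (nat_lit 294) (nat_lit 0) (cs (lf (nat_lit 20) (nat_lit 294)) (lf (nat_lit 47) (nat_lit 272))))))))))))))))))))))))))))))) q53905 (by decide +kernel)
def q54764 : Q := Q.p (nat_lit 0x10000000000000000c00002000000000010000000000000000000000000000000000000000000000000000) (nat_lit 0x140000dc0007fc000ff000ffe001ef800fff003df80073e0038f00007c00004000000000000000000000000000000000000000000000000000) (nat_lit 16)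
theorem c54764 : QOK q54764 := cut [q54049, q54075, q54228, q54369, q25522, q54367, q52810, q54033, q54392, q54396, q25509, q53990, q54027, q54493, q53965, q53994, q54505, q54229, q54547, q54555, q25514, q25999, q30118, q54605, q54701, q54710, q53987, q54059, q54504, q54733, q54763] ⟨c54049, c54075, c54228, c54369, c25522, c54367, c52810, c54033, c54392, c54396, c25509, c53990, c54027, c54493, c53965, c53994, c54505, c54229, c54547, c54555, c25514, c25999, c30118, c54605, c54701, c54710, c53987, c54059, c54504, c54733, c54763, trivial⟩ (nd (nat_lit 339) (nat_lit 0) (cs (rf (nat_lit 0)) (cs (rf (nat_lit 1)) (cs (rf (nat_lit 2)) (cs (rf (nat_lit 3)) (cs (nd (nat_lit 318) (nat_lit 0) (cs (lf (nat_lit 32) (nat_lit 252)) (nd (nat_lit 338) (nat_lit 0) (cs (rf (nat_lit 4)) (cs (rf (nat_lit 5)) (cs (nd (nat_lit 341) (nat_lit 0) (cs (rf (nat_lit 6)) (cs (rf (nat_lit 7)) (cs (rf (nat_lit 8)) (rf (nat_lit 9))))))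 (nd (nat_lit 337) (nat_lit 0) (cs (rf (nat_lit 10)) (cs (rf (nat_lit 11)) (rf (nat_lit 12))))))))))) (cs (rf (nat_lit 13)) (cs (nd (nat_lit 318) (nat_lit 0) (cs (lf (nat_lit 32) (nat_lit 252)) (nd (nat_lit 338) (nat_lit 0) (cs (rf (nat_lit 4)) (cs (rf (nat_lit 14)) (cs (rf (nat_lit 15)) (rf (nat_lit 16)))))))) (cs (nd (nat_lit 338) (nat_lit 0) (cs (rf (nat_lit 17)) (cs (rf (nat_lit 18)) (cs (rf (nat_lit 19)) (nd (nat_lit 337) (nat_lit 0) (cs (rf (nat_lit 10)) (cs (rf (nat_lit 20)) (cs (rf (nat_lit 12)) (nd (nat_lit 296) (nat_lit 0) (cs (lf (nat_lit 31) (nat_lit 252)) (nd (nat_lit 363) (nat_lit 0) (cs (lf (nat_lit 4) (nat_lit 337)) (nd (nat_lit 314) (nat_lit 0) (cs (lf (nat_lit 22) (nat_lit 314)) (nd (nat_lit 341) (nat_lit 0) (cs (lf (nat_lit 5) (nat_lit 338)) (rf (nat_lit 21)))))))))))))))))) (cs (nd (nat_lit 318) (nat_lit 0) (cs (lf (nat_lit 32) (nat_lit 252)) (nd (nat_lit 338) (nat_lit 0) (cs (rf (nat_lit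 4)) (cs (rf (nat_lit 5)) (cs (rf (nat_lit 16)) (nd (nat_lit 315) (nat_lit 0) (cs (nd (nat_lit 337) (nat_lit 0) (cs (lf (nat_lit 23) (nat_lit 314)) (nd (nat_lit 362) (nat_lit 0) (cs (lf (nat_lit 5) (nat_lit 337)) (nd (nat_lit 336) (nat_lit 0) (cs (lf (nat_lit 4) (nat_lit 336)) (lf (nat_lit 16) (nat_lit 314)))))))) (cs (nd (nat_lit 314) (nat_lit 0) (cs (lf (nat_lit 21) (nat_lit 314)) (nd (nat_lit 316) (nat_lit 0) (cs (lf (nat_lit 18) (nat_lit 315)) (lf (nat_lit 0) (nat_lit 313)))))) (nd (nat_lit 341) (nat_lit 0) (cs (lf (nat_lit 22) (nat_lit 315)) (nd (nat_lit 364) (nat_lit 0) (cs (lf (nat_lit 4) (nat_lit 338)) (nd (nat_lit 342) (nat_lit 0) (cs (lf (nat_lit 5) (nat_lit 339)) (nd (nat_lit 360) (nat_lit 0) (cs (lf (nat_lit 10) (nat_lit 338)) (nd (nat_lit 343) (nat_lit 0) (cs (lf (nat_lit 23) (nat_lit 317)) (rf (nat_lit 22))))))))))))))))))))) (cs (rf (nat_lit 23)) (cs (rf (nat_lit 24)) (cs (rf (nat_lit 25))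 (cs (nd (nat_lit 318) (nat_lit 0) (cs (lf (nat_lit 32) (nat_lit 252)) (nd (nat_lit 338) (nat_lit 0) (cs (rf (nat_lit 4)) (cs (rf (nat_lit 14)) (cs (rf (nat_lit 15)) (nd (nat_lit 341) (nat_lit 0) (cs (rf (nat_lit 26)) (cs (rf (nat_lit 27)) (cs (rf (nat_lit 8)) (cs (rf (nat_lit 28)) (nd (nat_lit 363) (nat_lit 0) (cs (lf (nat_lit 5) (nat_lit 338)) (nd (nat_lit 385) (nat_lit 0) (cs (lf (nat_lit 42) (nat_lit 318)) (nd (nat_lit 315) (nat_lit 0) (cs (lf (nat_lit 22) (nat_lit 315)) (nd (nat_lit 360) (nat_lit 0) (cs (lf (nat_lit 11) (nat_lit 337)) (nd (nat_lit 342) (nat_lit 0) (cs (lf (nat_lit 10) (nat_lit 338)) (nd (nat_lit 343) (nat_lit 0) (cs (lf (nat_lit 23) (nat_lit 317)) (nd (nat_lit 344) (nat_lit 0) (cs (lf (nat_lit 22) (nat_lit 318)) (lf (nat_lit 11) (nat_lit 340))))))))))))))))))))))))))) (cs (rf (nat_lit 29)) (rf (nat_lit 30))))))))))))))))) q54764 (by decide +kernel)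
def q55081 : Q := Q.p (nat_lit 0x20000e80002000000000010000000000000000000000000000000000000000000000000000) (nat_lit 0x1c0000700007f8003fc000ff80019c000040001b00007c0002700005c000010000000000000000000000000000000000000000) (nat_lit 13)
theorem c55081 : QOK q55081 := cut [q54973, q54936, q54942, q55010, q54647, q54937, q55014, q54981, q55009, q54991, q55019, q48467, q55063, q54927, q55069, q46807] ⟨c54973, c54936, c54942, c55010, c54647, c54937, c55014, c54981, c55009, c54991, c55019, c48467, c55063, c54927, c55069, c46807, trivial⟩ (nd (nat_lit 315) (nat_lit 0) (cs (rf (nat_lit 0)) (cs (nd (nat_lit 337) (nat_lit 0) (cs (rf (nat_lit 1)) (cs (rf (nat_lit 2)) (nd (nat_lit 338) (nat_lit 0) (cs (lf (nat_lit 29) (nat_lit 271)) (nd (nat_lit 316) (nat_lit 0) (cs (lf (nat_lit 24) (nat_lit 249)) (nd (nat_lit 336) (nat_lit 0) (cs (lf (nat_lit 41) (nat_lit 270)) (nd (nat_lit 317) (nat_lit 0) (cs (lf (nat_lit 6) (nat_lit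 314)) (lf (nat_lit 12) (nat_lit 313))))))))))))) (cs (rf (nat_lit 3)) (cs (nd (nat_lit 337) (nat_lit 0) (cs (rf (nat_lit 4)) (cs (rf (nat_lit 1)) (cs (nd (nat_lit 338) (nat_lit 0) (cs (lf (nat_lit 29) (nat_lit 271)) (nd (nat_lit 249) (nat_lit 0) (cs (lf (nat_lit 28) (nat_lit 249)) (rf (nat_lit 5)))))) (nd (nat_lit 248) (nat_lit 0) (cs (lf (nat_lit 46) (nat_lit 248)) (rf (nat_lit 6)))))))) (cs (nd (nat_lit 248) (nat_lit 0) (cs (rf (nat_lit 7)) (cs (rf (nat_lit 8)) (cs (nd (nat_lit 249) (nat_lit 0) (cs (lf (nat_lit 47) (nat_lit 226)) (nd (nat_lit 314) (nat_lit 0) (cs (lf (nat_lit 41) (nat_lit 248)) (rf (nat_lit 9)))))) (nd (nat_lit 337) (nat_lit 0) (cs (lf (nat_lit 46) (nat_lit 248)) (nd (nat_lit 359) (nat_lit 0) (cs (rf (nat_lit 10)) (cs (nd (nat_lit 382) (nat_lit 0) (cs (lf (nat_lit 28) (nat_lit 293)) (nd (nat_lit 381) (nat_lit 0) (cs (lf (nat_lit 29) (nat_lit 315)) (nd (nat_lit 380) (nat_lit 0) (cs (lf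 (nat_lit 41) (nat_lit 314)) (nd (nat_lit 314) (nat_lit 0) (cs (nd (nat_lit 336) (nat_lit 0) (cs (lf (nat_lit 42) (nat_lit 314)) (lf (nat_lit 36) (nat_lit 248)))) (lf (nat_lit 47) (nat_lit 292)))))))))) (cs (nd (nat_lit 380) (nat_lit 0) (cs (lf (nat_lit 40) (nat_lit 292)) (nd (nat_lit 382) (nat_lit 0) (cs (rf (nat_lit 11)) (lf (nat_lit 28) (nat_lit 293)))))) (nd (nat_lit 360) (nat_lit 0) (cs (lf (nat_lit 29) (nat_lit 293)) (nd (nat_lit 336) (nat_lit 0) (cs (lf (nat_lit 41) (nat_lit 270)) (nd (nat_lit 361) (nat_lit 0) (cs (lf (nat_lit 18) (nat_lit 336)) (nd (nat_lit 334) (nat_lit 0) (cs (nd (nat_lit 314) (nat_lit 0) (cs (lf (nat_lit 36) (nat_lit 248)) (nd (nat_lit 381) (nat_lit 0) (cs (lf (nat_lit 42) (nat_lit 314)) (lf (nat_lit 47) (nat_lit 292)))))) (lf (nat_lit 1) (nat_lit 334)))))))))))))))))))) (cs (rf (nat_lit 12)) (nd (nat_lit 338) (nat_lit 0) (cs (nd (nat_lit 249) (nat_lit 0) (cs (lf (nat_lit 28)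 (nat_lit 249)) (rf (nat_lit 13)))) (cs (nd (nat_lit 337) (nat_lit 0) (cs (lf (nat_lit 29) (nat_lit 271)) (nd (nat_lit 336) (nat_lit 0) (cs (lf (nat_lit 41) (nat_lit 270)) (nd (nat_lit 314) (nat_lit 0) (cs (lf (nat_lit 36) (nat_lit 248)) (nd (nat_lit 313) (nat_lit 0) (cs (lf (nat_lit 0) (nat_lit 312)) (lf (nat_lit 18) (nat_lit 313)))))))))) (cs (nd (nat_lit 316) (nat_lit 0) (cs (lf (nat_lit 24) (nat_lit 249)) (rf (nat_lit 14)))) (nd (nat_lit 337) (nat_lit 0) (cs (lf (nat_lit 29) (nat_lit 271)) (nd (nat_lit 339) (nat_lit 0) (cs (nd (nat_lit 336) (nat_lit 0) (cs (lf (nat_lit 41) (nat_lit 270)) (nd (nat_lit 314) (nat_lit 0) (cs (lf (nat_lit 23) (nat_lit 313)) (lf (nat_lit 18) (nat_lit 314)))))) (cs (nd (nat_lit 336) (nat_lit 0) (cs (lf (nat_lit 41) (nat_lit 270)) (nd (nat_lit 317) (nat_lit 0) (cs (lf (nat_lit 17) (nat_lit 314)) (nd (nat_lit 316) (nat_lit 0) (cs (lf (nat_lit 12) (nat_lit 313)) (nd (nat_lit 295)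 (nat_lit 0) (cs (lf (nat_lit 35) (nat_lit 251)) (lf (nat_lit 36) (nat_lit 250)))))))))) (nd (nat_lit 314) (nat_lit 0) (cs (rf (nat_lit 15)) (lf (nat_lit 18) (nat_lit 314)))))))))))))))))))) q55081 (by decide +kernel)
def q55141 : Q := Q.p (nat_lit 0xc00002000000000010000000000000000000000000000000000000000000000000000) (nat_lit 0x80000700007ff001ff8007ff0007000019e00066000000000040000000000000000000000000000000000000000000000) (nat_lit 15)
theorem c55141 : QOK q55141 := cut [q13236, q13049, q13099, q25414, q25415, q52661, q2590, q13102, q13105, q13066, q41733, q13128, q55128, q55129, q12652, q700, q13199, q13170, q13173, q55131, q5304, q13203, q13045, q13214, q54770, q13228] ⟨c13236, c13049, c13099, c25414, c25415, c52661, c2590, c13102, c13105, c13066, c41733, c13128, c55128, c55129, c12652, c700, c13199, c13170, c13173, c55131, c5304, c13203, c13045, c13214, c54770, c13228, trivial⟩ (nd (nat_lit 318)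 (nat_lit 0) (cs (rf (nat_lit 0)) (cs (nd (nat_lit 319) (nat_lit 0) (cs (rf (nat_lit 1)) (cs (nd (nat_lit 320) (nat_lit 0) (cs (rf (nat_lit 2)) (cs (rf (nat_lit 3)) (cs (rf (nat_lit 4)) (cs (rf (nat_lit 5)) (cs (nd (nat_lit 317) (nat_lit 0) (cs (rf (nat_lit 6)) (cs (rf (nat_lit 7)) (rf (nat_lit 8))))) (nd (nat_lit 317) (nat_lit 0) (cs (rf (nat_lit 6)) (cs (rf (nat_lit 9)) (cs (rf (nat_lit 10)) (nd (nat_lit 294) (nat_lit 0) (cs (lf (nat_lit 22) (nat_lit 294)) (rf (nat_lit 11)))))))))))))) (cs (rf (nat_lit 12)) (rf (nat_lit 13)))))) (cs (nd (nat_lit 252) (nat_lit 0) (cs (rf (nat_lit 14)) (cs (nd (nat_lit 276) (nat_lit 0) (cs (rf (nat_lit 15)) (cs (rf (nat_lit 16)) (nd (nat_lit 319) (nat_lit 0) (cs (rf (nat_lit 17)) (cs (rf (nat_lit 18)) (rf (nat_lit 19)))))))) (nd (nat_lit 230) (nat_lit 0) (cs (lf (nat_lit 24) (nat_lit 186)) (nd (nat_lit 251) (nat_lit 0) (cs (rf (nat_lit 20)) (rf (nat_lit 21))))))))) (cs (nd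 (nat_lit 296) (nat_lit 0) (cs (lf (nat_lit 30) (nat_lit 252)) (nd (nat_lit 252) (nat_lit 0) (cs (rf (nat_lit 22)) (rf (nat_lit 23)))))) (cs (nd (nat_lit 340) (nat_lit 0) (cs (lf (nat_lit 32) (nat_lit 252)) (rf (nat_lit 24)))) (nd (nat_lit 319) (nat_lit 0) (cs (rf (nat_lit 1)) (cs (rf (nat_lit 25)) (cs (rf (nat_lit 12)) (rf (nat_lit 13)))))))))))) q55141 (by decide +kernel)
def q55282 : Q := Q.p (nat_lit 0xc00002000000000010000000000000000000000000000000000000000000000000000) (nat_lit 0x500001c0000f6000ffe007ff800ff7007f3800f9f003f78001e00007e0000000000000000000000000000000000000000000000) (nat_lit 17)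
theorem c55282 : QOK q55282 := cut [q13458, q13461, q14108, q53179, q12652, q700, q2179, q54811, q13503, q13504, q54900, q5304, q13507, q13604, q13172, q13569, q13521, q13551, q13556, q13562, q55170, q55249, q13915, q13931, q13937, q2579, q13048, q13919, q55281] ⟨c13458, c13461, c14108, c53179, c12652, c700, c2179, c54811, c13503, c13504, c54900, c5304, c13507, c13604, c13172, c13569, c13521, c13551, c13556, c13562, c55170, c55249, c13915, c13931, c13937, c2579, c13048, c13919, c55281, trivial⟩ (nd (nat_lit 299) (nat_lit 0) (cs (nd (nat_lit 298) (nat_lit 0) (cs (rf (nat_lit 0)) (cs (rf (nat_lit 1)) (cs (rf (nat_lit 2)) (rf (nat_lit 3)))))) (cs (nd (nat_lit 252) (nat_lit 0) (cs (rf (nat_lit 4)) (nd (nat_lit 276) (nat_lit 0) (cs (rf (nat_lit 5)) (cs (nd (nat_lit 250) (nat_lit 0) (cs (lf (nat_lit 1) (nat_lit 250)) (nd (nat_lit 273) (nat_lit 0) (cs (lf (nat_lit 4) (nat_lit 273)) (rf (nat_lit 6)))))) (nd (nat_lit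 298) (nat_lit 0) (cs (lf (nat_lit 0) (nat_lit 273)) (nd (nat_lit 320) (nat_lit 0) (cs (lf (nat_lit 42) (nat_lit 253)) (nd (nat_lit 277) (nat_lit 0) (cs (lf (nat_lit 18) (nat_lit 252)) (rf (nat_lit 7))))))))))))) (cs (nd (nat_lit 276) (nat_lit 0) (cs (rf (nat_lit 8)) (cs (rf (nat_lit 9)) (rf (nat_lit 10))))) (cs (nd (nat_lit 252) (nat_lit 0) (cs (rf (nat_lit 4)) (cs (nd (nat_lit 251) (nat_lit 0) (cs (rf (nat_lit 11)) (cs (nd (nat_lit 318) (nat_lit 0) (cs (rf (nat_lit 12)) (cs (rf (nat_lit 13)) (nd (nat_lit 319) (nat_lit 0) (cs (rf (nat_lit 14)) (cs (rf (nat_lit 15)) (nd (nat_lit 321) (nat_lit 0) (cs (rf (nat_lit 16)) (cs (rf (nat_lit 17)) (cs (rf (nat_lit 18)) (cs (rf (nat_lit 19)) (nd (nat_lit 320) (nat_lit 0) (cs (lf (nat_lit 17) (nat_lit 296)) (nd (nat_lit 297) (nat_lit 0) (cs (lf (nat_lit 29) (nat_lit 253)) (nd (nat_lit 296) (nat_lit 0) (cs (lf (nat_lit 47) (nat_lit 229)) (lf (nat_lit 18) (nat_lit 296)))))))))))))))))))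 (rf (nat_lit 20))))) (rf (nat_lit 21))))) (cs (nd (nat_lit 297) (nat_lit 0) (cs (rf (nat_lit 22)) (cs (rf (nat_lit 23)) (cs (rf (nat_lit 24)) (nd (nat_lit 319) (nat_lit 0) (cs (rf (nat_lit 25)) (cs (rf (nat_lit 26)) (rf (nat_lit 27))))))))) (rf (nat_lit 28)))))))) q55282 (by decide +kernel)
def q55441 : Q := Q.p (nat_lit 0xd00003000000000000000000000000000000000000000000000000000000000000000) (nat_lit 0xa00003e0000fc0007f0003ff000ffc007ff8000080000e00003800000000000000000000000000000000000000000000000000000000) (nat_lit 15)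
theorem c55441 : QOK q55441 := cut [q13603, q55129, q55131, q55398, q41749, q55338, q42245, q55406, q13066, q13062, q55403, q13105, q41733, q41772, q14306, q55428, q13163, q14356, q45485, q15832, q25839, q15131] ⟨c13603, c55129, c55131, c55398, c41749, c55338, c42245, c55406, c13066, c13062, c55403, c13105, c41733, c41772, c14306, c55428, c13163, c14356, c45485, c15832, c25839, c15131, trivial⟩ (nd (nat_lit 318) (nat_lit 0) (cs (nd (nat_lit 319) (nat_lit 0) (cs (rf (nat_lit 0)) (cs (rf (nat_lit 1)) (cs (rf (nat_lit 2)) (nd (nat_lit 317) (nat_lit 0) (cs (rf (nat_lit 3)) (cs (nd (nat_lit 316) (nat_lit 0) (cs (rf (nat_lit 4)) (cs (rf (nat_lit 5)) (nd (nat_lit 294) (nat_lit 0) (cs (lf (nat_lit 23) (nat_lit 293)) (nd (nat_lit 337) (nat_lit 0) (cs (lf (nat_lit 10) (nat_lit 315)) (nd (nat_lit 250) (nat_lit 0) (cs (lf (nat_lit 29) (nat_lit 250)) (rf (nat_lit 6))))))))))) (cs (nd (nat_lit 316) (nat_lit 0) (cs (rf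 (nat_lit 4)) (rf (nat_lit 7)))) (cs (nd (nat_lit 320) (nat_lit 0) (cs (rf (nat_lit 8)) (cs (nd (nat_lit 299) (nat_lit 0) (cs (lf (nat_lit 16) (nat_lit 295)) (nd (nat_lit 321) (nat_lit 0) (cs (lf (nat_lit 17) (nat_lit 296)) (rf (nat_lit 9)))))) (nd (nat_lit 298) (nat_lit 0) (cs (lf (nat_lit 17) (nat_lit 295)) (nd (nat_lit 294) (nat_lit 0) (cs (lf (nat_lit 22) (nat_lit 294)) (nd (nat_lit 316) (nat_lit 0) (cs (lf (nat_lit 23) (nat_lit 293)) (nd (nat_lit 250) (nat_lit 0) (cs (lf (nat_lit 29) (nat_lit 250)) (rf (nat_lit 10))))))))))))) (cs (nd (nat_lit 320) (nat_lit 0) (cs (rf (nat_lit 11)) (cs (rf (nat_lit 12)) (nd (nat_lit 342) (nat_lit 0) (cs (lf (nat_lit 5) (nat_lit 317)) (nd (nat_lit 341) (nat_lit 0) (cs (lf (nat_lit 0) (nat_lit 316)) (nd (nat_lit 299) (nat_lit 0) (cs (lf (nat_lit 16) (nat_lit 295)) (nd (nat_lit 321) (nat_lit 0) (cs (lf (nat_lit 17) (nat_lit 296)) (nd (nat_lit 322) (nat_lit 0) (cs (lf (nat_lit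 11) (nat_lit 318)) (lf (nat_lit 6) (nat_lit 319))))))))))))))) (cs (nd (nat_lit 316) (nat_lit 0) (cs (rf (nat_lit 13)) (cs (rf (nat_lit 7)) (nd (nat_lit 337) (nat_lit 0) (cs (lf (nat_lit 10) (nat_lit 315)) (nd (nat_lit 315) (nat_lit 0) (cs (lf (nat_lit 11) (nat_lit 314)) (nd (nat_lit 250) (nat_lit 0) (cs (rf (nat_lit 14)) (lf (nat_lit 38) (nat_lit 249))))))))))) (rf (nat_lit 15))))))))))))) (cs (nd (nat_lit 319) (nat_lit 0) (cs (rf (nat_lit 16)) (cs (rf (nat_lit 2)) (cs (nd (nat_lit 317) (nat_lit 0) (cs (rf (nat_lit 15)) (cs (nd (nat_lit 296) (nat_lit 0) (cs (lf (nat_lit 41) (nat_lit 251)) (rf (nat_lit 17)))) (cs (nd (nat_lit 316) (nat_lit 0) (cs (rf (nat_lit 18)) (rf (nat_lit 7)))) (nd (nat_lit 339) (nat_lit 0) (cs (lf (nat_lit 38) (nat_lit 251)) (rf (nat_lit 19)))))))) (nd (nat_lit 296) (nat_lit 0) (cs (lf (nat_lit 29) (nat_lit 252)) (rf (nat_lit 20)))))))) (cs (nd (nat_lit 319) (nat_lit 0) (cs (rf (nat_lit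 16)) (cs (rf (nat_lit 21)) (rf (nat_lit 1))))) (cs (nd (nat_lit 296) (nat_lit 0) (cs (lf (nat_lit 30) (nat_lit 252)) (rf (nat_lit 20)))) (nd (nat_lit 296) (nat_lit 0) (cs (lf (nat_lit 30) (nat_lit 252)) (nd (nat_lit 319) (nat_lit 0) (cs (lf (nat_lit 29) (nat_lit 252)) (rf (nat_lit 17))))))))))) q55441 (by decide +kernel)
def q55654 : Q := Q.p (nat_lit 0xc00003800000000000000000000000000000000000000000000000000000000000000) (nat_lit 0xa0000f80000ff0007fc001ff8001f80007380018000042000000000000000000000000000000000000000000000000000000000) (nat_lit 15)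
theorem c55654 : QOK q55654 := cut [q55519, q1257, q15961, q52519, q14327, q2556, q16980, q13934, q13932, q55630, q14318, q11587, q55442] ⟨c55519, c1257, c15961, c52519, c14327, c2556, c16980, c13934, c13932, c55630, c14318, c11587, c55442, trivial⟩ (nd (nat_lit 297) (nat_lit 0) (cs (rf (nat_lit 0)) (cs (nd (nat_lit 276) (nat_lit 0) (cs (rf (nat_lit 1)) (nd (nat_lit 296) (nat_lit 0) (cs (rf (nat_lit 2)) (nd (nat_lit 298) (nat_lit 0) (cs (rf (nat_lit 3)) (cs (nd (nat_lit 299) (nat_lit 0) (cs (lf (nat_lit 18) (nat_lit 274)) (nd (nat_lit 320) (nat_lit 0) (cs (lf (nat_lit 42) (nat_lit 253)) (nd (nat_lit 321) (nat_lit 0) (cs (lf (nat_lit 5) (nat_lit 296)) (lf (nat_lit 0) (nat_lit 295)))))))) (nd (nat_lit 273) (nat_lit 0) (cs (lf (nat_lit 0) (nat_lit 272)) (nd (nat_lit 320) (nat_lit 0) (cs (lf (nat_lit 42) (nat_lit 253)) (nd (nat_lit 295) (nat_lit 0) (cs (rf (nat_lit 4)) (lf (nat_lit 5) (nat_lit 295)))))))))))))))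 (cs (nd (nat_lit 298) (nat_lit 0) (cs (rf (nat_lit 5)) (cs (nd (nat_lit 320) (nat_lit 0) (cs (rf (nat_lit 6)) (cs (nd (nat_lit 276) (nat_lit 0) (cs (lf (nat_lit 18) (nat_lit 251)) (nd (nat_lit 273) (nat_lit 0) (cs (lf (nat_lit 0) (nat_lit 272)) (nd (nat_lit 319) (nat_lit 0) (cs (lf (nat_lit 42) (nat_lit 252)) (nd (nat_lit 318) (nat_lit 0) (cs (lf (nat_lit 41) (nat_lit 252)) (nd (nat_lit 317) (nat_lit 0) (cs (lf (nat_lit 12) (nat_lit 294)) (nd (nat_lit 339) (nat_lit 0) (cs (lf (nat_lit 11) (nat_lit 316)) (lf (nat_lit 32) (nat_lit 251)))))))))))))) (nd (nat_lit 276) (nat_lit 0) (cs (lf (nat_lit 18) (nat_lit 251)) (lf (nat_lit 42) (nat_lit 253))))))) (cs (nd (nat_lit 299) (nat_lit 0) (cs (lf (nat_lit 18) (nat_lit 274)) (nd (nat_lit 272) (nat_lit 0) (cs (lf (nat_lit 1) (nat_lit 272)) (rf (nat_lit 7)))))) (nd (nat_lit 299) (nat_lit 0) (cs (lf (nat_lit 18) (nat_lit 274)) (nd (nat_lit 276) (nat_lit 0) (cs (lf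 (nat_lit 18) (nat_lit 251)) (nd (nat_lit 320) (nat_lit 0) (cs (lf (nat_lit 42) (nat_lit 253)) (nd (nat_lit 319) (nat_lit 0) (cs (lf (nat_lit 42) (nat_lit 252)) (rf (nat_lit 8)))))))))))))) (cs (rf (nat_lit 9)) (cs (nd (nat_lit 296) (nat_lit 0) (cs (nd (nat_lit 319) (nat_lit 0) (cs (lf (nat_lit 42) (nat_lit 252)) (nd (nat_lit 320) (nat_lit 0) (cs (lf (nat_lit 29) (nat_lit 253)) (nd (nat_lit 321) (nat_lit 0) (cs (lf (nat_lit 18) (nat_lit 296)) (nd (nat_lit 318) (nat_lit 0) (cs (lf (nat_lit 47) (nat_lit 229)) (lf (nat_lit 23) (nat_lit 295)))))))))) (cs (nd (nat_lit 276) (nat_lit 0) (cs (lf (nat_lit 18) (nat_lit 251)) (nd (nat_lit 318) (nat_lit 0) (cs (lf (nat_lit 47) (nat_lit 229)) (rf (nat_lit 10)))))) (cs (nd (nat_lit 276) (nat_lit 0) (cs (lf (nat_lit 18) (nat_lit 251)) (nd (nat_lit 319) (nat_lit 0) (cs (lf (nat_lit 42) (nat_lit 252)) (nd (nat_lit 320) (nat_lit 0) (cs (lf (nat_lit 29) (nat_lit 253)) (nd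 (nat_lit 321) (nat_lit 0) (cs (lf (nat_lit 18) (nat_lit 296)) (nd (nat_lit 298) (nat_lit 0) (cs (rf (nat_lit 11)) (lf (nat_lit 0) (nat_lit 295)))))))))))) (nd (nat_lit 319) (nat_lit 0) (cs (lf (nat_lit 42) (nat_lit 252)) (nd (nat_lit 320) (nat_lit 0) (cs (lf (nat_lit 29) (nat_lit 253)) (nd (nat_lit 321) (nat_lit 0) (cs (lf (nat_lit 18) (nat_lit 296)) (nd (nat_lit 276) (nat_lit 0) (cs (lf (nat_lit 18) (nat_lit 251)) (nd (nat_lit 318) (nat_lit 0) (cs (lf (nat_lit 47) (nat_lit 229)) (nd (nat_lit 317) (nat_lit 0) (cs (lf (nat_lit 41) (nat_lit 251)) (nd (nat_lit 299) (nat_lit 0) (cs (lf (nat_lit 17) (nat_lit 296)) (lf (nat_lit 7) (nat_lit 295)))))))))))))))))))) (nd (nat_lit 276) (nat_lit 0) (cs (lf (nat_lit 18) (nat_lit 251)) (nd (nat_lit 319) (nat_lit 0) (cs (lf (nat_lit 42) (nat_lit 252)) (nd (nat_lit 318) (nat_lit 0) (cs (lf (nat_lit 41) (nat_lit 252)) (nd (nat_lit 296) (nat_lit 0) (cs (lf (nat_lit 47) (nat_lit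 229)) (rf (nat_lit 12)))))))))))))))) q55654 (by decide +kernel)
def q55742 : Q := Q.p (nat_lit 0xc00002000000000010000000000000000000000000000000000000000000000000000) (nat_lit 0x140001f00007c0003fe000ff8003ff800f3c0039b800760001e0000740001000000000000000000000000000000000000000000) (nat_lit 15)
theorem c55742 : QOK q55742 := cut [q52635, q55688, q2579, q13048, q25915, q25898, q53064, q14655, q55286, q55288, q55694, q25983, q55446, q55703, q25443, q14319, q13921, q13930, q13007, q12922, q14842, q55717, q55734, q55741] ⟨c52635, c55688, c2579, c13048, c25915, c25898, c53064, c14655, c55286, c55288, c55694, c25983, c55446, c55703, c25443, c14319, c13921, c13930, c13007, c12922, c14842, c55717, c55734, c55741, trivial⟩ (nd (nat_lit 297) (nat_lit 0) (cs (rf (nat_lit 0)) (cs (rf (nat_lit 1)) (cs (nd (nat_lit 319) (nat_lit 0) (cs (rf (nat_lit 2)) (cs (rf (nat_lit 3)) (rf (nat_lit 4))))) (cs (nd (nat_lit 273)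 (nat_lit 0) (cs (rf (nat_lit 5)) (cs (rf (nat_lit 6)) (nd (nat_lit 276) (nat_lit 0) (cs (rf (nat_lit 7)) (cs (rf (nat_lit 8)) (cs (rf (nat_lit 9)) (rf (nat_lit 10))))))))) (cs (nd (nat_lit 296) (nat_lit 0) (cs (rf (nat_lit 11)) (cs (nd (nat_lit 252) (nat_lit 0) (cs (lf (nat_lit 25) (nat_lit 208)) (nd (nat_lit 318) (nat_lit 0) (cs (lf (nat_lit 30) (nat_lit 252)) (nd (nat_lit 319) (nat_lit 0) (cs (lf (nat_lit 29) (nat_lit 252)) (nd (nat_lit 229) (nat_lit 0) (cs (lf (nat_lit 46) (nat_lit 229)) (rf (nat_lit 12)))))))))) (cs (rf (nat_lit 13)) (cs (nd (nat_lit 318) (nat_lit 0) (cs (lf (nat_lit 30) (nat_lit 252)) (nd (nat_lit 252) (nat_lit 0) (cs (lf (nat_lit 25) (nat_lit 208)) (nd (nat_lit 319) (nat_lit 0) (cs (lf (nat_lit 29) (nat_lit 252)) (rf (nat_lit 14)))))))) (nd (nat_lit 318) (nat_lit 0) (cs (lf (nat_lit 30) (nat_lit 252)) (nd (nat_lit 252) (nat_lit 0) (cs (lf (nat_lit 25) (nat_lit 208)) (rf (nat_lit 15)))))))))))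 (cs (nd (nat_lit 273) (nat_lit 0) (cs (rf (nat_lit 5)) (cs (rf (nat_lit 6)) (nd (nat_lit 318) (nat_lit 0) (cs (rf (nat_lit 16)) (cs (rf (nat_lit 17)) (cs (nd (nat_lit 276) (nat_lit 0) (cs (rf (nat_lit 18)) (cs (rf (nat_lit 7)) (cs (rf (nat_lit 9)) (nd (nat_lit 298) (nat_lit 0) (cs (rf (nat_lit 19)) (nd (nat_lit 295) (nat_lit 0) (cs (lf (nat_lit 11) (nat_lit 272)) (nd (nat_lit 252) (nat_lit 0) (cs (lf (nat_lit 37) (nat_lit 207)) (nd (nat_lit 319) (nat_lit 0) (cs (lf (nat_lit 42) (nat_lit 252)) (rf (nat_lit 20)))))))))))))) (rf (nat_lit 21))))))))) (cs (rf (nat_lit 22)) (rf (nat_lit 23)))))))))) q55742 (by decide +kernel)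
def q55769 : Q := Q.p (nat_lit 0xc00002000000000010000000000000000000000000000000000000000000000000000) (nat_lit 0x1e00007c0003e0007380001e000078000260000d0000000000000000000000000000000000000000000000) (nat_lit 11)
theorem c55769 : QOK q55769 := cut [q12652, q55482, q14708, q14866, q25552, q25594, q5304, q14769, q2179, q14768, q15655, q15073, q45847] ⟨c12652, c55482, c14708, c14866, c25552, c25594, c5304, c14769, c2179, c14768, c15655, c15073, c45847, trivial⟩ (nd (nat_lit 252) (nat_lit 0) (cs (rf (nat_lit 0)) (cs (rf (nat_lit 1)) (nd (nat_lit 273) (nat_lit 0) (cs (rf (nat_lit 2)) (cs (rf (nat_lit 3)) (cs (rf (nat_lit 4)) (cs (rf (nat_lit 5)) (cs (nd (nat_lit 251) (nat_lit 0) (cs (rf (nat_lit 6)) (cs (rf (nat_lit 7)) (nd (nat_lit 276) (nat_lit 0) (cs (lf (nat_lit 18) (nat_lit 251)) (nd (nat_lit 295) (nat_lit 0) (cs (lf (nat_lit 11) (nat_lit 272)) (nd (nat_lit 317) (nat_lit 0) (cs (lf (nat_lit 30) (nat_lit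 251)) (nd (nat_lit 316) (nat_lit 0) (cs (lf (nat_lit 41) (nat_lit 250)) (nd (nat_lit 318) (nat_lit 0) (cs (lf (nat_lit 29) (nat_lit 251)) (nd (nat_lit 296) (nat_lit 0) (cs (lf (nat_lit 24) (nat_lit 229)) (nd (nat_lit 315) (nat_lit 0) (cs (lf (nat_lit 12) (nat_lit 292)) (lf (nat_lit 17) (nat_lit 293))))))))))))))))))) (nd (nat_lit 250) (nat_lit 0) (cs (rf (nat_lit 8)) (cs (nd (nat_lit 251) (nat_lit 0) (cs (lf (nat_lit 0) (nat_lit 249)) (rf (nat_lit 9)))) (nd (nat_lit 317) (nat_lit 0) (cs (nd (nat_lit 295) (nat_lit 0) (cs (lf (nat_lit 30) (nat_lit 251)) (nd (nat_lit 251) (nat_lit 0) (cs (lf (nat_lit 47) (nat_lit 228)) (nd (nat_lit 316) (nat_lit 0) (cs (lf (nat_lit 41) (nat_lit 250)) (nd (nat_lit 229) (nat_lit 0) (cs (lf (nat_lit 40) (nat_lit 228)) (nd (nat_lit 318) (nat_lit 0) (cs (lf (nat_lit 29) (nat_lit 251)) (lf (nat_lit 43) (nat_lit 229)))))))))))) (cs (nd (nat_lit 272) (nat_lit 0) (cs (lf (nat_lit 12)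 (nat_lit 249)) (rf (nat_lit 10)))) (cs (nd (nat_lit 272) (nat_lit 0) (cs (lf (nat_lit 12) (nat_lit 249)) (nd (nat_lit 294) (nat_lit 0) (cs (lf (nat_lit 11) (nat_lit 271)) (nd (nat_lit 228) (nat_lit 0) (cs (lf (nat_lit 28) (nat_lit 228)) (rf (nat_lit 11)))))))) (cs (nd (nat_lit 295) (nat_lit 0) (cs (lf (nat_lit 30) (nat_lit 251)) (nd (nat_lit 228) (nat_lit 0) (cs (lf (nat_lit 45) (nat_lit 228)) (nd (nat_lit 272) (nat_lit 0) (cs (lf (nat_lit 12) (nat_lit 249)) (lf (nat_lit 24) (nat_lit 206)))))))) (nd (nat_lit 295) (nat_lit 0) (cs (lf (nat_lit 30) (nat_lit 251)) (nd (nat_lit 272) (nat_lit 0) (cs (lf (nat_lit 12) (nat_lit 249)) (rf (nat_lit 12))))))))))))))))))))))) q55769 (by decide +kernel)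
def q55801 : Q := Q.p (nat_lit 0xc00002000000000010000000000000000000000000000000000000000000000000000) (nat_lit 0x140001f40007f0003ff000ff8003ff000f3800397000750001e4000700001000000000000000000000000000000000000000000) (nat_lit 15)
theorem c55801 : QOK q55801 := cut [q14745, q52635, q55688, q55734, q55741, q12834, q14709, q14655, q54904, q55286, q55694, q2579, q13048, q25970, q25977, q25982, q25983, q55703, q55449, q14764, q25986, q13921, q13930, q55717, q55084, q55779, q25935, q23384, q25932] ⟨c14745, c52635, c55688, c55734, c55741, c12834, c14709, c14655, c54904, c55286, c55694, c2579, c13048, c25970, c25977, c25982, c25983, c55703, c55449, c14764, c25986, c13921, c13930, c55717, c55084, c55779, c25935, c23384, c25932, trivial⟩ (nd (nat_lit 297) (nat_lit 0) (cs (rf (nat_lit 0)) (cs (rf (nat_lit 1)) (cs (rf (nat_lit 2)) (cs (rf (nat_lit 3)) (cs (rf (nat_lit 4)) (cs (nd (nat_lit 273) (nat_lit 0) (cs (rf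 (nat_lit 5)) (cs (rf (nat_lit 6)) (nd (nat_lit 276) (nat_lit 0) (cs (rf (nat_lit 7)) (cs (rf (nat_lit 8)) (cs (rf (nat_lit 9)) (rf (nat_lit 10))))))))) (cs (nd (nat_lit 319) (nat_lit 0) (cs (rf (nat_lit 11)) (cs (rf (nat_lit 12)) (rf (nat_lit 13))))) (cs (nd (nat_lit 296) (nat_lit 0) (cs (rf (nat_lit 14)) (cs (rf (nat_lit 15)) (cs (rf (nat_lit 16)) (cs (rf (nat_lit 17)) (nd (nat_lit 318) (nat_lit 0) (cs (lf (nat_lit 30) (nat_lit 252)) (nd (nat_lit 252) (nat_lit 0) (cs (lf (nat_lit 25) (nat_lit 208)) (rf (nat_lit 18))))))))))) (nd (nat_lit 273) (nat_lit 0) (cs (rf (nat_lit 5)) (cs (rf (nat_lit 6)) (nd (nat_lit 295) (nat_lit 0) (cs (rf (nat_lit 19)) (cs (nd (nat_lit 276) (nat_lit 0) (cs (lf (nat_lit 11) (nat_lit 272)) (nd (nat_lit 298) (nat_lit 0) (cs (lf (nat_lit 5) (nat_lit 273)) (nd (nat_lit 252) (nat_lit 0) (cs (lf (nat_lit 37) (nat_lit 207)) (rf (nat_lit 20)))))))) (cs (nd (nat_lit 318) (nat_lit 0) (cs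 (rf (nat_lit 21)) (cs (rf (nat_lit 22)) (cs (rf (nat_lit 23)) (nd (nat_lit 317) (nat_lit 0) (cs (rf (nat_lit 24)) (cs (nd (nat_lit 316) (nat_lit 0) (cs (rf (nat_lit 25)) (cs (nd (nat_lit 319) (nat_lit 0) (cs (lf (nat_lit 17) (nat_lit 294)) (nd (nat_lit 293) (nat_lit 0) (cs (lf (nat_lit 22) (nat_lit 293)) (nd (nat_lit 292) (nat_lit 0) (cs (lf (nat_lit 21) (nat_lit 292)) (nd (nat_lit 341) (nat_lit 0) (cs (lf (nat_lit 5) (nat_lit 316)) (nd (nat_lit 338) (nat_lit 0) (cs (lf (nat_lit 11) (nat_lit 315)) (nd (nat_lit 360) (nat_lit 0) (cs (lf (nat_lit 30) (nat_lit 294)) (lf (nat_lit 39) (nat_lit 272)))))))))))))) (cs (nd (nat_lit 296) (nat_lit 0) (cs (lf (nat_lit 12) (nat_lit 293)) (nd (nat_lit 339) (nat_lit 0) (cs (lf (nat_lit 30) (nat_lit 273)) (nd (nat_lit 338) (nat_lit 0) (cs (lf (nat_lit 41) (nat_lit 272)) (nd (nat_lit 337) (nat_lit 0) (cs (lf (nat_lit 6) (nat_lit 315)) (lf (nat_lit 12) (nat_lit 314))))))))))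 (nd (nat_lit 298) (nat_lit 0) (cs (lf (nat_lit 15) (nat_lit 294)) (lf (nat_lit 8) (nat_lit 294)))))))) (nd (nat_lit 252) (nat_lit 0) (cs (lf (nat_lit 37) (nat_lit 207)) (nd (nat_lit 319) (nat_lit 0) (cs (lf (nat_lit 42) (nat_lit 252)) (rf (nat_lit 26))))))))))))) (nd (nat_lit 319) (nat_lit 0) (cs (rf (nat_lit 12)) (cs (rf (nat_lit 27)) (nd (nat_lit 318) (nat_lit 0) (cs (rf (nat_lit 21)) (nd (nat_lit 252) (nat_lit 0) (cs (lf (nat_lit 37) (nat_lit 207)) (rf (nat_lit 28))))))))))))))))))))))))) q55801 (by decide +kernel)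
def q55945 : Q := Q.p (nat_lit 0x1e00002000000000000000000000000000000000000000000000000000000000000000) (nat_lit 0x700003c000ffe001ff000ffe000db80001c0001f00009000024000000000000000000000000000000000000000000000000000) (nat_lit 15)
theorem c55945 : QOK q55945 := cut [q55906, q13268, q53393, q54063, q22741, q55001, q55913, q55916, q55920, q55923, q55928, q52960, q23168, q25476, q25479, q13289] ⟨c55906, c13268, c53393, c54063, c22741, c55001, c55913, c55916, c55920, c55923, c55928, c52960, c23168, c25476, c25479, c13289, trivial⟩ (nd (nat_lit 340) (nat_lit 0) (cs (rf (nat_lit 0)) (cs (nd (nat_lit 318) (nat_lit 0) (cs (lf (nat_lit 32) (nat_lit 252)) (nd (nat_lit 342) (nat_lit 0) (cs (rf (nat_lit 1)) (nd (nat_lit 341) (nat_lit 0) (cs (rf (nat_lit 2)) (cs (rf (nat_lit 3)) (nd (nat_lit 339) (nat_lit 0) (cs (rf (nat_lit 4)) (nd (nat_lit 317) (nat_lit 0) (cs (lf (nat_lit 23) (nat_lit 316)) (rf (nat_lit 5)))))))))))))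 (cs (nd (nat_lit 251) (nat_lit 0) (cs (lf (nat_lit 23) (nat_lit 250)) (nd (nat_lit 342) (nat_lit 0) (cs (rf (nat_lit 1)) (cs (nd (nat_lit 317) (nat_lit 0) (cs (nd (nat_lit 298) (nat_lit 0) (cs (lf (nat_lit 5) (nat_lit 273)) (nd (nat_lit 209) (nat_lit 0) (cs (lf (nat_lit 25) (nat_lit 209)) (rf (nat_lit 6)))))) (cs (nd (nat_lit 298) (nat_lit 0) (cs (lf (nat_lit 5) (nat_lit 273)) (nd (nat_lit 209) (nat_lit 0) (cs (lf (nat_lit 25) (nat_lit 209)) (rf (nat_lit 7)))))) (cs (nd (nat_lit 341) (nat_lit 0) (cs (rf (nat_lit 2)) (cs (nd (nat_lit 298) (nat_lit 0) (cs (lf (nat_lit 5) (nat_lit 273)) (nd (nat_lit 209) (nat_lit 0) (cs (lf (nat_lit 25) (nat_lit 209)) (rf (nat_lit 8)))))) (nd (nat_lit 298) (nat_lit 0) (cs (lf (nat_lit 5) (nat_lit 273)) (nd (nat_lit 209) (nat_lit 0) (cs (lf (nat_lit 25) (nat_lit 209)) (rf (nat_lit 9))))))))) (rf (nat_lit 10)))))) (nd (nat_lit 317) (nat_lit 0) (cs (rf (nat_lit 6)) (cs (rf (nat_lit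 7)) (cs (rf (nat_lit 10)) (nd (nat_lit 341) (nat_lit 0) (cs (rf (nat_lit 11)) (cs (rf (nat_lit 8)) (rf (nat_lit 9)))))))))))))) (cs (nd (nat_lit 296) (nat_lit 0) (cs (lf (nat_lit 31) (nat_lit 252)) (nd (nat_lit 209) (nat_lit 0) (cs (lf (nat_lit 37) (nat_lit 208)) (rf (nat_lit 12)))))) (nd (nat_lit 342) (nat_lit 0) (cs (rf (nat_lit 1)) (nd (nat_lit 318) (nat_lit 0) (cs (lf (nat_lit 32) (nat_lit 252)) (nd (nat_lit 341) (nat_lit 0) (cs (rf (nat_lit 2)) (cs (rf (nat_lit 3)) (nd (nat_lit 339) (nat_lit 0) (cs (rf (nat_lit 4)) (cs (rf (nat_lit 13)) (cs (rf (nat_lit 14)) (nd (nat_lit 250) (nat_lit 0) (cs (lf (nat_lit 22) (nat_lit 250)) (nd (nat_lit 361) (nat_lit 0) (cs (lf (nat_lit 11) (nat_lit 338)) (nd (nat_lit 383) (nat_lit 0) (cs (lf (nat_lit 30) (nat_lit 317)) (nd (nat_lit 364) (nat_lit 0) (cs (lf (nat_lit 5) (nat_lit 339)) (nd (nat_lit 249) (nat_lit 0) (cs (lf (nat_lit 21) (nat_lit 249)) (rf (nat_lit 15))))))))))))))))))))))))))))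 q55945 (by decide +kernel)
def q56190 : Q := Q.p (nat_lit 0x40000c00002000000000010000000000000000000000000000000000000000000000000000) (nat_lit 0xe000138000ffc001ff000338001380001e0007b8000620001c8000400000000000000000000000000000000000000000) (nat_lit 14)
theorem c56190 : QOK q56190 := cut [q15683, q15797, q56066, q55836, q56070, q56072, q23075, q56076, q56081, q56085, q56095, q56096, q56099, q55330, q56101, q14184, q56104, q56188] ⟨c15683, c15797, c56066, c55836, c56070, c56072, c23075, c56076, c56081, c56085, c56095, c56096, c56099, c55330, c56101, c14184, c56104, c56188, trivial⟩ (nd (nat_lit 231) (nat_lit 0) (cs (rf (nat_lit 0)) (cs (rf (nat_lit 1)) (nd (nat_lit 272) (nat_lit 0) (cs (nd (nat_lit 273) (nat_lit 0) (cs (lf (nat_lit 11) (nat_lit 271)) (nd (nat_lit 252) (nat_lit 0) (cs (lf (nat_lit 12) (nat_lit 249)) (rf (nat_lit 2)))))) (cs (nd (nat_lit 293) (nat_lit 0) (cs (lf (nat_lit 8) (nat_lit 271))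 (nd (nat_lit 318) (nat_lit 0) (cs (rf (nat_lit 3)) (cs (nd (nat_lit 316) (nat_lit 0) (cs (rf (nat_lit 4)) (cs (rf (nat_lit 5)) (cs (nd (nat_lit 338) (nat_lit 0) (cs (rf (nat_lit 6)) (rf (nat_lit 7)))) (nd (nat_lit 315) (nat_lit 0) (cs (nd (nat_lit 337) (nat_lit 0) (cs (lf (nat_lit 30) (nat_lit 271)) (nd (nat_lit 317) (nat_lit 0) (cs (lf (nat_lit 23) (nat_lit 292)) (lf (nat_lit 11) (nat_lit 314)))))) (cs (nd (nat_lit 317) (nat_lit 0) (cs (lf (nat_lit 23) (nat_lit 292)) (nd (nat_lit 340) (nat_lit 0) (cs (lf (nat_lit 5) (nat_lit 315)) (nd (nat_lit 314) (nat_lit 0) (cs (lf (nat_lit 4) (nat_lit 314)) (rf (nat_lit 8)))))))) (nd (nat_lit 338) (nat_lit 0) (cs (rf (nat_lit 6)) (cs (nd (nat_lit 337) (nat_lit 0) (cs (lf (nat_lit 30) (nat_lit 271)) (nd (nat_lit 360) (nat_lit 0) (cs (lf (nat_lit 42) (nat_lit 293)) (rf (nat_lit 9)))))) (nd (nat_lit 249) (nat_lit 0) (cs (lf (nat_lit 46) (nat_lit 249)) (nd (nat_lit 337)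 (nat_lit 0) (cs (lf (nat_lit 30) (nat_lit 271)) (nd (nat_lit 339) (nat_lit 0) (cs (lf (nat_lit 29) (nat_lit 272)) (nd (nat_lit 314) (nat_lit 0) (cs (lf (nat_lit 18) (nat_lit 314)) (lf (nat_lit 0) (nat_lit 313)))))))))))))))))))) (cs (rf (nat_lit 10)) (rf (nat_lit 11)))))))) (cs (nd (nat_lit 273) (nat_lit 0) (cs (lf (nat_lit 11) (nat_lit 271)) (rf (nat_lit 12)))) (cs (nd (nat_lit 250) (nat_lit 0) (cs (rf (nat_lit 13)) (cs (nd (nat_lit 273) (nat_lit 0) (cs (lf (nat_lit 23) (nat_lit 249)) (nd (nat_lit 251) (nat_lit 0) (cs (lf (nat_lit 18) (nat_lit 250)) (rf (nat_lit 14)))))) (nd (nat_lit 316) (nat_lit 0) (cs (rf (nat_lit 15)) (rf (nat_lit 16))))))) (cs (nd (nat_lit 293) (nat_lit 0) (cs (lf (nat_lit 8) (nat_lit 271)) (nd (nat_lit 318) (nat_lit 0) (cs (rf (nat_lit 3)) (cs (rf (nat_lit 10)) (cs (rf (nat_lit 11)) (nd (nat_lit 316) (nat_lit 0) (cs (rf (nat_lit 4)) (cs (rf (nat_lit 5)) (nd (nat_lit 337) (nat_lit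 0) (cs (nd (nat_lit 315) (nat_lit 0) (cs (lf (nat_lit 30) (nat_lit 271)) (lf (nat_lit 36) (nat_lit 249)))) (cs (nd (nat_lit 338) (nat_lit 0) (cs (lf (nat_lit 41) (nat_lit 271)) (nd (nat_lit 360) (nat_lit 0) (cs (lf (nat_lit 47) (nat_lit 271)) (rf (nat_lit 9)))))) (nd (nat_lit 250) (nat_lit 0) (cs (lf (nat_lit 40) (nat_lit 249)) (rf (nat_lit 16)))))))))))))))) (rf (nat_lit 17))))))))))) q56190 (by decide +kernel)
def q56239 : Q := Q.p (nat_lit 0x40000c00002000000000000000000000000000000000000000000000000000000000000000) (nat_lit 0xa8000ff0003fe0003a00003c0001e0000b800026000008000000000000000000000000000000000000000000000) (nat_lit 13)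
theorem c56239 : QOK q56239 := cut [q15802, q56192, q15826, q15913, q23141, q15953, q55330, q14184, q45109, q14115, q15838, q11816, q41746, q55321, q43930] ⟨c15802, c56192, c15826, c15913, c23141, c15953, c55330, c14184, c45109, c14115, c15838, c11816, c41746, c55321, c43930, trivial⟩ (nd (nat_lit 296) (nat_lit 0) (cs (rf (nat_lit 0)) (cs (rf (nat_lit 1)) (cs (nd (nat_lit 272) (nat_lit 0) (cs (rf (nat_lit 2)) (cs (rf (nat_lit 3)) (cs (rf (nat_lit 4)) (nd (nat_lit 250) (nat_lit 0) (cs (rf (nat_lit 5)) (cs (rf (nat_lit 6)) (cs (nd (nat_lit 316) (nat_lit 0) (cs (rf (nat_lit 7)) (cs (rf (nat_lit 8)) (cs (nd (nat_lit 209) (nat_lit 0) (cs (lf (nat_lit 37) (nat_lit 208)) (nd (nat_lit 315) (nat_lit 0) (cs (lf (nat_lit 41) (nat_lit 249)) (nd (nat_lit 295) (nat_lit 0) (cs (lf (nat_lit 6) (nat_lit 293)) (nd (nat_lit 313) (nat_lit 0) (cs (lf (nat_lit 13) (nat_lit 291)) (nd (nat_lit 251) (nat_lit 0) (cs (lf (nat_lit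 35) (nat_lit 228)) (nd (nat_lit 273) (nat_lit 0) (cs (lf (nat_lit 30) (nat_lit 250)) (nd (nat_lit 271) (nat_lit 0) (cs (lf (nat_lit 7) (nat_lit 249)) (lf (nat_lit 0) (nat_lit 270)))))))))))))))) (nd (nat_lit 209) (nat_lit 0) (cs (lf (nat_lit 37) (nat_lit 208)) (nd (nat_lit 317) (nat_lit 0) (cs (lf (nat_lit 29) (nat_lit 250)) (nd (nat_lit 228) (nat_lit 0) (cs (lf (nat_lit 28) (nat_lit 228)) (nd (nat_lit 205) (nat_lit 0) (cs (lf (nat_lit 46) (nat_lit 205)) (nd (nat_lit 183) (nat_lit 0) (cs (lf (nat_lit 45) (nat_lit 183)) (nd (nat_lit 251) (nat_lit 0) (cs (lf (nat_lit 35) (nat_lit 228)) (nd (nat_lit 273) (nat_lit 0) (cs (lf (nat_lit 30) (nat_lit 250)) (nd (nat_lit 271) (nat_lit 0) (cs (lf (nat_lit 7) (nat_lit 249)) (lf (nat_lit 5) (nat_lit 271)))))))))))))))))))))) (nd (nat_lit 316) (nat_lit 0) (cs (rf (nat_lit 7)) (cs (nd (nat_lit 209) (nat_lit 0) (cs (lf (nat_lit 37) (nat_lit 208)) (nd (nat_lit 229) (nat_lit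 0) (cs (rf (nat_lit 9)) (lf (nat_lit 34) (nat_lit 228)))))) (nd (nat_lit 315) (nat_lit 0) (cs (lf (nat_lit 41) (nat_lit 249)) (nd (nat_lit 295) (nat_lit 0) (cs (lf (nat_lit 6) (nat_lit 293)) (nd (nat_lit 313) (nat_lit 0) (cs (lf (nat_lit 13) (nat_lit 291)) (nd (nat_lit 209) (nat_lit 0) (cs (lf (nat_lit 37) (nat_lit 208)) (nd (nat_lit 227) (nat_lit 0) (cs (lf (nat_lit 46) (nat_lit 227)) (nd (nat_lit 228) (nat_lit 0) (cs (lf (nat_lit 47) (nat_lit 205)) (nd (nat_lit 251) (nat_lit 0) (cs (lf (nat_lit 19) (nat_lit 227)) (lf (nat_lit 35) (nat_lit 228))))))))))))))))))))))))))) (nd (nat_lit 319) (nat_lit 0) (cs (nd (nat_lit 318) (nat_lit 0) (cs (lf (nat_lit 30) (nat_lit 252)) (nd (nat_lit 252) (nat_lit 0) (cs (lf (nat_lit 29) (nat_lit 252)) (nd (nat_lit 317) (nat_lit 0) (cs (lf (nat_lit 41) (nat_lit 251)) (rf (nat_lit 10)))))))) (cs (nd (nat_lit 295) (nat_lit 0) (cs (lf (nat_lit 12) (nat_lit 271)) (nd (nat_lit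 297) (nat_lit 0) (cs (rf (nat_lit 11)) (lf (nat_lit 5) (nat_lit 294)))))) (cs (nd (nat_lit 318) (nat_lit 0) (cs (lf (nat_lit 30) (nat_lit 252)) (nd (nat_lit 252) (nat_lit 0) (cs (lf (nat_lit 29) (nat_lit 252)) (nd (nat_lit 317) (nat_lit 0) (cs (lf (nat_lit 41) (nat_lit 251)) (nd (nat_lit 229) (nat_lit 0) (cs (lf (nat_lit 46) (nat_lit 229)) (nd (nat_lit 316) (nat_lit 0) (cs (lf (nat_lit 23) (nat_lit 293)) (nd (nat_lit 315) (nat_lit 0) (cs (lf (nat_lit 17) (nat_lit 293)) (rf (nat_lit 12)))))))))))))) (cs (nd (nat_lit 318) (nat_lit 0) (cs (lf (nat_lit 30) (nat_lit 252)) (nd (nat_lit 252) (nat_lit 0) (cs (lf (nat_lit 29) (nat_lit 252)) (rf (nat_lit 13)))))) (nd (nat_lit 295) (nat_lit 0) (cs (lf (nat_lit 12) (nat_lit 271)) (nd (nat_lit 318) (nat_lit 0) (cs (lf (nat_lit 30) (nat_lit 252)) (rf (nat_lit 14))))))))))))))) q56239 (by decide +kernel)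
def q57704 : Q := Q.p (nat_lit 0x800003400000000010000000000000000000000000000000000000000000000000000) (nat_lit 0x40000700001e000278001880007f8001e00007c0001c00005000000000000000000000000000000000000) (nat_lit 13)
theorem c57704 : QOK q57704 := cut [q57664, q1402, q6232, q57666, q52664, q57679, q22283, q9794, q57683, q57684, q57690, q57694, q57696] ⟨c57664, c1402, c6232, c57666, c52664, c57679, c22283, c9794, c57683, c57684, c57690, c57694, c57696, trivial⟩ (nd (nat_lit 230) (nat_lit 0) (cs (lf (nat_lit 24) (nat_lit 186)) (nd (nat_lit 231) (nat_lit 0) (cs (rf (nat_lit 0)) (cs (nd (nat_lit 209) (nat_lit 0) (cs (rf (nat_lit 1)) (rf (nat_lit 2)))) (cs (nd (nat_lit 274) (nat_lit 0) (cs (rf (nat_lit 3)) (cs (nd (nat_lit 251) (nat_lit 0) (cs (lf (nat_lit 17) (nat_lit 228)) (nd (nat_lit 227) (nat_lit 0) (cs (lf (nat_lit 22) (nat_lit 227)) (nd (nat_lit 273) (nat_lit 0) (cs (lf (nat_lit 41) (nat_lit 207)) (nd (nat_lit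 272) (nat_lit 0) (cs (lf (nat_lit 12) (nat_lit 249)) (nd (nat_lit 187) (nat_lit 0) (cs (lf (nat_lit 37) (nat_lit 186)) (rf (nat_lit 4)))))))))))) (nd (nat_lit 273) (nat_lit 0) (cs (lf (nat_lit 41) (nat_lit 207)) (nd (nat_lit 251) (nat_lit 0) (cs (lf (nat_lit 17) (nat_lit 228)) (nd (nat_lit 227) (nat_lit 0) (cs (lf (nat_lit 22) (nat_lit 227)) (nd (nat_lit 272) (nat_lit 0) (cs (lf (nat_lit 12) (nat_lit 249)) (nd (nat_lit 296) (nat_lit 0) (cs (lf (nat_lit 30) (nat_lit 230)) (rf (nat_lit 4))))))))))))))) (nd (nat_lit 232) (nat_lit 0) (cs (lf (nat_lit 13) (nat_lit 228)) (nd (nat_lit 274) (nat_lit 0) (cs (rf (nat_lit 3)) (cs (nd (nat_lit 233) (nat_lit 0) (cs (lf (nat_lit 6) (nat_lit 230)) (nd (nat_lit 255) (nat_lit 0) (cs (lf (nat_lit 5) (nat_lit 230)) (nd (nat_lit 211) (nat_lit 0) (cs (lf (nat_lit 17) (nat_lit 208)) (rf (nat_lit 5)))))))) (nd (nat_lit 209) (nat_lit 0) (cs (rf (nat_lit 6)) (nd (nat_lit 211) (nat_lit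 0) (cs (rf (nat_lit 7)) (cs (rf (nat_lit 8)) (nd (nat_lit 189) (nat_lit 0) (cs (rf (nat_lit 9)) (cs (rf (nat_lit 10)) (cs (rf (nat_lit 11)) (nd (nat_lit 233) (nat_lit 0) (cs (lf (nat_lit 6) (nat_lit 230)) (rf (nat_lit 12)))))))))))))))))))))))) q57704 (by decide +kernel)
def q57748 : Q := Q.p (nat_lit 0x24000000000100001c0000000000000000000000000000000000000000000000) (nat_lit 0x140008300039c000c700003c000ff0003e0000b800000000000000000000000000000) (nat_lit 13)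
theorem c57748 : QOK q57748 := cut [q19289, q57724, q57732, q4891, q19679, q57738, q19155, q19697, q57745] ⟨c19289, c57724, c57732, c4891, c19679, c57738, c19155, c19697, c57745, trivial⟩ (nd (nat_lit 185) (nat_lit 0) (cs (rf (nat_lit 0)) (cs (rf (nat_lit 1)) (cs (rf (nat_lit 2)) (cs (nd (nat_lit 184) (nat_lit 0) (cs (rf (nat_lit 3)) (cs (nd (nat_lit 210) (nat_lit 0) (cs (lf (nat_lit 5) (nat_lit 185)) (nd (nat_lit 205) (nat_lit 0) (cs (lf (nat_lit 10) (nat_lit 183)) (nd (nat_lit 183) (nat_lit 0) (cs (lf (nat_lit 11) (nat_lit 182)) (nd (nat_lit 161) (nat_lit 0) (cs (lf (nat_lit 23) (nat_lit 160)) (nd (nat_lit 166) (nat_lit 0) (cs (lf (nat_lit 17) (nat_lit 163)) (rf (nat_lit 4)))))))))))) (rf (nat_lit 5))))) (nd (nat_lit 184) (nat_lit 0) (cs (rf (nat_lit 3)) (cs (rf (nat_lit 6)) (cs (rf (nat_lit 7)) (nd (nat_lit 210) (nat_lit 0) (cs (lf (nat_lit 5) (nat_lit 185)) (rf (nat_lit 8))))))))))))) q57748 (by decide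 +kernel)
def q57998 : Q := Q.p (nat_lit 0x8000024000000000100000c0000000000000000000000000000000000000000000000) (nat_lit 0x12000018000198000e6000238001ff800ffc001ff00001000000000000000000000000) (nat_lit 14)
theorem c57998 : QOK q57998 := cut [q11, q57975, q57978, q57982, q57974, q57990, q8384, q57995, q57996] ⟨c11, c57975, c57978, c57982, c57974, c57990, c8384, c57995, c57996, trivial⟩ (nd (nat_lit 209) (nat_lit 0) (cs (lf (nat_lit 44) (nat_lit 186)) (nd (nat_lit 143) (nat_lit 0) (cs (nd (nat_lit 185) (nat_lit 0) (cs (rf (nat_lit 0)) (cs (rf (nat_lit 1)) (rf (nat_lit 2))))) (cs (nd (nat_lit 142) (nat_lit 0) (cs (rf (nat_lit 3)) (cs (nd (nat_lit 185) (nat_lit 0) (cs (rf (nat_lit 0)) (cs (rf (nat_lit 4)) (rf (nat_lit 2))))) (cs (nd (nat_lit 185) (nat_lit 0) (cs (rf (nat_lit 0)) (cs (rf (nat_lit 2)) (rf (nat_lit 5))))) (nd (nat_lit 165) (nat_lit 0) (cs (lf (nat_lit 47) (nat_lit 120)) (rf (nat_lit 6))))))))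 (cs (rf (nat_lit 7)) (rf (nat_lit 8)))))))) q57998 (by decide +kernel)
def q58029 : Q := Q.p (nat_lit 0x8000020000000000100000c0000000000000000000000000000000000000000000000) (nat_lit 0x20000180000780001e0000738001de0003e0000f800000000000000000000000000000) (nat_lit 12)
theorem c58029 : QOK q58029 := cut [q8140, q8144, q10512, q2771, q8062, q8848, q8052, q9823, q58027] ⟨c8140, c8144, c10512, c2771, c8062, c8848, c8052, c9823, c58027, trivial⟩ (nd (nat_lit 209) (nat_lit 0) (cs (lf (nat_lit 44) (nat_lit 186)) (nd (nat_lit 188) (nat_lit 0) (cs (rf (nat_lit 0)) (cs (rf (nat_lit 1)) (cs (rf (nat_lit 2)) (cs (nd (nat_lit 210) (nat_lit 0) (cs (rf (nat_lit 3)) (cs (rf (nat_lit 4)) (nd (nat_lit 166) (nat_lit 0) (cs (rf (nat_lit 5)) (cs (nd (nat_lit 144) (nat_lit 0) (cs (lf (nat_lit 36) (nat_lit 121)) (rf (nat_lit 6)))) (nd (nat_lit 144) (nat_lit 0) (cs (lf (nat_lit 36) (nat_lit 121)) (nd (nat_lit 143) (nat_lit 0)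 (cs (lf (nat_lit 47) (nat_lit 121)) (nd (nat_lit 185) (nat_lit 0) (cs (lf (nat_lit 0) (nat_lit 184)) (nd (nat_lit 163) (nat_lit 0) (cs (lf (nat_lit 23) (nat_lit 162)) (nd (nat_lit 119) (nat_lit 0) (cs (lf (nat_lit 25) (nat_lit 119)) (rf (nat_lit 7)))))))))))))))))) (rf (nat_lit 8))))))))) q58029 (by decide +kernel)
def q58044 : Q := Q.p (nat_lit 0x8000024000000000100000c0000000000000000000000000000000000000000000000) (nat_lit 0x12000098000318007e7001f38007ff0007e0001f8000780000c0000000000000000000) (nat_lit 13)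
theorem c58044 : QOK q58044 := cut [q58033, q58034, q58037, q58043] ⟨c58033, c58034, c58037, c58043, trivial⟩ (nd (nat_lit 185) (nat_lit 0) (cs (rf (nat_lit 0)) (cs (rf (nat_lit 1)) (cs (rf (nat_lit 2)) (rf (nat_lit 3)))))) q58044 (by decide +kernel)
def q58174 : Q := Q.p (nat_lit 0x8000024000000000100000c0000000000000000000000000000000000000000000000) (nat_lit 0x12000018000198007e7000f38007ff0000200000800000000000000000000000000000) (nat_lit 10)
theorem c58174 : QOK q58174 := cut [q58034, q58037, q58043, q58173] ⟨c58034, c58037, c58043, c58173, trivial⟩ (nd (nat_lit 185) (nat_lit 0) (cs (rf (nat_lit 0)) (cs (rf (nat_lit 1)) (cs (rf (nat_lit 2)) (rf (nat_lit 3)))))) q58174 (by decide +kernel)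
def q58284 : Q := Q.p (nat_lit 0x8000020000000000100000c0000000000000000000000000000000000000000000000) (nat_lit 0x60000180000780003e0000700003ff000ff8007ff000280000a0000000000000000000) (nat_lit 14)
theorem c58284 : QOK q58284 := cut [q57824, q58027, q58221, q10489, q58224, q10427, q19295, q58226, q7989, q20766, q57823, q58237, q58259, q58265, q18440, q58272, q58176, q58185, q58187, q58273, q58281] ⟨c57824, c58027, c58221, c10489, c58224, c10427, c19295, c58226, c7989, c20766, c57823, c58237, c58259, c58265, c18440, c58272, c58176, c58185, c58187, c58273, c58281, trivial⟩ (nd (nat_lit 209) (nat_lit 0) (cs (lf (nat_lit 44) (nat_lit 186)) (nd (nat_lit 188) (nat_lit 0) (cs (rf (nat_lit 0)) (cs (rf (nat_lit 1)) (cs (rf (nat_lit 2)) (cs (nd (nat_lit 164) (nat_lit 0) (cs (rf (nat_lit 3)) (cs (rf (nat_lit 4)) (nd (nat_lit 143) (nat_lit 0) (cs (rf (nat_lit 5)) (nd (nat_lit 189) (nat_lit 0) (cs (lf (nat_lit 6)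 (nat_lit 186)) (nd (nat_lit 211) (nat_lit 0) (cs (lf (nat_lit 5) (nat_lit 186)) (nd (nat_lit 167) (nat_lit 0) (cs (lf (nat_lit 17) (nat_lit 164)) (nd (nat_lit 145) (nat_lit 0) (cs (rf (nat_lit 6)) (rf (nat_lit 7))))))))))))))) (cs (nd (nat_lit 189) (nat_lit 0) (cs (rf (nat_lit 8)) (cs (rf (nat_lit 9)) (cs (rf (nat_lit 10)) (nd (nat_lit 164) (nat_lit 0) (cs (lf (nat_lit 23) (nat_lit 163)) (nd (nat_lit 211) (nat_lit 0) (cs (lf (nat_lit 5) (nat_lit 186)) (nd (nat_lit 167) (nat_lit 0) (cs (lf (nat_lit 17) (nat_lit 164)) (rf (nat_lit 11)))))))))))) (cs (rf (nat_lit 12)) (cs (rf (nat_lit 13)) (nd (nat_lit 164) (nat_lit 0) (cs (rf (nat_lit 14)) (cs (rf (nat_lit 15)) (cs (nd (nat_lit 142) (nat_lit 0) (cs (lf (nat_lit 24) (nat_lit 120)) (nd (nat_lit 143) (nat_lit 0) (cs (lf (nat_lit 35) (nat_lit 120)) (nd (nat_lit 144) (nat_lit 0) (cs (rf (nat_lit 16)) (cs (rf (nat_lit 17)) (cs (rf (nat_lit 18)) (rf (nat_lit 19))))))))))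 (rf (nat_lit 20)))))))))))))))) q58284 (by decide +kernel)
def q58308 : Q := Q.p (nat_lit 0x8000024000000000100000c0000000000000000000000000000000000000000000000) (nat_lit 0x12000098000398000e7000138003ff000ff0003f800038000080000000000000000000) (nat_lit 15)
theorem c58308 : QOK q58308 := cut [q58034, q58037, q58043, q58307] ⟨c58034, c58037, c58043, c58307, trivial⟩ (nd (nat_lit 185) (nat_lit 0) (cs (rf (nat_lit 0)) (cs (rf (nat_lit 1)) (cs (rf (nat_lit 2)) (rf (nat_lit 3)))))) q58308 (by decide +kernel)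
def q58339 : Q := Q.p (nat_lit 0x8000024000000000100001c0000000000000000000000000000000000000000000000) (nat_lit 0x12000018000198000e60000380007f0003e0000fc00010000000000000000000000000) (nat_lit 11)
theorem c58339 : QOK q58339 := cut [q58037, q58337, q58338] ⟨c58037, c58337, c58338, trivial⟩ (nd (nat_lit 185) (nat_lit 0) (cs (rf (nat_lit 0)) (cs (rf (nat_lit 1)) (rf (nat_lit 2))))) q58339 (by decide +kernel)
def q58389 : Q := Q.p (nat_lit 0x8000020000000000100000c0000000000000000000000000000000000000000000000) (nat_lit 0x20000080000780007e0000f38007f00007f0001fc00070000100000000000000000000) (nat_lit 13)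
theorem c58389 : QOK q58389 := cut [q57811, q58319, q58362, q58371, q58372, q58373, q7989, q58377, q58379, q58384] ⟨c57811, c58319, c58362, c58371, c58372, c58373, c7989, c58377, c58379, c58384, trivial⟩ (nd (nat_lit 188) (nat_lit 0) (cs (rf (nat_lit 0)) (cs (rf (nat_lit 1)) (cs (rf (nat_lit 2)) (cs (rf (nat_lit 3)) (cs (rf (nat_lit 4)) (cs (rf (nat_lit 5)) (nd (nat_lit 189) (nat_lit 0) (cs (rf (nat_lit 6)) (cs (nd (nat_lit 167) (nat_lit 0) (cs (lf (nat_lit 17) (nat_lit 164)) (nd (nat_lit 145) (nat_lit 0) (cs (nd (nat_lit 209) (nat_lit 0) (cs (lf (nat_lit 44) (nat_lit 186)) (rf (nat_lit 7)))) (cs (nd (nat_lit 209) (nat_lit 0) (cs (lf (nat_lit 44) (nat_lit 186)) (nd (nat_lit 211) (nat_lit 0) (cs (lf (nat_lit 5) (nat_lit 186)) (nd (nat_lit 210) (nat_lit 0) (cs (lf (nat_lit 41) (nat_lit 144)) (nd (nat_lit 233) (nat_lit 0) (cs (lf (nat_lit 5) (nat_lit 208)) (rf (nat_lit 8)))))))))) (rf (nat_lit 9))))))) (nd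 (nat_lit 209) (nat_lit 0) (cs (lf (nat_lit 44) (nat_lit 186)) (lf (nat_lit 6) (nat_lit 186)))))))))))))) q58389 (by decide +kernel)
def q58448 : Q := Q.p (nat_lit 0x8000024000000000100000c0000000000000000000000000000000000000000000000) (nat_lit 0x12000018000298001a6000738003ff8007fc003ff80002000000000000000000000000) (nat_lit 14)
theorem c58448 : QOK q58448 := cut [q58399, q8140, q18440, q57978, q58404, q58405, q58412, q58421, q58426, q58429, q58436, q58446] ⟨c58399, c8140, c18440, c57978, c58404, c58405, c58412, c58421, c58426, c58429, c58436, c58446, trivial⟩ (nd (nat_lit 209) (nat_lit 0) (cs (lf (nat_lit 44) (nat_lit 186)) (nd (nat_lit 164) (nat_lit 0) (cs (rf (nat_lit 0)) (cs (nd (nat_lit 188) (nat_lit 0) (cs (rf (nat_lit 1)) (cs (rf (nat_lit 2)) (nd (nat_lit 185) (nat_lit 0) (cs (rf (nat_lit 3)) (cs (rf (nat_lit 4)) (rf (nat_lit 5)))))))) (cs (rf (nat_lit 6)) (cs (rf (nat_lit 7)) (cs (rf (nat_lit 8))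 (cs (rf (nat_lit 9)) (cs (rf (nat_lit 10)) (rf (nat_lit 11)))))))))))) q58448 (by decide +kernel)
def q58472 : Q := Q.p (nat_lit 0x800002000000000010000040000000000000000000000000000000000000000000000) (nat_lit 0x80000e0000200000a0003ff0007f8003ff0000e000018000000000000000000) (nat_lit 11)
theorem c58472 : QOK q58472 := cut [q58454, q58456, q4866, q4929, q18163, q556, q4864, q4927, q9039, q58273, q8608, q21566, q7775] ⟨c58454, c58456, c4866, c4929, c18163, c556, c4864, c4927, c9039, c58273, c8608, c21566, c7775, trivial⟩ (nd (nat_lit 164) (nat_lit 0) (cs (rf (nat_lit 0)) (cs (rf (nat_lit 1)) (cs (nd (nat_lit 142) (nat_lit 0) (cs (rf (nat_lit 2)) (cs (rf (nat_lit 3)) (cs (rf (nat_lit 4)) (cs (nd (nat_lit 120) (nat_lit 0) (cs (rf (nat_lit 5)) (cs (rf (nat_lit 6)) (rf (nat_lit 7))))) (nd (nat_lit 141) (nat_lit 0) (cs (lf (nat_lit 47) (nat_lit 119)) (nd (nat_lit 143) (nat_lit 0) (cs (lf (nat_lit 35) (nat_lit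 120)) (nd (nat_lit 230) (nat_lit 0) (cs (lf (nat_lit 34) (nat_lit 142)) (lf (nat_lit 46) (nat_lit 141))))))))))))) (nd (nat_lit 142) (nat_lit 0) (cs (rf (nat_lit 4)) (cs (nd (nat_lit 143) (nat_lit 0) (cs (lf (nat_lit 35) (nat_lit 120)) (nd (nat_lit 144) (nat_lit 0) (cs (rf (nat_lit 8)) (cs (rf (nat_lit 9)) (nd (nat_lit 209) (nat_lit 0) (cs (lf (nat_lit 44) (nat_lit 186)) (rf (nat_lit 10))))))))) (cs (nd (nat_lit 209) (nat_lit 0) (cs (lf (nat_lit 29) (nat_lit 142)) (rf (nat_lit 11)))) (nd (nat_lit 209) (nat_lit 0) (cs (lf (nat_lit 29) (nat_lit 142)) (rf (nat_lit 12)))))))))))) q58472 (by decide +kernel)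
def q58845 : Q := Q.p (nat_lit 0x20000800002400000000010000000000000000000000000000000000000000000000000000) (nat_lit 0x140000700003c00019c0017f8001bc001bf000278000de000028000000000000000000000000000000000000000) (nat_lit 11)
theorem c58845 : QOK q58845 := cut [q58508, q58791, q58793, q57345, q58800, q58807, q15305, q56417, q56448, q58810, q58818, q56931, q58513, q58820, q15307, q25568, q58512, q58827, q58832, q51478, q58841, q58844] ⟨c58508, c58791, c58793, c57345, c58800, c58807, c15305, c56417, c56448, c58810, c58818, c56931, c58513, c58820, c15307, c25568, c58512, c58827, c58832, c51478, c58841, c58844, trivial⟩ (nd (nat_lit 251) (nat_lit 0) (cs (rf (nat_lit 0)) (cs (rf (nat_lit 1)) (cs (rf (nat_lit 2)) (cs (nd (nat_lit 249) (nat_lit 0) (cs (nd (nat_lit 271) (nat_lit 0) (cs (rf (nat_lit 3)) (cs (rf (nat_lit 4)) (rf (nat_lit 5))))) (cs (nd (nat_lit 248) (nat_lit 0) (cs (rf (nat_lit 6)) (cs (rf (nat_lit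 7)) (cs (rf (nat_lit 8)) (nd (nat_lit 226) (nat_lit 0) (cs (lf (nat_lit 23) (nat_lit 225)) (nd (nat_lit 273) (nat_lit 0) (cs (lf (nat_lit 5) (nat_lit 248)) (nd (nat_lit 270) (nat_lit 0) (cs (lf (nat_lit 11) (nat_lit 247)) (rf (nat_lit 9)))))))))))) (cs (rf (nat_lit 10)) (cs (nd (nat_lit 271) (nat_lit 0) (cs (rf (nat_lit 11)) (cs (rf (nat_lit 12)) (cs (rf (nat_lit 5)) (nd (nat_lit 270) (nat_lit 0) (cs (rf (nat_lit 13)) (cs (nd (nat_lit 273) (nat_lit 0) (cs (rf (nat_lit 14)) (nd (nat_lit 228) (nat_lit 0) (cs (rf (nat_lit 15)) (cs (rf (nat_lit 16)) (nd (nat_lit 295) (nat_lit 0) (cs (lf (nat_lit 42) (nat_lit 228)) (nd (nat_lit 272) (nat_lit 0) (cs (lf (nat_lit 5) (nat_lit 270)) (nd (nat_lit 292) (nat_lit 0) (cs (lf (nat_lit 11) (nat_lit 269)) (nd (nat_lit 227) (nat_lit 0) (cs (lf (nat_lit 41) (nat_lit 226)) (lf (nat_lit 36) (nat_lit 204))))))))))))))) (rf (nat_lit 17))))))))) (cs (nd (nat_lit 248) (nat_lit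 0) (cs (rf (nat_lit 8)) (cs (rf (nat_lit 18)) (nd (nat_lit 273) (nat_lit 0) (cs (lf (nat_lit 5) (nat_lit 248)) (nd (nat_lit 247) (nat_lit 0) (cs (lf (nat_lit 4) (nat_lit 247)) (rf (nat_lit 19))))))))) (nd (nat_lit 248) (nat_lit 0) (cs (rf (nat_lit 6)) (cs (rf (nat_lit 18)) (rf (nat_lit 20))))))))))) (rf (nat_lit 21))))))) q58845 (by decide +kernel)
def q58928 : Q := Q.p (nat_lit 0x60000800002400000000000000000000000000000000000000000000000000000000000000) (nat_lit 0x40000300001e00007800019800178000180000a000020000000000000000000000000000000000000000000000000000) (nat_lit 8)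
theorem c58928 : QOK q58928 := cut [q58857, q58893, q58910, q58926] ⟨c58857, c58893, c58910, c58926, trivial⟩ (nd (nat_lit 272) (nat_lit 0) (cs (rf (nat_lit 0)) (cs (rf (nat_lit 1)) (cs (rf (nat_lit 2)) (rf (nat_lit 3)))))) q58928 (by decide +kernel)
def q59244 : Q := Q.p (nat_lit 0x20000800002600000000010000000000000000000000000000000000000000000000000000) (nat_lit 0xc0001700017c0007fe001df0016fe0019e001b7c0027e0007f00003c000040000000000000000000000000000000000) (nat_lit 15)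
theorem c59244 : QOK q59244 := cut [q59107, q58793, q58817, q59108, q59112, q54917, q59220, q45262, q59051, q59058, q59222, q54918, q59009, q23693, q57373, q15307, q14478, q59106] ⟨c59107, c58793, c58817, c59108, c59112, c54917, c59220, c45262, c59051, c59058, c59222, c54918, c59009, c23693, c57373, c15307, c14478, c59106, trivial⟩ (nd (nat_lit 248) (nat_lit 0) (cs (rf (nat_lit 0)) (cs (nd (nat_lit 251) (nat_lit 0) (cs (rf (nat_lit 1)) (cs (rf (nat_lit 2)) (nd (nat_lit 225) (nat_lit 0) (cs (lf (nat_lit 22) (nat_lit 225)) (rf (nat_lit 3))))))) (cs (nd (nat_lit 251) (nat_lit 0) (cs (rf (nat_lit 1)) (cs (nd (nat_lit 225) (nat_lit 0) (cs (lf (nat_lit 22) (nat_lit 225)) (nd (nat_lit 224) (nat_lit 0) (cs (lf (nat_lit 21) (nat_lit 224)) (nd (nat_lit 252) (nat_lit 0) (cs (lf (nat_lit 5) (nat_lit 250)) (nd (nat_lit 231) (nat_lit 0) (cs (lf (nat_lit 17) (nat_lit 228)) (nd (nat_lit 186) (nat_lit 0) (cs (lf (nat_lit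 45) (nat_lit 186)) (nd (nat_lit 271) (nat_lit 0) (cs (lf (nat_lit 11) (nat_lit 248)) (nd (nat_lit 315) (nat_lit 0) (cs (lf (nat_lit 35) (nat_lit 227)) (rf (nat_lit 4)))))))))))))))) (nd (nat_lit 273) (nat_lit 0) (cs (lf (nat_lit 5) (nat_lit 248)) (nd (nat_lit 226) (nat_lit 0) (cs (lf (nat_lit 23) (nat_lit 225)) (nd (nat_lit 271) (nat_lit 0) (cs (lf (nat_lit 42) (nat_lit 226)) (rf (nat_lit 5))))))))))) (cs (rf (nat_lit 6)) (cs (nd (nat_lit 247) (nat_lit 0) (cs (rf (nat_lit 7)) (cs (nd (nat_lit 228) (nat_lit 0) (cs (lf (nat_lit 17) (nat_lit 225)) (nd (nat_lit 271) (nat_lit 0) (cs (lf (nat_lit 30) (nat_lit 227)) (nd (nat_lit 184) (nat_lit 0) (cs (lf (nat_lit 37) (nat_lit 183)) (rf (nat_lit 8)))))))) (cs (nd (nat_lit 228) (nat_lit 0) (cs (lf (nat_lit 17) (nat_lit 225)) (nd (nat_lit 271) (nat_lit 0) (cs (lf (nat_lit 30) (nat_lit 227)) (nd (nat_lit 184) (nat_lit 0) (cs (lf (nat_lit 37) (nat_lit 183)) (nd (nat_lit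 224) (nat_lit 0) (cs (lf (nat_lit 22) (nat_lit 224)) (nd (nat_lit 246) (nat_lit 0) (cs (lf (nat_lit 23) (nat_lit 223)) (nd (nat_lit 270) (nat_lit 0) (cs (lf (nat_lit 0) (nat_lit 245)) (rf (nat_lit 9)))))))))))))) (rf (nat_lit 10)))))) (cs (nd (nat_lit 271) (nat_lit 0) (cs (rf (nat_lit 11)) (cs (rf (nat_lit 12)) (nd (nat_lit 251) (nat_lit 0) (cs (rf (nat_lit 13)) (cs (rf (nat_lit 3)) (nd (nat_lit 270) (nat_lit 0) (cs (rf (nat_lit 14)) (nd (nat_lit 273) (nat_lit 0) (cs (rf (nat_lit 15)) (nd (nat_lit 295) (nat_lit 0) (cs (rf (nat_lit 16)) (cs (nd (nat_lit 204) (nat_lit 0) (cs (lf (nat_lit 25) (nat_lit 204)) (nd (nat_lit 294) (nat_lit 0) (cs (lf (nat_lit 18) (nat_lit 270)) (nd (nat_lit 229) (nat_lit 0) (cs (lf (nat_lit 41) (nat_lit 228)) (nd (nat_lit 228) (nat_lit 0) (cs (lf (nat_lit 12) (nat_lit 225)) (lf (nat_lit 47) (nat_lit 206)))))))))) (cs (nd (nat_lit 204) (nat_lit 0) (cs (lf (nat_lit 25) (nat_lit 204))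 (nd (nat_lit 294) (nat_lit 0) (cs (lf (nat_lit 18) (nat_lit 270)) (nd (nat_lit 316) (nat_lit 0) (cs (lf (nat_lit 36) (nat_lit 228)) (nd (nat_lit 338) (nat_lit 0) (cs (lf (nat_lit 39) (nat_lit 250)) (lf (nat_lit 42) (nat_lit 271)))))))))) (nd (nat_lit 294) (nat_lit 0) (cs (lf (nat_lit 18) (nat_lit 270)) (nd (nat_lit 204) (nat_lit 0) (cs (lf (nat_lit 25) (nat_lit 204)) (nd (nat_lit 317) (nat_lit 0) (cs (lf (nat_lit 47) (nat_lit 228)) (nd (nat_lit 318) (nat_lit 0) (cs (lf (nat_lit 29) (nat_lit 251)) (lf (nat_lit 0) (nat_lit 292)))))))))))))))))))))))) (nd (nat_lit 247) (nat_lit 0) (cs (rf (nat_lit 7)) (cs (rf (nat_lit 10)) (nd (nat_lit 228) (nat_lit 0) (cs (lf (nat_lit 17) (nat_lit 225)) (nd (nat_lit 225) (nat_lit 0) (cs (lf (nat_lit 23) (nat_lit 224)) (rf (nat_lit 17)))))))))))))))) q59244 (by decide +kernel)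
def q59365 : Q := Q.p (nat_lit 0x20000080000600000000000000000000000000000000000000000000000000000000000000) (nat_lit 0x140003fe0007f0001de000070000900000400000000000000000000000000000000000000000000000000000000) (nat_lit 11)
theorem c59365 : QOK q59365 := cut [q58935, q59008, q59363] ⟨c58935, c59008, c59363, trivial⟩ (nd (nat_lit 315) (nat_lit 0) (cs (rf (nat_lit 0)) (cs (rf (nat_lit 1)) (nd (nat_lit 314) (nat_lit 0) (cs (lf (nat_lit 41) (nat_lit 248)) (rf (nat_lit 2))))))) q59365 (by decide +kernel)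
def q59395 : Q := Q.p (nat_lit 0x20000800002600000000010000000000000000000000000000000000000000000000000000) (nat_lit 0x780003f8001dc0016f80019c001bf00026000058000000000000000000000000000000000000000000000) (nat_lit 12)
theorem c59395 : QOK q59395 := cut [q58513, q58938, q58939, q57623, q58793, q15305, q58841, q59045, q57373, q57626, q59382] ⟨c58513, c58938, c58939, c57623, c58793, c15305, c58841, c59045, c57373, c57626, c59382, trivial⟩ (nd (nat_lit 271) (nat_lit 0) (cs (rf (nat_lit 0)) (cs (rf (nat_lit 1)) (cs (rf (nat_lit 2)) (nd (nat_lit 251) (nat_lit 0) (cs (rf (nat_lit 3)) (cs (rf (nat_lit 4)) (nd (nat_lit 248) (nat_lit 0) (cs (rf (nat_lit 5)) (cs (rf (nat_lit 6)) (cs (rf (nat_lit 7)) (nd (nat_lit 270) (nat_lit 0) (cs (rf (nat_lit 8)) (nd (nat_lit 292) (nat_lit 0) (cs (rf (nat_lit 9)) (cs (nd (nat_lit 225) (nat_lit 0) (cs (lf (nat_lit 22) (nat_lit 225)) (nd (nat_lit 273) (nat_lit 0) (cs (lf (nat_lit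 5) (nat_lit 248)) (rf (nat_lit 10)))))) (nd (nat_lit 227) (nat_lit 0) (cs (lf (nat_lit 36) (nat_lit 204)) (nd (nat_lit 273) (nat_lit 0) (cs (lf (nat_lit 5) (nat_lit 248)) (nd (nat_lit 294) (nat_lit 0) (cs (lf (nat_lit 29) (nat_lit 227)) (nd (nat_lit 225) (nat_lit 0) (cs (lf (nat_lit 22) (nat_lit 225)) (nd (nat_lit 295) (nat_lit 0) (cs (lf (nat_lit 18) (nat_lit 270)) (nd (nat_lit 228) (nat_lit 0) (cs (lf (nat_lit 42) (nat_lit 228)) (lf (nat_lit 35) (nat_lit 205)))))))))))))))))))))))))))))) q59395 (by decide +kernel)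
def q59773 : Q := Q.p (nat_lit 0x20000880002400000000000000000000000000000000000000000000000000000000000000) (nat_lit 0x200000d00007e0003fc0007f0001dc0007700011c0009e00027800008000000000000000000000000000000000000000000000) (nat_lit 15)
theorem c59773 : QOK q59773 := cut [q56985, q58858, q58853, q59582, q59652, q59699, q59711, q59720, q47563, q59738, q59748, q59771, q59772] ⟨c56985, c58858, c58853, c59582, c59652, c59699, c59711, c59720, c47563, c59738, c59748, c59771, c59772, trivial⟩ (nd (nat_lit 315) (nat_lit 0) (cs (rf (nat_lit 0)) (cs (nd (nat_lit 294) (nat_lit 0) (cs (rf (nat_lit 1)) (cs (nd (nat_lit 272) (nat_lit 0) (cs (rf (nat_lit 2)) (nd (nat_lit 270) (nat_lit 0) (cs (rf (nat_lit 3)) (cs (rf (nat_lit 4)) (cs (nd (nat_lit 273) (nat_lit 0) (cs (lf (nat_lit 7) (nat_lit 271)) (nd (nat_lit 292) (nat_lit 0) (cs (lf (nat_lit 11) (nat_lit 269)) (rf (nat_lit 5)))))) (nd (nat_lit 292) (nat_lit 0) (cs (nd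 (nat_lit 291) (nat_lit 0) (cs (lf (nat_lit 12) (nat_lit 268)) (nd (nat_lit 226) (nat_lit 0) (cs (lf (nat_lit 25) (nat_lit 226)) (nd (nat_lit 313) (nat_lit 0) (cs (lf (nat_lit 11) (nat_lit 290)) (nd (nat_lit 335) (nat_lit 0) (cs (lf (nat_lit 30) (nat_lit 269)) (nd (nat_lit 316) (nat_lit 0) (cs (lf (nat_lit 5) (nat_lit 291)) (nd (nat_lit 314) (nat_lit 0) (cs (lf (nat_lit 11) (nat_lit 312)) (nd (nat_lit 338) (nat_lit 0) (cs (lf (nat_lit 42) (nat_lit 271)) (lf (nat_lit 5) (nat_lit 313)))))))))))))))) (cs (rf (nat_lit 6)) (cs (nd (nat_lit 291) (nat_lit 0) (cs (lf (nat_lit 12) (nat_lit 268)) (nd (nat_lit 316) (nat_lit 0) (cs (lf (nat_lit 5) (nat_lit 291)) (nd (nat_lit 338) (nat_lit 0) (cs (lf (nat_lit 42) (nat_lit 271)) (nd (nat_lit 268) (nat_lit 0) (cs (lf (nat_lit 1) (nat_lit 268)) (nd (nat_lit 339) (nat_lit 0) (cs (lf (nat_lit 29) (nat_lit 272)) (nd (nat_lit 313) (nat_lit 0) (cs (lf (nat_lit 11) (nat_lit 290))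 (lf (nat_lit 1) (nat_lit 313)))))))))))))) (nd (nat_lit 291) (nat_lit 0) (cs (lf (nat_lit 12) (nat_lit 268)) (nd (nat_lit 226) (nat_lit 0) (cs (lf (nat_lit 25) (nat_lit 226)) (nd (nat_lit 316) (nat_lit 0) (cs (lf (nat_lit 5) (nat_lit 291)) (nd (nat_lit 338) (nat_lit 0) (cs (lf (nat_lit 42) (nat_lit 271)) (nd (nat_lit 339) (nat_lit 0) (cs (lf (nat_lit 29) (nat_lit 272)) (nd (nat_lit 340) (nat_lit 0) (cs (lf (nat_lit 18) (nat_lit 315)) (nd (nat_lit 269) (nat_lit 0) (cs (lf (nat_lit 23) (nat_lit 268)) (rf (nat_lit 7)))))))))))))))))))))))))) (cs (nd (nat_lit 272) (nat_lit 0) (cs (rf (nat_lit 2)) (nd (nat_lit 292) (nat_lit 0) (cs (rf (nat_lit 8)) (cs (nd (nat_lit 270) (nat_lit 0) (cs (rf (nat_lit 6)) (rf (nat_lit 9)))) (nd (nat_lit 291) (nat_lit 0) (cs (lf (nat_lit 12) (nat_lit 268)) (nd (nat_lit 312) (nat_lit 0) (cs (lf (nat_lit 10) (nat_lit 290)) (nd (nat_lit 268) (nat_lit 0) (cs (lf (nat_lit 22) (nat_lit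 268)) (nd (nat_lit 317) (nat_lit 0) (cs (lf (nat_lit 4) (nat_lit 291)) (nd (nat_lit 295) (nat_lit 0) (cs (lf (nat_lit 5) (nat_lit 292)) (nd (nat_lit 296) (nat_lit 0) (cs (lf (nat_lit 23) (nat_lit 270)) (lf (nat_lit 11) (nat_lit 292))))))))))))))))))) (rf (nat_lit 10)))))) (cs (rf (nat_lit 11)) (rf (nat_lit 12)))))) q59773 (by decide +kernel)
def q59824 : Q := Q.p (nat_lit 0x20000080000400000000000000000000000000000000000000000000000000000000000000) (nat_lit 0x200000d00007c0003fe000ff8001df000160000380000e0000700001c000040000000000000000000000000000000000000000) (nat_lit 12)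
theorem c59824 : QOK q59824 := cut [q56985, q59771, q44100, q58517, q59352, q59783, q59357, q59788, q48971, q54930, q58805, q59363, q59822, q59823] ⟨c56985, c59771, c44100, c58517, c59352, c59783, c59357, c59788, c48971, c54930, c58805, c59363, c59822, c59823, trivial⟩ (nd (nat_lit 315) (nat_lit 0) (cs (rf (nat_lit 0)) (cs (rf (nat_lit 1)) (cs (nd (nat_lit 314) (nat_lit 0) (cs (nd (nat_lit 249) (nat_lit 0) (cs (lf (nat_lit 41) (nat_lit 248)) (rf (nat_lit 2)))) (cs (nd (nat_lit 249) (nat_lit 0) (cs (lf (nat_lit 41) (nat_lit 248)) (rf (nat_lit 3)))) (cs (nd (nat_lit 313) (nat_lit 0) (cs (rf (nat_lit 4)) (cs (rf (nat_lit 5)) (cs (nd (nat_lit 316) (nat_lit 0) (cs (rf (nat_lit 6)) (cs (nd (nat_lit 334) (nat_lit 0) (cs (lf (nat_lit 10) (nat_lit 312)) (nd (nat_lit 339) (nat_lit 0) (cs (lf (nat_lit 4) (nat_lit 313)) (nd (nat_lit 291) (nat_lit 0) (cs (lf (nat_lit 23) (nat_lit 290)) (nd (nat_lit 317) (nat_lit 0)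 (cs (lf (nat_lit 22) (nat_lit 291)) (lf (nat_lit 5) (nat_lit 314)))))))))) (cs (nd (nat_lit 290) (nat_lit 0) (cs (lf (nat_lit 22) (nat_lit 290)) (nd (nat_lit 294) (nat_lit 0) (cs (lf (nat_lit 17) (nat_lit 291)) (nd (nat_lit 338) (nat_lit 0) (cs (lf (nat_lit 42) (nat_lit 271)) (nd (nat_lit 335) (nat_lit 0) (cs (lf (nat_lit 11) (nat_lit 312)) (nd (nat_lit 317) (nat_lit 0) (cs (lf (nat_lit 10) (nat_lit 313)) (rf (nat_lit 7)))))))))))) (nd (nat_lit 334) (nat_lit 0) (cs (lf (nat_lit 10) (nat_lit 312)) (nd (nat_lit 338) (nat_lit 0) (cs (lf (nat_lit 5) (nat_lit 313)) (nd (nat_lit 294) (nat_lit 0) (cs (lf (nat_lit 42) (nat_lit 271)) (lf (nat_lit 17) (nat_lit 291)))))))))))) (nd (nat_lit 290) (nat_lit 0) (cs (nd (nat_lit 312) (nat_lit 0) (cs (lf (nat_lit 23) (nat_lit 289)) (nd (nat_lit 292) (nat_lit 0) (cs (lf (nat_lit 12) (nat_lit 289)) (nd (nat_lit 336) (nat_lit 0) (cs (lf (nat_lit 30) (nat_lit 270)) (nd (nat_lit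 334) (nat_lit 0) (cs (lf (nat_lit 11) (nat_lit 311)) (nd (nat_lit 316) (nat_lit 0) (cs (lf (nat_lit 10) (nat_lit 312)) (nd (nat_lit 339) (nat_lit 0) (cs (lf (nat_lit 4) (nat_lit 313)) (nd (nat_lit 317) (nat_lit 0) (cs (lf (nat_lit 18) (nat_lit 292)) (lf (nat_lit 5) (nat_lit 314)))))))))))))))) (cs (nd (nat_lit 291) (nat_lit 0) (cs (lf (nat_lit 18) (nat_lit 290)) (nd (nat_lit 292) (nat_lit 0) (cs (lf (nat_lit 0) (nat_lit 289)) (lf (nat_lit 17) (nat_lit 268)))))) (cs (nd (nat_lit 291) (nat_lit 0) (cs (lf (nat_lit 18) (nat_lit 290)) (nd (nat_lit 272) (nat_lit 0) (cs (lf (nat_lit 14) (nat_lit 268)) (nd (nat_lit 269) (nat_lit 0) (cs (lf (nat_lit 8) (nat_lit 268)) (nd (nat_lit 247) (nat_lit 0) (cs (lf (nat_lit 29) (nat_lit 247)) (rf (nat_lit 8)))))))))) (cs (nd (nat_lit 289) (nat_lit 0) (cs (lf (nat_lit 21) (nat_lit 289)) (nd (nat_lit 291) (nat_lit 0) (cs (lf (nat_lit 0) (nat_lit 288)) (lf (nat_lit 3) (nat_lit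 289)))))) (nd (nat_lit 289) (nat_lit 0) (cs (lf (nat_lit 21) (nat_lit 289)) (nd (nat_lit 291) (nat_lit 0) (cs (lf (nat_lit 18) (nat_lit 290)) (lf (nat_lit 0) (nat_lit 288))))))))))))))) (nd (nat_lit 249) (nat_lit 0) (cs (rf (nat_lit 9)) (cs (rf (nat_lit 3)) (cs (rf (nat_lit 10)) (rf (nat_lit 11)))))))))) (cs (rf (nat_lit 12)) (rf (nat_lit 13))))))) q59824 (by decide +kernel)
def q59989 : Q := Q.p (nat_lit 0x20000800002400000000010000000000000000000000000000000000000000000000000000) (nat_lit 0x44000730001df0007fe003dd8007780039b0007be001e60005c8000000000000000000000000000000000000000000000) (nat_lit 14)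
theorem c59989 : QOK q59989 := cut [q59933, q59938, q15683, q59939, q58851, q58853, q23069, q58889, q27770, q59949, q58908, q58910, q56054, q47469, q59691, q55836, q59985, q59986, q59988] ⟨c59933, c59938, c15683, c59939, c58851, c58853, c23069, c58889, c27770, c59949, c58908, c58910, c56054, c47469, c59691, c55836, c59985, c59986, c59988, trivial⟩ (nd (nat_lit 274) (nat_lit 0) (cs (rf (nat_lit 0)) (cs (rf (nat_lit 1)) (cs (nd (nat_lit 231) (nat_lit 0) (cs (rf (nat_lit 2)) (cs (nd (nat_lit 294) (nat_lit 0) (cs (rf (nat_lit 3)) (cs (nd (nat_lit 272) (nat_lit 0) (cs (rf (nat_lit 4)) (cs (rf (nat_lit 5)) (cs (nd (nat_lit 316) (nat_lit 0) (cs (rf (nat_lit 6)) (cs (rf (nat_lit 7)) (nd (nat_lit 295) (nat_lit 0) (cs (lf (nat_lit 15) (nat_lit 271)) (nd (nat_lit 317) (nat_lit 0) (cs (lf (nat_lit 29) (nat_lit 250)) (nd (nat_lit 291) (nat_lit 0) (cs (lf (nat_lit 1) (nat_lit 291)) (nd (nat_lit 315) (nat_lit 0) (cs (lf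 (nat_lit 41) (nat_lit 249)) (nd (nat_lit 313) (nat_lit 0) (cs (lf (nat_lit 13) (nat_lit 291)) (nd (nat_lit 227) (nat_lit 0) (cs (lf (nat_lit 46) (nat_lit 227)) (nd (nat_lit 251) (nat_lit 0) (cs (lf (nat_lit 35) (nat_lit 228)) (rf (nat_lit 8))))))))))))))))))) (rf (nat_lit 9)))))) (cs (nd (nat_lit 272) (nat_lit 0) (cs (rf (nat_lit 5)) (cs (rf (nat_lit 10)) (cs (rf (nat_lit 11)) (nd (nat_lit 228) (nat_lit 0) (cs (lf (nat_lit 41) (nat_lit 227)) (nd (nat_lit 295) (nat_lit 0) (cs (lf (nat_lit 29) (nat_lit 228)) (rf (nat_lit 12)))))))))) (cs (nd (nat_lit 272) (nat_lit 0) (cs (rf (nat_lit 4)) (cs (rf (nat_lit 5)) (cs (rf (nat_lit 9)) (nd (nat_lit 316) (nat_lit 0) (cs (rf (nat_lit 13)) (cs (rf (nat_lit 7)) (nd (nat_lit 295) (nat_lit 0) (cs (lf (nat_lit 15) (nat_lit 271)) (nd (nat_lit 229) (nat_lit 0) (cs (lf (nat_lit 34) (nat_lit 228)) (nd (nat_lit 315) (nat_lit 0) (cs (lf (nat_lit 41) (nat_lit 249)) (nd (nat_lit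 314) (nat_lit 0) (cs (lf (nat_lit 12) (nat_lit 291)) (nd (nat_lit 249) (nat_lit 0) (cs (lf (nat_lit 47) (nat_lit 227)) (nd (nat_lit 271) (nat_lit 0) (cs (lf (nat_lit 29) (nat_lit 249)) (lf (nat_lit 41) (nat_lit 248))))))))))))))))))))) (nd (nat_lit 272) (nat_lit 0) (cs (rf (nat_lit 5)) (cs (rf (nat_lit 11)) (cs (nd (nat_lit 227) (nat_lit 0) (cs (nd (nat_lit 228) (nat_lit 0) (cs (lf (nat_lit 47) (nat_lit 205)) (nd (nat_lit 271) (nat_lit 0) (cs (lf (nat_lit 36) (nat_lit 205)) (nd (nat_lit 251) (nat_lit 0) (cs (lf (nat_lit 19) (nat_lit 227)) (nd (nat_lit 225) (nat_lit 0) (cs (lf (nat_lit 1) (nat_lit 225)) (nd (nat_lit 316) (nat_lit 0) (cs (lf (nat_lit 35) (nat_lit 228)) (rf (nat_lit 14)))))))))))) (cs (nd (nat_lit 316) (nat_lit 0) (cs (lf (nat_lit 46) (nat_lit 227)) (nd (nat_lit 317) (nat_lit 0) (cs (lf (nat_lit 29) (nat_lit 250)) (nd (nat_lit 229) (nat_lit 0) (cs (lf (nat_lit 34) (nat_lit 228)) (nd (nat_lit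 318) (nat_lit 0) (cs (lf (nat_lit 18) (nat_lit 293)) (rf (nat_lit 15)))))))))) (nd (nat_lit 205) (nat_lit 0) (cs (lf (nat_lit 45) (nat_lit 205)) (nd (nat_lit 249) (nat_lit 0) (cs (lf (nat_lit 24) (nat_lit 183)) (lf (nat_lit 27) (nat_lit 205))))))))) (nd (nat_lit 228) (nat_lit 0) (cs (lf (nat_lit 41) (nat_lit 227)) (rf (nat_lit 12))))))))))))) (nd (nat_lit 209) (nat_lit 0) (cs (lf (nat_lit 47) (nat_lit 186)) (nd (nat_lit 276) (nat_lit 0) (cs (lf (nat_lit 29) (nat_lit 209)) (nd (nat_lit 252) (nat_lit 0) (cs (lf (nat_lit 36) (nat_lit 186)) (lf (nat_lit 1) (nat_lit 250))))))))))) (cs (rf (nat_lit 16)) (cs (rf (nat_lit 17)) (rf (nat_lit 18)))))))) q59989 (by decide +kernel)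
def q60032 : Q := Q.p (nat_lit 0x60000080000400000000000000000000000000000000000000000000000000000000000000) (nat_lit 0x500001c0000700000f000190000170001b00000c0000700001c000050000000000000000000000000000000000000000) (nat_lit 10)
theorem c60032 : QOK q60032 := cut [q60014, q56985, q60022, q60023, q60031] ⟨c60014, c56985, c60022, c60023, c60031, trivial⟩ (nd (nat_lit 270) (nat_lit 0) (cs (rf (nat_lit 0)) (cs (nd (nat_lit 315) (nat_lit 0) (cs (rf (nat_lit 1)) (cs (rf (nat_lit 2)) (nd (nat_lit 295) (nat_lit 0) (cs (lf (nat_lit 18) (nat_lit 270)) (rf (nat_lit 3))))))) (rf (nat_lit 4))))) q60032 (by decide +kernel)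
def q60115 : Q := Q.p (nat_lit 0x60000080002400000000000000000000000000000000000000000000000000000000000000) (nat_lit 0xb0000ff000190000170001b00002c0000700001c000050000000000000000000000000000000000000000) (nat_lit 10)
theorem c60115 : QOK q60115 := cut [q60014, q60031, q56654, q60022, q60023, q60108] ⟨c60014, c60031, c56654, c60022, c60023, c60108, trivial⟩ (nd (nat_lit 270) (nat_lit 0) (cs (rf (nat_lit 0)) (cs (rf (nat_lit 1)) (nd (nat_lit 315) (nat_lit 0) (cs (rf (nat_lit 2)) (cs (rf (nat_lit 3)) (cs (rf (nat_lit 4)) (nd (nat_lit 295) (nat_lit 0) (cs (lf (nat_lit 18) (nat_lit 270)) (nd (nat_lit 272) (nat_lit 0) (cs (lf (nat_lit 30) (nat_lit 249)) (nd (nat_lit 251) (nat_lit 0) (cs (lf (nat_lit 7) (nat_lit 249)) (nd (nat_lit 316) (nat_lit 0) (cs (lf (nat_lit 35) (nat_lit 228)) (nd (nat_lit 227) (nat_lit 0) (cs (lf (nat_lit 25) (nat_lit 227)) (rf (nat_lit 5))))))))))))))))))) q60115 (by decide +kernel)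
def q60228 : Q := Q.p (nat_lit 0x60000900002400000000010000000000000000000000000000000000000000000000000000) (nat_lit 0x200001c0000700003c0000f00011c0006f0001bc0008f00023c00040000000000000000000000000000000000000000000000) (nat_lit 14)
theorem c60228 : QOK q60228 := cut [q60130, q60134, q60138, q52265, q59699, q60149, q60155, q60160, q60204, q60205, q56524, q60209, q46588, q59652, q59837, q60222] ⟨c60130, c60134, c60138, c52265, c59699, c60149, c60155, c60160, c60204, c60205, c56524, c60209, c46588, c59652, c59837, c60222, trivial⟩ (nd (nat_lit 271) (nat_lit 0) (cs (nd (nat_lit 249) (nat_lit 0) (cs (nd (nat_lit 251) (nat_lit 0) (cs (lf (nat_lit 7) (nat_lit 249)) (rf (nat_lit 0)))) (cs (rf (nat_lit 1)) (cs (rf (nat_lit 2)) (nd (nat_lit 273) (nat_lit 0) (cs (lf (nat_lit 7) (nat_lit 271)) (nd (nat_lit 247) (nat_lit 0) (cs (lf (nat_lit 1) (nat_lit 247)) (nd (nat_lit 227) (nat_lit 0) (cs (lf (nat_lit 24) (nat_lit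 205)) (rf (nat_lit 3)))))))))))) (cs (nd (nat_lit 315) (nat_lit 0) (cs (lf (nat_lit 30) (nat_lit 249)) (nd (nat_lit 273) (nat_lit 0) (cs (lf (nat_lit 7) (nat_lit 271)) (nd (nat_lit 292) (nat_lit 0) (cs (lf (nat_lit 12) (nat_lit 269)) (nd (nat_lit 251) (nat_lit 0) (cs (lf (nat_lit 7) (nat_lit 249)) (nd (nat_lit 270) (nat_lit 0) (cs (lf (nat_lit 12) (nat_lit 247)) (rf (nat_lit 4)))))))))))) (cs (nd (nat_lit 249) (nat_lit 0) (cs (rf (nat_lit 1)) (cs (nd (nat_lit 251) (nat_lit 0) (cs (lf (nat_lit 7) (nat_lit 249)) (nd (nat_lit 269) (nat_lit 0) (cs (lf (nat_lit 13) (nat_lit 247)) (nd (nat_lit 315) (nat_lit 0) (cs (lf (nat_lit 30) (nat_lit 249)) (nd (nat_lit 314) (nat_lit 0) (cs (lf (nat_lit 41) (nat_lit 248)) (rf (nat_lit 5)))))))))) (cs (nd (nat_lit 227) (nat_lit 0) (cs (lf (nat_lit 24) (nat_lit 205)) (nd (nat_lit 251) (nat_lit 0) (cs (lf (nat_lit 7) (nat_lit 249)) (nd (nat_lit 269) (nat_lit 0) (cs (lf (nat_lit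 13) (nat_lit 247)) (rf (nat_lit 6)))))))) (nd (nat_lit 315) (nat_lit 0) (cs (lf (nat_lit 30) (nat_lit 249)) (nd (nat_lit 205) (nat_lit 0) (cs (lf (nat_lit 25) (nat_lit 205)) (rf (nat_lit 7)))))))))) (cs (rf (nat_lit 8)) (cs (nd (nat_lit 273) (nat_lit 0) (cs (lf (nat_lit 7) (nat_lit 271)) (nd (nat_lit 292) (nat_lit 0) (cs (lf (nat_lit 12) (nat_lit 269)) (nd (nat_lit 251) (nat_lit 0) (cs (lf (nat_lit 7) (nat_lit 249)) (rf (nat_lit 9)))))))) (cs (nd (nat_lit 249) (nat_lit 0) (cs (rf (nat_lit 10)) (cs (rf (nat_lit 1)) (cs (nd (nat_lit 251) (nat_lit 0) (cs (lf (nat_lit 7) (nat_lit 249)) (nd (nat_lit 270) (nat_lit 0) (cs (lf (nat_lit 12) (nat_lit 247)) (nd (nat_lit 273) (nat_lit 0) (cs (lf (nat_lit 7) (nat_lit 271)) (nd (nat_lit 292) (nat_lit 0) (cs (lf (nat_lit 12) (nat_lit 269)) (nd (nat_lit 315) (nat_lit 0) (cs (lf (nat_lit 30) (nat_lit 249)) (nd (nat_lit 248) (nat_lit 0) (cs (lf (nat_lit 47) (nat_lit 226))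 (nd (nat_lit 314) (nat_lit 0) (cs (lf (nat_lit 30) (nat_lit 248)) (rf (nat_lit 11)))))))))))))))) (nd (nat_lit 273) (nat_lit 0) (cs (lf (nat_lit 19) (nat_lit 249)) (nd (nat_lit 251) (nat_lit 0) (cs (lf (nat_lit 7) (nat_lit 249)) (nd (nat_lit 269) (nat_lit 0) (cs (lf (nat_lit 13) (nat_lit 247)) (nd (nat_lit 227) (nat_lit 0) (cs (lf (nat_lit 24) (nat_lit 205)) (rf (nat_lit 12)))))))))))))) (cs (nd (nat_lit 270) (nat_lit 0) (cs (rf (nat_lit 13)) (cs (rf (nat_lit 14)) (nd (nat_lit 273) (nat_lit 0) (cs (lf (nat_lit 7) (nat_lit 271)) (nd (nat_lit 251) (nat_lit 0) (cs (rf (nat_lit 15)) (lf (nat_lit 17) (nat_lit 248))))))))) (nd (nat_lit 249) (nat_lit 0) (cs (rf (nat_lit 10)) (cs (rf (nat_lit 0)) (cs (rf (nat_lit 1)) (rf (nat_lit 2)))))))))))))) q60228 (by decide +kernel)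
def q60365 : Q := Q.p (nat_lit 0x20000880002400000000010000000000000000000000000000000000000000000000000000) (nat_lit 0x300000c000110001670001bc001bf0002780005e000028000000000000000000000000000000000000000) (nat_lit 11)
theorem c60365 : QOK q60365 := cut [q58513, q59047, q59376, q58936] ⟨c58513, c59047, c59376, c58936, trivial⟩ (nd (nat_lit 249) (nat_lit 0) (cs (rf (nat_lit 0)) (cs (rf (nat_lit 1)) (cs (rf (nat_lit 2)) (nd (nat_lit 315) (nat_lit 0) (cs (lf (nat_lit 35) (nat_lit 227)) (rf (nat_lit 3)))))))) q60365 (by decide +kernel)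
def q60451 : Q := Q.p (nat_lit 0x20000900002400000000000000000000000000000000000000000000000000000000000000) (nat_lit 0x800012000058001dc0007600039b00009000020000000000000000000000000000000000000000000000000000) (nat_lit 9)
theorem c60451 : QOK q60451 := cut [q45203, q59990] ⟨c45203, c59990, trivial⟩ (nd (nat_lit 294) (nat_lit 0) (cs (rf (nat_lit 0)) (rf (nat_lit 1)))) q60451 (by decide +kernel)
def q60788 : Q := Q.p (nat_lit 0x20000800000400000000000000000000000000000000000000000000000000000000000000) (nat_lit 0x40000700003e0000f80007fc001df0017f8000bf0003f8000780001a000020000000000000000000000000000000000000000) (nat_lit 16)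
theorem c60788 : QOK q60788 := cut [q60493, q60465, q59853, q59838, q60684, q60688, q60689, q59527, q60355, q60694, q60697, q58807, q60707, q60708, q45203, q58855, q60121, q60712, q60518, q60715, q14434, q58846, q60521, q12962, q53037, q17119, q60732, q58849, q60787] ⟨c60493, c60465, c59853, c59838, c60684, c60688, c60689, c59527, c60355, c60694, c60697, c58807, c60707, c60708, c45203, c58855, c60121, c60712, c60518, c60715, c14434, c58846, c60521, c12962, c53037, c17119, c60732, c58849, c60787, trivial⟩ (nd (nat_lit 272) (nat_lit 0) (cs (rf (nat_lit 0)) (cs (nd (nat_lit 271) (nat_lit 0) (cs (rf (nat_lit 1)) (cs (nd (nat_lit 270) (nat_lit 0) (cs (rf (nat_lit 2)) (cs (nd (nat_lit 248) (nat_lit 0) (cs (rf (nat_lit 3)) (nd (nat_lit 228) (nat_lit 0) (cs (lf (nat_lit 36) (nat_lit 205)) (nd (nat_lit 273) (nat_lit 0) (cs (lf (nat_lit 23) (nat_lit 247)) (rf (nat_lit 4)))))))) (cs (rf (nat_lit 5)) (nd (nat_lit 206)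 (nat_lit 0) (cs (lf (nat_lit 37) (nat_lit 205)) (nd (nat_lit 315) (nat_lit 0) (cs (lf (nat_lit 30) (nat_lit 249)) (rf (nat_lit 6)))))))))) (cs (nd (nat_lit 273) (nat_lit 0) (cs (rf (nat_lit 7)) (cs (rf (nat_lit 8)) (cs (nd (nat_lit 228) (nat_lit 0) (cs (lf (nat_lit 36) (nat_lit 205)) (nd (nat_lit 274) (nat_lit 0) (cs (lf (nat_lit 23) (nat_lit 249)) (rf (nat_lit 9)))))) (rf (nat_lit 10)))))) (nd (nat_lit 249) (nat_lit 0) (cs (rf (nat_lit 11)) (cs (rf (nat_lit 12)) (rf (nat_lit 13))))))))) (cs (nd (nat_lit 294) (nat_lit 0) (cs (rf (nat_lit 14)) (cs (rf (nat_lit 15)) (cs (rf (nat_lit 16)) (rf (nat_lit 17)))))) (cs (nd (nat_lit 273) (nat_lit 0) (cs (rf (nat_lit 18)) (cs (nd (nat_lit 274) (nat_lit 0) (cs (lf (nat_lit 23) (nat_lit 249)) (rf (nat_lit 19)))) (cs (nd (nat_lit 228) (nat_lit 0) (cs (rf (nat_lit 20)) (cs (rf (nat_lit 21)) (cs (rf (nat_lit 22)) (nd (nat_lit 294) (nat_lit 0) (cs (nd (nat_lit 227) (nat_lit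 0) (cs (lf (nat_lit 47) (nat_lit 205)) (nd (nat_lit 316) (nat_lit 0) (cs (rf (nat_lit 23)) (lf (nat_lit 46) (nat_lit 227)))))) (cs (nd (nat_lit 291) (nat_lit 0) (cs (lf (nat_lit 13) (nat_lit 269)) (rf (nat_lit 24)))) (nd (nat_lit 295) (nat_lit 0) (cs (lf (nat_lit 29) (nat_lit 228)) (nd (nat_lit 205) (nat_lit 0) (cs (lf (nat_lit 46) (nat_lit 205)) (nd (nat_lit 292) (nat_lit 0) (cs (lf (nat_lit 12) (nat_lit 269)) (nd (nat_lit 270) (nat_lit 0) (cs (lf (nat_lit 23) (nat_lit 269)) (nd (nat_lit 314) (nat_lit 0) (cs (lf (nat_lit 11) (nat_lit 291)) (nd (nat_lit 271) (nat_lit 0) (cs (lf (nat_lit 18) (nat_lit 270)) (nd (nat_lit 336) (nat_lit 0) (cs (lf (nat_lit 35) (nat_lit 248)) (lf (nat_lit 30) (nat_lit 270))))))))))))))))))))))) (nd (nat_lit 274) (nat_lit 0) (cs (lf (nat_lit 10) (nat_lit 271)) (rf (nat_lit 19)))))))) (cs (nd (nat_lit 228) (nat_lit 0) (cs (nd (nat_lit 206) (nat_lit 0) (cs (lf (nat_lit 40) (nat_lit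 205)) (rf (nat_lit 25)))) (cs (nd (nat_lit 294) (nat_lit 0) (cs (lf (nat_lit 41) (nat_lit 227)) (nd (nat_lit 205) (nat_lit 0) (cs (lf (nat_lit 46) (nat_lit 205)) (rf (nat_lit 26)))))) (cs (nd (nat_lit 294) (nat_lit 0) (cs (lf (nat_lit 41) (nat_lit 227)) (rf (nat_lit 27)))) (nd (nat_lit 294) (nat_lit 0) (cs (lf (nat_lit 41) (nat_lit 227)) (nd (nat_lit 206) (nat_lit 0) (cs (lf (nat_lit 40) (nat_lit 205)) (nd (nat_lit 273) (nat_lit 0) (cs (lf (nat_lit 29) (nat_lit 206)) (lf (nat_lit 7) (nat_lit 271)))))))))))) (rf (nat_lit 28)))))))) q60788 (by decide +kernel)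
def q60824 : Q := Q.p (nat_lit 0x20000900000c00000000000000000000000000000000000000000000000000000000000000) (nat_lit 0x1e0000780003f80001e0016f80003f0001f0000780000e000028000000000000000000000000000000000000000) (nat_lit 13)
theorem c60824 : QOK q60824 := cut [q60465, q59853, q60688, q60689, q59657, q60799, q47780, q46888, q47611, q15267, q60653, q59459, q58807, q58818] ⟨c60465, c59853, c60688, c60689, c59657, c60799, c47780, c46888, c47611, c15267, c60653, c59459, c58807, c58818, trivial⟩ (nd (nat_lit 271) (nat_lit 0) (cs (rf (nat_lit 0)) (cs (nd (nat_lit 270) (nat_lit 0) (cs (rf (nat_lit 1)) (cs (rf (nat_lit 2)) (cs (rf (nat_lit 3)) (nd (nat_lit 292) (nat_lit 0) (cs (nd (nat_lit 206) (nat_lit 0) (cs (lf (nat_lit 37) (nat_lit 205)) (rf (nat_lit 4)))) (cs (nd (nat_lit 273) (nat_lit 0) (cs (lf (nat_lit 6) (nat_lit 270)) (nd (nat_lit 248) (nat_lit 0) (cs (lf (nat_lit 23) (nat_lit 247)) (nd (nat_lit 315)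 (nat_lit 0) (cs (lf (nat_lit 30) (nat_lit 249)) (lf (nat_lit 24) (nat_lit 226)))))))) (nd (nat_lit 314) (nat_lit 0) (cs (nd (nat_lit 336) (nat_lit 0) (cs (lf (nat_lit 30) (nat_lit 270)) (nd (nat_lit 337) (nat_lit 0) (cs (lf (nat_lit 29) (nat_lit 270)) (nd (nat_lit 206) (nat_lit 0) (cs (lf (nat_lit 37) (nat_lit 205)) (nd (nat_lit 290) (nat_lit 0) (cs (lf (nat_lit 13) (nat_lit 268)) (nd (nat_lit 335) (nat_lit 0) (cs (lf (nat_lit 41) (nat_lit 269)) (nd (nat_lit 248) (nat_lit 0) (cs (lf (nat_lit 40) (nat_lit 247)) (rf (nat_lit 5)))))))))))))) (cs (nd (nat_lit 315) (nat_lit 0) (cs (lf (nat_lit 30) (nat_lit 249)) (nd (nat_lit 248) (nat_lit 0) (cs (lf (nat_lit 24) (nat_lit 226)) (nd (nat_lit 290) (nat_lit 0) (cs (lf (nat_lit 13) (nat_lit 268)) (nd (nat_lit 225) (nat_lit 0) (cs (lf (nat_lit 46) (nat_lit 225)) (nd (nat_lit 206) (nat_lit 0) (cs (lf (nat_lit 37) (nat_lit 205)) (rf (nat_lit 6)))))))))))) (cs (nd (nat_lit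 290) (nat_lit 0) (cs (lf (nat_lit 13) (nat_lit 268)) (nd (nat_lit 336) (nat_lit 0) (cs (lf (nat_lit 30) (nat_lit 270)) (rf (nat_lit 7)))))) (nd (nat_lit 336) (nat_lit 0) (cs (lf (nat_lit 30) (nat_lit 270)) (rf (nat_lit 8))))))))))))))) (cs (nd (nat_lit 273) (nat_lit 0) (cs (rf (nat_lit 9)) (cs (rf (nat_lit 10)) (nd (nat_lit 206) (nat_lit 0) (cs (lf (nat_lit 37) (nat_lit 205)) (nd (nat_lit 270) (nat_lit 0) (cs (lf (nat_lit 12) (nat_lit 247)) (nd (nat_lit 292) (nat_lit 0) (cs (lf (nat_lit 11) (nat_lit 269)) (rf (nat_lit 11))))))))))) (nd (nat_lit 249) (nat_lit 0x100000000000000000000000000000000000000000000000000000000000000000000) (cs (rf (nat_lit 12)) (rf (nat_lit 13)))))))) q60824 (by decide +kernel)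
def q60966 : Q := Q.p (nat_lit 0x60000c00002400000000000000000000000000000000000000000000000000000000000000) (nat_lit 0xa0000380001fc000ff00011c0001f0001bc0009f00027c0000d000000000000000000000000000000000000000000000) (nat_lit 14)
theorem c60966 : QOK q60966 := cut [q45203, q58853, q60238, q60898, q56191, q23133, q25763, q60062, q60165, q47072, q46785, q48790, q60936, q49171, q60943, q46683, q60242] ⟨c45203, c58853, c60238, c60898, c56191, c23133, c25763, c60062, c60165, c47072, c46785, c48790, c60936, c49171, c60943, c46683, c60242, trivial⟩ (nd (nat_lit 272) (nat_lit 0) (cs (rf (nat_lit 0)) (cs (rf (nat_lit 1)) (cs (nd (nat_lit 316) (nat_lit 0) (cs (rf (nat_lit 2)) (cs (rf (nat_lit 3)) (cs (nd (nat_lit 317) (nat_lit 0) (cs (lf (nat_lit 29) (nat_lit 250)) (nd (nat_lit 291) (nat_lit 0) (cs (lf (nat_lit 1) (nat_lit 291)) (nd (nat_lit 318) (nat_lit 0) (cs (lf (nat_lit 18) (nat_lit 293)) (nd (nat_lit 296)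 (nat_lit 0) (cs (lf (nat_lit 30) (nat_lit 252)) (rf (nat_lit 4)))))))))) (nd (nat_lit 249) (nat_lit 0) (cs (rf (nat_lit 5)) (cs (rf (nat_lit 6)) (nd (nat_lit 271) (nat_lit 0) (cs (rf (nat_lit 7)) (nd (nat_lit 269) (nat_lit 0) (cs (rf (nat_lit 8)) (cs (nd (nat_lit 291) (nat_lit 0) (cs (nd (nat_lit 247) (nat_lit 0) (cs (rf (nat_lit 9)) (cs (nd (nat_lit 206) (nat_lit 0) (cs (lf (nat_lit 37) (nat_lit 205)) (nd (nat_lit 248) (nat_lit 0) (cs (lf (nat_lit 11) (nat_lit 246)) (nd (nat_lit 226) (nat_lit 0) (cs (lf (nat_lit 30) (nat_lit 225)) (nd (nat_lit 251) (nat_lit 0) (cs (lf (nat_lit 23) (nat_lit 225)) (lf (nat_lit 3) (nat_lit 249)))))))))) (cs (nd (nat_lit 225) (nat_lit 0) (cs (rf (nat_lit 10)) (cs (nd (nat_lit 206) (nat_lit 0) (cs (lf (nat_lit 37) (nat_lit 205)) (rf (nat_lit 11)))) (nd (nat_lit 251) (nat_lit 0) (cs (lf (nat_lit 7) (nat_lit 249)) (rf (nat_lit 12))))))) (nd (nat_lit 251) (nat_lit 0) (cs (lf (nat_lit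 3) (nat_lit 249)) (nd (nat_lit 246) (nat_lit 0) (cs (lf (nat_lit 2) (nat_lit 246)) (rf (nat_lit 13)))))))))) (cs (nd (nat_lit 292) (nat_lit 0) (cs (lf (nat_lit 12) (nat_lit 268)) (lf (nat_lit 5) (nat_lit 291)))) (rf (nat_lit 14))))) (nd (nat_lit 270) (nat_lit 0) (cs (lf (nat_lit 12) (nat_lit 246)) (nd (nat_lit 246) (nat_lit 0) (cs (lf (nat_lit 22) (nat_lit 246)) (nd (nat_lit 206) (nat_lit 0) (cs (lf (nat_lit 37) (nat_lit 205)) (nd (nat_lit 291) (nat_lit 0) (cs (lf (nat_lit 11) (nat_lit 268)) (nd (nat_lit 292) (nat_lit 0) (cs (lf (nat_lit 5) (nat_lit 291)) (nd (nat_lit 313) (nat_lit 0) (cs (lf (nat_lit 11) (nat_lit 290)) (nd (nat_lit 248) (nat_lit 0) (cs (lf (nat_lit 36) (nat_lit 225)) (lf (nat_lit 30) (nat_lit 247)))))))))))))))))))))))))))) (nd (nat_lit 316) (nat_lit 0) (cs (rf (nat_lit 15)) (cs (rf (nat_lit 16)) (cs (rf (nat_lit 3)) (nd (nat_lit 315) (nat_lit 0) (cs (lf (nat_lit 41) (nat_lit 249)) (nd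 (nat_lit 249) (nat_lit 0) (cs (lf (nat_lit 47) (nat_lit 227)) (nd (nat_lit 271) (nat_lit 0) (cs (lf (nat_lit 29) (nat_lit 249)) (nd (nat_lit 314) (nat_lit 0) (cs (lf (nat_lit 41) (nat_lit 248)) (nd (nat_lit 226) (nat_lit 0) (cs (lf (nat_lit 46) (nat_lit 226)) (nd (nat_lit 313) (nat_lit 0) (cs (lf (nat_lit 12) (nat_lit 290)) (nd (nat_lit 251) (nat_lit 0) (cs (lf (nat_lit 3) (nat_lit 249)) (nd (nat_lit 269) (nat_lit 0) (cs (lf (nat_lit 13) (nat_lit 247)) (nd (nat_lit 291) (nat_lit 0) (cs (lf (nat_lit 23) (nat_lit 290)) (rf (nat_lit 14)))))))))))))))))))))))))))) q60966 (by decide +kernel)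
def q61019 : Q := Q.p (nat_lit 0x8000024000000000100001c0000000000000000000000000000000000000000000000) (nat_lit 0x12000098000398000c7000038000ff0003e0000b800000000000000000000000000000) (nat_lit 12)
theorem c61019 : QOK q61019 := cut [q57724, q57732, q4891, q19155, q57976] ⟨c57724, c57732, c4891, c19155, c57976, trivial⟩ (nd (nat_lit 185) (nat_lit 0) (cs (rf (nat_lit 0)) (cs (rf (nat_lit 1)) (nd (nat_lit 184) (nat_lit 0) (cs (rf (nat_lit 2)) (cs (rf (nat_lit 3)) (rf (nat_lit 4)))))))) q61019 (by decide +kernel)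
def q61599 : Q := Q.p (nat_lit 0x80000600000000000000000000000000000000000000000000000000000000000000) (nat_lit 0x700001c000070000070000900001f00007000014000000000000000000000000000000000000000000000) (nat_lit 8)
theorem c61599 : QOK q61599 := cut [q58513, q58938, q61597, q61598] ⟨c58513, c58938, c61597, c61598, trivial⟩ (nd (nat_lit 293) (nat_lit 0) (cs (rf (nat_lit 0)) (cs (rf (nat_lit 1)) (cs (rf (nat_lit 2)) (rf (nat_lit 3)))))) q61599 (by decide +kernel)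
def q61658 : Q := Q.p (nat_lit 0x880000600000000000000000000000000000000000000000000000000000000000000) (nat_lit 0xb80007e0001fc0007700009e0000f8000780001c000050000000000000000000000000000000000000000) (nat_lit 10)
theorem c61658 : QOK q61658 := cut [q61546, q61549, q48712, q61636, q40951, q61594, q57364, q61642, q46881, q61648, q61656, q61657] ⟨c61546, c61549, c48712, c61636, c40951, c61594, c57364, c61642, c46881, c61648, c61656, c61657, trivial⟩ (nd (nat_lit 270) (nat_lit 0) (cs (rf (nat_lit 0)) (cs (rf (nat_lit 1)) (cs (nd (nat_lit 292) (nat_lit 0) (cs (rf (nat_lit 2)) (cs (rf (nat_lit 3)) (cs (nd (nat_lit 227) (nat_lit 0) (cs (rf (nat_lit 4)) (cs (rf (nat_lit 5)) (nd (nat_lit 293) (nat_lit 0) (cs (nd (nat_lit 226) (nat_lit 0) (cs (lf (nat_lit 47) (nat_lit 204)) (nd (nat_lit 248) (nat_lit 0) (cs (lf (nat_lit 29) (nat_lit 226)) (rf (nat_lit 6)))))) (rf (nat_lit 7))))))) (nd (nat_lit 314) (nat_lit 0)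 (cs (lf (nat_lit 30) (nat_lit 248)) (nd (nat_lit 248) (nat_lit 0) (cs (rf (nat_lit 8)) (cs (nd (nat_lit 225) (nat_lit 0) (cs (lf (nat_lit 46) (nat_lit 225)) (nd (nat_lit 226) (nat_lit 0) (cs (lf (nat_lit 47) (nat_lit 203)) (lf (nat_lit 18) (nat_lit 225)))))) (nd (nat_lit 315) (nat_lit 0) (cs (lf (nat_lit 29) (nat_lit 248)) (rf (nat_lit 9))))))))))))) (cs (rf (nat_lit 10)) (rf (nat_lit 11))))))) q61658 (by decide +kernel)
def q61917 : Q := Q.p (nat_lit 0x20000800002600000000010000000000000000000000000000000000000000000000000000) (nat_lit 0xa0001fc000ff8001fc000ff8001dc0017780008c000ff00027c000f8000180000000000000000000000000000000000000000) (nat_lit 15)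
theorem c61917 : QOK q61917 := cut [q14508, q61736, q61740, q61752, q61761, q61764, q58880, q61771, q61776, q58551, q61789, q25763, q61733, q56474, q61794, q61797, q61799, q60472, q61906, q45203, q52446, q61908, q61787, q61910, q60779, q61731, q60732, q61915] ⟨c14508, c61736, c61740, c61752, c61761, c61764, c58880, c61771, c61776, c58551, c61789, c25763, c61733, c56474, c61794, c61797, c61799, c60472, c61906, c45203, c52446, c61908, c61787, c61910, c60779, c61731, c60732, c61915, trivial⟩ (nd (nat_lit 294) (nat_lit 0) (cs (nd (nat_lit 292) (nat_lit 0) (cs (nd (nat_lit 295) (nat_lit 0) (cs (rf (nat_lit 0)) (rf (nat_lit 1)))) (cs (nd (nat_lit 291) (nat_lit 0) (cs (rf (nat_lit 2)) (cs (nd (nat_lit 269) (nat_lit 0) (cs (lf (nat_lit 23) (nat_lit 268)) (nd (nat_lit 336) (nat_lit 0) (cs (nd (nat_lit 316) (nat_lit 0) (cs (lf (nat_lit 5) (nat_lit 291)) (nd (nat_lit 313) (nat_lit 0) (cs (lf (nat_lit 11) (nat_lit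 290)) (nd (nat_lit 335) (nat_lit 0) (cs (lf (nat_lit 29) (nat_lit 269)) (nd (nat_lit 356) (nat_lit 0) (cs (lf (nat_lit 40) (nat_lit 268)) (nd (nat_lit 357) (nat_lit 0) (cs (lf (nat_lit 41) (nat_lit 290)) (lf (nat_lit 35) (nat_lit 269)))))))))))) (cs (nd (nat_lit 314) (nat_lit 0) (cs (lf (nat_lit 42) (nat_lit 269)) (nd (nat_lit 247) (nat_lit 0) (cs (lf (nat_lit 24) (nat_lit 225)) (lf (nat_lit 45) (nat_lit 247)))))) (nd (nat_lit 316) (nat_lit 0) (cs (lf (nat_lit 5) (nat_lit 291)) (nd (nat_lit 313) (nat_lit 0) (cs (lf (nat_lit 11) (nat_lit 290)) (nd (nat_lit 247) (nat_lit 0) (cs (lf (nat_lit 28) (nat_lit 247)) (nd (nat_lit 224) (nat_lit 0) (cs (lf (nat_lit 46) (nat_lit 224)) (rf (nat_lit 3))))))))))))))) (cs (rf (nat_lit 4)) (rf (nat_lit 5)))))) (cs (nd (nat_lit 295) (nat_lit 0) (cs (rf (nat_lit 6)) (cs (rf (nat_lit 1)) (rf (nat_lit 7))))) (cs (rf (nat_lit 8)) (nd (nat_lit 295) (nat_lit 0) (cs (rf (nat_lit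 9)) (rf (nat_lit 1))))))))) (cs (rf (nat_lit 10)) (cs (nd (nat_lit 272) (nat_lit 0) (cs (rf (nat_lit 11)) (cs (rf (nat_lit 12)) (cs (nd (nat_lit 228) (nat_lit 0) (cs (lf (nat_lit 41) (nat_lit 227)) (nd (nat_lit 205) (nat_lit 0) (cs (lf (nat_lit 46) (nat_lit 205)) (nd (nat_lit 206) (nat_lit 0) (cs (lf (nat_lit 47) (nat_lit 183)) (nd (nat_lit 273) (nat_lit 0) (cs (lf (nat_lit 19) (nat_lit 249)) (rf (nat_lit 13)))))))))) (nd (nat_lit 273) (nat_lit 0) (cs (lf (nat_lit 19) (nat_lit 249)) (rf (nat_lit 14)))))))) (cs (rf (nat_lit 15)) (cs (nd (nat_lit 316) (nat_lit 0) (cs (rf (nat_lit 16)) (cs (nd (nat_lit 272) (nat_lit 0) (cs (lf (nat_lit 47) (nat_lit 227)) (nd (nat_lit 229) (nat_lit 0) (cs (lf (nat_lit 34) (nat_lit 228)) (rf (nat_lit 17)))))) (rf (nat_lit 18))))) (cs (nd (nat_lit 272) (nat_lit 0) (cs (rf (nat_lit 11)) (cs (rf (nat_lit 19)) (cs (rf (nat_lit 20)) (rf (nat_lit 21)))))) (cs (nd (nat_lit 295) (nat_lit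 0) (cs (rf (nat_lit 22)) (cs (rf (nat_lit 23)) (nd (nat_lit 272) (nat_lit 0) (cs (rf (nat_lit 24)) (cs (rf (nat_lit 12)) (cs (rf (nat_lit 21)) (nd (nat_lit 273) (nat_lit 0) (cs (lf (nat_lit 19) (nat_lit 249)) (nd (nat_lit 317) (nat_lit 0) (cs (lf (nat_lit 42) (nat_lit 250)) (rf (nat_lit 25))))))))))))) (nd (nat_lit 272) (nat_lit 0) (cs (rf (nat_lit 19)) (cs (nd (nat_lit 228) (nat_lit 0) (cs (lf (nat_lit 41) (nat_lit 227)) (nd (nat_lit 205) (nat_lit 0) (cs (lf (nat_lit 46) (nat_lit 205)) (nd (nat_lit 183) (nat_lit 0) (cs (lf (nat_lit 45) (nat_lit 183)) (rf (nat_lit 26)))))))) (rf (nat_lit 27))))))))))))) q61917 (by decide +kernel)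
def q62018 : Q := Q.p (nat_lit 0x20000800000600000000010000000000000000000000000000000000000000000000000000) (nat_lit 0x140003fe0007f0001fe000ff0001dc0017f0000800007000006000018000020000000000000000000000000000000000000000) (nat_lit 15)
theorem c62018 : QOK q62018 := cut [q61980, q61986, q59008, q54937, q54934, q61003, q48463, q48448, q61718, q55019] ⟨c61980, c61986, c59008, c54937, c54934, c61003, c48463, c48448, c61718, c55019, trivial⟩ (nd (nat_lit 315) (nat_lit 0) (cs (nd (nat_lit 228) (nat_lit 0) (cs (lf (nat_lit 32) (nat_lit 227)) (nd (nat_lit 272) (nat_lit 0) (cs (lf (nat_lit 39) (nat_lit 227)) (rf (nat_lit 0)))))) (cs (rf (nat_lit 1)) (cs (nd (nat_lit 271) (nat_lit 0) (cs (lf (nat_lit 35) (nat_lit 227)) (rf (nat_lit 2)))) (nd (nat_lit 337) (nat_lit 0) (cs (nd (nat_lit 271) (nat_lit 0) (cs (lf (nat_lit 34) (nat_lit 249)) (rf (nat_lit 3)))) (cs (nd (nat_lit 271) (nat_lit 0) (cs (lf (nat_lit 34) (nat_lit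 249)) (rf (nat_lit 4)))) (cs (nd (nat_lit 359) (nat_lit 0) (cs (rf (nat_lit 5)) (cs (nd (nat_lit 294) (nat_lit 0) (cs (nd (nat_lit 380) (nat_lit 0) (cs (lf (nat_lit 40) (nat_lit 292)) (nd (nat_lit 381) (nat_lit 0) (cs (lf (nat_lit 41) (nat_lit 314)) (lf (nat_lit 34) (nat_lit 293)))))) (lf (nat_lit 35) (nat_lit 271)))) (nd (nat_lit 358) (nat_lit 0) (cs (lf (nat_lit 41) (nat_lit 292)) (nd (nat_lit 357) (nat_lit 0) (cs (rf (nat_lit 6)) (cs (nd (nat_lit 272) (nat_lit 0) (cs (lf (nat_lit 34) (nat_lit 271)) (nd (nat_lit 273) (nat_lit 0) (cs (lf (nat_lit 19) (nat_lit 249)) (rf (nat_lit 7)))))) (nd (nat_lit 272) (nat_lit 0) (cs (lf (nat_lit 34) (nat_lit 271)) (nd (nat_lit 273) (nat_lit 0) (cs (lf (nat_lit 19) (nat_lit 249)) (nd (nat_lit 270) (nat_lit 0) (cs (lf (nat_lit 46) (nat_lit 270)) (nd (nat_lit 360) (nat_lit 0) (cs (lf (nat_lit 29) (nat_lit 293)) (nd (nat_lit 334) (nat_lit 0) (cs (lf (nat_lit 22) (nat_lit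 334)) (nd (nat_lit 339) (nat_lit 0) (cs (lf (nat_lit 16) (nat_lit 335)) (nd (nat_lit 361) (nat_lit 0) (cs (lf (nat_lit 17) (nat_lit 336)) (nd (nat_lit 384) (nat_lit 0) (cs (nd (nat_lit 362) (nat_lit 0) (cs (lf (nat_lit 23) (nat_lit 336)) (lf (nat_lit 5) (nat_lit 359)))) (lf (nat_lit 4) (nat_lit 358)))))))))))))))))))))))))) (nd (nat_lit 359) (nat_lit 0) (cs (rf (nat_lit 5)) (cs (nd (nat_lit 358) (nat_lit 0) (cs (lf (nat_lit 41) (nat_lit 292)) (nd (nat_lit 271) (nat_lit 0) (cs (lf (nat_lit 40) (nat_lit 270)) (nd (nat_lit 316) (nat_lit 0) (cs (lf (nat_lit 29) (nat_lit 249)) (nd (nat_lit 294) (nat_lit 0) (cs (lf (nat_lit 30) (nat_lit 293)) (rf (nat_lit 8)))))))))) (nd (nat_lit 360) (nat_lit 0) (cs (lf (nat_lit 29) (nat_lit 293)) (nd (nat_lit 271) (nat_lit 0) (cs (lf (nat_lit 28) (nat_lit 271)) (rf (nat_lit 9))))))))))))))))) q62018 (by decide +kernel)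
def q62340 : Q := Q.p (nat_lit 0x800002600001000010000040000000000000000000000000000000000000000000000) (nat_lit 0x380001e000070000080000e8000078003be001ff0003fe0003f0000e8000380000a0000000000000) (nat_lit 13)
theorem c62340 : QOK q62340 := cut [q631, q62170, q456, q39386, q39388, q39389, q62180, q33284, q26177, q1271, q62219, q62259, q62334, q3800, q62260, q62267, q62271, q62272, q62273, q62276, q2270, q32056, q62284, q62292] ⟨c631, c62170, c456, c39386, c39388, c39389, c62180, c33284, c26177, c1271, c62219, c62259, c62334, c3800, c62260, c62267, c62271, c62272, c62273, c62276, c2270, c32056, c62284, c62292, trivial⟩ (nd (nat_lit 164) (nat_lit 0) (cs (rf (nat_lit 0)) (cs (nd (nat_lit 165) (nat_lit 0) (cs (rf (nat_lit 1)) (cs (nd (nat_lit 184) (nat_lit 0) (cs (rf (nat_lit 2)) (nd (nat_lit 230) (nat_lit 0) (cs (lf (nat_lit 28) (nat_lit 164)) (nd (nat_lit 251) (nat_lit 0) (cs (lf (nat_lit 40) (nat_lit 163))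 (nd (nat_lit 206) (nat_lit 0) (cs (lf (nat_lit 29) (nat_lit 184)) (nd (nat_lit 162) (nat_lit 0) (cs (lf (nat_lit 40) (nat_lit 161)) (nd (nat_lit 139) (nat_lit 0) (cs (lf (nat_lit 46) (nat_lit 139)) (nd (nat_lit 140) (nat_lit 0) (cs (lf (nat_lit 47) (nat_lit 117)) (nd (nat_lit 141) (nat_lit 0) (cs (lf (nat_lit 35) (nat_lit 118)) (lf (nat_lit 3) (nat_lit 139)))))))))))))))))) (nd (nat_lit 142) (nat_lit 0) (cs (rf (nat_lit 3)) (cs (rf (nat_lit 4)) (cs (rf (nat_lit 5)) (cs (rf (nat_lit 6)) (nd (nat_lit 143) (nat_lit 0) (cs (lf (nat_lit 35) (nat_lit 120)) (nd (nat_lit 166) (nat_lit 0) (cs (nd (nat_lit 141) (nat_lit 0) (cs (lf (nat_lit 0) (nat_lit 140)) (lf (nat_lit 18) (nat_lit 141)))) (cs (nd (nat_lit 140) (nat_lit 0) (cs (lf (nat_lit 1) (nat_lit 140)) (nd (nat_lit 184) (nat_lit 0) (cs (rf (nat_lit 7)) (nd (nat_lit 206) (nat_lit 0) (cs (rf (nat_lit 8)) (nd (nat_lit 162) (nat_lit 0) (cs (rf (nat_lit 9)) (lf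 (nat_lit 40) (nat_lit 161)))))))))) (nd (nat_lit 167) (nat_lit 0) (cs (lf (nat_lit 11) (nat_lit 163)) (lf (nat_lit 18) (nat_lit 142))))))))))))))))) (cs (rf (nat_lit 10)) (cs (rf (nat_lit 11)) (cs (rf (nat_lit 12)) (nd (nat_lit 163) (nat_lit 0) (cs (rf (nat_lit 13)) (cs (nd (nat_lit 184) (nat_lit 0) (cs (rf (nat_lit 14)) (cs (nd (nat_lit 230) (nat_lit 0) (cs (lf (nat_lit 28) (nat_lit 164)) (nd (nat_lit 251) (nat_lit 0) (cs (lf (nat_lit 40) (nat_lit 163)) (nd (nat_lit 206) (nat_lit 0) (cs (lf (nat_lit 29) (nat_lit 184)) (nd (nat_lit 162) (nat_lit 0) (cs (lf (nat_lit 40) (nat_lit 161)) (nd (nat_lit 183) (nat_lit 0) (cs (lf (nat_lit 47) (nat_lit 161)) (lf (nat_lit 6) (nat_lit 161)))))))))))) (cs (nd (nat_lit 183) (nat_lit 0) (cs (nd (nat_lit 230) (nat_lit 0) (cs (lf (nat_lit 28) (nat_lit 164)) (nd (nat_lit 229) (nat_lit 0) (cs (lf (nat_lit 41) (nat_lit 163)) (rf (nat_lit 15)))))) (cs (rf (nat_lit 16)) (cs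 (rf (nat_lit 17)) (rf (nat_lit 18)))))) (nd (nat_lit 230) (nat_lit 0) (cs (lf (nat_lit 28) (nat_lit 164)) (nd (nat_lit 229) (nat_lit 0) (cs (lf (nat_lit 41) (nat_lit 163)) (rf (nat_lit 19)))))))))) (nd (nat_lit 162) (nat_lit 0) (cs (rf (nat_lit 20)) (cs (rf (nat_lit 21)) (cs (rf (nat_lit 22)) (cs (rf (nat_lit 23)) (nd (nat_lit 161) (nat_lit 0) (cs (lf (nat_lit 5) (nat_lit 161)) (nd (nat_lit 138) (nat_lit 0) (cs (lf (nat_lit 22) (nat_lit 138)) (nd (nat_lit 137) (nat_lit 0) (cs (lf (nat_lit 21) (nat_lit 137)) (nd (nat_lit 183) (nat_lit 0) (cs (lf (nat_lit 11) (nat_lit 160)) (nd (nat_lit 184) (nat_lit 0) (cs (lf (nat_lit 6) (nat_lit 161)) (lf (nat_lit 44) (nat_lit 161)))))))))))))))))))))))))) q62340 (by decide +kernel)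
def q62426 : Q := Q.p (nat_lit 0x800002600001000010000000000000000000000000000000000000000000000000000) (nat_lit 0x8000020001dc000370000098000e0000640001d0000500000000000000000000000000000000000000000) (nat_lit 8)
theorem c62426 : QOK q62426 := cut [q62404, q62183, q62407, q62410, q62136, q62415, q62417, q62419, q62422, q62425] ⟨c62404, c62183, c62407, c62410, c62136, c62415, c62417, c62419, c62422, c62425, trivial⟩ (nd (nat_lit 231) (nat_lit 0) (cs (rf (nat_lit 0)) (cs (nd (nat_lit 273) (nat_lit 0) (cs (rf (nat_lit 1)) (cs (nd (nat_lit 229) (nat_lit 0) (cs (lf (nat_lit 7) (nat_lit 227)) (nd (nat_lit 272) (nat_lit 0) (cs (lf (nat_lit 19) (nat_lit 249)) (rf (nat_lit 2)))))) (cs (rf (nat_lit 3)) (cs (nd (nat_lit 229) (nat_lit 0) (cs (lf (nat_lit 7) (nat_lit 227)) (nd (nat_lit 248) (nat_lit 0) (cs (lf (nat_lit 12) (nat_lit 225)) (nd (nat_lit 251) (nat_lit 0) (cs (lf (nat_lit 5) (nat_lit 248)) (rf (nat_lit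 4)))))))) (nd (nat_lit 295) (nat_lit 0) (cs (nd (nat_lit 229) (nat_lit 0) (cs (lf (nat_lit 7) (nat_lit 227)) (rf (nat_lit 5)))) (cs (rf (nat_lit 6)) (cs (nd (nat_lit 229) (nat_lit 0) (cs (lf (nat_lit 7) (nat_lit 227)) (nd (nat_lit 247) (nat_lit 0) (cs (lf (nat_lit 13) (nat_lit 225)) (rf (nat_lit 7)))))) (rf (nat_lit 8))))))))))) (rf (nat_lit 9))))) q62426 (by decide +kernel)
def q62499 : Q := Q.p (nat_lit 0x600001800000000000000000000000000000000000000000000000000000000) (nat_lit 0xe0000380000780009c0000700003c0000e000038000000000000000000000000000000000000000) (nat_lit 9)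
theorem c62499 : QOK q62499 := cut [q26462, q62430, q62483, q56479, q62450, q40873, q40891, q51762, q62498] ⟨c26462, c62430, c62483, c56479, c62450, c40873, c40891, c51762, c62498, trivial⟩ (nd (nat_lit 248) (nat_lit 0) (cs (rf (nat_lit 0)) (cs (rf (nat_lit 1)) (cs (rf (nat_lit 2)) (cs (nd (nat_lit 226) (nat_lit 0) (cs (rf (nat_lit 3)) (cs (rf (nat_lit 4)) (nd (nat_lit 270) (nat_lit 0) (cs (rf (nat_lit 5)) (cs (nd (nat_lit 292) (nat_lit 0) (cs (lf (nat_lit 30) (nat_lit 226)) (nd (nat_lit 293) (nat_lit 0) (cs (lf (nat_lit 29) (nat_lit 226)) (nd (nat_lit 291) (nat_lit 0) (cs (lf (nat_lit 41) (nat_lit 225)) (nd (nat_lit 269) (nat_lit 0) (cs (lf (nat_lit 6) (nat_lit 247)) (lf (nat_lit 36) (nat_lit 203)))))))))) (nd (nat_lit 269) (nat_lit 0) (cs (lf (nat_lit 6) (nat_lit 247)) (nd (nat_lit 183) (nat_lit 0) (cs (lf (nat_lit 37) (nat_lit 182)) (nd (nat_lit 267) (nat_lit 0) (cs (lf (nat_lit 13) (nat_lit 245)) (nd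 (nat_lit 204) (nat_lit 0) (cs (lf (nat_lit 41) (nat_lit 203)) (rf (nat_lit 6)))))))))))))))) (cs (nd (nat_lit 247) (nat_lit 0) (cs (lf (nat_lit 12) (nat_lit 224)) (nd (nat_lit 225) (nat_lit 0) (cs (lf (nat_lit 23) (nat_lit 224)) (nd (nat_lit 226) (nat_lit 0) (cs (lf (nat_lit 5) (nat_lit 225)) (rf (nat_lit 7)))))))) (rf (nat_lit 8)))))))) q62499 (by decide +kernel)
def q62581 : Q := Q.p (nat_lit 0x800002600001000010000000000000000000000000000000000000000000000000000) (nat_lit 0x280002e0000f80006780009c000ef80067c000fe0007f8000e00002800000000000000000000000000000) (nat_lit 15)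
theorem c62581 : QOK q62581 := cut [q26200, q26237, q60700, q62138, q40873, q62143, q40892, q58809, q62512, q62516, q25568, q62524, q62160, q62450, q60699, q62169, q62526, q62532, q62533, q62537, q62540, q62556, q62576, q62580] ⟨c26200, c26237, c60700, c62138, c40873, c62143, c40892, c58809, c62512, c62516, c25568, c62524, c62160, c62450, c60699, c62169, c62526, c62532, c62533, c62537, c62540, c62556, c62576, c62580, trivial⟩ (nd (nat_lit 248) (nat_lit 0) (cs (rf (nat_lit 0)) (cs (rf (nat_lit 1)) (cs (nd (nat_lit 226) (nat_lit 0) (cs (rf (nat_lit 2)) (cs (nd (nat_lit 251) (nat_lit 0) (cs (lf (nat_lit 23) (nat_lit 225)) (rf (nat_lit 3)))) (cs (nd (nat_lit 270) (nat_lit 0) (cs (nd (nat_lit 227) (nat_lit 0) (cs (rf (nat_lit 4)) (cs (rf (nat_lit 5)) (nd (nat_lit 229) (nat_lit 0) (cs (lf (nat_lit 6) (nat_lit 226)) (nd (nat_lit 204) (nat_lit 0) (cs (lf (nat_lit 23) (nat_lit 203)) (rf (nat_lit 6))))))))) (cs (nd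 (nat_lit 292) (nat_lit 0) (cs (rf (nat_lit 7)) (cs (rf (nat_lit 8)) (nd (nat_lit 291) (nat_lit 0) (cs (lf (nat_lit 41) (nat_lit 225)) (nd (nat_lit 293) (nat_lit 0) (cs (lf (nat_lit 29) (nat_lit 226)) (rf (nat_lit 9))))))))) (cs (nd (nat_lit 251) (nat_lit 0) (cs (lf (nat_lit 11) (nat_lit 247)) (nd (nat_lit 273) (nat_lit 0) (cs (lf (nat_lit 5) (nat_lit 248)) (rf (nat_lit 10)))))) (rf (nat_lit 11)))))) (nd (nat_lit 227) (nat_lit 0) (cs (rf (nat_lit 12)) (cs (rf (nat_lit 13)) (cs (nd (nat_lit 225) (nat_lit 0) (cs (rf (nat_lit 14)) (nd (nat_lit 270) (nat_lit 0) (cs (rf (nat_lit 4)) (cs (nd (nat_lit 186) (nat_lit 0) (cs (rf (nat_lit 15)) (cs (nd (nat_lit 202) (nat_lit 0) (cs (lf (nat_lit 22) (nat_lit 202)) (nd (nat_lit 183) (nat_lit 0) (cs (lf (nat_lit 37) (nat_lit 182)) (rf (nat_lit 16)))))) (cs (rf (nat_lit 17)) (nd (nat_lit 184) (nat_lit 0) (cs (rf (nat_lit 18)) (cs (nd (nat_lit 202) (nat_lit 0) (cs (lf (nat_lit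 22) (nat_lit 202)) (nd (nat_lit 230) (nat_lit 0) (cs (lf (nat_lit 7) (nat_lit 226)) (rf (nat_lit 19)))))) (cs (nd (nat_lit 206) (nat_lit 0) (cs (lf (nat_lit 36) (nat_lit 161)) (nd (nat_lit 202) (nat_lit 0) (cs (lf (nat_lit 22) (nat_lit 202)) (rf (nat_lit 20)))))) (nd (nat_lit 202) (nat_lit 0) (cs (lf (nat_lit 22) (nat_lit 202)) (nd (nat_lit 183) (nat_lit 0) (cs (lf (nat_lit 37) (nat_lit 182)) (nd (nat_lit 185) (nat_lit 0) (cs (lf (nat_lit 5) (nat_lit 183)) (nd (nat_lit 164) (nat_lit 0) (cs (lf (nat_lit 17) (nat_lit 161)) (nd (nat_lit 163) (nat_lit 0) (cs (lf (nat_lit 12) (nat_lit 160)) (nd (nat_lit 230) (nat_lit 0) (cs (lf (nat_lit 47) (nat_lit 141)) (lf (nat_lit 7) (nat_lit 226)))))))))))))))))))))) (nd (nat_lit 203) (nat_lit 0) (cs (lf (nat_lit 23) (nat_lit 202)) (lf (nat_lit 42) (nat_lit 203))))))))) (cs (nd (nat_lit 229) (nat_lit 0) (cs (lf (nat_lit 6) (nat_lit 226)) (nd (nat_lit 204) (nat_lit 0) (cs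 (lf (nat_lit 23) (nat_lit 203)) (nd (nat_lit 182) (nat_lit 0) (cs (lf (nat_lit 24) (nat_lit 160)) (nd (nat_lit 159) (nat_lit 0) (cs (lf (nat_lit 46) (nat_lit 159)) (nd (nat_lit 183) (nat_lit 0) (cs (lf (nat_lit 35) (nat_lit 160)) (nd (nat_lit 205) (nat_lit 0) (cs (lf (nat_lit 41) (nat_lit 182)) (rf (nat_lit 21)))))))))))))) (nd (nat_lit 224) (nat_lit 0) (cs (lf (nat_lit 1) (nat_lit 224)) (rf (nat_lit 22))))))))))))) (rf (nat_lit 23)))))) q62581 (by decide +kernel)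
def q62688 : Q := Q.p (nat_lit 0x800002600001800010000000000000000000000000000000000000000000000000000) (nat_lit 0x20000180001700001c000e700067c000fe0007e8000e00002800000000000000000000000000000) (nat_lit 10)
theorem c62688 : QOK q62688 := cut [q56677, q62498, q62685] ⟨c56677, c62498, c62685, trivial⟩ (nd (nat_lit 248) (nat_lit 0) (cs (rf (nat_lit 0)) (cs (rf (nat_lit 1)) (rf (nat_lit 2))))) q62688 (by decide +kernel)
def q62743 : Q := Q.p (nat_lit 0x800002600001800010000000000000000000000000000000000000000000000000000) (nat_lit 0x3e0000f80007700001c000e700067e000f60007d8000e00002800000000000000000000000000000) (nat_lit 14)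
theorem c62743 : QOK q62743 := cut [q62701, q62705, q62714, q62717, q56530, q62503, q41306, q62707, q16038, q56732, q62536, q62735] ⟨c62701, c62705, c62714, c62717, c56530, c62503, c41306, c62707, c16038, c56732, c62536, c62735, trivial⟩ (nd (nat_lit 226) (nat_lit 0) (cs (rf (nat_lit 0)) (cs (rf (nat_lit 1)) (cs (rf (nat_lit 2)) (cs (rf (nat_lit 3)) (nd (nat_lit 272) (nat_lit 0) (cs (rf (nat_lit 4)) (cs (rf (nat_lit 5)) (nd (nat_lit 204) (nat_lit 0) (cs (rf (nat_lit 6)) (cs (nd (nat_lit 273) (nat_lit 0) (cs (lf (nat_lit 19) (nat_lit 249)) (nd (nat_lit 248) (nat_lit 0) (cs (lf (nat_lit 0) (nat_lit 247)) (nd (nat_lit 206) (nat_lit 0) (cs (lf (nat_lit 29) (nat_lit 206)) (nd (nat_lit 160) (nat_lit 0) (cs (lf (nat_lit 25) (nat_lit 160)) (nd (nat_lit 184) (nat_lit 0) (cs (lf (nat_lit 36) (nat_lit 161)) (nd (nat_lit 185) (nat_lit 0) (cs (lf (nat_lit 35) (nat_lit 162)) (nd (nat_lit 203) (nat_lit 0) (cs (lf (nat_lit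 14) (nat_lit 181)) (nd (nat_lit 270) (nat_lit 0) (cs (lf (nat_lit 47) (nat_lit 181)) (rf (nat_lit 7)))))))))))))))))) (cs (nd (nat_lit 182) (nat_lit 0) (cs (lf (nat_lit 24) (nat_lit 160)) (nd (nat_lit 230) (nat_lit 0) (cs (nd (nat_lit 229) (nat_lit 0) (cs (lf (nat_lit 22) (nat_lit 204)) (lf (nat_lit 17) (nat_lit 205)))) (cs (nd (nat_lit 186) (nat_lit 0) (cs (rf (nat_lit 8)) (cs (rf (nat_lit 9)) (nd (nat_lit 273) (nat_lit 0) (cs (lf (nat_lit 19) (nat_lit 249)) (nd (nat_lit 206) (nat_lit 0) (cs (lf (nat_lit 29) (nat_lit 206)) (nd (nat_lit 184) (nat_lit 0) (cs (lf (nat_lit 36) (nat_lit 161)) (rf (nat_lit 10))))))))))) (nd (nat_lit 229) (nat_lit 0) (cs (lf (nat_lit 6) (nat_lit 227)) (lf (nat_lit 11) (nat_lit 226))))))))) (nd (nat_lit 273) (nat_lit 0) (cs (lf (nat_lit 19) (nat_lit 249)) (nd (nat_lit 247) (nat_lit 0) (cs (lf (nat_lit 1) (nat_lit 247)) (nd (nat_lit 206) (nat_lit 0) (cs (lf (nat_lit 29) (nat_lit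 206)) (nd (nat_lit 162) (nat_lit 0) (cs (lf (nat_lit 37) (nat_lit 161)) (nd (nat_lit 160) (nat_lit 0) (cs (lf (nat_lit 25) (nat_lit 160)) (rf (nat_lit 11)))))))))))))))))))))))) q62743 (by decide +kernel)
def q63292 : Q := Q.p (nat_lit 0x40000700000000010000000000000000000000000000000000000000000000000000) (nat_lit 0x7c000ff8001fe001ffc007ff001ffc0073c0008700077c0007d0001e000028000000000000000000000000000000000000000) (nat_lit 14)
theorem c63292 : QOK q63292 := cut [q51309, q61284, q62914, q63044, q63230, q63271, q52091, q61285, q63279, q62972] ⟨c51309, c61284, c62914, c63044, c63230, c63271, c52091, c61285, c63279, c62972, trivial⟩ (nd (nat_lit 313) (nat_lit 0) (cs (nd (nat_lit 226) (nat_lit 0) (cs (nd (nat_lit 291) (nat_lit 0) (cs (lf (nat_lit 39) (nat_lit 225)) (rf (nat_lit 0)))) (cs (nd (nat_lit 292) (nat_lit 0) (cs (lf (nat_lit 40) (nat_lit 225)) (rf (nat_lit 1)))) (rf (nat_lit 2))))) (cs (rf (nat_lit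 3)) (cs (rf (nat_lit 4)) (cs (nd (nat_lit 291) (nat_lit 0) (cs (nd (nat_lit 226) (nat_lit 0) (cs (lf (nat_lit 39) (nat_lit 225)) (rf (nat_lit 0)))) (cs (nd (nat_lit 335) (nat_lit 0) (cs (lf (nat_lit 33) (nat_lit 247)) (nd (nat_lit 357) (nat_lit 0) (cs (nd (nat_lit 378) (nat_lit 0) (cs (lf (nat_lit 40) (nat_lit 290)) (nd (nat_lit 290) (nat_lit 0) (cs (nd (nat_lit 379) (nat_lit 0) (cs (lf (nat_lit 41) (nat_lit 312)) (lf (nat_lit 46) (nat_lit 290)))) (lf (nat_lit 47) (nat_lit 268)))))) (cs (nd (nat_lit 356) (nat_lit 0) (cs (lf (nat_lit 41) (nat_lit 290)) (nd (nat_lit 355) (nat_lit 0) (cs (nd (nat_lit 268) (nat_lit 0) (cs (lf (nat_lit 46) (nat_lit 268)) (nd (nat_lit 336) (nat_lit 0) (cs (nd (nat_lit 337) (nat_lit 0) (cs (lf (nat_lit 9) (nat_lit 333)) (lf (nat_lit 6) (nat_lit 334)))) (lf (nat_lit 12) (nat_lit 332)))))) (cs (nd (nat_lit 358) (nat_lit 0) (cs (lf (nat_lit 29) (nat_lit 291)) (nd (nat_lit 376) (nat_lit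 0) (cs (nd (nat_lit 354) (nat_lit 0) (cs (nd (nat_lit 332) (nat_lit 0) (cs (lf (nat_lit 23) (nat_lit 331)) (lf (nat_lit 22) (nat_lit 332)))) (lf (nat_lit 11) (nat_lit 353)))) (lf (nat_lit 10) (nat_lit 354)))))) (nd (nat_lit 268) (nat_lit 0) (cs (lf (nat_lit 46) (nat_lit 268)) (nd (nat_lit 358) (nat_lit 0) (cs (lf (nat_lit 29) (nat_lit 291)) (nd (nat_lit 332) (nat_lit 0) (cs (lf (nat_lit 22) (nat_lit 332)) (nd (nat_lit 337) (nat_lit 0) (cs (nd (nat_lit 359) (nat_lit 0) (cs (lf (nat_lit 17) (nat_lit 334)) (nd (nat_lit 382) (nat_lit 0) (cs (nd (nat_lit 360) (nat_lit 0) (cs (lf (nat_lit 23) (nat_lit 334)) (lf (nat_lit 5) (nat_lit 357)))) (lf (nat_lit 4) (nat_lit 356)))))) (lf (nat_lit 16) (nat_lit 333))))))))))))))) (cs (nd (nat_lit 380) (nat_lit 0) (cs (nd (nat_lit 379) (nat_lit 0) (cs (nd (nat_lit 290) (nat_lit 0) (cs (lf (nat_lit 46) (nat_lit 290)) (lf (nat_lit 47) (nat_lit 268)))) (lf (nat_lit 29) (nat_lit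 313)))) (lf (nat_lit 28) (nat_lit 291)))) (rf (nat_lit 5)))))))) (nd (nat_lit 292) (nat_lit 0) (cs (lf (nat_lit 36) (nat_lit 225)) (rf (nat_lit 6))))))) (nd (nat_lit 292) (nat_lit 0) (cs (rf (nat_lit 7)) (cs (nd (nat_lit 314) (nat_lit 0) (cs (lf (nat_lit 41) (nat_lit 247)) (nd (nat_lit 315) (nat_lit 0) (cs (lf (nat_lit 29) (nat_lit 248)) (nd (nat_lit 226) (nat_lit 0) (cs (lf (nat_lit 28) (nat_lit 226)) (rf (nat_lit 1)))))))) (nd (nat_lit 314) (nat_lit 0) (cs (lf (nat_lit 41) (nat_lit 247)) (nd (nat_lit 312) (nat_lit 0) (cs (nd (nat_lit 293) (nat_lit 0) (cs (lf (nat_lit 12) (nat_lit 289)) (rf (nat_lit 8)))) (cs (nd (nat_lit 315) (nat_lit 0) (cs (lf (nat_lit 29) (nat_lit 248)) (nd (nat_lit 289) (nat_lit 0) (cs (lf (nat_lit 22) (nat_lit 289)) (nd (nat_lit 333) (nat_lit 0) (cs (lf (nat_lit 10) (nat_lit 311)) (nd (nat_lit 294) (nat_lit 0) (cs (lf (nat_lit 16) (nat_lit 290)) (nd (nat_lit 316) (nat_lit 0) (cs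 (lf (nat_lit 17) (nat_lit 291)) (nd (nat_lit 317) (nat_lit 0) (cs (lf (nat_lit 23) (nat_lit 291)) (nd (nat_lit 339) (nat_lit 0) (cs (lf (nat_lit 25) (nat_lit 250)) (lf (nat_lit 4) (nat_lit 313)))))))))))))))) (nd (nat_lit 315) (nat_lit 0) (cs (lf (nat_lit 29) (nat_lit 248)) (rf (nat_lit 9))))))))))))))))) q63292 (by decide +kernel)
def q63492 : Q := Q.p (nat_lit 0x800000700000000000000000000000000000000000000000000000000000000000000) (nat_lit 0x1dc0003700000880007700004000010000000000000000000000000000000000000000000000) (nat_lit 7)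
theorem c63492 : QOK q63492 := cut [q62183, q63487, q63490, q63491] ⟨c62183, c63487, c63490, c63491, trivial⟩ (nd (nat_lit 273) (nat_lit 0) (cs (rf (nat_lit 0)) (cs (rf (nat_lit 1)) (cs (rf (nat_lit 2)) (rf (nat_lit 3)))))) q63492 (by decide +kernel)
def q63545 : Q := Q.p (nat_lit 0x700000000000000000000000000000000000000000000000000000000000000) (nat_lit 0xa0000380000e0000780000f8000800000f8000380000e000028000000000000000000000000000000000000000) (nat_lit 9)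
theorem c63545 : QOK q63545 := cut [q57373, q60700, q62524, q63537, q63311, q57626, q58952, q63322, q63333, q61559, q57628, q62567, q63332, q63541] ⟨c57373, c60700, c62524, c63537, c63311, c57626, c58952, c63322, c63333, c61559, c57628, c62567, c63332, c63541, trivial⟩ (nd (nat_lit 270) (nat_lit 0) (cs (rf (nat_lit 0)) (cs (nd (nat_lit 226) (nat_lit 0) (cs (rf (nat_lit 1)) (cs (rf (nat_lit 2)) (rf (nat_lit 3))))) (cs (nd (nat_lit 226) (nat_lit 0) (cs (rf (nat_lit 1)) (rf (nat_lit 4)))) (nd (nat_lit 292) (nat_lit 0) (cs (rf (nat_lit 5)) (cs (rf (nat_lit 6)) (cs (nd (nat_lit 315) (nat_lit 0) (cs (rf (nat_lit 7)) (cs (rf (nat_lit 8)) (nd (nat_lit 226) (nat_lit 0) (cs (lf (nat_lit 28) (nat_lit 226)) (nd (nat_lit 314) (nat_lit 0) (cs (lf (nat_lit 29) (nat_lit 248)) (nd (nat_lit 203) (nat_lit 0) (cs (lf (nat_lit 46) (nat_lit 203)) (nd (nat_lit 271) (nat_lit 0) (cs (lf (nat_lit 30) (nat_lit 248)) (rf (nat_lit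 9))))))))))))) (nd (nat_lit 226) (nat_lit 0) (cs (rf (nat_lit 10)) (cs (rf (nat_lit 11)) (cs (rf (nat_lit 12)) (nd (nat_lit 293) (nat_lit 0) (cs (lf (nat_lit 29) (nat_lit 226)) (rf (nat_lit 13)))))))))))))))) q63545 (by decide +kernel)
def q63777 : Q := Q.p (nat_lit 0x800002700000000000000000000000000000000000000000000000000000000000000) (nat_lit 0x280003fe000ff0001fe0007dc0008e0002f80007e0007fc000780000a0000000000000000000000000000000000) (nat_lit 15)
theorem c63777 : QOK q63777 := cut [q60700, q63685, q44575, q56421, q56438, q63708, q63710, q45350, q63716, q14184, q62890, q47341, q57615, q63739, q63757, q63776] ⟨c60700, c63685, c44575, c56421, c56438, c63708, c63710, c45350, c63716, c14184, c62890, c47341, c57615, c63739, c63757, c63776, trivial⟩ (nd (nat_lit 226) (nat_lit 0) (cs (rf (nat_lit 0)) (cs (rf (nat_lit 1)) (cs (nd (nat_lit 204) (nat_lit 0) (cs (rf (nat_lit 2)) (cs (rf (nat_lit 3)) (cs (rf (nat_lit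 4)) (cs (nd (nat_lit 272) (nat_lit 0) (cs (rf (nat_lit 5)) (cs (nd (nat_lit 270) (nat_lit 0) (cs (nd (nat_lit 181) (nat_lit 0) (cs (lf (nat_lit 46) (nat_lit 181)) (rf (nat_lit 6)))) (cs (nd (nat_lit 181) (nat_lit 0) (cs (lf (nat_lit 46) (nat_lit 181)) (nd (nat_lit 205) (nat_lit 0) (cs (lf (nat_lit 35) (nat_lit 182)) (nd (nat_lit 227) (nat_lit 0) (cs (lf (nat_lit 30) (nat_lit 204)) (rf (nat_lit 7)))))))) (cs (nd (nat_lit 205) (nat_lit 0) (cs (lf (nat_lit 35) (nat_lit 182)) (nd (nat_lit 294) (nat_lit 0) (cs (nd (nat_lit 271) (nat_lit 0) (cs (lf (nat_lit 29) (nat_lit 204)) (lf (nat_lit 25) (nat_lit 205)))) (cs (nd (nat_lit 181) (nat_lit 0) (cs (lf (nat_lit 46) (nat_lit 181)) (rf (nat_lit 8)))) (nd (nat_lit 316) (nat_lit 0) (cs (rf (nat_lit 9)) (cs (nd (nat_lit 315) (nat_lit 0) (cs (lf (nat_lit 41) (nat_lit 249)) (nd (nat_lit 314) (nat_lit 0) (cs (rf (nat_lit 10)) (cs (nd (nat_lit 293) (nat_lit 0) (cs (lf (nat_lit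 28) (nat_lit 204)) (nd (nat_lit 296) (nat_lit 0) (cs (lf (nat_lit 7) (nat_lit 292)) (nd (nat_lit 317) (nat_lit 0) (cs (lf (nat_lit 29) (nat_lit 250)) (nd (nat_lit 318) (nat_lit 0) (cs (lf (nat_lit 18) (nat_lit 293)) (nd (nat_lit 340) (nat_lit 0) (cs (lf (nat_lit 5) (nat_lit 315)) (lf (nat_lit 33) (nat_lit 252)))))))))))) (nd (nat_lit 181) (nat_lit 0) (cs (lf (nat_lit 46) (nat_lit 181)) (nd (nat_lit 293) (nat_lit 0) (cs (lf (nat_lit 28) (nat_lit 204)) (nd (nat_lit 317) (nat_lit 0) (cs (lf (nat_lit 29) (nat_lit 250)) (nd (nat_lit 313) (nat_lit 0) (cs (lf (nat_lit 12) (nat_lit 290)) (rf (nat_lit 11))))))))))))))) (nd (nat_lit 271) (nat_lit 0) (cs (lf (nat_lit 29) (nat_lit 204)) (lf (nat_lit 42) (nat_lit 249)))))))))))) (cs (nd (nat_lit 181) (nat_lit 0) (cs (lf (nat_lit 46) (nat_lit 181)) (rf (nat_lit 12)))) (rf (nat_lit 13))))))) (nd (nat_lit 247) (nat_lit 0) (cs (lf (nat_lit 5) (nat_lit 247)) (nd (nat_lit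 246) (nat_lit 0) (cs (lf (nat_lit 4) (nat_lit 246)) (nd (nat_lit 267) (nat_lit 0) (cs (lf (nat_lit 10) (nat_lit 245)) (nd (nat_lit 245) (nat_lit 0) (cs (lf (nat_lit 11) (nat_lit 244)) (lf (nat_lit 17) (nat_lit 223))))))))))))) (rf (nat_lit 14))))))) (rf (nat_lit 15)))))) q63777 (by decide +kernel)
def q63834 : Q := Q.p (nat_lit 0x800000700000000000000000000000000000000000000000000000000000000000000) (nat_lit 0x80000380001f00007c0007e00008c0006f80007e0007fc000780000a0000000000000000000000000000000000) (nat_lit 13)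
theorem c63834 : QOK q63834 := cut [q60700, q63685, q63776, q63800, q63801, q63808, q62615, q63817, q63822, q63708, q63824, q63832] ⟨c60700, c63685, c63776, c63800, c63801, c63808, c62615, c63817, c63822, c63708, c63824, c63832, trivial⟩ (nd (nat_lit 226) (nat_lit 0) (cs (rf (nat_lit 0)) (cs (rf (nat_lit 1)) (cs (rf (nat_lit 2)) (nd (nat_lit 271) (nat_lit 0) (cs (rf (nat_lit 3)) (cs (nd (nat_lit 270) (nat_lit 0) (cs (nd (nat_lit 251) (nat_lit 0) (cs (lf (nat_lit 11) (nat_lit 247)) (nd (nat_lit 229) (nat_lit 0) (cs (lf (nat_lit 17) (nat_lit 226)) (nd (nat_lit 273) (nat_lit 0) (cs (lf (nat_lit 5) (nat_lit 248)) (nd (nat_lit 272) (nat_lit 0) (cs (lf (nat_lit 23) (nat_lit 247)) (nd (nat_lit 294) (nat_lit 0) (cs (lf (nat_lit 30) (nat_lit 228)) (nd (nat_lit 227) (nat_lit 0) (cs (lf (nat_lit 24) (nat_lit 205)) (rf (nat_lit 4)))))))))))))) (cs (nd (nat_lit 204) (nat_lit 0) (cs (lf (nat_lit 24) (nat_lit 182)) (nd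 (nat_lit 181) (nat_lit 0) (cs (lf (nat_lit 46) (nat_lit 181)) (nd (nat_lit 205) (nat_lit 0) (cs (lf (nat_lit 35) (nat_lit 182)) (nd (nat_lit 227) (nat_lit 0) (cs (lf (nat_lit 41) (nat_lit 204)) (nd (nat_lit 184) (nat_lit 0) (cs (lf (nat_lit 34) (nat_lit 183)) (rf (nat_lit 5)))))))))))) (nd (nat_lit 204) (nat_lit 0) (cs (lf (nat_lit 24) (nat_lit 182)) (rf (nat_lit 6))))))) (cs (nd (nat_lit 293) (nat_lit 0) (cs (lf (nat_lit 42) (nat_lit 226)) (nd (nat_lit 227) (nat_lit 0) (cs (nd (nat_lit 292) (nat_lit 0) (cs (lf (nat_lit 41) (nat_lit 226)) (nd (nat_lit 205) (nat_lit 0) (cs (lf (nat_lit 31) (nat_lit 204)) (rf (nat_lit 7)))))) (cs (rf (nat_lit 8)) (cs (nd (nat_lit 272) (nat_lit 0) (cs (rf (nat_lit 9)) (nd (nat_lit 294) (nat_lit 0) (cs (lf (nat_lit 29) (nat_lit 227)) (rf (nat_lit 10)))))) (nd (nat_lit 292) (nat_lit 0) (cs (lf (nat_lit 41) (nat_lit 226)) (nd (nat_lit 294) (nat_lit 0) (cs (lf (nat_lit 29) (nat_lit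 227)) (nd (nat_lit 205) (nat_lit 0) (cs (lf (nat_lit 28) (nat_lit 205)) (rf (nat_lit 7)))))))))))))) (rf (nat_lit 11)))))))))) q63834 (by decide +kernel)
def q63918 : Q := Q.p (nat_lit 0x800002600001000010000000000000000000000000000000000000000000000000000) (nat_lit 0x28000090000e8001e78007fc003ff8003f80003c0000e0000380000a0000000000000) (nat_lit 13)
theorem c63918 : QOK q63918 := cut [q63850, q63902, q63916, q63917] ⟨c63850, c63902, c63916, c63917, trivial⟩ (nd (nat_lit 184) (nat_lit 0) (cs (rf (nat_lit 0)) (cs (rf (nat_lit 1)) (cs (rf (nat_lit 2)) (rf (nat_lit 3)))))) q63918 (by decide +kernel)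
def q64037 : Q := Q.p (nat_lit 0x700000000000000000000000000000000000000000000000000000000000000) (nat_lit 0xa0000380001e00001e0000f8000800000f8000380000e0000380000a0000000000000000000000000000000000) (nat_lit 11)
theorem c64037 : QOK q64037 := cut [q57373, q64006, q60700, q63294, q11927, q63307, q64036] ⟨c57373, c64006, c60700, c63294, c11927, c63307, c64036, trivial⟩ (nd (nat_lit 270) (nat_lit 0) (cs (rf (nat_lit 0)) (cs (rf (nat_lit 1)) (cs (nd (nat_lit 226) (nat_lit 0) (cs (rf (nat_lit 2)) (cs (rf (nat_lit 3)) (nd (nat_lit 205) (nat_lit 0) (cs (nd (nat_lit 183) (nat_lit 0) (cs (lf (nat_lit 33) (nat_lit 182)) (lf (nat_lit 38) (nat_lit 182)))) (cs (nd (nat_lit 204) (nat_lit 0) (cs (lf (nat_lit 35) (nat_lit 182)) (nd (nat_lit 182) (nat_lit 0) (cs (rf (nat_lit 4)) (lf (nat_lit 29) (nat_lit 182)))))) (nd (nat_lit 292) (nat_lit 0) (cs (lf (nat_lit 34) (nat_lit 204)) (rf (nat_lit 5)))))))))) (rf (nat_lit 6))))))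 q64037 (by decide +kernel)
def q64116 : Q := Q.p (nat_lit 0x700000400000000000000000000000000000000000000000000000000000000) (nat_lit 0x80000380000e0000380000c00008400033c0007f0003fc0003e0000f8000280000000000000000000000000000) (nat_lit 13)
theorem c64116 : QOK q64116 := cut [q44575, q64077, q979, q64079, q64085, q44581] ⟨c44575, c64077, c979, c64079, c64085, c44581, trivial⟩ (nd (nat_lit 204) (nat_lit 0) (cs (rf (nat_lit 0)) (cs (rf (nat_lit 1)) (cs (nd (nat_lit 182) (nat_lit 0) (cs (rf (nat_lit 2)) (cs (nd (nat_lit 225) (nat_lit 0) (cs (lf (nat_lit 18) (nat_lit 225)) (nd (nat_lit 223) (nat_lit 0) (cs (lf (nat_lit 1) (nat_lit 223)) (rf (nat_lit 3)))))) (cs (nd (nat_lit 225) (nat_lit 0) (cs (lf (nat_lit 18) (nat_lit 225)) (nd (nat_lit 223) (nat_lit 0) (cs (lf (nat_lit 1) (nat_lit 223)) (rf (nat_lit 4)))))) (cs (nd (nat_lit 225) (nat_lit 0) (cs (lf (nat_lit 18) (nat_lit 225)) (nd (nat_lit 224) (nat_lit 0)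 (cs (lf (nat_lit 0) (nat_lit 223)) (nd (nat_lit 159) (nat_lit 0) (cs (lf (nat_lit 46) (nat_lit 159)) (nd (nat_lit 160) (nat_lit 0) (cs (lf (nat_lit 47) (nat_lit 137)) (nd (nat_lit 203) (nat_lit 0) (cs (lf (nat_lit 36) (nat_lit 137)) (nd (nat_lit 205) (nat_lit 0) (cs (lf (nat_lit 6) (nat_lit 202)) (nd (nat_lit 270) (nat_lit 0) (cs (lf (nat_lit 35) (nat_lit 182)) (lf (nat_lit 42) (nat_lit 203)))))))))))))))) (cs (nd (nat_lit 225) (nat_lit 0) (cs (lf (nat_lit 18) (nat_lit 225)) (nd (nat_lit 223) (nat_lit 0) (cs (lf (nat_lit 1) (nat_lit 223)) (nd (nat_lit 161) (nat_lit 0) (cs (lf (nat_lit 34) (nat_lit 160)) (nd (nat_lit 160) (nat_lit 0) (cs (lf (nat_lit 35) (nat_lit 138)) (nd (nat_lit 203) (nat_lit 0) (cs (lf (nat_lit 36) (nat_lit 137)) (nd (nat_lit 270) (nat_lit 0) (cs (lf (nat_lit 47) (nat_lit 181)) (lf (nat_lit 42) (nat_lit 203)))))))))))))) (nd (nat_lit 183) (nat_lit 0) (cs (lf (nat_lit 35) (nat_lit 160))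 (nd (nat_lit 205) (nat_lit 0) (cs (lf (nat_lit 30) (nat_lit 182)) (nd (nat_lit 225) (nat_lit 0) (cs (lf (nat_lit 18) (nat_lit 225)) (nd (nat_lit 223) (nat_lit 0) (cs (lf (nat_lit 1) (nat_lit 223)) (nd (nat_lit 181) (nat_lit 0) (cs (lf (nat_lit 47) (nat_lit 159)) (nd (nat_lit 180) (nat_lit 0) (cs (lf (nat_lit 0) (nat_lit 179)) (lf (nat_lit 5) (nat_lit 180)))))))))))))))))))) (nd (nat_lit 225) (nat_lit 0) (cs (lf (nat_lit 18) (nat_lit 225)) (nd (nat_lit 223) (nat_lit 0) (cs (rf (nat_lit 5)) (lf (nat_lit 1) (nat_lit 223)))))))))) q64116 (by decide +kernel)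
def q64166 : Q := Q.p (nat_lit 0x800000700000000000000000000000000000000000000000000000000000000000000) (nat_lit 0xc0000380001e00007800000c000fb800060000380000e0000200000000000000000000000000000000000) (nat_lit 10)
theorem c64166 : QOK q64166 := cut [q26200, q63991, q64165] ⟨c26200, c63991, c64165, trivial⟩ (nd (nat_lit 228) (nat_lit 0) (cs (rf (nat_lit 0)) (cs (rf (nat_lit 1)) (rf (nat_lit 2))))) q64166 (by decide +kernel)
def q64405 : Q := Q.p (nat_lit 0x800002600001000010000000000000000000000000000000000000000000000000000) (nat_lit 0x18000090000e8001e78007fc003ff8003f80003c0000e0000380000a0000000000000) (nat_lit 13)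
theorem c64405 : QOK q64405 := cut [q63850, q63902, q63917] ⟨c63850, c63902, c63917, trivial⟩ (nd (nat_lit 184) (nat_lit 0) (cs (rf (nat_lit 0)) (cs (rf (nat_lit 1)) (cs (rf (nat_lit 2)) (nd (nat_lit 206) (nat_lit 0) (cs (lf (nat_lit 41) (nat_lit 183)) (nd (nat_lit 185) (nat_lit 0) (cs (lf (nat_lit 35) (nat_lit 162)) (nd (nat_lit 183) (nat_lit 0) (cs (lf (nat_lit 47) (nat_lit 161)) (nd (nat_lit 186) (nat_lit 0) (cs (lf (nat_lit 5) (nat_lit 183)) (nd (nat_lit 205) (nat_lit 0) (cs (lf (nat_lit 42) (nat_lit 183)) (lf (nat_lit 11) (nat_lit 182)))))))))))))))) q64405 (by decide +kernel)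
def q64524 : Q := Q.p (nat_lit 0x800000700000000000000000000000000000000000000000000000000000000000000) (nat_lit 0xc0000380001e00007b80000c000f8000060000380000e0000200000000000000000000000000000000000) (nat_lit 10)
theorem c64524 : QOK q64524 := cut [q26200, q63991] ⟨c26200, c63991, trivial⟩ (nd (nat_lit 228) (nat_lit 0) (cs (rf (nat_lit 0)) (cs (rf (nat_lit 1)) (nd (nat_lit 247) (nat_lit 0) (cs (lf (nat_lit 17) (nat_lit 225)) (nd (nat_lit 268) (nat_lit 0) (cs (lf (nat_lit 10) (nat_lit 246)) (nd (nat_lit 246) (nat_lit 0) (cs (lf (nat_lit 11) (nat_lit 245)) (nd (nat_lit 272) (nat_lit 0) (cs (lf (nat_lit 5) (nat_lit 247)) (lf (nat_lit 4) (nat_lit 246))))))))))))) q64524 (by decide +kernel)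
def q64712 : Q := Q.p (nat_lit 0x40000800000600000000010000000000000000000000000000000000000000000000000000) (nat_lit 0x500001c000074001d900037f80009c0007b8000680001a000060000100000000000000000000000000000000000) (nat_lit 11)
theorem c64712 : QOK q64712 := cut [q63548, q63778, q61940, q57373, q64680, q64681, q62183, q14516, q62417, q62419, q62422, q63847, q61766, q62939, q64697, q64700, q56866, q64706, q14158, q25763, q63708] ⟨c63548, c63778, c61940, c57373, c64680, c64681, c62183, c14516, c62417, c62419, c62422, c63847, c61766, c62939, c64697, c64700, c56866, c64706, c14158, c25763, c63708, trivial⟩ (nd (nat_lit 248) (nat_lit 0) (cs (rf (nat_lit 0)) (cs (rf (nat_lit 1)) (cs (nd (nat_lit 227) (nat_lit 0) (cs (rf (nat_lit 2)) (cs (nd (nat_lit 270) (nat_lit 0) (cs (rf (nat_lit 3)) (cs (rf (nat_lit 4)) (nd (nat_lit 251) (nat_lit 0) (cs (lf (nat_lit 11) (nat_lit 247)) (nd (nat_lit 229) (nat_lit 0) (cs (lf (nat_lit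 17) (nat_lit 226)) (nd (nat_lit 292) (nat_lit 0) (cs (lf (nat_lit 30) (nat_lit 226)) (nd (nat_lit 273) (nat_lit 0) (cs (lf (nat_lit 5) (nat_lit 248)) (rf (nat_lit 5))))))))))))) (cs (nd (nat_lit 273) (nat_lit 0) (cs (rf (nat_lit 6)) (cs (nd (nat_lit 251) (nat_lit 0) (cs (lf (nat_lit 5) (nat_lit 248)) (nd (nat_lit 269) (nat_lit 0) (cs (lf (nat_lit 10) (nat_lit 247)) (nd (nat_lit 229) (nat_lit 0) (cs (lf (nat_lit 17) (nat_lit 226)) (rf (nat_lit 5)))))))) (cs (nd (nat_lit 295) (nat_lit 0) (cs (nd (nat_lit 272) (nat_lit 0) (cs (lf (nat_lit 42) (nat_lit 227)) (rf (nat_lit 7)))) (cs (nd (nat_lit 228) (nat_lit 0) (cs (rf (nat_lit 8)) (cs (rf (nat_lit 9)) (cs (rf (nat_lit 10)) (rf (nat_lit 11)))))) (cs (nd (nat_lit 229) (nat_lit 0) (cs (nd (nat_lit 230) (nat_lit 0) (cs (lf (nat_lit 8) (nat_lit 226)) (lf (nat_lit 32) (nat_lit 207)))) (cs (nd (nat_lit 228) (nat_lit 0) (cs (lf (nat_lit 6) (nat_lit 226)) (nd (nat_lit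 272) (nat_lit 0) (cs (lf (nat_lit 42) (nat_lit 227)) (lf (nat_lit 24) (nat_lit 206)))))) (nd (nat_lit 316) (nat_lit 0) (cs (lf (nat_lit 37) (nat_lit 228)) (lf (nat_lit 44) (nat_lit 227))))))) (cs (nd (nat_lit 251) (nat_lit 0) (cs (rf (nat_lit 12)) (cs (rf (nat_lit 13)) (nd (nat_lit 269) (nat_lit 0) (cs (lf (nat_lit 10) (nat_lit 247)) (rf (nat_lit 14))))))) (nd (nat_lit 316) (nat_lit 0) (cs (lf (nat_lit 44) (nat_lit 227)) (nd (nat_lit 251) (nat_lit 0) (cs (lf (nat_lit 36) (nat_lit 228)) (rf (nat_lit 15))))))))))) (nd (nat_lit 272) (nat_lit 0) (cs (lf (nat_lit 42) (nat_lit 227)) (lf (nat_lit 19) (nat_lit 249)))))))) (cs (nd (nat_lit 205) (nat_lit 0) (cs (rf (nat_lit 16)) (cs (rf (nat_lit 17)) (nd (nat_lit 272) (nat_lit 0) (cs (lf (nat_lit 27) (nat_lit 205)) (lf (nat_lit 45) (nat_lit 205))))))) (nd (nat_lit 272) (nat_lit 0) (cs (lf (nat_lit 42) (nat_lit 227)) (rf (nat_lit 18))))))))) (nd (nat_lit 272) (nat_lit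 0) (cs (rf (nat_lit 19)) (rf (nat_lit 20)))))))) q64712 (by decide +kernel)
def q64798 : Q := Q.p (nat_lit 0x40000900002600000000010000000000000000000000000000000000000000000000000000) (nat_lit 0xa0000380000e0000bc0026f80089c00feb801e2800ffa001c0000700001c000040000000000000000000000000) (nat_lit 13)
theorem c64798 : QOK q64798 := cut [q63708, q63518, q64533, q44584, q47263, q64797] ⟨c63708, c63518, c64533, c44584, c47263, c64797, trivial⟩ (nd (nat_lit 248) (nat_lit 0) (cs (rf (nat_lit 0)) (cs (nd (nat_lit 269) (nat_lit 0) (cs (rf (nat_lit 1)) (cs (rf (nat_lit 2)) (cs (nd (nat_lit 247) (nat_lit 0) (cs (lf (nat_lit 11) (nat_lit 246)) (rf (nat_lit 3)))) (nd (nat_lit 270) (nat_lit 0) (cs (lf (nat_lit 6) (nat_lit 247)) (nd (nat_lit 271) (nat_lit 0) (cs (lf (nat_lit 5) (nat_lit 269)) (nd (nat_lit 290) (nat_lit 0) (cs (lf (nat_lit 10) (nat_lit 268)) (nd (nat_lit 247) (nat_lit 0) (cs (lf (nat_lit 23) (nat_lit 246))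 (nd (nat_lit 205) (nat_lit 0) (cs (lf (nat_lit 25) (nat_lit 205)) (rf (nat_lit 4)))))))))))))))) (rf (nat_lit 5))))) q64798 (by decide +kernel)
def q65025 : Q := Q.p (nat_lit 0x900000600000000010000000000000000000000000000000000000000000000000000) (nat_lit 0xa0000b80003e0001be0006f80009c000ff80027c0003a0000e0000200000000000000000000000000000000000) (nat_lit 13)
theorem c65025 : QOK q65025 := cut [q61980, q63973, q26200, q26237, q62167, q57373, q64006, q62914, q40873, q62701, q57626, q58952, q60684, q45099, q63975, q26206, q61285] ⟨c61980, c63973, c26200, c26237, c62167, c57373, c64006, c62914, c40873, c62701, c57626, c58952, c60684, c45099, c63975, c26206, c61285, trivial⟩ (nd (nat_lit 228) (nat_lit 0) (cs (rf (nat_lit 0)) (cs (rf (nat_lit 1)) (cs (nd (nat_lit 248) (nat_lit 0) (cs (rf (nat_lit 2)) (cs (rf (nat_lit 3)) (cs (rf (nat_lit 4)) (nd (nat_lit 270) (nat_lit 0) (cs (rf (nat_lit 5)) (cs (rf (nat_lit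 6)) (cs (nd (nat_lit 226) (nat_lit 0) (cs (rf (nat_lit 7)) (cs (nd (nat_lit 273) (nat_lit 0) (cs (lf (nat_lit 19) (nat_lit 249)) (nd (nat_lit 269) (nat_lit 0) (cs (lf (nat_lit 6) (nat_lit 247)) (nd (nat_lit 267) (nat_lit 0) (cs (lf (nat_lit 13) (nat_lit 245)) (nd (nat_lit 204) (nat_lit 0) (cs (lf (nat_lit 41) (nat_lit 203)) (nd (nat_lit 203) (nat_lit 0) (cs (lf (nat_lit 47) (nat_lit 181)) (nd (nat_lit 205) (nat_lit 0) (cs (lf (nat_lit 35) (nat_lit 182)) (nd (nat_lit 227) (nat_lit 0) (cs (lf (nat_lit 18) (nat_lit 203)) (lf (nat_lit 30) (nat_lit 204)))))))))))))))) (nd (nat_lit 227) (nat_lit 0) (cs (rf (nat_lit 8)) (rf (nat_lit 9))))))) (nd (nat_lit 292) (nat_lit 0) (cs (rf (nat_lit 10)) (cs (rf (nat_lit 11)) (nd (nat_lit 273) (nat_lit 0) (cs (lf (nat_lit 19) (nat_lit 249)) (nd (nat_lit 271) (nat_lit 0) (cs (lf (nat_lit 11) (nat_lit 269)) (nd (nat_lit 293) (nat_lit 0) (cs (lf (nat_lit 30) (nat_lit 227)) (nd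 (nat_lit 204) (nat_lit 0) (cs (lf (nat_lit 25) (nat_lit 204)) (rf (nat_lit 12))))))))))))))))))))) (nd (nat_lit 248) (nat_lit 0) (cs (rf (nat_lit 2)) (cs (rf (nat_lit 3)) (nd (nat_lit 206) (nat_lit 0) (cs (rf (nat_lit 13)) (cs (rf (nat_lit 14)) (nd (nat_lit 271) (nat_lit 0) (cs (lf (nat_lit 41) (nat_lit 205)) (nd (nat_lit 270) (nat_lit 0) (cs (rf (nat_lit 15)) (cs (rf (nat_lit 6)) (nd (nat_lit 205) (nat_lit 0) (cs (lf (nat_lit 47) (nat_lit 183)) (nd (nat_lit 292) (nat_lit 0) (cs (lf (nat_lit 37) (nat_lit 204)) (nd (nat_lit 314) (nat_lit 0) (cs (lf (nat_lit 30) (nat_lit 248)) (nd (nat_lit 315) (nat_lit 0) (cs (lf (nat_lit 29) (nat_lit 248)) (nd (nat_lit 313) (nat_lit 0) (cs (lf (nat_lit 41) (nat_lit 247)) (rf (nat_lit 16))))))))))))))))))))))))))) q65025 (by decide +kernel)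
def q65107 : Q := Q.p (nat_lit 0x900000600000000000000000000000000000000000000000000000000000000000000) (nat_lit 0xa0000380000f00003f0001fc0004f80009c000ff80007800018000000000000000000000000000000000000000000000) (nat_lit 15)
theorem c65107 : QOK q65107 := cut [q25763, q63716, q64929, q58853, q64188, q65074, q60134, q64735, q59554, q64210] ⟨c25763, c63716, c64929, c58853, c64188, c65074, c60134, c64735, c59554, c64210, trivial⟩ (nd (nat_lit 294) (nat_lit 0) (cs (rf (nat_lit 0)) (cs (rf (nat_lit 1)) (cs (rf (nat_lit 2)) (nd (nat_lit 293) (nat_lit 0) (cs (rf (nat_lit 3)) (cs (rf (nat_lit 4)) (cs (rf (nat_lit 5)) (cs (nd (nat_lit 271) (nat_lit 0) (cs (rf (nat_lit 6)) (cs (rf (nat_lit 7)) (cs (nd (nat_lit 315) (nat_lit 0) (cs (lf (nat_lit 30) (nat_lit 249)) (nd (nat_lit 248) (nat_lit 0) (cs (lf (nat_lit 47) (nat_lit 226)) (nd (nat_lit 314) (nat_lit 0) (cs (lf (nat_lit 41) (nat_lit 248)) (nd (nat_lit 247) (nat_lit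 0) (cs (lf (nat_lit 0) (nat_lit 246)) (nd (nat_lit 312) (nat_lit 0) (cs (lf (nat_lit 13) (nat_lit 290)) (nd (nat_lit 224) (nat_lit 0) (cs (lf (nat_lit 22) (nat_lit 224)) (nd (nat_lit 295) (nat_lit 0) (cs (lf (nat_lit 6) (nat_lit 292)) (nd (nat_lit 269) (nat_lit 0) (cs (lf (nat_lit 11) (nat_lit 246)) (lf (nat_lit 1) (nat_lit 269)))))))))))))))))) (nd (nat_lit 315) (nat_lit 0) (cs (lf (nat_lit 30) (nat_lit 249)) (nd (nat_lit 205) (nat_lit 0) (cs (lf (nat_lit 25) (nat_lit 205)) (nd (nat_lit 248) (nat_lit 0) (cs (lf (nat_lit 47) (nat_lit 226)) (nd (nat_lit 247) (nat_lit 0) (cs (lf (nat_lit 0) (nat_lit 246)) (nd (nat_lit 224) (nat_lit 0) (cs (lf (nat_lit 22) (nat_lit 224)) (nd (nat_lit 269) (nat_lit 0) (cs (lf (nat_lit 11) (nat_lit 246)) (nd (nat_lit 270) (nat_lit 0) (cs (lf (nat_lit 6) (nat_lit 247)) (lf (nat_lit 5) (nat_lit 269)))))))))))))))))))) (nd (nat_lit 271) (nat_lit 0) (cs (rf (nat_lit 8)) (cs (rf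 (nat_lit 7)) (cs (nd (nat_lit 227) (nat_lit 0) (cs (lf (nat_lit 24) (nat_lit 205)) (nd (nat_lit 292) (nat_lit 0) (cs (lf (nat_lit 41) (nat_lit 226)) (nd (nat_lit 206) (nat_lit 0) (cs (lf (nat_lit 37) (nat_lit 205)) (nd (nat_lit 226) (nat_lit 0) (cs (lf (nat_lit 47) (nat_lit 204)) (nd (nat_lit 291) (nat_lit 0) (cs (lf (nat_lit 12) (nat_lit 268)) (nd (nat_lit 313) (nat_lit 0) (cs (lf (nat_lit 11) (nat_lit 290)) (nd (nat_lit 269) (nat_lit 0) (cs (lf (nat_lit 23) (nat_lit 268)) (nd (nat_lit 247) (nat_lit 0) (cs (lf (nat_lit 34) (nat_lit 225)) (nd (nat_lit 224) (nat_lit 0) (cs (lf (nat_lit 1) (nat_lit 224)) (lf (nat_lit 46) (nat_lit 224)))))))))))))))))))) (nd (nat_lit 206) (nat_lit 0) (cs (lf (nat_lit 37) (nat_lit 205)) (nd (nat_lit 227) (nat_lit 0) (cs (lf (nat_lit 24) (nat_lit 205)) (nd (nat_lit 226) (nat_lit 0) (cs (lf (nat_lit 47) (nat_lit 204)) (nd (nat_lit 225) (nat_lit 0) (cs (lf (nat_lit 0) (nat_lit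 224)) (nd (nat_lit 248) (nat_lit 0) (cs (lf (nat_lit 18) (nat_lit 225)) (rf (nat_lit 9))))))))))))))))))))))))) q65107 (by decide +kernel)
def q65439 : Q := Q.p (nat_lit 0x880000600000000000000000000000000000000000000000000000000000000000000) (nat_lit 0xc0000340001d00007780009c0003f80007c0001e000000000000000000000000000000000000000000000) (nat_lit 15)
theorem c65439 : QOK q65439 := cut [q65424, q26206, q60700, q61563, q64129, q44571, q51478, q63547, q46599, q61551, q61568, q61572, q61575, q61585, q63708, q65438] ⟨c65424, c26206, c60700, c61563, c64129, c44571, c51478, c63547, c46599, c61551, c61568, c61572, c61575, c61585, c63708, c65438, trivial⟩ (nd (nat_lit 270) (nat_lit 0) (cs (rf (nat_lit 0)) (cs (nd (nat_lit 248) (nat_lit 0) (cs (rf (nat_lit 1)) (cs (nd (nat_lit 226) (nat_lit 0) (cs (rf (nat_lit 2)) (cs (rf (nat_lit 3)) (nd (nat_lit 204) (nat_lit 0) (cs (lf (nat_lit 24) (nat_lit 182)) (nd (nat_lit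 203) (nat_lit 0) (cs (lf (nat_lit 47) (nat_lit 181)) (rf (nat_lit 4))))))))) (nd (nat_lit 247) (nat_lit 0) (cs (rf (nat_lit 5)) (cs (rf (nat_lit 6)) (cs (rf (nat_lit 7)) (nd (nat_lit 268) (nat_lit 0) (cs (lf (nat_lit 13) (nat_lit 246)) (nd (nat_lit 228) (nat_lit 0) (cs (lf (nat_lit 17) (nat_lit 225)) (nd (nat_lit 184) (nat_lit 0) (cs (rf (nat_lit 8)) (lf (nat_lit 37) (nat_lit 183))))))))))))))) (cs (nd (nat_lit 272) (nat_lit 0) (cs (rf (nat_lit 9)) (cs (nd (nat_lit 248) (nat_lit 0) (cs (nd (nat_lit 247) (nat_lit 0) (cs (lf (nat_lit 0) (nat_lit 246)) (nd (nat_lit 228) (nat_lit 0) (cs (lf (nat_lit 17) (nat_lit 225)) (nd (nat_lit 184) (nat_lit 0) (cs (lf (nat_lit 37) (nat_lit 183)) (nd (nat_lit 225) (nat_lit 0) (cs (lf (nat_lit 23) (nat_lit 224)) (nd (nat_lit 203) (nat_lit 0) (cs (lf (nat_lit 24) (nat_lit 181)) (nd (nat_lit 226) (nat_lit 0) (cs (lf (nat_lit 18) (nat_lit 225)) (lf (nat_lit 42) (nat_lit 203))))))))))))))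 (cs (rf (nat_lit 10)) (cs (rf (nat_lit 11)) (nd (nat_lit 247) (nat_lit 0) (cs (lf (nat_lit 0) (nat_lit 246)) (nd (nat_lit 228) (nat_lit 0) (cs (lf (nat_lit 17) (nat_lit 225)) (nd (nat_lit 184) (nat_lit 0) (cs (lf (nat_lit 37) (nat_lit 183)) (nd (nat_lit 225) (nat_lit 0) (cs (lf (nat_lit 23) (nat_lit 224)) (nd (nat_lit 181) (nat_lit 0) (cs (lf (nat_lit 25) (nat_lit 181)) (nd (nat_lit 226) (nat_lit 0) (cs (lf (nat_lit 18) (nat_lit 225)) (nd (nat_lit 204) (nat_lit 0) (cs (lf (nat_lit 24) (nat_lit 182)) (nd (nat_lit 205) (nat_lit 0) (cs (lf (nat_lit 35) (nat_lit 182)) (rf (nat_lit 12)))))))))))))))))))))) (cs (nd (nat_lit 273) (nat_lit 0) (cs (lf (nat_lit 19) (nat_lit 249)) (rf (nat_lit 13)))) (nd (nat_lit 248) (nat_lit 0) (cs (rf (nat_lit 10)) (rf (nat_lit 14)))))))) (rf (nat_lit 15)))))) q65439 (by decide +kernel)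
def q65470 : Q := Q.p (nat_lit 0x880000600000000010000000000000000000000000000000000000000000000000000) (nat_lit 0x40000f00003c001df00037780009e0007780005800016000000000000000000000000000000000000000000000) (nat_lit 12)
theorem c65470 : QOK q65470 := cut [q58938, q61516, q61632, q65424, q11170, q15307, q56357, q60414, q65444, q62183, q63487, q65446, q63491, q65452, q46599, q60671, q26206, q44571, q65458, q61551, q65436, q47263] ⟨c58938, c61516, c61632, c65424, c11170, c15307, c56357, c60414, c65444, c62183, c63487, c65446, c63491, c65452, c46599, c60671, c26206, c44571, c65458, c61551, c65436, c47263, trivial⟩ (nd (nat_lit 293) (nat_lit 0) (cs (rf (nat_lit 0)) (cs (rf (nat_lit 1)) (cs (rf (nat_lit 2)) (nd (nat_lit 270) (nat_lit 0) (cs (rf (nat_lit 3)) (cs (nd (nat_lit 248) (nat_lit 0) (cs (nd (nat_lit 226) (nat_lit 0) (cs (rf (nat_lit 4)) (nd (nat_lit 251) (nat_lit 0) (cs (lf (nat_lit 23) (nat_lit 225))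 (nd (nat_lit 273) (nat_lit 0) (cs (rf (nat_lit 5)) (nd (nat_lit 295) (nat_lit 0) (cs (rf (nat_lit 6)) (rf (nat_lit 7)))))))))) (cs (rf (nat_lit 8)) (cs (nd (nat_lit 273) (nat_lit 0) (cs (rf (nat_lit 9)) (cs (rf (nat_lit 10)) (nd (nat_lit 247) (nat_lit 0) (cs (lf (nat_lit 4) (nat_lit 247)) (nd (nat_lit 228) (nat_lit 0) (cs (lf (nat_lit 17) (nat_lit 225)) (nd (nat_lit 184) (nat_lit 0) (cs (lf (nat_lit 37) (nat_lit 183)) (rf (nat_lit 11))))))))))) (cs (nd (nat_lit 273) (nat_lit 0) (cs (rf (nat_lit 9)) (cs (rf (nat_lit 10)) (cs (rf (nat_lit 12)) (nd (nat_lit 204) (nat_lit 0) (cs (lf (nat_lit 25) (nat_lit 204)) (rf (nat_lit 13)))))))) (nd (nat_lit 247) (nat_lit 0) (cs (rf (nat_lit 14)) (rf (nat_lit 15))))))))) (cs (nd (nat_lit 248) (nat_lit 0) (cs (rf (nat_lit 16)) (cs (rf (nat_lit 8)) (nd (nat_lit 247) (nat_lit 0) (cs (rf (nat_lit 17)) (cs (rf (nat_lit 14)) (nd (nat_lit 204) (nat_lit 0) (cs (lf (nat_lit 25)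 (nat_lit 204)) (rf (nat_lit 18)))))))))) (nd (nat_lit 269) (nat_lit 0) (cs (lf (nat_lit 12) (nat_lit 246)) (nd (nat_lit 272) (nat_lit 0) (cs (rf (nat_lit 19)) (cs (rf (nat_lit 20)) (nd (nat_lit 247) (nat_lit 0) (cs (lf (nat_lit 23) (nat_lit 246)) (nd (nat_lit 228) (nat_lit 0) (cs (lf (nat_lit 36) (nat_lit 205)) (nd (nat_lit 294) (nat_lit 0) (cs (lf (nat_lit 5) (nat_lit 269)) (nd (nat_lit 316) (nat_lit 0) (cs (lf (nat_lit 42) (nat_lit 249)) (nd (nat_lit 248) (nat_lit 0) (cs (lf (nat_lit 17) (nat_lit 225)) (rf (nat_lit 21))))))))))))))))))))))))) q65470 (by decide +kernel)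
def q65620 : Q := Q.p (nat_lit 0x180000600000000000000000000000000000000000000000000000000000000000000) (nat_lit 0xa0000f80003e0001de0000780001c0003f80007c0001f000000000000000000000000000000000000000000000) (nat_lit 13)
theorem c65620 : QOK q65620 := cut [q46561, q65585, q47185, q64136, q65587, q64024, q64029, q61575, q65606, q65616, q46600, q47250, q64006, q65563] ⟨c46561, c65585, c47185, c64136, c65587, c64024, c64029, c61575, c65606, c65616, c46600, c47250, c64006, c65563, trivial⟩ (nd (nat_lit 248) (nat_lit 0) (cs (nd (nat_lit 294) (nat_lit 0) (cs (rf (nat_lit 0)) (cs (rf (nat_lit 1)) (nd (nat_lit 270) (nat_lit 0) (cs (rf (nat_lit 2)) (nd (nat_lit 226) (nat_lit 0) (cs (nd (nat_lit 204) (nat_lit 0) (cs (lf (nat_lit 24) (nat_lit 182)) (rf (nat_lit 3)))) (cs (nd (nat_lit 204) (nat_lit 0) (cs (lf (nat_lit 24) (nat_lit 182)) (rf (nat_lit 4)))) (cs (nd (nat_lit 204) (nat_lit 0) (cs (lf (nat_lit 24) (nat_lit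 182)) (rf (nat_lit 5)))) (nd (nat_lit 227) (nat_lit 0) (cs (lf (nat_lit 24) (nat_lit 205)) (rf (nat_lit 6))))))))))))) (cs (nd (nat_lit 247) (nat_lit 0) (cs (lf (nat_lit 0) (nat_lit 246)) (nd (nat_lit 268) (nat_lit 0) (cs (lf (nat_lit 10) (nat_lit 246)) (nd (nat_lit 224) (nat_lit 0) (cs (lf (nat_lit 22) (nat_lit 224)) (nd (nat_lit 228) (nat_lit 0) (cs (lf (nat_lit 17) (nat_lit 225)) (nd (nat_lit 206) (nat_lit 0) (cs (lf (nat_lit 36) (nat_lit 183)) (nd (nat_lit 205) (nat_lit 0) (cs (lf (nat_lit 47) (nat_lit 183)) (rf (nat_lit 7)))))))))))))) (cs (nd (nat_lit 247) (nat_lit 0) (cs (lf (nat_lit 0) (nat_lit 246)) (nd (nat_lit 224) (nat_lit 0) (cs (lf (nat_lit 22) (nat_lit 224)) (rf (nat_lit 8)))))) (cs (rf (nat_lit 9)) (cs (nd (nat_lit 270) (nat_lit 0) (cs (rf (nat_lit 10)) (cs (rf (nat_lit 11)) (cs (rf (nat_lit 12)) (rf (nat_lit 13)))))) (nd (nat_lit 247) (nat_lit 0) (cs (lf (nat_lit 0) (nat_lit 246)) (nd (nat_lit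 268) (nat_lit 0) (cs (lf (nat_lit 10) (nat_lit 246)) (rf (nat_lit 8)))))))))))) q65620 (by decide +kernel)
def q65766 : Q := Q.p (nat_lit 0x880002600000000000000000000000000000000000000000000000000000000000000) (nat_lit 0x1e0003fe000ff0001fe0007780001c0003780007c0001f000024000000000000000000000000000000000000000) (nat_lit 15)
theorem c65766 : QOK q65766 := cut [q65565, q65670, q65687, q63708, q65585, q65632, q57236, q59554, q65697, q65700, q57056, q40967, q46593, q65706, q61551, q61620, q47250, q65561, q65563, q65616, q46620, q63435, q61550, q65721, q60108, q65732, q65765] ⟨c65565, c65670, c65687, c63708, c65585, c65632, c57236, c59554, c65697, c65700, c57056, c40967, c46593, c65706, c61551, c61620, c47250, c65561, c65563, c65616, c46620, c63435, c61550, c65721, c60108, c65732, c65765, trivial⟩ (nd (nat_lit 272) (nat_lit 0) (cs (rf (nat_lit 0)) (cs (rf (nat_lit 1)) (cs (rf (nat_lit 2)) (cs (nd (nat_lit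 248) (nat_lit 0) (cs (rf (nat_lit 3)) (cs (nd (nat_lit 274) (nat_lit 0) (cs (lf (nat_lit 19) (nat_lit 248)) (nd (nat_lit 294) (nat_lit 0) (cs (rf (nat_lit 4)) (cs (rf (nat_lit 5)) (cs (nd (nat_lit 293) (nat_lit 0) (cs (rf (nat_lit 6)) (rf (nat_lit 7)))) (cs (nd (nat_lit 316) (nat_lit 0) (cs (lf (nat_lit 42) (nat_lit 249)) (nd (nat_lit 317) (nat_lit 0) (cs (lf (nat_lit 29) (nat_lit 250)) (nd (nat_lit 315) (nat_lit 0) (cs (lf (nat_lit 41) (nat_lit 249)) (nd (nat_lit 293) (nat_lit 0) (cs (lf (nat_lit 47) (nat_lit 226)) (nd (nat_lit 318) (nat_lit 0) (cs (lf (nat_lit 18) (nat_lit 293)) (nd (nat_lit 296) (nat_lit 0) (cs (lf (nat_lit 30) (nat_lit 252)) (lf (nat_lit 14) (nat_lit 271)))))))))))))) (rf (nat_lit 8))))))))) (rf (nat_lit 9))))) (cs (nd (nat_lit 273) (nat_lit 0) (cs (lf (nat_lit 19) (nat_lit 249)) (nd (nat_lit 270) (nat_lit 0) (cs (rf (nat_lit 10)) (cs (nd (nat_lit 248) (nat_lit 0) (cs (rf (nat_lit 11))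 (nd (nat_lit 295) (nat_lit 0) (cs (lf (nat_lit 5) (nat_lit 270)) (nd (nat_lit 317) (nat_lit 0) (cs (lf (nat_lit 42) (nat_lit 250)) (nd (nat_lit 292) (nat_lit 0) (cs (lf (nat_lit 11) (nat_lit 269)) (rf (nat_lit 12)))))))))) (rf (nat_lit 13))))))) (cs (nd (nat_lit 270) (nat_lit 0) (cs (rf (nat_lit 14)) (cs (rf (nat_lit 15)) (nd (nat_lit 248) (nat_lit 0) (cs (rf (nat_lit 16)) (cs (rf (nat_lit 17)) (cs (rf (nat_lit 18)) (nd (nat_lit 269) (nat_lit 0) (cs (lf (nat_lit 12) (nat_lit 246)) (nd (nat_lit 294) (nat_lit 0) (cs (lf (nat_lit 5) (nat_lit 269)) (nd (nat_lit 316) (nat_lit 0) (cs (lf (nat_lit 42) (nat_lit 249)) (nd (nat_lit 291) (nat_lit 0) (cs (lf (nat_lit 11) (nat_lit 268)) (nd (nat_lit 317) (nat_lit 0) (cs (lf (nat_lit 29) (nat_lit 250)) (nd (nat_lit 226) (nat_lit 0) (cs (lf (nat_lit 36) (nat_lit 203)) (nd (nat_lit 292) (nat_lit 0) (cs (lf (nat_lit 41) (nat_lit 225)) (lf (nat_lit 2) (nat_lit 291)))))))))))))))))))))))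 (cs (nd (nat_lit 248) (nat_lit 0) (cs (rf (nat_lit 11)) (cs (rf (nat_lit 19)) (nd (nat_lit 270) (nat_lit 0) (cs (rf (nat_lit 20)) (cs (nd (nat_lit 292) (nat_lit 0) (cs (rf (nat_lit 21)) (nd (nat_lit 273) (nat_lit 0) (cs (lf (nat_lit 11) (nat_lit 269)) (rf (nat_lit 22)))))) (cs (rf (nat_lit 23)) (nd (nat_lit 269) (nat_lit 0) (cs (lf (nat_lit 12) (nat_lit 246)) (nd (nat_lit 294) (nat_lit 0) (cs (lf (nat_lit 5) (nat_lit 269)) (nd (nat_lit 316) (nat_lit 0) (cs (lf (nat_lit 42) (nat_lit 249)) (nd (nat_lit 290) (nat_lit 0) (cs (lf (nat_lit 10) (nat_lit 268)) (nd (nat_lit 315) (nat_lit 0) (cs (lf (nat_lit 41) (nat_lit 249)) (nd (nat_lit 293) (nat_lit 0) (cs (lf (nat_lit 35) (nat_lit 227)) (nd (nat_lit 314) (nat_lit 0) (cs (lf (nat_lit 41) (nat_lit 248)) (nd (nat_lit 312) (nat_lit 0) (cs (lf (nat_lit 13) (nat_lit 290)) (rf (nat_lit 24))))))))))))))))))))))))) (cs (nd (nat_lit 270) (nat_lit 0) (cs (rf (nat_lit 14))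 (cs (rf (nat_lit 15)) (nd (nat_lit 269) (nat_lit 0) (cs (lf (nat_lit 12) (nat_lit 246)) (nd (nat_lit 246) (nat_lit 0) (cs (lf (nat_lit 22) (nat_lit 246)) (nd (nat_lit 290) (nat_lit 0) (cs (lf (nat_lit 10) (nat_lit 268)) (nd (nat_lit 294) (nat_lit 0) (cs (lf (nat_lit 5) (nat_lit 269)) (nd (nat_lit 316) (nat_lit 0) (cs (lf (nat_lit 42) (nat_lit 249)) (nd (nat_lit 315) (nat_lit 0) (cs (lf (nat_lit 41) (nat_lit 249)) (nd (nat_lit 293) (nat_lit 0) (cs (lf (nat_lit 35) (nat_lit 227)) (rf (nat_lit 25))))))))))))))))))) (rf (nat_lit 26))))))))))) q65766 (by decide +kernel)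
def q65822 : Q := Q.p (nat_lit 0x880000600000000000000000000000000000000000000000000000000000000000000) (nat_lit 0x98000760001fc0007700001c0003f00007f0001e000050000000000000000000000000000000000000000) (nat_lit 15)
theorem c65822 : QOK q65822 := cut [q61657, q65438, q40951, q61594, q61595, q65787, q40950, q40962, q54962, q37282, q46564, q61551, q61620, q46559, q61635, q57499, q65782, q65785, q65801, q57003, q41315, q57500, q61547, q65436, q64492, q65700] ⟨c61657, c65438, c40951, c61594, c61595, c65787, c40950, c40962, c54962, c37282, c46564, c61551, c61620, c46559, c61635, c57499, c65782, c65785, c65801, c57003, c41315, c57500, c61547, c65436, c64492, c65700, trivial⟩ (nd (nat_lit 270) (nat_lit 0) (cs (rf (nat_lit 0)) (cs (rf (nat_lit 1)) (cs (nd (nat_lit 227) (nat_lit 0) (cs (rf (nat_lit 2)) (cs (rf (nat_lit 3)) (cs (rf (nat_lit 4)) (cs (rf (nat_lit 5)) (nd (nat_lit 205) (nat_lit 0) (cs (rf (nat_lit 6))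 (cs (rf (nat_lit 7)) (cs (rf (nat_lit 8)) (nd (nat_lit 184) (nat_lit 0) (cs (lf (nat_lit 34) (nat_lit 183)) (nd (nat_lit 272) (nat_lit 0) (cs (lf (nat_lit 29) (nat_lit 205)) (nd (nat_lit 273) (nat_lit 0) (cs (lf (nat_lit 19) (nat_lit 249)) (nd (nat_lit 295) (nat_lit 0) (cs (lf (nat_lit 5) (nat_lit 270)) (nd (nat_lit 317) (nat_lit 0) (cs (lf (nat_lit 42) (nat_lit 250)) (nd (nat_lit 247) (nat_lit 0) (cs (lf (nat_lit 1) (nat_lit 247)) (nd (nat_lit 204) (nat_lit 0) (cs (lf (nat_lit 47) (nat_lit 182)) (nd (nat_lit 226) (nat_lit 0) (cs (lf (nat_lit 42) (nat_lit 204)) (nd (nat_lit 225) (nat_lit 0) (cs (lf (nat_lit 0) (nat_lit 224)) (nd (nat_lit 228) (nat_lit 0) (cs (lf (nat_lit 11) (nat_lit 224)) (rf (nat_lit 9))))))))))))))))))))))))))))))) (cs (nd (nat_lit 272) (nat_lit 0) (cs (rf (nat_lit 10)) (cs (rf (nat_lit 11)) (rf (nat_lit 12))))) (cs (nd (nat_lit 227) (nat_lit 0) (cs (rf (nat_lit 2)) (cs (rf (nat_lit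 3)) (cs (rf (nat_lit 4)) (cs (nd (nat_lit 269) (nat_lit 0) (cs (lf (nat_lit 12) (nat_lit 246)) (nd (nat_lit 292) (nat_lit 0) (cs (rf (nat_lit 13)) (cs (rf (nat_lit 14)) (nd (nat_lit 226) (nat_lit 0) (cs (rf (nat_lit 15)) (cs (rf (nat_lit 16)) (cs (rf (nat_lit 17)) (nd (nat_lit 224) (nat_lit 0) (cs (lf (nat_lit 1) (nat_lit 224)) (rf (nat_lit 18))))))))))))) (nd (nat_lit 204) (nat_lit 0) (cs (nd (nat_lit 268) (nat_lit 0) (cs (lf (nat_lit 13) (nat_lit 246)) (nd (nat_lit 205) (nat_lit 0) (cs (lf (nat_lit 47) (nat_lit 182)) (rf (nat_lit 19)))))) (cs (nd (nat_lit 226) (nat_lit 0) (cs (lf (nat_lit 42) (nat_lit 204)) (rf (nat_lit 20)))) (cs (nd (nat_lit 269) (nat_lit 0) (cs (lf (nat_lit 12) (nat_lit 246)) (nd (nat_lit 226) (nat_lit 0) (cs (lf (nat_lit 42) (nat_lit 204)) (nd (nat_lit 248) (nat_lit 0) (cs (lf (nat_lit 41) (nat_lit 203)) (nd (nat_lit 183) (nat_lit 0) (cs (lf (nat_lit 37) (nat_lit 182)) (nd (nat_lit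 225) (nat_lit 0) (cs (lf (nat_lit 0) (nat_lit 224)) (nd (nat_lit 203) (nat_lit 0) (cs (lf (nat_lit 47) (nat_lit 181)) (nd (nat_lit 228) (nat_lit 0) (cs (lf (nat_lit 23) (nat_lit 202)) (lf (nat_lit 18) (nat_lit 203)))))))))))))))) (nd (nat_lit 226) (nat_lit 0) (cs (lf (nat_lit 42) (nat_lit 204)) (rf (nat_lit 21))))))))))))) (nd (nat_lit 269) (nat_lit 0) (cs (lf (nat_lit 12) (nat_lit 246)) (nd (nat_lit 272) (nat_lit 0) (cs (rf (nat_lit 22)) (cs (rf (nat_lit 23)) (nd (nat_lit 248) (nat_lit 0) (cs (rf (nat_lit 24)) (rf (nat_lit 25))))))))))))))) q65822 (by decide +kernel)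
def q65849 : Q := Q.p (nat_lit 0x880000600000000000000000000000000000000000000000000000000000000000000) (nat_lit 0x500001c0000700003f8000fc0007780001c0000f80007e0001e000070000040000000000000000000000000000000000) (nat_lit 14)
theorem c65849 : QOK q65849 := cut [q40955, q40962, q44592, q56973, q56988, q65472, q65830, q58797, q65832, q65838, q40888, q61919, q58807, q61685, q63956, q3654] ⟨c40955, c40962, c44592, c56973, c56988, c65472, c65830, c58797, c65832, c65838, c40888, c61919, c58807, c61685, c63956, c3654, trivial⟩ (nd (nat_lit 227) (nat_lit 0) (cs (nd (nat_lit 205) (nat_lit 0) (cs (rf (nat_lit 0)) (cs (rf (nat_lit 1)) (nd (nat_lit 182) (nat_lit 0) (cs (lf (nat_lit 46) (nat_lit 182)) (nd (nat_lit 184) (nat_lit 0) (cs (lf (nat_lit 34) (nat_lit 183)) (nd (nat_lit 272) (nat_lit 0) (cs (lf (nat_lit 29) (nat_lit 205)) (nd (nat_lit 273) (nat_lit 0) (cs (lf (nat_lit 19) (nat_lit 249)) (nd (nat_lit 247) (nat_lit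 0) (cs (lf (nat_lit 1) (nat_lit 247)) (rf (nat_lit 2))))))))))))))) (cs (nd (nat_lit 293) (nat_lit 0) (cs (nd (nat_lit 226) (nat_lit 0) (cs (lf (nat_lit 47) (nat_lit 204)) (nd (nat_lit 224) (nat_lit 0) (cs (lf (nat_lit 1) (nat_lit 224)) (nd (nat_lit 315) (nat_lit 0) (cs (lf (nat_lit 46) (nat_lit 226)) (rf (nat_lit 3)))))))) (cs (nd (nat_lit 294) (nat_lit 0) (cs (lf (nat_lit 29) (nat_lit 227)) (rf (nat_lit 4)))) (cs (rf (nat_lit 5)) (rf (nat_lit 6)))))) (cs (nd (nat_lit 293) (nat_lit 0) (cs (rf (nat_lit 7)) (cs (rf (nat_lit 5)) (nd (nat_lit 316) (nat_lit 0) (cs (lf (nat_lit 28) (nat_lit 227)) (nd (nat_lit 226) (nat_lit 0) (cs (lf (nat_lit 47) (nat_lit 204)) (rf (nat_lit 8))))))))) (cs (nd (nat_lit 205) (nat_lit 0) (cs (rf (nat_lit 0)) (cs (rf (nat_lit 1)) (nd (nat_lit 184) (nat_lit 0) (cs (lf (nat_lit 34) (nat_lit 183)) (rf (nat_lit 9))))))) (cs (nd (nat_lit 205) (nat_lit 0) (cs (nd (nat_lit 204) (nat_lit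 0) (cs (lf (nat_lit 47) (nat_lit 182)) (nd (nat_lit 226) (nat_lit 0) (cs (lf (nat_lit 42) (nat_lit 204)) (nd (nat_lit 270) (nat_lit 0) (cs (lf (nat_lit 41) (nat_lit 204)) (nd (nat_lit 269) (nat_lit 0) (cs (lf (nat_lit 12) (nat_lit 246)) (nd (nat_lit 224) (nat_lit 0) (cs (lf (nat_lit 1) (nat_lit 224)) (nd (nat_lit 248) (nat_lit 0) (cs (lf (nat_lit 41) (nat_lit 203)) (rf (nat_lit 10)))))))))))))) (rf (nat_lit 11)))) (nd (nat_lit 293) (nat_lit 0) (cs (rf (nat_lit 12)) (cs (rf (nat_lit 13)) (cs (rf (nat_lit 14)) (nd (nat_lit 294) (nat_lit 0) (cs (lf (nat_lit 29) (nat_lit 227)) (nd (nat_lit 205) (nat_lit 0) (cs (lf (nat_lit 28) (nat_lit 205)) (nd (nat_lit 184) (nat_lit 0) (cs (lf (nat_lit 34) (nat_lit 183)) (nd (nat_lit 183) (nat_lit 0) (cs (lf (nat_lit 35) (nat_lit 161)) (nd (nat_lit 160) (nat_lit 0) (cs (lf (nat_lit 46) (nat_lit 160)) (nd (nat_lit 248) (nat_lit 0) (cs (lf (nat_lit 41) (nat_lit 182)) (rf (nat_lit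 15)))))))))))))))))))))))) q65849 (by decide +kernel)
def q65851 : Q := Q.p (nat_lit 0x20000080000600000000010000000000000000000000000000000000000000000000000000) (nat_lit 0x100000400001000001c000ff00027c00014000000000000000000000000000000000000000000000) (nat_lit 9)
theorem c65851 : QOK q65851 := cut [q57008, q59913, q65850] ⟨c57008, c59913, c65850, trivial⟩ (nd (nat_lit 227) (nat_lit 0) (cs (rf (nat_lit 0)) (cs (rf (nat_lit 1)) (rf (nat_lit 2))))) q65851 (by decide +kernel)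
def q65853 : Q := Q.p (nat_lit 0x20000080000600000000010000000000000000000000000000000000000000000000000000) (nat_lit 0x40000100000400001c000ff00027c00014000000000000000000000000000000000000000000000) (nat_lit 9)
theorem c65853 : QOK q65853 := cut [q58797, q61527, q65850] ⟨c58797, c61527, c65850, trivial⟩ (nd (nat_lit 227) (nat_lit 0) (cs (rf (nat_lit 0)) (cs (rf (nat_lit 1)) (rf (nat_lit 2))))) q65853 (by decide +kernel)
def q65947 : Q := Q.p (nat_lit 0x880000600000000000000000000000000000000000000000000000000000000000000) (nat_lit 0x540003fe0007f8001fe0007700009e0001780005800010000000000000000000000000000000000000000000000) (nat_lit 15)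
theorem c65947 : QOK q65947 := cut [q58938, q61516, q62101, q61546, q59379, q60799, q61605, q61551, q61614, q61620, q65444, q46863, q65916, q59382, q63491, q65452, q65921, q60650] ⟨c58938, c61516, c62101, c61546, c59379, c60799, c61605, c61551, c61614, c61620, c65444, c46863, c65916, c59382, c63491, c65452, c65921, c60650, trivial⟩ (nd (nat_lit 293) (nat_lit 0) (cs (rf (nat_lit 0)) (cs (rf (nat_lit 1)) (cs (rf (nat_lit 2)) (nd (nat_lit 270) (nat_lit 0) (cs (rf (nat_lit 3)) (cs (nd (nat_lit 269) (nat_lit 0) (cs (lf (nat_lit 12) (nat_lit 246)) (nd (nat_lit 248) (nat_lit 0) (cs (lf (nat_lit 6) (nat_lit 247)) (nd (nat_lit 292) (nat_lit 0) (cs (nd (nat_lit 294) (nat_lit 0) (cs (lf (nat_lit 18) (nat_lit 269)) (nd (nat_lit 314) (nat_lit 0) (cs (lf (nat_lit 30) (nat_lit 248)) (nd (nat_lit 313) (nat_lit 0) (cs (lf (nat_lit 41) (nat_lit 247)) (rf (nat_lit 4)))))))) (cs (nd (nat_lit 314) (nat_lit 0) (cs (lf (nat_lit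 30) (nat_lit 248)) (rf (nat_lit 5)))) (nd (nat_lit 226) (nat_lit 0) (cs (lf (nat_lit 24) (nat_lit 204)) (nd (nat_lit 294) (nat_lit 0) (cs (lf (nat_lit 18) (nat_lit 269)) (rf (nat_lit 6))))))))))))) (cs (nd (nat_lit 272) (nat_lit 0) (cs (rf (nat_lit 7)) (cs (nd (nat_lit 269) (nat_lit 0) (cs (lf (nat_lit 12) (nat_lit 246)) (nd (nat_lit 206) (nat_lit 0) (cs (lf (nat_lit 37) (nat_lit 205)) (rf (nat_lit 8)))))) (rf (nat_lit 9))))) (nd (nat_lit 248) (nat_lit 0) (cs (rf (nat_lit 10)) (cs (nd (nat_lit 226) (nat_lit 0) (cs (lf (nat_lit 24) (nat_lit 204)) (nd (nat_lit 225) (nat_lit 0) (cs (lf (nat_lit 18) (nat_lit 225)) (nd (nat_lit 223) (nat_lit 0) (cs (lf (nat_lit 1) (nat_lit 223)) (nd (nat_lit 292) (nat_lit 0) (cs (lf (nat_lit 47) (nat_lit 203)) (nd (nat_lit 314) (nat_lit 0) (cs (lf (nat_lit 30) (nat_lit 248)) (rf (nat_lit 11)))))))))))) (cs (rf (nat_lit 12)) (nd (nat_lit 292) (nat_lit 0) (cs (rf (nat_lit 13))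 (cs (nd (nat_lit 273) (nat_lit 0) (cs (rf (nat_lit 14)) (cs (rf (nat_lit 15)) (nd (nat_lit 295) (nat_lit 0) (cs (nd (nat_lit 274) (nat_lit 0) (cs (lf (nat_lit 3) (nat_lit 248)) (lf (nat_lit 14) (nat_lit 270)))) (cs (nd (nat_lit 314) (nat_lit 0) (cs (lf (nat_lit 30) (nat_lit 248)) (nd (nat_lit 251) (nat_lit 0) (cs (lf (nat_lit 5) (nat_lit 248)) (nd (nat_lit 313) (nat_lit 0) (cs (lf (nat_lit 41) (nat_lit 247)) (nd (nat_lit 311) (nat_lit 0) (cs (lf (nat_lit 13) (nat_lit 289)) (rf (nat_lit 16)))))))))) (nd (nat_lit 204) (nat_lit 0) (cs (lf (nat_lit 25) (nat_lit 204)) (nd (nat_lit 314) (nat_lit 0) (cs (lf (nat_lit 30) (nat_lit 248)) (nd (nat_lit 294) (nat_lit 0) (cs (lf (nat_lit 11) (nat_lit 291)) (lf (nat_lit 18) (nat_lit 270)))))))))))))) (cs (nd (nat_lit 226) (nat_lit 0) (cs (lf (nat_lit 24) (nat_lit 204)) (rf (nat_lit 17)))) (nd (nat_lit 273) (nat_lit 0) (cs (rf (nat_lit 14)) (cs (rf (nat_lit 15)) (nd (nat_lit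 295) (nat_lit 0) (cs (nd (nat_lit 204) (nat_lit 0) (cs (lf (nat_lit 25) (nat_lit 204)) (nd (nat_lit 314) (nat_lit 0) (cs (lf (nat_lit 30) (nat_lit 248)) (nd (nat_lit 294) (nat_lit 0) (cs (lf (nat_lit 18) (nat_lit 270)) (nd (nat_lit 317) (nat_lit 0) (cs (lf (nat_lit 5) (nat_lit 292)) (nd (nat_lit 316) (nat_lit 0) (cs (lf (nat_lit 0) (nat_lit 291)) (nd (nat_lit 251) (nat_lit 0) (cs (lf (nat_lit 41) (nat_lit 250)) (lf (nat_lit 47) (nat_lit 228)))))))))))))) (cs (nd (nat_lit 204) (nat_lit 0) (cs (lf (nat_lit 25) (nat_lit 204)) (nd (nat_lit 314) (nat_lit 0) (cs (lf (nat_lit 30) (nat_lit 248)) (nd (nat_lit 251) (nat_lit 0) (cs (lf (nat_lit 5) (nat_lit 248)) (rf (nat_lit 16)))))))) (nd (nat_lit 294) (nat_lit 0) (cs (lf (nat_lit 17) (nat_lit 270)) (lf (nat_lit 18) (nat_lit 270)))))))))))))))))))))))))) q65947 (by decide +kernel)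
def q66016 : Q := Q.p (nat_lit 0x24000000000100000c0000000000000000000000000000000000000000000000) (nat_lit 0x6140018300079c003c7001f3c003ff0007fc001ff0007fc00058000020000000000000) (nat_lit 15)
theorem c66016 : QOK q66016 := cut [q57722, q57795, q57824, q57907, q57932, q57724, q57732, q65987, q19728, q4891, q19155, q19697, q65990, q18440, q20002, q57778, q57791, q18163, q57754, q57773, q57751, q61023, q61450, q61455, q61464, q12091, q61446, q2647, q19504, q61479, q9266, q57827, q57836] ⟨c57722, c57795, c57824, c57907, c57932, c57724, c57732, c65987, c19728, c4891, c19155, c19697, c65990, c18440, c20002, c57778, c57791, c18163, c57754, c57773, c57751, c61023, c61450, c61455, c61464, c12091, c61446, c2647, c19504, c61479, c9266, c57827, c57836, trivial⟩ (nd (nat_lit 188) (nat_lit 0) (cs (rf (nat_lit 0)) (cs (rf (nat_lit 1)) (cs (rf (nat_lit 2)) (cs (rf (nat_lit 3)) (cs (rf (nat_lit 4)) (cs (nd (nat_lit 185)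 (nat_lit 0) (cs (rf (nat_lit 5)) (cs (rf (nat_lit 6)) (cs (rf (nat_lit 7)) (cs (nd (nat_lit 162) (nat_lit 0) (cs (lf (nat_lit 22) (nat_lit 162)) (nd (nat_lit 184) (nat_lit 0) (cs (lf (nat_lit 23) (nat_lit 161)) (rf (nat_lit 8)))))) (nd (nat_lit 184) (nat_lit 0) (cs (rf (nat_lit 9)) (cs (rf (nat_lit 10)) (cs (rf (nat_lit 11)) (nd (nat_lit 210) (nat_lit 0) (cs (lf (nat_lit 5) (nat_lit 185)) (nd (nat_lit 205) (nat_lit 0) (cs (lf (nat_lit 10) (nat_lit 183)) (nd (nat_lit 183) (nat_lit 0) (cs (lf (nat_lit 11) (nat_lit 182)) (nd (nat_lit 164) (nat_lit 0) (cs (lf (nat_lit 17) (nat_lit 161)) (nd (nat_lit 163) (nat_lit 0) (cs (lf (nat_lit 12) (nat_lit 160)) (nd (nat_lit 119) (nat_lit 0) (cs (lf (nat_lit 25) (nat_lit 119)) (rf (nat_lit 12))))))))))))))))))))))) (cs (nd (nat_lit 164) (nat_lit 0) (cs (rf (nat_lit 13)) (cs (rf (nat_lit 14)) (cs (rf (nat_lit 15)) (cs (rf (nat_lit 16)) (nd (nat_lit 142) (nat_lit 0) (cs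 (rf (nat_lit 17)) (cs (rf (nat_lit 18)) (cs (rf (nat_lit 19)) (nd (nat_lit 165) (nat_lit 0) (cs (rf (nat_lit 20)) (cs (rf (nat_lit 21)) (nd (nat_lit 141) (nat_lit 0) (cs (lf (nat_lit 47) (nat_lit 119)) (nd (nat_lit 161) (nat_lit 0) (cs (rf (nat_lit 22)) (cs (nd (nat_lit 143) (nat_lit 0) (cs (lf (nat_lit 35) (nat_lit 120)) (nd (nat_lit 139) (nat_lit 0) (cs (lf (nat_lit 1) (nat_lit 139)) (nd (nat_lit 183) (nat_lit 0) (cs (rf (nat_lit 23)) (cs (nd (nat_lit 184) (nat_lit 0) (cs (lf (nat_lit 14) (nat_lit 161)) (nd (nat_lit 206) (nat_lit 0) (cs (lf (nat_lit 24) (nat_lit 117)) (lf (nat_lit 43) (nat_lit 161)))))) (nd (nat_lit 205) (nat_lit 0) (cs (rf (nat_lit 24)) (nd (nat_lit 189) (nat_lit 0) (cs (rf (nat_lit 25)) (lf (nat_lit 18) (nat_lit 164))))))))))))) (nd (nat_lit 143) (nat_lit 0) (cs (lf (nat_lit 35) (nat_lit 120)) (rf (nat_lit 26))))))))))))))))))))) (nd (nat_lit 166) (nat_lit 0) (cs (rf (nat_lit 27)) (cs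 (rf (nat_lit 28)) (cs (rf (nat_lit 29)) (nd (nat_lit 163) (nat_lit 0) (cs (rf (nat_lit 30)) (cs (rf (nat_lit 31)) (cs (rf (nat_lit 32)) (nd (nat_lit 162) (nat_lit 0) (cs (lf (nat_lit 21) (nat_lit 162)) (nd (nat_lit 164) (nat_lit 0) (cs (lf (nat_lit 0) (nat_lit 161)) (lf (nat_lit 18) (nat_lit 163)))))))))))))))))))))) q66016 (by decide +kernel)
def q66044 : Q := Q.p (nat_lit 0x8000020000000000100001c0000000000000000000000000000000000000000000000) (nat_lit 0x20000180000780001e0000600001c00003e0000e000000000000000000000000000000) (nat_lit 10)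
theorem c66044 : QOK q66044 := cut [q58027] ⟨c58027, trivial⟩ (nd (nat_lit 209) (nat_lit 0) (cs (lf (nat_lit 44) (nat_lit 186)) (rf (nat_lit 0)))) q66044 (by decide +kernel)
def q66091 : Q := Q.p (nat_lit 0x4000000000100000c0000000000000000000000000000000000000000000000) (nat_lit 0x80000310007e7001f38007ff0007e0001f8000780000c0000000000000000000) (nat_lit 13)
theorem c66091 : QOK q66091 := cut [q58033, q66083, q9201, q19155, q8792, q19728, q58038, q66090] ⟨c58033, c66083, c9201, c19155, c8792, c19728, c58038, c66090, trivial⟩ (nd (nat_lit 185) (nat_lit 0) (cs (rf (nat_lit 0)) (cs (rf (nat_lit 1)) (cs (nd (nat_lit 184) (nat_lit 0) (cs (rf (nat_lit 2)) (cs (rf (nat_lit 3)) (nd (nat_lit 162) (nat_lit 0) (cs (lf (nat_lit 23) (nat_lit 161)) (rf (nat_lit 4))))))) (cs (nd (nat_lit 184) (nat_lit 0) (cs (rf (nat_lit 2)) (cs (rf (nat_lit 5)) (nd (nat_lit 205) (nat_lit 0) (cs (lf (nat_lit 10) (nat_lit 183)) (nd (nat_lit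 210) (nat_lit 0) (cs (lf (nat_lit 4) (nat_lit 184)) (nd (nat_lit 166) (nat_lit 0) (cs (lf (nat_lit 16) (nat_lit 162)) (rf (nat_lit 6))))))))))) (rf (nat_lit 7))))))) q66091 (by decide +kernel)
def q66164 : Q := Q.p (nat_lit 0x8000020000000000100000c0000000000000000000000000000000000000000000000) (nat_lit 0x60000180000780003e0000700003ff000ff8007ff000680000a0000000000000000000) (nat_lit 15)
theorem c66164 : QOK q66164 := cut [q57824, q58027, q58221, q58265, q66122, q7989, q20766, q57823, q58237, q58220, q58258, q66027, q58192, q66025, q8269, q66050, q66055, q18440, q58224, q58272, q58281, q10427, q58187, q58273, q58242] ⟨c57824, c58027, c58221, c58265, c66122, c7989, c20766, c57823, c58237, c58220, c58258, c66027, c58192, c66025, c8269, c66050, c66055, c18440, c58224, c58272, c58281, c10427, c58187, c58273, c58242, trivial⟩ (nd (nat_lit 209) (nat_lit 0) (cs (lf (nat_lit 44) (nat_lit 186)) (nd (nat_lit 188)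 (nat_lit 0) (cs (rf (nat_lit 0)) (cs (rf (nat_lit 1)) (cs (rf (nat_lit 2)) (cs (rf (nat_lit 3)) (cs (rf (nat_lit 4)) (cs (nd (nat_lit 189) (nat_lit 0) (cs (rf (nat_lit 5)) (cs (rf (nat_lit 6)) (cs (rf (nat_lit 7)) (nd (nat_lit 164) (nat_lit 0) (cs (lf (nat_lit 23) (nat_lit 163)) (nd (nat_lit 167) (nat_lit 0) (cs (lf (nat_lit 17) (nat_lit 164)) (nd (nat_lit 211) (nat_lit 0) (cs (lf (nat_lit 5) (nat_lit 186)) (rf (nat_lit 8)))))))))))) (cs (nd (nat_lit 143) (nat_lit 0) (cs (rf (nat_lit 9)) (cs (rf (nat_lit 10)) (cs (rf (nat_lit 11)) (nd (nat_lit 165) (nat_lit 0) (cs (rf (nat_lit 12)) (cs (rf (nat_lit 13)) (cs (nd (nat_lit 189) (nat_lit 0) (cs (lf (nat_lit 6) (nat_lit 186)) (nd (nat_lit 163) (nat_lit 0) (cs (lf (nat_lit 22) (nat_lit 163)) (nd (nat_lit 120) (nat_lit 0) (cs (lf (nat_lit 46) (nat_lit 120)) (nd (nat_lit 210) (nat_lit 0) (cs (lf (nat_lit 29) (nat_lit 143)) (nd (nat_lit 211) (nat_lit 0) (cs (lf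 (nat_lit 18) (nat_lit 186)) (rf (nat_lit 14)))))))))))) (nd (nat_lit 142) (nat_lit 0) (cs (lf (nat_lit 47) (nat_lit 120)) (nd (nat_lit 141) (nat_lit 0) (cs (rf (nat_lit 15)) (cs (rf (nat_lit 16)) (cs (nd (nat_lit 210) (nat_lit 0) (cs (lf (nat_lit 29) (nat_lit 143)) (nd (nat_lit 189) (nat_lit 0) (cs (lf (nat_lit 6) (nat_lit 186)) (nd (nat_lit 211) (nat_lit 0) (cs (lf (nat_lit 5) (nat_lit 186)) (nd (nat_lit 144) (nat_lit 0) (cs (lf (nat_lit 35) (nat_lit 121)) (nd (nat_lit 233) (nat_lit 0) (cs (lf (nat_lit 5) (nat_lit 208)) (nd (nat_lit 162) (nat_lit 0) (cs (lf (nat_lit 10) (nat_lit 140)) (nd (nat_lit 118) (nat_lit 0) (cs (lf (nat_lit 22) (nat_lit 118)) (nd (nat_lit 140) (nat_lit 0) (cs (lf (nat_lit 11) (nat_lit 139)) (lf (nat_lit 23) (nat_lit 117)))))))))))))))))) (nd (nat_lit 210) (nat_lit 0) (cs (lf (nat_lit 29) (nat_lit 143)) (nd (nat_lit 211) (nat_lit 0) (cs (lf (nat_lit 18) (nat_lit 186)) (nd (nat_lit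 233) (nat_lit 0) (cs (lf (nat_lit 5) (nat_lit 208)) (nd (nat_lit 255) (nat_lit 0) (cs (lf (nat_lit 42) (nat_lit 188)) (nd (nat_lit 189) (nat_lit 0) (cs (lf (nat_lit 17) (nat_lit 186)) (nd (nat_lit 164) (nat_lit 0) (cs (lf (nat_lit 47) (nat_lit 119)) (lf (nat_lit 23) (nat_lit 163)))))))))))))))))))))))))))) (nd (nat_lit 164) (nat_lit 0) (cs (rf (nat_lit 17)) (cs (rf (nat_lit 18)) (cs (rf (nat_lit 19)) (cs (rf (nat_lit 20)) (nd (nat_lit 143) (nat_lit 0) (cs (rf (nat_lit 21)) (cs (rf (nat_lit 9)) (nd (nat_lit 144) (nat_lit 0) (cs (rf (nat_lit 22)) (cs (nd (nat_lit 142) (nat_lit 0) (cs (lf (nat_lit 24) (nat_lit 120)) (nd (nat_lit 119) (nat_lit 0) (cs (lf (nat_lit 46) (nat_lit 119)) (nd (nat_lit 165) (nat_lit 0) (cs (lf (nat_lit 35) (nat_lit 121)) (nd (nat_lit 145) (nat_lit 0) (cs (lf (nat_lit 6) (nat_lit 142)) (nd (nat_lit 167) (nat_lit 0) (cs (lf (nat_lit 5) (nat_lit 142)) (nd (nat_lit 210) (nat_lit 0) (cs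 (lf (nat_lit 29) (nat_lit 143)) (nd (nat_lit 123) (nat_lit 0) (cs (lf (nat_lit 17) (nat_lit 120)) (lf (nat_lit 39) (nat_lit 122)))))))))))))))) (cs (nd (nat_lit 142) (nat_lit 0) (cs (lf (nat_lit 24) (nat_lit 120)) (rf (nat_lit 23)))) (nd (nat_lit 142) (nat_lit 0) (cs (lf (nat_lit 24) (nat_lit 120)) (nd (nat_lit 122) (nat_lit 0) (cs (lf (nat_lit 38) (nat_lit 121)) (rf (nat_lit 24)))))))))))))))))))))))))))) q66164 (by decide +kernel)
def q66196 : Q := Q.p (nat_lit 0x8000024000000000100000c0000000000000000000000000000000000000000000000) (nat_lit 0x298001a6000738003ff0007fc003ff0000e000018000020000000000000) (nat_lit 13)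
theorem c66196 : QOK q66196 := cut [q58399, q58412, q58421, q58426, q58429, q58436, q61509, q10455, q20054, q2879, q20055, q58309, q5711, q66177, q4866, q18163, q20080, q57787, q58397, q66181, q58437] ⟨c58399, c58412, c58421, c58426, c58429, c58436, c61509, c10455, c20054, c2879, c20055, c58309, c5711, c66177, c4866, c18163, c20080, c57787, c58397, c66181, c58437, trivial⟩ (nd (nat_lit 209) (nat_lit 0) (cs (lf (nat_lit 44) (nat_lit 186)) (nd (nat_lit 164) (nat_lit 0) (cs (rf (nat_lit 0)) (cs (rf (nat_lit 1)) (cs (rf (nat_lit 2)) (cs (rf (nat_lit 3)) (cs (rf (nat_lit 4)) (cs (rf (nat_lit 5)) (cs (rf (nat_lit 6)) (nd (nat_lit 163) (nat_lit 0) (cs (rf (nat_lit 7)) (cs (rf (nat_lit 8)) (cs (nd (nat_lit 141) (nat_lit 0) (cs (rf (nat_lit 9)) (cs (rf (nat_lit 10)) (nd (nat_lit 166) (nat_lit 0) (cs (nd (nat_lit 188) (nat_lit 0) (cs (lf (nat_lit 18) (nat_lit 163)) (nd (nat_lit 185) (nat_lit 0) (cs (lf (nat_lit 17)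 (nat_lit 163)) (rf (nat_lit 11)))))) (nd (nat_lit 140) (nat_lit 0) (cs (lf (nat_lit 19) (nat_lit 140)) (nd (nat_lit 139) (nat_lit 0) (cs (lf (nat_lit 0) (nat_lit 138)) (nd (nat_lit 142) (nat_lit 0) (cs (lf (nat_lit 24) (nat_lit 120)) (nd (nat_lit 160) (nat_lit 0) (cs (lf (nat_lit 10) (nat_lit 138)) (nd (nat_lit 143) (nat_lit 0) (cs (lf (nat_lit 35) (nat_lit 120)) (rf (nat_lit 12))))))))))))))))) (cs (nd (nat_lit 120) (nat_lit 0) (cs (lf (nat_lit 25) (nat_lit 120)) (nd (nat_lit 188) (nat_lit 0) (cs (lf (nat_lit 18) (nat_lit 163)) (rf (nat_lit 13)))))) (nd (nat_lit 142) (nat_lit 0) (cs (rf (nat_lit 14)) (cs (rf (nat_lit 15)) (cs (rf (nat_lit 16)) (cs (rf (nat_lit 17)) (nd (nat_lit 165) (nat_lit 0) (cs (rf (nat_lit 18)) (cs (nd (nat_lit 162) (nat_lit 0) (cs (lf (nat_lit 0) (nat_lit 161)) (nd (nat_lit 121) (nat_lit 0) (cs (lf (nat_lit 34) (nat_lit 120)) (nd (nat_lit 139) (nat_lit 0) (cs (lf (nat_lit 22) (nat_lit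 139)) (rf (nat_lit 19)))))))) (cs (nd (nat_lit 162) (nat_lit 0) (cs (lf (nat_lit 0) (nat_lit 161)) (nd (nat_lit 141) (nat_lit 0) (cs (lf (nat_lit 47) (nat_lit 119)) (nd (nat_lit 140) (nat_lit 0) (cs (lf (nat_lit 0) (nat_lit 139)) (nd (nat_lit 121) (nat_lit 0) (cs (lf (nat_lit 34) (nat_lit 120)) (rf (nat_lit 20)))))))))) (nd (nat_lit 162) (nat_lit 0) (cs (lf (nat_lit 0) (nat_lit 161)) (nd (nat_lit 121) (nat_lit 0) (cs (lf (nat_lit 37) (nat_lit 120)) (nd (nat_lit 119) (nat_lit 0) (cs (lf (nat_lit 46) (nat_lit 119)) (rf (nat_lit 19)))))))))))))))))))))))))))))))) q66196 (by decide +kernel)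
def q66380 : Q := Q.p (nat_lit 0x8000024000000000100000c0000000000000000000000000000000000000000000000) (nat_lit 0xa00007c0009300035c00fe7001f38007ef000ffe007ff0003fc000e8000180000000000000) (nat_lit 15)
theorem c66380 : QOK q66380 := cut [q66083, q66213, q66217, q66265, q19161, q7508, q19513, q20047, q66356, q19172, q66262, q4979, q19155, q66375, q18913, q9201] ⟨c66083, c66213, c66217, c66265, c19161, c7508, c19513, c20047, c66356, c19172, c66262, c4979, c19155, c66375, c18913, c9201, trivial⟩ (nd (nat_lit 185) (nat_lit 0) (cs (rf (nat_lit 0)) (cs (rf (nat_lit 1)) (cs (nd (nat_lit 143) (nat_lit 0) (cs (rf (nat_lit 2)) (cs (rf (nat_lit 3)) (cs (nd (nat_lit 188) (nat_lit 0) (cs (rf (nat_lit 4)) (cs (nd (nat_lit 230) (nat_lit 0) (cs (lf (nat_lit 27) (nat_lit 186)) (nd (nat_lit 209) (nat_lit 0) (cs (lf (nat_lit 37) (nat_lit 142)) (rf (nat_lit 5)))))) (cs (nd (nat_lit 230) (nat_lit 0) (cs (lf (nat_lit 27) (nat_lit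 186)) (nd (nat_lit 211) (nat_lit 0) (cs (lf (nat_lit 4) (nat_lit 185)) (nd (nat_lit 162) (nat_lit 0) (cs (lf (nat_lit 22) (nat_lit 162)) (rf (nat_lit 6)))))))) (nd (nat_lit 166) (nat_lit 0) (cs (lf (nat_lit 17) (nat_lit 163)) (nd (nat_lit 162) (nat_lit 0) (cs (lf (nat_lit 22) (nat_lit 162)) (nd (nat_lit 230) (nat_lit 0) (cs (lf (nat_lit 27) (nat_lit 186)) (nd (nat_lit 165) (nat_lit 0) (cs (lf (nat_lit 39) (nat_lit 142)) (rf (nat_lit 7)))))))))))))) (cs (rf (nat_lit 8)) (nd (nat_lit 188) (nat_lit 0) (cs (rf (nat_lit 9)) (cs (nd (nat_lit 121) (nat_lit 0) (cs (lf (nat_lit 38) (nat_lit 120)) (nd (nat_lit 162) (nat_lit 0) (cs (lf (nat_lit 22) (nat_lit 162)) (nd (nat_lit 211) (nat_lit 0) (cs (lf (nat_lit 4) (nat_lit 185)) (rf (nat_lit 10)))))))) (cs (nd (nat_lit 121) (nat_lit 0) (cs (lf (nat_lit 38) (nat_lit 120)) (nd (nat_lit 162) (nat_lit 0) (cs (lf (nat_lit 22) (nat_lit 162)) (nd (nat_lit 166) (nat_lit 0)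 (cs (lf (nat_lit 17) (nat_lit 163)) (rf (nat_lit 11)))))))) (nd (nat_lit 162) (nat_lit 0) (cs (lf (nat_lit 22) (nat_lit 162)) (nd (nat_lit 210) (nat_lit 0) (cs (lf (nat_lit 5) (nat_lit 185)) (nd (nat_lit 165) (nat_lit 0) (cs (lf (nat_lit 24) (nat_lit 121)) (nd (nat_lit 232) (nat_lit 0) (cs (lf (nat_lit 45) (nat_lit 143)) (lf (nat_lit 27) (nat_lit 143))))))))))))))))))) (cs (nd (nat_lit 184) (nat_lit 0) (cs (rf (nat_lit 12)) (cs (rf (nat_lit 13)) (nd (nat_lit 166) (nat_lit 0) (cs (lf (nat_lit 16) (nat_lit 162)) (nd (nat_lit 162) (nat_lit 0) (cs (lf (nat_lit 23) (nat_lit 161)) (rf (nat_lit 14))))))))) (nd (nat_lit 184) (nat_lit 0) (cs (rf (nat_lit 15)) (rf (nat_lit 13))))))))) q66380 (by decide +kernel)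
def q66578 : Q := Q.p (nat_lit 0x8000020000000000100000c0000000000000000000000000000000000000000000000) (nat_lit 0x190000760007e7000f38007f7001ff8001fe000780001a0000000000000000000) (nat_lit 14)
theorem c66578 : QOK q66578 := cut [q57811, q66514, q7989, q8028, q19779, q66497, q66515, q66526, q66541, q8001, q66522, q66525, q7194, q9295, q9280, q8008, q19299, q58377, q66095, q66561, q66577] ⟨c57811, c66514, c7989, c8028, c19779, c66497, c66515, c66526, c66541, c8001, c66522, c66525, c7194, c9295, c9280, c8008, c19299, c58377, c66095, c66561, c66577, trivial⟩ (nd (nat_lit 188) (nat_lit 0) (cs (rf (nat_lit 0)) (cs (rf (nat_lit 1)) (cs (nd (nat_lit 189) (nat_lit 0) (cs (rf (nat_lit 2)) (cs (rf (nat_lit 3)) (cs (rf (nat_lit 4)) (nd (nat_lit 143) (nat_lit 0) (cs (rf (nat_lit 5)) (rf (nat_lit 6)))))))) (cs (rf (nat_lit 7)) (cs (rf (nat_lit 8)) (cs (nd (nat_lit 211) (nat_lit 0) (cs (rf (nat_lit 9)) (cs (rf (nat_lit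 10)) (cs (rf (nat_lit 11)) (nd (nat_lit 230) (nat_lit 0) (cs (lf (nat_lit 27) (nat_lit 186)) (nd (nat_lit 189) (nat_lit 0) (cs (lf (nat_lit 5) (nat_lit 186)) (nd (nat_lit 190) (nat_lit 0) (cs (lf (nat_lit 10) (nat_lit 186)) (nd (nat_lit 165) (nat_lit 0) (cs (lf (nat_lit 23) (nat_lit 164)) (nd (nat_lit 121) (nat_lit 0) (cs (lf (nat_lit 37) (nat_lit 120)) (nd (nat_lit 166) (nat_lit 0) (cs (lf (nat_lit 18) (nat_lit 165)) (nd (nat_lit 144) (nat_lit 0) (cs (lf (nat_lit 24) (nat_lit 122)) (nd (nat_lit 233) (nat_lit 0) (cs (lf (nat_lit 42) (nat_lit 166)) (lf (nat_lit 45) (nat_lit 144)))))))))))))))))))))) (cs (nd (nat_lit 165) (nat_lit 0) (cs (rf (nat_lit 12)) (cs (rf (nat_lit 13)) (cs (nd (nat_lit 189) (nat_lit 0) (cs (rf (nat_lit 2)) (cs (rf (nat_lit 14)) (nd (nat_lit 211) (nat_lit 0) (cs (lf (nat_lit 5) (nat_lit 186)) (nd (nat_lit 233) (nat_lit 0) (cs (nd (nat_lit 167) (nat_lit 0) (cs (lf (nat_lit 17) (nat_lit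 164)) (nd (nat_lit 166) (nat_lit 0) (cs (lf (nat_lit 42) (nat_lit 166)) (lf (nat_lit 47) (nat_lit 144)))))) (cs (nd (nat_lit 230) (nat_lit 0) (cs (lf (nat_lit 30) (nat_lit 164)) (nd (nat_lit 166) (nat_lit 0) (cs (lf (nat_lit 42) (nat_lit 166)) (rf (nat_lit 15)))))) (nd (nat_lit 230) (nat_lit 0) (cs (lf (nat_lit 30) (nat_lit 164)) (nd (nat_lit 167) (nat_lit 0) (cs (lf (nat_lit 17) (nat_lit 164)) (rf (nat_lit 16)))))))))))))) (nd (nat_lit 143) (nat_lit 0) (cs (lf (nat_lit 36) (nat_lit 120)) (nd (nat_lit 189) (nat_lit 0) (cs (rf (nat_lit 2)) (cs (rf (nat_lit 14)) (nd (nat_lit 167) (nat_lit 0) (cs (lf (nat_lit 17) (nat_lit 164)) (nd (nat_lit 145) (nat_lit 0) (cs (rf (nat_lit 17)) (cs (rf (nat_lit 18)) (cs (nd (nat_lit 211) (nat_lit 0) (cs (lf (nat_lit 5) (nat_lit 186)) (nd (nat_lit 210) (nat_lit 0) (cs (lf (nat_lit 41) (nat_lit 144)) (nd (nat_lit 124) (nat_lit 0) (cs (lf (nat_lit 34) (nat_lit 123)) (nd (nat_lit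 144) (nat_lit 0) (cs (lf (nat_lit 47) (nat_lit 122)) (nd (nat_lit 166) (nat_lit 0) (cs (lf (nat_lit 29) (nat_lit 144)) (rf (nat_lit 19)))))))))))) (nd (nat_lit 211) (nat_lit 0) (cs (lf (nat_lit 5) (nat_lit 186)) (nd (nat_lit 124) (nat_lit 0) (cs (lf (nat_lit 34) (nat_lit 123)) (nd (nat_lit 102) (nat_lit 0) (cs (lf (nat_lit 33) (nat_lit 101)) (nd (nat_lit 144) (nat_lit 0) (cs (lf (nat_lit 47) (nat_lit 122)) (nd (nat_lit 166) (nat_lit 0) (cs (lf (nat_lit 42) (nat_lit 144)) (rf (nat_lit 19))))))))))))))))))))))))))) (rf (nat_lit 20)))))))))) q66578 (by decide +kernel)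
def q66937 : Q := Q.p (nat_lit 0x20000800002600000000010000040000000000000000000000000000000000000000000000) (nat_lit 0x780003e0001fc000ff801ddc0077780191c006df801e7000fbc0000e0000080000000000000000000000000000000000) (nat_lit 14)
theorem c66937 : QOK q66937 := cut [q66780, q66798, q58556, q66799, q66800, q66816, q66872, q25763, q66876, q66879, q66881, q66882, q66934, q60304, q58854, q45203, q66866, q52446] ⟨c66780, c66798, c58556, c66799, c66800, c66816, c66872, c25763, c66876, c66879, c66881, c66882, c66934, c60304, c58854, c45203, c66866, c52446, trivial⟩ (nd (nat_lit 294) (nat_lit 0) (cs (nd (nat_lit 295) (nat_lit 0) (cs (rf (nat_lit 0)) (cs (rf (nat_lit 1)) (cs (nd (nat_lit 292) (nat_lit 0) (cs (rf (nat_lit 2)) (cs (rf (nat_lit 3)) (nd (nat_lit 270) (nat_lit 0) (cs (lf (nat_lit 23) (nat_lit 269)) (nd (nat_lit 230) (nat_lit 0) (cs (lf (nat_lit 27) (nat_lit 186)) (nd (nat_lit 314) (nat_lit 0) (cs (lf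 (nat_lit 11) (nat_lit 291)) (nd (nat_lit 209) (nat_lit 0) (cs (lf (nat_lit 44) (nat_lit 186)) (nd (nat_lit 315) (nat_lit 0) (cs (lf (nat_lit 6) (nat_lit 292)) (rf (nat_lit 4))))))))))))))) (rf (nat_lit 5)))))) (cs (rf (nat_lit 6)) (cs (nd (nat_lit 274) (nat_lit 0) (cs (nd (nat_lit 209) (nat_lit 0) (cs (lf (nat_lit 44) (nat_lit 186)) (nd (nat_lit 272) (nat_lit 0) (cs (lf (nat_lit 20) (nat_lit 249)) (rf (nat_lit 7)))))) (cs (rf (nat_lit 8)) (rf (nat_lit 9))))) (cs (nd (nat_lit 295) (nat_lit 0) (cs (rf (nat_lit 0)) (cs (rf (nat_lit 1)) (cs (rf (nat_lit 10)) (nd (nat_lit 209) (nat_lit 0) (cs (lf (nat_lit 44) (nat_lit 186)) (rf (nat_lit 11)))))))) (cs (rf (nat_lit 12)) (cs (nd (nat_lit 272) (nat_lit 0) (cs (rf (nat_lit 7)) (cs (nd (nat_lit 273) (nat_lit 0) (cs (lf (nat_lit 19) (nat_lit 249)) (nd (nat_lit 247) (nat_lit 0) (cs (lf (nat_lit 1) (nat_lit 247)) (nd (nat_lit 230) (nat_lit 0) (cs (lf (nat_lit 27) (nat_lit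 186)) (nd (nat_lit 316) (nat_lit 0) (cs (lf (nat_lit 47) (nat_lit 227)) (nd (nat_lit 315) (nat_lit 0) (cs (lf (nat_lit 41) (nat_lit 249)) (rf (nat_lit 13)))))))))))) (nd (nat_lit 273) (nat_lit 0) (cs (lf (nat_lit 7) (nat_lit 271)) (nd (nat_lit 247) (nat_lit 0) (cs (lf (nat_lit 1) (nat_lit 247)) (nd (nat_lit 230) (nat_lit 0) (cs (lf (nat_lit 27) (nat_lit 186)) (rf (nat_lit 14))))))))))) (nd (nat_lit 272) (nat_lit 0) (cs (rf (nat_lit 7)) (cs (rf (nat_lit 15)) (cs (rf (nat_lit 16)) (nd (nat_lit 209) (nat_lit 0) (cs (lf (nat_lit 44) (nat_lit 186)) (rf (nat_lit 17))))))))))))))) q66937 (by decide +kernel)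
def q67098 : Q := Q.p (nat_lit 0x20000800002600000000010000040000000000000000000000000000000000000000000000) (nat_lit 0x22000088000f78001dc0017f80011c000df800e7c000bc000070000100000000000000000000000000000000000) (nat_lit 14)
theorem c67098 : QOK q67098 := cut [q66987, q61939, q66988, q66999, q67005, q61527, q67027, q67033, q67037, q45536, q57225, q67047, q67050, q56631, q66758, q67053, q67054, q67011, q67068, q67069, q67028, q56962, q67072, q62120, q59916, q67084, q67088, q67095] ⟨c66987, c61939, c66988, c66999, c67005, c61527, c67027, c67033, c67037, c45536, c57225, c67047, c67050, c56631, c66758, c67053, c67054, c67011, c67068, c67069, c67028, c56962, c67072, c62120, c59916, c67084, c67088, c67095, trivial⟩ (nd (nat_lit 227) (nat_lit 0) (cs (rf (nat_lit 0)) (cs (nd (nat_lit 209) (nat_lit 0) (cs (lf (nat_lit 44) (nat_lit 186)) (nd (nat_lit 294) (nat_lit 0) (cs (rf (nat_lit 1)) (cs (nd (nat_lit 230) (nat_lit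 0) (cs (lf (nat_lit 27) (nat_lit 186)) (rf (nat_lit 2)))) (cs (rf (nat_lit 3)) (rf (nat_lit 4)))))))) (cs (nd (nat_lit 209) (nat_lit 0) (cs (lf (nat_lit 44) (nat_lit 186)) (nd (nat_lit 271) (nat_lit 0) (cs (rf (nat_lit 5)) (cs (rf (nat_lit 6)) (cs (rf (nat_lit 7)) (rf (nat_lit 8)))))))) (cs (nd (nat_lit 272) (nat_lit 0) (cs (rf (nat_lit 9)) (cs (nd (nat_lit 230) (nat_lit 0) (cs (lf (nat_lit 27) (nat_lit 186)) (nd (nat_lit 273) (nat_lit 0) (cs (lf (nat_lit 19) (nat_lit 249)) (nd (nat_lit 247) (nat_lit 0) (cs (lf (nat_lit 1) (nat_lit 247)) (rf (nat_lit 10)))))))) (cs (nd (nat_lit 230) (nat_lit 0) (cs (lf (nat_lit 27) (nat_lit 186)) (rf (nat_lit 11)))) (cs (rf (nat_lit 12)) (nd (nat_lit 230) (nat_lit 0) (cs (lf (nat_lit 27) (nat_lit 186)) (rf (nat_lit 13))))))))) (cs (nd (nat_lit 271) (nat_lit 0) (cs (rf (nat_lit 5)) (cs (rf (nat_lit 14)) (cs (rf (nat_lit 15)) (rf (nat_lit 16)))))) (cs (nd (nat_lit 271) (nat_lit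 0) (cs (rf (nat_lit 17)) (cs (rf (nat_lit 16)) (cs (rf (nat_lit 18)) (rf (nat_lit 19)))))) (cs (nd (nat_lit 271) (nat_lit 0) (cs (rf (nat_lit 14)) (cs (rf (nat_lit 20)) (cs (rf (nat_lit 19)) (nd (nat_lit 292) (nat_lit 0) (cs (lf (nat_lit 41) (nat_lit 226)) (nd (nat_lit 291) (nat_lit 0) (cs (nd (nat_lit 209) (nat_lit 0) (cs (lf (nat_lit 44) (nat_lit 186)) (rf (nat_lit 21)))) (cs (rf (nat_lit 22)) (nd (nat_lit 294) (nat_lit 0) (cs (lf (nat_lit 29) (nat_lit 227)) (nd (nat_lit 312) (nat_lit 0) (cs (lf (nat_lit 10) (nat_lit 290)) (nd (nat_lit 272) (nat_lit 0) (cs (lf (nat_lit 17) (nat_lit 269)) (nd (nat_lit 209) (nat_lit 0) (cs (lf (nat_lit 44) (nat_lit 186)) (nd (nat_lit 204) (nat_lit 0) (cs (lf (nat_lit 46) (nat_lit 204)) (rf (nat_lit 23))))))))))))))))))))) (nd (nat_lit 271) (nat_lit 0) (cs (rf (nat_lit 24)) (cs (rf (nat_lit 17)) (cs (rf (nat_lit 19)) (nd (nat_lit 272) (nat_lit 0) (cs (rf (nat_lit 11)) (cs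 (rf (nat_lit 25)) (cs (nd (nat_lit 294) (nat_lit 0) (cs (rf (nat_lit 1)) (nd (nat_lit 209) (nat_lit 0) (cs (lf (nat_lit 44) (nat_lit 186)) (nd (nat_lit 206) (nat_lit 0) (cs (lf (nat_lit 37) (nat_lit 205)) (nd (nat_lit 204) (nat_lit 0) (cs (lf (nat_lit 46) (nat_lit 204)) (nd (nat_lit 292) (nat_lit 0) (cs (lf (nat_lit 41) (nat_lit 226)) (rf (nat_lit 26)))))))))))) (rf (nat_lit 27)))))))))))))))))) q67098 (by decide +kernel)
def q67157 : Q := Q.p (nat_lit 0x20000880002600000000010000040000000000000000000000000000000000000000000000) (nat_lit 0x700001e0001c000070000118000cc0002300000c000000000000000000000000000000000000000000000) (nat_lit 11)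
theorem c67157 : QOK q67157 := cut [q66776, q67109, q67148, q67155] ⟨c66776, c67109, c67148, c67155, trivial⟩ (nd (nat_lit 315) (nat_lit 0) (cs (rf (nat_lit 0)) (cs (rf (nat_lit 1)) (cs (rf (nat_lit 2)) (nd (nat_lit 209) (nat_lit 0) (cs (lf (nat_lit 44) (nat_lit 186)) (rf (nat_lit 3)))))))) q67157 (by decide +kernel)
def q67181 : Q := Q.p (nat_lit 0x8000020000800002600000000010000040000000000000000000000000000000000000000000000) (nat_lit 0x280000a0000f78001dc001770001100005400000000000000000000000000000000000000000000000000000000) (nat_lit 11)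
theorem c67181 : QOK q67181 := cut [q58755, q67166, q61925, q61983, q58556, q66799, q66815, q67170, q67178] ⟨c58755, c67166, c61925, c61983, c58556, c66799, c66815, c67170, c67178, trivial⟩ (nd (nat_lit 294) (nat_lit 0) (cs (rf (nat_lit 0)) (cs (rf (nat_lit 1)) (nd (nat_lit 295) (nat_lit 0) (cs (rf (nat_lit 2)) (cs (rf (nat_lit 3)) (cs (nd (nat_lit 292) (nat_lit 0) (cs (rf (nat_lit 4)) (cs (rf (nat_lit 5)) (cs (rf (nat_lit 6)) (nd (nat_lit 230) (nat_lit 0) (cs (lf (nat_lit 27) (nat_lit 186)) (rf (nat_lit 7)))))))) (nd (nat_lit 230) (nat_lit 0) (cs (lf (nat_lit 27) (nat_lit 186)) (rf (nat_lit 8))))))))))) q67181 (by decide +kernel)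
def q67193 : Q := Q.p (nat_lit 0x8000020000880002200000000010000040000000000000000000000000000000000000000000000) (nat_lit 0x3de000770001de000000001100004400000000000000000000000000000000000000000000000000000000) (nat_lit 9)
theorem c67193 : QOK q67193 := cut [q67188, q67190, q67191] ⟨c67188, c67190, c67191, trivial⟩ (nd (nat_lit 314) (nat_lit 0) (cs (lf (nat_lit 41) (nat_lit 248)) (nd (nat_lit 313) (nat_lit 0) (cs (rf (nat_lit 0)) (cs (rf (nat_lit 1)) (rf (nat_lit 2))))))) q67193 (by decide +kernel)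
def q67232 : Q := Q.p (nat_lit 0x20000880002600000000030000040000000000000000000000000000000000000000000000) (nat_lit 0x500001c00007000018000050000140001100004f0000700003c000040000000000000000000000000000000000000000) (nat_lit 11)
theorem c67232 : QOK q67232 := cut [q64507, q67217, q67222, q67227, q67230] ⟨c64507, c67217, c67222, c67227, c67230, trivial⟩ (nd (nat_lit 227) (nat_lit 0) (cs (rf (nat_lit 0)) (cs (rf (nat_lit 1)) (cs (nd (nat_lit 230) (nat_lit 0) (cs (lf (nat_lit 27) (nat_lit 186)) (rf (nat_lit 2)))) (cs (nd (nat_lit 294) (nat_lit 0) (cs (lf (nat_lit 29) (nat_lit 227)) (nd (nat_lit 230) (nat_lit 0) (cs (lf (nat_lit 27) (nat_lit 186)) (rf (nat_lit 3)))))) (nd (nat_lit 294) (nat_lit 0) (cs (lf (nat_lit 29) (nat_lit 227)) (rf (nat_lit 4))))))))) q67232 (by decide +kernel)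
def q67249 : Q := Q.p (nat_lit 0x20000800002600000000010000040000000000000000000000000000000000000000000000) (nat_lit 0x700003c0001dc0007c000118000dc000e70000b8000060000000000000000000000000000000000000000) (nat_lit 13)
theorem c67249 : QOK q67249 := cut [q61516, q66774, q66778, q66758, q66762, q66773, q67046, q67084, q61939, q59555, q67245] ⟨c61516, c66774, c66778, c66758, c66762, c66773, c67046, c67084, c61939, c59555, c67245, trivial⟩ (nd (nat_lit 209) (nat_lit 0) (cs (lf (nat_lit 44) (nat_lit 186)) (nd (nat_lit 271) (nat_lit 0) (cs (rf (nat_lit 0)) (cs (rf (nat_lit 1)) (cs (rf (nat_lit 2)) (nd (nat_lit 227) (nat_lit 0) (cs (rf (nat_lit 3)) (cs (rf (nat_lit 4)) (cs (rf (nat_lit 5)) (nd (nat_lit 272) (nat_lit 0) (cs (rf (nat_lit 6)) (cs (rf (nat_lit 7)) (cs (nd (nat_lit 294) (nat_lit 0) (cs (rf (nat_lit 8)) (nd (nat_lit 230) (nat_lit 0) (cs (lf (nat_lit 27) (nat_lit 186)) (nd (nat_lit 228) (nat_lit 0)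 (cs (lf (nat_lit 36) (nat_lit 205)) (nd (nat_lit 292) (nat_lit 0) (cs (lf (nat_lit 41) (nat_lit 226)) (nd (nat_lit 290) (nat_lit 0) (cs (lf (nat_lit 13) (nat_lit 268)) (nd (nat_lit 204) (nat_lit 0) (cs (lf (nat_lit 46) (nat_lit 204)) (rf (nat_lit 9)))))))))))))) (rf (nat_lit 10)))))))))))))))) q67249 (by decide +kernel)
def q67278 : Q := Q.p (nat_lit 0x20000800002600000000010000040000000000000000000000000000000000000000000000) (nat_lit 0x340001f0000ff001dd80077f00191c006df001e5000fb0000000000000000000000000000000000000000000000) (nat_lit 14)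
theorem c67278 : QOK q67278 := cut [q66774, q66778, q67105, q65860, q66780, q66798, q47441, q60881, q67128, q67259, q56523, q66873, q66879, q17066, q67272] ⟨c66774, c66778, c67105, c65860, c66780, c66798, c47441, c60881, c67128, c67259, c56523, c66873, c66879, c17066, c67272, trivial⟩ (nd (nat_lit 271) (nat_lit 0) (cs (rf (nat_lit 0)) (cs (rf (nat_lit 1)) (cs (rf (nat_lit 2)) (nd (nat_lit 294) (nat_lit 0) (cs (rf (nat_lit 3)) (cs (nd (nat_lit 295) (nat_lit 0) (cs (rf (nat_lit 4)) (cs (rf (nat_lit 5)) (nd (nat_lit 227) (nat_lit 0) (cs (lf (nat_lit 29) (nat_lit 227)) (nd (nat_lit 206) (nat_lit 0) (cs (lf (nat_lit 34) (nat_lit 205)) (nd (nat_lit 226) (nat_lit 0) (cs (lf (nat_lit 47) (nat_lit 204)) (nd (nat_lit 230) (nat_lit 0) (cs (lf (nat_lit 27) (nat_lit 186)) (nd (nat_lit 224) (nat_lit 0) (cs (lf (nat_lit 1) (nat_lit 224)) (nd (nat_lit 292) (nat_lit 0) (cs (lf (nat_lit 41) (nat_lit 226)) (nd (nat_lit 269)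 (nat_lit 0) (cs (lf (nat_lit 22) (nat_lit 269)) (nd (nat_lit 291) (nat_lit 0) (cs (lf (nat_lit 23) (nat_lit 268)) (rf (nat_lit 6))))))))))))))))))))) (cs (nd (nat_lit 272) (nat_lit 0) (cs (rf (nat_lit 7)) (cs (rf (nat_lit 8)) (cs (rf (nat_lit 9)) (nd (nat_lit 206) (nat_lit 0) (cs (lf (nat_lit 37) (nat_lit 205)) (nd (nat_lit 273) (nat_lit 0) (cs (lf (nat_lit 7) (nat_lit 271)) (nd (nat_lit 247) (nat_lit 0) (cs (lf (nat_lit 1) (nat_lit 247)) (nd (nat_lit 209) (nat_lit 0) (cs (lf (nat_lit 44) (nat_lit 186)) (nd (nat_lit 230) (nat_lit 0) (cs (lf (nat_lit 27) (nat_lit 186)) (rf (nat_lit 10)))))))))))))))) (nd (nat_lit 274) (nat_lit 0) (cs (rf (nat_lit 11)) (cs (rf (nat_lit 12)) (cs (nd (nat_lit 252) (nat_lit 0) (cs (lf (nat_lit 26) (nat_lit 186)) (nd (nat_lit 272) (nat_lit 0) (cs (lf (nat_lit 14) (nat_lit 249)) (nd (nat_lit 231) (nat_lit 0) (cs (lf (nat_lit 45) (nat_lit 186)) (nd (nat_lit 206) (nat_lit 0) (cs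 (lf (nat_lit 37) (nat_lit 205)) (nd (nat_lit 318) (nat_lit 0) (cs (lf (nat_lit 31) (nat_lit 230)) (nd (nat_lit 316) (nat_lit 0) (cs (rf (nat_lit 13)) (lf (nat_lit 42) (nat_lit 249)))))))))))))) (nd (nat_lit 272) (nat_lit 0) (cs (lf (nat_lit 8) (nat_lit 271)) (nd (nat_lit 206) (nat_lit 0) (cs (lf (nat_lit 37) (nat_lit 205)) (nd (nat_lit 209) (nat_lit 0) (cs (lf (nat_lit 44) (nat_lit 186)) (rf (nat_lit 14)))))))))))))))))))) q67278 (by decide +kernel)
def q67299 : Q := Q.p (nat_lit 0x20000880002600000000010000040000000000000000000000000000000000000000000000) (nat_lit 0x20000080000f70001d8001770001000005c00003000004000000000000000000000000000000000000000000000) (nat_lit 9)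
theorem c67299 : QOK q67299 := cut [q64507, q67027, q67053] ⟨c64507, c67027, c67053, trivial⟩ (nd (nat_lit 227) (nat_lit 0) (cs (rf (nat_lit 0)) (cs (rf (nat_lit 1)) (rf (nat_lit 2))))) q67299 (by decide +kernel)
def q67362 : Q := Q.p (nat_lit 0x20000800002600000000010000040000000000000000000000000000000000000000000000) (nat_lit 0x280000e0001ff003dd800777003910007fc001e2000400000000000000000000000000000000000000000000000) (nat_lit 12)
theorem c67362 : QOK q67362 := cut [q67166, q61925, q66816, q67338, q58556, q66799, q66815, q61787, q66881, q17589, q60881, q66866, q63948, q66873, q46683, q66971] ⟨c67166, c61925, c66816, c67338, c58556, c66799, c66815, c61787, c66881, c17589, c60881, c66866, c63948, c66873, c46683, c66971, trivial⟩ (nd (nat_lit 231) (nat_lit 0) (cs (lf (nat_lit 45) (nat_lit 186)) (nd (nat_lit 294) (nat_lit 0) (cs (rf (nat_lit 0)) (cs (nd (nat_lit 295) (nat_lit 0) (cs (rf (nat_lit 1)) (cs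 (rf (nat_lit 2)) (cs (rf (nat_lit 3)) (nd (nat_lit 292) (nat_lit 0) (cs (rf (nat_lit 4)) (cs (rf (nat_lit 5)) (cs (rf (nat_lit 6)) (nd (nat_lit 230) (nat_lit 0) (cs (lf (nat_lit 27) (nat_lit 186)) (nd (nat_lit 228) (nat_lit 0) (cs (lf (nat_lit 8) (nat_lit 227)) (nd (nat_lit 317) (nat_lit 0) (cs (lf (nat_lit 5) (nat_lit 292)) (nd (nat_lit 270) (nat_lit 0) (cs (lf (nat_lit 23) (nat_lit 269)) (nd (nat_lit 314) (nat_lit 0) (cs (lf (nat_lit 11) (nat_lit 291)) (nd (nat_lit 248) (nat_lit 0) (cs (lf (nat_lit 35) (nat_lit 226)) (nd (nat_lit 315) (nat_lit 0) (cs (lf (nat_lit 24) (nat_lit 226)) (lf (nat_lit 6) (nat_lit 292)))))))))))))))))))))))) (cs (nd (nat_lit 295) (nat_lit 0) (cs (rf (nat_lit 7)) (cs (rf (nat_lit 8)) (cs (rf (nat_lit 3)) (nd (nat_lit 230) (nat_lit 0) (cs (lf (nat_lit 27) (nat_lit 186)) (nd (nat_lit 274) (nat_lit 0) (cs (lf (nat_lit 15) (nat_lit 271)) (nd (nat_lit 228) (nat_lit 0) (cs (lf (nat_lit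 8) (nat_lit 227)) (nd (nat_lit 272) (nat_lit 0) (cs (lf (nat_lit 29) (nat_lit 228)) (rf (nat_lit 9)))))))))))))) (cs (nd (nat_lit 272) (nat_lit 0) (cs (rf (nat_lit 10)) (cs (nd (nat_lit 228) (nat_lit 0) (cs (lf (nat_lit 41) (nat_lit 227)) (rf (nat_lit 9)))) (rf (nat_lit 11))))) (cs (nd (nat_lit 230) (nat_lit 0) (cs (lf (nat_lit 27) (nat_lit 186)) (nd (nat_lit 228) (nat_lit 0) (cs (lf (nat_lit 8) (nat_lit 227)) (rf (nat_lit 12)))))) (nd (nat_lit 274) (nat_lit 0) (cs (rf (nat_lit 13)) (cs (nd (nat_lit 230) (nat_lit 0) (cs (lf (nat_lit 27) (nat_lit 186)) (nd (nat_lit 272) (nat_lit 0) (cs (lf (nat_lit 20) (nat_lit 249)) (nd (nat_lit 316) (nat_lit 0) (cs (lf (nat_lit 47) (nat_lit 227)) (rf (nat_lit 14)))))))) (nd (nat_lit 252) (nat_lit 0) (cs (lf (nat_lit 26) (nat_lit 186)) (rf (nat_lit 15))))))))))))))) q67362 (by decide +kernel)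
def q67497 : Q := Q.p (nat_lit 0x20000800002600000000010000040000000000000000000000000000000000000000000000) (nat_lit 0x20000080000f78001dc0017f80011c006ff801e3c00ebf00007c000150000000000000000000000000000000000) (nat_lit 14)
theorem c67497 : QOK q67497 := cut [q66987, q64507, q67027, q67053, q66782, q66981, q12030, q46572, q66985, q67374, q67485, q61939, q66988, q67005, q60899, q61764, q62120, q66941, q67496] ⟨c66987, c64507, c67027, c67053, c66782, c66981, c12030, c46572, c66985, c67374, c67485, c61939, c66988, c67005, c60899, c61764, c62120, c66941, c67496, trivial⟩ (nd (nat_lit 227) (nat_lit 0) (cs (rf (nat_lit 0)) (cs (nd (nat_lit 271) (nat_lit 0) (cs (rf (nat_lit 1)) (cs (rf (nat_lit 2)) (rf (nat_lit 3))))) (cs (nd (nat_lit 209) (nat_lit 0) (cs (lf (nat_lit 44) (nat_lit 186)) (nd (nat_lit 211) (nat_lit 0) (cs (rf (nat_lit 4)) (nd (nat_lit 205) (nat_lit 0) (cs (rf (nat_lit 5)) (nd (nat_lit 271) (nat_lit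 0) (cs (rf (nat_lit 6)) (rf (nat_lit 7)))))))))) (cs (nd (nat_lit 209) (nat_lit 0) (cs (lf (nat_lit 44) (nat_lit 186)) (nd (nat_lit 205) (nat_lit 0) (cs (rf (nat_lit 8)) (cs (nd (nat_lit 230) (nat_lit 0) (cs (lf (nat_lit 27) (nat_lit 186)) (nd (nat_lit 228) (nat_lit 0) (cs (lf (nat_lit 14) (nat_lit 205)) (nd (nat_lit 294) (nat_lit 0) (cs (lf (nat_lit 43) (nat_lit 205)) (nd (nat_lit 271) (nat_lit 0) (cs (lf (nat_lit 29) (nat_lit 227)) (rf (nat_lit 7)))))))))) (rf (nat_lit 9))))))) (cs (rf (nat_lit 10)) (cs (nd (nat_lit 209) (nat_lit 0) (cs (lf (nat_lit 44) (nat_lit 186)) (nd (nat_lit 211) (nat_lit 0) (cs (rf (nat_lit 4)) (nd (nat_lit 294) (nat_lit 0) (cs (rf (nat_lit 11)) (cs (rf (nat_lit 12)) (cs (rf (nat_lit 13)) (nd (nat_lit 292) (nat_lit 0) (cs (nd (nat_lit 316) (nat_lit 0) (cs (lf (nat_lit 26) (nat_lit 227)) (nd (nat_lit 230) (nat_lit 0) (cs (lf (nat_lit 27) (nat_lit 186)) (rf (nat_lit 14)))))) (cs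 (nd (nat_lit 291) (nat_lit 0) (cs (rf (nat_lit 15)) (cs (rf (nat_lit 16)) (rf (nat_lit 17))))) (nd (nat_lit 271) (nat_lit 0) (cs (lf (nat_lit 29) (nat_lit 227)) (lf (nat_lit 41) (nat_lit 226))))))))))))))) (rf (nat_lit 18))))))))) q67497 (by decide +kernel)
def q67608 : Q := Q.p (nat_lit 0x20000800002600000000010000040000000000000000000000000000000000000000000000) (nat_lit 0x500001c000070000fc0001dc0017c000118000fc0002300000c000000000000000000000000000000000000000000000) (nat_lit 13)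
theorem c67608 : QOK q67608 := cut [q67105, q67234, q67295, q66758, q67028, q67069, q61787, q67004, q47564, q61671] ⟨c67105, c67234, c67295, c66758, c67028, c67069, c61787, c67004, c47564, c61671, trivial⟩ (nd (nat_lit 271) (nat_lit 0) (cs (rf (nat_lit 0)) (cs (rf (nat_lit 1)) (cs (rf (nat_lit 2)) (nd (nat_lit 227) (nat_lit 0) (cs (rf (nat_lit 3)) (cs (rf (nat_lit 4)) (cs (rf (nat_lit 5)) (nd (nat_lit 209) (nat_lit 0) (cs (lf (nat_lit 44) (nat_lit 186)) (nd (nat_lit 294) (nat_lit 0) (cs (lf (nat_lit 29) (nat_lit 227)) (nd (nat_lit 295) (nat_lit 0) (cs (rf (nat_lit 6)) (cs (rf (nat_lit 7)) (cs (nd (nat_lit 230) (nat_lit 0) (cs (lf (nat_lit 27) (nat_lit 186)) (nd (nat_lit 228) (nat_lit 0) (cs (lf (nat_lit 14) (nat_lit 205)) (nd (nat_lit 272) (nat_lit 0) (cs (lf (nat_lit 29) (nat_lit 228)) (nd (nat_lit 204) (nat_lit 0) (cs (lf (nat_lit 46) (nat_lit 204)) (nd (nat_lit 270) (nat_lit 0) (cs (lf (nat_lit 18) (nat_lit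 270)) (rf (nat_lit 8)))))))))))) (nd (nat_lit 204) (nat_lit 0) (cs (lf (nat_lit 46) (nat_lit 204)) (nd (nat_lit 230) (nat_lit 0) (cs (lf (nat_lit 27) (nat_lit 186)) (nd (nat_lit 228) (nat_lit 0) (cs (lf (nat_lit 14) (nat_lit 205)) (nd (nat_lit 272) (nat_lit 0) (cs (lf (nat_lit 29) (nat_lit 228)) (rf (nat_lit 9)))))))))))))))))))))))))) q67608 (by decide +kernel)
def q67620 : Q := Q.p (nat_lit 0x20000800002600000000010000040000000000000000000000000000000000000000000000) (nat_lit 0x500003c0000f0000ff0001d80017f00010000ef8001e3000ebc000070000000000000000000000000000000000000000) (nat_lit 12)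
theorem c67620 : QOK q67620 := cut [q67295, q67524, q67554, q66782, q67053, q67502, q63926, q63923, q67617] ⟨c67295, c67524, c67554, c66782, c67053, c67502, c63926, c63923, c67617, trivial⟩ (nd (nat_lit 271) (nat_lit 0) (cs (rf (nat_lit 0)) (cs (rf (nat_lit 1)) (cs (rf (nat_lit 2)) (nd (nat_lit 209) (nat_lit 0) (cs (lf (nat_lit 44) (nat_lit 186)) (nd (nat_lit 211) (nat_lit 0) (cs (rf (nat_lit 3)) (cs (nd (nat_lit 227) (nat_lit 0) (cs (rf (nat_lit 4)) (cs (rf (nat_lit 5)) (cs (nd (nat_lit 230) (nat_lit 0) (cs (lf (nat_lit 27) (nat_lit 186)) (nd (nat_lit 228) (nat_lit 0) (cs (lf (nat_lit 14) (nat_lit 205)) (rf (nat_lit 6)))))) (nd (nat_lit 230) (nat_lit 0) (cs (lf (nat_lit 27) (nat_lit 186)) (nd (nat_lit 294) (nat_lit 0) (cs (lf (nat_lit 29) (nat_lit 227)) (nd (nat_lit 205) (nat_lit 0) (cs (lf (nat_lit 28) (nat_lit 205)) (nd (nat_lit 182) (nat_lit 0) (cs (lf (nat_lit 46) (nat_lit 182)) (nd (nat_lit 228) (nat_lit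 0) (cs (lf (nat_lit 14) (nat_lit 205)) (rf (nat_lit 7)))))))))))))))) (rf (nat_lit 8))))))))))) q67620 (by decide +kernel)
def q67623 : Q := Q.p (nat_lit 0x20000800002600000000010000040000000000000000000000000000000000000000000000) (nat_lit 0x700001c0000700003c0001dc0007f0000180009c00023000004000000000000000000000000000000000000000000000) (nat_lit 14)
theorem c67623 : QOK q67623 := cut [q67105, q67296, q67524, q67570, q67621, q67622] ⟨c67105, c67296, c67524, c67570, c67621, c67622, trivial⟩ (nd (nat_lit 271) (nat_lit 0) (cs (rf (nat_lit 0)) (cs (rf (nat_lit 1)) (cs (rf (nat_lit 2)) (cs (rf (nat_lit 3)) (cs (rf (nat_lit 4)) (rf (nat_lit 5)))))))) q67623 (by decide +kernel)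
def q68124 : Q := Q.p (nat_lit 0x600000800000000000000000000000000000000000000000000000000000000) (nat_lit 0x100000700001c00007c0001f00001c000160000700000c0000700001c0000500000000000000000000000000000) (nat_lit 10)
theorem c68124 : QOK q68124 := cut [q40988, q56640, q56953, q56952, q64468, q3436, q68123] ⟨c40988, c56640, c56953, c56952, c64468, c3436, c68123, trivial⟩ (nd (nat_lit 205) (nat_lit 0) (cs (rf (nat_lit 0)) (cs (rf (nat_lit 1)) (cs (rf (nat_lit 2)) (cs (nd (nat_lit 270) (nat_lit 0) (cs (nd (nat_lit 271) (nat_lit 0) (cs (lf (nat_lit 41) (nat_lit 204)) (nd (nat_lit 182) (nat_lit 0) (cs (lf (nat_lit 46) (nat_lit 182)) (nd (nat_lit 183) (nat_lit 0) (cs (lf (nat_lit 40) (nat_lit 182)) (lf (nat_lit 47) (nat_lit 160)))))))) (cs (nd (nat_lit 183) (nat_lit 0) (cs (lf (nat_lit 40) (nat_lit 182)) (rf (nat_lit 3)))) (cs (nd (nat_lit 271) (nat_lit 0) (cs (lf (nat_lit 41) (nat_lit 204)) (nd (nat_lit 268) (nat_lit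 0) (cs (lf (nat_lit 13) (nat_lit 246)) (nd (nat_lit 204) (nat_lit 0) (cs (lf (nat_lit 47) (nat_lit 182)) (nd (nat_lit 293) (nat_lit 0) (cs (lf (nat_lit 46) (nat_lit 204)) (rf (nat_lit 4)))))))))) (nd (nat_lit 271) (nat_lit 0) (cs (lf (nat_lit 41) (nat_lit 204)) (nd (nat_lit 268) (nat_lit 0) (cs (lf (nat_lit 13) (nat_lit 246)) (nd (nat_lit 183) (nat_lit 0) (cs (rf (nat_lit 5)) (lf (nat_lit 40) (nat_lit 182)))))))))))) (rf (nat_lit 6))))))) q68124 (by decide +kernel)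
def q68288 : Q := Q.p (nat_lit 0x800002600000000010000040000000000000000000000000000000000000000000000) (nat_lit 0x8000060000380003f80007f0001fc0007f80011c000ff8002780000e000000000000000000000000000000000000000000000) (nat_lit 15)
theorem c68288 : QOK q68288 := cut [q44592, q44591, q68198, q65706, q68195, q68264, q25763, q66866, q68265, q68275, q68282, q15806, q68261, q52292, q45203, q68284] ⟨c44592, c44591, c68198, c65706, c68195, c68264, c25763, c66866, c68265, c68275, c68282, c15806, c68261, c52292, c45203, c68284, trivial⟩ (nd (nat_lit 231) (nat_lit 0) (cs (lf (nat_lit 45) (nat_lit 186)) (nd (nat_lit 272) (nat_lit 0) (cs (nd (nat_lit 273) (nat_lit 0) (cs (lf (nat_lit 19) (nat_lit 249)) (nd (nat_lit 247) (nat_lit 0) (cs (lf (nat_lit 1) (nat_lit 247)) (nd (nat_lit 230) (nat_lit 0) (cs (lf (nat_lit 27) (nat_lit 186)) (nd (nat_lit 228) (nat_lit 0) (cs (lf (nat_lit 8) (nat_lit 227)) (nd (nat_lit 206) (nat_lit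 0) (cs (lf (nat_lit 29) (nat_lit 206)) (nd (nat_lit 271) (nat_lit 0) (cs (lf (nat_lit 41) (nat_lit 205)) (nd (nat_lit 205) (nat_lit 0) (cs (lf (nat_lit 47) (nat_lit 183)) (nd (nat_lit 227) (nat_lit 0) (cs (lf (nat_lit 42) (nat_lit 205)) (nd (nat_lit 182) (nat_lit 0) (cs (lf (nat_lit 46) (nat_lit 182)) (rf (nat_lit 0)))))))))))))))))))) (cs (nd (nat_lit 273) (nat_lit 0) (cs (lf (nat_lit 19) (nat_lit 249)) (nd (nat_lit 271) (nat_lit 0) (cs (nd (nat_lit 230) (nat_lit 0) (cs (lf (nat_lit 27) (nat_lit 186)) (nd (nat_lit 228) (nat_lit 0) (cs (lf (nat_lit 8) (nat_lit 227)) (nd (nat_lit 206) (nat_lit 0) (cs (lf (nat_lit 41) (nat_lit 205)) (lf (nat_lit 29) (nat_lit 206)))))))) (cs (nd (nat_lit 247) (nat_lit 0) (cs (lf (nat_lit 1) (nat_lit 247)) (nd (nat_lit 230) (nat_lit 0) (cs (lf (nat_lit 27) (nat_lit 186)) (nd (nat_lit 228) (nat_lit 0) (cs (lf (nat_lit 8) (nat_lit 227)) (nd (nat_lit 295) (nat_lit 0) (cs (lf (nat_lit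 24) (nat_lit 206)) (nd (nat_lit 317) (nat_lit 0) (cs (lf (nat_lit 42) (nat_lit 250)) (nd (nat_lit 270) (nat_lit 0) (cs (lf (nat_lit 5) (nat_lit 270)) (rf (nat_lit 1)))))))))))))) (cs (nd (nat_lit 247) (nat_lit 0) (cs (lf (nat_lit 1) (nat_lit 247)) (rf (nat_lit 2)))) (nd (nat_lit 270) (nat_lit 0) (cs (rf (nat_lit 3)) (rf (nat_lit 4)))))))))) (cs (rf (nat_lit 5)) (cs (nd (nat_lit 294) (nat_lit 0) (cs (rf (nat_lit 6)) (cs (rf (nat_lit 7)) (cs (rf (nat_lit 8)) (rf (nat_lit 9)))))) (cs (rf (nat_lit 10)) (cs (nd (nat_lit 294) (nat_lit 0) (cs (rf (nat_lit 6)) (cs (nd (nat_lit 230) (nat_lit 0) (cs (lf (nat_lit 27) (nat_lit 186)) (nd (nat_lit 228) (nat_lit 0) (cs (lf (nat_lit 8) (nat_lit 227)) (rf (nat_lit 11)))))) (cs (rf (nat_lit 12)) (nd (nat_lit 230) (nat_lit 0) (cs (lf (nat_lit 27) (nat_lit 186)) (nd (nat_lit 228) (nat_lit 0) (cs (lf (nat_lit 8) (nat_lit 227)) (nd (nat_lit 315) (nat_lit 0) (cs (lf (nat_lit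 40) (nat_lit 227)) (rf (nat_lit 13)))))))))))) (nd (nat_lit 294) (nat_lit 0) (cs (rf (nat_lit 6)) (cs (rf (nat_lit 7)) (cs (rf (nat_lit 8)) (nd (nat_lit 293) (nat_lit 0) (cs (rf (nat_lit 14)) (rf (nat_lit 15))))))))))))))))) q68288 (by decide +kernel)
def q68349 : Q := Q.p (nat_lit 0x20000800000600000000000000000000000000000000000000000000000000000000000000) (nat_lit 0x500009c0003f0000fc000ffe001df00177c0001c0001f8000700000c000020000080000000000000000000000000000000000) (nat_lit 12)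
theorem c68349 : QOK q68349 := cut [q61736, q68289, q58556, q61764, q61903, q14218, q63271, q58733, q66940, q62780, q68309, q25763, q60881, q60472, q61785, q61787, q61782, q45203, q66866, q68327, q68332, q52446, q61799, q66888, q66933, q61904, q61905, q66922, q60543, q61900, q61901, q58755, q68345, q68347] ⟨c61736, c68289, c58556, c61764, c61903, c14218, c63271, c58733, c66940, c62780, c68309, c25763, c60881, c60472, c61785, c61787, c61782, c45203, c66866, c68327, c68332, c52446, c61799, c66888, c66933, c61904, c61905, c66922, c60543, c61900, c61901, c58755, c68345, c68347, trivial⟩ (nd (nat_lit 294) (nat_lit 0) (cs (nd (nat_lit 292) (nat_lit 0) (cs (nd (nat_lit 295) (nat_lit 0) (cs (rf (nat_lit 0)) (rf (nat_lit 1)))) (cs (nd (nat_lit 295) (nat_lit 0) (cs (rf (nat_lit 2)) (rf (nat_lit 0)))) (cs (nd (nat_lit 291) (nat_lit 0) (cs (rf (nat_lit 3)) (cs (nd (nat_lit 316) (nat_lit 0) (cs (lf (nat_lit 5) (nat_lit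 291)) (rf (nat_lit 4)))) (cs (nd (nat_lit 313) (nat_lit 0) (cs (lf (nat_lit 11) (nat_lit 290)) (nd (nat_lit 335) (nat_lit 0) (cs (nd (nat_lit 270) (nat_lit 0) (cs (rf (nat_lit 5)) (lf (nat_lit 30) (nat_lit 269)))) (cs (nd (nat_lit 269) (nat_lit 0) (cs (lf (nat_lit 23) (nat_lit 268)) (nd (nat_lit 316) (nat_lit 0) (cs (lf (nat_lit 5) (nat_lit 291)) (nd (nat_lit 334) (nat_lit 0) (cs (lf (nat_lit 41) (nat_lit 268)) (nd (nat_lit 336) (nat_lit 0) (cs (lf (nat_lit 29) (nat_lit 269)) (nd (nat_lit 315) (nat_lit 0) (cs (lf (nat_lit 15) (nat_lit 312)) (lf (nat_lit 8) (nat_lit 312)))))))))))) (nd (nat_lit 268) (nat_lit 0) (cs (lf (nat_lit 22) (nat_lit 268)) (nd (nat_lit 316) (nat_lit 0) (cs (lf (nat_lit 5) (nat_lit 291)) (nd (nat_lit 357) (nat_lit 0) (cs (lf (nat_lit 35) (nat_lit 269)) (rf (nat_lit 6))))))))))))) (nd (nat_lit 316) (nat_lit 0) (cs (lf (nat_lit 5) (nat_lit 291)) (rf (nat_lit 7)))))))) (nd (nat_lit 313)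 (nat_lit 0) (cs (rf (nat_lit 8)) (cs (nd (nat_lit 291) (nat_lit 0) (cs (lf (nat_lit 11) (nat_lit 290)) (rf (nat_lit 9)))) (nd (nat_lit 291) (nat_lit 0) (cs (lf (nat_lit 11) (nat_lit 290)) (nd (nat_lit 316) (nat_lit 0) (cs (lf (nat_lit 5) (nat_lit 291)) (nd (nat_lit 290) (nat_lit 0) (cs (lf (nat_lit 4) (nat_lit 290)) (nd (nat_lit 267) (nat_lit 0) (cs (lf (nat_lit 22) (nat_lit 267)) (nd (nat_lit 289) (nat_lit 0) (cs (lf (nat_lit 23) (nat_lit 266)) (nd (nat_lit 288) (nat_lit 0) (cs (rf (nat_lit 10)) (lf (nat_lit 5) (nat_lit 288))))))))))))))))))))) (cs (nd (nat_lit 272) (nat_lit 0) (cs (rf (nat_lit 11)) (cs (rf (nat_lit 12)) (nd (nat_lit 316) (nat_lit 0) (cs (lf (nat_lit 47) (nat_lit 227)) (nd (nat_lit 273) (nat_lit 0) (cs (lf (nat_lit 19) (nat_lit 249)) (nd (nat_lit 247) (nat_lit 0) (cs (lf (nat_lit 1) (nat_lit 247)) (rf (nat_lit 13))))))))))) (cs (nd (nat_lit 295) (nat_lit 0) (cs (rf (nat_lit 14)) (cs (rf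 (nat_lit 15)) (nd (nat_lit 292) (nat_lit 0) (cs (rf (nat_lit 16)) (rf (nat_lit 1))))))) (cs (nd (nat_lit 272) (nat_lit 0) (cs (rf (nat_lit 11)) (cs (rf (nat_lit 17)) (cs (rf (nat_lit 18)) (rf (nat_lit 19)))))) (cs (nd (nat_lit 272) (nat_lit 0) (cs (rf (nat_lit 11)) (cs (rf (nat_lit 17)) (cs (rf (nat_lit 19)) (nd (nat_lit 316) (nat_lit 0) (cs (lf (nat_lit 47) (nat_lit 227)) (nd (nat_lit 273) (nat_lit 0) (cs (lf (nat_lit 19) (nat_lit 249)) (nd (nat_lit 247) (nat_lit 0) (cs (lf (nat_lit 1) (nat_lit 247)) (nd (nat_lit 291) (nat_lit 0) (cs (lf (nat_lit 13) (nat_lit 269)) (rf (nat_lit 20)))))))))))))) (cs (nd (nat_lit 272) (nat_lit 0) (cs (rf (nat_lit 11)) (cs (rf (nat_lit 17)) (cs (rf (nat_lit 21)) (rf (nat_lit 18)))))) (cs (nd (nat_lit 316) (nat_lit 0) (cs (rf (nat_lit 22)) (cs (rf (nat_lit 23)) (cs (rf (nat_lit 24)) (nd (nat_lit 292) (nat_lit 0) (cs (rf (nat_lit 25)) (cs (rf (nat_lit 26)) (cs (rf (nat_lit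 27)) (cs (nd (nat_lit 295) (nat_lit 0) (cs (rf (nat_lit 28)) (rf (nat_lit 1)))) (nd (nat_lit 291) (nat_lit 0) (cs (rf (nat_lit 29)) (cs (rf (nat_lit 30)) (rf (nat_lit 4)))))))))))))) (nd (nat_lit 315) (nat_lit 0) (cs (rf (nat_lit 31)) (cs (rf (nat_lit 32)) (rf (nat_lit 33))))))))))))) q68349 (by decide +kernel)
def q68424 : Q := Q.p (nat_lit 0x20000800002600000800010000040000000000000000000000000000000000000000000000) (nat_lit 0xa000778001dc00077c0081e00fb7c01e7c00fbf001c7c00705001c000010000000000000000000000000) (nat_lit 13)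
theorem c68424 : QOK q68424 := cut [q45262, q57467, q66951, q66955, q66782, q61940, q14516, q67472, q61764, q62780, q66985, q67944, q66946, q56640, q694, q1860, q6044, q64777, q67982, q67987, q45543, q68385, q68418, q68422] ⟨c45262, c57467, c66951, c66955, c66782, c61940, c14516, c67472, c61764, c62780, c66985, c67944, c66946, c56640, c694, c1860, c6044, c64777, c67982, c67987, c45543, c68385, c68418, c68422, trivial⟩ (nd (nat_lit 209) (nat_lit 0) (cs (lf (nat_lit 44) (nat_lit 186)) (nd (nat_lit 248) (nat_lit 0) (cs (nd (nat_lit 247) (nat_lit 0) (cs (rf (nat_lit 0)) (cs (nd (nat_lit 224) (nat_lit 0) (cs (lf (nat_lit 22) (nat_lit 224)) (nd (nat_lit 268) (nat_lit 0) (cs (lf (nat_lit 10) (nat_lit 246)) (rf (nat_lit 1)))))) (cs (rf (nat_lit 2)) (rf (nat_lit 3)))))) (cs (nd (nat_lit 211) (nat_lit 0) (cs (rf (nat_lit 4)) (cs (nd (nat_lit 294) (nat_lit 0) (cs (rf (nat_lit 5)) (cs (nd (nat_lit 272) (nat_lit 0)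 (cs (lf (nat_lit 42) (nat_lit 227)) (nd (nat_lit 273) (nat_lit 0) (cs (lf (nat_lit 7) (nat_lit 271)) (nd (nat_lit 292) (nat_lit 0) (cs (lf (nat_lit 12) (nat_lit 269)) (nd (nat_lit 270) (nat_lit 0) (cs (lf (nat_lit 30) (nat_lit 226)) (nd (nat_lit 295) (nat_lit 0) (cs (lf (nat_lit 23) (nat_lit 269)) (rf (nat_lit 6)))))))))))) (cs (nd (nat_lit 292) (nat_lit 0) (cs (rf (nat_lit 7)) (nd (nat_lit 291) (nat_lit 0) (cs (rf (nat_lit 8)) (rf (nat_lit 9)))))) (nd (nat_lit 205) (nat_lit 0) (cs (rf (nat_lit 10)) (cs (rf (nat_lit 11)) (nd (nat_lit 272) (nat_lit 0) (cs (lf (nat_lit 45) (nat_lit 205)) (nd (nat_lit 273) (nat_lit 0) (cs (lf (nat_lit 7) (nat_lit 271)) (nd (nat_lit 292) (nat_lit 0) (cs (lf (nat_lit 12) (nat_lit 269)) (rf (nat_lit 12))))))))))))))) (nd (nat_lit 205) (nat_lit 0) (cs (rf (nat_lit 13)) (nd (nat_lit 210) (nat_lit 0) (cs (rf (nat_lit 14)) (cs (rf (nat_lit 15)) (cs (rf (nat_lit 16)) (nd (nat_lit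 189) (nat_lit 0) (cs (lf (nat_lit 17) (nat_lit 186)) (nd (nat_lit 167) (nat_lit 0) (cs (rf (nat_lit 17)) (cs (rf (nat_lit 18)) (rf (nat_lit 19)))))))))))))))) (cs (nd (nat_lit 205) (nat_lit 0) (cs (rf (nat_lit 10)) (cs (rf (nat_lit 11)) (nd (nat_lit 247) (nat_lit 0) (cs (rf (nat_lit 20)) (rf (nat_lit 21))))))) (cs (nd (nat_lit 247) (nat_lit 0) (cs (rf (nat_lit 1)) (cs (rf (nat_lit 3)) (nd (nat_lit 224) (nat_lit 0) (cs (lf (nat_lit 22) (nat_lit 224)) (nd (nat_lit 272) (nat_lit 0) (cs (lf (nat_lit 5) (nat_lit 247)) (nd (nat_lit 294) (nat_lit 0) (cs (lf (nat_lit 42) (nat_lit 227)) (nd (nat_lit 183) (nat_lit 0) (cs (lf (nat_lit 25) (nat_lit 183)) (nd (nat_lit 184) (nat_lit 0) (cs (lf (nat_lit 2) (nat_lit 183)) (nd (nat_lit 246) (nat_lit 0) (cs (lf (nat_lit 23) (nat_lit 223)) (nd (nat_lit 267) (nat_lit 0) (cs (lf (nat_lit 10) (nat_lit 245)) (nd (nat_lit 245) (nat_lit 0) (cs (lf (nat_lit 11) (nat_lit 244)) (lf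 (nat_lit 16) (nat_lit 223))))))))))))))))))))) (cs (rf (nat_lit 22)) (rf (nat_lit 23)))))))))) q68424 (by decide +kernel)
def q68467 : Q := Q.p (nat_lit 0x20000880002600000000010000040000000000000000000000000000000000000000000000) (nat_lit 0x600001c0003700001c000bf000e7c000bc0000e0000280000000000000000000000000000000000) (nat_lit 12)
theorem c68467 : QOK q68467 := cut [q67027, q67503, q68452, q68454] ⟨c67027, c67503, c68452, c68454, trivial⟩ (nd (nat_lit 227) (nat_lit 0) (cs (rf (nat_lit 0)) (cs (rf (nat_lit 1)) (cs (rf (nat_lit 2)) (rf (nat_lit 3)))))) q68467 (by decide +kernel)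
def q68519 : Q := Q.p (nat_lit 0x20000800002600000000010000040000000000000000000000000000000000000000000000) (nat_lit 0x40000700007c0001d00001c00001c0009f000e7c000bc0000e0000280000000000000000000000000000000000) (nat_lit 13)
theorem c68519 : QOK q68519 := cut [q61516, q67110, q59916, q67011, q67069, q66731, q67572] ⟨c61516, c67110, c59916, c67011, c67069, c66731, c67572, trivial⟩ (nd (nat_lit 271) (nat_lit 0) (cs (rf (nat_lit 0)) (cs (rf (nat_lit 1)) (nd (nat_lit 227) (nat_lit 0) (cs (rf (nat_lit 2)) (cs (rf (nat_lit 3)) (cs (rf (nat_lit 4)) (nd (nat_lit 228) (nat_lit 0) (cs (rf (nat_lit 5)) (nd (nat_lit 294) (nat_lit 0) (cs (lf (nat_lit 29) (nat_lit 227)) (nd (nat_lit 292) (nat_lit 0) (cs (lf (nat_lit 41) (nat_lit 226)) (nd (nat_lit 226) (nat_lit 0) (cs (lf (nat_lit 47) (nat_lit 204)) (nd (nat_lit 225) (nat_lit 0) (cs (lf (nat_lit 0) (nat_lit 224)) (nd (nat_lit 203) (nat_lit 0) (cs (lf (nat_lit 23) (nat_lit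 202)) (nd (nat_lit 246) (nat_lit 0) (cs (lf (nat_lit 10) (nat_lit 224)) (nd (nat_lit 270) (nat_lit 0) (cs (lf (nat_lit 44) (nat_lit 203)) (nd (nat_lit 295) (nat_lit 0) (cs (lf (nat_lit 18) (nat_lit 270)) (rf (nat_lit 6))))))))))))))))))))))))))) q68519 (by decide +kernel)
def q68713 : Q := Q.p (nat_lit 0x880002600000000010000040000000000000000000000000000000000000000000000) (nat_lit 0x1400007c0003fc0003e00077c0011f00eefe01e7f00ebf00005c000050000000000000000000000000000000000) (nat_lit 14)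
theorem c68713 : QOK q68713 := cut [q45262, q60671, q68222, q68524, q68532, q68554, q68569, q68571, q68576, q68578, q48862, q68591, q59174, q68594, q68620, q59057, q68575, q68618, q57236, q41086, q44691, q68635, q68642, q68644, q68687, q68703, q68705, q47263, q46599] ⟨c45262, c60671, c68222, c68524, c68532, c68554, c68569, c68571, c68576, c68578, c48862, c68591, c59174, c68594, c68620, c59057, c68575, c68618, c57236, c41086, c44691, c68635, c68642, c68644, c68687, c68703, c68705, c47263, c46599, trivial⟩ (nd (nat_lit 248) (nat_lit 0) (cs (nd (nat_lit 247) (nat_lit 0) (cs (rf (nat_lit 0)) (cs (rf (nat_lit 1)) (nd (nat_lit 269) (nat_lit 0) (cs (lf (nat_lit 11) (nat_lit 246)) (nd (nat_lit 270) (nat_lit 0) (cs (rf (nat_lit 2)) (cs (nd (nat_lit 230) (nat_lit 0) (cs (lf (nat_lit 27) (nat_lit 186)) (nd (nat_lit 272) (nat_lit 0) (cs (lf (nat_lit 18) (nat_lit 247)) (rf (nat_lit 3)))))) (rf (nat_lit 4)))))))))) (cs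 (rf (nat_lit 5)) (cs (rf (nat_lit 6)) (cs (nd (nat_lit 247) (nat_lit 0) (cs (rf (nat_lit 0)) (cs (rf (nat_lit 1)) (nd (nat_lit 269) (nat_lit 0) (cs (lf (nat_lit 11) (nat_lit 246)) (nd (nat_lit 291) (nat_lit 0) (cs (nd (nat_lit 225) (nat_lit 0) (cs (lf (nat_lit 23) (nat_lit 224)) (nd (nat_lit 230) (nat_lit 0) (cs (lf (nat_lit 27) (nat_lit 186)) (rf (nat_lit 7)))))) (cs (nd (nat_lit 230) (nat_lit 0) (cs (lf (nat_lit 27) (nat_lit 186)) (rf (nat_lit 8)))) (cs (nd (nat_lit 225) (nat_lit 0) (cs (lf (nat_lit 23) (nat_lit 224)) (nd (nat_lit 230) (nat_lit 0) (cs (lf (nat_lit 27) (nat_lit 186)) (rf (nat_lit 9)))))) (nd (nat_lit 225) (nat_lit 0) (cs (lf (nat_lit 23) (nat_lit 224)) (nd (nat_lit 272) (nat_lit 0) (cs (lf (nat_lit 5) (nat_lit 247)) (rf (nat_lit 10))))))))))))))) (cs (nd (nat_lit 247) (nat_lit 0) (cs (rf (nat_lit 1)) (cs (rf (nat_lit 11)) (nd (nat_lit 269) (nat_lit 0) (cs (lf (nat_lit 11) (nat_lit 246))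 (nd (nat_lit 291) (nat_lit 0) (cs (rf (nat_lit 12)) (cs (rf (nat_lit 8)) (nd (nat_lit 230) (nat_lit 0) (cs (lf (nat_lit 27) (nat_lit 186)) (nd (nat_lit 209) (nat_lit 0) (cs (lf (nat_lit 44) (nat_lit 186)) (rf (nat_lit 13)))))))))))))) (cs (rf (nat_lit 14)) (cs (nd (nat_lit 209) (nat_lit 0) (cs (lf (nat_lit 44) (nat_lit 186)) (nd (nat_lit 247) (nat_lit 0) (cs (rf (nat_lit 15)) (cs (rf (nat_lit 1)) (nd (nat_lit 269) (nat_lit 0) (cs (lf (nat_lit 11) (nat_lit 246)) (nd (nat_lit 291) (nat_lit 0) (cs (rf (nat_lit 16)) (cs (nd (nat_lit 230) (nat_lit 0) (cs (lf (nat_lit 27) (nat_lit 186)) (nd (nat_lit 226) (nat_lit 0) (cs (lf (nat_lit 30) (nat_lit 225)) (rf (nat_lit 17)))))) (cs (nd (nat_lit 230) (nat_lit 0) (cs (lf (nat_lit 27) (nat_lit 186)) (nd (nat_lit 272) (nat_lit 0) (cs (lf (nat_lit 5) (nat_lit 247)) (nd (nat_lit 290) (nat_lit 0) (cs (lf (nat_lit 8) (nat_lit 268)) (nd (nat_lit 293) (nat_lit 0) (cs (lf (nat_lit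 14) (nat_lit 268)) (rf (nat_lit 18)))))))))) (nd (nat_lit 272) (nat_lit 0) (cs (lf (nat_lit 5) (nat_lit 247)) (nd (nat_lit 270) (nat_lit 0) (cs (lf (nat_lit 11) (nat_lit 268)) (rf (nat_lit 19))))))))))))))))) (cs (nd (nat_lit 247) (nat_lit 0) (cs (rf (nat_lit 0)) (cs (rf (nat_lit 1)) (nd (nat_lit 209) (nat_lit 0) (cs (lf (nat_lit 44) (nat_lit 186)) (nd (nat_lit 225) (nat_lit 0) (cs (lf (nat_lit 23) (nat_lit 224)) (nd (nat_lit 203) (nat_lit 0) (cs (rf (nat_lit 20)) (cs (rf (nat_lit 21)) (cs (rf (nat_lit 22)) (rf (nat_lit 23))))))))))))) (cs (rf (nat_lit 24)) (cs (rf (nat_lit 25)) (cs (nd (nat_lit 247) (nat_lit 0) (cs (rf (nat_lit 0)) (cs (rf (nat_lit 1)) (nd (nat_lit 269) (nat_lit 0) (cs (lf (nat_lit 11) (nat_lit 246)) (nd (nat_lit 270) (nat_lit 0) (cs (rf (nat_lit 26)) (nd (nat_lit 230) (nat_lit 0) (cs (lf (nat_lit 27) (nat_lit 186)) (rf (nat_lit 27))))))))))) (nd (nat_lit 247) (nat_lit 0) (cs (rf (nat_lit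 0)) (cs (rf (nat_lit 1)) (nd (nat_lit 269) (nat_lit 0) (cs (lf (nat_lit 11) (nat_lit 246)) (nd (nat_lit 270) (nat_lit 0) (cs (rf (nat_lit 28)) (cs (rf (nat_lit 4)) (rf (nat_lit 26)))))))))))))))))))))) q68713 (by decide +kernel)
def q68869 : Q := Q.p (nat_lit 0x800002600000000010000040000000000000000000000000000000000000000000000) (nat_lit 0x280000e00003e0003f8000ff0001fc0007f80011c000ff80025800012000000000000000000000000000000000000000000000) (nat_lit 15)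
theorem c68869 : QOK q68869 := cut [q68282, q68778, q66866, q64186, q68793, q68797, q68821, q68275, q68749, q68819, q60881, q59492, q56524, q60708, q60884, q48553, q68839, q68198, q67813, q68841, q68842, q65563, q68847, q64491, q68854, q67564, q67568, q68859, q61516, q68284, q60525] ⟨c68282, c68778, c66866, c64186, c68793, c68797, c68821, c68275, c68749, c68819, c60881, c59492, c56524, c60708, c60884, c48553, c68839, c68198, c67813, c68841, c68842, c65563, c68847, c64491, c68854, c67564, c67568, c68859, c61516, c68284, c60525, trivial⟩ (nd (nat_lit 231) (nat_lit 0) (cs (lf (nat_lit 45) (nat_lit 186)) (nd (nat_lit 272) (nat_lit 0) (cs (rf (nat_lit 0)) (cs (rf (nat_lit 1)) (cs (nd (nat_lit 294) (nat_lit 0) (cs (rf (nat_lit 2)) (cs (nd (nat_lit 230) (nat_lit 0) (cs (lf (nat_lit 27) (nat_lit 186)) (nd (nat_lit 228) (nat_lit 0) (cs (lf (nat_lit 8) (nat_lit 227)) (nd (nat_lit 295) (nat_lit 0) (cs (lf (nat_lit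 29) (nat_lit 228)) (nd (nat_lit 293) (nat_lit 0) (cs (lf (nat_lit 41) (nat_lit 227)) (rf (nat_lit 3)))))))))) (cs (rf (nat_lit 4)) (rf (nat_lit 5)))))) (cs (rf (nat_lit 6)) (cs (nd (nat_lit 294) (nat_lit 0) (cs (rf (nat_lit 2)) (cs (rf (nat_lit 7)) (cs (rf (nat_lit 8)) (cs (rf (nat_lit 9)) (cs (nd (nat_lit 293) (nat_lit 0) (cs (rf (nat_lit 10)) (cs (nd (nat_lit 228) (nat_lit 0) (cs (lf (nat_lit 41) (nat_lit 227)) (nd (nat_lit 229) (nat_lit 0) (cs (lf (nat_lit 7) (nat_lit 227)) (nd (nat_lit 247) (nat_lit 0) (cs (lf (nat_lit 13) (nat_lit 225)) (nd (nat_lit 271) (nat_lit 0) (cs (lf (nat_lit 36) (nat_lit 205)) (rf (nat_lit 11)))))))))) (cs (nd (nat_lit 271) (nat_lit 0) (cs (rf (nat_lit 12)) (cs (rf (nat_lit 13)) (nd (nat_lit 315) (nat_lit 0) (cs (lf (nat_lit 30) (nat_lit 249)) (nd (nat_lit 314) (nat_lit 0) (cs (lf (nat_lit 41) (nat_lit 248)) (nd (nat_lit 312) (nat_lit 0) (cs (lf (nat_lit 13) (nat_lit 290))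 (nd (nat_lit 295) (nat_lit 0) (cs (lf (nat_lit 6) (nat_lit 292)) (nd (nat_lit 269) (nat_lit 0) (cs (lf (nat_lit 1) (nat_lit 269)) (rf (nat_lit 14))))))))))))))) (nd (nat_lit 273) (nat_lit 0) (cs (lf (nat_lit 19) (nat_lit 249)) (nd (nat_lit 247) (nat_lit 0) (cs (lf (nat_lit 1) (nat_lit 247)) (nd (nat_lit 291) (nat_lit 0) (cs (lf (nat_lit 13) (nat_lit 269)) (rf (nat_lit 15)))))))))))) (rf (nat_lit 16)))))))) (cs (nd (nat_lit 271) (nat_lit 0) (cs (rf (nat_lit 17)) (cs (nd (nat_lit 270) (nat_lit 0) (cs (rf (nat_lit 18)) (cs (rf (nat_lit 19)) (cs (rf (nat_lit 20)) (nd (nat_lit 248) (nat_lit 0) (cs (rf (nat_lit 21)) (cs (rf (nat_lit 22)) (cs (nd (nat_lit 269) (nat_lit 0) (cs (lf (nat_lit 12) (nat_lit 246)) (nd (nat_lit 230) (nat_lit 0) (cs (lf (nat_lit 27) (nat_lit 186)) (nd (nat_lit 291) (nat_lit 0) (cs (lf (nat_lit 11) (nat_lit 268)) (nd (nat_lit 228) (nat_lit 0) (cs (lf (nat_lit 8) (nat_lit 227)) (nd (nat_lit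 184) (nat_lit 0) (cs (lf (nat_lit 37) (nat_lit 183)) (rf (nat_lit 23)))))))))))) (rf (nat_lit 24)))))))))) (cs (nd (nat_lit 293) (nat_lit 0) (cs (rf (nat_lit 25)) (cs (rf (nat_lit 26)) (rf (nat_lit 27))))) (nd (nat_lit 293) (nat_lit 0) (cs (rf (nat_lit 28)) (rf (nat_lit 27)))))))) (cs (nd (nat_lit 294) (nat_lit 0) (cs (rf (nat_lit 2)) (cs (rf (nat_lit 8)) (cs (rf (nat_lit 16)) (nd (nat_lit 293) (nat_lit 0) (cs (rf (nat_lit 15)) (rf (nat_lit 29)))))))) (nd (nat_lit 294) (nat_lit 0) (cs (rf (nat_lit 2)) (cs (rf (nat_lit 4)) (cs (rf (nat_lit 5)) (nd (nat_lit 230) (nat_lit 0) (cs (lf (nat_lit 27) (nat_lit 186)) (nd (nat_lit 228) (nat_lit 0) (cs (lf (nat_lit 8) (nat_lit 227)) (nd (nat_lit 293) (nat_lit 0) (cs (lf (nat_lit 41) (nat_lit 227)) (rf (nat_lit 30)))))))))))))))))))))) q68869 (by decide +kernel)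
def q69058 : Q := Q.p (nat_lit 0x800002600000000010000040000000000000000000000000000000000000000000000) (nat_lit 0xc000330000dc0007f80011c000ff800e7c000bf0000fc0002d0000000000000000000000000000000000) (nat_lit 14)
theorem c69058 : QOK q69058 := cut [q66731, q67552, q51495, q2082, q67851, q45262, q58995, q17292, q44691, q68633, q51502, q63547, q57393, q57399, q68635, q68644, q69048] ⟨c66731, c67552, c51495, c2082, c67851, c45262, c58995, c17292, c44691, c68633, c51502, c63547, c57393, c57399, c68635, c68644, c69048, trivial⟩ (nd (nat_lit 248) (nat_lit 0) (cs (nd (nat_lit 230) (nat_lit 0) (cs (lf (nat_lit 27) (nat_lit 186)) (nd (nat_lit 228) (nat_lit 0) (cs (rf (nat_lit 0)) (cs (rf (nat_lit 1)) (nd (nat_lit 272) (nat_lit 0) (cs (nd (nat_lit 227) (nat_lit 0) (cs (lf (nat_lit 7) (nat_lit 226)) (rf (nat_lit 2)))) (cs (nd (nat_lit 273) (nat_lit 0) (cs (lf (nat_lit 19) (nat_lit 249)) (nd (nat_lit 206) (nat_lit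 0) (cs (lf (nat_lit 29) (nat_lit 206)) (nd (nat_lit 184) (nat_lit 0) (cs (lf (nat_lit 41) (nat_lit 183)) (rf (nat_lit 3)))))))) (nd (nat_lit 227) (nat_lit 0) (cs (lf (nat_lit 7) (nat_lit 226)) (rf (nat_lit 4)))))))))))) (cs (nd (nat_lit 247) (nat_lit 0) (cs (rf (nat_lit 5)) (cs (nd (nat_lit 230) (nat_lit 0) (cs (lf (nat_lit 27) (nat_lit 186)) (rf (nat_lit 6)))) (cs (nd (nat_lit 225) (nat_lit 0) (cs (lf (nat_lit 23) (nat_lit 224)) (nd (nat_lit 203) (nat_lit 0) (cs (rf (nat_lit 7)) (cs (rf (nat_lit 8)) (cs (rf (nat_lit 9)) (nd (nat_lit 269) (nat_lit 0) (cs (lf (nat_lit 11) (nat_lit 246)) (nd (nat_lit 230) (nat_lit 0) (cs (lf (nat_lit 27) (nat_lit 186)) (nd (nat_lit 180) (nat_lit 0) (cs (lf (nat_lit 46) (nat_lit 180)) (nd (nat_lit 270) (nat_lit 0) (cs (lf (nat_lit 29) (nat_lit 203)) (nd (nat_lit 228) (nat_lit 0) (cs (lf (nat_lit 17) (nat_lit 225)) (rf (nat_lit 10)))))))))))))))))) (nd (nat_lit 230) (nat_lit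 0) (cs (lf (nat_lit 27) (nat_lit 186)) (rf (nat_lit 11)))))))) (cs (nd (nat_lit 209) (nat_lit 0) (cs (lf (nat_lit 44) (nat_lit 186)) (nd (nat_lit 247) (nat_lit 0) (cs (rf (nat_lit 5)) (cs (rf (nat_lit 12)) (cs (rf (nat_lit 13)) (nd (nat_lit 225) (nat_lit 0) (cs (lf (nat_lit 23) (nat_lit 224)) (nd (nat_lit 203) (nat_lit 0) (cs (rf (nat_lit 8)) (cs (rf (nat_lit 14)) (cs (rf (nat_lit 15)) (nd (nat_lit 230) (nat_lit 0) (cs (lf (nat_lit 27) (nat_lit 186)) (rf (nat_lit 16)))))))))))))))) (nd (nat_lit 209) (nat_lit 0) (cs (lf (nat_lit 44) (nat_lit 186)) (nd (nat_lit 247) (nat_lit 0) (cs (rf (nat_lit 12)) (cs (rf (nat_lit 6)) (nd (nat_lit 225) (nat_lit 0) (cs (lf (nat_lit 23) (nat_lit 224)) (nd (nat_lit 203) (nat_lit 0) (cs (rf (nat_lit 7)) (cs (rf (nat_lit 8)) (cs (rf (nat_lit 9)) (rf (nat_lit 16))))))))))))))))) q69058 (by decide +kernel)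
def q69112 : Q := Q.p (nat_lit 0x880002600000000010000040000000000000000000000000000000000000000000000) (nat_lit 0xf80003e0001dc0007780011e000ffc0007c0001f00001c000050000000000000000000000000000000000) (nat_lit 14)
theorem c69112 : QOK q69112 := cut [q25763, q68261, q65540, q66733, q65543, q67813, q61551, q69073, q66728, q46564, q68847, q69087, q61569, q65601, q61572, q65563, q68854, q46620, q69106, q57225, q68841, q68842, q68422, q69111] ⟨c25763, c68261, c65540, c66733, c65543, c67813, c61551, c69073, c66728, c46564, c68847, c69087, c61569, c65601, c61572, c65563, c68854, c46620, c69106, c57225, c68841, c68842, c68422, c69111, trivial⟩ (nd (nat_lit 272) (nat_lit 0) (cs (nd (nat_lit 294) (nat_lit 0) (cs (rf (nat_lit 0)) (cs (rf (nat_lit 1)) (cs (nd (nat_lit 273) (nat_lit 0) (cs (lf (nat_lit 19) (nat_lit 249)) (nd (nat_lit 230) (nat_lit 0) (cs (lf (nat_lit 27) (nat_lit 186)) (rf (nat_lit 2)))))) (nd (nat_lit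 228) (nat_lit 0) (cs (rf (nat_lit 3)) (cs (nd (nat_lit 230) (nat_lit 0) (cs (lf (nat_lit 27) (nat_lit 186)) (nd (nat_lit 206) (nat_lit 0) (cs (lf (nat_lit 36) (nat_lit 183)) (nd (nat_lit 205) (nat_lit 0) (cs (lf (nat_lit 47) (nat_lit 183)) (nd (nat_lit 227) (nat_lit 0) (cs (lf (nat_lit 29) (nat_lit 205)) (nd (nat_lit 204) (nat_lit 0) (cs (lf (nat_lit 47) (nat_lit 182)) (lf (nat_lit 19) (nat_lit 204)))))))))))) (nd (nat_lit 205) (nat_lit 0) (cs (lf (nat_lit 25) (nat_lit 205)) (nd (nat_lit 230) (nat_lit 0) (cs (lf (nat_lit 27) (nat_lit 186)) (nd (nat_lit 229) (nat_lit 0) (cs (lf (nat_lit 6) (nat_lit 227)) (rf (nat_lit 4))))))))))))))) (cs (nd (nat_lit 270) (nat_lit 0) (cs (rf (nat_lit 5)) (cs (nd (nat_lit 230) (nat_lit 0) (cs (lf (nat_lit 27) (nat_lit 186)) (rf (nat_lit 6)))) (rf (nat_lit 7))))) (cs (nd (nat_lit 228) (nat_lit 0) (cs (rf (nat_lit 8)) (rf (nat_lit 3)))) (cs (nd (nat_lit 270) (nat_lit 0) (cs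 (rf (nat_lit 9)) (cs (rf (nat_lit 7)) (cs (nd (nat_lit 248) (nat_lit 0) (cs (rf (nat_lit 10)) (cs (rf (nat_lit 11)) (cs (nd (nat_lit 247) (nat_lit 0) (cs (lf (nat_lit 0) (nat_lit 246)) (nd (nat_lit 228) (nat_lit 0) (cs (lf (nat_lit 17) (nat_lit 225)) (nd (nat_lit 206) (nat_lit 0) (cs (lf (nat_lit 36) (nat_lit 183)) (nd (nat_lit 224) (nat_lit 0) (cs (lf (nat_lit 22) (nat_lit 224)) (rf (nat_lit 12)))))))))) (cs (nd (nat_lit 247) (nat_lit 0) (cs (lf (nat_lit 0) (nat_lit 246)) (nd (nat_lit 230) (nat_lit 0) (cs (lf (nat_lit 27) (nat_lit 186)) (nd (nat_lit 224) (nat_lit 0) (cs (lf (nat_lit 22) (nat_lit 224)) (nd (nat_lit 228) (nat_lit 0) (cs (lf (nat_lit 17) (nat_lit 225)) (nd (nat_lit 206) (nat_lit 0) (cs (lf (nat_lit 36) (nat_lit 183)) (nd (nat_lit 205) (nat_lit 0) (cs (lf (nat_lit 47) (nat_lit 183)) (nd (nat_lit 227) (nat_lit 0) (cs (lf (nat_lit 29) (nat_lit 205)) (rf (nat_lit 13)))))))))))))))) (nd (nat_lit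 230) (nat_lit 0) (cs (lf (nat_lit 27) (nat_lit 186)) (rf (nat_lit 14))))))))) (cs (nd (nat_lit 248) (nat_lit 0) (cs (rf (nat_lit 15)) (cs (rf (nat_lit 16)) (cs (rf (nat_lit 11)) (nd (nat_lit 230) (nat_lit 0) (cs (lf (nat_lit 27) (nat_lit 186)) (nd (nat_lit 246) (nat_lit 0) (cs (rf (nat_lit 17)) (lf (nat_lit 1) (nat_lit 246)))))))))) (rf (nat_lit 18))))))) (cs (nd (nat_lit 227) (nat_lit 0) (cs (rf (nat_lit 19)) (nd (nat_lit 270) (nat_lit 0) (cs (rf (nat_lit 5)) (cs (rf (nat_lit 20)) (cs (rf (nat_lit 21)) (nd (nat_lit 248) (nat_lit 0) (cs (rf (nat_lit 17)) (cs (rf (nat_lit 15)) (cs (rf (nat_lit 22)) (rf (nat_lit 10)))))))))))) (rf (nat_lit 23)))))))) q69112 (by decide +kernel)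
def q69207 : Q := Q.p (nat_lit 0x980002600000000010000040000000000000000000000000000000000000000000000) (nat_lit 0x150000fc000ff0001fc0000700011c000f700005c00015000000000000000000000000000000000000000000000) (nat_lit 13)
theorem c69207 : QOK q69207 := cut [q61516, q69178, q60108, q46984, q61614, q46986] ⟨c61516, c69178, c60108, c46984, c61614, c46986, trivial⟩ (nd (nat_lit 293) (nat_lit 0) (cs (rf (nat_lit 0)) (cs (rf (nat_lit 1)) (nd (nat_lit 270) (nat_lit 0) (cs (nd (nat_lit 315) (nat_lit 0) (cs (lf (nat_lit 30) (nat_lit 249)) (nd (nat_lit 316) (nat_lit 0) (cs (lf (nat_lit 29) (nat_lit 249)) (nd (nat_lit 314) (nat_lit 0) (cs (lf (nat_lit 41) (nat_lit 248)) (nd (nat_lit 226) (nat_lit 0) (cs (lf (nat_lit 46) (nat_lit 226)) (nd (nat_lit 269) (nat_lit 0) (cs (lf (nat_lit 12) (nat_lit 246)) (nd (nat_lit 230) (nat_lit 0) (cs (lf (nat_lit 27) (nat_lit 186)) (nd (nat_lit 290) (nat_lit 0) (cs (lf (nat_lit 10)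 (nat_lit 268)) (nd (nat_lit 294) (nat_lit 0) (cs (lf (nat_lit 5) (nat_lit 269)) (rf (nat_lit 2)))))))))))))))))) (cs (nd (nat_lit 315) (nat_lit 0) (cs (lf (nat_lit 30) (nat_lit 249)) (nd (nat_lit 316) (nat_lit 0) (cs (lf (nat_lit 29) (nat_lit 249)) (nd (nat_lit 314) (nat_lit 0) (cs (lf (nat_lit 41) (nat_lit 248)) (nd (nat_lit 248) (nat_lit 0) (cs (lf (nat_lit 47) (nat_lit 226)) (nd (nat_lit 230) (nat_lit 0) (cs (lf (nat_lit 27) (nat_lit 186)) (rf (nat_lit 3)))))))))))) (cs (nd (nat_lit 269) (nat_lit 0) (cs (lf (nat_lit 12) (nat_lit 246)) (nd (nat_lit 230) (nat_lit 0) (cs (lf (nat_lit 27) (nat_lit 186)) (rf (nat_lit 4)))))) (cs (nd (nat_lit 315) (nat_lit 0) (cs (lf (nat_lit 30) (nat_lit 249)) (nd (nat_lit 316) (nat_lit 0) (cs (lf (nat_lit 29) (nat_lit 249)) (nd (nat_lit 314) (nat_lit 0) (cs (lf (nat_lit 41) (nat_lit 248)) (nd (nat_lit 248) (nat_lit 0) (cs (lf (nat_lit 47) (nat_lit 226)) (nd (nat_lit 269)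 (nat_lit 0) (cs (lf (nat_lit 12) (nat_lit 246)) (nd (nat_lit 246) (nat_lit 0) (cs (lf (nat_lit 1) (nat_lit 246)) (nd (nat_lit 294) (nat_lit 0) (cs (lf (nat_lit 5) (nat_lit 269)) (nd (nat_lit 291) (nat_lit 0) (cs (lf (nat_lit 11) (nat_lit 268)) (nd (nat_lit 313) (nat_lit 0) (cs (lf (nat_lit 30) (nat_lit 247)) (lf (nat_lit 12) (nat_lit 290)))))))))))))))))))) (nd (nat_lit 268) (nat_lit 0) (cs (lf (nat_lit 13) (nat_lit 246)) (nd (nat_lit 230) (nat_lit 0) (cs (lf (nat_lit 27) (nat_lit 186)) (nd (nat_lit 315) (nat_lit 0) (cs (lf (nat_lit 30) (nat_lit 249)) (rf (nat_lit 5)))))))))))))))) q69207 (by decide +kernel)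
def q69518 : Q := Q.p (nat_lit 0x800002680004200010000040000000000000000000000000000000000000000000000) (nat_lit 0x500001c0001700000000ebdc01e7c00ebf0000fe0003fe000100000400000000000000000000000) (nat_lit 12)
theorem c69518 : QOK q69518 := cut [q69406, q69385, q75, q69417, q69418, q69428, q45593, q69472, q69486, q26872, q66782, q69384, q44707, q69517] ⟨c69406, c69385, c75, c69417, c69418, c69428, c45593, c69472, c69486, c26872, c66782, c69384, c44707, c69517, trivial⟩ (nd (nat_lit 203) (nat_lit 0) (cs (rf (nat_lit 0)) (cs (nd (nat_lit 182) (nat_lit 0) (cs (rf (nat_lit 1)) (nd (nat_lit 181) (nat_lit 0) (cs (lf (nat_lit 35) (nat_lit 159)) (nd (nat_lit 180) (nat_lit 0) (cs (lf (nat_lit 47) (nat_lit 158)) (nd (nat_lit 209) (nat_lit 0) (cs (lf (nat_lit 44) (nat_lit 186)) (nd (nat_lit 210) (nat_lit 0) (cs (rf (nat_lit 2)) (cs (rf (nat_lit 3)) (rf (nat_lit 4))))))))))))) (cs (nd (nat_lit 209) (nat_lit 0) (cs (lf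 (nat_lit 44) (nat_lit 186)) (rf (nat_lit 5)))) (cs (nd (nat_lit 160) (nat_lit 0) (cs (nd (nat_lit 181) (nat_lit 0) (cs (lf (nat_lit 34) (nat_lit 159)) (nd (nat_lit 158) (nat_lit 0) (cs (lf (nat_lit 46) (nat_lit 158)) (rf (nat_lit 6)))))) (cs (rf (nat_lit 7)) (cs (nd (nat_lit 209) (nat_lit 0) (cs (lf (nat_lit 44) (nat_lit 186)) (nd (nat_lit 210) (nat_lit 0) (cs (rf (nat_lit 2)) (cs (rf (nat_lit 4)) (nd (nat_lit 204) (nat_lit 0) (cs (nd (nat_lit 182) (nat_lit 0) (cs (lf (nat_lit 36) (nat_lit 137)) (lf (nat_lit 39) (nat_lit 159)))) (cs (rf (nat_lit 8)) (nd (nat_lit 205) (nat_lit 0) (cs (nd (nat_lit 206) (nat_lit 0) (cs (lf (nat_lit 11) (nat_lit 202)) (nd (nat_lit 184) (nat_lit 0) (cs (lf (nat_lit 17) (nat_lit 181)) (nd (nat_lit 228) (nat_lit 0) (cs (lf (nat_lit 5) (nat_lit 203)) (nd (nat_lit 227) (nat_lit 0) (cs (lf (nat_lit 36) (nat_lit 161)) (lf (nat_lit 0) (nat_lit 202)))))))))) (cs (nd (nat_lit 206) (nat_lit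 0) (cs (lf (nat_lit 11) (nat_lit 202)) (nd (nat_lit 184) (nat_lit 0) (cs (lf (nat_lit 17) (nat_lit 181)) (nd (nat_lit 228) (nat_lit 0) (cs (lf (nat_lit 5) (nat_lit 203)) (nd (nat_lit 183) (nat_lit 0) (cs (lf (nat_lit 47) (nat_lit 161)) (lf (nat_lit 42) (nat_lit 183)))))))))) (cs (nd (nat_lit 182) (nat_lit 0) (cs (lf (nat_lit 36) (nat_lit 137)) (nd (nat_lit 183) (nat_lit 0) (cs (lf (nat_lit 43) (nat_lit 160)) (rf (nat_lit 9)))))) (nd (nat_lit 138) (nat_lit 0) (cs (lf (nat_lit 38) (nat_lit 137)) (nd (nat_lit 206) (nat_lit 0) (cs (lf (nat_lit 11) (nat_lit 202)) (nd (nat_lit 228) (nat_lit 0) (cs (lf (nat_lit 5) (nat_lit 203)) (nd (nat_lit 227) (nat_lit 0) (cs (lf (nat_lit 0) (nat_lit 202)) (nd (nat_lit 183) (nat_lit 0) (cs (lf (nat_lit 29) (nat_lit 183)) (lf (nat_lit 45) (nat_lit 138)))))))))))))))))))))))) (nd (nat_lit 209) (nat_lit 0) (cs (lf (nat_lit 44) (nat_lit 186)) (nd (nat_lit 182) (nat_lit 0) (cs (lf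 (nat_lit 33) (nat_lit 159)) (nd (nat_lit 226) (nat_lit 0) (cs (lf (nat_lit 38) (nat_lit 159)) (nd (nat_lit 227) (nat_lit 0) (cs (lf (nat_lit 0) (nat_lit 224)) (nd (nat_lit 228) (nat_lit 0) (cs (lf (nat_lit 14) (nat_lit 205)) (lf (nat_lit 23) (nat_lit 202)))))))))))))))) (cs (nd (nat_lit 209) (nat_lit 0) (cs (lf (nat_lit 44) (nat_lit 186)) (nd (nat_lit 211) (nat_lit 0) (cs (rf (nat_lit 10)) (nd (nat_lit 269) (nat_lit 0) (cs (rf (nat_lit 11)) (nd (nat_lit 204) (nat_lit 0) (cs (rf (nat_lit 12)) (rf (nat_lit 8)))))))))) (rf (nat_lit 13)))))))) q69518 (by decide +kernel)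
def q69699 : Q := Q.p (nat_lit 0x800002680004200010000040000000000000000000000000000000000000000000000) (nat_lit 0x10000078000dfc0077e00007c00bdf0026f800bfe000fe000078000040000000000000000000000000000) (nat_lit 12)
theorem c69699 : QOK q69699 := cut [q66985, q67373, q67921, q45697, q45757, q69336, q69339, q69595, q45689, q69604, q41049, q45687, q69608, q69612, q45756, q48747, q49406, q69623, q69641, q69698] ⟨c66985, c67373, c67921, c45697, c45757, c69336, c69339, c69595, c45689, c69604, c41049, c45687, c69608, c69612, c45756, c48747, c49406, c69623, c69641, c69698, trivial⟩ (nd (nat_lit 224) (nat_lit 0) (cs (nd (nat_lit 209) (nat_lit 0) (cs (lf (nat_lit 44) (nat_lit 186)) (nd (nat_lit 227) (nat_lit 0) (cs (lf (nat_lit 2) (nat_lit 224)) (nd (nat_lit 205) (nat_lit 0) (cs (rf (nat_lit 0)) (cs (rf (nat_lit 1)) (cs (nd (nat_lit 228) (nat_lit 0) (cs (lf (nat_lit 14) (nat_lit 205)) (nd (nat_lit 272) (nat_lit 0)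 (cs (lf (nat_lit 42) (nat_lit 205)) (lf (nat_lit 24) (nat_lit 183)))))) (nd (nat_lit 228) (nat_lit 0) (cs (lf (nat_lit 14) (nat_lit 205)) (rf (nat_lit 2)))))))))))) (cs (nd (nat_lit 269) (nat_lit 0) (cs (rf (nat_lit 3)) (cs (rf (nat_lit 4)) (cs (nd (nat_lit 291) (nat_lit 0) (cs (rf (nat_lit 5)) (cs (rf (nat_lit 6)) (nd (nat_lit 226) (nat_lit 0) (cs (lf (nat_lit 3) (nat_lit 224)) (nd (nat_lit 290) (nat_lit 0) (cs (lf (nat_lit 41) (nat_lit 224)) (nd (nat_lit 268) (nat_lit 0) (cs (lf (nat_lit 36) (nat_lit 202)) (nd (nat_lit 246) (nat_lit 0) (cs (lf (nat_lit 42) (nat_lit 224)) (nd (nat_lit 201) (nat_lit 0) (cs (lf (nat_lit 46) (nat_lit 201)) (nd (nat_lit 244) (nat_lit 0) (cs (lf (nat_lit 13) (nat_lit 222)) (rf (nat_lit 7))))))))))))))))) (nd (nat_lit 203) (nat_lit 0) (cs (rf (nat_lit 8)) (cs (nd (nat_lit 226) (nat_lit 0) (cs (lf (nat_lit 3) (nat_lit 224)) (rf (nat_lit 9)))) (cs (nd (nat_lit 181) (nat_lit 0)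 (cs (rf (nat_lit 10)) (cs (rf (nat_lit 11)) (cs (nd (nat_lit 268) (nat_lit 0) (cs (lf (nat_lit 41) (nat_lit 202)) (rf (nat_lit 12)))) (nd (nat_lit 226) (nat_lit 0) (cs (lf (nat_lit 3) (nat_lit 224)) (rf (nat_lit 13)))))))) (cs (nd (nat_lit 268) (nat_lit 0) (cs (lf (nat_lit 41) (nat_lit 202)) (nd (nat_lit 181) (nat_lit 0) (cs (lf (nat_lit 40) (nat_lit 180)) (rf (nat_lit 12)))))) (cs (nd (nat_lit 202) (nat_lit 0) (cs (rf (nat_lit 14)) (nd (nat_lit 201) (nat_lit 0) (cs (rf (nat_lit 15)) (cs (nd (nat_lit 226) (nat_lit 0) (cs (lf (nat_lit 3) (nat_lit 224)) (nd (nat_lit 268) (nat_lit 0) (cs (lf (nat_lit 41) (nat_lit 202)) (nd (nat_lit 246) (nat_lit 0) (cs (lf (nat_lit 47) (nat_lit 179)) (nd (nat_lit 244) (nat_lit 0) (cs (lf (nat_lit 13) (nat_lit 222)) (rf (nat_lit 16)))))))))) (nd (nat_lit 200) (nat_lit 0) (cs (lf (nat_lit 0) (nat_lit 199)) (nd (nat_lit 178) (nat_lit 0) (cs (lf (nat_lit 23) (nat_lit 177)) (nd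 (nat_lit 222) (nat_lit 0) (cs (lf (nat_lit 11) (nat_lit 199)) (nd (nat_lit 268) (nat_lit 0) (cs (lf (nat_lit 41) (nat_lit 202)) (nd (nat_lit 179) (nat_lit 0) (cs (rf (nat_lit 17)) (lf (nat_lit 43) (nat_lit 179))))))))))))))))) (cs (nd (nat_lit 226) (nat_lit 0) (cs (lf (nat_lit 3) (nat_lit 224)) (nd (nat_lit 270) (nat_lit 0) (cs (lf (nat_lit 29) (nat_lit 203)) (nd (nat_lit 180) (nat_lit 0) (cs (lf (nat_lit 46) (nat_lit 180)) (nd (nat_lit 181) (nat_lit 0) (cs (lf (nat_lit 47) (nat_lit 158)) (nd (nat_lit 160) (nat_lit 0) (cs (lf (nat_lit 34) (nat_lit 159)) (nd (nat_lit 159) (nat_lit 0) (cs (lf (nat_lit 41) (nat_lit 158)) (lf (nat_lit 35) (nat_lit 137)))))))))))))) (nd (nat_lit 202) (nat_lit 0) (cs (lf (nat_lit 47) (nat_lit 180)) (nd (nat_lit 226) (nat_lit 0) (cs (lf (nat_lit 3) (nat_lit 224)) (nd (nat_lit 200) (nat_lit 0) (cs (lf (nat_lit 1) (nat_lit 200)) (nd (nat_lit 268) (nat_lit 0) (cs (lf (nat_lit 41)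 (nat_lit 202)) (rf (nat_lit 18))))))))))))))))))))) (rf (nat_lit 19))))) q69699 (by decide +kernel)
def q69742 : Q := Q.p (nat_lit 0x800002680004200010000040000000000000000000000000000000000000000000000) (nat_lit 0x40000700001c0001700000700eb9801e7c00ebf0000fc000070000140000000000000000000000000000) (nat_lit 12)
theorem c69742 : QOK q69742 := cut [q69428, q69384, q66782, q69709, q64322, q67421, q69712, q69720, q38326, q38333, q41118, q49412, q69740] ⟨c69428, c69384, c66782, c69709, c64322, c67421, c69712, c69720, c38326, c38333, c41118, c49412, c69740, trivial⟩ (nd (nat_lit 209) (nat_lit 0) (cs (lf (nat_lit 44) (nat_lit 186)) (nd (nat_lit 203) (nat_lit 0) (cs (rf (nat_lit 0)) (cs (nd (nat_lit 269) (nat_lit 0) (cs (rf (nat_lit 1)) (cs (nd (nat_lit 202) (nat_lit 0) (cs (lf (nat_lit 47) (nat_lit 180)) (nd (nat_lit 211) (nat_lit 0) (cs (rf (nat_lit 2)) (nd (nat_lit 204) (nat_lit 0) (cs (lf (nat_lit 35) (nat_lit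 181)) (nd (nat_lit 205) (nat_lit 0) (cs (nd (nat_lit 270) (nat_lit 0) (cs (lf (nat_lit 29) (nat_lit 203)) (nd (nat_lit 183) (nat_lit 0) (cs (lf (nat_lit 17) (nat_lit 180)) (nd (nat_lit 227) (nat_lit 0) (cs (lf (nat_lit 29) (nat_lit 183)) (lf (nat_lit 5) (nat_lit 202)))))))) (nd (nat_lit 224) (nat_lit 0) (cs (lf (nat_lit 11) (nat_lit 201)) (lf (nat_lit 6) (nat_lit 202)))))))))))) (rf (nat_lit 3))))) (cs (nd (nat_lit 181) (nat_lit 0) (cs (rf (nat_lit 4)) (cs (rf (nat_lit 5)) (rf (nat_lit 6))))) (cs (rf (nat_lit 7)) (cs (nd (nat_lit 181) (nat_lit 0) (cs (rf (nat_lit 6)) (cs (nd (nat_lit 160) (nat_lit 0) (cs (lf (nat_lit 34) (nat_lit 159)) (nd (nat_lit 159) (nat_lit 0) (cs (lf (nat_lit 35) (nat_lit 137)) (nd (nat_lit 136) (nat_lit 0) (cs (lf (nat_lit 46) (nat_lit 136)) (nd (nat_lit 224) (nat_lit 0) (cs (lf (nat_lit 41) (nat_lit 158)) (rf (nat_lit 8)))))))))) (cs (nd (nat_lit 160) (nat_lit 0) (cs (lf (nat_lit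 34) (nat_lit 159)) (nd (nat_lit 159) (nat_lit 0) (cs (lf (nat_lit 35) (nat_lit 137)) (nd (nat_lit 224) (nat_lit 0) (cs (lf (nat_lit 41) (nat_lit 158)) (nd (nat_lit 202) (nat_lit 0) (cs (rf (nat_lit 9)) (lf (nat_lit 36) (nat_lit 136)))))))))) (cs (nd (nat_lit 158) (nat_lit 0) (cs (lf (nat_lit 46) (nat_lit 158)) (nd (nat_lit 159) (nat_lit 0) (cs (lf (nat_lit 47) (nat_lit 136)) (nd (nat_lit 138) (nat_lit 0) (cs (lf (nat_lit 34) (nat_lit 137)) (nd (nat_lit 224) (nat_lit 0) (cs (lf (nat_lit 41) (nat_lit 158)) (rf (nat_lit 10)))))))))) (nd (nat_lit 158) (nat_lit 0) (cs (lf (nat_lit 46) (nat_lit 158)) (nd (nat_lit 159) (nat_lit 0) (cs (lf (nat_lit 47) (nat_lit 136)) (nd (nat_lit 224) (nat_lit 0) (cs (lf (nat_lit 41) (nat_lit 158)) (nd (nat_lit 202) (nat_lit 0) (cs (lf (nat_lit 36) (nat_lit 136)) (nd (nat_lit 269) (nat_lit 0) (cs (lf (nat_lit 42) (nat_lit 202)) (nd (nat_lit 270) (nat_lit 0) (cs (lf (nat_lit 29)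 (nat_lit 203)) (rf (nat_lit 11))))))))))))))))))) (rf (nat_lit 12)))))))))) q69742 (by decide +kernel)
def q69902 : Q := Q.p (nat_lit 0x800002680004000010000040000000000000000000000000000000000000000000000) (nat_lit 0x2c0000fc0003f0000fc00077000010000bf00027c0003f00003c0000d0000000000000000000000000000000000) (nat_lit 13)
theorem c69902 : QOK q69902 := cut [q69331, q56821, q25763, q66866, q61264, q69832, q69841, q67552, q68132, q17292, q51860, q44567, q17291, q67420, q69862, q69879, q45760, q68558, q69405, q51495, q51529, q69901] ⟨c69331, c56821, c25763, c66866, c61264, c69832, c69841, c67552, c68132, c17292, c51860, c44567, c17291, c67420, c69862, c69879, c45760, c68558, c69405, c51495, c51529, c69901, trivial⟩ (nd (nat_lit 248) (nat_lit 0) (cs (rf (nat_lit 0)) (cs (nd (nat_lit 272) (nat_lit 0) (cs (rf (nat_lit 1)) (nd (nat_lit 231) (nat_lit 0) (cs (lf (nat_lit 45) (nat_lit 186)) (nd (nat_lit 294) (nat_lit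 0) (cs (rf (nat_lit 2)) (cs (rf (nat_lit 3)) (cs (nd (nat_lit 228) (nat_lit 0) (cs (rf (nat_lit 4)) (rf (nat_lit 5)))) (nd (nat_lit 268) (nat_lit 0) (cs (lf (nat_lit 10) (nat_lit 246)) (nd (nat_lit 228) (nat_lit 0) (cs (lf (nat_lit 17) (nat_lit 225)) (rf (nat_lit 6)))))))))))))) (cs (nd (nat_lit 272) (nat_lit 0) (cs (rf (nat_lit 1)) (nd (nat_lit 225) (nat_lit 0) (cs (lf (nat_lit 23) (nat_lit 224)) (nd (nat_lit 228) (nat_lit 0) (cs (rf (nat_lit 7)) (cs (rf (nat_lit 8)) (nd (nat_lit 209) (nat_lit 0) (cs (lf (nat_lit 44) (nat_lit 186)) (nd (nat_lit 205) (nat_lit 0) (cs (nd (nat_lit 294) (nat_lit 0) (cs (lf (nat_lit 46) (nat_lit 205)) (rf (nat_lit 6)))) (nd (nat_lit 203) (nat_lit 0) (cs (rf (nat_lit 9)) (cs (rf (nat_lit 10)) (cs (nd (nat_lit 183) (nat_lit 0) (cs (lf (nat_lit 45) (nat_lit 183)) (nd (nat_lit 184) (nat_lit 0) (cs (lf (nat_lit 2) (nat_lit 183)) (nd (nat_lit 204) (nat_lit 0) (cs (lf (nat_lit 12)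 (nat_lit 180)) (rf (nat_lit 11)))))))) (nd (nat_lit 181) (nat_lit 0) (cs (rf (nat_lit 12)) (nd (nat_lit 183) (nat_lit 0) (cs (lf (nat_lit 45) (nat_lit 183)) (rf (nat_lit 13))))))))))))))))))))) (cs (rf (nat_lit 14)) (cs (rf (nat_lit 15)) (cs (nd (nat_lit 269) (nat_lit 0) (cs (lf (nat_lit 11) (nat_lit 246)) (nd (nat_lit 225) (nat_lit 0) (cs (lf (nat_lit 23) (nat_lit 224)) (nd (nat_lit 203) (nat_lit 0) (cs (rf (nat_lit 16)) (cs (rf (nat_lit 17)) (cs (nd (nat_lit 202) (nat_lit 0) (cs (lf (nat_lit 47) (nat_lit 180)) (rf (nat_lit 18)))) (cs (nd (nat_lit 228) (nat_lit 0) (cs (lf (nat_lit 17) (nat_lit 225)) (nd (nat_lit 209) (nat_lit 0) (cs (lf (nat_lit 44) (nat_lit 186)) (nd (nat_lit 272) (nat_lit 0) (cs (lf (nat_lit 5) (nat_lit 247)) (nd (nat_lit 182) (nat_lit 0) (cs (lf (nat_lit 34) (nat_lit 181)) (nd (nat_lit 181) (nat_lit 0) (cs (lf (nat_lit 35) (nat_lit 159)) (nd (nat_lit 226) (nat_lit 0) (cs (lf (nat_lit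 24) (nat_lit 159)) (nd (nat_lit 227) (nat_lit 0) (cs (lf (nat_lit 23) (nat_lit 202)) (rf (nat_lit 19)))))))))))))))) (nd (nat_lit 182) (nat_lit 0) (cs (lf (nat_lit 34) (nat_lit 181)) (nd (nat_lit 181) (nat_lit 0) (cs (lf (nat_lit 35) (nat_lit 159)) (nd (nat_lit 228) (nat_lit 0) (cs (lf (nat_lit 17) (nat_lit 225)) (rf (nat_lit 20))))))))))))))))) (rf (nat_lit 21))))))))) q69902 (by decide +kernel)
def q69980 : Q := Q.p (nat_lit 0x800002680004000010000040000000000000000000000000000000000000000000000) (nat_lit 0x140000700003c00037c00017806aff01e7fc0eaff0007fc00070000000000000000000000000000000000) (nat_lit 13)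
theorem c69980 : QOK q69980 := cut [q69791, q1167, q69539, q69915, q69924, q69926, q69775, q69773, q51529, q51650, q69947, q51813, q51531, q44690, q47397, q69524, q66782, q69946, q67710, q45793, q67907, q63835, q68383, q47097] ⟨c69791, c1167, c69539, c69915, c69924, c69926, c69775, c69773, c51529, c51650, c69947, c51813, c51531, c44690, c47397, c69524, c66782, c69946, c67710, c45793, c67907, c63835, c68383, c47097, trivial⟩ (nd (nat_lit 225) (nat_lit 0) (cs (rf (nat_lit 0)) (cs (nd (nat_lit 209) (nat_lit 0) (cs (lf (nat_lit 44) (nat_lit 186)) (nd (nat_lit 210) (nat_lit 0) (cs (rf (nat_lit 1)) (nd (nat_lit 269) (nat_lit 0) (cs (rf (nat_lit 2)) (cs (rf (nat_lit 3)) (cs (rf (nat_lit 4)) (rf (nat_lit 5)))))))))) (cs (nd (nat_lit 203) (nat_lit 0) (cs (rf (nat_lit 6)) (cs (nd (nat_lit 181) (nat_lit 0) (cs (rf (nat_lit 7)) (cs (nd (nat_lit 209) (nat_lit 0) (cs (lf (nat_lit 44) (nat_lit 186)) (nd (nat_lit 246)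 (nat_lit 0) (cs (lf (nat_lit 41) (nat_lit 180)) (nd (nat_lit 248) (nat_lit 0) (cs (lf (nat_lit 29) (nat_lit 181)) (nd (nat_lit 272) (nat_lit 0) (cs (lf (nat_lit 5) (nat_lit 247)) (rf (nat_lit 8)))))))))) (nd (nat_lit 160) (nat_lit 0) (cs (lf (nat_lit 34) (nat_lit 159)) (nd (nat_lit 159) (nat_lit 0) (cs (lf (nat_lit 35) (nat_lit 137)) (nd (nat_lit 248) (nat_lit 0) (cs (lf (nat_lit 29) (nat_lit 181)) (lf (nat_lit 28) (nat_lit 159))))))))))) (cs (nd (nat_lit 209) (nat_lit 0) (cs (lf (nat_lit 44) (nat_lit 186)) (nd (nat_lit 224) (nat_lit 0) (cs (lf (nat_lit 20) (nat_lit 224)) (nd (nat_lit 223) (nat_lit 0) (cs (nd (nat_lit 226) (nat_lit 0) (cs (lf (nat_lit 3) (nat_lit 224)) (nd (nat_lit 201) (nat_lit 0) (cs (lf (nat_lit 23) (nat_lit 200)) (nd (nat_lit 245) (nat_lit 0) (cs (lf (nat_lit 11) (nat_lit 222)) (nd (nat_lit 204) (nat_lit 0) (cs (lf (nat_lit 17) (nat_lit 201)) (nd (nat_lit 182) (nat_lit 0) (cs (lf (nat_lit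 36) (nat_lit 159)) (nd (nat_lit 202) (nat_lit 0) (cs (lf (nat_lit 17) (nat_lit 179)) (rf (nat_lit 9)))))))))))))) (cs (rf (nat_lit 10)) (nd (nat_lit 204) (nat_lit 0) (cs (lf (nat_lit 12) (nat_lit 200)) (rf (nat_lit 11))))))))))) (cs (nd (nat_lit 248) (nat_lit 0) (cs (lf (nat_lit 23) (nat_lit 224)) (rf (nat_lit 12)))) (nd (nat_lit 248) (nat_lit 0) (cs (lf (nat_lit 23) (nat_lit 224)) (rf (nat_lit 13))))))))) (cs (nd (nat_lit 269) (nat_lit 0) (cs (rf (nat_lit 14)) (cs (rf (nat_lit 15)) (rf (nat_lit 4))))) (cs (nd (nat_lit 224) (nat_lit 0) (cs (lf (nat_lit 20) (nat_lit 224)) (nd (nat_lit 209) (nat_lit 0) (cs (lf (nat_lit 44) (nat_lit 186)) (nd (nat_lit 211) (nat_lit 0) (cs (rf (nat_lit 16)) (nd (nat_lit 226) (nat_lit 0) (cs (lf (nat_lit 3) (nat_lit 224)) (nd (nat_lit 223) (nat_lit 0) (cs (rf (nat_lit 17)) (nd (nat_lit 204) (nat_lit 0) (cs (lf (nat_lit 17) (nat_lit 201)) (nd (nat_lit 182) (nat_lit 0) (cs (lf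 (nat_lit 36) (nat_lit 159)) (nd (nat_lit 269) (nat_lit 0) (cs (lf (nat_lit 30) (nat_lit 203)) (lf (nat_lit 33) (nat_lit 181)))))))))))))))))) (cs (nd (nat_lit 269) (nat_lit 0) (cs (rf (nat_lit 14)) (cs (rf (nat_lit 18)) (cs (nd (nat_lit 203) (nat_lit 0) (cs (rf (nat_lit 19)) (rf (nat_lit 20)))) (rf (nat_lit 5)))))) (nd (nat_lit 248) (nat_lit 0) (cs (lf (nat_lit 23) (nat_lit 224)) (nd (nat_lit 292) (nat_lit 0) (cs (rf (nat_lit 21)) (cs (rf (nat_lit 22)) (cs (nd (nat_lit 209) (nat_lit 0) (cs (lf (nat_lit 44) (nat_lit 186)) (nd (nat_lit 272) (nat_lit 0) (cs (lf (nat_lit 5) (nat_lit 247)) (nd (nat_lit 269) (nat_lit 0) (cs (lf (nat_lit 11) (nat_lit 246)) (nd (nat_lit 291) (nat_lit 0) (cs (lf (nat_lit 29) (nat_lit 225)) (nd (nat_lit 313) (nat_lit 0) (cs (lf (nat_lit 35) (nat_lit 225)) (rf (nat_lit 23)))))))))))) (nd (nat_lit 268) (nat_lit 0) (cs (lf (nat_lit 10) (nat_lit 246)) (nd (nat_lit 246) (nat_lit 0) (cs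 (lf (nat_lit 11) (nat_lit 245)) (nd (nat_lit 290) (nat_lit 0) (cs (lf (nat_lit 30) (nat_lit 224)) (nd (nat_lit 209) (nat_lit 0) (cs (lf (nat_lit 44) (nat_lit 186)) (nd (nat_lit 272) (nat_lit 0) (cs (lf (nat_lit 5) (nat_lit 247)) (nd (nat_lit 203) (nat_lit 0) (cs (lf (nat_lit 36) (nat_lit 180)) (nd (nat_lit 226) (nat_lit 0) (cs (lf (nat_lit 43) (nat_lit 203)) (nd (nat_lit 245) (nat_lit 0) (cs (lf (nat_lit 12) (nat_lit 222)) (lf (nat_lit 17) (nat_lit 223))))))))))))))))))))))))))))))) q69980 (by decide +kernel)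
def q70210 : Q := Q.p (nat_lit 0x800002680004000010000040000000000000000000000000000000000000000000000) (nat_lit 0x1100007c0007f8001fe000ffc0037f00017806b7f01e7f80ea7f0001c000010000000000000000000000000000000000) (nat_lit 13)
theorem c70210 : QOK q70210 := cut [q69539, q69546, q69549, q69579, q69588, q69589, q66782, q69915, q69997, q69538, q47097, q60933, q70003, q70130, q47397, q69926, q45689, q45760, q45793, q48747, q48763, q51695, q69582, q70175, q45489, q59174, q59148, q51499, q70186, q70190, q67710, q69924, q70199, q70209] ⟨c69539, c69546, c69549, c69579, c69588, c69589, c66782, c69915, c69997, c69538, c47097, c60933, c70003, c70130, c47397, c69926, c45689, c45760, c45793, c48747, c48763, c51695, c69582, c70175, c45489, c59174, c59148, c51499, c70186, c70190, c67710, c69924, c70199, c70209, trivial⟩ (nd (nat_lit 269) (nat_lit 0) (cs (nd (nat_lit 231) (nat_lit 0) (cs (lf (nat_lit 45) (nat_lit 186))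 (nd (nat_lit 225) (nat_lit 0) (cs (rf (nat_lit 0)) (cs (rf (nat_lit 1)) (cs (rf (nat_lit 2)) (cs (rf (nat_lit 3)) (cs (rf (nat_lit 4)) (rf (nat_lit 5)))))))))) (cs (nd (nat_lit 209) (nat_lit 0) (cs (lf (nat_lit 44) (nat_lit 186)) (nd (nat_lit 211) (nat_lit 0) (cs (rf (nat_lit 6)) (nd (nat_lit 225) (nat_lit 0) (cs (rf (nat_lit 5)) (cs (rf (nat_lit 7)) (cs (rf (nat_lit 8)) (cs (nd (nat_lit 291) (nat_lit 0) (cs (rf (nat_lit 9)) (cs (nd (nat_lit 226) (nat_lit 0) (cs (lf (nat_lit 35) (nat_lit 203)) (nd (nat_lit 313) (nat_lit 0) (cs (rf (nat_lit 10)) (lf (nat_lit 34) (nat_lit 225)))))) (nd (nat_lit 292) (nat_lit 0) (cs (lf (nat_lit 29) (nat_lit 225)) (nd (nat_lit 203) (nat_lit 0) (cs (lf (nat_lit 28) (nat_lit 203)) (nd (nat_lit 312) (nat_lit 0) (cs (lf (nat_lit 40) (nat_lit 224)) (nd (nat_lit 224) (nat_lit 0) (cs (lf (nat_lit 20) (nat_lit 224)) (rf (nat_lit 11))))))))))))) (rf (nat_lit 12))))))))))) (cs (rf (nat_lit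 13)) (cs (nd (nat_lit 209) (nat_lit 0) (cs (lf (nat_lit 44) (nat_lit 186)) (nd (nat_lit 211) (nat_lit 0) (cs (rf (nat_lit 6)) (nd (nat_lit 225) (nat_lit 0) (cs (rf (nat_lit 14)) (cs (rf (nat_lit 15)) (cs (rf (nat_lit 8)) (nd (nat_lit 203) (nat_lit 0) (cs (rf (nat_lit 16)) (cs (rf (nat_lit 17)) (cs (rf (nat_lit 18)) (nd (nat_lit 202) (nat_lit 0) (cs (lf (nat_lit 47) (nat_lit 180)) (nd (nat_lit 201) (nat_lit 0) (cs (rf (nat_lit 19)) (cs (rf (nat_lit 20)) (cs (rf (nat_lit 21)) (nd (nat_lit 268) (nat_lit 0) (cs (lf (nat_lit 41) (nat_lit 202)) (nd (nat_lit 204) (nat_lit 0) (cs (lf (nat_lit 35) (nat_lit 181)) (rf (nat_lit 22)))))))))))))))))))))))) (cs (rf (nat_lit 23)) (cs (nd (nat_lit 248) (nat_lit 0) (cs (lf (nat_lit 11) (nat_lit 246)) (nd (nat_lit 291) (nat_lit 0) (cs (rf (nat_lit 24)) (cs (rf (nat_lit 25)) (cs (nd (nat_lit 225) (nat_lit 0) (cs (lf (nat_lit 23) (nat_lit 224)) (nd (nat_lit 272) (nat_lit 0)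 (cs (lf (nat_lit 5) (nat_lit 247)) (nd (nat_lit 290) (nat_lit 0) (cs (lf (nat_lit 41) (nat_lit 224)) (rf (nat_lit 26)))))))) (nd (nat_lit 228) (nat_lit 0) (cs (lf (nat_lit 17) (nat_lit 225)) (nd (nat_lit 272) (nat_lit 0) (cs (lf (nat_lit 5) (nat_lit 247)) (nd (nat_lit 225) (nat_lit 0) (cs (lf (nat_lit 23) (nat_lit 224)) (nd (nat_lit 209) (nat_lit 0) (cs (lf (nat_lit 44) (nat_lit 186)) (nd (nat_lit 312) (nat_lit 0) (cs (lf (nat_lit 40) (nat_lit 224)) (nd (nat_lit 292) (nat_lit 0) (cs (lf (nat_lit 29) (nat_lit 225)) (nd (nat_lit 270) (nat_lit 0) (cs (lf (nat_lit 24) (nat_lit 203)) (rf (nat_lit 27)))))))))))))))))))))) (cs (nd (nat_lit 248) (nat_lit 0) (cs (lf (nat_lit 11) (nat_lit 246)) (nd (nat_lit 291) (nat_lit 0) (cs (rf (nat_lit 24)) (cs (nd (nat_lit 228) (nat_lit 0) (cs (lf (nat_lit 17) (nat_lit 225)) (nd (nat_lit 272) (nat_lit 0) (cs (lf (nat_lit 5) (nat_lit 247)) (rf (nat_lit 28)))))) (rf (nat_lit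 29))))))) (cs (nd (nat_lit 225) (nat_lit 0) (cs (rf (nat_lit 30)) (cs (rf (nat_lit 5)) (cs (rf (nat_lit 31)) (rf (nat_lit 15)))))) (cs (nd (nat_lit 248) (nat_lit 0) (cs (lf (nat_lit 11) (nat_lit 246)) (nd (nat_lit 291) (nat_lit 0) (cs (rf (nat_lit 24)) (cs (rf (nat_lit 29)) (nd (nat_lit 228) (nat_lit 0) (cs (lf (nat_lit 17) (nat_lit 225)) (nd (nat_lit 272) (nat_lit 0) (cs (lf (nat_lit 5) (nat_lit 247)) (rf (nat_lit 32))))))))))) (rf (nat_lit 33)))))))))))) q70210 (by decide +kernel)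
def q70287 : Q := Q.p (nat_lit 0x9a0002680000000010000040000000000000000000000000000000000000000000000) (nat_lit 0x500007c0003f00007c000010001040005700007c00004000000000000000000000000000000000000000000000) (nat_lit 9)
theorem c70287 : QOK q70287 := cut [q70263, q70274, q70269, q70277, q49160, q70100, q70279, q70283] ⟨c70263, c70274, c70269, c70277, c49160, c70100, c70279, c70283, trivial⟩ (nd (nat_lit 293) (nat_lit 0) (cs (rf (nat_lit 0)) (cs (rf (nat_lit 1)) (nd (nat_lit 315) (nat_lit 0) (cs (lf (nat_lit 30) (nat_lit 249)) (nd (nat_lit 291) (nat_lit 0) (cs (rf (nat_lit 2)) (cs (nd (nat_lit 230) (nat_lit 0) (cs (lf (nat_lit 27) (nat_lit 186)) (rf (nat_lit 3)))) (cs (nd (nat_lit 313) (nat_lit 0) (cs (rf (nat_lit 4)) (cs (rf (nat_lit 5)) (nd (nat_lit 314) (nat_lit 0) (cs (lf (nat_lit 29) (nat_lit 247)) (rf (nat_lit 6))))))) (nd (nat_lit 314) (nat_lit 0) (cs (lf (nat_lit 41) (nat_lit 248)) (rf (nat_lit 7)))))))))))))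 q70287 (by decide +kernel)
def q70529 : Q := Q.p (nat_lit 0x920002600000000010000040000000000000000000000000000000000000000000000) (nat_lit 0x50000fc000ff0000fc0002ce0011f006f7c01e7c00ebf000000000000000000000000000000000000000000000) (nat_lit 13)
theorem c70529 : QOK q70529 := cut [q44818, q66782, q70293, q70461, q70263, q70267, q70466, q70469, q48874, q70275, q70394, q47409, q70496, q70499, q70505, q70512, q52054, q70456, q70524, q44584, q70504, q47437, q52053] ⟨c44818, c66782, c70293, c70461, c70263, c70267, c70466, c70469, c48874, c70275, c70394, c47409, c70496, c70499, c70505, c70512, c52054, c70456, c70524, c44584, c70504, c47437, c52053, trivial⟩ (nd (nat_lit 209) (nat_lit 0) (cs (lf (nat_lit 44) (nat_lit 186)) (nd (nat_lit 247) (nat_lit 0) (cs (rf (nat_lit 0)) (cs (nd (nat_lit 211) (nat_lit 0) (cs (rf (nat_lit 1)) (nd (nat_lit 271) (nat_lit 0) (cs (rf (nat_lit 2)) (cs (rf (nat_lit 3)) (cs (nd (nat_lit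 293) (nat_lit 0) (cs (rf (nat_lit 4)) (cs (nd (nat_lit 291) (nat_lit 0) (cs (rf (nat_lit 5)) (cs (rf (nat_lit 6)) (nd (nat_lit 206) (nat_lit 0) (cs (lf (nat_lit 37) (nat_lit 205)) (rf (nat_lit 7))))))) (nd (nat_lit 315) (nat_lit 0) (cs (lf (nat_lit 30) (nat_lit 249)) (nd (nat_lit 314) (nat_lit 0) (cs (lf (nat_lit 41) (nat_lit 248)) (nd (nat_lit 291) (nat_lit 0) (cs (nd (nat_lit 316) (nat_lit 0) (cs (lf (nat_lit 29) (nat_lit 249)) (nd (nat_lit 313) (nat_lit 0) (cs (lf (nat_lit 23) (nat_lit 290)) (rf (nat_lit 8)))))) (cs (nd (nat_lit 230) (nat_lit 0) (cs (lf (nat_lit 27) (nat_lit 186)) (nd (nat_lit 316) (nat_lit 0) (cs (lf (nat_lit 29) (nat_lit 249)) (rf (nat_lit 9)))))) (nd (nat_lit 292) (nat_lit 0) (cs (lf (nat_lit 12) (nat_lit 268)) (lf (nat_lit 24) (nat_lit 225)))))))))))))) (cs (nd (nat_lit 315) (nat_lit 0) (cs (rf (nat_lit 10)) (cs (nd (nat_lit 230) (nat_lit 0) (cs (lf (nat_lit 27) (nat_lit 186)) (nd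 (nat_lit 270) (nat_lit 0) (cs (lf (nat_lit 23) (nat_lit 246)) (nd (nat_lit 290) (nat_lit 0) (cs (lf (nat_lit 10) (nat_lit 268)) (nd (nat_lit 294) (nat_lit 0) (cs (lf (nat_lit 5) (nat_lit 269)) (rf (nat_lit 11)))))))))) (nd (nat_lit 228) (nat_lit 0) (cs (lf (nat_lit 31) (nat_lit 227)) (nd (nat_lit 206) (nat_lit 0) (cs (lf (nat_lit 36) (nat_lit 183)) (nd (nat_lit 183) (nat_lit 0) (cs (lf (nat_lit 46) (nat_lit 183)) (nd (nat_lit 270) (nat_lit 0) (cs (lf (nat_lit 23) (nat_lit 246)) (nd (nat_lit 295) (nat_lit 0) (cs (lf (nat_lit 28) (nat_lit 206)) (lf (nat_lit 4) (nat_lit 269))))))))))))))) (cs (rf (nat_lit 12)) (rf (nat_lit 13)))))))))) (cs (rf (nat_lit 14)) (cs (rf (nat_lit 15)) (cs (nd (nat_lit 271) (nat_lit 0) (cs (rf (nat_lit 16)) (cs (nd (nat_lit 230) (nat_lit 0) (cs (lf (nat_lit 27) (nat_lit 186)) (nd (nat_lit 270) (nat_lit 0) (cs (lf (nat_lit 23) (nat_lit 246)) (rf (nat_lit 17)))))) (rf (nat_lit 12)))))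 (cs (nd (nat_lit 248) (nat_lit 0) (cs (lf (nat_lit 5) (nat_lit 247)) (rf (nat_lit 18)))) (nd (nat_lit 248) (nat_lit 0) (cs (rf (nat_lit 19)) (cs (rf (nat_lit 20)) (cs (rf (nat_lit 18)) (nd (nat_lit 271) (nat_lit 0) (cs (rf (nat_lit 21)) (rf (nat_lit 22))))))))))))))))) q70529 (by decide +kernel)
def q70566 : Q := Q.p (nat_lit 0x820002080000000010000040000000000000000000000000000000000000000000000) (nat_lit 0x1400007e0003f80005f00104006c7f01e3f80ea7f00014000000000000000000000000000000000000000) (nat_lit 12)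
theorem c70566 : QOK q70566 := cut [q70452, q70539, q66782, q70555, q70562, q70564, q70565] ⟨c70452, c70539, c66782, c70555, c70562, c70564, c70565, trivial⟩ (nd (nat_lit 225) (nat_lit 0) (cs (rf (nat_lit 0)) (cs (nd (nat_lit 209) (nat_lit 0) (cs (lf (nat_lit 44) (nat_lit 186)) (rf (nat_lit 1)))) (cs (nd (nat_lit 209) (nat_lit 0) (cs (lf (nat_lit 44) (nat_lit 186)) (nd (nat_lit 211) (nat_lit 0) (cs (rf (nat_lit 2)) (rf (nat_lit 3)))))) (cs (rf (nat_lit 4)) (cs (rf (nat_lit 5)) (rf (nat_lit 6)))))))) q70566 (by decide +kernel)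
def q70622 : Q := Q.p (nat_lit 0x920002680000000010000040000000000000000000000000000000000000000000000) (nat_lit 0x100000700003c0000fc0007c00009c001040005700005c00007000004000000000000000000000000000000000000000) (nat_lit 11)
theorem c70622 : QOK q70622 := cut [q70568, q46785, q70561, q70563, q70571, q70581, q70100, q70580, q70588, q70263, q70597, q69576, q70604, q70610, q70620, q70621] ⟨c70568, c46785, c70561, c70563, c70571, c70581, c70100, c70580, c70588, c70263, c70597, c69576, c70604, c70610, c70620, c70621, trivial⟩ (nd (nat_lit 291) (nat_lit 0) (cs (rf (nat_lit 0)) (cs (nd (nat_lit 225) (nat_lit 0) (cs (rf (nat_lit 1)) (cs (rf (nat_lit 2)) (cs (rf (nat_lit 3)) (nd (nat_lit 290) (nat_lit 0) (cs (lf (nat_lit 41) (nat_lit 224)) (nd (nat_lit 230) (nat_lit 0) (cs (lf (nat_lit 27) (nat_lit 186)) (nd (nat_lit 204) (nat_lit 0) (cs (lf (nat_lit 34) (nat_lit 203)) (nd (nat_lit 202) (nat_lit 0) (cs (lf (nat_lit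 46) (nat_lit 202)) (rf (nat_lit 4)))))))))))))) (cs (rf (nat_lit 5)) (cs (nd (nat_lit 313) (nat_lit 0) (cs (rf (nat_lit 6)) (cs (rf (nat_lit 7)) (cs (nd (nat_lit 312) (nat_lit 0) (cs (lf (nat_lit 41) (nat_lit 246)) (nd (nat_lit 293) (nat_lit 0) (cs (nd (nat_lit 230) (nat_lit 0) (cs (lf (nat_lit 27) (nat_lit 186)) (nd (nat_lit 224) (nat_lit 0) (cs (lf (nat_lit 46) (nat_lit 224)) (nd (nat_lit 314) (nat_lit 0) (cs (lf (nat_lit 29) (nat_lit 247)) (nd (nat_lit 315) (nat_lit 0) (cs (lf (nat_lit 17) (nat_lit 290)) (nd (nat_lit 271) (nat_lit 0) (cs (lf (nat_lit 30) (nat_lit 249)) (lf (nat_lit 35) (nat_lit 227)))))))))))) (cs (rf (nat_lit 8)) (nd (nat_lit 230) (nat_lit 0) (cs (lf (nat_lit 27) (nat_lit 186)) (nd (nat_lit 224) (nat_lit 0) (cs (lf (nat_lit 46) (nat_lit 224)) (nd (nat_lit 314) (nat_lit 0) (cs (lf (nat_lit 29) (nat_lit 247)) (nd (nat_lit 292) (nat_lit 0) (cs (lf (nat_lit 12) (nat_lit 289)) (nd (nat_lit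 271) (nat_lit 0) (cs (lf (nat_lit 12) (nat_lit 268)) (rf (nat_lit 9))))))))))))))))) (rf (nat_lit 10)))))) (cs (nd (nat_lit 225) (nat_lit 0) (cs (rf (nat_lit 1)) (cs (rf (nat_lit 11)) (cs (rf (nat_lit 12)) (rf (nat_lit 13)))))) (cs (rf (nat_lit 14)) (rf (nat_lit 15))))))))) q70622 (by decide +kernel)
def q70652 : Q := Q.p (nat_lit 0x9a0002600000000010000040000000000000000000000000000000000000000000000) (nat_lit 0xe0000380000e00000500000c00090000e40000b8000000000000000000000000000000000000000000000) (nat_lit 12)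
theorem c70652 : QOK q70652 := cut [q70649] ⟨c70649, trivial⟩ (nd (nat_lit 209) (nat_lit 0) (cs (lf (nat_lit 44) (nat_lit 186)) (nd (nat_lit 270) (nat_lit 0) (cs (lf (nat_lit 12) (nat_lit 246)) (nd (nat_lit 246) (nat_lit 0) (cs (lf (nat_lit 22) (nat_lit 246)) (rf (nat_lit 0)))))))) q70652 (by decide +kernel)
def q70655 : Q := Q.p (nat_lit 0x200009a0002600000000010000040000000000000000000000000000000000000000000000) (nat_lit 0x500005c0003700005c0002100011c0004780001c00005000000000000000000000000000000000000000000000) (nat_lit 9)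
theorem c70655 : QOK q70655 := cut [q47072, q70444, q70458, q70268, q70469, q70581, q70621] ⟨c47072, c70444, c70458, c70268, c70469, c70581, c70621, trivial⟩ (nd (nat_lit 247) (nat_lit 0) (cs (rf (nat_lit 0)) (cs (rf (nat_lit 1)) (cs (rf (nat_lit 2)) (nd (nat_lit 291) (nat_lit 0) (cs (rf (nat_lit 3)) (cs (rf (nat_lit 4)) (cs (rf (nat_lit 5)) (rf (nat_lit 6)))))))))) q70655 (by decide +kernel)
def q70699 : Q := Q.p (nat_lit 0x920002600000000010000040000000000000000000000000000000000000000000000) (nat_lit 0x740003fe000df8002df0011f806f7c01e1c00ea7000014000000000000000000000000000000000000000) (nat_lit 13)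
theorem c70699 : QOK q70699 := cut [q70672, q70676, q66782, q70456, q70512, q47263, q65610, q70444, q70505, q45793, q70447, q70452, q70564, q69576, q70551, q70554, q70692, q70664] ⟨c70672, c70676, c66782, c70456, c70512, c47263, c65610, c70444, c70505, c45793, c70447, c70452, c70564, c69576, c70551, c70554, c70692, c70664, trivial⟩ (nd (nat_lit 209) (nat_lit 0) (cs (lf (nat_lit 44) (nat_lit 186)) (nd (nat_lit 270) (nat_lit 0) (cs (nd (nat_lit 268) (nat_lit 0) (cs (lf (nat_lit 15) (nat_lit 246)) (rf (nat_lit 0)))) (cs (nd (nat_lit 230) (nat_lit 0) (cs (lf (nat_lit 27) (nat_lit 186)) (rf (nat_lit 1)))) (cs (nd (nat_lit 211) (nat_lit 0) (cs (rf (nat_lit 2)) (nd (nat_lit 247) (nat_lit 0) (cs (nd (nat_lit 271) (nat_lit 0) (cs (lf (nat_lit 23) (nat_lit 246)) (rf (nat_lit 3)))) (cs (rf (nat_lit 4)) (cs (nd (nat_lit 248) (nat_lit 0) (cs (rf (nat_lit 5)) (nd (nat_lit 230) (nat_lit 0) (cs (lf (nat_lit 27) (nat_lit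 186)) (nd (nat_lit 271) (nat_lit 0) (cs (lf (nat_lit 0) (nat_lit 246)) (rf (nat_lit 6)))))))) (nd (nat_lit 230) (nat_lit 0) (cs (lf (nat_lit 27) (nat_lit 186)) (nd (nat_lit 248) (nat_lit 0) (cs (lf (nat_lit 5) (nat_lit 247)) (nd (nat_lit 228) (nat_lit 0) (cs (lf (nat_lit 17) (nat_lit 225)) (rf (nat_lit 5)))))))))))))) (cs (nd (nat_lit 247) (nat_lit 0) (cs (rf (nat_lit 7)) (cs (rf (nat_lit 8)) (nd (nat_lit 225) (nat_lit 0) (cs (nd (nat_lit 203) (nat_lit 0) (cs (lf (nat_lit 29) (nat_lit 203)) (rf (nat_lit 9)))) (cs (rf (nat_lit 10)) (cs (rf (nat_lit 11)) (cs (rf (nat_lit 12)) (nd (nat_lit 291) (nat_lit 0) (cs (rf (nat_lit 13)) (cs (rf (nat_lit 14)) (cs (rf (nat_lit 15)) (rf (nat_lit 16)))))))))))))) (nd (nat_lit 230) (nat_lit 0) (cs (lf (nat_lit 27) (nat_lit 186)) (nd (nat_lit 271) (nat_lit 0) (cs (lf (nat_lit 12) (nat_lit 246)) (rf (nat_lit 17))))))))))))) q70699 (by decide +kernel)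
def q71051 : Q := Q.p (nat_lit 0x920002600008000010000040000000000000000000000000000000000000000000000) (nat_lit 0x1500007c000ff0003fe000ffc0005f0011f80077f0007f80007f00014000000000000000000000000000000000000000) (nat_lit 12)
theorem c71051 : QOK q71051 := cut [q70565, q45760, q34492, q70957, q70961, q70971, q59148, q69714, q70977, q70452, q70539, q70555, q70562, q70564, q71026, q47397, q71030, q70620, q70981, q70144, q70143, q71021, q71022, q71034, q70100, q70613, q70619, q70161, q70502, q70503, q70846, q71044, q70758, q70190, q70199, q45489, q70186] ⟨c70565, c45760, c34492, c70957, c70961, c70971, c59148, c69714, c70977, c70452, c70539, c70555, c70562, c70564, c71026, c47397, c71030, c70620, c70981, c70144, c70143, c71021, c71022, c71034, c70100, c70613, c70619, c70161, c70502, c70503, c70846, c71044, c70758, c70190, c70199, c45489, c70186, trivial⟩ (nd (nat_lit 247) (nat_lit 0) (cs (nd (nat_lit 225)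 (nat_lit 0) (cs (rf (nat_lit 0)) (cs (nd (nat_lit 203) (nat_lit 0) (cs (rf (nat_lit 1)) (cs (nd (nat_lit 230) (nat_lit 0) (cs (lf (nat_lit 27) (nat_lit 186)) (nd (nat_lit 228) (nat_lit 0) (cs (lf (nat_lit 8) (nat_lit 227)) (nd (nat_lit 204) (nat_lit 0) (cs (lf (nat_lit 35) (nat_lit 181)) (nd (nat_lit 180) (nat_lit 0) (cs (lf (nat_lit 46) (nat_lit 180)) (rf (nat_lit 2)))))))))) (cs (rf (nat_lit 3)) (rf (nat_lit 4)))))) (cs (rf (nat_lit 5)) (cs (nd (nat_lit 291) (nat_lit 0) (cs (rf (nat_lit 6)) (nd (nat_lit 230) (nat_lit 0) (cs (lf (nat_lit 27) (nat_lit 186)) (nd (nat_lit 228) (nat_lit 0) (cs (lf (nat_lit 8) (nat_lit 227)) (nd (nat_lit 224) (nat_lit 0) (cs (lf (nat_lit 20) (nat_lit 224)) (rf (nat_lit 7)))))))))) (rf (nat_lit 8))))))) (cs (nd (nat_lit 225) (nat_lit 0) (cs (rf (nat_lit 9)) (cs (rf (nat_lit 10)) (cs (rf (nat_lit 11)) (cs (rf (nat_lit 12)) (cs (rf (nat_lit 13)) (rf (nat_lit 0)))))))) (cs (rf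 (nat_lit 14)) (cs (nd (nat_lit 225) (nat_lit 0) (cs (rf (nat_lit 15)) (cs (rf (nat_lit 10)) (cs (rf (nat_lit 5)) (rf (nat_lit 16)))))) (cs (nd (nat_lit 291) (nat_lit 0) (cs (rf (nat_lit 17)) (cs (rf (nat_lit 18)) (cs (nd (nat_lit 292) (nat_lit 0) (cs (rf (nat_lit 19)) (nd (nat_lit 230) (nat_lit 0) (cs (lf (nat_lit 27) (nat_lit 186)) (rf (nat_lit 20)))))) (cs (nd (nat_lit 313) (nat_lit 0) (cs (rf (nat_lit 21)) (cs (rf (nat_lit 22)) (rf (nat_lit 23))))) (nd (nat_lit 313) (nat_lit 0) (cs (rf (nat_lit 24)) (cs (rf (nat_lit 25)) (cs (rf (nat_lit 26)) (cs (rf (nat_lit 23)) (nd (nat_lit 230) (nat_lit 0) (cs (lf (nat_lit 27) (nat_lit 186)) (nd (nat_lit 314) (nat_lit 0) (cs (lf (nat_lit 29) (nat_lit 247)) (nd (nat_lit 228) (nat_lit 0) (cs (lf (nat_lit 8) (nat_lit 227)) (nd (nat_lit 248) (nat_lit 0) (cs (lf (nat_lit 11) (nat_lit 246)) (rf (nat_lit 27)))))))))))))))))))) (cs (nd (nat_lit 248) (nat_lit 0) (cs (lf (nat_lit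 11) (nat_lit 246)) (nd (nat_lit 291) (nat_lit 0) (cs (rf (nat_lit 28)) (cs (rf (nat_lit 29)) (rf (nat_lit 30))))))) (cs (rf (nat_lit 31)) (cs (nd (nat_lit 268) (nat_lit 0) (cs (lf (nat_lit 8) (nat_lit 246)) (rf (nat_lit 32)))) (cs (nd (nat_lit 248) (nat_lit 0) (cs (lf (nat_lit 11) (nat_lit 246)) (nd (nat_lit 291) (nat_lit 0) (cs (rf (nat_lit 33)) (cs (rf (nat_lit 28)) (nd (nat_lit 228) (nat_lit 0) (cs (lf (nat_lit 17) (nat_lit 225)) (rf (nat_lit 34))))))))) (nd (nat_lit 248) (nat_lit 0) (cs (lf (nat_lit 11) (nat_lit 246)) (nd (nat_lit 291) (nat_lit 0) (cs (rf (nat_lit 35)) (cs (rf (nat_lit 36)) (rf (nat_lit 33))))))))))))))))) q71051 (by decide +kernel)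
def q71193 : Q := Q.p (nat_lit 0x830002600000000010000040000000000000000000000000000000000000000000000) (nat_lit 0x1400007c0001f0000c00011c0004700001c00007000010000000000000000000000000000000000000000) (nat_lit 11)
theorem c71193 : QOK q71193 := cut [q70558, q70564, q70565, q71029, q69576, q70551, q70554] ⟨c70558, c70564, c70565, c71029, c69576, c70551, c70554, trivial⟩ (nd (nat_lit 247) (nat_lit 0) (cs (lf (nat_lit 8) (nat_lit 246)) (nd (nat_lit 225) (nat_lit 0) (cs (rf (nat_lit 0)) (cs (rf (nat_lit 1)) (cs (rf (nat_lit 2)) (cs (rf (nat_lit 3)) (nd (nat_lit 291) (nat_lit 0) (cs (rf (nat_lit 4)) (cs (rf (nat_lit 5)) (cs (rf (nat_lit 6)) (nd (nat_lit 224) (nat_lit 0) (cs (lf (nat_lit 47) (nat_lit 202)) (nd (nat_lit 270) (nat_lit 0) (cs (lf (nat_lit 15) (nat_lit 246)) (nd (nat_lit 290) (nat_lit 0) (cs (lf (nat_lit 41) (nat_lit 224)) (nd (nat_lit 230) (nat_lit 0) (cs (lf (nat_lit 27) (nat_lit 186)) (nd (nat_lit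 292) (nat_lit 0) (cs (lf (nat_lit 29) (nat_lit 225)) (nd (nat_lit 289) (nat_lit 0) (cs (lf (nat_lit 12) (nat_lit 266)) (nd (nat_lit 311) (nat_lit 0) (cs (lf (nat_lit 11) (nat_lit 288)) (lf (nat_lit 37) (nat_lit 223))))))))))))))))))))))))))) q71193 (by decide +kernel)
def q71566 : Q := Q.p (nat_lit 0x20000900002600000000010000040000000000000000000000000000000000000000000000) (nat_lit 0x80000e00003a0000fc000ff8001dc00067800118006c6001e0000ea0000000000000000000000000000000000000000000000) (nat_lit 13)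
theorem c71566 : QOK q71566 := cut [q71459, q71487, q47469, q71503, q45149, q60914, q71504, q60601, q70937, q71520, q71526, q66782, q71461, q71471, q71486, q71531, q71553, q48688, q60777] ⟨c71459, c71487, c47469, c71503, c45149, c60914, c71504, c60601, c70937, c71520, c71526, c66782, c71461, c71471, c71486, c71531, c71553, c48688, c60777, trivial⟩ (nd (nat_lit 294) (nat_lit 0) (cs (rf (nat_lit 0)) (cs (rf (nat_lit 1)) (cs (nd (nat_lit 316) (nat_lit 0) (cs (rf (nat_lit 2)) (cs (rf (nat_lit 3)) (nd (nat_lit 315) (nat_lit 0) (cs (rf (nat_lit 4)) (nd (nat_lit 314) (nat_lit 0) (cs (rf (nat_lit 5)) (cs (nd (nat_lit 318) (nat_lit 0) (cs (rf (nat_lit 6)) (nd (nat_lit 252) (nat_lit 0) (cs (lf (nat_lit 26) (nat_lit 186)) (nd (nat_lit 296) (nat_lit 0) (cs (lf (nat_lit 7) (nat_lit 292)) (nd (nat_lit 231) (nat_lit 0) (cs (lf (nat_lit 45) (nat_lit 186)) (lf (nat_lit 32) (nat_lit 230)))))))))) (nd (nat_lit 209) (nat_lit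 0) (cs (lf (nat_lit 44) (nat_lit 186)) (nd (nat_lit 230) (nat_lit 0) (cs (lf (nat_lit 27) (nat_lit 186)) (nd (nat_lit 313) (nat_lit 0) (cs (lf (nat_lit 12) (nat_lit 290)) (nd (nat_lit 334) (nat_lit 0) (cs (lf (nat_lit 10) (nat_lit 312)) (nd (nat_lit 291) (nat_lit 0) (cs (lf (nat_lit 23) (nat_lit 290)) (nd (nat_lit 292) (nat_lit 0) (cs (lf (nat_lit 5) (nat_lit 291)) (nd (nat_lit 269) (nat_lit 0) (cs (lf (nat_lit 23) (nat_lit 268)) (rf (nat_lit 7)))))))))))))))))))))))) (cs (nd (nat_lit 274) (nat_lit 0) (cs (lf (nat_lit 20) (nat_lit 249)) (nd (nat_lit 316) (nat_lit 0) (cs (rf (nat_lit 8)) (cs (rf (nat_lit 3)) (cs (nd (nat_lit 231) (nat_lit 0) (cs (lf (nat_lit 45) (nat_lit 186)) (rf (nat_lit 9)))) (cs (nd (nat_lit 231) (nat_lit 0) (cs (lf (nat_lit 45) (nat_lit 186)) (nd (nat_lit 315) (nat_lit 0) (cs (lf (nat_lit 41) (nat_lit 249)) (nd (nat_lit 252) (nat_lit 0) (cs (lf (nat_lit 26) (nat_lit 186)) (nd (nat_lit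 318) (nat_lit 0) (cs (lf (nat_lit 31) (nat_lit 230)) (rf (nat_lit 6)))))))))) (rf (nat_lit 10))))))))) (cs (nd (nat_lit 209) (nat_lit 0) (cs (lf (nat_lit 44) (nat_lit 186)) (nd (nat_lit 211) (nat_lit 0) (cs (rf (nat_lit 11)) (nd (nat_lit 273) (nat_lit 0) (cs (lf (nat_lit 19) (nat_lit 249)) (nd (nat_lit 292) (nat_lit 0) (cs (rf (nat_lit 12)) (cs (rf (nat_lit 13)) (cs (rf (nat_lit 14)) (nd (nat_lit 315) (nat_lit 0) (cs (rf (nat_lit 4)) (nd (nat_lit 230) (nat_lit 0) (cs (lf (nat_lit 27) (nat_lit 186)) (nd (nat_lit 248) (nat_lit 0) (cs (lf (nat_lit 0) (nat_lit 247)) (rf (nat_lit 15)))))))))))))))))) (cs (rf (nat_lit 16)) (nd (nat_lit 209) (nat_lit 0) (cs (lf (nat_lit 44) (nat_lit 186)) (nd (nat_lit 273) (nat_lit 0) (cs (lf (nat_lit 19) (nat_lit 249)) (nd (nat_lit 317) (nat_lit 0) (cs (rf (nat_lit 17)) (cs (nd (nat_lit 247) (nat_lit 0) (cs (lf (nat_lit 1) (nat_lit 247)) (nd (nat_lit 230) (nat_lit 0) (cs (lf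 (nat_lit 27) (nat_lit 186)) (nd (nat_lit 292) (nat_lit 0) (cs (lf (nat_lit 12) (nat_lit 269)) (nd (nat_lit 318) (nat_lit 0) (cs (lf (nat_lit 3) (nat_lit 292)) (nd (nat_lit 316) (nat_lit 0) (cs (lf (nat_lit 18) (nat_lit 293)) (lf (nat_lit 21) (nat_lit 292)))))))))))) (cs (nd (nat_lit 295) (nat_lit 0) (cs (lf (nat_lit 42) (nat_lit 250)) (rf (nat_lit 18)))) (nd (nat_lit 316) (nat_lit 0) (cs (lf (nat_lit 29) (nat_lit 250)) (nd (nat_lit 318) (nat_lit 0) (cs (lf (nat_lit 18) (nat_lit 293)) (nd (nat_lit 292) (nat_lit 0) (cs (lf (nat_lit 21) (nat_lit 292)) (lf (nat_lit 12) (nat_lit 269))))))))))))))))))))))) q71566 (by decide +kernel)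
def q71631 : Q := Q.p (nat_lit 0x60000900002600000000010000040000000000000000000000000000000000000000000000) (nat_lit 0xa0000380000f0000f780019c0004f80010c000c200020800000000000000000000000000000000000000000000000000) (nat_lit 12)
theorem c71631 : QOK q71631 := cut [q44930, q71570, q71572, q71579, q71590, q58549, q14241, q59254, q14235, q45240, q71580, q71620, q45255, q60543, q60545] ⟨c44930, c71570, c71572, c71579, c71590, c58549, c14241, c59254, c14235, c45240, c71580, c71620, c45255, c60543, c60545, trivial⟩ (nd (nat_lit 292) (nat_lit 0) (cs (nd (nat_lit 291) (nat_lit 0) (cs (rf (nat_lit 0)) (cs (rf (nat_lit 1)) (nd (nat_lit 230) (nat_lit 0) (cs (lf (nat_lit 27) (nat_lit 186)) (nd (nat_lit 316) (nat_lit 0) (cs (lf (nat_lit 5) (nat_lit 291)) (nd (nat_lit 268) (nat_lit 0) (cs (lf (nat_lit 22) (nat_lit 268)) (nd (nat_lit 312) (nat_lit 0) (cs (lf (nat_lit 10) (nat_lit 290)) (rf (nat_lit 2))))))))))))) (cs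 (rf (nat_lit 3)) (cs (rf (nat_lit 4)) (cs (nd (nat_lit 291) (nat_lit 0) (cs (rf (nat_lit 0)) (cs (nd (nat_lit 230) (nat_lit 0) (cs (lf (nat_lit 27) (nat_lit 186)) (nd (nat_lit 317) (nat_lit 0) (cs (lf (nat_lit 4) (nat_lit 291)) (nd (nat_lit 209) (nat_lit 0) (cs (lf (nat_lit 44) (nat_lit 186)) (nd (nat_lit 295) (nat_lit 0) (cs (lf (nat_lit 5) (nat_lit 292)) (rf (nat_lit 5)))))))))) (nd (nat_lit 317) (nat_lit 0) (cs (lf (nat_lit 4) (nat_lit 291)) (nd (nat_lit 209) (nat_lit 0) (cs (lf (nat_lit 44) (nat_lit 186)) (nd (nat_lit 295) (nat_lit 0) (cs (rf (nat_lit 6)) (lf (nat_lit 5) (nat_lit 292))))))))))) (cs (nd (nat_lit 291) (nat_lit 0) (cs (rf (nat_lit 0)) (cs (nd (nat_lit 209) (nat_lit 0) (cs (lf (nat_lit 44) (nat_lit 186)) (nd (nat_lit 271) (nat_lit 0) (cs (lf (nat_lit 12) (nat_lit 268)) (nd (nat_lit 316) (nat_lit 0) (cs (lf (nat_lit 42) (nat_lit 249)) (nd (nat_lit 230) (nat_lit 0) (cs (lf (nat_lit 27) (nat_lit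 186)) (nd (nat_lit 313) (nat_lit 0) (cs (lf (nat_lit 11) (nat_lit 290)) (nd (nat_lit 295) (nat_lit 0) (cs (lf (nat_lit 10) (nat_lit 291)) (rf (nat_lit 7)))))))))))))) (cs (nd (nat_lit 313) (nat_lit 0) (cs (lf (nat_lit 11) (nat_lit 290)) (nd (nat_lit 209) (nat_lit 0) (cs (lf (nat_lit 44) (nat_lit 186)) (nd (nat_lit 295) (nat_lit 0) (cs (lf (nat_lit 10) (nat_lit 291)) (rf (nat_lit 6)))))))) (nd (nat_lit 209) (nat_lit 0) (cs (lf (nat_lit 44) (nat_lit 186)) (nd (nat_lit 271) (nat_lit 0) (cs (lf (nat_lit 12) (nat_lit 268)) (nd (nat_lit 316) (nat_lit 0) (cs (lf (nat_lit 42) (nat_lit 249)) (nd (nat_lit 269) (nat_lit 0) (cs (lf (nat_lit 23) (nat_lit 268)) (nd (nat_lit 230) (nat_lit 0) (cs (lf (nat_lit 27) (nat_lit 186)) (nd (nat_lit 270) (nat_lit 0) (cs (rf (nat_lit 8)) (lf (nat_lit 18) (nat_lit 269)))))))))))))))))) (cs (nd (nat_lit 269) (nat_lit 0) (cs (rf (nat_lit 9)) (cs (nd (nat_lit 295) (nat_lit 0) (cs (lf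 (nat_lit 22) (nat_lit 269)) (nd (nat_lit 209) (nat_lit 0) (cs (lf (nat_lit 44) (nat_lit 186)) (nd (nat_lit 274) (nat_lit 0) (cs (lf (nat_lit 15) (nat_lit 271)) (nd (nat_lit 317) (nat_lit 0) (cs (lf (nat_lit 5) (nat_lit 292)) (rf (nat_lit 10)))))))))) (nd (nat_lit 209) (nat_lit 0) (cs (lf (nat_lit 44) (nat_lit 186)) (nd (nat_lit 230) (nat_lit 0) (cs (lf (nat_lit 27) (nat_lit 186)) (rf (nat_lit 11))))))))) (nd (nat_lit 269) (nat_lit 0) (cs (rf (nat_lit 12)) (cs (nd (nat_lit 295) (nat_lit 0) (cs (lf (nat_lit 22) (nat_lit 269)) (nd (nat_lit 230) (nat_lit 0) (cs (lf (nat_lit 27) (nat_lit 186)) (rf (nat_lit 13)))))) (nd (nat_lit 209) (nat_lit 0) (cs (lf (nat_lit 44) (nat_lit 186)) (nd (nat_lit 230) (nat_lit 0) (cs (lf (nat_lit 27) (nat_lit 186)) (nd (nat_lit 291) (nat_lit 0) (cs (lf (nat_lit 23) (nat_lit 268)) (nd (nat_lit 271) (nat_lit 0) (cs (lf (nat_lit 12) (nat_lit 268)) (rf (nat_lit 14))))))))))))))))))))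 q71631 (by decide +kernel)
def q71635 : Q := Q.p (nat_lit 0x8000920002600000000010000040000000000000000000000000000000000000000000000) (nat_lit 0x4000030000040006100011c0004700001c00005000000000000000000000000000000000000000000000) (nat_lit 8)
theorem c71635 : QOK q71635 := cut [q56821, q70621] ⟨c56821, c70621, trivial⟩ (nd (nat_lit 247) (nat_lit 0) (cs (rf (nat_lit 0)) (rf (nat_lit 1)))) q71635 (by decide +kernel)
def q71751 : Q := Q.p (nat_lit 0x20000980002600000000010000040000000000000000000000000000000000000000000000) (nat_lit 0x500001c0000780001c0006700011c000c700021c00005000000000000000000000000000000000000000000000) (nat_lit 11)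
theorem c71751 : QOK q71751 := cut [q52276, q56821, q45664, q70378, q70499, q70269, q70581, q70621, q70100, q70580, q70597, q48718] ⟨c52276, c56821, c45664, c70378, c70499, c70269, c70581, c70621, c70100, c70580, c70597, c48718, trivial⟩ (nd (nat_lit 247) (nat_lit 0) (cs (rf (nat_lit 0)) (cs (rf (nat_lit 1)) (nd (nat_lit 269) (nat_lit 0) (cs (rf (nat_lit 2)) (cs (rf (nat_lit 3)) (cs (rf (nat_lit 4)) (nd (nat_lit 291) (nat_lit 0) (cs (rf (nat_lit 5)) (cs (rf (nat_lit 6)) (cs (rf (nat_lit 7)) (cs (nd (nat_lit 313) (nat_lit 0) (cs (rf (nat_lit 8)) (cs (rf (nat_lit 9)) (cs (rf (nat_lit 10)) (nd (nat_lit 209) (nat_lit 0) (cs (lf (nat_lit 44) (nat_lit 186)) (nd (nat_lit 314) (nat_lit 0) (cs (lf (nat_lit 29) (nat_lit 247)) (nd (nat_lit 230) (nat_lit 0) (cs (lf (nat_lit 27) (nat_lit 186)) (nd (nat_lit 224) (nat_lit 0) (cs (lf (nat_lit 46) (nat_lit 224)) (nd (nat_lit 292) (nat_lit 0) (cs (lf (nat_lit 12) (nat_lit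 268)) (nd (nat_lit 312) (nat_lit 0) (cs (lf (nat_lit 41) (nat_lit 246)) (lf (nat_lit 12) (nat_lit 289)))))))))))))))))) (nd (nat_lit 292) (nat_lit 0) (cs (lf (nat_lit 12) (nat_lit 268)) (nd (nat_lit 209) (nat_lit 0) (cs (lf (nat_lit 44) (nat_lit 186)) (nd (nat_lit 273) (nat_lit 0) (cs (lf (nat_lit 6) (nat_lit 270)) (rf (nat_lit 11)))))))))))))))))))) q71751 (by decide +kernel)
def q71798 : Q := Q.p (nat_lit 0x20000980002600000000010000040000000000000000000000000000000000000000000000) (nat_lit 0x3f0000ff0001d8000000001000004000000000000000000000000000000000000000000000000000000000) (nat_lit 10)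
theorem c71798 : QOK q71798 := cut [q47470, q70315, q71796, q71797] ⟨c47470, c70315, c71796, c71797, trivial⟩ (nd (nat_lit 294) (nat_lit 0) (cs (rf (nat_lit 0)) (cs (rf (nat_lit 1)) (cs (rf (nat_lit 2)) (rf (nat_lit 3)))))) q71798 (by decide +kernel)
def q71885 : Q := Q.p (nat_lit 0x20000980002600000000010000040000000000000000000000000000000000000000000000) (nat_lit 0xe0000f80000dc0000700011c000c700021c00007000004000000000000000000000000000000000000000) (nat_lit 12)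
theorem c71885 : QOK q71885 := cut [q47438, q71832, q60149, q71313, q47263, q71170, q52149, q46797, q45763, q71879] ⟨c47438, c71832, c60149, c71313, c47263, c71170, c52149, c46797, c45763, c71879, trivial⟩ (nd (nat_lit 269) (nat_lit 0) (cs (rf (nat_lit 0)) (cs (rf (nat_lit 1)) (cs (nd (nat_lit 315) (nat_lit 0) (cs (lf (nat_lit 30) (nat_lit 249)) (nd (nat_lit 316) (nat_lit 0) (cs (lf (nat_lit 29) (nat_lit 249)) (nd (nat_lit 209) (nat_lit 0) (cs (lf (nat_lit 44) (nat_lit 186)) (nd (nat_lit 230) (nat_lit 0) (cs (lf (nat_lit 27) (nat_lit 186)) (rf (nat_lit 2)))))))))) (nd (nat_lit 270) (nat_lit 0) (cs (rf (nat_lit 3)) (cs (nd (nat_lit 315) (nat_lit 0) (cs (lf (nat_lit 30) (nat_lit 249)) (nd (nat_lit 316) (nat_lit 0) (cs (lf (nat_lit 29) (nat_lit 249)) (nd (nat_lit 290) (nat_lit 0) (cs (lf (nat_lit 10) (nat_lit 268)) (nd (nat_lit 247) (nat_lit 0) (cs (lf (nat_lit 23) (nat_lit 246)) (nd (nat_lit 248) (nat_lit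 0) (cs (lf (nat_lit 47) (nat_lit 226)) (nd (nat_lit 209) (nat_lit 0) (cs (lf (nat_lit 44) (nat_lit 186)) (rf (nat_lit 4)))))))))))))) (cs (nd (nat_lit 337) (nat_lit 0) (cs (lf (nat_lit 31) (nat_lit 249)) (nd (nat_lit 209) (nat_lit 0) (cs (lf (nat_lit 44) (nat_lit 186)) (nd (nat_lit 247) (nat_lit 0) (cs (lf (nat_lit 23) (nat_lit 246)) (nd (nat_lit 225) (nat_lit 0) (cs (rf (nat_lit 5)) (cs (nd (nat_lit 230) (nat_lit 0) (cs (lf (nat_lit 27) (nat_lit 186)) (nd (nat_lit 248) (nat_lit 0) (cs (lf (nat_lit 23) (nat_lit 224)) (nd (nat_lit 294) (nat_lit 0) (cs (lf (nat_lit 5) (nat_lit 269)) (nd (nat_lit 204) (nat_lit 0) (cs (rf (nat_lit 6)) (lf (nat_lit 25) (nat_lit 204)))))))))) (cs (nd (nat_lit 291) (nat_lit 0) (cs (lf (nat_lit 11) (nat_lit 268)) (nd (nat_lit 204) (nat_lit 0) (cs (lf (nat_lit 34) (nat_lit 203)) (nd (nat_lit 203) (nat_lit 0) (cs (lf (nat_lit 35) (nat_lit 181)) (rf (nat_lit 7)))))))) (nd (nat_lit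 230) (nat_lit 0) (cs (lf (nat_lit 27) (nat_lit 186)) (nd (nat_lit 224) (nat_lit 0) (cs (rf (nat_lit 8)) (lf (nat_lit 20) (nat_lit 224)))))))))))))))) (nd (nat_lit 230) (nat_lit 0) (cs (lf (nat_lit 27) (nat_lit 186)) (nd (nat_lit 209) (nat_lit 0) (cs (lf (nat_lit 44) (nat_lit 186)) (nd (nat_lit 246) (nat_lit 0) (cs (lf (nat_lit 22) (nat_lit 246)) (nd (nat_lit 294) (nat_lit 0) (cs (lf (nat_lit 5) (nat_lit 269)) (rf (nat_lit 9)))))))))))))))))) q71885 (by decide +kernel)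
def q71923 : Q := Q.p (nat_lit 0x20000900002600000000010000040000000000000000000000000000000000000000000000) (nat_lit 0x80003f0000ff0001c80006f80011c000e7800e1c00027000004000000000000000000000000000000000000000) (nat_lit 13)
theorem c71923 : QOK q71923 := cut [q63708, q70250, q60914, q54946, q45149, q71906, q71921] ⟨c63708, c70250, c60914, c54946, c45149, c71906, c71921, trivial⟩ (nd (nat_lit 248) (nat_lit 0) (cs (rf (nat_lit 0)) (cs (nd (nat_lit 274) (nat_lit 0) (cs (lf (nat_lit 20) (nat_lit 249)) (nd (nat_lit 315) (nat_lit 0) (cs (nd (nat_lit 209) (nat_lit 0) (cs (lf (nat_lit 44) (nat_lit 186)) (nd (nat_lit 211) (nat_lit 0) (cs (rf (nat_lit 1)) (nd (nat_lit 271) (nat_lit 0) (cs (lf (nat_lit 47) (nat_lit 226)) (nd (nat_lit 316) (nat_lit 0) (cs (lf (nat_lit 29) (nat_lit 249)) (nd (nat_lit 314) (nat_lit 0) (cs (lf (nat_lit 41) (nat_lit 248)) (nd (nat_lit 294) (nat_lit 0) (cs (rf (nat_lit 2)) (nd (nat_lit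 317) (nat_lit 0) (cs (lf (nat_lit 29) (nat_lit 250)) (nd (nat_lit 318) (nat_lit 0) (cs (lf (nat_lit 18) (nat_lit 293)) (rf (nat_lit 3)))))))))))))))))) (cs (nd (nat_lit 231) (nat_lit 0) (cs (lf (nat_lit 45) (nat_lit 186)) (nd (nat_lit 252) (nat_lit 0) (cs (lf (nat_lit 26) (nat_lit 186)) (nd (nat_lit 296) (nat_lit 0) (cs (lf (nat_lit 30) (nat_lit 230)) (nd (nat_lit 294) (nat_lit 0) (cs (lf (nat_lit 14) (nat_lit 271)) (rf (nat_lit 4)))))))))) (rf (nat_lit 5))))))) (nd (nat_lit 209) (nat_lit 0) (cs (lf (nat_lit 44) (nat_lit 186)) (rf (nat_lit 6))))))) q71923 (by decide +kernel)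
def q72169 : Q := Q.p (nat_lit 0x980002600000000010000040000000000000000000000000000000000000000000000) (nat_lit 0x50000fc000ff0001fc0000700001c000b700027c00014000000000000000000000000000000000000000000000) (nat_lit 13)
theorem c72169 : QOK q72169 := cut [q70263, q71376, q65632, q47212, q52054, q52276, q59099, q65741, q70267, q47438, q47440, q69136, q71348, q59554, q47071, q69170, q69143] ⟨c70263, c71376, c65632, c47212, c52054, c52276, c59099, c65741, c70267, c47438, c47440, c69136, c71348, c59554, c47071, c69170, c69143, trivial⟩ (nd (nat_lit 293) (nat_lit 0) (cs (rf (nat_lit 0)) (cs (rf (nat_lit 1)) (nd (nat_lit 294) (nat_lit 0) (cs (rf (nat_lit 2)) (cs (nd (nat_lit 316) (nat_lit 0) (cs (lf (nat_lit 42) (nat_lit 249)) (nd (nat_lit 291) (nat_lit 0) (cs (rf (nat_lit 3)) (cs (nd (nat_lit 247) (nat_lit 0) (cs (rf (nat_lit 4)) (cs (rf (nat_lit 5)) (cs (nd (nat_lit 209) (nat_lit 0) (cs (lf (nat_lit 44) (nat_lit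 186)) (nd (nat_lit 317) (nat_lit 0) (cs (lf (nat_lit 29) (nat_lit 250)) (nd (nat_lit 228) (nat_lit 0) (cs (lf (nat_lit 36) (nat_lit 205)) (nd (nat_lit 248) (nat_lit 0) (cs (lf (nat_lit 17) (nat_lit 225)) (nd (nat_lit 225) (nat_lit 0) (cs (lf (nat_lit 23) (nat_lit 224)) (nd (nat_lit 269) (nat_lit 0) (cs (lf (nat_lit 11) (nat_lit 246)) (rf (nat_lit 6)))))))))))))) (nd (nat_lit 269) (nat_lit 0) (cs (rf (nat_lit 7)) (rf (nat_lit 8)))))))) (nd (nat_lit 269) (nat_lit 0) (cs (rf (nat_lit 9)) (cs (rf (nat_lit 10)) (rf (nat_lit 11)))))))))) (cs (rf (nat_lit 12)) (cs (nd (nat_lit 209) (nat_lit 0) (cs (lf (nat_lit 44) (nat_lit 186)) (rf (nat_lit 13)))) (nd (nat_lit 247) (nat_lit 0) (cs (rf (nat_lit 4)) (cs (rf (nat_lit 5)) (cs (nd (nat_lit 269) (nat_lit 0) (cs (rf (nat_lit 14)) (cs (rf (nat_lit 15)) (nd (nat_lit 291) (nat_lit 0) (cs (rf (nat_lit 10)) (rf (nat_lit 8))))))) (nd (nat_lit 209) (nat_lit 0) (cs (lf (nat_lit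 44) (nat_lit 186)) (nd (nat_lit 316) (nat_lit 0) (cs (lf (nat_lit 42) (nat_lit 249)) (nd (nat_lit 228) (nat_lit 0) (cs (lf (nat_lit 36) (nat_lit 205)) (nd (nat_lit 248) (nat_lit 0) (cs (lf (nat_lit 17) (nat_lit 225)) (nd (nat_lit 224) (nat_lit 0) (cs (lf (nat_lit 22) (nat_lit 224)) (rf (nat_lit 16)))))))))))))))))))))))) q72169 (by decide +kernel)
def q72193 : Q := Q.p (nat_lit 0x8000020000880002200000000010000040000000000000000000000000000000000000000000000) (nat_lit 0x5e000370001de000000001100004400000000000000000000000000000000000000000000000000000000) (nat_lit 9)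
theorem c72193 : QOK q72193 := cut [q67188, q67191, q72191] ⟨c67188, c67191, c72191, trivial⟩ (nd (nat_lit 314) (nat_lit 0) (cs (lf (nat_lit 41) (nat_lit 248)) (nd (nat_lit 313) (nat_lit 0) (cs (rf (nat_lit 0)) (cs (rf (nat_lit 1)) (rf (nat_lit 2))))))) q72193 (by decide +kernel)
def q72553 : Q := Q.p (nat_lit 0x880002600000000010000040000000000000000000000000000000000000000000000) (nat_lit 0x500001c0000f0000fc0001fc0037700011c000cf0002780001e000000000000000000000000000000000000000000000) (nat_lit 14)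
theorem c72553 : QOK q72553 := cut [q61620, q72212, q72213, q46568, q65764, q72206, q46561, q72215, q72221, q46571, q57056, q65706, q69076, q72324, q72210, q72326, q72328, q40946, q72250, q56552, q67230, q62120, q72521, q72523, q72546, q47564] ⟨c61620, c72212, c72213, c46568, c65764, c72206, c46561, c72215, c72221, c46571, c57056, c65706, c69076, c72324, c72210, c72326, c72328, c40946, c72250, c56552, c67230, c62120, c72521, c72523, c72546, c47564, trivial⟩ (nd (nat_lit 272) (nat_lit 0) (cs (nd (nat_lit 270) (nat_lit 0) (cs (rf (nat_lit 0)) (cs (rf (nat_lit 1)) (rf (nat_lit 2))))) (cs (nd (nat_lit 293) (nat_lit 0) (cs (rf (nat_lit 3)) (cs (rf (nat_lit 4)) (cs (rf (nat_lit 5)) (cs (nd (nat_lit 294) (nat_lit 0) (cs (rf (nat_lit 6)) (cs (nd (nat_lit 273) (nat_lit 0) (cs (lf (nat_lit 19) (nat_lit 249)) (nd (nat_lit 292) (nat_lit 0) (cs (lf (nat_lit 12) (nat_lit 269)) (nd (nat_lit 247) (nat_lit 0) (cs (lf (nat_lit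 1) (nat_lit 247)) (nd (nat_lit 230) (nat_lit 0) (cs (lf (nat_lit 27) (nat_lit 186)) (rf (nat_lit 7)))))))))) (rf (nat_lit 8))))) (nd (nat_lit 273) (nat_lit 0) (cs (lf (nat_lit 19) (nat_lit 249)) (nd (nat_lit 247) (nat_lit 0) (cs (lf (nat_lit 1) (nat_lit 247)) (rf (nat_lit 9))))))))))) (cs (nd (nat_lit 273) (nat_lit 0) (cs (lf (nat_lit 19) (nat_lit 249)) (nd (nat_lit 270) (nat_lit 0) (cs (rf (nat_lit 10)) (cs (rf (nat_lit 11)) (nd (nat_lit 248) (nat_lit 0) (cs (lf (nat_lit 0) (nat_lit 247)) (nd (nat_lit 292) (nat_lit 0) (cs (lf (nat_lit 11) (nat_lit 269)) (nd (nat_lit 230) (nat_lit 0) (cs (lf (nat_lit 27) (nat_lit 186)) (nd (nat_lit 314) (nat_lit 0) (cs (lf (nat_lit 30) (nat_lit 248)) (nd (nat_lit 315) (nat_lit 0) (cs (lf (nat_lit 29) (nat_lit 248)) (nd (nat_lit 226) (nat_lit 0) (cs (lf (nat_lit 28) (nat_lit 226)) (rf (nat_lit 12))))))))))))))))))) (cs (rf (nat_lit 13)) (cs (nd (nat_lit 270) (nat_lit 0)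 (cs (rf (nat_lit 14)) (cs (rf (nat_lit 15)) (rf (nat_lit 16))))) (cs (nd (nat_lit 227) (nat_lit 0) (cs (rf (nat_lit 17)) (cs (rf (nat_lit 18)) (nd (nat_lit 293) (nat_lit 0) (cs (rf (nat_lit 19)) (cs (rf (nat_lit 20)) (nd (nat_lit 294) (nat_lit 0) (cs (lf (nat_lit 42) (nat_lit 227)) (nd (nat_lit 230) (nat_lit 0) (cs (lf (nat_lit 27) (nat_lit 186)) (nd (nat_lit 204) (nat_lit 0) (cs (lf (nat_lit 46) (nat_lit 204)) (nd (nat_lit 209) (nat_lit 0) (cs (lf (nat_lit 44) (nat_lit 186)) (nd (nat_lit 292) (nat_lit 0) (cs (lf (nat_lit 41) (nat_lit 226)) (nd (nat_lit 291) (nat_lit 0) (cs (lf (nat_lit 12) (nat_lit 268)) (rf (nat_lit 21)))))))))))))))))))) (cs (nd (nat_lit 274) (nat_lit 0) (cs (lf (nat_lit 20) (nat_lit 249)) (nd (nat_lit 231) (nat_lit 0) (cs (lf (nat_lit 45) (nat_lit 186)) (nd (nat_lit 294) (nat_lit 0) (cs (rf (nat_lit 6)) (cs (rf (nat_lit 22)) (nd (nat_lit 252) (nat_lit 0) (cs (lf (nat_lit 26) (nat_lit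 186)) (nd (nat_lit 296) (nat_lit 0) (cs (lf (nat_lit 30) (nat_lit 230)) (nd (nat_lit 295) (nat_lit 0) (cs (lf (nat_lit 12) (nat_lit 271)) (nd (nat_lit 276) (nat_lit 0) (cs (lf (nat_lit 6) (nat_lit 273)) (nd (nat_lit 269) (nat_lit 0) (cs (lf (nat_lit 1) (nat_lit 269)) (rf (nat_lit 23))))))))))))))))))) (cs (rf (nat_lit 24)) (nd (nat_lit 227) (nat_lit 0) (cs (rf (nat_lit 17)) (cs (rf (nat_lit 18)) (nd (nat_lit 293) (nat_lit 0) (cs (rf (nat_lit 19)) (cs (rf (nat_lit 20)) (nd (nat_lit 230) (nat_lit 0) (cs (lf (nat_lit 27) (nat_lit 186)) (nd (nat_lit 294) (nat_lit 0) (cs (lf (nat_lit 29) (nat_lit 227)) (nd (nat_lit 204) (nat_lit 0) (cs (lf (nat_lit 46) (nat_lit 204)) (nd (nat_lit 209) (nat_lit 0) (cs (lf (nat_lit 44) (nat_lit 186)) (rf (nat_lit 25))))))))))))))))))))))))) q72553 (by decide +kernel)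
def q72710 : Q := Q.p (nat_lit 0x880002600000000010000040000000000000000000000000000000000000000000000) (nat_lit 0x400001e0000fe000ff8001fe0007780011e000cb00026c00038000040000000000000000000000000000000000000000) (nat_lit 13)
theorem c72710 : QOK q72710 := cut [q72614, q72676, q72211, q72677, q72686, q72690, q65436, q72681, q70854, q72212, q72213, q72326, q40967, q40946, q56550, q56552, q72709] ⟨c72614, c72676, c72211, c72677, c72686, c72690, c65436, c72681, c70854, c72212, c72213, c72326, c40967, c40946, c56550, c56552, c72709, trivial⟩ (nd (nat_lit 270) (nat_lit 0) (cs (rf (nat_lit 0)) (cs (rf (nat_lit 1)) (cs (nd (nat_lit 269) (nat_lit 0) (cs (lf (nat_lit 12) (nat_lit 246)) (nd (nat_lit 272) (nat_lit 0) (cs (rf (nat_lit 2)) (nd (nat_lit 209) (nat_lit 0) (cs (lf (nat_lit 44) (nat_lit 186)) (rf (nat_lit 3)))))))) (cs (rf (nat_lit 4)) (cs (rf (nat_lit 5)) (cs (nd (nat_lit 269) (nat_lit 0) (cs (lf (nat_lit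 12) (nat_lit 246)) (nd (nat_lit 272) (nat_lit 0) (cs (rf (nat_lit 6)) (cs (rf (nat_lit 7)) (nd (nat_lit 291) (nat_lit 0) (cs (lf (nat_lit 11) (nat_lit 268)) (nd (nat_lit 230) (nat_lit 0) (cs (lf (nat_lit 27) (nat_lit 186)) (nd (nat_lit 246) (nat_lit 0) (cs (lf (nat_lit 22) (nat_lit 246)) (nd (nat_lit 209) (nat_lit 0) (cs (lf (nat_lit 44) (nat_lit 186)) (rf (nat_lit 8))))))))))))))) (cs (nd (nat_lit 272) (nat_lit 0) (cs (rf (nat_lit 9)) (cs (rf (nat_lit 10)) (rf (nat_lit 11))))) (cs (nd (nat_lit 272) (nat_lit 0) (cs (rf (nat_lit 9)) (cs (rf (nat_lit 11)) (nd (nat_lit 273) (nat_lit 0) (cs (lf (nat_lit 19) (nat_lit 249)) (nd (nat_lit 248) (nat_lit 0) (cs (rf (nat_lit 12)) (nd (nat_lit 227) (nat_lit 0) (cs (rf (nat_lit 13)) (cs (nd (nat_lit 205) (nat_lit 0) (cs (lf (nat_lit 41) (nat_lit 204)) (nd (nat_lit 183) (nat_lit 0) (cs (lf (nat_lit 29) (nat_lit 183)) (lf (nat_lit 40) (nat_lit 182)))))) (nd (nat_lit 293)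 (nat_lit 0) (cs (rf (nat_lit 14)) (cs (rf (nat_lit 15)) (nd (nat_lit 230) (nat_lit 0) (cs (lf (nat_lit 27) (nat_lit 186)) (nd (nat_lit 209) (nat_lit 0) (cs (lf (nat_lit 44) (nat_lit 186)) (nd (nat_lit 292) (nat_lit 0) (cs (lf (nat_lit 41) (nat_lit 226)) (nd (nat_lit 295) (nat_lit 0) (cs (lf (nat_lit 5) (nat_lit 270)) (nd (nat_lit 317) (nat_lit 0) (cs (lf (nat_lit 42) (nat_lit 250)) (nd (nat_lit 294) (nat_lit 0) (cs (lf (nat_lit 42) (nat_lit 227)) (lf (nat_lit 5) (nat_lit 292))))))))))))))))))))))))))) (rf (nat_lit 16))))))))))) q72710 (by decide +kernel)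
def q72992 : Q := Q.p (nat_lit 0x880002700000000010000040000000000000000000000000000000000000000000000) (nat_lit 0xa00003c0003780010e0004dc0001000004000000000000000000000000000000000000000000000) (nat_lit 9)
theorem c72992 : QOK q72992 := cut [q60671, q72428, q72991] ⟨c60671, c72428, c72991, trivial⟩ (nd (nat_lit 247) (nat_lit 0) (cs (rf (nat_lit 0)) (cs (rf (nat_lit 1)) (rf (nat_lit 2))))) q72992 (by decide +kernel)
def q73204 : Q := Q.p (nat_lit 0x880002600000000010000040000000000000000000000000000000000000000000000) (nat_lit 0xd8000760001fe0007700011e00eef001e7c00ebe000050000000000000000000000000000000000000000) (nat_lit 14)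
theorem c73204 : QOK q73204 := cut [q61620, q72212, q72213, q72686, q72690, q72709, q73177, q66782, q67617, q72658, q67226, q46559, q61635, q57499, q65801, q65436, q72681, q14234, q72211] ⟨c61620, c72212, c72213, c72686, c72690, c72709, c73177, c66782, c67617, c72658, c67226, c46559, c61635, c57499, c65801, c65436, c72681, c14234, c72211, trivial⟩ (nd (nat_lit 270) (nat_lit 0) (cs (nd (nat_lit 272) (nat_lit 0) (cs (rf (nat_lit 0)) (cs (rf (nat_lit 1)) (rf (nat_lit 2))))) (cs (rf (nat_lit 3)) (cs (rf (nat_lit 4)) (cs (rf (nat_lit 5)) (cs (rf (nat_lit 6)) (cs (nd (nat_lit 209) (nat_lit 0) (cs (lf (nat_lit 44) (nat_lit 186)) (nd (nat_lit 211) (nat_lit 0) (cs (rf (nat_lit 7)) (cs (rf (nat_lit 8)) (nd (nat_lit 269) (nat_lit 0) (cs (lf (nat_lit 12) (nat_lit 246)) (nd (nat_lit 227) (nat_lit 0) (cs (rf (nat_lit 9)) (cs (nd (nat_lit 204) (nat_lit 0) (cs (rf (nat_lit 10)) (nd (nat_lit 226) (nat_lit 0) (cs (lf (nat_lit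 42) (nat_lit 204)) (nd (nat_lit 291) (nat_lit 0) (cs (lf (nat_lit 38) (nat_lit 203)) (nd (nat_lit 225) (nat_lit 0) (cs (lf (nat_lit 0) (nat_lit 224)) (lf (nat_lit 32) (nat_lit 203)))))))))) (nd (nat_lit 292) (nat_lit 0) (cs (rf (nat_lit 11)) (cs (rf (nat_lit 12)) (nd (nat_lit 226) (nat_lit 0) (cs (rf (nat_lit 13)) (cs (nd (nat_lit 230) (nat_lit 0) (cs (lf (nat_lit 27) (nat_lit 186)) (nd (nat_lit 225) (nat_lit 0) (cs (lf (nat_lit 0) (nat_lit 224)) (nd (nat_lit 203) (nat_lit 0) (cs (lf (nat_lit 44) (nat_lit 203)) (lf (nat_lit 26) (nat_lit 203)))))))) (nd (nat_lit 224) (nat_lit 0) (cs (lf (nat_lit 1) (nat_lit 224)) (nd (nat_lit 230) (nat_lit 0) (cs (lf (nat_lit 27) (nat_lit 186)) (rf (nat_lit 14)))))))))))))))))))))) (cs (nd (nat_lit 269) (nat_lit 0) (cs (lf (nat_lit 12) (nat_lit 246)) (nd (nat_lit 272) (nat_lit 0) (cs (rf (nat_lit 15)) (cs (rf (nat_lit 16)) (nd (nat_lit 291) (nat_lit 0) (cs (lf (nat_lit 11)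 (nat_lit 268)) (nd (nat_lit 230) (nat_lit 0) (cs (lf (nat_lit 27) (nat_lit 186)) (nd (nat_lit 247) (nat_lit 0) (cs (lf (nat_lit 23) (nat_lit 246)) (nd (nat_lit 209) (nat_lit 0) (cs (lf (nat_lit 44) (nat_lit 186)) (nd (nat_lit 294) (nat_lit 0) (cs (lf (nat_lit 5) (nat_lit 269)) (nd (nat_lit 316) (nat_lit 0) (cs (lf (nat_lit 42) (nat_lit 249)) (nd (nat_lit 317) (nat_lit 0) (cs (lf (nat_lit 29) (nat_lit 250)) (nd (nat_lit 292) (nat_lit 0) (cs (rf (nat_lit 17)) (lf (nat_lit 2) (nat_lit 291))))))))))))))))))))))) (nd (nat_lit 209) (nat_lit 0) (cs (lf (nat_lit 44) (nat_lit 186)) (nd (nat_lit 269) (nat_lit 0) (cs (lf (nat_lit 12) (nat_lit 246)) (nd (nat_lit 272) (nat_lit 0) (cs (rf (nat_lit 15)) (rf (nat_lit 18)))))))))))))))) q73204 (by decide +kernel)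
def q73422 : Q := Q.p (nat_lit 0x8a0002600000000010000040000000000000000000000000000000000000000000000) (nat_lit 0x1c00007500011c0004000000000000000000000000000000000000000000000000000000000) (nat_lit 7)
theorem c73422 : QOK q73422 := cut [q47435, q73296, q73418, q73421] ⟨c47435, c73296, c73418, c73421, trivial⟩ (nd (nat_lit 247) (nat_lit 0) (cs (rf (nat_lit 0)) (cs (nd (nat_lit 230) (nat_lit 0) (cs (lf (nat_lit 27) (nat_lit 186)) (rf (nat_lit 1)))) (cs (rf (nat_lit 2)) (rf (nat_lit 3)))))) q73422 (by decide +kernel)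
def q73547 : Q := Q.p (nat_lit 0x880002600000000010000040000000000000000000000000000000000000000000000) (nat_lit 0x500001c000070000ff8001fe00175c0011c000cf80027e0003fc00050000000000000000000000000000000000000000) (nat_lit 14)
theorem c73547 : QOK q73547 := cut [q56988, q62089, q60542, q59076, q73515, q67214, q67225, q72284, q40967, q57324, q44554, q27079, q73538, q73540, q73462, q73539, q73545, q72476] ⟨c56988, c62089, c60542, c59076, c73515, c67214, c67225, c72284, c40967, c57324, c44554, c27079, c73538, c73540, c73462, c73539, c73545, c72476, trivial⟩ (nd (nat_lit 227) (nat_lit 0) (cs (nd (nat_lit 209) (nat_lit 0) (cs (lf (nat_lit 44) (nat_lit 186)) (nd (nat_lit 293) (nat_lit 0) (cs (rf (nat_lit 0)) (cs (nd (nat_lit 294) (nat_lit 0) (cs (lf (nat_lit 29) (nat_lit 227)) (nd (nat_lit 273) (nat_lit 0) (cs (nd (nat_lit 230) (nat_lit 0) (cs (lf (nat_lit 27) (nat_lit 186)) (nd (nat_lit 204) (nat_lit 0) (cs (lf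 (nat_lit 46) (nat_lit 204)) (nd (nat_lit 292) (nat_lit 0) (cs (lf (nat_lit 41) (nat_lit 226)) (nd (nat_lit 291) (nat_lit 0) (cs (lf (nat_lit 16) (nat_lit 269)) (rf (nat_lit 1)))))))))) (cs (nd (nat_lit 230) (nat_lit 0) (cs (lf (nat_lit 27) (nat_lit 186)) (nd (nat_lit 204) (nat_lit 0) (cs (lf (nat_lit 46) (nat_lit 204)) (nd (nat_lit 292) (nat_lit 0) (cs (lf (nat_lit 41) (nat_lit 226)) (nd (nat_lit 295) (nat_lit 0) (cs (lf (nat_lit 17) (nat_lit 270)) (nd (nat_lit 296) (nat_lit 0) (cs (lf (nat_lit 23) (nat_lit 270)) (rf (nat_lit 2)))))))))))) (nd (nat_lit 274) (nat_lit 0) (cs (lf (nat_lit 21) (nat_lit 249)) (rf (nat_lit 3))))))))) (rf (nat_lit 4))))))) (cs (nd (nat_lit 209) (nat_lit 0) (cs (lf (nat_lit 44) (nat_lit 186)) (nd (nat_lit 205) (nat_lit 0) (cs (rf (nat_lit 5)) (cs (rf (nat_lit 6)) (nd (nat_lit 272) (nat_lit 0) (cs (rf (nat_lit 7)) (nd (nat_lit 273) (nat_lit 0) (cs (lf (nat_lit 19) (nat_lit 249))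 (nd (nat_lit 248) (nat_lit 0) (cs (rf (nat_lit 8)) (nd (nat_lit 204) (nat_lit 0) (cs (lf (nat_lit 47) (nat_lit 182)) (nd (nat_lit 203) (nat_lit 0) (cs (nd (nat_lit 230) (nat_lit 0) (cs (lf (nat_lit 27) (nat_lit 186)) (nd (nat_lit 270) (nat_lit 0) (cs (lf (nat_lit 41) (nat_lit 204)) (nd (nat_lit 295) (nat_lit 0) (cs (lf (nat_lit 5) (nat_lit 270)) (nd (nat_lit 206) (nat_lit 0) (cs (lf (nat_lit 35) (nat_lit 183)) (rf (nat_lit 9)))))))))) (cs (nd (nat_lit 206) (nat_lit 0) (cs (lf (nat_lit 35) (nat_lit 183)) (nd (nat_lit 230) (nat_lit 0) (cs (lf (nat_lit 27) (nat_lit 186)) (rf (nat_lit 10)))))) (cs (nd (nat_lit 206) (nat_lit 0) (cs (lf (nat_lit 35) (nat_lit 183)) (nd (nat_lit 224) (nat_lit 0) (cs (lf (nat_lit 10) (nat_lit 202)) (nd (nat_lit 202) (nat_lit 0) (cs (lf (nat_lit 11) (nat_lit 201)) (rf (nat_lit 11)))))))) (nd (nat_lit 270) (nat_lit 0) (cs (lf (nat_lit 41) (nat_lit 204)) (nd (nat_lit 226) (nat_lit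 0) (cs (lf (nat_lit 47) (nat_lit 181)) (nd (nat_lit 202) (nat_lit 0) (cs (lf (nat_lit 0) (nat_lit 201)) (nd (nat_lit 224) (nat_lit 0) (cs (lf (nat_lit 11) (nat_lit 201)) (lf (nat_lit 1) (nat_lit 224))))))))))))))))))))))))))) (cs (rf (nat_lit 12)) (cs (rf (nat_lit 13)) (cs (nd (nat_lit 205) (nat_lit 0) (cs (rf (nat_lit 5)) (cs (rf (nat_lit 14)) (rf (nat_lit 15))))) (cs (rf (nat_lit 16)) (nd (nat_lit 205) (nat_lit 0) (cs (rf (nat_lit 5)) (cs (rf (nat_lit 17)) (rf (nat_lit 14)))))))))))) q73547 (by decide +kernel)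
def q73626 : Q := Q.p (nat_lit 0x8a0002600000000010000040000000000000000000000000000000000000000000000) (nat_lit 0x100001c0000700005c00071c0011c006cff01e7f80eaff0001c000050000000000000000000000000000000000) (nat_lit 13)
theorem c73626 : QOK q73626 := cut [q73296, q73369, q73361, q51538, q70600, q72266, q71199, q73570, q70530, q70531, q48763, q48757, q70561, q73356, q48774, q48780, q73616, q48829, q73331, q73625] ⟨c73296, c73369, c73361, c51538, c70600, c72266, c71199, c73570, c70530, c70531, c48763, c48757, c70561, c73356, c48774, c48780, c73616, c48829, c73331, c73625, trivial⟩ (nd (nat_lit 247) (nat_lit 0) (cs (rf (nat_lit 0)) (cs (rf (nat_lit 1)) (cs (nd (nat_lit 225) (nat_lit 0) (cs (rf (nat_lit 2)) (cs (nd (nat_lit 203) (nat_lit 0) (cs (rf (nat_lit 3)) (cs (rf (nat_lit 4)) (cs (rf (nat_lit 5)) (nd (nat_lit 209) (nat_lit 0) (cs (lf (nat_lit 44) (nat_lit 186)) (nd (nat_lit 268) (nat_lit 0) (cs (lf (nat_lit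 41) (nat_lit 202)) (nd (nat_lit 180) (nat_lit 0) (cs (lf (nat_lit 46) (nat_lit 180)) (nd (nat_lit 204) (nat_lit 0) (cs (lf (nat_lit 35) (nat_lit 181)) (nd (nat_lit 291) (nat_lit 0) (cs (lf (nat_lit 34) (nat_lit 203)) (rf (nat_lit 6)))))))))))))))) (cs (rf (nat_lit 7)) (cs (nd (nat_lit 203) (nat_lit 0) (cs (rf (nat_lit 3)) (cs (rf (nat_lit 4)) (cs (rf (nat_lit 5)) (nd (nat_lit 202) (nat_lit 0) (cs (lf (nat_lit 47) (nat_lit 180)) (nd (nat_lit 201) (nat_lit 0) (cs (rf (nat_lit 8)) (cs (nd (nat_lit 230) (nat_lit 0) (cs (lf (nat_lit 27) (nat_lit 186)) (nd (nat_lit 204) (nat_lit 0) (cs (lf (nat_lit 35) (nat_lit 181)) (nd (nat_lit 268) (nat_lit 0) (cs (lf (nat_lit 41) (nat_lit 202)) (nd (nat_lit 179) (nat_lit 0) (cs (lf (nat_lit 23) (nat_lit 178)) (nd (nat_lit 226) (nat_lit 0) (cs (lf (nat_lit 5) (nat_lit 201)) (rf (nat_lit 9)))))))))))) (cs (nd (nat_lit 182) (nat_lit 0) (cs (lf (nat_lit 34) (nat_lit 181)) (rf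 (nat_lit 10)))) (nd (nat_lit 204) (nat_lit 0) (cs (lf (nat_lit 35) (nat_lit 181)) (nd (nat_lit 230) (nat_lit 0) (cs (lf (nat_lit 27) (nat_lit 186)) (rf (nat_lit 11)))))))))))))))) (cs (nd (nat_lit 291) (nat_lit 0) (cs (rf (nat_lit 12)) (cs (rf (nat_lit 13)) (cs (nd (nat_lit 230) (nat_lit 0) (cs (lf (nat_lit 27) (nat_lit 186)) (nd (nat_lit 204) (nat_lit 0) (cs (lf (nat_lit 34) (nat_lit 203)) (nd (nat_lit 182) (nat_lit 0) (cs (lf (nat_lit 33) (nat_lit 181)) (nd (nat_lit 205) (nat_lit 0) (cs (rf (nat_lit 14)) (lf (nat_lit 44) (nat_lit 182)))))))))) (nd (nat_lit 209) (nat_lit 0) (cs (lf (nat_lit 44) (nat_lit 186)) (nd (nat_lit 204) (nat_lit 0) (cs (lf (nat_lit 34) (nat_lit 203)) (nd (nat_lit 203) (nat_lit 0) (cs (lf (nat_lit 35) (nat_lit 181)) (nd (nat_lit 268) (nat_lit 0) (cs (lf (nat_lit 41) (nat_lit 202)) (nd (nat_lit 292) (nat_lit 0) (cs (lf (nat_lit 29) (nat_lit 225)) (nd (nat_lit 266) (nat_lit 0) (cs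 (lf (nat_lit 1) (nat_lit 266)) (nd (nat_lit 230) (nat_lit 0) (cs (lf (nat_lit 27) (nat_lit 186)) (rf (nat_lit 15)))))))))))))))))))) (cs (rf (nat_lit 16)) (nd (nat_lit 291) (nat_lit 0) (cs (rf (nat_lit 17)) (cs (rf (nat_lit 18)) (rf (nat_lit 13)))))))))))) (rf (nat_lit 19)))))) q73626 (by decide +kernel)
def q73673 : Q := Q.p (nat_lit 0x8a0002600000000010000040000000000000000000000000000000000000000000000) (nat_lit 0x14000070001df0007400011f806cfc01e7f80eaf00001c000020000000000000000000000000000000000) (nat_lit 13)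
theorem c73673 : QOK q73673 := cut [q73421, q73423, q73625, q73361, q73570, q51538, q73416, q73356, q73388, q60933, q48738, q73331, q47411, q73647, q49411, q66782, q47396, q67710, q73389, q73395] ⟨c73421, c73423, c73625, c73361, c73570, c51538, c73416, c73356, c73388, c60933, c48738, c73331, c47411, c73647, c49411, c66782, c47396, c67710, c73389, c73395, trivial⟩ (nd (nat_lit 247) (nat_lit 0) (cs (rf (nat_lit 0)) (cs (rf (nat_lit 1)) (cs (rf (nat_lit 2)) (cs (nd (nat_lit 225) (nat_lit 0) (cs (rf (nat_lit 3)) (cs (rf (nat_lit 4)) (cs (nd (nat_lit 203) (nat_lit 0) (cs (rf (nat_lit 5)) (nd (nat_lit 209) (nat_lit 0) (cs (lf (nat_lit 44) (nat_lit 186)) (nd (nat_lit 270) (nat_lit 0) (cs (lf (nat_lit 29) (nat_lit 203)) (rf (nat_lit 6)))))))) (cs (nd (nat_lit 291) (nat_lit 0) (cs (rf (nat_lit 7)) (cs (rf (nat_lit 8)) (cs (nd (nat_lit 290) (nat_lit 0) (cs (lf (nat_lit 41) (nat_lit 224)) (nd (nat_lit 204) (nat_lit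 0) (cs (lf (nat_lit 34) (nat_lit 203)) (nd (nat_lit 182) (nat_lit 0) (cs (lf (nat_lit 33) (nat_lit 181)) (nd (nat_lit 270) (nat_lit 0) (cs (lf (nat_lit 6) (nat_lit 268)) (nd (nat_lit 289) (nat_lit 0) (cs (lf (nat_lit 12) (nat_lit 266)) (lf (nat_lit 15) (nat_lit 267)))))))))))) (nd (nat_lit 230) (nat_lit 0) (cs (lf (nat_lit 27) (nat_lit 186)) (nd (nat_lit 226) (nat_lit 0) (cs (lf (nat_lit 35) (nat_lit 203)) (nd (nat_lit 224) (nat_lit 0) (cs (lf (nat_lit 3) (nat_lit 224)) (nd (nat_lit 312) (nat_lit 0) (cs (lf (nat_lit 40) (nat_lit 224)) (rf (nat_lit 9)))))))))))))) (cs (nd (nat_lit 291) (nat_lit 0) (cs (rf (nat_lit 10)) (cs (rf (nat_lit 11)) (nd (nat_lit 230) (nat_lit 0) (cs (lf (nat_lit 27) (nat_lit 186)) (nd (nat_lit 290) (nat_lit 0) (cs (lf (nat_lit 41) (nat_lit 224)) (nd (nat_lit 292) (nat_lit 0) (cs (lf (nat_lit 29) (nat_lit 225)) (nd (nat_lit 270) (nat_lit 0) (cs (lf (nat_lit 24) (nat_lit 203)) (lf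 (nat_lit 6) (nat_lit 268))))))))))))) (nd (nat_lit 204) (nat_lit 0) (cs (nd (nat_lit 230) (nat_lit 0) (cs (lf (nat_lit 27) (nat_lit 186)) (rf (nat_lit 12)))) (cs (nd (nat_lit 226) (nat_lit 0) (cs (lf (nat_lit 30) (nat_lit 203)) (nd (nat_lit 160) (nat_lit 0) (cs (lf (nat_lit 37) (nat_lit 159)) (nd (nat_lit 224) (nat_lit 0) (cs (lf (nat_lit 3) (nat_lit 224)) (nd (nat_lit 223) (nat_lit 0) (cs (lf (nat_lit 17) (nat_lit 201)) (rf (nat_lit 13)))))))))) (cs (nd (nat_lit 230) (nat_lit 0) (cs (lf (nat_lit 27) (nat_lit 186)) (nd (nat_lit 209) (nat_lit 0) (cs (lf (nat_lit 44) (nat_lit 186)) (nd (nat_lit 203) (nat_lit 0) (cs (lf (nat_lit 35) (nat_lit 181)) (nd (nat_lit 202) (nat_lit 0) (cs (lf (nat_lit 47) (nat_lit 180)) (nd (nat_lit 224) (nat_lit 0) (cs (lf (nat_lit 42) (nat_lit 202)) (rf (nat_lit 14)))))))))))) (cs (nd (nat_lit 182) (nat_lit 0) (cs (lf (nat_lit 33) (nat_lit 181)) (nd (nat_lit 226) (nat_lit 0) (cs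 (lf (nat_lit 36) (nat_lit 159)) (nd (nat_lit 227) (nat_lit 0) (cs (lf (nat_lit 0) (nat_lit 224)) (lf (nat_lit 45) (nat_lit 182)))))))) (nd (nat_lit 226) (nat_lit 0) (cs (lf (nat_lit 30) (nat_lit 203)) (nd (nat_lit 230) (nat_lit 0) (cs (lf (nat_lit 27) (nat_lit 186)) (nd (nat_lit 224) (nat_lit 0) (cs (lf (nat_lit 3) (nat_lit 224)) (nd (nat_lit 205) (nat_lit 0) (cs (lf (nat_lit 12) (nat_lit 201)) (nd (nat_lit 203) (nat_lit 0) (cs (lf (nat_lit 6) (nat_lit 202)) (nd (nat_lit 180) (nat_lit 0) (cs (lf (nat_lit 46) (nat_lit 180)) (nd (nat_lit 181) (nat_lit 0) (cs (lf (nat_lit 47) (nat_lit 158)) (nd (nat_lit 159) (nat_lit 0) (cs (lf (nat_lit 41) (nat_lit 158)) (lf (nat_lit 24) (nat_lit 137))))))))))))))))))))))))))))) (nd (nat_lit 209) (nat_lit 0) (cs (lf (nat_lit 44) (nat_lit 186)) (nd (nat_lit 211) (nat_lit 0) (cs (rf (nat_lit 15)) (nd (nat_lit 225) (nat_lit 0) (cs (rf (nat_lit 16)) (cs (nd (nat_lit 230) (nat_lit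 0) (cs (lf (nat_lit 27) (nat_lit 186)) (rf (nat_lit 17)))) (cs (rf (nat_lit 3)) (cs (rf (nat_lit 18)) (rf (nat_lit 19)))))))))))))))) q73673 (by decide +kernel)
def q73795 : Q := Q.p (nat_lit 0x24000880002200000000010000040000000000000000000000000000000000000000000000) (nat_lit 0x400001800005800004000110000cc0002700003c000040000000000000000000000000000000000000000) (nat_lit 11)
theorem c73795 : QOK q73795 := cut [q73783, q73788, q73791, q73793, q73794] ⟨c73783, c73788, c73791, c73793, c73794, trivial⟩ (nd (nat_lit 226) (nat_lit 0) (cs (nd (nat_lit 209) (nat_lit 0) (cs (lf (nat_lit 44) (nat_lit 186)) (nd (nat_lit 230) (nat_lit 0) (cs (lf (nat_lit 27) (nat_lit 186)) (rf (nat_lit 0)))))) (cs (nd (nat_lit 209) (nat_lit 0) (cs (lf (nat_lit 44) (nat_lit 186)) (nd (nat_lit 230) (nat_lit 0) (cs (lf (nat_lit 27) (nat_lit 186)) (rf (nat_lit 1)))))) (cs (rf (nat_lit 2)) (cs (rf (nat_lit 3)) (rf (nat_lit 4))))))) q73795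 (by decide +kernel)
def q73871 : Q := Q.p (nat_lit 0x24000080000200000000030000040000000000000000000000000000000000000000000000) (nat_lit 0x4000018000058000040000100000c0000700003c000040000000000000000000000000000000000000000) (nat_lit 9)
theorem c73871 : QOK q73871 := cut [q73783, q73788, q73791, q73793, q73794] ⟨c73783, c73788, c73791, c73793, c73794, trivial⟩ (nd (nat_lit 226) (nat_lit 0) (cs (rf (nat_lit 0)) (cs (rf (nat_lit 1)) (cs (rf (nat_lit 2)) (cs (rf (nat_lit 3)) (rf (nat_lit 4))))))) q73871 (by decide +kernel)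
def q74438 : Q := Q.p (nat_lit 0x890002600000100010000040000000000000000000000000000000000000000000000) (nat_lit 0xa0000780003e00002e0011e000ce700e3f800bff0001e000000000000000000000000000000000000000) (nat_lit 12)
theorem c74438 : QOK q74438 := cut [q74371, q75, q74378, q74387, q74377, q74275, q74384, q50585, q73965, q74030, q74290, q74407, q49456, q74421, q74435, q74335, q74431] ⟨c74371, c75, c74378, c74387, c74377, c74275, c74384, c50585, c73965, c74030, c74290, c74407, c49456, c74421, c74435, c74335, c74431, trivial⟩ (nd (nat_lit 247) (nat_lit 0) (cs (rf (nat_lit 0)) (cs (nd (nat_lit 209) (nat_lit 0) (cs (lf (nat_lit 44) (nat_lit 186)) (nd (nat_lit 210) (nat_lit 0) (cs (rf (nat_lit 1)) (rf (nat_lit 2)))))) (cs (rf (nat_lit 3)) (nd (nat_lit 246) (nat_lit 0) (cs (rf (nat_lit 4)) (cs (nd (nat_lit 290) (nat_lit 0) (cs (rf (nat_lit 5)) (cs (rf (nat_lit 6)) (nd (nat_lit 230) (nat_lit 0) (cs (lf (nat_lit 27)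 (nat_lit 186)) (nd (nat_lit 289) (nat_lit 0) (cs (lf (nat_lit 41) (nat_lit 223)) (nd (nat_lit 225) (nat_lit 0) (cs (lf (nat_lit 35) (nat_lit 202)) (nd (nat_lit 226) (nat_lit 0) (cs (lf (nat_lit 3) (nat_lit 224)) (nd (nat_lit 291) (nat_lit 0) (cs (lf (nat_lit 29) (nat_lit 224)) (nd (nat_lit 269) (nat_lit 0) (cs (lf (nat_lit 35) (nat_lit 203)) (rf (nat_lit 7))))))))))))))))) (cs (nd (nat_lit 202) (nat_lit 0) (cs (rf (nat_lit 8)) (cs (rf (nat_lit 9)) (cs (rf (nat_lit 10)) (nd (nat_lit 203) (nat_lit 0) (cs (lf (nat_lit 35) (nat_lit 180)) (nd (nat_lit 204) (nat_lit 0) (cs (nd (nat_lit 209) (nat_lit 0) (cs (lf (nat_lit 44) (nat_lit 186)) (nd (nat_lit 267) (nat_lit 0) (cs (lf (nat_lit 41) (nat_lit 201)) (nd (nat_lit 269) (nat_lit 0) (cs (lf (nat_lit 29) (nat_lit 202)) (nd (nat_lit 182) (nat_lit 0) (cs (nd (nat_lit 201) (nat_lit 0) (cs (lf (nat_lit 17) (nat_lit 179)) (lf (nat_lit 47) (nat_lit 179)))) (lf (nat_lit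 32) (nat_lit 181)))))))))) (cs (nd (nat_lit 267) (nat_lit 0) (cs (lf (nat_lit 41) (nat_lit 201)) (nd (nat_lit 265) (nat_lit 0) (cs (lf (nat_lit 13) (nat_lit 243)) (nd (nat_lit 269) (nat_lit 0) (cs (lf (nat_lit 29) (nat_lit 202)) (nd (nat_lit 182) (nat_lit 0) (cs (lf (nat_lit 32) (nat_lit 181)) (nd (nat_lit 227) (nat_lit 0) (cs (lf (nat_lit 45) (nat_lit 182)) (nd (nat_lit 226) (nat_lit 0) (cs (lf (nat_lit 42) (nat_lit 204)) (lf (nat_lit 24) (nat_lit 160)))))))))))))) (cs (nd (nat_lit 230) (nat_lit 0) (cs (lf (nat_lit 27) (nat_lit 186)) (nd (nat_lit 201) (nat_lit 0) (cs (lf (nat_lit 47) (nat_lit 179)) (nd (nat_lit 269) (nat_lit 0) (cs (lf (nat_lit 29) (nat_lit 202)) (nd (nat_lit 182) (nat_lit 0) (cs (lf (nat_lit 17) (nat_lit 179)) (rf (nat_lit 11)))))))))) (nd (nat_lit 201) (nat_lit 0) (cs (lf (nat_lit 47) (nat_lit 179)) (nd (nat_lit 226) (nat_lit 0) (cs (lf (nat_lit 5) (nat_lit 201)) (nd (nat_lit 200) (nat_lit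 0) (cs (lf (nat_lit 4) (nat_lit 200)) (rf (nat_lit 12)))))))))))))))))) (cs (nd (nat_lit 202) (nat_lit 0) (cs (rf (nat_lit 8)) (cs (rf (nat_lit 9)) (cs (rf (nat_lit 10)) (nd (nat_lit 230) (nat_lit 0) (cs (lf (nat_lit 27) (nat_lit 186)) (nd (nat_lit 267) (nat_lit 0) (cs (lf (nat_lit 41) (nat_lit 201)) (nd (nat_lit 265) (nat_lit 0) (cs (lf (nat_lit 13) (nat_lit 243)) (rf (nat_lit 13)))))))))))) (cs (rf (nat_lit 14)) (nd (nat_lit 202) (nat_lit 0) (cs (rf (nat_lit 15)) (cs (rf (nat_lit 13)) (rf (nat_lit 16))))))))))))))) q74438 (by decide +kernel)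
def q74885 : Q := Q.p (nat_lit 0x4000890002600000000010000040000000000000000000000000000000000000000000000) (nat_lit 0x2c0005b8001ef0007bc0006f0010fc0eefe01e7f00ebe800050000000000000000000000000000000000000000) (nat_lit 12)
theorem c74885 : QOK q74885 := cut [q48712, q75, q74726, q72489, q37266, q74731, q74733, q51048, q73848, q66782, q74725, q74804, q50554, q73955, q74584, q74563, q72658, q65472, q74821, q74854, q74884] ⟨c48712, c75, c74726, c72489, c37266, c74731, c74733, c51048, c73848, c66782, c74725, c74804, c50554, c73955, c74584, c74563, c72658, c65472, c74821, c74854, c74884, trivial⟩ (nd (nat_lit 289) (nat_lit 0) (cs (nd (nat_lit 270) (nat_lit 0) (cs (nd (nat_lit 292) (nat_lit 0) (cs (rf (nat_lit 0)) (lf (nat_lit 14) (nat_lit 267)))) (lf (nat_lit 8) (nat_lit 267)))) (cs (nd (nat_lit 292) (nat_lit 0) (cs (nd (nat_lit 230) (nat_lit 0) (cs (lf (nat_lit 27) (nat_lit 186)) (nd (nat_lit 270) (nat_lit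 0) (cs (rf (nat_lit 0)) (lf (nat_lit 14) (nat_lit 267)))))) (cs (nd (nat_lit 209) (nat_lit 0) (cs (lf (nat_lit 44) (nat_lit 186)) (nd (nat_lit 210) (nat_lit 0) (cs (rf (nat_lit 1)) (cs (nd (nat_lit 224) (nat_lit 0) (cs (rf (nat_lit 2)) (cs (nd (nat_lit 227) (nat_lit 0) (cs (rf (nat_lit 3)) (nd (nat_lit 230) (nat_lit 0) (cs (lf (nat_lit 27) (nat_lit 186)) (nd (nat_lit 226) (nat_lit 0) (cs (lf (nat_lit 1) (nat_lit 224)) (rf (nat_lit 4)))))))) (rf (nat_lit 5))))) (rf (nat_lit 6))))))) (cs (nd (nat_lit 291) (nat_lit 0) (cs (rf (nat_lit 7)) (rf (nat_lit 8)))) (cs (nd (nat_lit 230) (nat_lit 0) (cs (lf (nat_lit 27) (nat_lit 186)) (nd (nat_lit 291) (nat_lit 0) (cs (rf (nat_lit 7)) (lf (nat_lit 16) (nat_lit 267)))))) (nd (nat_lit 291) (nat_lit 0) (cs (lf (nat_lit 16) (nat_lit 267)) (nd (nat_lit 266) (nat_lit 0) (cs (lf (nat_lit 22) (nat_lit 266)) (nd (nat_lit 314) (nat_lit 0) (cs (lf (nat_lit 5) (nat_lit 289)) (nd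 (nat_lit 288) (nat_lit 0) (cs (lf (nat_lit 23) (nat_lit 265)) (lf (nat_lit 4) (nat_lit 288))))))))))))))) (cs (nd (nat_lit 209) (nat_lit 0) (cs (lf (nat_lit 44) (nat_lit 186)) (nd (nat_lit 211) (nat_lit 0) (cs (rf (nat_lit 9)) (nd (nat_lit 246) (nat_lit 0) (cs (nd (nat_lit 224) (nat_lit 0) (cs (lf (nat_lit 41) (nat_lit 223)) (rf (nat_lit 10)))) (cs (rf (nat_lit 11)) (cs (nd (nat_lit 230) (nat_lit 0) (cs (lf (nat_lit 27) (nat_lit 186)) (nd (nat_lit 224) (nat_lit 0) (cs (lf (nat_lit 41) (nat_lit 223)) (nd (nat_lit 203) (nat_lit 0) (cs (lf (nat_lit 34) (nat_lit 202)) (nd (nat_lit 202) (nat_lit 0) (cs (lf (nat_lit 35) (nat_lit 180)) (rf (nat_lit 12)))))))))) (nd (nat_lit 224) (nat_lit 0) (cs (rf (nat_lit 13)) (cs (rf (nat_lit 14)) (nd (nat_lit 291) (nat_lit 0) (cs (lf (nat_lit 29) (nat_lit 224)) (nd (nat_lit 266) (nat_lit 0) (cs (rf (nat_lit 15)) (nd (nat_lit 292) (nat_lit 0) (cs (lf (nat_lit 22) (nat_lit 266))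 (nd (nat_lit 314) (nat_lit 0) (cs (lf (nat_lit 5) (nat_lit 289)) (nd (nat_lit 227) (nat_lit 0) (cs (lf (nat_lit 39) (nat_lit 226)) (nd (nat_lit 225) (nat_lit 0) (cs (lf (nat_lit 2) (nat_lit 224)) (lf (nat_lit 35) (nat_lit 202))))))))))))))))))))))))) (cs (nd (nat_lit 209) (nat_lit 0) (cs (lf (nat_lit 44) (nat_lit 186)) (nd (nat_lit 210) (nat_lit 0) (cs (rf (nat_lit 1)) (cs (rf (nat_lit 6)) (nd (nat_lit 270) (nat_lit 0) (cs (lf (nat_lit 13) (nat_lit 246)) (nd (nat_lit 224) (nat_lit 0) (cs (rf (nat_lit 2)) (cs (rf (nat_lit 5)) (nd (nat_lit 227) (nat_lit 0) (cs (rf (nat_lit 16)) (cs (nd (nat_lit 226) (nat_lit 0) (cs (lf (nat_lit 1) (nat_lit 224)) (nd (nat_lit 293) (nat_lit 0) (cs (lf (nat_lit 47) (nat_lit 204)) (rf (nat_lit 17)))))) (nd (nat_lit 230) (nat_lit 0) (cs (lf (nat_lit 27) (nat_lit 186)) (rf (nat_lit 18))))))))))))))))) (cs (rf (nat_lit 19)) (rf (nat_lit 20)))))))) q74885 (by decide +kernel)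
def q75317 : Q := Q.p (nat_lit 0x20000880002600000800010000040000000000000000000000000000000000000000000000) (nat_lit 0xa0000780003e0004fe001df80077e0010f006c7801e1e00ea380000e000008000000000000000000000000000000000) (nat_lit 12)
theorem c75317 : QOK q75317 := cut [q75252, q75230, q74312, q74515, q74289, q74306, q74585, q72373, q74051, q74275, q75267, q62027, q75300, q73875, q62053, q62029, q75193] ⟨c75252, c75230, c74312, c74515, c74289, c74306, c74585, c72373, c74051, c74275, c75267, c62027, c75300, c73875, c62053, c62029, c75193, trivial⟩ (nd (nat_lit 268) (nat_lit 0) (cs (rf (nat_lit 0)) (cs (nd (nat_lit 224) (nat_lit 0) (cs (rf (nat_lit 1)) (nd (nat_lit 246) (nat_lit 0) (cs (rf (nat_lit 2)) (cs (rf (nat_lit 3)) (cs (nd (nat_lit 202) (nat_lit 0) (cs (rf (nat_lit 4)) (rf (nat_lit 5)))) (cs (rf (nat_lit 6)) (cs (nd (nat_lit 290) (nat_lit 0) (cs (rf (nat_lit 7)) (cs (rf (nat_lit 8)) (cs (rf (nat_lit 9))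 (nd (nat_lit 223) (nat_lit 0) (cs (lf (nat_lit 47) (nat_lit 201)) (nd (nat_lit 289) (nat_lit 0) (cs (lf (nat_lit 41) (nat_lit 223)) (nd (nat_lit 288) (nat_lit 0) (cs (nd (nat_lit 269) (nat_lit 0) (cs (lf (nat_lit 14) (nat_lit 246)) (lf (nat_lit 12) (nat_lit 265)))) (nd (nat_lit 291) (nat_lit 0) (cs (lf (nat_lit 29) (nat_lit 224)) (nd (nat_lit 266) (nat_lit 0) (cs (lf (nat_lit 23) (nat_lit 265)) (nd (nat_lit 310) (nat_lit 0) (cs (lf (nat_lit 11) (nat_lit 287)) (nd (nat_lit 245) (nat_lit 0) (cs (lf (nat_lit 33) (nat_lit 222)) (lf (nat_lit 38) (nat_lit 222)))))))))))))))))))) (rf (nat_lit 10)))))))))) (cs (nd (nat_lit 269) (nat_lit 0) (cs (lf (nat_lit 14) (nat_lit 246)) (nd (nat_lit 230) (nat_lit 0) (cs (lf (nat_lit 27) (nat_lit 186)) (nd (nat_lit 226) (nat_lit 0) (cs (lf (nat_lit 47) (nat_lit 204)) (nd (nat_lit 209) (nat_lit 0) (cs (lf (nat_lit 44) (nat_lit 186)) (nd (nat_lit 224) (nat_lit 0) (cs (lf (nat_lit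 1) (nat_lit 224)) (nd (nat_lit 292) (nat_lit 0) (cs (lf (nat_lit 41) (nat_lit 226)) (nd (nat_lit 291) (nat_lit 0) (cs (lf (nat_lit 18) (nat_lit 268)) (nd (nat_lit 266) (nat_lit 0) (cs (lf (nat_lit 1) (nat_lit 266)) (rf (nat_lit 11)))))))))))))))))) (cs (rf (nat_lit 12)) (cs (nd (nat_lit 209) (nat_lit 0) (cs (lf (nat_lit 44) (nat_lit 186)) (nd (nat_lit 292) (nat_lit 0) (cs (rf (nat_lit 13)) (nd (nat_lit 291) (nat_lit 0) (cs (rf (nat_lit 14)) (cs (nd (nat_lit 290) (nat_lit 0) (cs (lf (nat_lit 23) (nat_lit 267)) (lf (nat_lit 17) (nat_lit 268)))) (nd (nat_lit 269) (nat_lit 0) (cs (lf (nat_lit 18) (nat_lit 268)) (nd (nat_lit 266) (nat_lit 0) (cs (lf (nat_lit 1) (nat_lit 266)) (nd (nat_lit 230) (nat_lit 0) (cs (lf (nat_lit 27) (nat_lit 186)) (rf (nat_lit 15))))))))))))))) (cs (nd (nat_lit 269) (nat_lit 0) (cs (lf (nat_lit 14) (nat_lit 246)) (nd (nat_lit 204) (nat_lit 0) (cs (lf (nat_lit 46) (nat_lit 204)) (nd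 (nat_lit 209) (nat_lit 0) (cs (lf (nat_lit 44) (nat_lit 186)) (nd (nat_lit 230) (nat_lit 0) (cs (lf (nat_lit 27) (nat_lit 186)) (nd (nat_lit 292) (nat_lit 0) (cs (lf (nat_lit 41) (nat_lit 226)) (nd (nat_lit 291) (nat_lit 0) (cs (lf (nat_lit 18) (nat_lit 268)) (nd (nat_lit 290) (nat_lit 0) (cs (lf (nat_lit 17) (nat_lit 268)) (nd (nat_lit 312) (nat_lit 0) (cs (lf (nat_lit 11) (nat_lit 289)) (nd (nat_lit 247) (nat_lit 0) (cs (lf (nat_lit 30) (nat_lit 246)) (lf (nat_lit 36) (nat_lit 224)))))))))))))))))))) (nd (nat_lit 269) (nat_lit 0) (cs (lf (nat_lit 14) (nat_lit 246)) (nd (nat_lit 209) (nat_lit 0) (cs (lf (nat_lit 44) (nat_lit 186)) (nd (nat_lit 292) (nat_lit 0) (cs (lf (nat_lit 41) (nat_lit 226)) (rf (nat_lit 16))))))))))))))) q75317 (by decide +kernel)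
def q75480 : Q := Q.p (nat_lit 0x880002600000100010400040000000000000000000000000000000000000000000000) (nat_lit 0x140001fe000ff0001ee0007400011a000cce00e7b000bfe000ff0007fc000380000000000000000000000000000) (nat_lit 12)
theorem c75480 : QOK q75480 := cut [q75374, q75380, q75398, q75392, q75395, q3964, q67194, q56973, q75413, q73792, q75472, q75479] ⟨c75374, c75380, c75398, c75392, c75395, c3964, c67194, c56973, c75413, c73792, c75472, c75479, trivial⟩ (nd (nat_lit 204) (nat_lit 0) (cs (nd (nat_lit 293) (nat_lit 0) (cs (nd (nat_lit 230) (nat_lit 0) (cs (lf (nat_lit 27) (nat_lit 186)) (rf (nat_lit 0)))) (cs (rf (nat_lit 1)) (cs (rf (nat_lit 2)) (nd (nat_lit 315) (nat_lit 0) (cs (rf (nat_lit 3)) (cs (rf (nat_lit 4)) (cs (nd (nat_lit 316) (nat_lit 0) (cs (lf (nat_lit 29) (nat_lit 249)) (nd (nat_lit 227) (nat_lit 0) (cs (lf (nat_lit 28) (nat_lit 227)) (nd (nat_lit 272) (nat_lit 0) (cs (lf (nat_lit 30) (nat_lit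 249)) (nd (nat_lit 205) (nat_lit 0) (cs (lf (nat_lit 24) (nat_lit 183)) (nd (nat_lit 206) (nat_lit 0) (cs (lf (nat_lit 35) (nat_lit 183)) (nd (nat_lit 203) (nat_lit 0) (cs (rf (nat_lit 5)) (lf (nat_lit 11) (nat_lit 201)))))))))))))) (nd (nat_lit 209) (nat_lit 0) (cs (lf (nat_lit 44) (nat_lit 186)) (rf (nat_lit 6)))))))))))) (cs (nd (nat_lit 293) (nat_lit 0) (cs (rf (nat_lit 2)) (cs (nd (nat_lit 315) (nat_lit 0) (cs (rf (nat_lit 7)) (cs (rf (nat_lit 3)) (cs (rf (nat_lit 4)) (nd (nat_lit 230) (nat_lit 0) (cs (lf (nat_lit 27) (nat_lit 186)) (rf (nat_lit 8)))))))) (nd (nat_lit 209) (nat_lit 0) (cs (lf (nat_lit 44) (nat_lit 186)) (nd (nat_lit 226) (nat_lit 0) (cs (lf (nat_lit 45) (nat_lit 204)) (rf (nat_lit 9))))))))) (cs (rf (nat_lit 10)) (rf (nat_lit 11)))))) q75480 (by decide +kernel)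
def q75584 : Q := Q.p (nat_lit 0x880002600000100010400040000000000000000000000000000000000000000000000) (nat_lit 0x140001fe000ff8001ef80077e0011f806cce01e7a00ebe800000000000000000000000000000000000000000000) (nat_lit 12)
theorem c75584 : QOK q75584 := cut [q75338, q75350, q75505, q75539, q75542, q75546, q74551, q75557, q75556, q75481, q75504, q66782, q72340, q73121, q75380, q75370, q75493, q72767, q75573, q17277] ⟨c75338, c75350, c75505, c75539, c75542, c75546, c74551, c75557, c75556, c75481, c75504, c66782, c72340, c73121, c75380, c75370, c75493, c72767, c75573, c17277, trivial⟩ (nd (nat_lit 246) (nat_lit 0) (cs (nd (nat_lit 268) (nat_lit 0) (cs (rf (nat_lit 0)) (nd (nat_lit 230) (nat_lit 0) (cs (lf (nat_lit 27) (nat_lit 186)) (nd (nat_lit 181) (nat_lit 0) (cs (lf (nat_lit 34) (nat_lit 180)) (rf (nat_lit 1)))))))) (cs (rf (nat_lit 2)) (cs (rf (nat_lit 3)) (cs (nd (nat_lit 268) (nat_lit 0) (cs (rf (nat_lit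 1)) (cs (rf (nat_lit 4)) (cs (rf (nat_lit 5)) (cs (nd (nat_lit 201) (nat_lit 0) (cs (lf (nat_lit 47) (nat_lit 179)) (nd (nat_lit 209) (nat_lit 0) (cs (lf (nat_lit 44) (nat_lit 186)) (nd (nat_lit 269) (nat_lit 0) (cs (lf (nat_lit 29) (nat_lit 202)) (nd (nat_lit 247) (nat_lit 0) (cs (lf (nat_lit 8) (nat_lit 246)) (nd (nat_lit 267) (nat_lit 0) (cs (lf (nat_lit 41) (nat_lit 201)) (nd (nat_lit 266) (nat_lit 0) (cs (lf (nat_lit 12) (nat_lit 243)) (rf (nat_lit 6)))))))))))))) (nd (nat_lit 230) (nat_lit 0) (cs (lf (nat_lit 27) (nat_lit 186)) (nd (nat_lit 269) (nat_lit 0) (cs (lf (nat_lit 29) (nat_lit 202)) (nd (nat_lit 247) (nat_lit 0) (cs (lf (nat_lit 8) (nat_lit 246)) (rf (nat_lit 7))))))))))))) (cs (nd (nat_lit 268) (nat_lit 0) (cs (rf (nat_lit 0)) (rf (nat_lit 8)))) (nd (nat_lit 209) (nat_lit 0) (cs (lf (nat_lit 44) (nat_lit 186)) (nd (nat_lit 248) (nat_lit 0) (cs (rf (nat_lit 9)) (cs (rf (nat_lit 10)) (cs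 (nd (nat_lit 211) (nat_lit 0) (cs (rf (nat_lit 11)) (nd (nat_lit 293) (nat_lit 0) (cs (rf (nat_lit 12)) (cs (nd (nat_lit 204) (nat_lit 0) (cs (rf (nat_lit 13)) (cs (rf (nat_lit 14)) (nd (nat_lit 205) (nat_lit 0) (cs (rf (nat_lit 15)) (cs (rf (nat_lit 16)) (cs (nd (nat_lit 203) (nat_lit 0) (cs (lf (nat_lit 11) (nat_lit 201)) (nd (nat_lit 183) (nat_lit 0) (cs (lf (nat_lit 17) (nat_lit 180)) (nd (nat_lit 201) (nat_lit 0) (cs (lf (nat_lit 16) (nat_lit 179)) (nd (nat_lit 268) (nat_lit 0) (cs (lf (nat_lit 47) (nat_lit 179)) (lf (nat_lit 35) (nat_lit 180)))))))))) (nd (nat_lit 203) (nat_lit 0) (cs (lf (nat_lit 11) (nat_lit 201)) (nd (nat_lit 183) (nat_lit 0) (cs (lf (nat_lit 17) (nat_lit 180)) (nd (nat_lit 227) (nat_lit 0) (cs (lf (nat_lit 41) (nat_lit 182)) (lf (nat_lit 29) (nat_lit 183))))))))))))))) (cs (nd (nat_lit 315) (nat_lit 0) (cs (rf (nat_lit 17)) (nd (nat_lit 268) (nat_lit 0) (cs (rf (nat_lit 8)) (rf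 (nat_lit 18)))))) (nd (nat_lit 230) (nat_lit 0) (cs (lf (nat_lit 27) (nat_lit 186)) (nd (nat_lit 315) (nat_lit 0) (cs (lf (nat_lit 47) (nat_lit 226)) (rf (nat_lit 17)))))))))))) (nd (nat_lit 230) (nat_lit 0) (cs (lf (nat_lit 27) (nat_lit 186)) (nd (nat_lit 247) (nat_lit 0) (cs (rf (nat_lit 19)) (lf (nat_lit 23) (nat_lit 223)))))))))))))))))) q75584 (by decide +kernel)
def q75931 : Q := Q.p (nat_lit 0x880002200000100010400041000000000000000000000000000000000000000000000) (nat_lit 0x103806c8f01e7bc0ebef000ffc001fc0007fc000300000800000000000000000) (nat_lit 11)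
theorem c75931 : QOK q75931 := cut [q75759, q75801, q75866, q75869, q75901, q75902, q75919, q75930] ⟨c75759, c75801, c75866, c75869, c75901, c75902, c75919, c75930, trivial⟩ (nd (nat_lit 201) (nat_lit 0) (cs (rf (nat_lit 0)) (cs (rf (nat_lit 1)) (cs (rf (nat_lit 2)) (cs (rf (nat_lit 3)) (cs (rf (nat_lit 4)) (cs (rf (nat_lit 5)) (cs (rf (nat_lit 6)) (rf (nat_lit 7)))))))))) q75931 (by decide +kernel)
def q76522 : Q := Q.p (nat_lit 0x880002600000180010400040000000000000000000000000000000000000000000000) (nat_lit 0x80000f80007f0010fc06c0701e3bc0eaef0000700001c000000000000000000000000000000000) (nat_lit 11)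
theorem c76522 : QOK q76522 := cut [q76410, q76419, q76418, q75553, q76438, q76442, q66782, q76399, q76401, q75737, q76484, q76518, q75338, q76396, q76404] ⟨c76410, c76419, c76418, c75553, c76438, c76442, c66782, c76399, c76401, c75737, c76484, c76518, c75338, c76396, c76404, trivial⟩ (nd (nat_lit 201) (nat_lit 0) (cs (nd (nat_lit 209) (nat_lit 0) (cs (lf (nat_lit 44) (nat_lit 186)) (nd (nat_lit 179) (nat_lit 0) (cs (rf (nat_lit 0)) (cs (nd (nat_lit 245) (nat_lit 0) (cs (nd (nat_lit 230) (nat_lit 0) (cs (lf (nat_lit 27) (nat_lit 186)) (nd (nat_lit 267) (nat_lit 0) (cs (lf (nat_lit 30) (nat_lit 201)) (nd (nat_lit 268) (nat_lit 0) (cs (lf (nat_lit 29) (nat_lit 201)) (lf (nat_lit 43) (nat_lit 179)))))))) (cs (nd (nat_lit 267) (nat_lit 0) (cs (lf (nat_lit 30) (nat_lit 201)) (nd (nat_lit 266) (nat_lit 0) (cs (lf (nat_lit 41) (nat_lit 200)) (lf (nat_lit 40) (nat_lit 178)))))) (nd (nat_lit 246) (nat_lit 0) (cs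 (lf (nat_lit 42) (nat_lit 179)) (nd (nat_lit 244) (nat_lit 0) (cs (nd (nat_lit 242) (nat_lit 0) (cs (rf (nat_lit 1)) (lf (nat_lit 13) (nat_lit 220)))) (lf (nat_lit 41) (nat_lit 178))))))))) (nd (nat_lit 230) (nat_lit 0) (cs (lf (nat_lit 27) (nat_lit 186)) (nd (nat_lit 157) (nat_lit 0) (cs (lf (nat_lit 24) (nat_lit 135)) (nd (nat_lit 136) (nat_lit 0) (cs (lf (nat_lit 34) (nat_lit 135)) (nd (nat_lit 156) (nat_lit 0) (cs (lf (nat_lit 47) (nat_lit 134)) (nd (nat_lit 178) (nat_lit 0) (cs (rf (nat_lit 2)) (lf (nat_lit 42) (nat_lit 156))))))))))))))))) (cs (nd (nat_lit 203) (nat_lit 0) (cs (rf (nat_lit 3)) (cs (rf (nat_lit 4)) (rf (nat_lit 5))))) (cs (nd (nat_lit 157) (nat_lit 0) (cs (nd (nat_lit 179) (nat_lit 0) (cs (lf (nat_lit 29) (nat_lit 157)) (lf (nat_lit 24) (nat_lit 135)))) (cs (nd (nat_lit 209) (nat_lit 0) (cs (lf (nat_lit 44) (nat_lit 186)) (nd (nat_lit 211) (nat_lit 0) (cs (rf (nat_lit 6)) (nd (nat_lit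 203) (nat_lit 0) (cs (rf (nat_lit 3)) (cs (rf (nat_lit 4)) (nd (nat_lit 200) (nat_lit 0) (cs (rf (nat_lit 7)) (cs (rf (nat_lit 8)) (nd (nat_lit 230) (nat_lit 0) (cs (lf (nat_lit 27) (nat_lit 186)) (nd (nat_lit 222) (nat_lit 0) (cs (lf (nat_lit 11) (nat_lit 199)) (nd (nat_lit 178) (nat_lit 0) (cs (lf (nat_lit 23) (nat_lit 177)) (nd (nat_lit 156) (nat_lit 0) (cs (lf (nat_lit 35) (nat_lit 134)) (lf (nat_lit 24) (nat_lit 134)))))))))))))))))))) (nd (nat_lit 230) (nat_lit 0) (cs (lf (nat_lit 27) (nat_lit 186)) (nd (nat_lit 179) (nat_lit 0) (cs (lf (nat_lit 29) (nat_lit 157)) (nd (nat_lit 136) (nat_lit 0) (cs (lf (nat_lit 34) (nat_lit 135)) (nd (nat_lit 134) (nat_lit 0) (cs (lf (nat_lit 46) (nat_lit 134)) (nd (nat_lit 209) (nat_lit 0) (cs (lf (nat_lit 44) (nat_lit 186)) (rf (nat_lit 9))))))))))))))) (cs (rf (nat_lit 10)) (cs (rf (nat_lit 11)) (nd (nat_lit 268) (nat_lit 0) (cs (nd (nat_lit 246) (nat_lit 0) (cs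 (lf (nat_lit 42) (nat_lit 201)) (rf (nat_lit 12)))) (cs (nd (nat_lit 246) (nat_lit 0) (cs (lf (nat_lit 47) (nat_lit 179)) (lf (nat_lit 42) (nat_lit 201)))) (nd (nat_lit 209) (nat_lit 0) (cs (lf (nat_lit 44) (nat_lit 186)) (nd (nat_lit 203) (nat_lit 0) (cs (rf (nat_lit 3)) (cs (rf (nat_lit 13)) (nd (nat_lit 200) (nat_lit 0) (cs (nd (nat_lit 269) (nat_lit 0) (cs (lf (nat_lit 14) (nat_lit 246)) (rf (nat_lit 7)))) (cs (nd (nat_lit 269) (nat_lit 0) (cs (lf (nat_lit 14) (nat_lit 246)) (nd (nat_lit 181) (nat_lit 0) (cs (lf (nat_lit 17) (nat_lit 178)) (rf (nat_lit 8)))))) (nd (nat_lit 178) (nat_lit 0) (cs (lf (nat_lit 23) (nat_lit 177)) (nd (nat_lit 221) (nat_lit 0) (cs (lf (nat_lit 13) (nat_lit 199)) (rf (nat_lit 14))))))))))))))))))))))) q76522 (by decide +kernel)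
def q77291 : Q := Q.p (nat_lit 0x880002600000100010400040000000000000000000000000000000000000000000000) (nat_lit 0x40006f80017e0010bc06eef01e7bc0ebff000ffc001ff0007fc000300000800000000000000000) (nat_lit 12)
theorem c77291 : QOK q77291 := cut [q76769, q76781, q76787, q75777, q76797, q76799, q76804, q76872, q76953, q77151, q66782, q76873, q76874, q76821, q74488, q77162, q75759, q75801, q75866, q75869, q75901, q75902, q75919, q75930, q77218, q76849, q77221, q77271, q77225, q77243, q77245, q77230, q76768, q76786, q77235, q75900, q77234, q77281] ⟨c76769, c76781, c76787, c75777, c76797, c76799, c76804, c76872, c76953, c77151, c66782, c76873, c76874, c76821, c74488, c77162, c75759, c75801, c75866, c75869, c75901, c75902, c75919, c75930, c77218, c76849, c77221, c77271, c77225, c77243, c77245, c77230, c76768, c76786, c77235, c75900, c77234, c77281, trivial⟩ (nd (nat_lit 201) (nat_lit 0) (cs (nd (nat_lit 200) (nat_lit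 0) (cs (rf (nat_lit 0)) (cs (rf (nat_lit 1)) (cs (rf (nat_lit 2)) (cs (nd (nat_lit 203) (nat_lit 0) (cs (rf (nat_lit 3)) (cs (rf (nat_lit 4)) (nd (nat_lit 225) (nat_lit 0) (cs (lf (nat_lit 5) (nat_lit 200)) (nd (nat_lit 230) (nat_lit 0) (cs (lf (nat_lit 27) (nat_lit 186)) (nd (nat_lit 181) (nat_lit 0) (cs (lf (nat_lit 17) (nat_lit 178)) (rf (nat_lit 5))))))))))) (rf (nat_lit 6))))))) (cs (rf (nat_lit 7)) (cs (rf (nat_lit 8)) (cs (rf (nat_lit 9)) (cs (nd (nat_lit 209) (nat_lit 0) (cs (lf (nat_lit 44) (nat_lit 186)) (nd (nat_lit 211) (nat_lit 0) (cs (rf (nat_lit 10)) (nd (nat_lit 200) (nat_lit 0) (cs (rf (nat_lit 2)) (cs (rf (nat_lit 11)) (cs (rf (nat_lit 12)) (nd (nat_lit 203) (nat_lit 0) (cs (rf (nat_lit 3)) (cs (rf (nat_lit 13)) (nd (nat_lit 225) (nat_lit 0) (cs (rf (nat_lit 14)) (rf (nat_lit 15))))))))))))))) (cs (nd (nat_lit 180) (nat_lit 0) (cs (rf (nat_lit 16)) (cs (rf (nat_lit 17)) (cs (rf (nat_lit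 18)) (cs (rf (nat_lit 19)) (cs (rf (nat_lit 20)) (cs (rf (nat_lit 21)) (cs (rf (nat_lit 22)) (rf (nat_lit 23)))))))))) (cs (rf (nat_lit 24)) (cs (nd (nat_lit 209) (nat_lit 0) (cs (lf (nat_lit 44) (nat_lit 186)) (nd (nat_lit 211) (nat_lit 0) (cs (rf (nat_lit 10)) (nd (nat_lit 200) (nat_lit 0) (cs (rf (nat_lit 0)) (cs (rf (nat_lit 6)) (cs (rf (nat_lit 25)) (rf (nat_lit 26)))))))))) (cs (rf (nat_lit 27)) (cs (nd (nat_lit 209) (nat_lit 0) (cs (lf (nat_lit 44) (nat_lit 186)) (nd (nat_lit 225) (nat_lit 0) (cs (rf (nat_lit 28)) (cs (rf (nat_lit 29)) (cs (rf (nat_lit 30)) (nd (nat_lit 211) (nat_lit 0) (cs (rf (nat_lit 10)) (nd (nat_lit 200) (nat_lit 0) (cs (lf (nat_lit 0) (nat_lit 199)) (nd (nat_lit 203) (nat_lit 0) (cs (rf (nat_lit 5)) (cs (rf (nat_lit 15)) (rf (nat_lit 31))))))))))))))) (cs (nd (nat_lit 209) (nat_lit 0) (cs (lf (nat_lit 44) (nat_lit 186)) (nd (nat_lit 200) (nat_lit 0) (cs (rf (nat_lit 32)) (cs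 (rf (nat_lit 1)) (cs (rf (nat_lit 33)) (cs (rf (nat_lit 6)) (nd (nat_lit 203) (nat_lit 0) (cs (rf (nat_lit 3)) (cs (rf (nat_lit 4)) (rf (nat_lit 13)))))))))))) (nd (nat_lit 209) (nat_lit 0) (cs (lf (nat_lit 44) (nat_lit 186)) (nd (nat_lit 211) (nat_lit 0) (cs (rf (nat_lit 10)) (nd (nat_lit 225) (nat_lit 0) (cs (rf (nat_lit 28)) (cs (rf (nat_lit 29)) (cs (rf (nat_lit 30)) (nd (nat_lit 200) (nat_lit 0) (cs (lf (nat_lit 0) (nat_lit 199)) (nd (nat_lit 203) (nat_lit 0) (cs (rf (nat_lit 31)) (cs (nd (nat_lit 178) (nat_lit 0) (cs (lf (nat_lit 23) (nat_lit 177)) (nd (nat_lit 230) (nat_lit 0) (cs (lf (nat_lit 27) (nat_lit 186)) (rf (nat_lit 34)))))) (cs (nd (nat_lit 180) (nat_lit 0) (cs (nd (nat_lit 158) (nat_lit 0) (cs (rf (nat_lit 35)) (lf (nat_lit 29) (nat_lit 158)))) (rf (nat_lit 36)))) (nd (nat_lit 230) (nat_lit 0) (cs (lf (nat_lit 27) (nat_lit 186)) (nd (nat_lit 182) (nat_lit 0) (cs (lf (nat_lit 16) (nat_lit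 178)) (nd (nat_lit 177) (nat_lit 0) (cs (lf (nat_lit 22) (nat_lit 177)) (nd (nat_lit 204) (nat_lit 0) (cs (lf (nat_lit 17) (nat_lit 179)) (rf (nat_lit 37)))))))))))))))))))))))))))))))))))) q77291 (by decide +kernel)
def q77343 : Q := Q.p (nat_lit 0x880002600000100010400040000000000000000000000000000000000000000000000) (nat_lit 0xa00007f0010f800cef0023380007b0000fc0003f0000a0000000000000000000000000000) (nat_lit 12)
theorem c77343 : QOK q77343 := cut [q75932, q75933, q75934, q76018, q77311, q75684, q75730, q75733, q77114, q77334] ⟨c75932, c75933, c75934, c76018, c77311, c75684, c75730, c75733, c77114, c77334, trivial⟩ (nd (nat_lit 180) (nat_lit 0) (cs (rf (nat_lit 0)) (cs (rf (nat_lit 1)) (cs (rf (nat_lit 2)) (cs (rf (nat_lit 3)) (cs (rf (nat_lit 4)) (nd (nat_lit 158) (nat_lit 0) (cs (rf (nat_lit 5)) (cs (rf (nat_lit 6)) (cs (rf (nat_lit 7)) (nd (nat_lit 157) (nat_lit 0) (cs (lf (nat_lit 47) (nat_lit 135))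 (nd (nat_lit 156) (nat_lit 0) (cs (nd (nat_lit 230) (nat_lit 0) (cs (lf (nat_lit 27) (nat_lit 186)) (nd (nat_lit 155) (nat_lit 0) (cs (lf (nat_lit 5) (nat_lit 155)) (nd (nat_lit 176) (nat_lit 0) (cs (nd (nat_lit 154) (nat_lit 0) (cs (nd (nat_lit 133) (nat_lit 0) (cs (lf (nat_lit 23) (nat_lit 132)) (nd (nat_lit 159) (nat_lit 0) (cs (lf (nat_lit 35) (nat_lit 136)) (lf (nat_lit 22) (nat_lit 133)))))) (lf (nat_lit 4) (nat_lit 154)))) (lf (nat_lit 10) (nat_lit 154)))))))) (cs (nd (nat_lit 223) (nat_lit 0) (cs (lf (nat_lit 41) (nat_lit 157)) (nd (nat_lit 155) (nat_lit 0) (cs (lf (nat_lit 5) (nat_lit 155)) (nd (nat_lit 176) (nat_lit 0) (cs (lf (nat_lit 10) (nat_lit 154)) (nd (nat_lit 179) (nat_lit 0) (cs (lf (nat_lit 0) (nat_lit 154)) (nd (nat_lit 201) (nat_lit 0) (cs (lf (nat_lit 47) (nat_lit 134)) (rf (nat_lit 8)))))))))))) (cs (nd (nat_lit 225) (nat_lit 0) (cs (lf (nat_lit 29) (nat_lit 158)) (nd (nat_lit 223)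 (nat_lit 0) (cs (lf (nat_lit 41) (nat_lit 157)) (nd (nat_lit 226) (nat_lit 0) (cs (lf (nat_lit 3) (nat_lit 224)) (nd (nat_lit 204) (nat_lit 0) (cs (lf (nat_lit 17) (nat_lit 201)) (nd (nat_lit 159) (nat_lit 0) (cs (lf (nat_lit 35) (nat_lit 136)) (nd (nat_lit 201) (nat_lit 0) (cs (lf (nat_lit 23) (nat_lit 200)) (nd (nat_lit 134) (nat_lit 0) (cs (lf (nat_lit 23) (nat_lit 133)) (lf (nat_lit 44) (nat_lit 134)))))))))))))))) (nd (nat_lit 223) (nat_lit 0) (cs (lf (nat_lit 41) (nat_lit 157)) (nd (nat_lit 225) (nat_lit 0) (cs (lf (nat_lit 29) (nat_lit 158)) (nd (nat_lit 226) (nat_lit 0) (cs (lf (nat_lit 3) (nat_lit 224)) (nd (nat_lit 204) (nat_lit 0) (cs (lf (nat_lit 17) (nat_lit 201)) (nd (nat_lit 200) (nat_lit 0) (cs (lf (nat_lit 22) (nat_lit 200)) (rf (nat_lit 9)))))))))))))))))))))))))))) q77343 (by decide +kernel)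
def q77537 : Q := Q.p (nat_lit 0x880002600000100010400040000000000000000000000000000000000000000000000) (nat_lit 0x480001700010c000cee0023bc003ff0007fc001fe0001f8000380000800000000000000000) (nat_lit 12)
theorem c77537 : QOK q77537 := cut [q75932, q76167, q77355, q77430, q75677, q76134, q77348, q75906, q75734, q77520, q77525, q76148, q77533, q75735, q76157, q77346, q76166] ⟨c75932, c76167, c77355, c77430, c75677, c76134, c77348, c75906, c75734, c77520, c77525, c76148, c77533, c75735, c76157, c77346, c76166, trivial⟩ (nd (nat_lit 180) (nat_lit 0) (cs (rf (nat_lit 0)) (cs (rf (nat_lit 1)) (cs (rf (nat_lit 2)) (cs (rf (nat_lit 3)) (cs (nd (nat_lit 158) (nat_lit 0) (cs (rf (nat_lit 4)) (cs (rf (nat_lit 5)) (cs (rf (nat_lit 6)) (nd (nat_lit 230) (nat_lit 0) (cs (lf (nat_lit 27) (nat_lit 186)) (nd (nat_lit 225) (nat_lit 0) (cs (lf (nat_lit 29) (nat_lit 158)) (nd (nat_lit 136) (nat_lit 0) (cs (lf (nat_lit 28)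 (nat_lit 136)) (nd (nat_lit 201) (nat_lit 0) (cs (rf (nat_lit 7)) (lf (nat_lit 41) (nat_lit 135)))))))))))))) (cs (nd (nat_lit 159) (nat_lit 0) (cs (rf (nat_lit 8)) (cs (nd (nat_lit 230) (nat_lit 0) (cs (lf (nat_lit 27) (nat_lit 186)) (nd (nat_lit 209) (nat_lit 0) (cs (lf (nat_lit 44) (nat_lit 186)) (nd (nat_lit 158) (nat_lit 0) (cs (lf (nat_lit 35) (nat_lit 136)) (rf (nat_lit 9)))))))) (rf (nat_lit 10))))) (cs (nd (nat_lit 158) (nat_lit 0) (cs (rf (nat_lit 4)) (cs (rf (nat_lit 11)) (cs (rf (nat_lit 6)) (cs (rf (nat_lit 9)) (rf (nat_lit 12))))))) (cs (nd (nat_lit 158) (nat_lit 0) (cs (rf (nat_lit 13)) (cs (rf (nat_lit 14)) (cs (rf (nat_lit 15)) (rf (nat_lit 12)))))) (nd (nat_lit 158) (nat_lit 0) (cs (rf (nat_lit 13)) (cs (rf (nat_lit 16)) (rf (nat_lit 6)))))))))))))) q77537 (by decide +kernel)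
def q77715 : Q := Q.p (nat_lit 0x880002600000100010400040000000000000000000000000000000000000000000000) (nat_lit 0x40000700001c00006e00017800116006ee801e79c0ebfe0007fc001f80000e0000280000000000000000000000) (nat_lit 12)
theorem c77715 : QOK q77715 := cut [q76714, q66782, q77637, q75, q71702, q77440, q37980, q76118, q77640, q40955, q75733, q76025, q77657, q77666, q74821, q77675, q76123, q77684, q76028, q77664, q77713, q77714] ⟨c76714, c66782, c77637, c75, c71702, c77440, c37980, c76118, c77640, c40955, c75733, c76025, c77657, c77666, c74821, c77675, c76123, c77684, c76028, c77664, c77713, c77714, trivial⟩ (nd (nat_lit 180) (nat_lit 0) (cs (rf (nat_lit 0)) (cs (nd (nat_lit 209) (nat_lit 0) (cs (lf (nat_lit 44) (nat_lit 186)) (nd (nat_lit 211) (nat_lit 0) (cs (rf (nat_lit 1)) (rf (nat_lit 2)))))) (cs (nd (nat_lit 209) (nat_lit 0) (cs (lf (nat_lit 44) (nat_lit 186)) (nd (nat_lit 210) (nat_lit 0) (cs (rf (nat_lit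 3)) (cs (rf (nat_lit 4)) (nd (nat_lit 227) (nat_lit 0) (cs (rf (nat_lit 5)) (cs (nd (nat_lit 246) (nat_lit 0) (cs (rf (nat_lit 6)) (cs (rf (nat_lit 7)) (nd (nat_lit 225) (nat_lit 0) (cs (lf (nat_lit 2) (nat_lit 224)) (nd (nat_lit 157) (nat_lit 0) (cs (lf (nat_lit 46) (nat_lit 157)) (nd (nat_lit 158) (nat_lit 0) (cs (lf (nat_lit 47) (nat_lit 135)) (nd (nat_lit 203) (nat_lit 0) (cs (lf (nat_lit 24) (nat_lit 136)) (rf (nat_lit 8))))))))))))) (nd (nat_lit 205) (nat_lit 0) (cs (rf (nat_lit 9)) (nd (nat_lit 204) (nat_lit 0) (cs (lf (nat_lit 47) (nat_lit 182)) (nd (nat_lit 203) (nat_lit 0) (cs (lf (nat_lit 23) (nat_lit 179)) (lf (nat_lit 11) (nat_lit 201)))))))))))))))) (cs (nd (nat_lit 158) (nat_lit 0) (cs (rf (nat_lit 10)) (cs (rf (nat_lit 11)) (rf (nat_lit 12))))) (cs (rf (nat_lit 13)) (cs (nd (nat_lit 159) (nat_lit 0) (cs (nd (nat_lit 158) (nat_lit 0) (cs (lf (nat_lit 35) (nat_lit 136)) (nd (nat_lit 245) (nat_lit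 0) (cs (lf (nat_lit 40) (nat_lit 157)) (nd (nat_lit 246) (nat_lit 0) (cs (lf (nat_lit 41) (nat_lit 179)) (nd (nat_lit 227) (nat_lit 0) (cs (rf (nat_lit 14)) (cs (nd (nat_lit 205) (nat_lit 0) (cs (rf (nat_lit 9)) (nd (nat_lit 230) (nat_lit 0) (cs (lf (nat_lit 27) (nat_lit 186)) (nd (nat_lit 206) (nat_lit 0) (cs (lf (nat_lit 35) (nat_lit 183)) (nd (nat_lit 204) (nat_lit 0) (cs (lf (nat_lit 47) (nat_lit 182)) (nd (nat_lit 203) (nat_lit 0) (cs (lf (nat_lit 23) (nat_lit 179)) (lf (nat_lit 10) (nat_lit 202)))))))))))) (cs (rf (nat_lit 15)) (nd (nat_lit 230) (nat_lit 0) (cs (lf (nat_lit 27) (nat_lit 186)) (nd (nat_lit 225) (nat_lit 0) (cs (lf (nat_lit 7) (nat_lit 223)) (nd (nat_lit 203) (nat_lit 0) (cs (lf (nat_lit 24) (nat_lit 136)) (nd (nat_lit 268) (nat_lit 0) (cs (lf (nat_lit 30) (nat_lit 202)) (rf (nat_lit 16)))))))))))))))))))) (cs (nd (nat_lit 209) (nat_lit 0) (cs (lf (nat_lit 44) (nat_lit 186)) (nd (nat_lit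 230) (nat_lit 0) (cs (lf (nat_lit 27) (nat_lit 186)) (rf (nat_lit 17)))))) (nd (nat_lit 137) (nat_lit 0) (cs (lf (nat_lit 33) (nat_lit 136)) (nd (nat_lit 181) (nat_lit 0) (cs (lf (nat_lit 39) (nat_lit 136)) (lf (nat_lit 36) (nat_lit 114))))))))) (cs (nd (nat_lit 158) (nat_lit 0) (cs (rf (nat_lit 10)) (cs (rf (nat_lit 18)) (rf (nat_lit 19))))) (cs (rf (nat_lit 20)) (rf (nat_lit 21))))))))))) q77715 (by decide +kernel)
def q77857 : Q := Q.p (nat_lit 0x880002600000100010400040000000000000000000000000000000000000000000000) (nat_lit 0x40000700001c00006a0001780011600eee001e7b80ebfe000ff8007fc000ff0003f80001c00000000000000000) (nat_lit 12)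
theorem c77857 : QOK q77857 := cut [q74821, q77440, q77675, q26954, q77752, q77755, q77820, q66782, q67617, q77770, q77780, q77745, q38487, q17990, q75338, q77856] ⟨c74821, c77440, c77675, c26954, c77752, c77755, c77820, c66782, c67617, c77770, c77780, c77745, c38487, c17990, c75338, c77856, trivial⟩ (nd (nat_lit 181) (nat_lit 0) (cs (nd (nat_lit 227) (nat_lit 0) (cs (rf (nat_lit 0)) (cs (rf (nat_lit 1)) (cs (rf (nat_lit 2)) (cs (nd (nat_lit 183) (nat_lit 0) (cs (nd (nat_lit 230) (nat_lit 0) (cs (lf (nat_lit 27) (nat_lit 186)) (nd (nat_lit 205) (nat_lit 0) (cs (lf (nat_lit 29) (nat_lit 183)) (rf (nat_lit 3)))))) (cs (nd (nat_lit 230) (nat_lit 0) (cs (lf (nat_lit 27) (nat_lit 186)) (nd (nat_lit 209) (nat_lit 0) (cs (lf (nat_lit 44) (nat_lit 186)) (rf (nat_lit 4)))))) (nd (nat_lit 209) (nat_lit 0) (cs (lf (nat_lit 44) (nat_lit 186)) (rf (nat_lit 5))))))) (nd (nat_lit 209) (nat_lit 0) (cs (lf (nat_lit 44)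 (nat_lit 186)) (nd (nat_lit 183) (nat_lit 0) (cs (rf (nat_lit 4)) (cs (rf (nat_lit 5)) (nd (nat_lit 225) (nat_lit 0) (cs (lf (nat_lit 2) (nat_lit 224)) (nd (nat_lit 205) (nat_lit 0) (cs (lf (nat_lit 29) (nat_lit 183)) (nd (nat_lit 160) (nat_lit 0) (cs (lf (nat_lit 46) (nat_lit 160)) (nd (nat_lit 138) (nat_lit 0) (cs (lf (nat_lit 45) (nat_lit 138)) (nd (nat_lit 203) (nat_lit 0) (cs (lf (nat_lit 33) (nat_lit 137)) (nd (nat_lit 270) (nat_lit 0) (cs (lf (nat_lit 40) (nat_lit 182)) (nd (nat_lit 268) (nat_lit 0) (cs (lf (nat_lit 13) (nat_lit 246)) (lf (nat_lit 31) (nat_lit 180)))))))))))))))))))))))))) (cs (rf (nat_lit 6)) (cs (nd (nat_lit 209) (nat_lit 0) (cs (lf (nat_lit 44) (nat_lit 186)) (nd (nat_lit 211) (nat_lit 0) (cs (rf (nat_lit 7)) (cs (rf (nat_lit 8)) (nd (nat_lit 183) (nat_lit 0) (cs (rf (nat_lit 9)) (cs (nd (nat_lit 227) (nat_lit 0) (cs (rf (nat_lit 5)) (rf (nat_lit 10)))) (nd (nat_lit 227) (nat_lit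 0) (cs (nd (nat_lit 205) (nat_lit 0) (cs (lf (nat_lit 29) (nat_lit 183)) (nd (nat_lit 182) (nat_lit 0) (cs (lf (nat_lit 47) (nat_lit 160)) (nd (nat_lit 180) (nat_lit 0) (cs (lf (nat_lit 11) (nat_lit 179)) (lf (nat_lit 5) (nat_lit 180)))))))) (rf (nat_lit 10)))))))))))) (cs (nd (nat_lit 159) (nat_lit 0) (cs (rf (nat_lit 11)) (cs (nd (nat_lit 137) (nat_lit 0) (cs (lf (nat_lit 39) (nat_lit 136)) (nd (nat_lit 115) (nat_lit 0) (cs (nd (nat_lit 230) (nat_lit 0) (cs (lf (nat_lit 27) (nat_lit 186)) (nd (nat_lit 182) (nat_lit 0) (cs (lf (nat_lit 29) (nat_lit 115)) (nd (nat_lit 93) (nat_lit 0) (cs (lf (nat_lit 28) (nat_lit 93)) (rf (nat_lit 12)))))))) (cs (nd (nat_lit 182) (nat_lit 0) (cs (lf (nat_lit 29) (nat_lit 115)) (rf (nat_lit 13)))) (nd (nat_lit 116) (nat_lit 0) (cs (lf (nat_lit 35) (nat_lit 93)) (nd (nat_lit 117) (nat_lit 0) (cs (nd (nat_lit 118) (nat_lit 0) (cs (lf (nat_lit 11) (nat_lit 114)) (nd (nat_lit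 96) (nat_lit 0) (cs (lf (nat_lit 17) (nat_lit 93)) (nd (nat_lit 141) (nat_lit 0) (cs (nd (nat_lit 119) (nat_lit 0) (cs (lf (nat_lit 10) (nat_lit 115)) (lf (nat_lit 5) (nat_lit 116)))) (lf (nat_lit 4) (nat_lit 115)))))))) (cs (nd (nat_lit 230) (nat_lit 0) (cs (lf (nat_lit 27) (nat_lit 186)) (nd (nat_lit 114) (nat_lit 0) (cs (lf (nat_lit 47) (nat_lit 92)) (nd (nat_lit 96) (nat_lit 0) (cs (lf (nat_lit 16) (nat_lit 92)) (nd (nat_lit 140) (nat_lit 0) (cs (lf (nat_lit 4) (nat_lit 114)) (nd (nat_lit 118) (nat_lit 0) (cs (lf (nat_lit 5) (nat_lit 115)) (lf (nat_lit 17) (nat_lit 93)))))))))))) (nd (nat_lit 114) (nat_lit 0) (cs (lf (nat_lit 47) (nat_lit 92)) (nd (nat_lit 230) (nat_lit 0) (cs (lf (nat_lit 27) (nat_lit 186)) (nd (nat_lit 135) (nat_lit 0) (cs (lf (nat_lit 10) (nat_lit 113)) (nd (nat_lit 113) (nat_lit 0) (cs (lf (nat_lit 11) (nat_lit 112)) (nd (nat_lit 138) (nat_lit 0) (cs (lf (nat_lit 5) (nat_lit 113))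 (lf (nat_lit 0) (nat_lit 112)))))))))))))))))))))) (nd (nat_lit 230) (nat_lit 0) (cs (lf (nat_lit 27) (nat_lit 186)) (nd (nat_lit 209) (nat_lit 0) (cs (lf (nat_lit 44) (nat_lit 186)) (nd (nat_lit 246) (nat_lit 0) (cs (lf (nat_lit 33) (nat_lit 158)) (nd (nat_lit 268) (nat_lit 0) (cs (lf (nat_lit 34) (nat_lit 180)) (rf (nat_lit 14))))))))))))) (rf (nat_lit 15))))))) q77857 (by decide +kernel)
def q77883 : Q := Q.p (nat_lit 0x880002600000100010400040000000000000000000000000000000000000000000000) (nat_lit 0x140000700001e0001ea00017800116006ce801e3300eaf80003f8000380000e0000280000000000000000000000) (nat_lit 12)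
theorem c77883 : QOK q77883 := cut [q76030, q76136, q76168, q66782, q76118, q75994, q77630, q77874, q76134, q76143, q76157, q76166, q50024] ⟨c76030, c76136, c76168, c66782, c76118, c75994, c77630, c77874, c76134, c76143, c76157, c76166, c50024, trivial⟩ (nd (nat_lit 180) (nat_lit 0) (cs (rf (nat_lit 0)) (cs (rf (nat_lit 1)) (cs (rf (nat_lit 2)) (cs (nd (nat_lit 209) (nat_lit 0) (cs (lf (nat_lit 44) (nat_lit 186)) (nd (nat_lit 211) (nat_lit 0) (cs (rf (nat_lit 3)) (nd (nat_lit 246) (nat_lit 0) (cs (rf (nat_lit 4)) (nd (nat_lit 179) (nat_lit 0) (cs (lf (nat_lit 47) (nat_lit 157)) (nd (nat_lit 181) (nat_lit 0) (cs (lf (nat_lit 35) (nat_lit 158)) (nd (nat_lit 182) (nat_lit 0) (cs (rf (nat_lit 5)) (nd (nat_lit 230) (nat_lit 0) (cs (lf (nat_lit 27) (nat_lit 186)) (nd (nat_lit 160) (nat_lit 0) (cs (lf (nat_lit 17) (nat_lit 157)) (nd (nat_lit 204) (nat_lit 0) (cs (lf (nat_lit 5) (nat_lit 179)) (rf (nat_lit 6))))))))))))))))))))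 (cs (rf (nat_lit 7)) (nd (nat_lit 158) (nat_lit 0) (cs (rf (nat_lit 8)) (cs (rf (nat_lit 9)) (cs (rf (nat_lit 10)) (cs (rf (nat_lit 11)) (nd (nat_lit 230) (nat_lit 0) (cs (lf (nat_lit 27) (nat_lit 186)) (nd (nat_lit 209) (nat_lit 0) (cs (lf (nat_lit 44) (nat_lit 186)) (nd (nat_lit 135) (nat_lit 0) (cs (lf (nat_lit 46) (nat_lit 135)) (nd (nat_lit 136) (nat_lit 0) (cs (lf (nat_lit 47) (nat_lit 113)) (nd (nat_lit 201) (nat_lit 0) (cs (lf (nat_lit 41) (nat_lit 135)) (nd (nat_lit 179) (nat_lit 0) (cs (lf (nat_lit 36) (nat_lit 113)) (nd (nat_lit 246) (nat_lit 0) (cs (rf (nat_lit 12)) (lf (nat_lit 42) (nat_lit 179))))))))))))))))))))))))))) q77883 (by decide +kernel)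
def q77906 : Q := Q.p (nat_lit 0x880002600000100010400040000000000000000000000000000000000000000000000) (nat_lit 0xa00007800116000ce80020b8003fe0007fc001f80000e0000380000800000000000000000) (nat_lit 12)
theorem c77906 : QOK q77906 := cut [q76136, q76167, q76168, q77607, q77666, q75656, q76010, q77393, q77400, q69767, q76120, q76127, q76148, q77599, q75730, q76028, q76166] ⟨c76136, c76167, c76168, c77607, c77666, c75656, c76010, c77393, c77400, c69767, c76120, c76127, c76148, c77599, c75730, c76028, c76166, trivial⟩ (nd (nat_lit 180) (nat_lit 0) (cs (rf (nat_lit 0)) (cs (rf (nat_lit 1)) (cs (rf (nat_lit 2)) (cs (rf (nat_lit 3)) (cs (rf (nat_lit 4)) (cs (nd (nat_lit 209) (nat_lit 0) (cs (lf (nat_lit 44) (nat_lit 186)) (nd (nat_lit 246) (nat_lit 0) (cs (rf (nat_lit 5)) (cs (rf (nat_lit 6)) (nd (nat_lit 179) (nat_lit 0) (cs (lf (nat_lit 47) (nat_lit 157)) (nd (nat_lit 181) (nat_lit 0) (cs (rf (nat_lit 7)) (cs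 (rf (nat_lit 8)) (nd (nat_lit 200) (nat_lit 0) (cs (nd (nat_lit 199) (nat_lit 0) (cs (lf (nat_lit 14) (nat_lit 177)) (lf (nat_lit 9) (nat_lit 177)))) (cs (nd (nat_lit 230) (nat_lit 0) (cs (lf (nat_lit 27) (nat_lit 186)) (nd (nat_lit 178) (nat_lit 0) (cs (lf (nat_lit 11) (nat_lit 177)) (nd (nat_lit 177) (nat_lit 0) (cs (rf (nat_lit 9)) (lf (nat_lit 5) (nat_lit 177)))))))) (nd (nat_lit 230) (nat_lit 0) (cs (lf (nat_lit 27) (nat_lit 186)) (nd (nat_lit 182) (nat_lit 0) (cs (lf (nat_lit 10) (nat_lit 178)) (nd (nat_lit 161) (nat_lit 0) (cs (nd (nat_lit 183) (nat_lit 0) (cs (lf (nat_lit 17) (nat_lit 158)) (nd (nat_lit 184) (nat_lit 0) (cs (lf (nat_lit 2) (nat_lit 183)) (lf (nat_lit 10) (nat_lit 180)))))) (lf (nat_lit 16) (nat_lit 157))))))))))))))))))))) (cs (nd (nat_lit 158) (nat_lit 0) (cs (rf (nat_lit 10)) (cs (rf (nat_lit 11)) (cs (rf (nat_lit 12)) (nd (nat_lit 230) (nat_lit 0) (cs (lf (nat_lit 27) (nat_lit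 186)) (nd (nat_lit 223) (nat_lit 0) (cs (lf (nat_lit 41) (nat_lit 157)) (nd (nat_lit 136) (nat_lit 0) (cs (lf (nat_lit 40) (nat_lit 135)) (rf (nat_lit 13)))))))))))) (nd (nat_lit 158) (nat_lit 0) (cs (rf (nat_lit 14)) (cs (rf (nat_lit 15)) (rf (nat_lit 16))))))))))))) q77906 (by decide +kernel)
def q77970 : Q := Q.p (nat_lit 0x880002600000100010400040000000000000000000000000000000000000000000000) (nat_lit 0xa00007800106000c2c0023bc003be0007fc001ff0000e0000380000800000000000000000) (nat_lit 12)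
theorem c77970 : QOK q77970 := cut [q76136, q77607, q75656, q76010, q75708, q75717, q76120, q77601, q77710, q77967, q77969] ⟨c76136, c77607, c75656, c76010, c75708, c75717, c76120, c77601, c77710, c77967, c77969, trivial⟩ (nd (nat_lit 180) (nat_lit 0) (cs (rf (nat_lit 0)) (cs (rf (nat_lit 1)) (cs (nd (nat_lit 209) (nat_lit 0) (cs (lf (nat_lit 44) (nat_lit 186)) (nd (nat_lit 246) (nat_lit 0) (cs (rf (nat_lit 2)) (cs (rf (nat_lit 3)) (nd (nat_lit 179) (nat_lit 0) (cs (lf (nat_lit 47) (nat_lit 157)) (nd (nat_lit 178) (nat_lit 0) (cs (rf (nat_lit 4)) (cs (rf (nat_lit 5)) (nd (nat_lit 245) (nat_lit 0) (cs (lf (nat_lit 41) (nat_lit 179)) (nd (nat_lit 230) (nat_lit 0) (cs (lf (nat_lit 27) (nat_lit 186)) (nd (nat_lit 181) (nat_lit 0) (cs (lf (nat_lit 35) (nat_lit 158)) (nd (nat_lit 200) (nat_lit 0) (cs (lf (nat_lit 11) (nat_lit 177)) (nd (nat_lit 156) (nat_lit 0) (cs (lf (nat_lit 23) (nat_lit 155)) (nd (nat_lit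 223) (nat_lit 0) (cs (lf (nat_lit 27) (nat_lit 156)) (lf (nat_lit 44) (nat_lit 156)))))))))))))))))))))))) (cs (nd (nat_lit 158) (nat_lit 0) (cs (rf (nat_lit 6)) (cs (rf (nat_lit 7)) (rf (nat_lit 8))))) (cs (nd (nat_lit 209) (nat_lit 0) (cs (lf (nat_lit 44) (nat_lit 186)) (rf (nat_lit 9)))) (rf (nat_lit 10)))))))) q77970 (by decide +kernel)
def q78075 : Q := Q.p (nat_lit 0x880002680000100010000040000000000000000000000000000000000000000000000) (nat_lit 0x1c0000770001140004080000000000000000000000000000000000000000000000000000000) (nat_lit 7)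
theorem c78075 : QOK q78075 := cut [q47435, q73418, q73421, q75329] ⟨c47435, c73418, c73421, c75329, trivial⟩ (nd (nat_lit 269) (nat_lit 0) (cs (rf (nat_lit 0)) (cs (rf (nat_lit 1)) (cs (rf (nat_lit 2)) (nd (nat_lit 230) (nat_lit 0) (cs (lf (nat_lit 27) (nat_lit 186)) (nd (nat_lit 248) (nat_lit 0) (cs (lf (nat_lit 11) (nat_lit 246)) (rf (nat_lit 3)))))))))) q78075 (by decide +kernel)
def q78161 : Q := Q.p (nat_lit 0x880002600000100010000040000000000000000000000000000000000000000000000) (nat_lit 0x10001ce00077c0011fc00cef0020fc0003e0000f80003e0000a8000000000000000000000000000) (nat_lit 13)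
theorem c78161 : QOK q78161 := cut [q77727, q45757, q73418, q69947, q74216, q76622, q78090, q76238, q78099, q74462, q76242, q51801, q76033, q77447, q76325, q78139, q74223, q49843, q74224] ⟨c77727, c45757, c73418, c69947, c74216, c76622, c78090, c76238, c78099, c74462, c76242, c51801, c76033, c77447, c76325, c78139, c74223, c49843, c74224, trivial⟩ (nd (nat_lit 225) (nat_lit 0) (cs (nd (nat_lit 226) (nat_lit 0) (cs (lf (nat_lit 3) (nat_lit 224)) (rf (nat_lit 0)))) (cs (nd (nat_lit 247) (nat_lit 0) (cs (lf (nat_lit 20) (nat_lit 224)) (nd (nat_lit 269) (nat_lit 0) (cs (rf (nat_lit 1)) (rf (nat_lit 2)))))) (nd (nat_lit 223) (nat_lit 0) (cs (rf (nat_lit 3)) (cs (nd (nat_lit 222) (nat_lit 0) (cs (rf (nat_lit 4)) (cs (rf (nat_lit 5)) (nd (nat_lit 209) (nat_lit 0) (cs (lf (nat_lit 44) (nat_lit 186)) (rf (nat_lit 6))))))) (cs (nd (nat_lit 222) (nat_lit 0) (cs (rf (nat_lit 4)) (cs (rf (nat_lit 7)) (nd (nat_lit 209)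 (nat_lit 0) (cs (lf (nat_lit 44) (nat_lit 186)) (rf (nat_lit 8))))))) (cs (nd (nat_lit 245) (nat_lit 0) (cs (nd (nat_lit 226) (nat_lit 0) (cs (lf (nat_lit 11) (nat_lit 222)) (lf (nat_lit 3) (nat_lit 224)))) (nd (nat_lit 202) (nat_lit 0) (cs (rf (nat_lit 9)) (cs (nd (nat_lit 268) (nat_lit 0) (cs (rf (nat_lit 10)) (cs (nd (nat_lit 269) (nat_lit 0) (cs (lf (nat_lit 14) (nat_lit 246)) (nd (nat_lit 247) (nat_lit 0) (cs (lf (nat_lit 42) (nat_lit 202)) (nd (nat_lit 267) (nat_lit 0) (cs (lf (nat_lit 30) (nat_lit 201)) (nd (nat_lit 290) (nat_lit 0) (cs (lf (nat_lit 36) (nat_lit 202)) (lf (nat_lit 24) (nat_lit 201)))))))))) (nd (nat_lit 267) (nat_lit 0) (cs (lf (nat_lit 30) (nat_lit 201)) (nd (nat_lit 290) (nat_lit 0) (cs (lf (nat_lit 24) (nat_lit 201)) (nd (nat_lit 246) (nat_lit 0) (cs (lf (nat_lit 35) (nat_lit 202)) (lf (nat_lit 42) (nat_lit 223))))))))))) (cs (nd (nat_lit 267) (nat_lit 0) (cs (lf (nat_lit 30)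 (nat_lit 201)) (rf (nat_lit 11)))) (nd (nat_lit 180) (nat_lit 0) (cs (rf (nat_lit 12)) (cs (nd (nat_lit 158) (nat_lit 0) (cs (lf (nat_lit 29) (nat_lit 158)) (nd (nat_lit 137) (nat_lit 0) (cs (lf (nat_lit 34) (nat_lit 136)) (nd (nat_lit 136) (nat_lit 0) (cs (lf (nat_lit 35) (nat_lit 114)) (lf (nat_lit 28) (nat_lit 136)))))))) (nd (nat_lit 269) (nat_lit 0) (cs (rf (nat_lit 13)) (cs (nd (nat_lit 268) (nat_lit 0) (cs (lf (nat_lit 14) (nat_lit 246)) (rf (nat_lit 14)))) (nd (nat_lit 247) (nat_lit 0) (cs (lf (nat_lit 27) (nat_lit 180)) (lf (nat_lit 45) (nat_lit 180)))))))))))))))) (cs (rf (nat_lit 15)) (nd (nat_lit 209) (nat_lit 0) (cs (lf (nat_lit 44) (nat_lit 186)) (nd (nat_lit 222) (nat_lit 0) (cs (rf (nat_lit 6)) (cs (rf (nat_lit 8)) (nd (nat_lit 200) (nat_lit 0) (cs (lf (nat_lit 23) (nat_lit 199)) (nd (nat_lit 178) (nat_lit 0) (cs (rf (nat_lit 16)) (cs (nd (nat_lit 230) (nat_lit 0) (cs (lf (nat_lit 27) (nat_lit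 186)) (nd (nat_lit 244) (nat_lit 0) (cs (lf (nat_lit 11) (nat_lit 221)) (nd (nat_lit 157) (nat_lit 0) (cs (lf (nat_lit 34) (nat_lit 156)) (nd (nat_lit 156) (nat_lit 0) (cs (lf (nat_lit 35) (nat_lit 134)) (rf (nat_lit 17)))))))))) (cs (nd (nat_lit 244) (nat_lit 0) (cs (lf (nat_lit 11) (nat_lit 221)) (nd (nat_lit 230) (nat_lit 0) (cs (lf (nat_lit 27) (nat_lit 186)) (nd (nat_lit 155) (nat_lit 0) (cs (lf (nat_lit 46) (nat_lit 155)) (nd (nat_lit 267) (nat_lit 0) (cs (lf (nat_lit 28) (nat_lit 178)) (nd (nat_lit 179) (nat_lit 0) (cs (lf (nat_lit 35) (nat_lit 156)) (rf (nat_lit 18)))))))))))) (nd (nat_lit 243) (nat_lit 0) (cs (lf (nat_lit 10) (nat_lit 221)) (nd (nat_lit 230) (nat_lit 0) (cs (lf (nat_lit 27) (nat_lit 186)) (nd (nat_lit 156) (nat_lit 0) (cs (lf (nat_lit 29) (nat_lit 156)) (nd (nat_lit 134) (nat_lit 0) (cs (lf (nat_lit 28) (nat_lit 134)) (nd (nat_lit 133) (nat_lit 0) (cs (lf (nat_lit 47) (nat_lit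 111)) (lf (nat_lit 46) (nat_lit 133)))))))))))))))))))))))))))))))) q78161 (by decide +kernel)
def q78335 : Q := Q.p (nat_lit 0x880002600000100010c00040000000000000000000000000000000000000000000000) (nat_lit 0x1000010200ee8e01e7300ebfe0007f0001fc0000e0000180000200000000000000000) (nat_lit 10)
theorem c78335 : QOK q78335 := cut [q78064, q75423, q75470, q35305, q75453, q75465, q76004, q78269, q66782, q67617, q75733, q61421, q78282, q78280, q75924, q77373, q78326, q76033, q76618, q76111, q78322] ⟨c78064, c75423, c75470, c35305, c75453, c75465, c76004, c78269, c66782, c67617, c75733, c61421, c78282, c78280, c75924, c77373, c78326, c76033, c76618, c76111, c78322, trivial⟩ (nd (nat_lit 180) (nat_lit 0) (cs (rf (nat_lit 0)) (cs (nd (nat_lit 204) (nat_lit 0) (cs (rf (nat_lit 1)) (cs (rf (nat_lit 2)) (cs (nd (nat_lit 201) (nat_lit 0) (cs (rf (nat_lit 3)) (cs (rf (nat_lit 4)) (cs (rf (nat_lit 5)) (nd (nat_lit 230)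 (nat_lit 0) (cs (lf (nat_lit 27) (nat_lit 186)) (nd (nat_lit 223) (nat_lit 0) (cs (lf (nat_lit 11) (nat_lit 200)) (nd (nat_lit 182) (nat_lit 0) (cs (lf (nat_lit 17) (nat_lit 179)) (nd (nat_lit 179) (nat_lit 0) (cs (lf (nat_lit 23) (nat_lit 178)) (nd (nat_lit 157) (nat_lit 0) (cs (lf (nat_lit 24) (nat_lit 135)) (nd (nat_lit 156) (nat_lit 0) (cs (lf (nat_lit 47) (nat_lit 134)) (lf (nat_lit 19) (nat_lit 156)))))))))))))))))) (nd (nat_lit 230) (nat_lit 0) (cs (lf (nat_lit 27) (nat_lit 186)) (nd (nat_lit 179) (nat_lit 0) (cs (lf (nat_lit 18) (nat_lit 179)) (rf (nat_lit 6)))))))))) (cs (rf (nat_lit 7)) (cs (nd (nat_lit 209) (nat_lit 0) (cs (lf (nat_lit 44) (nat_lit 186)) (nd (nat_lit 211) (nat_lit 0) (cs (rf (nat_lit 8)) (cs (rf (nat_lit 9)) (nd (nat_lit 179) (nat_lit 0) (cs (nd (nat_lit 230) (nat_lit 0) (cs (lf (nat_lit 27) (nat_lit 186)) (nd (nat_lit 204) (nat_lit 0) (cs (lf (nat_lit 18) (nat_lit 179)) (rf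 (nat_lit 6)))))) (cs (nd (nat_lit 158) (nat_lit 0) (cs (rf (nat_lit 10)) (cs (nd (nat_lit 183) (nat_lit 0) (cs (nd (nat_lit 157) (nat_lit 0) (cs (lf (nat_lit 47) (nat_lit 135)) (nd (nat_lit 182) (nat_lit 0) (cs (lf (nat_lit 20) (nat_lit 157)) (nd (nat_lit 159) (nat_lit 0) (cs (lf (nat_lit 3) (nat_lit 157)) (lf (nat_lit 35) (nat_lit 136)))))))) (nd (nat_lit 184) (nat_lit 0) (cs (lf (nat_lit 2) (nat_lit 183)) (nd (nat_lit 205) (nat_lit 0) (cs (rf (nat_lit 11)) (lf (nat_lit 19) (nat_lit 179)))))))) (cs (nd (nat_lit 230) (nat_lit 0) (cs (lf (nat_lit 27) (nat_lit 186)) (rf (nat_lit 12)))) (nd (nat_lit 204) (nat_lit 0) (cs (lf (nat_lit 18) (nat_lit 179)) (nd (nat_lit 137) (nat_lit 0) (cs (lf (nat_lit 34) (nat_lit 136)) (nd (nat_lit 136) (nat_lit 0) (cs (lf (nat_lit 35) (nat_lit 114)) (rf (nat_lit 13)))))))))))) (cs (nd (nat_lit 158) (nat_lit 0) (cs (rf (nat_lit 10)) (cs (rf (nat_lit 14)) (rf (nat_lit 12)))))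 (nd (nat_lit 204) (nat_lit 0) (cs (lf (nat_lit 18) (nat_lit 179)) (rf (nat_lit 15))))))))))))) (cs (rf (nat_lit 16)) (cs (nd (nat_lit 223) (nat_lit 0) (cs (rf (nat_lit 17)) (cs (rf (nat_lit 18)) (nd (nat_lit 230) (nat_lit 0) (cs (lf (nat_lit 27) (nat_lit 186)) (nd (nat_lit 221) (nat_lit 0) (cs (lf (nat_lit 13) (nat_lit 199)) (nd (nat_lit 158) (nat_lit 0) (cs (lf (nat_lit 41) (nat_lit 157)) (nd (nat_lit 137) (nat_lit 0) (cs (lf (nat_lit 34) (nat_lit 136)) (nd (nat_lit 136) (nat_lit 0) (cs (lf (nat_lit 35) (nat_lit 114)) (nd (nat_lit 114) (nat_lit 0) (cs (rf (nat_lit 19)) (lf (nat_lit 28) (nat_lit 114))))))))))))))))) (nd (nat_lit 158) (nat_lit 0) (cs (rf (nat_lit 10)) (rf (nat_lit 20))))))))))) q78335 (by decide +kernel)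
def q78606 : Q := Q.p (nat_lit 0x880002600000000010000040000000000000000000000000000000000000000000000) (nat_lit 0xfc000ffc001fc0007700001c0008f00027c0001f000014000000000000000000000000000000000000000) (nat_lit 14)
theorem c78606 : QOK q78606 := cut [q69300, q46564, q61589, q61593, q46571, q65764, q46561, q72221, q72215, q78536, q78553, q57056, q69227, q78569, q40946, q72250, q46576, q62124, q78572, q78593, q47565, q72688, q65185, q65437, q46620, q68854, q46600, q68531] ⟨c69300, c46564, c61589, c61593, c46571, c65764, c46561, c72221, c72215, c78536, c78553, c57056, c69227, c78569, c40946, c72250, c46576, c62124, c78572, c78593, c47565, c72688, c65185, c65437, c46620, c68854, c46600, c68531, trivial⟩ (nd (nat_lit 272) (nat_lit 0) (cs (nd (nat_lit 270) (nat_lit 0) (cs (nd (nat_lit 273) (nat_lit 0) (cs (lf (nat_lit 19) (nat_lit 249)) (nd (nat_lit 209) (nat_lit 0) (cs (lf (nat_lit 44) (nat_lit 186)) (rf (nat_lit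 0)))))) (cs (nd (nat_lit 209) (nat_lit 0) (cs (lf (nat_lit 44) (nat_lit 186)) (rf (nat_lit 1)))) (cs (nd (nat_lit 273) (nat_lit 0) (cs (lf (nat_lit 19) (nat_lit 249)) (nd (nat_lit 295) (nat_lit 0) (cs (lf (nat_lit 5) (nat_lit 270)) (nd (nat_lit 317) (nat_lit 0) (cs (lf (nat_lit 42) (nat_lit 250)) (rf (nat_lit 2)))))))) (nd (nat_lit 268) (nat_lit 0) (cs (lf (nat_lit 13) (nat_lit 246)) (rf (nat_lit 3)))))))) (cs (nd (nat_lit 293) (nat_lit 0) (cs (rf (nat_lit 4)) (cs (rf (nat_lit 5)) (cs (nd (nat_lit 294) (nat_lit 0) (cs (rf (nat_lit 6)) (cs (rf (nat_lit 7)) (nd (nat_lit 273) (nat_lit 0) (cs (lf (nat_lit 19) (nat_lit 249)) (nd (nat_lit 292) (nat_lit 0) (cs (lf (nat_lit 12) (nat_lit 269)) (nd (nat_lit 247) (nat_lit 0) (cs (lf (nat_lit 1) (nat_lit 247)) (rf (nat_lit 8))))))))))) (nd (nat_lit 273) (nat_lit 0) (cs (lf (nat_lit 19) (nat_lit 249)) (nd (nat_lit 247) (nat_lit 0) (cs (lf (nat_lit 1) (nat_lit 247))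 (rf (nat_lit 9)))))))))) (cs (rf (nat_lit 10)) (cs (nd (nat_lit 273) (nat_lit 0) (cs (lf (nat_lit 19) (nat_lit 249)) (nd (nat_lit 270) (nat_lit 0) (cs (rf (nat_lit 11)) (cs (rf (nat_lit 0)) (nd (nat_lit 248) (nat_lit 0) (cs (lf (nat_lit 0) (nat_lit 247)) (nd (nat_lit 209) (nat_lit 0) (cs (lf (nat_lit 44) (nat_lit 186)) (rf (nat_lit 12))))))))))) (cs (rf (nat_lit 13)) (cs (nd (nat_lit 227) (nat_lit 0) (cs (rf (nat_lit 14)) (cs (rf (nat_lit 15)) (nd (nat_lit 293) (nat_lit 0) (cs (rf (nat_lit 16)) (cs (nd (nat_lit 294) (nat_lit 0) (cs (lf (nat_lit 42) (nat_lit 227)) (nd (nat_lit 209) (nat_lit 0) (cs (lf (nat_lit 44) (nat_lit 186)) (rf (nat_lit 17)))))) (nd (nat_lit 292) (nat_lit 0) (cs (lf (nat_lit 41) (nat_lit 226)) (nd (nat_lit 290) (nat_lit 0) (cs (lf (nat_lit 13) (nat_lit 268)) (rf (nat_lit 18)))))))))))) (cs (rf (nat_lit 19)) (cs (nd (nat_lit 227) (nat_lit 0) (cs (rf (nat_lit 14)) (cs (rf (nat_lit 15))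 (nd (nat_lit 293) (nat_lit 0) (cs (rf (nat_lit 16)) (cs (rf (nat_lit 18)) (nd (nat_lit 209) (nat_lit 0) (cs (lf (nat_lit 44) (nat_lit 186)) (nd (nat_lit 294) (nat_lit 0) (cs (lf (nat_lit 29) (nat_lit 227)) (rf (nat_lit 20)))))))))))) (nd (nat_lit 270) (nat_lit 0) (cs (rf (nat_lit 21)) (cs (nd (nat_lit 273) (nat_lit 0) (cs (lf (nat_lit 19) (nat_lit 249)) (nd (nat_lit 295) (nat_lit 0) (cs (lf (nat_lit 5) (nat_lit 270)) (nd (nat_lit 317) (nat_lit 0) (cs (lf (nat_lit 42) (nat_lit 250)) (rf (nat_lit 22)))))))) (cs (nd (nat_lit 209) (nat_lit 0) (cs (lf (nat_lit 44) (nat_lit 186)) (rf (nat_lit 23)))) (nd (nat_lit 248) (nat_lit 0) (cs (rf (nat_lit 24)) (cs (rf (nat_lit 25)) (cs (nd (nat_lit 209) (nat_lit 0) (cs (lf (nat_lit 44) (nat_lit 186)) (rf (nat_lit 26)))) (nd (nat_lit 209) (nat_lit 0) (cs (lf (nat_lit 44) (nat_lit 186)) (nd (nat_lit 247) (nat_lit 0) (cs (lf (nat_lit 0) (nat_lit 246)) (nd (nat_lit 269) (nat_lit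 0) (cs (lf (nat_lit 12) (nat_lit 246)) (nd (nat_lit 224) (nat_lit 0) (cs (lf (nat_lit 22) (nat_lit 224)) (rf (nat_lit 27))))))))))))))))))))))))))) q78606 (by decide +kernel)
def q78739 : Q := Q.p (nat_lit 0x2000000000030000000000000000000000000000000000000000000000000000) (nat_lit 0x1e0001fe0001f00077e003cf000ffe0001e0000780001c00000000000000000000000000000) (nat_lit 14)
theorem c78739 : QOK q78739 := cut [q13362, q1832, q1857, q5429, q2994, q78664, q78671, q1845, q1855, q78674, q78681, q78687, q87, q2918, q64772, q78698, q78717, q78721, q1508, q1511, q1986, q78656, q78727, q78737, q78738] ⟨c13362, c1832, c1857, c5429, c2994, c78664, c78671, c1845, c1855, c78674, c78681, c78687, c87, c2918, c64772, c78698, c78717, c78721, c1508, c1511, c1986, c78656, c78727, c78737, c78738, trivial⟩ (nd (nat_lit 207) (nat_lit 0) (cs (nd (nat_lit 229) (nat_lit 0) (cs (rf (nat_lit 0)) (cs (nd (nat_lit 251) (nat_lit 0) (cs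 (rf (nat_lit 1)) (cs (rf (nat_lit 2)) (cs (nd (nat_lit 185) (nat_lit 0) (cs (rf (nat_lit 3)) (cs (nd (nat_lit 252) (nat_lit 0) (cs (lf (nat_lit 29) (nat_lit 185)) (nd (nat_lit 163) (nat_lit 0) (cs (lf (nat_lit 28) (nat_lit 163)) (rf (nat_lit 4)))))) (cs (nd (nat_lit 252) (nat_lit 0) (cs (lf (nat_lit 29) (nat_lit 185)) (nd (nat_lit 162) (nat_lit 0) (cs (lf (nat_lit 46) (nat_lit 162)) (nd (nat_lit 164) (nat_lit 0) (cs (lf (nat_lit 34) (nat_lit 163)) (nd (nat_lit 250) (nat_lit 0) (cs (lf (nat_lit 41) (nat_lit 184)) (nd (nat_lit 275) (nat_lit 0) (cs (lf (nat_lit 5) (nat_lit 250)) (rf (nat_lit 5)))))))))))) (rf (nat_lit 6)))))) (nd (nat_lit 273) (nat_lit 0) (cs (rf (nat_lit 7)) (cs (rf (nat_lit 8)) (cs (nd (nat_lit 274) (nat_lit 0) (cs (lf (nat_lit 29) (nat_lit 207)) (nd (nat_lit 185) (nat_lit 0) (cs (lf (nat_lit 28) (nat_lit 185)) (rf (nat_lit 9)))))) (nd (nat_lit 272) (nat_lit 0) (cs (lf (nat_lit 41) (nat_lit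 206)) (nd (nat_lit 185) (nat_lit 0) (cs (lf (nat_lit 40) (nat_lit 184)) (rf (nat_lit 9)))))))))))))) (cs (nd (nat_lit 210) (nat_lit 0) (cs (lf (nat_lit 11) (nat_lit 206)) (nd (nat_lit 188) (nat_lit 0) (cs (lf (nat_lit 17) (nat_lit 185)) (rf (nat_lit 10)))))) (rf (nat_lit 11)))))) (cs (nd (nat_lit 210) (nat_lit 0) (cs (rf (nat_lit 12)) (cs (rf (nat_lit 13)) (cs (nd (nat_lit 188) (nat_lit 0) (cs (lf (nat_lit 17) (nat_lit 185)) (nd (nat_lit 187) (nat_lit 0) (cs (lf (nat_lit 12) (nat_lit 184)) (nd (nat_lit 233) (nat_lit 0) (cs (lf (nat_lit 4) (nat_lit 207)) (nd (nat_lit 211) (nat_lit 0) (cs (lf (nat_lit 5) (nat_lit 208)) (nd (nat_lit 186) (nat_lit 0) (cs (lf (nat_lit 18) (nat_lit 186)) (lf (nat_lit 0) (nat_lit 185)))))))))))) (cs (nd (nat_lit 232) (nat_lit 0) (cs (lf (nat_lit 5) (nat_lit 207)) (nd (nat_lit 229) (nat_lit 0) (cs (lf (nat_lit 11) (nat_lit 206)) (nd (nat_lit 211) (nat_lit 0) (cs (lf (nat_lit 10)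 (nat_lit 207)) (rf (nat_lit 14)))))))) (nd (nat_lit 188) (nat_lit 0) (cs (lf (nat_lit 17) (nat_lit 185)) (rf (nat_lit 15))))))))) (cs (rf (nat_lit 16)) (cs (rf (nat_lit 17)) (cs (nd (nat_lit 206) (nat_lit 0) (cs (rf (nat_lit 18)) (cs (rf (nat_lit 19)) (cs (rf (nat_lit 20)) (cs (rf (nat_lit 21)) (cs (nd (nat_lit 183) (nat_lit 0) (cs (lf (nat_lit 22) (nat_lit 183)) (nd (nat_lit 205) (nat_lit 0) (cs (lf (nat_lit 23) (nat_lit 182)) (nd (nat_lit 226) (nat_lit 0) (cs (lf (nat_lit 10) (nat_lit 204)) (nd (nat_lit 204) (nat_lit 0) (cs (lf (nat_lit 11) (nat_lit 203)) (nd (nat_lit 186) (nat_lit 0) (cs (lf (nat_lit 16) (nat_lit 182)) (lf (nat_lit 17) (nat_lit 183)))))))))))) (nd (nat_lit 228) (nat_lit 0) (cs (lf (nat_lit 11) (nat_lit 205)) (nd (nat_lit 183) (nat_lit 0) (cs (lf (nat_lit 22) (nat_lit 183)) (nd (nat_lit 210) (nat_lit 0) (cs (lf (nat_lit 10) (nat_lit 206)) (nd (nat_lit 233) (nat_lit 0) (cs (lf (nat_lit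 4) (nat_lit 207)) (nd (nat_lit 211) (nat_lit 0) (cs (lf (nat_lit 5) (nat_lit 208)) (rf (nat_lit 22)))))))))))))))))) (cs (rf (nat_lit 23)) (rf (nat_lit 24))))))))) q78739 (by decide +kernel)
def q78816 : Q := Q.p (nat_lit 0x2000000000030000000000000000000000000000000000000000000000000000) (nat_lit 0x1000007c0001f00001c000ffc001ce000f7c0005c0001700001400000000000000000000000000000) (nat_lit 13)
theorem c78816 : QOK q78816 := cut [q1563, q2990, q78773, q2935, q2938, q78737, q2683, q78791, q2937, q78656, q78745, q10670] ⟨c1563, c2990, c78773, c2935, c2938, c78737, c2683, c78791, c2937, c78656, c78745, c10670, trivial⟩ (nd (nat_lit 231) (nat_lit 0) (cs (rf (nat_lit 0)) (cs (rf (nat_lit 1)) (cs (rf (nat_lit 2)) (nd (nat_lit 207) (nat_lit 0) (cs (rf (nat_lit 3)) (cs (rf (nat_lit 4)) (cs (rf (nat_lit 5)) (cs (nd (nat_lit 210) (nat_lit 0) (cs (rf (nat_lit 6)) (rf (nat_lit 7)))) (nd (nat_lit 206) (nat_lit 0) (cs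 (rf (nat_lit 8)) (cs (rf (nat_lit 9)) (cs (rf (nat_lit 10)) (nd (nat_lit 183) (nat_lit 0) (cs (lf (nat_lit 22) (nat_lit 183)) (nd (nat_lit 228) (nat_lit 0) (cs (lf (nat_lit 11) (nat_lit 205)) (nd (nat_lit 210) (nat_lit 0) (cs (lf (nat_lit 10) (nat_lit 206)) (nd (nat_lit 189) (nat_lit 0) (cs (lf (nat_lit 16) (nat_lit 185)) (nd (nat_lit 211) (nat_lit 0) (cs (lf (nat_lit 17) (nat_lit 186)) (nd (nat_lit 185) (nat_lit 0) (cs (lf (nat_lit 22) (nat_lit 185)) (nd (nat_lit 141) (nat_lit 0) (cs (lf (nat_lit 37) (nat_lit 140)) (rf (nat_lit 11))))))))))))))))))))))))))))) q78816 (by decide +kernel)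
def q78912 : Q := Q.p (nat_lit 0x2000000000030000040000000000000000000000000000000000000000000000) (nat_lit 0x48000188000fb0007cc003f38000500001400000000000000000000000000000000000) (nat_lit 11)
theorem c78912 : QOK q78912 := cut [q39, q204, q4386, q7826] ⟨c39, c204, c4386, c7826, trivial⟩ (nd (nat_lit 210) (nat_lit 0) (cs (rf (nat_lit 0)) (cs (rf (nat_lit 1)) (cs (rf (nat_lit 2)) (nd (nat_lit 207) (nat_lit 0) (cs (rf (nat_lit 3)) (nd (nat_lit 229) (nat_lit 0) (cs (lf (nat_lit 11) (nat_lit 206)) (nd (nat_lit 188) (nat_lit 0) (cs (lf (nat_lit 17) (nat_lit 185)) (nd (nat_lit 164) (nat_lit 0) (cs (lf (nat_lit 36) (nat_lit 141)) (nd (nat_lit 185) (nat_lit 0) (cs (lf (nat_lit 30) (nat_lit 163)) (lf (nat_lit 23) (nat_lit 184)))))))))))))))) q78912 (by decide +kernel)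
def q78956 : Q := Q.p (nat_lit 0x200000000001c000050000100000000000000000000000000000000000000000) (nat_lit 0x200000e0000380001e000030000600000270002f80003f0000e00002800000000000000000000000) (nat_lit 11)
theorem c78956 : QOK q78956 := cut [q864, q18105, q78945, q6622, q7723, q39555, q6771, q27501, q6778, q18104] ⟨c864, c18105, c78945, c6622, c7723, c39555, c6771, c27501, c6778, c18104, trivial⟩ (nd (nat_lit 162) (nat_lit 0) (cs (rf (nat_lit 0)) (cs (rf (nat_lit 1)) (cs (rf (nat_lit 2)) (cs (nd (nat_lit 228) (nat_lit 0) (cs (rf (nat_lit 3)) (cs (nd (nat_lit 251) (nat_lit 0) (cs (lf (nat_lit 28) (nat_lit 162)) (rf (nat_lit 4)))) (cs (nd (nat_lit 139) (nat_lit 0) (cs (lf (nat_lit 46) (nat_lit 139)) (rf (nat_lit 5)))) (cs (nd (nat_lit 163) (nat_lit 0) (cs (lf (nat_lit 35) (nat_lit 140)) (nd (nat_lit 229) (nat_lit 0) (cs (lf (nat_lit 29) (nat_lit 162)) (nd (nat_lit 209) (nat_lit 0) (cs (lf (nat_lit 6) (nat_lit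 206)) (nd (nat_lit 161) (nat_lit 0) (cs (lf (nat_lit 47) (nat_lit 139)) (rf (nat_lit 6)))))))))) (nd (nat_lit 139) (nat_lit 0) (cs (lf (nat_lit 46) (nat_lit 139)) (nd (nat_lit 163) (nat_lit 0) (cs (lf (nat_lit 35) (nat_lit 140)) (rf (nat_lit 7))))))))))) (nd (nat_lit 140) (nat_lit 0) (cs (rf (nat_lit 8)) (rf (nat_lit 9))))))))) q78956 (by decide +kernel)
def q79067 : Q := Q.p (nat_lit 0x7000004000000000000000000000000000000000000000000000000000000000) (nat_lit 0x200000e0001f80007f8000000001b00007c0007e0000780000a00000000000000000000000000000000000) (nat_lit 12)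
theorem c79067 : QOK q79067 := cut [q6259, q79029, q79041, q79044, q79049, q79058, q79062, q79066] ⟨c6259, c79029, c79041, c79044, c79049, c79058, c79062, c79066, trivial⟩ (nd (nat_lit 208) (nat_lit 0) (cs (rf (nat_lit 0)) (cs (rf (nat_lit 1)) (cs (rf (nat_lit 2)) (cs (nd (nat_lit 274) (nat_lit 0) (cs (rf (nat_lit 3)) (cs (rf (nat_lit 4)) (cs (nd (nat_lit 185) (nat_lit 0) (cs (lf (nat_lit 46) (nat_lit 185)) (rf (nat_lit 5)))) (nd (nat_lit 187) (nat_lit 0) (cs (lf (nat_lit 34) (nat_lit 186)) (nd (nat_lit 185) (nat_lit 0) (cs (lf (nat_lit 46) (nat_lit 185)) (rf (nat_lit 6)))))))))) (rf (nat_lit 7))))))) q79067 (by decide +kernel)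
def q79205 : Q := Q.p (nat_lit 0x7000000000000000000000000000000000000000000000000000000000000000) (nat_lit 0x400003780008c0007b800020000080000000000000000000000000000000000000000000000) (nat_lit 7)
theorem c79205 : QOK q79205 := cut [q79020, q79201, q79204] ⟨c79020, c79201, c79204, trivial⟩ (nd (nat_lit 251) (nat_lit 0) (cs (rf (nat_lit 0)) (cs (rf (nat_lit 1)) (rf (nat_lit 2))))) q79205 (by decide +kernel)
def q79256 : Q := Q.p (nat_lit 0x7800000000000000000000000000000000000000000000000000000000000000) (nat_lit 0x80000840003f0000cc000100000400000000000000000000000000000000000000000) (nat_lit 8)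
theorem c79256 : QOK q79256 := cut [q79255] ⟨c79255, trivial⟩ (nd (nat_lit 232) (nat_lit 0) (cs (lf (nat_lit 17) (nat_lit 229)) (rf (nat_lit 0)))) q79256 (by decide +kernel)
def q79413 : Q := Q.p (nat_lit 0x6000010000000000000000000000000000000000000000000000000000000000) (nat_lit 0x3e0001f8000ff00038c000ef0003bc0007c0001f00000000000000000000000000000000000000000) (nat_lit 15)
theorem c79413 : QOK q79413 := cut [q79304, q79314, q79332, q79193, q79320, q79292, q79296, q79297, q79181, q79196, q79346, q79350, q79353, q79368, q79383, q79384, q79389, q79394] ⟨c79304, c79314, c79332, c79193, c79320, c79292, c79296, c79297, c79181, c79196, c79346, c79350, c79353, c79368, c79383, c79384, c79389, c79394, trivial⟩ (nd (nat_lit 231) (nat_lit 0) (cs (rf (nat_lit 0)) (cs (rf (nat_lit 1)) (cs (rf (nat_lit 2)) (cs (nd (nat_lit 209) (nat_lit 0) (cs (rf (nat_lit 3)) (cs (rf (nat_lit 4)) (nd (nat_lit 275) (nat_lit 0) (cs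 (nd (nat_lit 276) (nat_lit 0) (cs (lf (nat_lit 42) (nat_lit 209)) (rf (nat_lit 5)))) (cs (rf (nat_lit 6)) (rf (nat_lit 7)))))))) (nd (nat_lit 276) (nat_lit 0) (cs (rf (nat_lit 8)) (cs (nd (nat_lit 275) (nat_lit 0) (cs (rf (nat_lit 9)) (cs (nd (nat_lit 278) (nat_lit 0) (cs (nd (nat_lit 187) (nat_lit 0) (cs (lf (nat_lit 25) (nat_lit 187)) (nd (nat_lit 297) (nat_lit 0) (cs (lf (nat_lit 30) (nat_lit 231)) (nd (nat_lit 233) (nat_lit 0) (cs (nd (nat_lit 296) (nat_lit 0) (cs (lf (nat_lit 41) (nat_lit 230)) (nd (nat_lit 234) (nat_lit 0) (cs (lf (nat_lit 6) (nat_lit 231)) (nd (nat_lit 256) (nat_lit 0) (cs (lf (nat_lit 5) (nat_lit 231)) (nd (nat_lit 255) (nat_lit 0) (cs (lf (nat_lit 23) (nat_lit 230)) (lf (nat_lit 5) (nat_lit 253)))))))))) (cs (rf (nat_lit 10)) (cs (nd (nat_lit 255) (nat_lit 0) (cs (nd (nat_lit 296) (nat_lit 0) (cs (lf (nat_lit 41) (nat_lit 230)) (rf (nat_lit 11)))) (rf (nat_lit 12)))) (cs (nd (nat_lit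 296) (nat_lit 0) (cs (lf (nat_lit 41) (nat_lit 230)) (nd (nat_lit 234) (nat_lit 0) (cs (lf (nat_lit 6) (nat_lit 231)) (nd (nat_lit 256) (nat_lit 0) (cs (lf (nat_lit 5) (nat_lit 231)) (nd (nat_lit 211) (nat_lit 0) (cs (lf (nat_lit 42) (nat_lit 211)) (nd (nat_lit 212) (nat_lit 0) (cs (lf (nat_lit 17) (nat_lit 209)) (lf (nat_lit 12) (nat_lit 208)))))))))))) (nd (nat_lit 234) (nat_lit 0) (cs (lf (nat_lit 6) (nat_lit 231)) (nd (nat_lit 256) (nat_lit 0) (cs (lf (nat_lit 5) (nat_lit 231)) (nd (nat_lit 211) (nat_lit 0) (cs (lf (nat_lit 42) (nat_lit 211)) (nd (nat_lit 255) (nat_lit 0) (cs (lf (nat_lit 5) (nat_lit 253)) (lf (nat_lit 24) (nat_lit 189))))))))))))))))))) (cs (nd (nat_lit 297) (nat_lit 0) (cs (lf (nat_lit 30) (nat_lit 231)) (rf (nat_lit 13)))) (nd (nat_lit 187) (nat_lit 0) (cs (lf (nat_lit 25) (nat_lit 187)) (nd (nat_lit 277) (nat_lit 0) (cs (lf (nat_lit 18) (nat_lit 253)) (nd (nat_lit 256) (nat_lit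 0) (cs (lf (nat_lit 17) (nat_lit 253)) (nd (nat_lit 255) (nat_lit 0) (cs (lf (nat_lit 23) (nat_lit 230)) (nd (nat_lit 299) (nat_lit 0) (cs (nd (nat_lit 234) (nat_lit 0) (cs (lf (nat_lit 36) (nat_lit 211)) (lf (nat_lit 17) (nat_lit 231)))) (lf (nat_lit 42) (nat_lit 232))))))))))))))) (nd (nat_lit 233) (nat_lit 0) (cs (rf (nat_lit 10)) (cs (rf (nat_lit 14)) (cs (nd (nat_lit 255) (nat_lit 0) (cs (rf (nat_lit 11)) (rf (nat_lit 15)))) (cs (nd (nat_lit 234) (nat_lit 0) (cs (lf (nat_lit 6) (nat_lit 231)) (nd (nat_lit 212) (nat_lit 0) (cs (lf (nat_lit 17) (nat_lit 209)) (rf (nat_lit 16)))))) (rf (nat_lit 17)))))))))) (nd (nat_lit 298) (nat_lit 0) (cs (nd (nat_lit 299) (nat_lit 0) (cs (lf (nat_lit 29) (nat_lit 232)) (nd (nat_lit 297) (nat_lit 0) (cs (nd (nat_lit 233) (nat_lit 0) (cs (nd (nat_lit 234) (nat_lit 0) (cs (lf (nat_lit 6) (nat_lit 231)) (nd (nat_lit 256) (nat_lit 0) (cs (lf (nat_lit 5) (nat_lit 231)) (nd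 (nat_lit 230) (nat_lit 0) (cs (lf (nat_lit 19) (nat_lit 230)) (nd (nat_lit 228) (nat_lit 0) (cs (lf (nat_lit 1) (nat_lit 228)) (nd (nat_lit 212) (nat_lit 0) (cs (lf (nat_lit 17) (nat_lit 209)) (nd (nat_lit 277) (nat_lit 0) (cs (lf (nat_lit 39) (nat_lit 211)) (nd (nat_lit 296) (nat_lit 0) (cs (lf (nat_lit 12) (nat_lit 273)) (nd (nat_lit 318) (nat_lit 0) (cs (lf (nat_lit 11) (nat_lit 295)) (lf (nat_lit 38) (nat_lit 230)))))))))))))))))) (lf (nat_lit 35) (nat_lit 210)))) (lf (nat_lit 41) (nat_lit 231)))))) (lf (nat_lit 42) (nat_lit 231)))))))))))) q79413 (by decide +kernel)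
def q79465 : Q := Q.p (nat_lit 0x6000018000000000000000000000000000000000000000000000000000000000) (nat_lit 0x1c0000700000c0000000006400007c0001c0000600000000000000000000000000000000000000000) (nat_lit 7)
theorem c79465 : QOK q79465 := cut [q79169, q79190, q79299, q79463] ⟨c79169, c79190, c79299, c79463, trivial⟩ (nd (nat_lit 275) (nat_lit 0) (cs (rf (nat_lit 0)) (cs (rf (nat_lit 1)) (nd (nat_lit 209) (nat_lit 0) (cs (rf (nat_lit 2)) (rf (nat_lit 3))))))) q79465 (by decide +kernel)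
def q79598 : Q := Q.p (nat_lit 0x6000010000000000000000000000000000000000000000000000000000000000) (nat_lit 0x8000060000380000e000038000000003ef0007f8001ff0000e00002800000000000000000000000000000000000) (nat_lit 14)
theorem c79598 : QOK q79598 := cut [q79123, q79128, q79160, q79439, q79558, q79562, q79570, q79572, q79583, q79590, q79597] ⟨c79123, c79128, c79160, c79439, c79558, c79562, c79570, c79572, c79583, c79590, c79597, trivial⟩ (nd (nat_lit 210) (nat_lit 0) (cs (rf (nat_lit 0)) (cs (rf (nat_lit 1)) (cs (rf (nat_lit 2)) (cs (nd (nat_lit 276) (nat_lit 0) (cs (rf (nat_lit 3)) (cs (nd (nat_lit 211) (nat_lit 0) (cs (lf (nat_lit 35) (nat_lit 188)) (nd (nat_lit 212) (nat_lit 0) (cs (rf (nat_lit 4)) (cs (nd (nat_lit 209) (nat_lit 0) (cs (lf (nat_lit 47) (nat_lit 187)) (nd (nat_lit 275) (nat_lit 0) (cs (lf (nat_lit 41) (nat_lit 209)) (nd (nat_lit 190) (nat_lit 0) (cs (lf (nat_lit 17) (nat_lit 187)) (nd (nat_lit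 277) (nat_lit 0) (cs (lf (nat_lit 29) (nat_lit 210)) (rf (nat_lit 5)))))))))) (cs (rf (nat_lit 6)) (rf (nat_lit 7)))))))) (cs (rf (nat_lit 8)) (nd (nat_lit 189) (nat_lit 0) (cs (lf (nat_lit 34) (nat_lit 188)) (rf (nat_lit 9)))))))) (rf (nat_lit 10))))))) q79598 (by decide +kernel)
def q79726 : Q := Q.p (nat_lit 0x6000010000000000000000000000000000000000000000000000000000000000) (nat_lit 0x780001e0000f300038c000ef0003fe000ff0001fe0000000000000000000000000000000000000000) (nat_lit 15)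
theorem c79726 : QOK q79726 := cut [q79332, q79500, q79614, q79625, q79704, q79307, q79326, q79310, q79330, q79193, q79708] ⟨c79332, c79500, c79614, c79625, c79704, c79307, c79326, c79310, c79330, c79193, c79708, trivial⟩ (nd (nat_lit 231) (nat_lit 0) (cs (rf (nat_lit 0)) (cs (rf (nat_lit 1)) (cs (rf (nat_lit 2)) (cs (rf (nat_lit 3)) (cs (rf (nat_lit 4)) (nd (nat_lit 230) (nat_lit 0) (cs (rf (nat_lit 5)) (cs (rf (nat_lit 6)) (nd (nat_lit 233) (nat_lit 0) (cs (rf (nat_lit 7)) (cs (rf (nat_lit 8)) (nd (nat_lit 209) (nat_lit 0) (cs (rf (nat_lit 9)) (cs (nd (nat_lit 255) (nat_lit 0) (cs (lf (nat_lit 18) (nat_lit 230)) (nd (nat_lit 208) (nat_lit 0) (cs (lf (nat_lit 23) (nat_lit 207)) (nd (nat_lit 211) (nat_lit 0) (cs (lf (nat_lit 17) (nat_lit 208)) (nd (nat_lit 276) (nat_lit 0) (cs (lf (nat_lit 30) (nat_lit 210)) (rf (nat_lit 10)))))))))) (nd (nat_lit 255) (nat_lit 0) (cs (lf (nat_lit 5) (nat_lit 230)) (nd (nat_lit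 207) (nat_lit 0) (cs (lf (nat_lit 22) (nat_lit 207)) (nd (nat_lit 187) (nat_lit 0) (cs (lf (nat_lit 24) (nat_lit 165)) (nd (nat_lit 211) (nat_lit 0) (cs (lf (nat_lit 17) (nat_lit 208)) (nd (nat_lit 164) (nat_lit 0) (cs (lf (nat_lit 46) (nat_lit 164)) (nd (nat_lit 188) (nat_lit 0) (cs (lf (nat_lit 35) (nat_lit 165)) (nd (nat_lit 277) (nat_lit 0) (cs (nd (nat_lit 300) (nat_lit 0) (cs (lf (nat_lit 28) (nat_lit 211)) (nd (nat_lit 299) (nat_lit 0) (cs (lf (nat_lit 29) (nat_lit 233)) (lf (nat_lit 42) (nat_lit 232)))))) (lf (nat_lit 25) (nat_lit 188))))))))))))))))))))))))))))))) q79726 (by decide +kernel)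
def q79796 : Q := Q.p (nat_lit 0x6000010000000000000000000000000000000000000000000000000000000000) (nat_lit 0x80001e00007c0003f0000ff00038c000ef0003fc0006c0000a00000000000000000000000000000000000000000) (nat_lit 15)
theorem c79796 : QOK q79796 := cut [q79734, q79739, q79740, q79422, q79587, q79744, q79755, q79760, q79765, q79768, q79771, q79188, q79195, q79332, q79778, q79787] ⟨c79734, c79739, c79740, c79422, c79587, c79744, c79755, c79760, c79765, c79768, c79771, c79188, c79195, c79332, c79778, c79787, trivial⟩ (nd (nat_lit 275) (nat_lit 0) (cs (rf (nat_lit 0)) (cs (rf (nat_lit 1)) (cs (nd (nat_lit 276) (nat_lit 0) (cs (rf (nat_lit 2)) (cs (nd (nat_lit 298) (nat_lit 0) (cs (rf (nat_lit 3)) (cs (rf (nat_lit 4)) (rf (nat_lit 5))))) (cs (rf (nat_lit 6)) (rf (nat_lit 7)))))) (cs (nd (nat_lit 276) (nat_lit 0) (cs (rf (nat_lit 6)) (cs (nd (nat_lit 298) (nat_lit 0) (cs (rf (nat_lit 3)) (cs (rf (nat_lit 8)) (rf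 (nat_lit 9))))) (rf (nat_lit 10))))) (cs (nd (nat_lit 297) (nat_lit 0) (cs (lf (nat_lit 30) (nat_lit 231)) (nd (nat_lit 231) (nat_lit 0) (cs (rf (nat_lit 11)) (cs (rf (nat_lit 12)) (rf (nat_lit 13))))))) (nd (nat_lit 276) (nat_lit 0) (cs (rf (nat_lit 2)) (cs (rf (nat_lit 6)) (cs (rf (nat_lit 7)) (cs (nd (nat_lit 210) (nat_lit 0) (cs (lf (nat_lit 41) (nat_lit 209)) (nd (nat_lit 277) (nat_lit 0) (cs (lf (nat_lit 29) (nat_lit 210)) (nd (nat_lit 278) (nat_lit 0) (cs (lf (nat_lit 18) (nat_lit 253)) (nd (nat_lit 300) (nat_lit 0) (cs (lf (nat_lit 5) (nat_lit 275)) (nd (nat_lit 256) (nat_lit 0) (cs (lf (nat_lit 17) (nat_lit 253)) (nd (nat_lit 189) (nat_lit 0) (cs (lf (nat_lit 34) (nat_lit 188)) (rf (nat_lit 14)))))))))))))) (nd (nat_lit 210) (nat_lit 0) (cs (lf (nat_lit 41) (nat_lit 209)) (nd (nat_lit 277) (nat_lit 0) (cs (lf (nat_lit 29) (nat_lit 210)) (nd (nat_lit 278) (nat_lit 0) (cs (lf (nat_lit 18) (nat_lit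 253)) (nd (nat_lit 300) (nat_lit 0) (cs (lf (nat_lit 5) (nat_lit 275)) (nd (nat_lit 189) (nat_lit 0) (cs (lf (nat_lit 34) (nat_lit 188)) (nd (nat_lit 209) (nat_lit 0) (cs (lf (nat_lit 47) (nat_lit 187)) (nd (nat_lit 231) (nat_lit 0) (cs (lf (nat_lit 29) (nat_lit 209)) (rf (nat_lit 15))))))))))))))))))))))))))) q79796 (by decide +kernel)
def q80061 : Q := Q.p (nat_lit 0x6000010000000000000000000000000000000000000000000000000000000000) (nat_lit 0x1c0000fc0007f00031c000ef0003bc0003f0000f00000000000000000000000000000000000000000) (nat_lit 14)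
theorem c80061 : QOK q80061 := cut [q79304, q79383, q79311, q79992, q79994, q80001, q80003, q79193, q79320, q79296, q79297, q79894, q80010, q80019, q80026, q80059] ⟨c79304, c79383, c79311, c79992, c79994, c80001, c80003, c79193, c79320, c79296, c79297, c79894, c80010, c80019, c80026, c80059, trivial⟩ (nd (nat_lit 231) (nat_lit 0) (cs (rf (nat_lit 0)) (cs (nd (nat_lit 233) (nat_lit 0) (cs (rf (nat_lit 1)) (cs (nd (nat_lit 230) (nat_lit 0) (cs (rf (nat_lit 2)) (rf (nat_lit 3)))) (rf (nat_lit 4))))) (cs (nd (nat_lit 233) (nat_lit 0) (cs (rf (nat_lit 1)) (cs (rf (nat_lit 4)) (nd (nat_lit 230) (nat_lit 0) (cs (rf (nat_lit 3)) (cs (rf (nat_lit 5)) (rf (nat_lit 6)))))))) (cs (nd (nat_lit 209) (nat_lit 0) (cs (rf (nat_lit 7)) (cs (rf (nat_lit 8)) (nd (nat_lit 275) (nat_lit 0) (cs (rf (nat_lit 9)) (cs (rf (nat_lit 10)) (nd (nat_lit 276) (nat_lit 0) (cs (rf (nat_lit 11)) (rf (nat_lit 12)))))))))) (cs (nd (nat_lit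 233) (nat_lit 0) (cs (rf (nat_lit 1)) (cs (rf (nat_lit 4)) (nd (nat_lit 230) (nat_lit 0) (cs (rf (nat_lit 3)) (cs (rf (nat_lit 6)) (nd (nat_lit 252) (nat_lit 0) (cs (lf (nat_lit 11) (nat_lit 229)) (rf (nat_lit 13)))))))))) (cs (nd (nat_lit 209) (nat_lit 0) (cs (rf (nat_lit 7)) (cs (rf (nat_lit 8)) (nd (nat_lit 275) (nat_lit 0) (cs (rf (nat_lit 9)) (cs (rf (nat_lit 10)) (nd (nat_lit 276) (nat_lit 0) (cs (rf (nat_lit 11)) (nd (nat_lit 186) (nat_lit 0) (cs (lf (nat_lit 46) (nat_lit 186)) (nd (nat_lit 274) (nat_lit 0) (cs (lf (nat_lit 41) (nat_lit 208)) (nd (nat_lit 273) (nat_lit 0) (cs (lf (nat_lit 12) (nat_lit 250)) (nd (nat_lit 294) (nat_lit 0) (cs (lf (nat_lit 10) (nat_lit 272)) (nd (nat_lit 251) (nat_lit 0) (cs (lf (nat_lit 23) (nat_lit 250)) (nd (nat_lit 252) (nat_lit 0) (cs (lf (nat_lit 18) (nat_lit 251)) (rf (nat_lit 14)))))))))))))))))))))) (nd (nat_lit 233) (nat_lit 0) (cs (rf (nat_lit 1)) (cs (rf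 (nat_lit 4)) (rf (nat_lit 15)))))))))))) q80061 (by decide +kernel)
def q80070 : Q := Q.p (nat_lit 0x18000070000000000000000000000000000000000000000000000000000) (nat_lit 0x700038c000e30000000000000000000000000000000000000000000000) (nat_lit 7)
theorem c80070 : QOK q80070 := cut [q21995] ⟨c21995, trivial⟩ (nd (nat_lit 207) (nat_lit 0) (cs (lf (nat_lit 0) (nat_lit 206)) (rf (nat_lit 0)))) q80070 (by decide +kernel)
def q80242 : Q := Q.p (nat_lit 0x6000010000000000000000000000000000000000000000000000000000000000) (nat_lit 0x3e0000f8000f700031c000ef0003fc0003f0000f80000000000000000000000000000000000000000) (nat_lit 14)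
theorem c80242 : QOK q80242 := cut [q79614, q79625, q80088, q79383, q79994, q80003, q80189, q80199, q80089, q80206, q80207, q80211, q80216, q80220, q80227, q79183, q80237] ⟨c79614, c79625, c80088, c79383, c79994, c80003, c80189, c80199, c80089, c80206, c80207, c80211, c80216, c80220, c80227, c79183, c80237, trivial⟩ (nd (nat_lit 231) (nat_lit 0) (cs (rf (nat_lit 0)) (cs (rf (nat_lit 1)) (cs (rf (nat_lit 2)) (cs (nd (nat_lit 233) (nat_lit 0) (cs (rf (nat_lit 3)) (cs (rf (nat_lit 4)) (nd (nat_lit 230) (nat_lit 0) (cs (rf (nat_lit 5)) (nd (nat_lit 251) (nat_lit 0) (cs (lf (nat_lit 13) (nat_lit 229)) (nd (nat_lit 211) (nat_lit 0) (cs (lf (nat_lit 17) (nat_lit 208)) (nd (nat_lit 276) (nat_lit 0) (cs (lf (nat_lit 30) (nat_lit 210)) (rf (nat_lit 6))))))))))))) (cs (nd (nat_lit 230) (nat_lit 0) (cs (nd (nat_lit 229) (nat_lit 0) (cs (lf (nat_lit 0) (nat_lit 228)) (rf (nat_lit 7)))) (cs (nd (nat_lit 252) (nat_lit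 0) (cs (rf (nat_lit 8)) (cs (rf (nat_lit 9)) (rf (nat_lit 10))))) (cs (rf (nat_lit 11)) (cs (nd (nat_lit 252) (nat_lit 0) (cs (rf (nat_lit 10)) (rf (nat_lit 12)))) (cs (nd (nat_lit 229) (nat_lit 0) (cs (lf (nat_lit 0) (nat_lit 228)) (rf (nat_lit 13)))) (nd (nat_lit 229) (nat_lit 0) (cs (lf (nat_lit 0) (nat_lit 228)) (rf (nat_lit 14)))))))))) (nd (nat_lit 252) (nat_lit 0) (cs (nd (nat_lit 251) (nat_lit 0) (cs (lf (nat_lit 12) (nat_lit 228)) (nd (nat_lit 228) (nat_lit 0) (cs (lf (nat_lit 22) (nat_lit 228)) (rf (nat_lit 15)))))) (cs (rf (nat_lit 8)) (nd (nat_lit 230) (nat_lit 0) (cs (rf (nat_lit 9)) (cs (rf (nat_lit 11)) (cs (rf (nat_lit 12)) (nd (nat_lit 229) (nat_lit 0) (cs (lf (nat_lit 0) (nat_lit 228)) (nd (nat_lit 233) (nat_lit 0) (cs (lf (nat_lit 6) (nat_lit 230)) (rf (nat_lit 16))))))))))))))))))) q80242 (by decide +kernel)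
def q80303 : Q := Q.p (nat_lit 0x6000010000000000000000000000000000000000000000000000000000000000) (nat_lit 0x80000e00003c0003fc0007f80001c000ef8001fc000360000000000000000000000000000000000000000000000) (nat_lit 12)
theorem c80303 : QOK q80303 := cut [q79118, q79165, q80274, q79169, q79199, q79171, q79422, q79587, q80283, q80289, q80292, q80301] ⟨c79118, c79165, c80274, c79169, c79199, c79171, c79422, c79587, c80283, c80289, c80292, c80301, trivial⟩ (nd (nat_lit 252) (nat_lit 0) (cs (rf (nat_lit 0)) (cs (rf (nat_lit 1)) (cs (rf (nat_lit 2)) (nd (nat_lit 275) (nat_lit 0) (cs (rf (nat_lit 3)) (cs (rf (nat_lit 4)) (cs (nd (nat_lit 276) (nat_lit 0) (cs (rf (nat_lit 5)) (cs (nd (nat_lit 298) (nat_lit 0) (cs (rf (nat_lit 6)) (cs (rf (nat_lit 7)) (nd (nat_lit 277) (nat_lit 0) (cs (lf (nat_lit 18) (nat_lit 252)) (nd (nat_lit 211) (nat_lit 0) (cs (lf (nat_lit 34) (nat_lit 210)) (nd (nat_lit 209) (nat_lit 0) (cs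 (lf (nat_lit 25) (nat_lit 209)) (rf (nat_lit 8))))))))))) (rf (nat_lit 9))))) (cs (rf (nat_lit 10)) (rf (nat_lit 11))))))))))) q80303 (by decide +kernel)
def q80360 : Q := Q.p (nat_lit 0x1800006000010000040000000000000000000000000000000000000000000000000000) (nat_lit 0x5c0002700001c0000f0000bc0002f0000000000000000000000000000000000000000000000) (nat_lit 13)
theorem c80360 : QOK q80360 := cut [q80357] ⟨c80357, trivial⟩ (nd (nat_lit 189) (nat_lit 0) (cs (lf (nat_lit 34) (nat_lit 188)) (nd (nat_lit 209) (nat_lit 0) (cs (lf (nat_lit 47) (nat_lit 187)) (nd (nat_lit 231) (nat_lit 0) (cs (lf (nat_lit 42) (nat_lit 209)) (rf (nat_lit 0)))))))) q80360 (by decide +kernel)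
def q80388 : Q := Q.p (nat_lit 0x6000010000000000000000000000000000000000000000000000000000000000) (nat_lit 0x8000060000380000e000078000018000280000e0000380000e00002800000000000000000000000000000000000) (nat_lit 10)
theorem c80388 : QOK q80388 := cut [q79123, q79128, q79160, q79597, q79439, q79583, q79590, q79961] ⟨c79123, c79128, c79160, c79597, c79439, c79583, c79590, c79961, trivial⟩ (nd (nat_lit 210) (nat_lit 0) (cs (rf (nat_lit 0)) (cs (rf (nat_lit 1)) (cs (rf (nat_lit 2)) (cs (rf (nat_lit 3)) (nd (nat_lit 276) (nat_lit 0) (cs (rf (nat_lit 4)) (cs (rf (nat_lit 5)) (cs (rf (nat_lit 6)) (rf (nat_lit 7))))))))))) q80388 (by decide +kernel)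
def q80607 : Q := Q.p (nat_lit 0x7000000000000000000000000000000000000000000000000000000000000000) (nat_lit 0x1c0000700005c0003780000c0003f80003c0000f0000140000000000000000000000000000000000000000) (nat_lit 13)
theorem c80607 : QOK q80607 := cut [q79013, q79201, q79204, q80606] ⟨c79013, c79201, c79204, c80606, trivial⟩ (nd (nat_lit 251) (nat_lit 0) (cs (rf (nat_lit 0)) (cs (rf (nat_lit 1)) (cs (rf (nat_lit 2)) (rf (nat_lit 3)))))) q80607 (by decide +kernel)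
def q81015 : Q := Q.p (nat_lit 0x400007000010000000000000000000000000000000000000000000000000000000000) (nat_lit 0x380000e0000380000b0000000000f0000380000e0000000000000000000000000000000000000000000000) (nat_lit 10)
theorem c81015 : QOK q81015 := cut [q80649, q81004, q81011, q81014] ⟨c80649, c81004, c81011, c81014, trivial⟩ (nd (nat_lit 296) (nat_lit 0) (cs (rf (nat_lit 0)) (cs (rf (nat_lit 1)) (cs (rf (nat_lit 2)) (rf (nat_lit 3)))))) q81015 (by decide +kernel)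
def q81047 : Q := Q.p (nat_lit 0xf000010000000000000000000000000000000000000000000000000000000000) (nat_lit 0x300000c000070000000000e8000180000600001800000000000000000000000000000000000000000) (nat_lit 8)
theorem c81047 : QOK q81047 := cut [q79116, q80976] ⟨c79116, c80976, trivial⟩ (nd (nat_lit 233) (nat_lit 0) (cs (rf (nat_lit 0)) (rf (nat_lit 1)))) q81047 (by decide +kernel)
def q81314 : Q := Q.p (nat_lit 0x6000000000000000000000000000000000000000000000000000000000000000) (nat_lit 0x480001f00007e0003fc007ff800f9c007fb8003f8000fe0001e00007800000000000000000000000000000000000) (nat_lit 19)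
theorem c81314 : QOK q81314 := cut [q80563, q80686, q81072, q80500, q80536, q80685, q81082, q81098, q81178, q81180, q81181, q81192, q80039, q80806, q11633, q81196, q81198, q81209, q81211, q81238, q81239, q81265, q81284, q81285, q81304, q80458, q81298, q81296, q80862, q81312] ⟨c80563, c80686, c81072, c80500, c80536, c80685, c81082, c81098, c81178, c81180, c81181, c81192, c80039, c80806, c11633, c81196, c81198, c81209, c81211, c81238, c81239, c81265, c81284, c81285, c81304, c80458, c81298, c81296, c80862, c81312, trivial⟩ (nd (nat_lit 255) (nat_lit 0) (cs (rf (nat_lit 0)) (cs (rf (nat_lit 1)) (cs (rf (nat_lit 2)) (cs (nd (nat_lit 256) (nat_lit 0) (cs (rf (nat_lit 3)) (cs (rf (nat_lit 4)) (cs (rf (nat_lit 5)) (rf (nat_lit 6)))))) (cs (rf (nat_lit 7)) (cs (rf (nat_lit 8)) (cs (nd (nat_lit 275) (nat_lit 0) (cs (rf (nat_lit 9)) (cs (nd (nat_lit 256) (nat_lit 0) (cs (lf (nat_lit 11) (nat_lit 252)) (nd (nat_lit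 278) (nat_lit 0) (cs (lf (nat_lit 5) (nat_lit 253)) (nd (nat_lit 235) (nat_lit 0) (cs (lf (nat_lit 16) (nat_lit 231)) (nd (nat_lit 257) (nat_lit 0) (cs (lf (nat_lit 17) (nat_lit 232)) (nd (nat_lit 232) (nat_lit 0) (cs (lf (nat_lit 23) (nat_lit 231)) (nd (nat_lit 300) (nat_lit 0) (cs (lf (nat_lit 30) (nat_lit 234)) (nd (nat_lit 297) (nat_lit 0) (cs (lf (nat_lit 30) (nat_lit 231)) (nd (nat_lit 188) (nat_lit 0) (cs (lf (nat_lit 37) (nat_lit 187)) (nd (nat_lit 191) (nat_lit 0) (cs (rf (nat_lit 10)) (lf (nat_lit 37) (nat_lit 190)))))))))))))))))))) (cs (nd (nat_lit 297) (nat_lit 0) (cs (rf (nat_lit 11)) (cs (nd (nat_lit 231) (nat_lit 0) (cs (rf (nat_lit 12)) (cs (nd (nat_lit 296) (nat_lit 0) (cs (lf (nat_lit 41) (nat_lit 230)) (nd (nat_lit 277) (nat_lit 0) (cs (rf (nat_lit 13)) (cs (nd (nat_lit 210) (nat_lit 0) (cs (lf (nat_lit 34) (nat_lit 209)) (nd (nat_lit 298) (nat_lit 0) (cs (lf (nat_lit 29) (nat_lit 231))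 (nd (nat_lit 299) (nat_lit 0) (cs (lf (nat_lit 17) (nat_lit 274)) (rf (nat_lit 14)))))))) (cs (nd (nat_lit 276) (nat_lit 0) (cs (lf (nat_lit 6) (nat_lit 274)) (rf (nat_lit 15)))) (nd (nat_lit 298) (nat_lit 0) (cs (lf (nat_lit 29) (nat_lit 231)) (nd (nat_lit 276) (nat_lit 0) (cs (lf (nat_lit 12) (nat_lit 273)) (nd (nat_lit 273) (nat_lit 0) (cs (nd (nat_lit 233) (nat_lit 0) (cs (lf (nat_lit 36) (nat_lit 210)) (nd (nat_lit 232) (nat_lit 0) (cs (lf (nat_lit 35) (nat_lit 209)) (rf (nat_lit 16)))))) (lf (nat_lit 13) (nat_lit 251)))))))))))))) (cs (rf (nat_lit 17)) (rf (nat_lit 18)))))) (cs (rf (nat_lit 19)) (rf (nat_lit 20)))))) (cs (rf (nat_lit 21)) (cs (nd (nat_lit 256) (nat_lit 0) (cs (lf (nat_lit 11) (nat_lit 252)) (nd (nat_lit 278) (nat_lit 0) (cs (lf (nat_lit 5) (nat_lit 253)) (nd (nat_lit 257) (nat_lit 0) (cs (lf (nat_lit 10) (nat_lit 253)) (nd (nat_lit 232) (nat_lit 0) (cs (lf (nat_lit 23) (nat_lit 231))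 (nd (nat_lit 188) (nat_lit 0) (cs (lf (nat_lit 37) (nat_lit 187)) (nd (nat_lit 297) (nat_lit 0) (cs (lf (nat_lit 30) (nat_lit 231)) (nd (nat_lit 233) (nat_lit 0) (cs (lf (nat_lit 18) (nat_lit 232)) (nd (nat_lit 211) (nat_lit 0) (cs (lf (nat_lit 24) (nat_lit 189)) (nd (nat_lit 300) (nat_lit 0) (cs (lf (nat_lit 45) (nat_lit 211)) (lf (nat_lit 42) (nat_lit 233)))))))))))))))))))) (cs (rf (nat_lit 22)) (nd (nat_lit 256) (nat_lit 0) (cs (lf (nat_lit 11) (nat_lit 252)) (nd (nat_lit 278) (nat_lit 0) (cs (lf (nat_lit 5) (nat_lit 253)) (nd (nat_lit 257) (nat_lit 0) (cs (lf (nat_lit 10) (nat_lit 253)) (nd (nat_lit 235) (nat_lit 0) (cs (lf (nat_lit 17) (nat_lit 232)) (nd (nat_lit 191) (nat_lit 0) (cs (lf (nat_lit 37) (nat_lit 190)) (nd (nat_lit 300) (nat_lit 0) (cs (lf (nat_lit 30) (nat_lit 234)) (nd (nat_lit 232) (nat_lit 0) (cs (lf (nat_lit 23) (nat_lit 231)) (nd (nat_lit 188) (nat_lit 0) (cs (lf (nat_lit 37) (nat_lit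 187)) (rf (nat_lit 23))))))))))))))))))))))))) (cs (rf (nat_lit 24)) (cs (nd (nat_lit 256) (nat_lit 0) (cs (rf (nat_lit 25)) (cs (rf (nat_lit 5)) (cs (rf (nat_lit 26)) (nd (nat_lit 274) (nat_lit 0) (cs (lf (nat_lit 10) (nat_lit 252)) (nd (nat_lit 252) (nat_lit 0) (cs (lf (nat_lit 11) (nat_lit 251)) (rf (nat_lit 27)))))))))) (nd (nat_lit 256) (nat_lit 0) (cs (rf (nat_lit 25)) (cs (rf (nat_lit 28)) (rf (nat_lit 29))))))))))))))) q81314 (by decide +kernel)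
def q81343 : Q := Q.p (nat_lit 0x200007000000000000000000000000000000000000000000000000000000000000000) (nat_lit 0x3900000e0001dc00000000000000000000000000000000000000000000000000000000) (nat_lit 7)
theorem c81343 : QOK q81343 := cut [q81342] ⟨c81342, trivial⟩ (nd (nat_lit 251) (nat_lit 0) (cs (lf (nat_lit 11) (nat_lit 250)) (rf (nat_lit 0)))) q81343 (by decide +kernel)
def q81555 : Q := Q.p (nat_lit 0xe000000000000000000000000000000000000000000000000000000000000000) (nat_lit 0x100000780003e0000f800031c0003f0001f0000fc0000f00001400000000000000000000000000000000000) (nat_lit 12)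
theorem c81555 : QOK q81555 := cut [q80819, q80872, q80932, q80905, q81463, q81544, q79605, q81548, q81551] ⟨c80819, c80872, c80932, c80905, c81463, c81544, c79605, c81548, c81551, trivial⟩ (nd (nat_lit 231) (nat_lit 0) (cs (rf (nat_lit 0)) (cs (rf (nat_lit 1)) (cs (rf (nat_lit 2)) (nd (nat_lit 276) (nat_lit 0) (cs (rf (nat_lit 3)) (cs (rf (nat_lit 4)) (cs (rf (nat_lit 5)) (nd (nat_lit 232) (nat_lit 0) (cs (rf (nat_lit 6)) (cs (rf (nat_lit 7)) (nd (nat_lit 256) (nat_lit 0) (cs (lf (nat_lit 18) (nat_lit 231)) (rf (nat_lit 8))))))))))))))) q81555 (by decide +kernel)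
def q81726 : Q := Q.p (nat_lit 0x7000000000000000000000000000000000000000000000000000000000000000) (nat_lit 0x1ddc0038e000ff800000000000000000000000000000000000000000000000000000000) (nat_lit 8)
theorem c81726 : QOK q81726 := cut [q81717, q81719, q81725] ⟨c81717, c81719, c81725, trivial⟩ (nd (nat_lit 229) (nat_lit 0) (cs (rf (nat_lit 0)) (cs (rf (nat_lit 1)) (rf (nat_lit 2))))) q81726 (by decide +kernel)
def q81863 : Q := Q.p (nat_lit 0x7000000000000000000000000000000000000000000000000000000000000000) (nat_lit 0x20000b80003e0001fe001ff800380001fc0003f80007e0001300000400000000000000000000000000000000000) (nat_lit 13)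
theorem c81863 : QOK q81863 := cut [q80971, q81776, q80649, q80653, q81787, q54412, q80310, q81805, q81001, q81323, q81811, q81814, q81820, q80881, q80871, q81833, q81834, q81837, q80708, q80725, q80955, q79054, q81844, q81850, q81855, q81859] ⟨c80971, c81776, c80649, c80653, c81787, c54412, c80310, c81805, c81001, c81323, c81811, c81814, c81820, c80881, c80871, c81833, c81834, c81837, c80708, c80725, c80955, c79054, c81844, c81850, c81855, c81859, trivial⟩ (nd (nat_lit 274) (nat_lit 0) (cs (rf (nat_lit 0)) (cs (nd (nat_lit 255) (nat_lit 0) (cs (lf (nat_lit 11) (nat_lit 251)) (nd (nat_lit 277) (nat_lit 0) (cs (lf (nat_lit 5) (nat_lit 252)) (nd (nat_lit 234) (nat_lit 0) (cs (lf (nat_lit 16) (nat_lit 230)) (nd (nat_lit 256) (nat_lit 0) (cs (lf (nat_lit 17) (nat_lit 231)) (nd (nat_lit 231) (nat_lit 0) (cs (lf (nat_lit 23) (nat_lit 230)) (nd (nat_lit 299) (nat_lit 0) (cs (lf (nat_lit 30) (nat_lit 233)) (nd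 (nat_lit 296) (nat_lit 0) (cs (lf (nat_lit 30) (nat_lit 230)) (nd (nat_lit 187) (nat_lit 0) (cs (lf (nat_lit 37) (nat_lit 186)) (nd (nat_lit 190) (nat_lit 0) (cs (lf (nat_lit 37) (nat_lit 189)) (rf (nat_lit 1)))))))))))))))))))) (cs (nd (nat_lit 296) (nat_lit 0) (cs (rf (nat_lit 2)) (cs (nd (nat_lit 230) (nat_lit 0) (cs (rf (nat_lit 3)) (cs (rf (nat_lit 4)) (cs (nd (nat_lit 295) (nat_lit 0) (cs (lf (nat_lit 41) (nat_lit 229)) (nd (nat_lit 276) (nat_lit 0) (cs (nd (nat_lit 297) (nat_lit 0) (cs (lf (nat_lit 29) (nat_lit 230)) (nd (nat_lit 277) (nat_lit 0) (cs (lf (nat_lit 15) (nat_lit 273)) (lf (nat_lit 8) (nat_lit 273)))))) (cs (nd (nat_lit 209) (nat_lit 0) (cs (lf (nat_lit 34) (nat_lit 208)) (nd (nat_lit 297) (nat_lit 0) (cs (lf (nat_lit 29) (nat_lit 230)) (nd (nat_lit 298) (nat_lit 0) (cs (lf (nat_lit 17) (nat_lit 273)) (nd (nat_lit 273) (nat_lit 0) (cs (lf (nat_lit 18) (nat_lit 273)) (lf (nat_lit 23)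 (nat_lit 272)))))))))) (cs (nd (nat_lit 275) (nat_lit 0) (cs (lf (nat_lit 6) (nat_lit 273)) (rf (nat_lit 5)))) (nd (nat_lit 297) (nat_lit 0) (cs (lf (nat_lit 29) (nat_lit 230)) (nd (nat_lit 275) (nat_lit 0) (cs (lf (nat_lit 12) (nat_lit 272)) (nd (nat_lit 272) (nat_lit 0) (cs (lf (nat_lit 13) (nat_lit 250)) (nd (nat_lit 232) (nat_lit 0) (cs (lf (nat_lit 36) (nat_lit 209)) (nd (nat_lit 231) (nat_lit 0) (cs (lf (nat_lit 35) (nat_lit 208)) (rf (nat_lit 6)))))))))))))))))) (rf (nat_lit 7)))))) (cs (nd (nat_lit 319) (nat_lit 0) (cs (rf (nat_lit 8)) (cs (rf (nat_lit 9)) (cs (rf (nat_lit 10)) (nd (nat_lit 230) (nat_lit 0) (cs (lf (nat_lit 28) (nat_lit 230)) (nd (nat_lit 318) (nat_lit 0) (cs (lf (nat_lit 29) (nat_lit 252)) (rf (nat_lit 11)))))))))) (rf (nat_lit 12)))))) (nd (nat_lit 231) (nat_lit 0) (cs (rf (nat_lit 13)) (cs (nd (nat_lit 296) (nat_lit 0) (cs (lf (nat_lit 30) (nat_lit 230)) (nd (nat_lit 255) (nat_lit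 0) (cs (rf (nat_lit 14)) (cs (rf (nat_lit 15)) (rf (nat_lit 16))))))) (cs (rf (nat_lit 17)) (nd (nat_lit 209) (nat_lit 0) (cs (rf (nat_lit 18)) (cs (rf (nat_lit 19)) (cs (rf (nat_lit 20)) (nd (nat_lit 275) (nat_lit 0) (cs (rf (nat_lit 21)) (cs (rf (nat_lit 22)) (cs (rf (nat_lit 23)) (cs (rf (nat_lit 24)) (rf (nat_lit 25))))))))))))))))))) q81863 (by decide +kernel)

end Crest.Agent.H3.Snaky.CR
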