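import Crest.Agent.H3.Snaky.Cert
import Crest.Agent.H3.Snaky.CR.CR0
import Crest.Agent.H3.Snaky.CR.CR1
import Crest.Agent.H3.Snaky.CR.CR2
import Crest.Agent.H3.Snaky.CR.CR3
import Crest.Agent.H3.Snaky.CR.CR4
import Crest.Agent.H3.Snaky.CR.CR5
import Crest.Agent.H3.Snaky.CR.CR6
import Crest.Agent.H3.Snaky.CR.CR9
import Crest.Agent.H3.Snaky.CR.CR10
import Crest.Agent.H3.Snaky.CR.CR12
import Crest.Agent.H3.Snaky.CR.CR13
import Crest.Agent.H3.Snaky.CR.CR14
import Crest.Agent.H3.Snaky.CR.CR15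
import Crest.Agent.H3.Snaky.CR.CR16
import Crest.Agent.H3.Snaky.CR.CR17
import Crest.Agent.H3.Snaky.CR.CR18
import Crest.Agent.H3.Snaky.CR.CR20
import Crest.Agent.H3.Snaky.CR.CR21
import Crest.Agent.H3.Snaky.CR.CR22
import Crest.Agent.H3.Snaky.CR.CR23
import Crest.Agent.H3.Snaky.CR.CR24
import Crest.Agent.H3.Snaky.CR.CR25
import Crest.Agent.H3.Snaky.CR.CR27
import Crest.Agent.H3.Snaky.CR.CR28
import Crest.Agent.H3.Snaky.CR.CR29
import Crest.Agent.H3.Snaky.CR.CR30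
import Crest.Agent.H3.Snaky.CR.CR33
import Crest.Agent.H3.Snaky.CR.CR34
import Crest.Agent.H3.Snaky.CR.CR35
import Crest.Agent.H3.Snaky.CR.CR36
import Crest.Agent.H3.Snaky.CR.CR37
import Crest.Agent.H3.Snaky.CR.CR39
import Crest.Agent.H3.Snaky.CR.CR40
import Crest.Agent.H3.Snaky.CR.CR41
import Crest.Agent.H3.Snaky.CR.CR42
import Crest.Agent.H3.Snaky.CR.CR43
import Crest.Agent.H3.Snaky.CR.CR44
import Crest.Agent.H3.Snaky.CR.CR45
import Crest.Agent.H3.Snaky.CR.CR46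
import Crest.Agent.H3.Snaky.CR.CR47
import Crest.Agent.H3.Snaky.CR.CR48
import Crest.Agent.H3.Snaky.CR.CR49
import Crest.Agent.H3.Snaky.CR.CR50
import Crest.Agent.H3.Snaky.CR.CR51
import Crest.Agent.H3.Snaky.CR.CR52
import Crest.Agent.H3.Snaky.CR.CR54
import Crest.Agent.H3.Snaky.CR.CR55
import Crest.Agent.H3.Snaky.CR.CR56
import Crest.Agent.H3.Snaky.CR.CR57
import Crest.Agent.H3.Snaky.CR.CR59
import Crest.Agent.H3.Snaky.CR.CR60
import Crest.Agent.H3.Snaky.CR.CR61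
import Crest.Agent.H3.Snaky.CR.CR62
import Crest.Agent.H3.Snaky.CR.CR64
import Crest.Agent.H3.Snaky.CR.CR65
import Crest.Agent.H3.Snaky.CR.CR66
import Crest.Agent.H3.Snaky.CR.CR67
import Crest.Agent.H3.Snaky.CR.CR68
import Crest.Agent.H3.Snaky.CR.CR69

set_option autoImplicit false
set_option maxRecDepth 100000

namespace Crest.Agent.H3.Snaky.CR

open T

def q81873 : Q := Q.p (nat_lit 0x7000000000000000000000000000000000000000000000000000000000000000) (nat_lit 0x10000040001fdc0038e001fdc00000000000000000000000000000000000000000000000000000000) (nat_lit 10)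
theorem c81873 : QOK q81873 := cut [q80460, q81348, q81867, q81872] ⟨c80460, c81348, c81867, c81872, trivial⟩ (nd (nat_lit 255) (nat_lit 0) (cs (rf (nat_lit 0)) (cs (rf (nat_lit 1)) (cs (rf (nat_lit 2)) (rf (nat_lit 3)))))) q81873 (by decide +kernel)
def q82165 : Q := Q.p (nat_lit 0x6000000000000000000000000000000000000000000000000000000000000000) (nat_lit 0x1f00007c0001fc003bf800f9e007ff8007fc003ff8001f00005c00000000000000000000000000000000000) (nat_lit 19)
theorem c82165 : QOK q82165 := cut [q80559, q80703, q81178, q81567, q82097, q79210, q79243, q80580, q80609, q82109, q80811, q82110, q80393, q81154, q81174, q81176, q80408, q80396, q82120, q79868, q81149, q80463, q80608, q82150, q79744, q80335, q81429, q28145] ⟨c80559, c80703, c81178, c81567, c82097, c79210, c79243, c80580, c80609, c82109, c80811, c82110, c80393, c81154, c81174, c81176, c80408, c80396, c82120, c79868, c81149, c80463, c80608, c82150, c79744, c80335, c81429,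 c28145, trivial⟩ (nd (nat_lit 255) (nat_lit 0) (cs (rf (nat_lit 0)) (cs (rf (nat_lit 1)) (cs (rf (nat_lit 2)) (cs (rf (nat_lit 3)) (cs (rf (nat_lit 4)) (cs (nd (nat_lit 252) (nat_lit 0) (cs (rf (nat_lit 5)) (cs (rf (nat_lit 6)) (cs (rf (nat_lit 7)) (rf (nat_lit 8)))))) (cs (rf (nat_lit 9)) (nd (nat_lit 233) (nat_lit 0) (cs (rf (nat_lit 10)) (cs (rf (nat_lit 11)) (cs (nd (nat_lit 211) (nat_lit 0) (cs (rf (nat_lit 12)) (cs (rf (nat_lit 13)) (cs (rf (nat_lit 14)) (cs (rf (nat_lit 15)) (nd (nat_lit 277) (nat_lit 0) (cs (rf (nat_lit 16)) (cs (nd (nat_lit 212) (nat_lit 0) (cs (lf (nat_lit 35) (nat_lit 189)) (nd (nat_lit 276) (nat_lit 0) (cs (lf (nat_lit 41) (nat_lit 210)) (nd (nat_lit 299) (nat_lit 0) (cs (lf (nat_lit 34) (nat_lit 211)) (rf (nat_lit 17)))))))) (cs (nd (nat_lit 212) (nat_lit 0) (cs (lf (nat_lit 35) (nat_lit 189)) (nd (nat_lit 231) (nat_lit 0) (cs (nd (nat_lit 232) (nat_lit 0) (cs (lf (nat_lit 12) (nat_lit 208)) (nd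 (nat_lit 210) (nat_lit 0) (cs (lf (nat_lit 6) (nat_lit 209)) (lf (nat_lit 47) (nat_lit 188)))))) (cs (nd (nat_lit 276) (nat_lit 0) (cs (lf (nat_lit 41) (nat_lit 210)) (nd (nat_lit 210) (nat_lit 0) (cs (lf (nat_lit 47) (nat_lit 188)) (nd (nat_lit 209) (nat_lit 0) (cs (lf (nat_lit 11) (nat_lit 208)) (lf (nat_lit 24) (nat_lit 187)))))))) (cs (nd (nat_lit 276) (nat_lit 0) (cs (lf (nat_lit 41) (nat_lit 210)) (nd (nat_lit 187) (nat_lit 0) (cs (lf (nat_lit 25) (nat_lit 187)) (nd (nat_lit 232) (nat_lit 0) (cs (lf (nat_lit 12) (nat_lit 208)) (rf (nat_lit 18)))))))) (nd (nat_lit 276) (nat_lit 0) (cs (lf (nat_lit 41) (nat_lit 210)) (nd (nat_lit 187) (nat_lit 0) (cs (lf (nat_lit 25) (nat_lit 187)) (nd (nat_lit 210) (nat_lit 0) (cs (lf (nat_lit 47) (nat_lit 188)) (nd (nat_lit 213) (nat_lit 0) (cs (lf (nat_lit 10) (nat_lit 209)) (nd (nat_lit 192) (nat_lit 0) (cs (lf (nat_lit 16) (nat_lit 188)) (nd (nat_lit 236) (nat_lit 0) (cs (lf (nat_lit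 4) (nat_lit 210)) (nd (nat_lit 214) (nat_lit 0) (cs (lf (nat_lit 17) (nat_lit 189)) (lf (nat_lit 5) (nat_lit 211)))))))))))))))))))))) (nd (nat_lit 190) (nat_lit 0) (cs (lf (nat_lit 34) (nat_lit 189)) (nd (nat_lit 210) (nat_lit 0) (cs (lf (nat_lit 47) (nat_lit 188)) (nd (nat_lit 232) (nat_lit 0) (cs (lf (nat_lit 42) (nat_lit 210)) (nd (nat_lit 234) (nat_lit 0) (cs (lf (nat_lit 6) (nat_lit 231)) (nd (nat_lit 209) (nat_lit 0) (cs (rf (nat_lit 19)) (lf (nat_lit 0) (nat_lit 208))))))))))))))))))))) (nd (nat_lit 276) (nat_lit 0) (cs (rf (nat_lit 20)) (cs (nd (nat_lit 211) (nat_lit 0) (cs (rf (nat_lit 13)) (nd (nat_lit 252) (nat_lit 0) (cs (rf (nat_lit 5)) (cs (rf (nat_lit 21)) (cs (rf (nat_lit 22)) (rf (nat_lit 23)))))))) (nd (nat_lit 298) (nat_lit 0) (cs (lf (nat_lit 30) (nat_lit 232)) (nd (nat_lit 232) (nat_lit 0) (cs (rf (nat_lit 24)) (cs (rf (nat_lit 25)) (cs (rf (nat_lit 26)) (nd (nat_lit 231) (nat_lit 0) (cs (lf (nat_lit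 47) (nat_lit 209)) (nd (nat_lit 299) (nat_lit 0) (cs (lf (nat_lit 29) (nat_lit 232)) (nd (nat_lit 229) (nat_lit 0) (cs (lf (nat_lit 1) (nat_lit 229)) (nd (nat_lit 297) (nat_lit 0) (cs (lf (nat_lit 41) (nat_lit 231)) (nd (nat_lit 252) (nat_lit 0) (cs (lf (nat_lit 12) (nat_lit 229)) (nd (nat_lit 274) (nat_lit 0) (cs (lf (nat_lit 11) (nat_lit 251)) (nd (nat_lit 296) (nat_lit 0) (cs (lf (nat_lit 30) (nat_lit 230)) (nd (nat_lit 275) (nat_lit 0) (cs (lf (nat_lit 18) (nat_lit 274)) (rf (nat_lit 27))))))))))))))))))))))))))))))))))))))) q82165 (by decide +kernel)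
def q82175 : Q := Q.p (nat_lit 0xe000000000000000000000000000000000000000000000000000000000000000) (nat_lit 0x200000c0000300007f0000180000f8000380000e0000280000000000000000000000000000000000000000) (nat_lit 10)
theorem c82175 : QOK q82175 := cut [q79214, q79217, q81335] ⟨c79214, c79217, c81335, trivial⟩ (nd (nat_lit 252) (nat_lit 0) (cs (rf (nat_lit 0)) (cs (rf (nat_lit 1)) (nd (nat_lit 274) (nat_lit 0) (cs (lf (nat_lit 11) (nat_lit 251)) (rf (nat_lit 2))))))) q82175 (by decide +kernel)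
def q82185 : Q := Q.p (nat_lit 0x3c00000000000000000000000000000000000000000000000000000000000000) (nat_lit 0x40000420001f800066000080000200000000000000000000000000000000000000000) (nat_lit 8)
theorem c82185 : QOK q82185 := cut [q82184] ⟨c82184, trivial⟩ (nd (nat_lit 231) (nat_lit 0) (cs (lf (nat_lit 17) (nat_lit 228)) (rf (nat_lit 0)))) q82185 (by decide +kernel)
def q82205 : Q := Q.p (nat_lit 0x7800000000000000000000000000000000000000000000000000000000000000) (nat_lit 0xe7000380001f8000000000000000000000000000000000000000000000000000000000) (nat_lit 8)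
theorem c82205 : QOK q82205 := cut [q82204] ⟨c82204, trivial⟩ (nd (nat_lit 232) (nat_lit 0) (cs (lf (nat_lit 17) (nat_lit 229)) (rf (nat_lit 0)))) q82205 (by decide +kernel)
def q82233 : Q := Q.p (nat_lit 0x200003800000000000000000000000000000000000000000000000000000000000000) (nat_lit 0xe50003c0001f8000000000000000000000000000000000000000000000000000000000) (nat_lit 8)
theorem c82233 : QOK q82233 := cut [q82232] ⟨c82232, trivial⟩ (nd (nat_lit 254) (nat_lit 0) (cs (lf (nat_lit 11) (nat_lit 250)) (rf (nat_lit 0)))) q82233 (by decide +kernel)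
def q82315 : Q := Q.p (nat_lit 0x3800000000000000000000000000000000000000000000000000000000000000) (nat_lit 0xeee001c70007f800000000000000000000000000000000000000000000000000000000) (nat_lit 8)
theorem c82315 : QOK q82315 := cut [q82262, q82312, q82314] ⟨c82262, c82312, c82314, trivial⟩ (nd (nat_lit 228) (nat_lit 0) (cs (rf (nat_lit 0)) (cs (rf (nat_lit 1)) (rf (nat_lit 2))))) q82315 (by decide +kernel)
def q82580 : Q := Q.p (nat_lit 0x200003800000000000000000000000000000000000000000000000000000000000000) (nat_lit 0x500001c00007e001ff8007fe001ff80061e000c380073e0000f80001e000028000000000000000000000000000000000000000) (nat_lit 16)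
theorem c82580 : QOK q82580 := cut [q82416, q82419, q82494, q82541, q82565, q12815, q82568, q82570, q82498, q82431] ⟨c82416, c82419, c82494, c82541, c82565, c12815, c82568, c82570, c82498, c82431, trivial⟩ (nd (nat_lit 295) (nat_lit 0) (cs (nd (nat_lit 272) (nat_lit 0) (cs (lf (nat_lit 6) (nat_lit 250)) (rf (nat_lit 0)))) (cs (nd (nat_lit 254) (nat_lit 0) (cs (lf (nat_lit 11) (nat_lit 250)) (nd (nat_lit 229) (nat_lit 0) (cs (lf (nat_lit 23) (nat_lit 228)) (nd (nat_lit 318) (nat_lit 0) (cs (lf (nat_lit 28) (nat_lit 229)) (nd (nat_lit 317) (nat_lit 0) (cs (lf (nat_lit 29) (nat_lit 251)) (nd (nat_lit 338) (nat_lit 0) (cs (lf (nat_lit 40) (nat_lit 250)) (nd (nat_lit 339) (nat_lit 0) (cs (lf (nat_lit 41) (nat_lit 272)) (nd (nat_lit 320) (nat_lit 0) (cs (lf (nat_lit 7) (nat_lit 316)) (nd (nat_lit 336) (nat_lit 0) (cs (lf (nat_lit 13) (nat_lit 314)) (nd (nat_lit 233) (nat_lit 0) (cs (lf (nat_lit 16) (nat_lit 229)) (nd (nat_lit 255)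 (nat_lit 0) (cs (lf (nat_lit 17) (nat_lit 230)) (nd (nat_lit 277) (nat_lit 0) (cs (lf (nat_lit 5) (nat_lit 252)) (rf (nat_lit 1)))))))))))))))))))))))) (cs (nd (nat_lit 272) (nat_lit 0) (cs (lf (nat_lit 6) (nat_lit 250)) (rf (nat_lit 2)))) (cs (rf (nat_lit 3)) (cs (rf (nat_lit 4)) (cs (nd (nat_lit 317) (nat_lit 0) (cs (rf (nat_lit 5)) (cs (rf (nat_lit 6)) (rf (nat_lit 7))))) (nd (nat_lit 317) (nat_lit 0) (cs (rf (nat_lit 5)) (cs (rf (nat_lit 6)) (cs (nd (nat_lit 272) (nat_lit 0) (cs (lf (nat_lit 6) (nat_lit 250)) (nd (nat_lit 270) (nat_lit 0) (cs (lf (nat_lit 13) (nat_lit 248)) (rf (nat_lit 8)))))) (nd (nat_lit 272) (nat_lit 0) (cs (lf (nat_lit 6) (nat_lit 250)) (nd (nat_lit 270) (nat_lit 0) (cs (lf (nat_lit 13) (nat_lit 248)) (nd (nat_lit 340) (nat_lit 0) (cs (lf (nat_lit 28) (nat_lit 251)) (nd (nat_lit 339) (nat_lit 0) (cs (lf (nat_lit 29) (nat_lit 273)) (nd (nat_lit 294) (nat_lit 0) (cs (lf (nat_lit 42) (nat_lit 272)) (rf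 (nat_lit 9))))))))))))))))))))))) q82580 (by decide +kernel)
def q82659 : Q := Q.p (nat_lit 0x200003800000000000000000000000000000000000000000000000000000000000000) (nat_lit 0x400001c00007e000ff8003fe000ff8000de000038000be0001f80007e000168000000000000000000000000000000000000000) (nat_lit 15)
theorem c82659 : QOK q82659 := cut [q82565, q12815, q82589, q82598, q11855, q82494, q82408, q82588, q41526, q82603, q82610, q80587, q82543, q82626, q82629, q82638, q82416, q82548, q82637, q82645, q15868] ⟨c82565, c12815, c82589, c82598, c11855, c82494, c82408, c82588, c41526, c82603, c82610, c80587, c82543, c82626, c82629, c82638, c82416, c82548, c82637, c82645, c15868, trivial⟩ (nd (nat_lit 295) (nat_lit 0) (cs (rf (nat_lit 0)) (cs (nd (nat_lit 317) (nat_lit 0) (cs (rf (nat_lit 1)) (cs (rf (nat_lit 2)) (nd (nat_lit 316) (nat_lit 0) (cs (lf (nat_lit 41) (nat_lit 250)) (nd (nat_lit 229) (nat_lit 0) (cs (lf (nat_lit 40) (nat_lit 228)) (rf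 (nat_lit 3))))))))) (cs (nd (nat_lit 272) (nat_lit 0) (cs (rf (nat_lit 4)) (cs (rf (nat_lit 5)) (nd (nat_lit 229) (nat_lit 0) (cs (rf (nat_lit 6)) (cs (rf (nat_lit 7)) (cs (rf (nat_lit 3)) (nd (nat_lit 317) (nat_lit 0) (cs (rf (nat_lit 8)) (cs (nd (nat_lit 206) (nat_lit 0) (cs (lf (nat_lit 46) (nat_lit 206)) (nd (nat_lit 339) (nat_lit 0) (cs (lf (nat_lit 34) (nat_lit 251)) (nd (nat_lit 340) (nat_lit 0) (cs (lf (nat_lit 29) (nat_lit 273)) (rf (nat_lit 9)))))))) (cs (nd (nat_lit 294) (nat_lit 0) (cs (lf (nat_lit 41) (nat_lit 228)) (nd (nat_lit 339) (nat_lit 0) (cs (lf (nat_lit 42) (nat_lit 272)) (lf (nat_lit 34) (nat_lit 251)))))) (rf (nat_lit 10))))))))))))) (cs (nd (nat_lit 229) (nat_lit 0) (cs (rf (nat_lit 11)) (cs (rf (nat_lit 12)) (cs (rf (nat_lit 13)) (rf (nat_lit 14)))))) (cs (rf (nat_lit 15)) (cs (nd (nat_lit 272) (nat_lit 0) (cs (rf (nat_lit 4)) (cs (rf (nat_lit 16)) (nd (nat_lit 318) (nat_lit 0) (cs (rf (nat_lit 17))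 (cs (rf (nat_lit 18)) (nd (nat_lit 317) (nat_lit 0) (cs (lf (nat_lit 29) (nat_lit 251)) (nd (nat_lit 339) (nat_lit 0) (cs (lf (nat_lit 34) (nat_lit 251)) (rf (nat_lit 9)))))))))))) (nd (nat_lit 317) (nat_lit 0) (cs (rf (nat_lit 1)) (cs (rf (nat_lit 2)) (cs (rf (nat_lit 10)) (nd (nat_lit 296) (nat_lit 0) (cs (rf (nat_lit 19)) (cs (nd (nat_lit 318) (nat_lit 0) (cs (lf (nat_lit 29) (nat_lit 251)) (nd (nat_lit 231) (nat_lit 0) (cs (lf (nat_lit 32) (nat_lit 230)) (nd (nat_lit 297) (nat_lit 0) (cs (lf (nat_lit 38) (nat_lit 230)) (nd (nat_lit 298) (nat_lit 0) (cs (lf (nat_lit 23) (nat_lit 272)) (lf (nat_lit 6) (nat_lit 295)))))))))) (nd (nat_lit 316) (nat_lit 0) (cs (lf (nat_lit 41) (nat_lit 250)) (nd (nat_lit 318) (nat_lit 0) (cs (lf (nat_lit 29) (nat_lit 251)) (nd (nat_lit 231) (nat_lit 0) (cs (lf (nat_lit 32) (nat_lit 230)) (nd (nat_lit 315) (nat_lit 0) (cs (lf (nat_lit 12) (nat_lit 292)) (nd (nat_lit 336) (nat_lit 0) (cs (lf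 (nat_lit 10) (nat_lit 314)) (nd (nat_lit 293) (nat_lit 0) (cs (lf (nat_lit 23) (nat_lit 292)) (nd (nat_lit 319) (nat_lit 0) (cs (lf (nat_lit 22) (nat_lit 293)) (rf (nat_lit 20)))))))))))))))))))))))))))))) q82659 (by decide +kernel)
def q82802 : Q := Q.p (nat_lit 0x40000000000000003c00000000000000000000000000000000000000000000000000000000000000) (nat_lit 0xa0000380000e000078001ffc007be001efc000dc0004200038c00000000000000000000000000000000000000000000000000000000) (nat_lit 16)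
theorem c82802 : QOK q82802 := cut [q82511, q82729, q82741, q56138, q82744, q82748, q82750, q82756, q82760, q82766, q82771, q82774, q82777, q82788, q55427] ⟨c82511, c82729, c82741, c56138, c82744, c82748, c82750, c82756, c82760, c82766, c82771, c82774, c82777, c82788, c55427, trivial⟩ (nd (nat_lit 271) (nat_lit 0) (cs (lf (nat_lit 10) (nat_lit 249)) (nd (nat_lit 249) (nat_lit 0) (cs (lf (nat_lit 11) (nat_lit 248)) (nd (nat_lit 227) (nat_lit 0) (cs (lf (nat_lit 23) (nat_lit 226)) (nd (nat_lit 232) (nat_lit 0) (cs (lf (nat_lit 16) (nat_lit 228)) (nd (nat_lit 254) (nat_lit 0) (cs (lf (nat_lit 17) (nat_lit 229)) (nd (nat_lit 319) (nat_lit 0) (cs (nd (nat_lit 275) (nat_lit 0) (cs (lf (nat_lit 4) (nat_lit 249)) (lf (nat_lit 31) (nat_lit 231)))) (cs (nd (nat_lit 316) (nat_lit 0) (cs (nd (nat_lit 317) (nat_lit 0) (cs (rf (nat_lit 0)) (cs (rf (nat_lit 1)) (cs (nd (nat_lit 294) (nat_lit 0) (cs (nd (nat_lit 341) (nat_lit 0) (cs (lf (nat_lit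 5) (nat_lit 316)) (nd (nat_lit 274) (nat_lit 0) (cs (lf (nat_lit 5) (nat_lit 249)) (nd (nat_lit 320) (nat_lit 0) (cs (lf (nat_lit 22) (nat_lit 294)) (nd (nat_lit 299) (nat_lit 0) (cs (lf (nat_lit 16) (nat_lit 295)) (nd (nat_lit 321) (nat_lit 0) (cs (lf (nat_lit 17) (nat_lit 296)) (nd (nat_lit 340) (nat_lit 0) (cs (lf (nat_lit 6) (nat_lit 318)) (lf (nat_lit 11) (nat_lit 317)))))))))))))) (lf (nat_lit 27) (nat_lit 227)))) (nd (nat_lit 274) (nat_lit 0) (cs (lf (nat_lit 5) (nat_lit 249)) (rf (nat_lit 2)))))))) (cs (nd (nat_lit 317) (nat_lit 0) (cs (rf (nat_lit 3)) (cs (rf (nat_lit 1)) (cs (rf (nat_lit 4)) (rf (nat_lit 5)))))) (cs (nd (nat_lit 317) (nat_lit 0) (cs (rf (nat_lit 4)) (cs (nd (nat_lit 338) (nat_lit 0) (cs (lf (nat_lit 11) (nat_lit 315)) (nd (nat_lit 360) (nat_lit 0) (cs (rf (nat_lit 6)) (cs (rf (nat_lit 7)) (cs (nd (nat_lit 274) (nat_lit 0) (cs (lf (nat_lit 5) (nat_lit 249)) (rf (nat_lit 8)))) (rf (nat_lit 9))))))))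 (cs (rf (nat_lit 10)) (nd (nat_lit 274) (nat_lit 0) (cs (lf (nat_lit 5) (nat_lit 249)) (rf (nat_lit 11)))))))) (cs (rf (nat_lit 12)) (nd (nat_lit 317) (nat_lit 0) (cs (rf (nat_lit 2)) (cs (rf (nat_lit 4)) (cs (rf (nat_lit 5)) (nd (nat_lit 274) (nat_lit 0) (cs (lf (nat_lit 5) (nat_lit 249)) (nd (nat_lit 341) (nat_lit 0) (cs (lf (nat_lit 5) (nat_lit 316)) (nd (nat_lit 315) (nat_lit 0) (cs (lf (nat_lit 4) (nat_lit 315)) (nd (nat_lit 293) (nat_lit 0) (cs (lf (nat_lit 23) (nat_lit 292)) (lf (nat_lit 29) (nat_lit 249))))))))))))))))))) (nd (nat_lit 316) (nat_lit 0) (cs (rf (nat_lit 12)) (cs (nd (nat_lit 293) (nat_lit 0) (cs (lf (nat_lit 28) (nat_lit 227)) (nd (nat_lit 292) (nat_lit 0) (cs (lf (nat_lit 41) (nat_lit 226)) (nd (nat_lit 317) (nat_lit 0) (cs (lf (nat_lit 21) (nat_lit 292)) (rf (nat_lit 13)))))))) (cs (nd (nat_lit 317) (nat_lit 0) (cs (rf (nat_lit 14)) (cs (rf (nat_lit 3)) (cs (rf (nat_lit 5)) (rf (nat_lit 13)))))) (nd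 (nat_lit 317) (nat_lit 0) (cs (rf (nat_lit 14)) (cs (rf (nat_lit 10)) (cs (rf (nat_lit 11)) (nd (nat_lit 338) (nat_lit 0) (cs (lf (nat_lit 11) (nat_lit 315)) (nd (nat_lit 360) (nat_lit 0) (cs (rf (nat_lit 6)) (cs (rf (nat_lit 7)) (cs (rf (nat_lit 8)) (rf (nat_lit 9))))))))))))))))))))))))))))) q82802 (by decide +kernel)
def q82986 : Q := Q.p (nat_lit 0x40000000000000003c00000000000000000000000000000000000000000000000000000000000000) (nat_lit 0x280000fc0003f0007ff000fb8001ff0006d0001c20003ac00060000180000000000000000000000000000000000000000000000) (nat_lit 16)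
theorem c82986 : QOK q82986 := cut [q13603, q82892, q41725, q82897, q41739, q42205, q48005, q46235, q42066, q82912, q82917, q82967, q42360, q55391, q82840, q82841, q41786] ⟨c13603, c82892, c41725, c82897, c41739, c42205, c48005, c46235, c42066, c82912, c82917, c82967, c42360, c55391, c82840, c82841, c41786, trivial⟩ (nd (nat_lit 319) (nat_lit 0) (cs (nd (nat_lit 231) (nat_lit 0) (cs (lf (nat_lit 17) (nat_lit 228)) (nd (nat_lit 274) (nat_lit 0) (cs (lf (nat_lit 31) (nat_lit 230)) (nd (nat_lit 187) (nat_lit 0) (cs (lf (nat_lit 37) (nat_lit 186)) (nd (nat_lit 275) (nat_lit 0) (cs (lf (nat_lit 0) (nat_lit 249)) (rf (nat_lit 0)))))))))) (cs (rf (nat_lit 1)) (cs (nd (nat_lit 231) (nat_lit 0) (cs (lf (nat_lit 17) (nat_lit 228)) (nd (nat_lit 274) (nat_lit 0) (cs (lf (nat_lit 31) (nat_lit 230)) (nd (nat_lit 187) (nat_lit 0) (cs (lf (nat_lit 37) (nat_lit 186)) (nd (nat_lit 275) (nat_lit 0) (cs (lf (nat_lit 0) (nat_lit 249)) (rf (nat_lit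 2)))))))))) (cs (nd (nat_lit 320) (nat_lit 0) (cs (nd (nat_lit 231) (nat_lit 0) (cs (lf (nat_lit 17) (nat_lit 228)) (nd (nat_lit 296) (nat_lit 0) (cs (lf (nat_lit 32) (nat_lit 230)) (rf (nat_lit 3)))))) (cs (nd (nat_lit 317) (nat_lit 0) (cs (rf (nat_lit 4)) (cs (rf (nat_lit 5)) (cs (rf (nat_lit 6)) (nd (nat_lit 339) (nat_lit 0) (cs (lf (nat_lit 11) (nat_lit 316)) (nd (nat_lit 361) (nat_lit 0) (cs (rf (nat_lit 7)) (nd (nat_lit 298) (nat_lit 0) (cs (lf (nat_lit 17) (nat_lit 295)) (nd (nat_lit 231) (nat_lit 0) (cs (lf (nat_lit 17) (nat_lit 228)) (nd (nat_lit 295) (nat_lit 0) (cs (lf (nat_lit 23) (nat_lit 294)) (nd (nat_lit 342) (nat_lit 0) (cs (lf (nat_lit 5) (nat_lit 317)) (nd (nat_lit 360) (nat_lit 0) (cs (lf (nat_lit 41) (nat_lit 294)) (nd (nat_lit 362) (nat_lit 0) (cs (lf (nat_lit 29) (nat_lit 295)) (rf (nat_lit 8)))))))))))))))))))))) (cs (nd (nat_lit 231) (nat_lit 0) (cs (lf (nat_lit 17) (nat_lit 228)) (nd (nat_lit 296)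 (nat_lit 0) (cs (lf (nat_lit 32) (nat_lit 230)) (rf (nat_lit 9)))))) (rf (nat_lit 10)))))) (cs (rf (nat_lit 11)) (cs (nd (nat_lit 296) (nat_lit 0) (cs (nd (nat_lit 274) (nat_lit 0) (cs (lf (nat_lit 29) (nat_lit 252)) (lf (nat_lit 47) (nat_lit 229)))) (cs (nd (nat_lit 274) (nat_lit 0) (cs (lf (nat_lit 47) (nat_lit 229)) (nd (nat_lit 275) (nat_lit 0) (cs (lf (nat_lit 0) (nat_lit 249)) (lf (nat_lit 30) (nat_lit 252)))))) (nd (nat_lit 320) (nat_lit 0) (cs (rf (nat_lit 3)) (cs (rf (nat_lit 9)) (cs (rf (nat_lit 10)) (nd (nat_lit 317) (nat_lit 0) (cs (rf (nat_lit 5)) (cs (rf (nat_lit 12)) (nd (nat_lit 342) (nat_lit 0) (cs (lf (nat_lit 5) (nat_lit 317)) (nd (nat_lit 364) (nat_lit 0) (cs (rf (nat_lit 13)) (cs (rf (nat_lit 14)) (nd (nat_lit 294) (nat_lit 0) (cs (lf (nat_lit 22) (nat_lit 294)) (nd (nat_lit 275) (nat_lit 0) (cs (lf (nat_lit 26) (nat_lit 253)) (nd (nat_lit 339) (nat_lit 0) (cs (lf (nat_lit 11) (nat_lit 316)) (nd (nat_lit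 298) (nat_lit 0) (cs (lf (nat_lit 17) (nat_lit 295)) (nd (nat_lit 363) (nat_lit 0) (cs (lf (nat_lit 41) (nat_lit 297)) (nd (nat_lit 361) (nat_lit 0) (cs (lf (nat_lit 30) (nat_lit 295)) (rf (nat_lit 15))))))))))))))))))))))))))))) (nd (nat_lit 231) (nat_lit 0) (cs (lf (nat_lit 17) (nat_lit 228)) (nd (nat_lit 274) (nat_lit 0) (cs (lf (nat_lit 31) (nat_lit 230)) (nd (nat_lit 187) (nat_lit 0) (cs (lf (nat_lit 37) (nat_lit 186)) (nd (nat_lit 275) (nat_lit 0) (cs (lf (nat_lit 0) (nat_lit 249)) (rf (nat_lit 16))))))))))))))))) q82986 (by decide +kernel)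
def q83118 : Q := Q.p (nat_lit 0x50000000000000003c00000000000000000000000000000000000000000000000000000000000000) (nat_lit 0xa0000380003f8000fc001ffc007ae001ffc0008c0004300038000000000000000000000000000000000000000000000000000000000) (nat_lit 15)
theorem c83118 : QOK q83118 := cut [q83032, q83076, q43036, q83005, q82788, q82876, q42115, q83110, q25254, q83025] ⟨c83032, c83076, c43036, c83005, c82788, c82876, c42115, c83110, c25254, c83025, trivial⟩ (nd (nat_lit 232) (nat_lit 0) (cs (lf (nat_lit 16) (nat_lit 228)) (nd (nat_lit 233) (nat_lit 0) (cs (lf (nat_lit 15) (nat_lit 229)) (nd (nat_lit 317) (nat_lit 0) (cs (rf (nat_lit 0)) (cs (rf (nat_lit 1)) (cs (nd (nat_lit 315) (nat_lit 0) (cs (rf (nat_lit 2)) (cs (rf (nat_lit 3)) (nd (nat_lit 293) (nat_lit 0) (cs (lf (nat_lit 23) (nat_lit 292)) (nd (nat_lit 360) (nat_lit 0) (cs (nd (nat_lit 340) (nat_lit 0) (cs (lf (nat_lit 5) (nat_lit 315)) (nd (nat_lit 337) (nat_lit 0) (cs (lf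 (nat_lit 11) (nat_lit 314)) (nd (nat_lit 296) (nat_lit 0) (cs (lf (nat_lit 17) (nat_lit 293)) (nd (nat_lit 359) (nat_lit 0) (cs (lf (nat_lit 29) (nat_lit 293)) (nd (nat_lit 358) (nat_lit 0) (cs (lf (nat_lit 41) (nat_lit 292)) (nd (nat_lit 294) (nat_lit 0) (cs (lf (nat_lit 30) (nat_lit 293)) (nd (nat_lit 361) (nat_lit 0) (cs (lf (nat_lit 16) (nat_lit 336)) (nd (nat_lit 383) (nat_lit 0) (cs (lf (nat_lit 5) (nat_lit 358)) (lf (nat_lit 39) (nat_lit 295)))))))))))))))))) (cs (nd (nat_lit 337) (nat_lit 0) (cs (lf (nat_lit 11) (nat_lit 314)) (nd (nat_lit 340) (nat_lit 0) (cs (lf (nat_lit 5) (nat_lit 315)) (nd (nat_lit 271) (nat_lit 0) (cs (lf (nat_lit 28) (nat_lit 271)) (nd (nat_lit 270) (nat_lit 0) (cs (lf (nat_lit 9) (nat_lit 248)) (lf (nat_lit 47) (nat_lit 248)))))))))) (nd (nat_lit 338) (nat_lit 0) (cs (lf (nat_lit 42) (nat_lit 293)) (nd (nat_lit 271) (nat_lit 0) (cs (lf (nat_lit 24) (nat_lit 249)) (lf (nat_lit 45) (nat_lit 271))))))))))))))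 (cs (nd (nat_lit 319) (nat_lit 0) (cs (rf (nat_lit 4)) (cs (rf (nat_lit 5)) (nd (nat_lit 297) (nat_lit 0) (cs (lf (nat_lit 17) (nat_lit 294)) (nd (nat_lit 296) (nat_lit 0) (cs (lf (nat_lit 12) (nat_lit 293)) (nd (nat_lit 340) (nat_lit 0) (cs (lf (nat_lit 37) (nat_lit 252)) (nd (nat_lit 294) (nat_lit 0) (cs (lf (nat_lit 23) (nat_lit 293)) (nd (nat_lit 362) (nat_lit 0) (cs (lf (nat_lit 30) (nat_lit 296)) (nd (nat_lit 363) (nat_lit 0) (cs (lf (nat_lit 29) (nat_lit 296)) (nd (nat_lit 361) (nat_lit 0) (cs (lf (nat_lit 41) (nat_lit 295)) (nd (nat_lit 320) (nat_lit 0) (cs (lf (nat_lit 22) (nat_lit 294)) (rf (nat_lit 6))))))))))))))))))))) (cs (rf (nat_lit 7)) (nd (nat_lit 315) (nat_lit 0) (cs (rf (nat_lit 8)) (cs (rf (nat_lit 2)) (cs (rf (nat_lit 9)) (nd (nat_lit 292) (nat_lit 0) (cs (lf (nat_lit 22) (nat_lit 292)) (nd (nat_lit 297) (nat_lit 0) (cs (lf (nat_lit 16) (nat_lit 293)) (nd (nat_lit 337) (nat_lit 0) (cs (lf (nat_lit 11)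 (nat_lit 314)) (nd (nat_lit 319) (nat_lit 0) (cs (lf (nat_lit 17) (nat_lit 294)) (lf (nat_lit 10) (nat_lit 315)))))))))))))))))))))))) q83118 (by decide +kernel)
def q83317 : Q := Q.p (nat_lit 0x3c00000000000000020000000000000000000000000000000000000000000000) (nat_lit 0x88000220000dc000420003b0000f7c003de000ffc002fe0001f00001c00005000000000000000000) (nat_lit 16)
theorem c83317 : QOK q83317 := cut [q39098, q83198, q83207, q19155, q38594, q39506, q83196, q83218, q83283, q7257, q17226, q83296, q83298, q83313] ⟨c39098, c83198, c83207, c19155, c38594, c39506, c83196, c83218, c83283, c7257, c17226, c83296, c83298, c83313, trivial⟩ (nd (nat_lit 232) (nat_lit 0) (cs (lf (nat_lit 16) (nat_lit 228)) (nd (nat_lit 254) (nat_lit 0) (cs (lf (nat_lit 17) (nat_lit 229)) (nd (nat_lit 184) (nat_lit 0) (cs (nd (nat_lit 271) (nat_lit 0) (cs (lf (nat_lit 10) (nat_lit 249)) (nd (nat_lit 249) (nat_lit 0) (cs (lf (nat_lit 11) (nat_lit 248)) (nd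 (nat_lit 228) (nat_lit 0) (cs (lf (nat_lit 37) (nat_lit 183)) (lf (nat_lit 22) (nat_lit 228)))))))) (cs (nd (nat_lit 271) (nat_lit 0) (cs (lf (nat_lit 10) (nat_lit 249)) (nd (nat_lit 186) (nat_lit 0) (cs (nd (nat_lit 249) (nat_lit 0) (cs (lf (nat_lit 11) (nat_lit 248)) (nd (nat_lit 275) (nat_lit 0) (cs (lf (nat_lit 4) (nat_lit 249)) (nd (nat_lit 297) (nat_lit 0) (cs (lf (nat_lit 30) (nat_lit 231)) (nd (nat_lit 210) (nat_lit 0) (cs (lf (nat_lit 36) (nat_lit 187)) (nd (nat_lit 187) (nat_lit 0) (cs (lf (nat_lit 4) (nat_lit 184)) (rf (nat_lit 0)))))))))))) (cs (nd (nat_lit 249) (nat_lit 0) (cs (lf (nat_lit 11) (nat_lit 248)) (rf (nat_lit 1)))) (cs (rf (nat_lit 2)) (cs (nd (nat_lit 249) (nat_lit 0) (cs (lf (nat_lit 11) (nat_lit 248)) (nd (nat_lit 275) (nat_lit 0) (cs (lf (nat_lit 4) (nat_lit 249)) (nd (nat_lit 297) (nat_lit 0) (cs (lf (nat_lit 30) (nat_lit 231)) (nd (nat_lit 210) (nat_lit 0) (cs (lf (nat_lit 36) (nat_lit 187))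 (nd (nat_lit 187) (nat_lit 0) (cs (lf (nat_lit 4) (nat_lit 184)) (rf (nat_lit 3)))))))))))) (cs (nd (nat_lit 187) (nat_lit 0) (cs (rf (nat_lit 3)) (nd (nat_lit 249) (nat_lit 0) (cs (lf (nat_lit 11) (nat_lit 248)) (nd (nat_lit 165) (nat_lit 0) (cs (lf (nat_lit 17) (nat_lit 162)) (nd (nat_lit 210) (nat_lit 0) (cs (lf (nat_lit 4) (nat_lit 184)) (lf (nat_lit 45) (nat_lit 165)))))))))) (nd (nat_lit 183) (nat_lit 0) (cs (rf (nat_lit 4)) (cs (rf (nat_lit 5)) (cs (rf (nat_lit 6)) (nd (nat_lit 249) (nat_lit 0) (cs (lf (nat_lit 11) (nat_lit 248)) (nd (nat_lit 160) (nat_lit 0) (cs (lf (nat_lit 22) (nat_lit 160)) (nd (nat_lit 274) (nat_lit 0) (cs (lf (nat_lit 5) (nat_lit 249)) (rf (nat_lit 7)))))))))))))))))))) (cs (rf (nat_lit 8)) (nd (nat_lit 183) (nat_lit 0) (cs (nd (nat_lit 228) (nat_lit 0) (cs (lf (nat_lit 22) (nat_lit 228)) (nd (nat_lit 206) (nat_lit 0) (cs (lf (nat_lit 47) (nat_lit 161)) (lf (nat_lit 35) (nat_lit 162)))))) (cs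 (nd (nat_lit 228) (nat_lit 0) (cs (lf (nat_lit 22) (nat_lit 228)) (nd (nat_lit 163) (nat_lit 0) (cs (lf (nat_lit 32) (nat_lit 162)) (nd (nat_lit 164) (nat_lit 0) (cs (rf (nat_lit 9)) (lf (nat_lit 12) (nat_lit 160)))))))) (cs (nd (nat_lit 228) (nat_lit 0) (cs (lf (nat_lit 22) (nat_lit 228)) (nd (nat_lit 161) (nat_lit 0) (cs (lf (nat_lit 44) (nat_lit 161)) (nd (nat_lit 160) (nat_lit 0) (cs (nd (nat_lit 159) (nat_lit 0) (cs (lf (nat_lit 0) (nat_lit 158)) (lf (nat_lit 21) (nat_lit 159)))) (lf (nat_lit 18) (nat_lit 160)))))))) (cs (nd (nat_lit 182) (nat_lit 0) (cs (rf (nat_lit 10)) (cs (nd (nat_lit 228) (nat_lit 0) (cs (lf (nat_lit 22) (nat_lit 228)) (rf (nat_lit 11)))) (nd (nat_lit 163) (nat_lit 0) (cs (lf (nat_lit 17) (nat_lit 160)) (nd (nat_lit 228) (nat_lit 0) (cs (lf (nat_lit 22) (nat_lit 228)) (nd (nat_lit 160) (nat_lit 0) (cs (lf (nat_lit 23) (nat_lit 159)) (nd (nat_lit 186) (nat_lit 0) (cs (lf (nat_lit 22) (nat_lit 160))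 (nd (nat_lit 209) (nat_lit 0) (cs (lf (nat_lit 4) (nat_lit 183)) (nd (nat_lit 187) (nat_lit 0) (cs (lf (nat_lit 5) (nat_lit 184)) (rf (nat_lit 12))))))))))))))))) (rf (nat_lit 13))))))))))))))) q83317 (by decide +kernel)
def q83419 : Q := Q.p (nat_lit 0x80003e000000000000000a0000000000000000000000000000000000000000000000) (nat_lit 0xc000000000090001fe000358001ff0003f8000e000018000000000000000000000000) (nat_lit 13)
theorem c83419 : QOK q83419 := cut [q83352, q83359, q83369, q83370, q83337, q83349, q83410, q83412, q83416] ⟨c83352, c83359, c83369, c83370, c83337, c83349, c83410, c83412, c83416, trivial⟩ (nd (nat_lit 209) (nat_lit 0) (cs (nd (nat_lit 274) (nat_lit 0) (cs (lf (nat_lit 38) (nat_lit 186)) (lf (nat_lit 5) (nat_lit 249)))) (cs (nd (nat_lit 186) (nat_lit 0) (cs (rf (nat_lit 0)) (cs (rf (nat_lit 1)) (cs (rf (nat_lit 2)) (cs (rf (nat_lit 3)) (nd (nat_lit 188) (nat_lit 0) (cs (rf (nat_lit 4)) (cs (rf (nat_lit 5)) (nd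 (nat_lit 166) (nat_lit 0) (cs (lf (nat_lit 17) (nat_lit 163)) (nd (nat_lit 144) (nat_lit 0) (cs (lf (nat_lit 36) (nat_lit 121)) (nd (nat_lit 163) (nat_lit 0) (cs (lf (nat_lit 23) (nat_lit 162)) (nd (nat_lit 274) (nat_lit 0) (cs (lf (nat_lit 5) (nat_lit 249)) (nd (nat_lit 210) (nat_lit 0) (cs (lf (nat_lit 5) (nat_lit 185)) (nd (nat_lit 143) (nat_lit 0) (cs (lf (nat_lit 47) (nat_lit 121)) (nd (nat_lit 206) (nat_lit 0) (cs (lf (nat_lit 10) (nat_lit 184)) (nd (nat_lit 145) (nat_lit 0) (cs (lf (nat_lit 35) (nat_lit 122)) (nd (nat_lit 164) (nat_lit 0) (cs (lf (nat_lit 14) (nat_lit 141)) (lf (nat_lit 9) (nat_lit 141)))))))))))))))))))))))))))) (cs (nd (nat_lit 231) (nat_lit 0) (cs (lf (nat_lit 41) (nat_lit 186)) (rf (nat_lit 6)))) (nd (nat_lit 186) (nat_lit 0) (cs (rf (nat_lit 3)) (cs (nd (nat_lit 231) (nat_lit 0) (cs (lf (nat_lit 47) (nat_lit 164)) (nd (nat_lit 188) (nat_lit 0) (cs (lf (nat_lit 35) (nat_lit 165)) (rf (nat_lit 7))))))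 (nd (nat_lit 231) (nat_lit 0) (cs (lf (nat_lit 47) (nat_lit 164)) (rf (nat_lit 8))))))))))) q83419 (by decide +kernel)
def q83551 : Q := Q.p (nat_lit 0x80003e00000000000000020000000000000000000000000000000000000000000000) (nat_lit 0x48000120000c000041800036001ffe007df000ffc003fe0006f0001bc00005000000000000000000) (nat_lit 14)
theorem c83551 : QOK q83551 := cut [q83451, q83469, q83471, q17226, q83296, q83312, q83459, q17242, q17241, q83490, q83528, q83198, q83333, q83359, q83367, q39096, q20762, q4891] ⟨c83451, c83469, c83471, c17226, c83296, c83312, c83459, c17242, c17241, c83490, c83528, c83198, c83333, c83359, c83367, c39096, c20762, c4891, trivial⟩ (nd (nat_lit 184) (nat_lit 0) (cs (nd (nat_lit 274) (nat_lit 0) (cs (lf (nat_lit 5) (nat_lit 249)) (nd (nat_lit 229) (nat_lit 0) (cs (lf (nat_lit 25) (nat_lit 185)) (nd (nat_lit 228) (nat_lit 0) (cs (lf (nat_lit 37) (nat_lit 183)) (lf (nat_lit 18) (nat_lit 228)))))))) (cs (nd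 (nat_lit 182) (nat_lit 0) (cs (nd (nat_lit 274) (nat_lit 0) (cs (lf (nat_lit 5) (nat_lit 249)) (nd (nat_lit 207) (nat_lit 0) (cs (lf (nat_lit 26) (nat_lit 185)) (nd (nat_lit 183) (nat_lit 0) (cs (lf (nat_lit 5) (nat_lit 182)) (rf (nat_lit 0)))))))) (cs (rf (nat_lit 1)) (cs (nd (nat_lit 274) (nat_lit 0) (cs (lf (nat_lit 5) (nat_lit 249)) (nd (nat_lit 229) (nat_lit 0) (cs (lf (nat_lit 25) (nat_lit 185)) (nd (nat_lit 296) (nat_lit 0) (cs (lf (nat_lit 42) (nat_lit 229)) (nd (nat_lit 228) (nat_lit 0) (cs (lf (nat_lit 18) (nat_lit 228)) (rf (nat_lit 2)))))))))) (nd (nat_lit 183) (nat_lit 0) (cs (rf (nat_lit 3)) (cs (rf (nat_lit 4)) (nd (nat_lit 159) (nat_lit 0) (cs (lf (nat_lit 22) (nat_lit 159)) (nd (nat_lit 163) (nat_lit 0) (cs (lf (nat_lit 17) (nat_lit 160)) (nd (nat_lit 207) (nat_lit 0) (cs (lf (nat_lit 5) (nat_lit 182)) (nd (nat_lit 229) (nat_lit 0) (cs (lf (nat_lit 40) (nat_lit 162)) (lf (nat_lit 47) (nat_lit 162)))))))))))))))))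 (cs (nd (nat_lit 182) (nat_lit 0) (cs (rf (nat_lit 1)) (cs (nd (nat_lit 183) (nat_lit 0) (cs (rf (nat_lit 5)) (cs (rf (nat_lit 6)) (cs (nd (nat_lit 274) (nat_lit 0) (cs (lf (nat_lit 5) (nat_lit 249)) (nd (nat_lit 159) (nat_lit 0) (cs (lf (nat_lit 22) (nat_lit 159)) (nd (nat_lit 206) (nat_lit 0) (cs (lf (nat_lit 38) (nat_lit 183)) (rf (nat_lit 7)))))))) (cs (nd (nat_lit 163) (nat_lit 0) (cs (lf (nat_lit 17) (nat_lit 160)) (nd (nat_lit 181) (nat_lit 0) (cs (lf (nat_lit 16) (nat_lit 159)) (nd (nat_lit 206) (nat_lit 0) (cs (lf (nat_lit 38) (nat_lit 183)) (rf (nat_lit 8)))))))) (nd (nat_lit 206) (nat_lit 0) (cs (lf (nat_lit 38) (nat_lit 183)) (rf (nat_lit 9))))))))) (nd (nat_lit 228) (nat_lit 0) (cs (lf (nat_lit 37) (nat_lit 183)) (nd (nat_lit 293) (nat_lit 0) (cs (lf (nat_lit 30) (nat_lit 227)) (nd (nat_lit 229) (nat_lit 0) (cs (lf (nat_lit 18) (nat_lit 228)) (rf (nat_lit 2))))))))))) (cs (rf (nat_lit 10)) (cs (nd (nat_lit 206)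 (nat_lit 0) (cs (lf (nat_lit 38) (nat_lit 183)) (nd (nat_lit 186) (nat_lit 0) (cs (rf (nat_lit 11)) (cs (nd (nat_lit 187) (nat_lit 0) (cs (rf (nat_lit 12)) (cs (rf (nat_lit 13)) (cs (rf (nat_lit 14)) (nd (nat_lit 274) (nat_lit 0) (cs (lf (nat_lit 5) (nat_lit 249)) (nd (nat_lit 209) (nat_lit 0) (cs (lf (nat_lit 5) (nat_lit 184)) (nd (nat_lit 183) (nat_lit 0) (cs (rf (nat_lit 15)) (lf (nat_lit 4) (nat_lit 183)))))))))))) (cs (nd (nat_lit 274) (nat_lit 0) (cs (lf (nat_lit 5) (nat_lit 249)) (nd (nat_lit 187) (nat_lit 0) (cs (lf (nat_lit 11) (nat_lit 183)) (nd (nat_lit 161) (nat_lit 0) (cs (lf (nat_lit 22) (nat_lit 161)) (nd (nat_lit 160) (nat_lit 0) (cs (lf (nat_lit 21) (nat_lit 160)) (rf (nat_lit 16)))))))))) (cs (nd (nat_lit 187) (nat_lit 0) (cs (lf (nat_lit 11) (nat_lit 183)) (nd (nat_lit 165) (nat_lit 0) (cs (lf (nat_lit 17) (nat_lit 162)) (nd (nat_lit 188) (nat_lit 0) (cs (lf (nat_lit 10) (nat_lit 184)) (rf (nat_lit 17))))))))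 (nd (nat_lit 187) (nat_lit 0) (cs (lf (nat_lit 11) (nat_lit 183)) (nd (nat_lit 165) (nat_lit 0) (cs (lf (nat_lit 17) (nat_lit 162)) (nd (nat_lit 164) (nat_lit 0) (cs (lf (nat_lit 12) (nat_lit 161)) (nd (nat_lit 188) (nat_lit 0) (cs (lf (nat_lit 10) (nat_lit 184)) (nd (nat_lit 189) (nat_lit 0) (cs (lf (nat_lit 23) (nat_lit 163)) (lf (nat_lit 18) (nat_lit 164))))))))))))))))))) (nd (nat_lit 228) (nat_lit 0) (cs (lf (nat_lit 37) (nat_lit 183)) (nd (nat_lit 293) (nat_lit 0) (cs (lf (nat_lit 30) (nat_lit 227)) (nd (nat_lit 229) (nat_lit 0) (cs (lf (nat_lit 18) (nat_lit 228)) (nd (nat_lit 207) (nat_lit 0) (cs (lf (nat_lit 36) (nat_lit 162)) (lf (nat_lit 47) (nat_lit 162)))))))))))))))) q83551 (by decide +kernel)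
def q83960 : Q := Q.p (nat_lit 0x400003000000000000000000000000000000000000000000000000000000000000000) (nat_lit 0x280000e0000380000e0000380000a0000c8000378000f80007e0000280000000000000000000000000000000000000000) (nat_lit 11)
theorem c83960 : QOK q83960 := cut [q83729, q83737, q83750, q83816, q83959] ⟨c83729, c83737, c83750, c83816, c83959, trivial⟩ (nd (nat_lit 230) (nat_lit 0) (cs (rf (nat_lit 0)) (cs (rf (nat_lit 1)) (cs (rf (nat_lit 2)) (cs (rf (nat_lit 3)) (rf (nat_lit 4))))))) q83960 (by decide +kernel)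
def q84074 : Q := Q.p (nat_lit 0x400003000000000000000000000000000000000000000000000000000000000000000) (nat_lit 0x280000f00003c0001ffc003fe001ffc00eb8001cf800f5800016000000000000000000000000000000000000000000000000000) (nat_lit 15)
theorem c84074 : QOK q84074 := cut [q83839, q84048, q84049, q15075, q83612, q84066, q45847, q84073] ⟨c83839, c84048, c84049, c15075, c83612, c84066, c45847, c84073, trivial⟩ (nd (nat_lit 273) (nat_lit 0) (cs (rf (nat_lit 0)) (cs (rf (nat_lit 1)) (cs (nd (nat_lit 295) (nat_lit 0) (cs (rf (nat_lit 2)) (cs (nd (nat_lit 297) (nat_lit 0) (cs (nd (nat_lit 272) (nat_lit 0) (cs (lf (nat_lit 12) (nat_lit 249)) (nd (nat_lit 298) (nat_lit 0) (cs (lf (nat_lit 20) (nat_lit 272)) (lf (nat_lit 3) (nat_lit 272)))))) (cs (nd (nat_lit 230) (nat_lit 0) (cs (lf (nat_lit 36) (nat_lit 207)) (nd (nat_lit 319) (nat_lit 0) (cs (lf (nat_lit 44) (nat_lit 230)) (lf (nat_lit 27) (nat_lit 230)))))) (cs (nd (nat_lit 208) (nat_lit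 0) (cs (lf (nat_lit 37) (nat_lit 207)) (nd (nat_lit 272) (nat_lit 0) (cs (lf (nat_lit 12) (nat_lit 249)) (nd (nat_lit 275) (nat_lit 0) (cs (lf (nat_lit 5) (nat_lit 272)) (nd (nat_lit 294) (nat_lit 0) (cs (lf (nat_lit 11) (nat_lit 271)) (rf (nat_lit 3)))))))))) (nd (nat_lit 230) (nat_lit 0) (cs (lf (nat_lit 36) (nat_lit 207)) (nd (nat_lit 272) (nat_lit 0) (cs (lf (nat_lit 12) (nat_lit 249)) (nd (nat_lit 296) (nat_lit 0) (cs (lf (nat_lit 29) (nat_lit 230)) (lf (nat_lit 18) (nat_lit 272)))))))))))) (nd (nat_lit 250) (nat_lit 0) (cs (nd (nat_lit 317) (nat_lit 0) (cs (lf (nat_lit 30) (nat_lit 251)) (nd (nat_lit 251) (nat_lit 0) (cs (lf (nat_lit 47) (nat_lit 228)) (rf (nat_lit 4)))))) (cs (nd (nat_lit 272) (nat_lit 0) (cs (lf (nat_lit 12) (nat_lit 249)) (rf (nat_lit 5)))) (nd (nat_lit 272) (nat_lit 0) (cs (lf (nat_lit 12) (nat_lit 249)) (nd (nat_lit 317) (nat_lit 0) (cs (lf (nat_lit 30) (nat_lit 251)) (rf (nat_lit 6))))))))))))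 (rf (nat_lit 7)))))) q84074 (by decide +kernel)
def q84164 : Q := Q.p (nat_lit 0x400003000000000000000000000000000000000000000000000000000000000000000) (nat_lit 0x280000e00003c0000fc0007f0000bc0000f00007c000ff8003fc001ff8000000000000000000000000000000000000000) (nat_lit 18)
theorem c84164 : QOK q84164 := cut [q83959, q84102, q84153, q84157, q84163] ⟨c83959, c84102, c84153, c84157, c84163, trivial⟩ (nd (nat_lit 230) (nat_lit 0) (cs (rf (nat_lit 0)) (cs (rf (nat_lit 1)) (cs (rf (nat_lit 2)) (cs (rf (nat_lit 3)) (rf (nat_lit 4))))))) q84164 (by decide +kernel)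
def q84293 : Q := Q.p (nat_lit 0x400003000000000000000000000000000000000000000000000000000000000000000) (nat_lit 0x80000380000e00003f0003fc000fe00003e000cf00037e0003c0000f0000280000000000000000000000000000000000000000) (nat_lit 17)
theorem c84293 : QOK q84293 := cut [q83952, q84215, q84222, q84226, q83935, q84073, q82666, q83686, q84227, q84255, q40802, q84258, q9773, q82387, q84261, q84263, q84268, q2623, q41746, q84284, q84291, q81819, q84224] ⟨c83952, c84215, c84222, c84226, c83935, c84073, c82666, c83686, c84227, c84255, c40802, c84258, c9773, c82387, c84261, c84263, c84268, c2623, c41746, c84284, c84291, c81819, c84224, trivial⟩ (nd (nat_lit 296) (nat_lit 0) (cs (rf (nat_lit 0)) (cs (rf (nat_lit 1)) (cs (rf (nat_lit 2)) (cs (rf (nat_lit 3)) (cs (nd (nat_lit 273) (nat_lit 0) (cs (rf (nat_lit 4)) (cs (rf (nat_lit 5)) (nd (nat_lit 251) (nat_lit 0) (cs (rf (nat_lit 6)) (cs (rf (nat_lit 7)) (nd (nat_lit 254) (nat_lit 0) (cs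 (lf (nat_lit 6) (nat_lit 251)) (nd (nat_lit 232) (nat_lit 0) (cs (lf (nat_lit 17) (nat_lit 229)) (nd (nat_lit 318) (nat_lit 0) (cs (lf (nat_lit 42) (nat_lit 251)) (nd (nat_lit 319) (nat_lit 0) (cs (lf (nat_lit 29) (nat_lit 252)) (nd (nat_lit 230) (nat_lit 0) (cs (lf (nat_lit 28) (nat_lit 230)) (rf (nat_lit 8)))))))))))))))))) (cs (rf (nat_lit 9)) (cs (nd (nat_lit 251) (nat_lit 0) (cs (rf (nat_lit 10)) (cs (rf (nat_lit 11)) (cs (nd (nat_lit 250) (nat_lit 0) (cs (rf (nat_lit 12)) (cs (rf (nat_lit 13)) (cs (rf (nat_lit 14)) (cs (nd (nat_lit 271) (nat_lit 0) (cs (lf (nat_lit 10) (nat_lit 249)) (nd (nat_lit 249) (nat_lit 0) (cs (lf (nat_lit 11) (nat_lit 248)) (nd (nat_lit 273) (nat_lit 0) (cs (lf (nat_lit 0) (nat_lit 248)) (rf (nat_lit 15)))))))) (rf (nat_lit 16))))))) (nd (nat_lit 250) (nat_lit 0) (cs (rf (nat_lit 17)) (cs (rf (nat_lit 12)) (cs (rf (nat_lit 14)) (cs (rf (nat_lit 16)) (cs (nd (nat_lit 271) (nat_lit 0) (cs (lf (nat_lit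 10) (nat_lit 249)) (nd (nat_lit 249) (nat_lit 0) (cs (lf (nat_lit 11) (nat_lit 248)) (nd (nat_lit 273) (nat_lit 0) (cs (lf (nat_lit 0) (nat_lit 248)) (nd (nat_lit 254) (nat_lit 0) (cs (lf (nat_lit 6) (nat_lit 251)) (nd (nat_lit 232) (nat_lit 0) (cs (lf (nat_lit 17) (nat_lit 229)) (nd (nat_lit 318) (nat_lit 0) (cs (lf (nat_lit 42) (nat_lit 251)) (nd (nat_lit 317) (nat_lit 0) (cs (lf (nat_lit 41) (nat_lit 251)) (nd (nat_lit 228) (nat_lit 0) (cs (lf (nat_lit 43) (nat_lit 228)) (nd (nat_lit 184) (nat_lit 0) (cs (lf (nat_lit 25) (nat_lit 184)) (nd (nat_lit 319) (nat_lit 0) (cs (lf (nat_lit 29) (nat_lit 252)) (nd (nat_lit 315) (nat_lit 0) (cs (lf (nat_lit 31) (nat_lit 227)) (nd (nat_lit 316) (nat_lit 0) (cs (lf (nat_lit 17) (nat_lit 293)) (rf (nat_lit 18)))))))))))))))))))))))))) (rf (nat_lit 19)))))))))))) (cs (rf (nat_lit 20)) (nd (nat_lit 318) (nat_lit 0) (cs (rf (nat_lit 21)) (rf (nat_lit 22))))))))))))) q84293 (by decide +kernel)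
def q84439 : Q := Q.p (nat_lit 0x300000c000000000000000000000000000000000000000000000000000000000) (nat_lit 0xe0000380000f0000c0000000000180000e0000380000000000000000000000000000000000000000) (nat_lit 8)
theorem c84439 : QOK q84439 := cut [q79996, q84434, q84438] ⟨c79996, c84434, c84438, trivial⟩ (nd (nat_lit 208) (nat_lit 0) (cs (rf (nat_lit 0)) (cs (rf (nat_lit 1)) (rf (nat_lit 2))))) q84439 (by decide +kernel)
def q84442 : Q := Q.p (nat_lit 0x300000c000000000000000000000000000000000000000000000000000000000) (nat_lit 0xe0000380000f8000000003200001e0000e0000380000000000000000000000000000000000000000) (nat_lit 9)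
theorem c84442 : QOK q84442 := cut [q79996, q84415, q57679, q84155, q84440] ⟨c79996, c84415, c57679, c84155, c84440, trivial⟩ (nd (nat_lit 208) (nat_lit 0) (cs (rf (nat_lit 0)) (cs (rf (nat_lit 1)) (nd (nat_lit 274) (nat_lit 0) (cs (rf (nat_lit 2)) (cs (rf (nat_lit 3)) (rf (nat_lit 4)))))))) q84442 (by decide +kernel)
def q84449 : Q := Q.p (nat_lit 0x300000c000000000000000000000000000000000000000000000000000000000) (nat_lit 0x10000040001c6000738001de000120000480000000000000000000000000000000000000000) (nat_lit 9)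
theorem c84449 : QOK q84449 := cut [q84417, q84429, q84418, q84422, q84447] ⟨c84417, c84429, c84418, c84422, c84447, trivial⟩ (nd (nat_lit 229) (nat_lit 0) (cs (rf (nat_lit 0)) (cs (rf (nat_lit 1)) (nd (nat_lit 232) (nat_lit 0) (cs (rf (nat_lit 2)) (cs (rf (nat_lit 3)) (rf (nat_lit 4)))))))) q84449 (by decide +kernel)
def q84495 : Q := Q.p (nat_lit 0x300001c000000000000000000000000000000000000000000000000000000000) (nat_lit 0xe0000b80006e0001c0000600001d0000300000800000000000000000000000000000000000000000) (nat_lit 9)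
theorem c84495 : QOK q84495 := cut [q82289, q84488, q84491] ⟨c82289, c84488, c84491, trivial⟩ (nd (nat_lit 274) (nat_lit 0) (cs (rf (nat_lit 0)) (cs (rf (nat_lit 1)) (nd (nat_lit 233) (nat_lit 0) (cs (lf (nat_lit 6) (nat_lit 230)) (nd (nat_lit 255) (nat_lit 0) (cs (lf (nat_lit 5) (nat_lit 230)) (nd (nat_lit 211) (nat_lit 0) (cs (lf (nat_lit 17) (nat_lit 208)) (rf (nat_lit 2))))))))))) q84495 (by decide +kernel)
def q84566 : Q := Q.p (nat_lit 0x3000008000020000000000000000000000000000000000000000000000000000) (nat_lit 0x180001f0000680001c0003f7c00fde007fb8001e0000700001c000050000000000000000000000000) (nat_lit 17)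
theorem c84566 : QOK q84566 := cut [q9673, q84315, q84324, q84509, q22157, q84525, q84528, q84530, q9962, q67990, q84533, q9417, q84537, q84555, q84557, q84304, q22156, q9419] ⟨c9673, c84315, c84324, c84509, c22157, c84525, c84528, c84530, c9962, c67990, c84533, c9417, c84537, c84555, c84557, c84304, c22156, c9419, trivial⟩ (nd (nat_lit 210) (nat_lit 0) (cs (rf (nat_lit 0)) (cs (nd (nat_lit 211) (nat_lit 0) (cs (rf (nat_lit 1)) (cs (rf (nat_lit 2)) (cs (rf (nat_lit 3)) (cs (nd (nat_lit 208) (nat_lit 0) (cs (rf (nat_lit 4)) (cs (rf (nat_lit 5)) (cs (rf (nat_lit 6)) (cs (rf (nat_lit 7)) (nd (nat_lit 189) (nat_lit 0) (cs (lf (nat_lit 17) (nat_lit 186)) (nd (nat_lit 167) (nat_lit 0) (cs (rf (nat_lit 8)) (cs (rf (nat_lit 9)) (cs (rf (nat_lit 10)) (nd (nat_lit 230) (nat_lit 0) (cs (lf (nat_lit 11) (nat_lit 207)) (nd (nat_lit 233) (nat_lit 0) (cs (lf (nat_lit 5) (nat_lit 208)) (nd (nat_lit 255) (nat_lit 0) (cs (rf (nat_lit 11)) (cs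 (nd (nat_lit 232) (nat_lit 0) (cs (lf (nat_lit 5) (nat_lit 230)) (lf (nat_lit 41) (nat_lit 166)))) (cs (nd (nat_lit 277) (nat_lit 0) (cs (nd (nat_lit 232) (nat_lit 0) (cs (lf (nat_lit 42) (nat_lit 210)) (lf (nat_lit 41) (nat_lit 166)))) (cs (rf (nat_lit 12)) (nd (nat_lit 278) (nat_lit 0) (cs (lf (nat_lit 29) (nat_lit 211)) (nd (nat_lit 146) (nat_lit 0) (cs (lf (nat_lit 34) (nat_lit 145)) (nd (nat_lit 144) (nat_lit 0) (cs (lf (nat_lit 46) (nat_lit 144)) (nd (nat_lit 297) (nat_lit 0) (cs (lf (nat_lit 43) (nat_lit 208)) (nd (nat_lit 165) (nat_lit 0) (cs (lf (nat_lit 37) (nat_lit 164)) (nd (nat_lit 299) (nat_lit 0) (cs (lf (nat_lit 46) (nat_lit 210)) (nd (nat_lit 298) (nat_lit 0) (cs (lf (nat_lit 41) (nat_lit 232)) (lf (nat_lit 12) (nat_lit 274))))))))))))))))))) (nd (nat_lit 256) (nat_lit 0) (cs (lf (nat_lit 29) (nat_lit 189)) (lf (nat_lit 20) (nat_lit 230))))))))))))))))))))))) (rf (nat_lit 13))))))) (cs (nd (nat_lit 275) (nat_lit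 0) (cs (lf (nat_lit 35) (nat_lit 187)) (nd (nat_lit 297) (nat_lit 0) (cs (lf (nat_lit 34) (nat_lit 209)) (rf (nat_lit 14)))))) (nd (nat_lit 211) (nat_lit 0) (cs (rf (nat_lit 15)) (cs (rf (nat_lit 1)) (cs (rf (nat_lit 2)) (cs (rf (nat_lit 13)) (nd (nat_lit 208) (nat_lit 0) (cs (rf (nat_lit 16)) (cs (rf (nat_lit 5)) (cs (rf (nat_lit 6)) (cs (rf (nat_lit 7)) (nd (nat_lit 230) (nat_lit 0) (cs (lf (nat_lit 11) (nat_lit 207)) (nd (nat_lit 187) (nat_lit 0) (cs (lf (nat_lit 36) (nat_lit 164)) (nd (nat_lit 188) (nat_lit 0) (cs (lf (nat_lit 35) (nat_lit 165)) (nd (nat_lit 189) (nat_lit 0) (cs (lf (nat_lit 6) (nat_lit 186)) (rf (nat_lit 17)))))))))))))))))))))))) q84566 (by decide +kernel)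
def q84641 : Q := Q.p (nat_lit 0x3000008000000000000000000000000000000000000000000000000000000000) (nat_lit 0x600001e0000f80000f0001c6000778001fe000160000580000000000000000000000000000000000000000) (nat_lit 10)
theorem c84641 : QOK q84641 := cut [q84611, q2562, q82283, q84613, q84430, q84417, q84429, q84418, q84422, q80982, q81803, q84411, q84624, q79068, q84626, q84629, q84634, q84638] ⟨c84611, c2562, c82283, c84613, c84430, c84417, c84429, c84418, c84422, c80982, c81803, c84411, c84624, c79068, c84626, c84629, c84634, c84638, trivial⟩ (nd (nat_lit 274) (nat_lit 0) (cs (rf (nat_lit 0)) (cs (nd (nat_lit 296) (nat_lit 0) (cs (lf (nat_lit 30) (nat_lit 230)) (nd (nat_lit 275) (nat_lit 0) (cs (lf (nat_lit 36) (nat_lit 208)) (nd (nat_lit 297) (nat_lit 0) (cs (rf (nat_lit 1)) (cs (rf (nat_lit 2)) (rf (nat_lit 3))))))))) (cs (nd (nat_lit 230) (nat_lit 0) (cs (rf (nat_lit 4)) (cs (nd (nat_lit 229) (nat_lit 0) (cs (rf (nat_lit 5))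 (cs (rf (nat_lit 6)) (nd (nat_lit 232) (nat_lit 0) (cs (rf (nat_lit 7)) (cs (rf (nat_lit 8)) (nd (nat_lit 254) (nat_lit 0) (cs (lf (nat_lit 18) (nat_lit 229)) (nd (nat_lit 210) (nat_lit 0) (cs (lf (nat_lit 17) (nat_lit 207)) (nd (nat_lit 166) (nat_lit 0) (cs (lf (nat_lit 37) (nat_lit 165)) (nd (nat_lit 207) (nat_lit 0) (cs (lf (nat_lit 23) (nat_lit 206)) (rf (nat_lit 9)))))))))))))))) (cs (nd (nat_lit 208) (nat_lit 0) (cs (rf (nat_lit 10)) (cs (rf (nat_lit 11)) (rf (nat_lit 12))))) (cs (nd (nat_lit 275) (nat_lit 0) (cs (rf (nat_lit 13)) (cs (rf (nat_lit 14)) (nd (nat_lit 297) (nat_lit 0) (cs (lf (nat_lit 42) (nat_lit 230)) (nd (nat_lit 232) (nat_lit 0) (cs (lf (nat_lit 35) (nat_lit 209)) (nd (nat_lit 298) (nat_lit 0) (cs (lf (nat_lit 29) (nat_lit 231)) (rf (nat_lit 15))))))))))) (rf (nat_lit 16))))))) (nd (nat_lit 296) (nat_lit 0) (cs (lf (nat_lit 30) (nat_lit 230)) (nd (nat_lit 230) (nat_lit 0) (cs (lf (nat_lit 35) (nat_lit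 208)) (rf (nat_lit 17)))))))))) q84641 (by decide +kernel)
def q84911 : Q := Q.p (nat_lit 0xb000008000000000000000000000000000000000000000000000000000000000) (nat_lit 0x100006f000046000778001ee0007f0001f80007400004000000000000000000000000000000) (nat_lit 12)
theorem c84911 : QOK q84911 := cut [q84852, q80169, q84332, q7464, q84861, q81152, q80616, q84327, q84910] ⟨c84852, c80169, c84332, c7464, c84861, c81152, c80616, c84327, c84910, trivial⟩ (nd (nat_lit 230) (nat_lit 0) (cs (nd (nat_lit 229) (nat_lit 0) (cs (lf (nat_lit 19) (nat_lit 229)) (rf (nat_lit 0)))) (cs (nd (nat_lit 209) (nat_lit 0) (cs (rf (nat_lit 1)) (cs (rf (nat_lit 2)) (nd (nat_lit 211) (nat_lit 0) (cs (nd (nat_lit 210) (nat_lit 0) (cs (lf (nat_lit 6) (nat_lit 208)) (rf (nat_lit 3)))) (cs (nd (nat_lit 233) (nat_lit 0) (cs (nd (nat_lit 234) (nat_lit 0) (cs (lf (nat_lit 8) (nat_lit 230)) (lf (nat_lit 14) (nat_lit 230)))) (cs (nd (nat_lit 274) (nat_lit 0) (cs (lf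 (nat_lit 30) (nat_lit 208)) (nd (nat_lit 254) (nat_lit 0) (cs (lf (nat_lit 17) (nat_lit 230)) (lf (nat_lit 11) (nat_lit 251)))))) (cs (nd (nat_lit 274) (nat_lit 0) (cs (lf (nat_lit 30) (nat_lit 208)) (nd (nat_lit 254) (nat_lit 0) (cs (lf (nat_lit 11) (nat_lit 251)) (nd (nat_lit 277) (nat_lit 0) (cs (lf (nat_lit 5) (nat_lit 252)) (nd (nat_lit 188) (nat_lit 0) (cs (lf (nat_lit 46) (nat_lit 188)) (rf (nat_lit 4)))))))))) (nd (nat_lit 189) (nat_lit 0) (cs (nd (nat_lit 188) (nat_lit 0) (cs (lf (nat_lit 47) (nat_lit 166)) (nd (nat_lit 210) (nat_lit 0) (cs (lf (nat_lit 30) (nat_lit 187)) (lf (nat_lit 42) (nat_lit 188)))))) (cs (nd (nat_lit 168) (nat_lit 0) (cs (lf (nat_lit 34) (nat_lit 167)) (nd (nat_lit 167) (nat_lit 0) (cs (lf (nat_lit 35) (nat_lit 145)) (nd (nat_lit 274) (nat_lit 0) (cs (lf (nat_lit 30) (nat_lit 208)) (nd (nat_lit 232) (nat_lit 0) (cs (lf (nat_lit 6) (nat_lit 230)) (nd (nat_lit 210) (nat_lit 0) (cs (lf (nat_lit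 36) (nat_lit 144)) (nd (nat_lit 188) (nat_lit 0) (cs (lf (nat_lit 30) (nat_lit 187)) (lf (nat_lit 42) (nat_lit 188)))))))))))))) (cs (nd (nat_lit 232) (nat_lit 0) (cs (lf (nat_lit 6) (nat_lit 230)) (nd (nat_lit 168) (nat_lit 0) (cs (lf (nat_lit 34) (nat_lit 167)) (nd (nat_lit 167) (nat_lit 0) (cs (lf (nat_lit 35) (nat_lit 145)) (nd (nat_lit 274) (nat_lit 0) (cs (lf (nat_lit 30) (nat_lit 208)) (nd (nat_lit 144) (nat_lit 0) (cs (lf (nat_lit 46) (nat_lit 144)) (nd (nat_lit 145) (nat_lit 0) (cs (lf (nat_lit 47) (nat_lit 122)) (lf (nat_lit 40) (nat_lit 144)))))))))))))) (nd (nat_lit 274) (nat_lit 0) (cs (lf (nat_lit 30) (nat_lit 208)) (nd (nat_lit 166) (nat_lit 0) (cs (lf (nat_lit 46) (nat_lit 166)) (nd (nat_lit 232) (nat_lit 0) (cs (lf (nat_lit 6) (nat_lit 230)) (rf (nat_lit 5)))))))))))))))) (cs (nd (nat_lit 274) (nat_lit 0) (cs (lf (nat_lit 30) (nat_lit 208)) (nd (nat_lit 254) (nat_lit 0) (cs (lf (nat_lit 11) (nat_lit 251))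 (nd (nat_lit 233) (nat_lit 0) (cs (lf (nat_lit 17) (nat_lit 230)) (nd (nat_lit 212) (nat_lit 0) (cs (lf (nat_lit 14) (nat_lit 208)) (nd (nat_lit 277) (nat_lit 0) (cs (lf (nat_lit 35) (nat_lit 189)) (lf (nat_lit 5) (nat_lit 252)))))))))))) (nd (nat_lit 210) (nat_lit 0) (cs (lf (nat_lit 6) (nat_lit 208)) (nd (nat_lit 188) (nat_lit 0) (cs (lf (nat_lit 30) (nat_lit 187)) (nd (nat_lit 144) (nat_lit 0) (cs (lf (nat_lit 37) (nat_lit 143)) (nd (nat_lit 233) (nat_lit 0) (cs (lf (nat_lit 42) (nat_lit 188)) (nd (nat_lit 254) (nat_lit 0) (cs (lf (nat_lit 17) (nat_lit 230)) (rf (nat_lit 6))))))))))))))))))) (cs (nd (nat_lit 209) (nat_lit 0) (cs (rf (nat_lit 1)) (cs (rf (nat_lit 2)) (nd (nat_lit 210) (nat_lit 0) (cs (rf (nat_lit 3)) (cs (rf (nat_lit 7)) (nd (nat_lit 274) (nat_lit 0) (cs (lf (nat_lit 30) (nat_lit 208)) (nd (nat_lit 188) (nat_lit 0) (cs (lf (nat_lit 30) (nat_lit 187)) (nd (nat_lit 166) (nat_lit 0) (cs (lf (nat_lit 36) (nat_lit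 143)) (nd (nat_lit 211) (nat_lit 0) (cs (lf (nat_lit 6) (nat_lit 208)) (nd (nat_lit 233) (nat_lit 0) (cs (lf (nat_lit 42) (nat_lit 188)) (lf (nat_lit 45) (nat_lit 166)))))))))))))))))) (rf (nat_lit 8)))))) q84911 (by decide +kernel)
def q84990 : Q := Q.p (nat_lit 0x3000008000000000000000000000000000000000000000000000000000000000) (nat_lit 0x40000700001c0000780000f0001c0001e60003f8001ff0000f00003400000000000000000000000000000000000) (nat_lit 13)
theorem c84990 : QOK q84990 := cut [q82300, q82301, q82309, q84332, q82350, q84379, q84965, q84324, q84969, q84971, q84979, q84980, q84984, q84831] ⟨c82300, c82301, c82309, c84332, c82350, c84379, c84965, c84324, c84969, c84971, c84979, c84980, c84984, c84831, trivial⟩ (nd (nat_lit 209) (nat_lit 0) (cs (rf (nat_lit 0)) (cs (rf (nat_lit 1)) (cs (rf (nat_lit 2)) (cs (rf (nat_lit 3)) (nd (nat_lit 275) (nat_lit 0) (cs (rf (nat_lit 4)) (cs (rf (nat_lit 5)) (cs (rf (nat_lit 6)) (cs (nd (nat_lit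 210) (nat_lit 0) (cs (lf (nat_lit 35) (nat_lit 187)) (nd (nat_lit 211) (nat_lit 0) (cs (rf (nat_lit 7)) (cs (rf (nat_lit 8)) (cs (nd (nat_lit 274) (nat_lit 0) (cs (lf (nat_lit 41) (nat_lit 208)) (nd (nat_lit 208) (nat_lit 0) (cs (lf (nat_lit 47) (nat_lit 186)) (rf (nat_lit 9)))))) (cs (rf (nat_lit 10)) (cs (rf (nat_lit 11)) (rf (nat_lit 12)))))))))) (nd (nat_lit 296) (nat_lit 0) (cs (lf (nat_lit 40) (nat_lit 208)) (nd (nat_lit 188) (nat_lit 0) (cs (lf (nat_lit 34) (nat_lit 187)) (rf (nat_lit 13)))))))))))))))) q84990 (by decide +kernel)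
def q85012 : Q := Q.p (nat_lit 0x300000c000000000000000000000000000000000000000000000000000000000) (nat_lit 0x6000018000078000c0000300000fe0007f8000780000000000000000000000000000000000000000) (nat_lit 9)
theorem c85012 : QOK q85012 := cut [q80082, q84438, q84993, q80169, q84997, q84998, q85008, q85011] ⟨c80082, c84438, c84993, c80169, c84997, c84998, c85008, c85011, trivial⟩ (nd (nat_lit 208) (nat_lit 0) (cs (rf (nat_lit 0)) (cs (rf (nat_lit 1)) (cs (rf (nat_lit 2)) (cs (nd (nat_lit 209) (nat_lit 0) (cs (rf (nat_lit 3)) (cs (rf (nat_lit 4)) (rf (nat_lit 5))))) (cs (rf (nat_lit 6)) (rf (nat_lit 7)))))))) q85012 (by decide +kernel)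
def q85220 : Q := Q.p (nat_lit 0x2000008000030000000000000000000000000000000000000000000000000000) (nat_lit 0xf7c001ce00071c000400001000000000000000000000000000000000000) (nat_lit 8)
theorem c85220 : QOK q85220 := cut [q119, q2935, q1491, q10673, q15490, q2683, q10672, q24538] ⟨c119, c2935, c1491, c10673, c15490, c2683, c10672, c24538, trivial⟩ (nd (nat_lit 207) (nat_lit 0) (cs (rf (nat_lit 0)) (cs (rf (nat_lit 1)) (cs (nd (nat_lit 228) (nat_lit 0) (cs (rf (nat_lit 2)) (cs (rf (nat_lit 3)) (rf (nat_lit 4))))) (nd (nat_lit 210) (nat_lit 0) (cs (rf (nat_lit 5)) (cs (rf (nat_lit 6)) (rf (nat_lit 7))))))))) q85220 (by decide +kernel)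
def q85403 : Q := Q.p (nat_lit 0x3000002000018000000000000000000000000000000000000000000000000000) (nat_lit 0x80000000007df003e7800f8e000700001c00005000000000000000000000000000000) (nat_lit 10)
theorem c85403 : QOK q85403 := cut [q918, q13362, q85396, q85397, q85402] ⟨c918, c13362, c85396, c85397, c85402, trivial⟩ (nd (nat_lit 209) (nat_lit 0) (cs (rf (nat_lit 0)) (cs (rf (nat_lit 1)) (cs (rf (nat_lit 2)) (cs (rf (nat_lit 3)) (rf (nat_lit 4))))))) q85403 (by decide +kernel)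
def q85469 : Q := Q.p (nat_lit 0x380000c000000000000000000000000000000000000000000000000000000000) (nat_lit 0x200000a000000000020001fc0007f8000780001400000000000000000000000000000000000) (nat_lit 8)
theorem c85469 : QOK q85469 := cut [q82266, q84332, q85459, q85461, q85464, q85466] ⟨c82266, c84332, c85459, c85461, c85464, c85466, trivial⟩ (nd (nat_lit 209) (nat_lit 0) (cs (rf (nat_lit 0)) (cs (rf (nat_lit 1)) (cs (rf (nat_lit 2)) (cs (rf (nat_lit 3)) (cs (rf (nat_lit 4)) (rf (nat_lit 5)))))))) q85469 (by decide +kernel)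
def q85557 : Q := Q.p (nat_lit 0x3800000000000000000000000000000000000000000000000000000000000000) (nat_lit 0x20000380000e00003c000060001fc0000e0000380000e0000280000000000000000000000000000000000) (nat_lit 12)
theorem c85557 : QOK q85557 := cut [q2623, q12247, q23543, q83658] ⟨c2623, c12247, c23543, c83658, trivial⟩ (nd (nat_lit 250) (nat_lit 0) (cs (rf (nat_lit 0)) (cs (rf (nat_lit 1)) (cs (rf (nat_lit 2)) (rf (nat_lit 3)))))) q85557 (by decide +kernel)
def q85673 : Q := Q.p (nat_lit 0x500003400000000010000100000000000000000000000000000000000000000000000) (nat_lit 0xa0000380000e00000800002000098003ae001ef8007fe000ff8001fc00078000000000000000000000000) (nat_lit 12)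
theorem c85673 : QOK q85673 := cut [q85592, q85620, q85617, q2969, q58384, q58309, q58262, q19786, q9054, q85670] ⟨c85592, c85620, c85617, c2969, c58384, c58309, c58262, c19786, c9054, c85670, trivial⟩ (nd (nat_lit 187) (nat_lit 0) (cs (rf (nat_lit 0)) (cs (rf (nat_lit 1)) (cs (nd (nat_lit 209) (nat_lit 0) (cs (lf (nat_lit 38) (nat_lit 186)) (nd (nat_lit 189) (nat_lit 0) (cs (lf (nat_lit 6) (nat_lit 186)) (nd (nat_lit 186) (nat_lit 0) (cs (lf (nat_lit 11) (nat_lit 185)) (nd (nat_lit 167) (nat_lit 0) (cs (lf (nat_lit 17) (nat_lit 164)) (nd (nat_lit 166) (nat_lit 0) (cs (lf (nat_lit 12) (nat_lit 163)) (nd (nat_lit 122) (nat_lit 0) (cs (lf (nat_lit 37) (nat_lit 121)) (nd (nat_lit 211) (nat_lit 0) (cs (lf (nat_lit 5) (nat_lit 186)) (nd (nat_lit 164) (nat_lit 0) (cs (lf (nat_lit 23) (nat_lit 163)) (nd (nat_lit 142) (nat_lit 0) (cs (lf (nat_lit 24) (nat_lit 120)) (nd (nat_lit 141) (nat_lit 0) (cs (lf (nat_lit 47) (nat_lit 119))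 (lf (nat_lit 20) (nat_lit 141)))))))))))))))))))))) (cs (nd (nat_lit 189) (nat_lit 0) (cs (nd (nat_lit 209) (nat_lit 0) (cs (lf (nat_lit 6) (nat_lit 186)) (lf (nat_lit 38) (nat_lit 186)))) (cs (nd (nat_lit 186) (nat_lit 0) (cs (rf (nat_lit 2)) (cs (nd (nat_lit 209) (nat_lit 0) (cs (lf (nat_lit 38) (nat_lit 186)) (nd (nat_lit 167) (nat_lit 0) (cs (lf (nat_lit 17) (nat_lit 164)) (nd (nat_lit 185) (nat_lit 0) (cs (lf (nat_lit 16) (nat_lit 163)) (rf (nat_lit 3)))))))) (cs (nd (nat_lit 167) (nat_lit 0) (cs (lf (nat_lit 17) (nat_lit 164)) (nd (nat_lit 145) (nat_lit 0) (cs (rf (nat_lit 4)) (cs (nd (nat_lit 166) (nat_lit 0) (cs (lf (nat_lit 12) (nat_lit 163)) (nd (nat_lit 209) (nat_lit 0) (cs (lf (nat_lit 31) (nat_lit 165)) (nd (nat_lit 211) (nat_lit 0) (cs (lf (nat_lit 5) (nat_lit 186)) (nd (nat_lit 123) (nat_lit 0) (cs (lf (nat_lit 36) (nat_lit 100)) (nd (nat_lit 124) (nat_lit 0) (cs (lf (nat_lit 35) (nat_lit 101)) (lf (nat_lit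 34) (nat_lit 123)))))))))))) (cs (nd (nat_lit 211) (nat_lit 0) (cs (lf (nat_lit 5) (nat_lit 186)) (nd (nat_lit 146) (nat_lit 0) (cs (lf (nat_lit 35) (nat_lit 123)) (nd (nat_lit 144) (nat_lit 0) (cs (lf (nat_lit 47) (nat_lit 122)) (nd (nat_lit 166) (nat_lit 0) (cs (lf (nat_lit 12) (nat_lit 163)) (nd (nat_lit 165) (nat_lit 0) (cs (lf (nat_lit 6) (nat_lit 143)) (lf (nat_lit 12) (nat_lit 142)))))))))))) (nd (nat_lit 166) (nat_lit 0) (cs (lf (nat_lit 12) (nat_lit 163)) (nd (nat_lit 123) (nat_lit 0) (cs (lf (nat_lit 36) (nat_lit 100)) (nd (nat_lit 209) (nat_lit 0) (cs (lf (nat_lit 31) (nat_lit 165)) (nd (nat_lit 122) (nat_lit 0) (cs (lf (nat_lit 37) (nat_lit 121)) (lf (nat_lit 47) (nat_lit 100)))))))))))))))) (cs (nd (nat_lit 209) (nat_lit 0) (cs (lf (nat_lit 38) (nat_lit 186)) (nd (nat_lit 163) (nat_lit 0) (cs (lf (nat_lit 22) (nat_lit 163)) (nd (nat_lit 185) (nat_lit 0) (cs (lf (nat_lit 23) (nat_lit 162)) (nd (nat_lit 211) (nat_lit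 0) (cs (lf (nat_lit 5) (nat_lit 186)) (rf (nat_lit 5)))))))))) (nd (nat_lit 167) (nat_lit 0) (cs (lf (nat_lit 17) (nat_lit 164)) (nd (nat_lit 211) (nat_lit 0) (cs (lf (nat_lit 5) (nat_lit 186)) (nd (nat_lit 209) (nat_lit 0) (cs (lf (nat_lit 38) (nat_lit 186)) (nd (nat_lit 164) (nat_lit 0) (cs (lf (nat_lit 23) (nat_lit 163)) (nd (nat_lit 142) (nat_lit 0) (cs (lf (nat_lit 24) (nat_lit 120)) (rf (nat_lit 6))))))))))))))))) (nd (nat_lit 190) (nat_lit 0) (cs (rf (nat_lit 7)) (cs (nd (nat_lit 164) (nat_lit 0) (cs (lf (nat_lit 22) (nat_lit 164)) (nd (nat_lit 212) (nat_lit 0) (cs (lf (nat_lit 5) (nat_lit 187)) (nd (nat_lit 186) (nat_lit 0) (cs (lf (nat_lit 23) (nat_lit 163)) (lf (nat_lit 4) (nat_lit 186)))))))) (nd (nat_lit 212) (nat_lit 0) (cs (lf (nat_lit 5) (nat_lit 187)) (nd (nat_lit 186) (nat_lit 0) (cs (lf (nat_lit 4) (nat_lit 186)) (rf (nat_lit 8)))))))))))) (nd (nat_lit 209) (nat_lit 0) (cs (lf (nat_lit 38) (nat_lit 186))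 (nd (nat_lit 206) (nat_lit 0) (cs (lf (nat_lit 13) (nat_lit 184)) (rf (nat_lit 9))))))))))) q85673 (by decide +kernel)
def q85966 : Q := Q.p (nat_lit 0x8000020000000000000000000000000000000000000000000000000000000000) (nat_lit 0x400001c0000700001c00016000070000fd0003ffc00ffe0007fc000f00001c000050000000000000000000000000) (nat_lit 16)
theorem c85966 : QOK q85966 := cut [q85865, q85868, q85870, q85877, q85882, q85886, q85767, q85888, q85909, q85914, q81153, q85782, q84859, q20919, q85899, q13859, q85958, q85965] ⟨c85865, c85868, c85870, c85877, c85882, c85886, c85767, c85888, c85909, c85914, c81153, c85782, c84859, c20919, c85899, c13859, c85958, c85965, trivial⟩ (nd (nat_lit 211) (nat_lit 0) (cs (rf (nat_lit 0)) (cs (nd (nat_lit 189) (nat_lit 0) (cs (rf (nat_lit 1)) (cs (rf (nat_lit 2)) (cs (rf (nat_lit 3)) (rf (nat_lit 4)))))) (cs (rf (nat_lit 5)) (cs (nd (nat_lit 277) (nat_lit 0) (cs (rf (nat_lit 6)) (cs (rf (nat_lit 7))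 (nd (nat_lit 188) (nat_lit 0) (cs (lf (nat_lit 46) (nat_lit 188)) (nd (nat_lit 212) (nat_lit 0) (cs (lf (nat_lit 35) (nat_lit 189)) (nd (nat_lit 234) (nat_lit 0) (cs (lf (nat_lit 30) (nat_lit 211)) (nd (nat_lit 189) (nat_lit 0) (cs (lf (nat_lit 47) (nat_lit 166)) (nd (nat_lit 167) (nat_lit 0) (cs (lf (nat_lit 29) (nat_lit 167)) (lf (nat_lit 24) (nat_lit 145))))))))))))))) (cs (rf (nat_lit 8)) (cs (nd (nat_lit 190) (nat_lit 0) (cs (rf (nat_lit 9)) (cs (nd (nat_lit 277) (nat_lit 0) (cs (lf (nat_lit 34) (nat_lit 189)) (nd (nat_lit 210) (nat_lit 0) (cs (lf (nat_lit 47) (nat_lit 188)) (nd (nat_lit 300) (nat_lit 0) (cs (lf (nat_lit 28) (nat_lit 211)) (nd (nat_lit 299) (nat_lit 0) (cs (lf (nat_lit 46) (nat_lit 210)) (lf (nat_lit 29) (nat_lit 233)))))))))) (nd (nat_lit 168) (nat_lit 0) (cs (lf (nat_lit 33) (nat_lit 167)) (nd (nat_lit 212) (nat_lit 0) (cs (lf (nat_lit 36) (nat_lit 145)) (lf (nat_lit 39) (nat_lit 167))))))))) (cs (nd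 (nat_lit 189) (nat_lit 0) (cs (rf (nat_lit 10)) (cs (nd (nat_lit 256) (nat_lit 0) (cs (lf (nat_lit 29) (nat_lit 189)) (rf (nat_lit 11)))) (cs (nd (nat_lit 256) (nat_lit 0) (cs (lf (nat_lit 29) (nat_lit 189)) (nd (nat_lit 167) (nat_lit 0) (cs (lf (nat_lit 28) (nat_lit 167)) (rf (nat_lit 12)))))) (nd (nat_lit 188) (nat_lit 0) (cs (lf (nat_lit 47) (nat_lit 166)) (nd (nat_lit 187) (nat_lit 0) (cs (nd (nat_lit 186) (nat_lit 0) (cs (lf (nat_lit 5) (nat_lit 186)) (nd (nat_lit 207) (nat_lit 0) (cs (lf (nat_lit 10) (nat_lit 185)) (nd (nat_lit 185) (nat_lit 0) (cs (lf (nat_lit 11) (nat_lit 184)) (lf (nat_lit 4) (nat_lit 185)))))))) (cs (nd (nat_lit 190) (nat_lit 0) (cs (lf (nat_lit 35) (nat_lit 167)) (nd (nat_lit 256) (nat_lit 0) (cs (lf (nat_lit 29) (nat_lit 189)) (nd (nat_lit 164) (nat_lit 0) (cs (lf (nat_lit 22) (nat_lit 164)) (nd (nat_lit 208) (nat_lit 0) (cs (lf (nat_lit 10) (nat_lit 186)) (nd (nat_lit 186) (nat_lit 0) (cs (lf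 (nat_lit 11) (nat_lit 185)) (lf (nat_lit 23) (nat_lit 163)))))))))))) (cs (nd (nat_lit 190) (nat_lit 0) (cs (lf (nat_lit 35) (nat_lit 167)) (nd (nat_lit 256) (nat_lit 0) (cs (lf (nat_lit 29) (nat_lit 189)) (nd (nat_lit 164) (nat_lit 0) (cs (lf (nat_lit 22) (nat_lit 164)) (nd (nat_lit 208) (nat_lit 0) (cs (lf (nat_lit 10) (nat_lit 186)) (nd (nat_lit 213) (nat_lit 0) (cs (lf (nat_lit 4) (nat_lit 187)) (nd (nat_lit 191) (nat_lit 0) (cs (lf (nat_lit 5) (nat_lit 188)) (nd (nat_lit 169) (nat_lit 0) (cs (lf (nat_lit 17) (nat_lit 166)) (nd (nat_lit 192) (nat_lit 0) (cs (lf (nat_lit 11) (nat_lit 188)) (nd (nat_lit 235) (nat_lit 0) (cs (lf (nat_lit 40) (nat_lit 168)) (nd (nat_lit 258) (nat_lit 0) (cs (nd (nat_lit 257) (nat_lit 0) (cs (lf (nat_lit 23) (nat_lit 232)) (lf (nat_lit 29) (nat_lit 191)))) (lf (nat_lit 28) (nat_lit 169)))))))))))))))))))))) (nd (nat_lit 168) (nat_lit 0) (cs (lf (nat_lit 34) (nat_lit 167)) (nd (nat_lit 256)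 (nat_lit 0) (cs (lf (nat_lit 29) (nat_lit 189)) (nd (nat_lit 186) (nat_lit 0) (cs (lf (nat_lit 5) (nat_lit 186)) (rf (nat_lit 13)))))))))))))))))) (cs (nd (nat_lit 189) (nat_lit 0) (cs (rf (nat_lit 3)) (cs (rf (nat_lit 14)) (cs (nd (nat_lit 190) (nat_lit 0) (cs (lf (nat_lit 35) (nat_lit 167)) (nd (nat_lit 277) (nat_lit 0) (cs (lf (nat_lit 34) (nat_lit 189)) (nd (nat_lit 300) (nat_lit 0) (cs (lf (nat_lit 28) (nat_lit 211)) (nd (nat_lit 299) (nat_lit 0) (cs (rf (nat_lit 15)) (lf (nat_lit 29) (nat_lit 233)))))))))) (rf (nat_lit 16)))))) (rf (nat_lit 17))))))))))) q85966 (by decide +kernel)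
def q86149 : Q := Q.p (nat_lit 0x400003000020000030000000000000000000000000000000000000000000000000000) (nat_lit 0x140000700001c0000e80001c0000400001cc000ff0007fe0007f0003fe00040000000000000000000000000) (nat_lit 15)
theorem c86149 : QOK q86149 := cut [q86045, q86049, q84537, q10177, q55193, q86116, q85909, q86008, q86043, q81153, q85998, q86000, q85096, q57995, q57982, q58185, q86130, q57934, q8608, q8182, q20686, q8178, q16668, q78727, q86148] ⟨c86045, c86049, c84537, c10177, c55193, c86116, c85909, c86008, c86043, c81153, c85998, c86000, c85096, c57995, c57982, c58185, c86130, c57934, c8608, c8182, c20686, c8178, c16668, c78727, c86148, trivial⟩ (nd (nat_lit 211) (nat_lit 0) (cs (nd (nat_lit 255) (nat_lit 0) (cs (rf (nat_lit 0)) (cs (rf (nat_lit 1)) (cs (nd (nat_lit 277) (nat_lit 0) (cs (rf (nat_lit 2)) (nd (nat_lit 210) (nat_lit 0) (cs (lf (nat_lit 47) (nat_lit 188)) (nd (nat_lit 212) (nat_lit 0) (cs (rf (nat_lit 3)) (lf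 (nat_lit 35) (nat_lit 189)))))))) (nd (nat_lit 210) (nat_lit 0) (cs (lf (nat_lit 5) (nat_lit 208)) (nd (nat_lit 186) (nat_lit 0) (cs (lf (nat_lit 23) (nat_lit 185)) (nd (nat_lit 277) (nat_lit 0) (cs (lf (nat_lit 47) (nat_lit 188)) (rf (nat_lit 4)))))))))))) (cs (rf (nat_lit 5)) (cs (nd (nat_lit 255) (nat_lit 0) (cs (rf (nat_lit 6)) (cs (rf (nat_lit 7)) (cs (rf (nat_lit 8)) (cs (rf (nat_lit 0)) (nd (nat_lit 189) (nat_lit 0) (cs (rf (nat_lit 9)) (cs (rf (nat_lit 10)) (cs (rf (nat_lit 11)) (nd (nat_lit 234) (nat_lit 0) (cs (lf (nat_lit 14) (nat_lit 230)) (nd (nat_lit 188) (nat_lit 0) (cs (lf (nat_lit 47) (nat_lit 166)) (nd (nat_lit 190) (nat_lit 0) (cs (lf (nat_lit 9) (nat_lit 186)) (lf (nat_lit 35) (nat_lit 167))))))))))))))))) (cs (nd (nat_lit 210) (nat_lit 0) (cs (lf (nat_lit 5) (nat_lit 208)) (nd (nat_lit 188) (nat_lit 0) (cs (rf (nat_lit 12)) (cs (nd (nat_lit 255) (nat_lit 0) (cs (lf (nat_lit 42) (nat_lit 188)) (nd (nat_lit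 166) (nat_lit 0) (cs (lf (nat_lit 24) (nat_lit 144)) (lf (nat_lit 45) (nat_lit 166)))))) (nd (nat_lit 186) (nat_lit 0) (cs (lf (nat_lit 23) (nat_lit 185)) (nd (nat_lit 187) (nat_lit 0) (cs (lf (nat_lit 18) (nat_lit 186)) (nd (nat_lit 143) (nat_lit 0) (cs (rf (nat_lit 13)) (cs (nd (nat_lit 255) (nat_lit 0) (cs (lf (nat_lit 42) (nat_lit 188)) (nd (nat_lit 165) (nat_lit 0) (cs (lf (nat_lit 36) (nat_lit 120)) (nd (nat_lit 144) (nat_lit 0) (cs (lf (nat_lit 25) (nat_lit 144)) (lf (nat_lit 35) (nat_lit 121)))))))) (cs (nd (nat_lit 142) (nat_lit 0) (cs (rf (nat_lit 14)) (cs (nd (nat_lit 255) (nat_lit 0) (cs (lf (nat_lit 42) (nat_lit 188)) (nd (nat_lit 206) (nat_lit 0) (cs (lf (nat_lit 13) (nat_lit 184)) (nd (nat_lit 144) (nat_lit 0) (cs (lf (nat_lit 25) (nat_lit 144)) (rf (nat_lit 15)))))))) (rf (nat_lit 16))))) (nd (nat_lit 142) (nat_lit 0) (cs (rf (nat_lit 17)) (cs (rf (nat_lit 16)) (cs (nd (nat_lit 144) (nat_lit 0) (cs (lf (nat_lit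 25) (nat_lit 144)) (nd (nat_lit 164) (nat_lit 0) (cs (lf (nat_lit 35) (nat_lit 120)) (nd (nat_lit 255) (nat_lit 0) (cs (lf (nat_lit 42) (nat_lit 188)) (rf (nat_lit 18)))))))) (nd (nat_lit 144) (nat_lit 0) (cs (lf (nat_lit 25) (nat_lit 144)) (nd (nat_lit 141) (nat_lit 0) (cs (rf (nat_lit 19)) (cs (nd (nat_lit 255) (nat_lit 0) (cs (lf (nat_lit 42) (nat_lit 188)) (rf (nat_lit 20)))) (cs (nd (nat_lit 255) (nat_lit 0) (cs (lf (nat_lit 42) (nat_lit 188)) (rf (nat_lit 21)))) (nd (nat_lit 162) (nat_lit 0) (cs (lf (nat_lit 10) (nat_lit 140)) (nd (nat_lit 255) (nat_lit 0) (cs (lf (nat_lit 42) (nat_lit 188)) (rf (nat_lit 22))))))))))))))))))))))))))))) (cs (nd (nat_lit 210) (nat_lit 0) (cs (lf (nat_lit 5) (nat_lit 208)) (rf (nat_lit 23)))) (rf (nat_lit 24)))))))) q86149 (by decide +kernel)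
def q86231 : Q := Q.p (nat_lit 0x400003000020000030000000000000000000000000000000000000000000000000000) (nat_lit 0x1580007f8001f8000e80001c0000440001cc0007a0001c0000700001c000040000000000000000000000000) (nat_lit 15)
theorem c86231 : QOK q86231 := cut [q86008, q86170, q85886, q85909, q86148, q13202, q86211, q86150] ⟨c86008, c86170, c85886, c85909, c86148, c13202, c86211, c86150, trivial⟩ (nd (nat_lit 255) (nat_lit 0) (cs (rf (nat_lit 0)) (cs (rf (nat_lit 1)) (cs (nd (nat_lit 230) (nat_lit 0) (cs (lf (nat_lit 35) (nat_lit 186)) (nd (nat_lit 234) (nat_lit 0) (cs (lf (nat_lit 14) (nat_lit 230)) (nd (nat_lit 211) (nat_lit 0) (cs (lf (nat_lit 2) (nat_lit 208)) (nd (nat_lit 185) (nat_lit 0) (cs (lf (nat_lit 46) (nat_lit 185)) (nd (nat_lit 297) (nat_lit 0) (cs (lf (nat_lit 28) (nat_lit 208)) (nd (nat_lit 296) (nat_lit 0) (cs (lf (nat_lit 29) (nat_lit 230)) (nd (nat_lit 317) (nat_lit 0) (cs (lf (nat_lit 40) (nat_lit 229)) (nd (nat_lit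 318) (nat_lit 0) (cs (lf (nat_lit 41) (nat_lit 251)) (nd (nat_lit 299) (nat_lit 0) (cs (lf (nat_lit 7) (nat_lit 295)) (nd (nat_lit 315) (nat_lit 0) (cs (lf (nat_lit 13) (nat_lit 293)) (nd (nat_lit 277) (nat_lit 0) (cs (lf (nat_lit 35) (nat_lit 211)) (nd (nat_lit 300) (nat_lit 0) (cs (lf (nat_lit 28) (nat_lit 211)) (lf (nat_lit 29) (nat_lit 233)))))))))))))))))))))))))) (cs (nd (nat_lit 211) (nat_lit 0) (cs (rf (nat_lit 2)) (cs (rf (nat_lit 3)) (cs (rf (nat_lit 4)) (nd (nat_lit 230) (nat_lit 0) (cs (lf (nat_lit 35) (nat_lit 186)) (nd (nat_lit 210) (nat_lit 0) (cs (lf (nat_lit 5) (nat_lit 208)) (nd (nat_lit 275) (nat_lit 0) (cs (lf (nat_lit 29) (nat_lit 208)) (nd (nat_lit 185) (nat_lit 0) (cs (lf (nat_lit 46) (nat_lit 185)) (nd (nat_lit 277) (nat_lit 0) (cs (lf (nat_lit 47) (nat_lit 188)) (nd (nat_lit 300) (nat_lit 0) (cs (lf (nat_lit 28) (nat_lit 211)) (nd (nat_lit 299) (nat_lit 0) (cs (lf (nat_lit 29) (nat_lit 233)) (nd (nat_lit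 320) (nat_lit 0) (cs (lf (nat_lit 40) (nat_lit 232)) (nd (nat_lit 321) (nat_lit 0) (cs (lf (nat_lit 41) (nat_lit 254)) (nd (nat_lit 318) (nat_lit 0) (cs (lf (nat_lit 13) (nat_lit 296)) (nd (nat_lit 296) (nat_lit 0) (cs (lf (nat_lit 30) (nat_lit 252)) (rf (nat_lit 5)))))))))))))))))))))))))))) (cs (rf (nat_lit 6)) (cs (nd (nat_lit 234) (nat_lit 0) (cs (lf (nat_lit 14) (nat_lit 230)) (nd (nat_lit 210) (nat_lit 0) (cs (lf (nat_lit 3) (nat_lit 208)) (nd (nat_lit 230) (nat_lit 0) (cs (lf (nat_lit 35) (nat_lit 186)) (nd (nat_lit 185) (nat_lit 0) (cs (lf (nat_lit 46) (nat_lit 185)) (nd (nat_lit 297) (nat_lit 0) (cs (lf (nat_lit 28) (nat_lit 208)) (nd (nat_lit 296) (nat_lit 0) (cs (lf (nat_lit 29) (nat_lit 230)) (nd (nat_lit 317) (nat_lit 0) (cs (lf (nat_lit 40) (nat_lit 229)) (nd (nat_lit 318) (nat_lit 0) (cs (lf (nat_lit 41) (nat_lit 251)) (nd (nat_lit 315) (nat_lit 0) (cs (lf (nat_lit 13) (nat_lit 293)) (nd (nat_lit 299) (nat_lit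 0) (cs (lf (nat_lit 7) (nat_lit 295)) (nd (nat_lit 277) (nat_lit 0) (cs (lf (nat_lit 35) (nat_lit 211)) (nd (nat_lit 322) (nat_lit 0) (cs (lf (nat_lit 28) (nat_lit 233)) (nd (nat_lit 321) (nat_lit 0) (cs (lf (nat_lit 34) (nat_lit 233)) (lf (nat_lit 29) (nat_lit 255)))))))))))))))))))))))))))) (nd (nat_lit 187) (nat_lit 0) (cs (lf (nat_lit 32) (nat_lit 186)) (nd (nat_lit 254) (nat_lit 0) (cs (lf (nat_lit 17) (nat_lit 230)) (nd (nat_lit 256) (nat_lit 0) (cs (lf (nat_lit 10) (nat_lit 252)) (nd (nat_lit 278) (nat_lit 0) (cs (lf (nat_lit 5) (nat_lit 253)) (nd (nat_lit 300) (nat_lit 0) (cs (lf (nat_lit 42) (nat_lit 233)) (nd (nat_lit 189) (nat_lit 0) (cs (lf (nat_lit 25) (nat_lit 189)) (rf (nat_lit 7))))))))))))))))))))) q86231 (by decide +kernel)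
def q86317 : Q := Q.p (nat_lit 0xc00003000008000000000000000000000000000000000000000000000000000000000) (nat_lit 0x200000000004c000700000700001c0000000000000000000000000000000000000000000000) (nat_lit 7)
theorem c86317 : QOK q86317 := cut [q86316] ⟨c86316, trivial⟩ (nd (nat_lit 209) (nat_lit 0) (cs (lf (nat_lit 36) (nat_lit 186)) (rf (nat_lit 0)))) q86317 (by decide +kernel)
def q86394 : Q := Q.p (nat_lit 0xc00003000000000000000000000000000000000000000000000000000000000000000) (nat_lit 0x8000060000380000e00007c0009e000638001ce00079c0007e0001f80007e0001e80001000000000000000000000000000000) (nat_lit 14)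
theorem c86394 : QOK q86394 := cut [q83829, q80881, q86336, q14128, q86340, q86345, q14188, q22967, q68237, q86356, q58889, q86373, q86374, q86376, q86377, q86313, q84406, q85670, q86385, q86391, q14305, q14308, q14309, q85674] ⟨c83829, c80881, c86336, c14128, c86340, c86345, c14188, c22967, c68237, c86356, c58889, c86373, c86374, c86376, c86377, c86313, c84406, c85670, c86385, c86391, c14305, c14308, c14309, c85674, trivial⟩ (nd (nat_lit 272) (nat_lit 0) (cs (rf (nat_lit 0)) (cs (nd (nat_lit 231) (nat_lit 0) (cs (rf (nat_lit 1)) (cs (nd (nat_lit 250) (nat_lit 0) (cs (nd (nat_lit 294) (nat_lit 0) (cs (nd (nat_lit 296) (nat_lit 0) (cs (lf (nat_lit 30) (nat_lit 230)) (rf (nat_lit 2)))) (cs (nd (nat_lit 316) (nat_lit 0) (cs (rf (nat_lit 3)) (cs (nd (nat_lit 296) (nat_lit 0) (cs (lf (nat_lit 30) (nat_lit 230)) (rf (nat_lit 4)))) (rf (nat_lit 5))))) (cs (nd (nat_lit 296) (nat_lit 0) (cs (lf (nat_lit 30) (nat_lit 230)) (nd (nat_lit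 295) (nat_lit 0) (cs (lf (nat_lit 12) (nat_lit 271)) (rf (nat_lit 6)))))) (cs (nd (nat_lit 316) (nat_lit 0) (cs (rf (nat_lit 3)) (cs (nd (nat_lit 296) (nat_lit 0) (cs (lf (nat_lit 30) (nat_lit 230)) (nd (nat_lit 293) (nat_lit 0) (cs (lf (nat_lit 14) (nat_lit 271)) (nd (nat_lit 339) (nat_lit 0) (cs (lf (nat_lit 28) (nat_lit 250)) (nd (nat_lit 227) (nat_lit 0) (cs (lf (nat_lit 46) (nat_lit 227)) (rf (nat_lit 7)))))))))) (cs (nd (nat_lit 315) (nat_lit 0) (cs (lf (nat_lit 41) (nat_lit 249)) (nd (nat_lit 227) (nat_lit 0) (cs (lf (nat_lit 46) (nat_lit 227)) (nd (nat_lit 317) (nat_lit 0) (cs (lf (nat_lit 29) (nat_lit 250)) (rf (nat_lit 8)))))))) (cs (nd (nat_lit 296) (nat_lit 0) (cs (lf (nat_lit 30) (nat_lit 230)) (nd (nat_lit 293) (nat_lit 0) (cs (lf (nat_lit 14) (nat_lit 271)) (nd (nat_lit 339) (nat_lit 0) (cs (lf (nat_lit 28) (nat_lit 250)) (nd (nat_lit 227) (nat_lit 0) (cs (lf (nat_lit 46) (nat_lit 227)) (nd (nat_lit 338) (nat_lit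 0) (cs (lf (nat_lit 29) (nat_lit 272)) (nd (nat_lit 360) (nat_lit 0) (cs (lf (nat_lit 47) (nat_lit 271)) (nd (nat_lit 381) (nat_lit 0) (cs (lf (nat_lit 40) (nat_lit 293)) (rf (nat_lit 9)))))))))))))))) (nd (nat_lit 296) (nat_lit 0) (cs (lf (nat_lit 30) (nat_lit 230)) (nd (nat_lit 293) (nat_lit 0) (cs (lf (nat_lit 14) (nat_lit 271)) (rf (nat_lit 10))))))))))) (cs (rf (nat_lit 11)) (rf (nat_lit 12)))))))) (cs (rf (nat_lit 13)) (rf (nat_lit 14))))) (nd (nat_lit 232) (nat_lit 0) (cs (rf (nat_lit 15)) (cs (nd (nat_lit 250) (nat_lit 0) (cs (rf (nat_lit 13)) (cs (rf (nat_lit 14)) (nd (nat_lit 209) (nat_lit 0) (cs (rf (nat_lit 16)) (nd (nat_lit 206) (nat_lit 0) (cs (rf (nat_lit 17)) (nd (nat_lit 208) (nat_lit 0) (cs (lf (nat_lit 47) (nat_lit 186)) (lf (nat_lit 1) (nat_lit 206))))))))))) (rf (nat_lit 18)))))))) (cs (nd (nat_lit 254) (nat_lit 0) (cs (lf (nat_lit 13) (nat_lit 250)) (rf (nat_lit 19)))) (nd (nat_lit 250) (nat_lit 0) (cs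 (rf (nat_lit 20)) (cs (rf (nat_lit 21)) (cs (rf (nat_lit 22)) (rf (nat_lit 23)))))))))) q86394 (by decide +kernel)
def q86426 : Q := Q.p (nat_lit 0xc00003000000000000000000000000000000000000000000000000000000000000000) (nat_lit 0x1ffc003fe001ffc00e38001ce000f1800040000100000000000000000000000000000000000000000000000) (nat_lit 13)
theorem c86426 : QOK q86426 := cut [q83979, q83984, q86395, q15131, q25666, q86401, q55427, q82748, q82876, q56138, q55405, q86408, q15838, q14306, q86319] ⟨c83979, c83984, c86395, c15131, c25666, c86401, c55427, c82748, c82876, c56138, c55405, c86408, c15838, c14306, c86319, trivial⟩ (nd (nat_lit 254) (nat_lit 0) (cs (rf (nat_lit 0)) (cs (rf (nat_lit 1)) (nd (nat_lit 319) (nat_lit 0) (cs (rf (nat_lit 2)) (cs (nd (nat_lit 318) (nat_lit 0) (cs (rf (nat_lit 3)) (cs (nd (nat_lit 317) (nat_lit 0) (cs (nd (nat_lit 296) (nat_lit 0) (cs (lf (nat_lit 29) (nat_lit 252)) (lf (nat_lit 41) (nat_lit 251)))) (cs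 (nd (nat_lit 272) (nat_lit 0) (cs (lf (nat_lit 13) (nat_lit 250)) (nd (nat_lit 341) (nat_lit 0) (cs (lf (nat_lit 26) (nat_lit 252)) (nd (nat_lit 316) (nat_lit 0) (cs (lf (nat_lit 5) (nat_lit 316)) (rf (nat_lit 4)))))))) (rf (nat_lit 5))))) (cs (nd (nat_lit 317) (nat_lit 0) (cs (nd (nat_lit 316) (nat_lit 0) (cs (rf (nat_lit 6)) (cs (rf (nat_lit 7)) (rf (nat_lit 8))))) (cs (rf (nat_lit 5)) (cs (nd (nat_lit 316) (nat_lit 0) (cs (rf (nat_lit 4)) (cs (rf (nat_lit 9)) (cs (rf (nat_lit 8)) (nd (nat_lit 272) (nat_lit 0) (cs (lf (nat_lit 13) (nat_lit 250)) (nd (nat_lit 337) (nat_lit 0) (cs (lf (nat_lit 10) (nat_lit 315)) (nd (nat_lit 294) (nat_lit 0) (cs (lf (nat_lit 23) (nat_lit 293)) (nd (nat_lit 341) (nat_lit 0) (cs (lf (nat_lit 5) (nat_lit 316)) (rf (nat_lit 10)))))))))))))) (nd (nat_lit 273) (nat_lit 0) (cs (lf (nat_lit 12) (nat_lit 250)) (nd (nat_lit 295) (nat_lit 0) (cs (lf (nat_lit 30) (nat_lit 251)) (rf (nat_lit 11))))))))))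 (nd (nat_lit 296) (nat_lit 0) (cs (lf (nat_lit 30) (nat_lit 252)) (nd (nat_lit 317) (nat_lit 0) (cs (lf (nat_lit 41) (nat_lit 251)) (nd (nat_lit 294) (nat_lit 0) (cs (rf (nat_lit 12)) (cs (nd (nat_lit 272) (nat_lit 0) (cs (lf (nat_lit 13) (nat_lit 250)) (nd (nat_lit 295) (nat_lit 0) (cs (lf (nat_lit 18) (nat_lit 294)) (nd (nat_lit 250) (nat_lit 0) (cs (lf (nat_lit 24) (nat_lit 228)) (rf (nat_lit 13)))))))) (nd (nat_lit 272) (nat_lit 0) (cs (lf (nat_lit 13) (nat_lit 250)) (nd (nat_lit 316) (nat_lit 0) (cs (lf (nat_lit 23) (nat_lit 293)) (nd (nat_lit 337) (nat_lit 0) (cs (lf (nat_lit 10) (nat_lit 315)) (nd (nat_lit 315) (nat_lit 0) (cs (lf (nat_lit 11) (nat_lit 314)) (lf (nat_lit 36) (nat_lit 249))))))))))))))))))))) (nd (nat_lit 272) (nat_lit 0) (cs (lf (nat_lit 13) (nat_lit 250)) (nd (nat_lit 232) (nat_lit 0) (cs (lf (nat_lit 31) (nat_lit 231)) (rf (nat_lit 14)))))))))))) q86426 (by decide +kernel)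
def q86570 : Q := Q.p (nat_lit 0x400003000000000000000000000000000000000000000000000000000000000000000) (nat_lit 0x40000380000e0000fe0001f8000be001cf8007dc001fe0007fc000780001400000000000000000000000000000000000) (nat_lit 15)
theorem c86570 : QOK q86570 := cut [q83829, q85674, q80881, q82280, q86455, q86503, q82300, q82301, q82309, q1563, q119, q2938, q12508, q85102, q85116, q85078, q7721, q1397, q1597, q79097, q86567, q86566, q86569] ⟨c83829, c85674, c80881, c82280, c86455, c86503, c82300, c82301, c82309, c1563, c119, c2938, c12508, c85102, c85116, c85078, c7721, c1397, c1597, c79097, c86567, c86566, c86569, trivial⟩ (nd (nat_lit 272) (nat_lit 0) (cs (rf (nat_lit 0)) (cs (nd (nat_lit 250) (nat_lit 0) (cs (rf (nat_lit 1)) (cs (nd (nat_lit 231) (nat_lit 0) (cs (rf (nat_lit 2)) (cs (rf (nat_lit 3)) (rf (nat_lit 4))))) (cs (nd (nat_lit 251) (nat_lit 0) (cs (lf (nat_lit 11) (nat_lit 249)) (nd (nat_lit 231) (nat_lit 0) (cs (lf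 (nat_lit 17) (nat_lit 228)) (rf (nat_lit 2)))))) (cs (nd (nat_lit 231) (nat_lit 0) (cs (rf (nat_lit 2)) (cs (rf (nat_lit 3)) (cs (rf (nat_lit 5)) (nd (nat_lit 209) (nat_lit 0) (cs (rf (nat_lit 6)) (cs (rf (nat_lit 7)) (cs (rf (nat_lit 8)) (nd (nat_lit 208) (nat_lit 0) (cs (rf (nat_lit 9)) (cs (nd (nat_lit 207) (nat_lit 0) (cs (rf (nat_lit 10)) (cs (rf (nat_lit 11)) (nd (nat_lit 185) (nat_lit 0) (cs (lf (nat_lit 44) (nat_lit 185)) (nd (nat_lit 210) (nat_lit 0) (cs (lf (nat_lit 23) (nat_lit 184)) (rf (nat_lit 12))))))))) (cs (nd (nat_lit 210) (nat_lit 0) (cs (rf (nat_lit 13)) (cs (rf (nat_lit 14)) (nd (nat_lit 233) (nat_lit 0) (cs (rf (nat_lit 15)) (cs (nd (nat_lit 207) (nat_lit 0) (cs (lf (nat_lit 4) (nat_lit 207)) (nd (nat_lit 188) (nat_lit 0) (cs (lf (nat_lit 17) (nat_lit 185)) (nd (nat_lit 144) (nat_lit 0) (cs (lf (nat_lit 37) (nat_lit 143)) (nd (nat_lit 184) (nat_lit 0) (cs (lf (nat_lit 22) (nat_lit 184)) (nd (nat_lit 206)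 (nat_lit 0) (cs (lf (nat_lit 23) (nat_lit 183)) (nd (nat_lit 228) (nat_lit 0) (cs (lf (nat_lit 11) (nat_lit 205)) (rf (nat_lit 16)))))))))))))) (nd (nat_lit 211) (nat_lit 0) (cs (lf (nat_lit 5) (nat_lit 208)) (rf (nat_lit 17)))))))))) (nd (nat_lit 207) (nat_lit 0) (cs (rf (nat_lit 10)) (cs (rf (nat_lit 11)) (nd (nat_lit 185) (nat_lit 0) (cs (lf (nat_lit 44) (nat_lit 185)) (rf (nat_lit 18))))))))))))))))))) (nd (nat_lit 251) (nat_lit 0) (cs (lf (nat_lit 11) (nat_lit 249)) (nd (nat_lit 231) (nat_lit 0) (cs (lf (nat_lit 17) (nat_lit 228)) (nd (nat_lit 230) (nat_lit 0) (cs (lf (nat_lit 12) (nat_lit 227)) (rf (nat_lit 19))))))))))))) (cs (rf (nat_lit 20)) (cs (nd (nat_lit 273) (nat_lit 0) (cs (lf (nat_lit 12) (nat_lit 249)) (rf (nat_lit 21)))) (rf (nat_lit 22))))))) q86570 (by decide +kernel)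
def q86601 : Q := Q.p (nat_lit 0x400003000000000000000000000000000000000000000000000000000000000000000) (nat_lit 0xa0000f80003fc000fe000ebc001cc000fd000060000180000400000000000000000000000000000000000000000) (nat_lit 14)
theorem c86601 : QOK q86601 := cut [q81014, q83915, q80648, q81013, q83705, q83979, q83984, q79118, q86578, q86581, q86574, q11750, q86587, q42008, q14502, q86596] ⟨c81014, c83915, c80648, c81013, c83705, c83979, c83984, c79118, c86578, c86581, c86574, c11750, c86587, c42008, c14502, c86596, trivial⟩ (nd (nat_lit 296) (nat_lit 0) (cs (rf (nat_lit 0)) (cs (rf (nat_lit 1)) (nd (nat_lit 231) (nat_lit 0) (cs (rf (nat_lit 2)) (cs (rf (nat_lit 3)) (nd (nat_lit 254) (nat_lit 0) (cs (rf (nat_lit 4)) (cs (rf (nat_lit 5)) (cs (rf (nat_lit 6)) (nd (nat_lit 232) (nat_lit 0) (cs (rf (nat_lit 7)) (nd (nat_lit 295) (nat_lit 0) (cs (nd (nat_lit 297) (nat_lit 0) (cs (nd (nat_lit 230) (nat_lit 0) (cs (lf (nat_lit 41) (nat_lit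 229)) (lf (nat_lit 29) (nat_lit 230)))) (cs (nd (nat_lit 210) (nat_lit 0) (cs (lf (nat_lit 31) (nat_lit 209)) (nd (nat_lit 166) (nat_lit 0) (cs (lf (nat_lit 37) (nat_lit 165)) (rf (nat_lit 8)))))) (rf (nat_lit 9))))) (cs (nd (nat_lit 297) (nat_lit 0) (cs (rf (nat_lit 10)) (cs (rf (nat_lit 9)) (nd (nat_lit 319) (nat_lit 0) (cs (lf (nat_lit 24) (nat_lit 230)) (nd (nat_lit 341) (nat_lit 0) (cs (lf (nat_lit 42) (nat_lit 274)) (nd (nat_lit 294) (nat_lit 0) (cs (rf (nat_lit 11)) (lf (nat_lit 5) (nat_lit 294))))))))))) (cs (nd (nat_lit 297) (nat_lit 0) (cs (rf (nat_lit 10)) (cs (rf (nat_lit 9)) (nd (nat_lit 272) (nat_lit 0) (cs (rf (nat_lit 12)) (cs (nd (nat_lit 298) (nat_lit 0) (cs (lf (nat_lit 22) (nat_lit 272)) (rf (nat_lit 13)))) (cs (nd (nat_lit 294) (nat_lit 0) (cs (lf (nat_lit 23) (nat_lit 271)) (nd (nat_lit 319) (nat_lit 0) (cs (lf (nat_lit 5) (nat_lit 294)) (nd (nat_lit 341) (nat_lit 0) (cs (lf (nat_lit 42) (nat_lit 274))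 (rf (nat_lit 14)))))))) (nd (nat_lit 273) (nat_lit 0) (cs (lf (nat_lit 12) (nat_lit 249)) (lf (nat_lit 18) (nat_lit 272))))))))))) (rf (nat_lit 15)))))))))))))))))) q86601 (by decide +kernel)
def q86645 : Q := Q.p (nat_lit 0x400003000000000000000000000000000000000000000000000000000000000000000) (nat_lit 0x80000600007c0001fc000eb8003ce001fc0001fc0005e0000400000000000000000000000000000000000000000) (nat_lit 15)
theorem c86645 : QOK q86645 := cut [q80881, q82280, q86313, q83984, q81834, q82202, q11808, q86581, q86612, q86572, q81708, q86623, q84946, q84951, q86624, q86631, q83979, q86325, q86429, q86385, q86638, q84410] ⟨c80881, c82280, c86313, c83984, c81834, c82202, c11808, c86581, c86612, c86572, c81708, c86623, c84946, c84951, c86624, c86631, c83979, c86325, c86429, c86385, c86638, c84410, trivial⟩ (nd (nat_lit 231) (nat_lit 0) (cs (rf (nat_lit 0)) (cs (rf (nat_lit 1)) (cs (nd (nat_lit 296) (nat_lit 0) (cs (lf (nat_lit 30)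 (nat_lit 230)) (nd (nat_lit 232) (nat_lit 0) (cs (rf (nat_lit 2)) (cs (nd (nat_lit 254) (nat_lit 0) (cs (rf (nat_lit 3)) (cs (nd (nat_lit 255) (nat_lit 0) (cs (rf (nat_lit 4)) (cs (rf (nat_lit 5)) (nd (nat_lit 250) (nat_lit 0) (cs (lf (nat_lit 13) (nat_lit 228)) (nd (nat_lit 277) (nat_lit 0) (cs (lf (nat_lit 5) (nat_lit 252)) (nd (nat_lit 321) (nat_lit 0) (cs (nd (nat_lit 210) (nat_lit 0) (cs (lf (nat_lit 24) (nat_lit 188)) (nd (nat_lit 297) (nat_lit 0) (cs (lf (nat_lit 31) (nat_lit 209)) (nd (nat_lit 319) (nat_lit 0) (cs (lf (nat_lit 24) (nat_lit 230)) (nd (nat_lit 341) (nat_lit 0) (cs (lf (nat_lit 42) (nat_lit 274)) (nd (nat_lit 320) (nat_lit 0) (cs (lf (nat_lit 18) (nat_lit 296)) (rf (nat_lit 6)))))))))))) (lf (nat_lit 43) (nat_lit 232))))))))))) (cs (nd (nat_lit 297) (nat_lit 0) (cs (rf (nat_lit 7)) (cs (nd (nat_lit 230) (nat_lit 0) (cs (lf (nat_lit 29) (nat_lit 230)) (nd (nat_lit 251) (nat_lit 0) (cs (lf (nat_lit 12)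 (nat_lit 228)) (rf (nat_lit 8)))))) (nd (nat_lit 250) (nat_lit 0) (cs (lf (nat_lit 13) (nat_lit 228)) (nd (nat_lit 275) (nat_lit 0) (cs (lf (nat_lit 35) (nat_lit 209)) (nd (nat_lit 208) (nat_lit 0) (cs (lf (nat_lit 25) (nat_lit 208)) (rf (nat_lit 9))))))))))) (nd (nat_lit 250) (nat_lit 0) (cs (lf (nat_lit 13) (nat_lit 228)) (nd (nat_lit 255) (nat_lit 0) (cs (lf (nat_lit 11) (nat_lit 251)) (rf (nat_lit 10)))))))))) (cs (rf (nat_lit 11)) (cs (nd (nat_lit 255) (nat_lit 0) (cs (rf (nat_lit 12)) (cs (rf (nat_lit 13)) (cs (nd (nat_lit 233) (nat_lit 0) (cs (lf (nat_lit 6) (nat_lit 230)) (nd (nat_lit 230) (nat_lit 0) (cs (lf (nat_lit 5) (nat_lit 230)) (nd (nat_lit 211) (nat_lit 0) (cs (lf (nat_lit 17) (nat_lit 208)) (nd (nat_lit 297) (nat_lit 0) (cs (lf (nat_lit 29) (nat_lit 230)) (rf (nat_lit 14)))))))))) (nd (nat_lit 254) (nat_lit 0) (cs (lf (nat_lit 11) (nat_lit 251)) (rf (nat_lit 10)))))))) (rf (nat_lit 15))))))))) (nd (nat_lit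 275) (nat_lit 0) (cs (nd (nat_lit 254) (nat_lit 0) (cs (rf (nat_lit 16)) (cs (rf (nat_lit 3)) (rf (nat_lit 17))))) (cs (rf (nat_lit 18)) (cs (nd (nat_lit 232) (nat_lit 0) (cs (rf (nat_lit 2)) (cs (rf (nat_lit 19)) (nd (nat_lit 209) (nat_lit 0) (cs (lf (nat_lit 36) (nat_lit 186)) (rf (nat_lit 20))))))) (nd (nat_lit 209) (nat_lit 0) (cs (lf (nat_lit 36) (nat_lit 186)) (nd (nat_lit 208) (nat_lit 0) (cs (lf (nat_lit 47) (nat_lit 186)) (nd (nat_lit 230) (nat_lit 0) (cs (lf (nat_lit 29) (nat_lit 208)) (rf (nat_lit 21)))))))))))))))) q86645 (by decide +kernel)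
def q86697 : Q := Q.p (nat_lit 0x400003000000000000000000000000000000000000000000000000000000000000000) (nat_lit 0xa0000380001f0000f00006b8001cc0007c0001f80003e0000b80000800000000000000000000000000000000000) (nat_lit 13)
theorem c86697 : QOK q86697 := cut [q80649, q81014, q81333, q86023, q79097, q84488, q86313, q2561, q80524, q80651, q86021, q86673, q86679, q83937, q42165, q86683, q84073] ⟨c80649, c81014, c81333, c86023, c79097, c84488, c86313, c2561, c80524, c80651, c86021, c86673, c86679, c83937, c42165, c86683, c84073, trivial⟩ (nd (nat_lit 296) (nat_lit 0) (cs (rf (nat_lit 0)) (cs (rf (nat_lit 1)) (cs (nd (nat_lit 230) (nat_lit 0) (cs (rf (nat_lit 2)) (cs (rf (nat_lit 3)) (cs (nd (nat_lit 297) (nat_lit 0) (cs (lf (nat_lit 29) (nat_lit 230)) (nd (nat_lit 231) (nat_lit 0) (cs (rf (nat_lit 4)) (nd (nat_lit 232) (nat_lit 0) (cs (rf (nat_lit 5)) (cs (rf (nat_lit 6)) (nd (nat_lit 250) (nat_lit 0) (cs (lf (nat_lit 13) (nat_lit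 228)) (nd (nat_lit 275) (nat_lit 0) (cs (rf (nat_lit 7)) (lf (nat_lit 35) (nat_lit 209))))))))))))) (cs (nd (nat_lit 208) (nat_lit 0) (cs (rf (nat_lit 8)) (cs (rf (nat_lit 9)) (cs (rf (nat_lit 10)) (nd (nat_lit 185) (nat_lit 0) (cs (lf (nat_lit 46) (nat_lit 185)) (nd (nat_lit 231) (nat_lit 0) (cs (lf (nat_lit 35) (nat_lit 208)) (rf (nat_lit 11)))))))))) (nd (nat_lit 231) (nat_lit 0) (cs (lf (nat_lit 35) (nat_lit 208)) (rf (nat_lit 12))))))))) (nd (nat_lit 319) (nat_lit 0) (cs (rf (nat_lit 13)) (cs (nd (nat_lit 318) (nat_lit 0) (cs (lf (nat_lit 29) (nat_lit 252)) (rf (nat_lit 14)))) (cs (nd (nat_lit 297) (nat_lit 0) (cs (lf (nat_lit 24) (nat_lit 230)) (rf (nat_lit 15)))) (nd (nat_lit 273) (nat_lit 0) (cs (rf (nat_lit 16)) (cs (nd (nat_lit 297) (nat_lit 0) (cs (lf (nat_lit 24) (nat_lit 230)) (nd (nat_lit 298) (nat_lit 0) (cs (lf (nat_lit 18) (nat_lit 273)) (nd (nat_lit 254) (nat_lit 0) (cs (lf (nat_lit 6) (nat_lit 251)) (nd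 (nat_lit 232) (nat_lit 0) (cs (lf (nat_lit 32) (nat_lit 231)) (nd (nat_lit 251) (nat_lit 0) (cs (lf (nat_lit 17) (nat_lit 229)) (nd (nat_lit 318) (nat_lit 0) (cs (lf (nat_lit 42) (nat_lit 251)) (nd (nat_lit 317) (nat_lit 0) (cs (lf (nat_lit 12) (nat_lit 294)) (lf (nat_lit 41) (nat_lit 251)))))))))))))))) (nd (nat_lit 297) (nat_lit 0) (cs (lf (nat_lit 24) (nat_lit 230)) (nd (nat_lit 298) (nat_lit 0) (cs (lf (nat_lit 18) (nat_lit 273)) (nd (nat_lit 272) (nat_lit 0) (cs (lf (nat_lit 0) (nat_lit 271)) (lf (nat_lit 3) (nat_lit 272))))))))))))))))))) q86697 (by decide +kernel)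
def q86786 : Q := Q.p (nat_lit 0x7000000000000000000000000000000000000000000000000000000000000000) (nat_lit 0x1c0000f00001f000efe0038f801dfe000280000a0000000000000000000000000000000000000000000000) (nat_lit 12)
theorem c86786 : QOK q86786 := cut [q82388, q83650, q86771, q86773, q86778, q86785] ⟨c82388, c83650, c86771, c86773, c86778, c86785, trivial⟩ (nd (nat_lit 251) (nat_lit 0) (cs (rf (nat_lit 0)) (cs (rf (nat_lit 1)) (cs (rf (nat_lit 2)) (cs (rf (nat_lit 3)) (cs (rf (nat_lit 4)) (rf (nat_lit 5)))))))) q86786 (by decide +kernel)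
def q86836 : Q := Q.p (nat_lit 0x3000008000000000000000000000000000000000000000000000000000000000) (nat_lit 0x700001c0001f00000f0001cc000f20003fc000ff0001f00007c00005000000000000000000000000000000) (nat_lit 14)
theorem c86836 : QOK q86836 := cut [q84387, q84405, q84406, q86313, q82302, q84346, q17544, q7464, q83621, q86796, q86821, q86823, q86829, q86834, q86835] ⟨c84387, c84405, c84406, c86313, c82302, c84346, c17544, c7464, c83621, c86796, c86821, c86823, c86829, c86834, c86835, trivial⟩ (nd (nat_lit 209) (nat_lit 0) (cs (rf (nat_lit 0)) (cs (rf (nat_lit 1)) (cs (rf (nat_lit 2)) (cs (nd (nat_lit 232) (nat_lit 0) (cs (rf (nat_lit 3)) (cs (nd (nat_lit 275) (nat_lit 0) (cs (rf (nat_lit 4)) (cs (rf (nat_lit 5)) (nd (nat_lit 274) (nat_lit 0) (cs (rf (nat_lit 6)) (nd (nat_lit 210) (nat_lit 0) (cs (rf (nat_lit 7)) (nd (nat_lit 251) (nat_lit 0) (cs (lf (nat_lit 12) (nat_lit 228)) (rf (nat_lit 8))))))))))) (cs (nd (nat_lit 210) (nat_lit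 0) (cs (rf (nat_lit 7)) (cs (nd (nat_lit 250) (nat_lit 0) (cs (lf (nat_lit 13) (nat_lit 228)) (rf (nat_lit 9)))) (rf (nat_lit 10))))) (rf (nat_lit 11)))))) (cs (rf (nat_lit 12)) (cs (rf (nat_lit 13)) (rf (nat_lit 14))))))))) q86836 (by decide +kernel)
def q86930 : Q := Q.p (nat_lit 0x3000008000000000000000000000000000000000000000000000000000000000) (nat_lit 0xf0001fc0007f0003ff800efc003cf001f6e003e8001ff0001f00007400000000000000000000000000000000000) (nat_lit 18)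
theorem c86930 : QOK q86930 := cut [q82275, q82278, q86882, q86735, q82301, q82309, q84332, q86847, q86884, q82318, q84367, q84372, q85209, q80823, q84969, q84968, q86907, q82586, q86913, q86921, q86924, q86927] ⟨c82275, c82278, c86882, c86735, c82301, c82309, c84332, c86847, c86884, c82318, c84367, c84372, c85209, c80823, c84969, c84968, c86907, c82586, c86913, c86921, c86924, c86927, trivial⟩ (nd (nat_lit 251) (nat_lit 0) (cs (rf (nat_lit 0)) (cs (rf (nat_lit 1)) (cs (rf (nat_lit 2)) (nd (nat_lit 254) (nat_lit 0) (cs (rf (nat_lit 3)) (cs (nd (nat_lit 209) (nat_lit 0) (cs (rf (nat_lit 4)) (cs (rf (nat_lit 5)) (cs (rf (nat_lit 6)) (nd (nat_lit 273) (nat_lit 0) (cs (lf (nat_lit 11) (nat_lit 250)) (nd (nat_lit 295) (nat_lit 0) (cs (rf (nat_lit 7)) (cs (nd (nat_lit 232) (nat_lit 0) (cs (lf (nat_lit 17) (nat_lit 229)) (nd (nat_lit 317) (nat_lit 0) (cs (lf (nat_lit 35) (nat_lit 229)) (nd (nat_lit 316) (nat_lit 0) (cs (lf (nat_lit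 41) (nat_lit 250)) (nd (nat_lit 229) (nat_lit 0) (cs (lf (nat_lit 40) (nat_lit 228)) (rf (nat_lit 8)))))))))) (cs (nd (nat_lit 275) (nat_lit 0) (cs (rf (nat_lit 9)) (cs (rf (nat_lit 10)) (cs (rf (nat_lit 11)) (cs (rf (nat_lit 12)) (nd (nat_lit 210) (nat_lit 0) (cs (lf (nat_lit 35) (nat_lit 187)) (nd (nat_lit 211) (nat_lit 0) (cs (rf (nat_lit 13)) (cs (rf (nat_lit 14)) (cs (nd (nat_lit 296) (nat_lit 0) (cs (lf (nat_lit 40) (nat_lit 208)) (nd (nat_lit 232) (nat_lit 0) (cs (lf (nat_lit 17) (nat_lit 229)) (nd (nat_lit 229) (nat_lit 0) (cs (lf (nat_lit 29) (nat_lit 229)) (lf (nat_lit 13) (nat_lit 207)))))))) (nd (nat_lit 212) (nat_lit 0) (cs (rf (nat_lit 15)) (cs (nd (nat_lit 190) (nat_lit 0) (cs (lf (nat_lit 17) (nat_lit 187)) (nd (nat_lit 234) (nat_lit 0) (cs (lf (nat_lit 5) (nat_lit 209)) (nd (nat_lit 233) (nat_lit 0) (cs (lf (nat_lit 8) (nat_lit 230)) (nd (nat_lit 168) (nat_lit 0) (cs (lf (nat_lit 36) (nat_lit 145)) (nd (nat_lit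 167) (nat_lit 0) (cs (lf (nat_lit 47) (nat_lit 145)) (nd (nat_lit 256) (nat_lit 0) (cs (lf (nat_lit 25) (nat_lit 167)) (nd (nat_lit 279) (nat_lit 0) (cs (lf (nat_lit 28) (nat_lit 190)) (nd (nat_lit 278) (nat_lit 0) (cs (lf (nat_lit 42) (nat_lit 211)) (lf (nat_lit 29) (nat_lit 212)))))))))))))))))) (nd (nat_lit 232) (nat_lit 0) (cs (lf (nat_lit 6) (nat_lit 209)) (lf (nat_lit 17) (nat_lit 229)))))))))))))))))) (cs (nd (nat_lit 232) (nat_lit 0) (cs (lf (nat_lit 17) (nat_lit 229)) (rf (nat_lit 16)))) (cs (nd (nat_lit 232) (nat_lit 0) (cs (lf (nat_lit 17) (nat_lit 229)) (nd (nat_lit 317) (nat_lit 0) (cs (lf (nat_lit 35) (nat_lit 229)) (nd (nat_lit 316) (nat_lit 0) (cs (lf (nat_lit 41) (nat_lit 250)) (nd (nat_lit 229) (nat_lit 0) (cs (lf (nat_lit 40) (nat_lit 228)) (rf (nat_lit 17)))))))))) (nd (nat_lit 232) (nat_lit 0) (cs (lf (nat_lit 17) (nat_lit 229)) (nd (nat_lit 317) (nat_lit 0) (cs (lf (nat_lit 35) (nat_lit 229)) (nd (nat_lit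 316) (nat_lit 0) (cs (lf (nat_lit 41) (nat_lit 250)) (nd (nat_lit 274) (nat_lit 0) (cs (lf (nat_lit 30) (nat_lit 251)) (rf (nat_lit 18)))))))))))))))))))))) (cs (nd (nat_lit 233) (nat_lit 0) (cs (lf (nat_lit 16) (nat_lit 229)) (nd (nat_lit 272) (nat_lit 0) (cs (lf (nat_lit 10) (nat_lit 250)) (rf (nat_lit 19)))))) (cs (nd (nat_lit 273) (nat_lit 0) (cs (lf (nat_lit 11) (nat_lit 250)) (rf (nat_lit 20)))) (nd (nat_lit 232) (nat_lit 0) (cs (lf (nat_lit 17) (nat_lit 229)) (rf (nat_lit 21))))))))))))) q86930 (by decide +kernel)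
def q87145 : Q := Q.p (nat_lit 0x3000006000000000000000000000000000000000000000000000000000000000) (nat_lit 0x300000c000008000798000ee0001a0000680000000000000000000000000000000000000000) (nat_lit 7)
theorem c87145 : QOK q87145 := cut [q84852, q87141, q87144] ⟨c84852, c87141, c87144, trivial⟩ (nd (nat_lit 231) (nat_lit 0) (cs (rf (nat_lit 0)) (cs (rf (nat_lit 1)) (rf (nat_lit 2))))) q87145 (by decide +kernel)
def q87167 : Q := Q.p (nat_lit 0x3000004000000000000000000000000000000000000000000000000000000000) (nat_lit 0xa0000380000e0000c8000338000f80007e0000380000a00000000000000000000000000000000000) (nat_lit 9)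
theorem c87167 : QOK q87167 := cut [q79029, q87126, q87163, q87165, q87166] ⟨c79029, c87126, c87163, c87165, c87166, trivial⟩ (nd (nat_lit 208) (nat_lit 0) (cs (rf (nat_lit 0)) (cs (rf (nat_lit 1)) (cs (rf (nat_lit 2)) (cs (rf (nat_lit 3)) (rf (nat_lit 4))))))) q87167 (by decide +kernel)
def q87302 : Q := Q.p (nat_lit 0x400003000000000000000000000000000000000000000000000000000000000000000) (nat_lit 0x40000b0000eae003cf001fbc003fc000fe0001f00007c00005000000000000000000000000000000) (nat_lit 15)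
theorem c87302 : QOK q87302 := cut [q80881, q84387, q84406, q86829, q86834, q86835, q86313, q82302, q79079, q7464, q86821, q87264, q86802, q86820, q82278, q87284, q83705, q87285, q80576, q81052, q87286, q79353, q87296, q83979] ⟨c80881, c84387, c84406, c86829, c86834, c86835, c86313, c82302, c79079, c7464, c86821, c87264, c86802, c86820, c82278, c87284, c83705, c87285, c80576, c81052, c87286, c79353, c87296, c83979, trivial⟩ (nd (nat_lit 231) (nat_lit 0) (cs (rf (nat_lit 0)) (cs (nd (nat_lit 209) (nat_lit 0) (cs (rf (nat_lit 1)) (cs (rf (nat_lit 2)) (cs (rf (nat_lit 3)) (cs (rf (nat_lit 4)) (cs (rf (nat_lit 5)) (nd (nat_lit 232) (nat_lit 0) (cs (rf (nat_lit 6)) (cs (nd (nat_lit 251) (nat_lit 0) (cs (lf (nat_lit 12) (nat_lit 228)) (nd (nat_lit 275) (nat_lit 0) (cs (rf (nat_lit 7)) (nd (nat_lit 208) (nat_lit 0) (cs (lf (nat_lit 47) (nat_lit 186)) (nd (nat_lit 207) (nat_lit 0) (cs (lf (nat_lit 0) (nat_lit 206)) (nd (nat_lit 229)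 (nat_lit 0) (cs (lf (nat_lit 24) (nat_lit 185)) (nd (nat_lit 254) (nat_lit 0) (cs (rf (nat_lit 8)) (lf (nat_lit 23) (nat_lit 228)))))))))))))) (cs (nd (nat_lit 210) (nat_lit 0) (cs (rf (nat_lit 9)) (cs (rf (nat_lit 10)) (nd (nat_lit 250) (nat_lit 0) (cs (lf (nat_lit 13) (nat_lit 228)) (rf (nat_lit 11))))))) (nd (nat_lit 210) (nat_lit 0) (cs (rf (nat_lit 9)) (cs (rf (nat_lit 11)) (nd (nat_lit 211) (nat_lit 0) (cs (rf (nat_lit 12)) (cs (rf (nat_lit 13)) (cs (nd (nat_lit 233) (nat_lit 0) (cs (lf (nat_lit 6) (nat_lit 230)) (nd (nat_lit 207) (nat_lit 0) (cs (lf (nat_lit 1) (nat_lit 207)) (nd (nat_lit 188) (nat_lit 0) (cs (lf (nat_lit 36) (nat_lit 165)) (nd (nat_lit 255) (nat_lit 0) (cs (lf (nat_lit 42) (nat_lit 188)) (nd (nat_lit 254) (nat_lit 0) (cs (lf (nat_lit 11) (nat_lit 251)) (nd (nat_lit 256) (nat_lit 0) (cs (lf (nat_lit 18) (nat_lit 231)) (nd (nat_lit 189) (nat_lit 0) (cs (lf (nat_lit 29) (nat_lit 189)) (lf (nat_lit 35)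 (nat_lit 166)))))))))))))))) (nd (nat_lit 166) (nat_lit 0) (cs (lf (nat_lit 37) (nat_lit 165)) (nd (nat_lit 212) (nat_lit 0) (cs (lf (nat_lit 6) (nat_lit 209)) (nd (nat_lit 190) (nat_lit 0) (cs (lf (nat_lit 17) (nat_lit 187)) (nd (nat_lit 189) (nat_lit 0) (cs (lf (nat_lit 12) (nat_lit 186)) (nd (nat_lit 167) (nat_lit 0) (cs (lf (nat_lit 36) (nat_lit 144)) (nd (nat_lit 233) (nat_lit 0) (cs (lf (nat_lit 47) (nat_lit 144)) (lf (nat_lit 41) (nat_lit 166))))))))))))))))))))))))))))))) (cs (nd (nat_lit 251) (nat_lit 0) (cs (rf (nat_lit 14)) (cs (rf (nat_lit 15)) (cs (nd (nat_lit 254) (nat_lit 0) (cs (rf (nat_lit 16)) (cs (rf (nat_lit 17)) (nd (nat_lit 255) (nat_lit 0) (cs (rf (nat_lit 18)) (cs (rf (nat_lit 19)) (cs (nd (nat_lit 296) (nat_lit 0) (cs (lf (nat_lit 30) (nat_lit 230)) (nd (nat_lit 187) (nat_lit 0) (cs (lf (nat_lit 37) (nat_lit 186)) (nd (nat_lit 228) (nat_lit 0) (cs (lf (nat_lit 22) (nat_lit 228)) (nd (nat_lit 278) (nat_lit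 0) (cs (lf (nat_lit 4) (nat_lit 252)) (nd (nat_lit 256) (nat_lit 0) (cs (lf (nat_lit 5) (nat_lit 253)) (rf (nat_lit 20)))))))))))) (nd (nat_lit 278) (nat_lit 0) (cs (lf (nat_lit 4) (nat_lit 252)) (nd (nat_lit 232) (nat_lit 0) (cs (lf (nat_lit 17) (nat_lit 229)) (rf (nat_lit 21))))))))))))) (nd (nat_lit 296) (nat_lit 0) (cs (lf (nat_lit 30) (nat_lit 230)) (nd (nat_lit 187) (nat_lit 0) (cs (lf (nat_lit 37) (nat_lit 186)) (rf (nat_lit 22)))))))))) (nd (nat_lit 251) (nat_lit 0) (cs (rf (nat_lit 14)) (cs (rf (nat_lit 15)) (cs (rf (nat_lit 22)) (nd (nat_lit 254) (nat_lit 0) (cs (rf (nat_lit 23)) (rf (nat_lit 17)))))))))))) q87302 (by decide +kernel)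
def q87343 : Q := Q.p (nat_lit 0x400003000000000000000000000000000000000000000000000000000000000000000) (nat_lit 0x80000a8000eae001cf0007fc001ff000ffc000e80002800000000000000000000000000000000000) (nat_lit 14)
theorem c87343 : QOK q87343 := cut [q83695, q83705, q83707, q83710, q81085, q83962, q87304, q87305, q79123, q79128, q81803, q11133, q79136, q80524, q83965, q79068, q86323, q87326, q87334, q83958, q87184] ⟨c83695, c83705, c83707, c83710, c81085, c83962, c87304, c87305, c79123, c79128, c81803, c11133, c79136, c80524, c83965, c79068, c86323, c87326, c87334, c83958, c87184, trivial⟩ (nd (nat_lit 254) (nat_lit 0) (cs (rf (nat_lit 0)) (cs (rf (nat_lit 1)) (cs (rf (nat_lit 2)) (cs (rf (nat_lit 3)) (nd (nat_lit 251) (nat_lit 0) (cs (rf (nat_lit 4)) (cs (rf (nat_lit 5)) (cs (rf (nat_lit 6)) (nd (nat_lit 232) (nat_lit 0) (cs (lf (nat_lit 17) (nat_lit 229)) (nd (nat_lit 230) (nat_lit 0) (cs (nd (nat_lit 229) (nat_lit 0) (cs (lf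 (nat_lit 23) (nat_lit 228)) (nd (nat_lit 207) (nat_lit 0) (cs (lf (nat_lit 24) (nat_lit 185)) (nd (nat_lit 206) (nat_lit 0) (cs (lf (nat_lit 19) (nat_lit 206)) (nd (nat_lit 204) (nat_lit 0) (cs (lf (nat_lit 1) (nat_lit 204)) (nd (nat_lit 273) (nat_lit 0) (cs (lf (nat_lit 47) (nat_lit 184)) (rf (nat_lit 7)))))))))))) (cs (nd (nat_lit 210) (nat_lit 0) (cs (rf (nat_lit 8)) (cs (rf (nat_lit 9)) (cs (nd (nat_lit 208) (nat_lit 0) (cs (rf (nat_lit 10)) (nd (nat_lit 209) (nat_lit 0) (cs (lf (nat_lit 35) (nat_lit 186)) (nd (nat_lit 207) (nat_lit 0) (cs (lf (nat_lit 47) (nat_lit 185)) (nd (nat_lit 273) (nat_lit 0) (cs (lf (nat_lit 41) (nat_lit 207)) (rf (nat_lit 11)))))))))) (nd (nat_lit 187) (nat_lit 0) (cs (rf (nat_lit 12)) (cs (nd (nat_lit 209) (nat_lit 0) (cs (lf (nat_lit 38) (nat_lit 186)) (lf (nat_lit 33) (nat_lit 186)))) (nd (nat_lit 165) (nat_lit 0) (cs (lf (nat_lit 45) (nat_lit 165)) (nd (nat_lit 208) (nat_lit 0) (cs (lf (nat_lit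 34) (nat_lit 186)) (lf (nat_lit 33) (nat_lit 164))))))))))))) (cs (nd (nat_lit 208) (nat_lit 0) (cs (rf (nat_lit 13)) (cs (rf (nat_lit 10)) (nd (nat_lit 229) (nat_lit 0) (cs (lf (nat_lit 23) (nat_lit 228)) (nd (nat_lit 185) (nat_lit 0) (cs (lf (nat_lit 25) (nat_lit 185)) (rf (nat_lit 14))))))))) (cs (nd (nat_lit 275) (nat_lit 0) (cs (rf (nat_lit 15)) (cs (rf (nat_lit 16)) (nd (nat_lit 210) (nat_lit 0) (cs (lf (nat_lit 36) (nat_lit 187)) (nd (nat_lit 208) (nat_lit 0) (cs (lf (nat_lit 24) (nat_lit 186)) (nd (nat_lit 273) (nat_lit 0) (cs (lf (nat_lit 41) (nat_lit 207)) (nd (nat_lit 185) (nat_lit 0) (cs (lf (nat_lit 46) (nat_lit 185)) (nd (nat_lit 209) (nat_lit 0) (cs (lf (nat_lit 35) (nat_lit 186)) (rf (nat_lit 17))))))))))))))) (cs (nd (nat_lit 229) (nat_lit 0) (cs (lf (nat_lit 23) (nat_lit 228)) (nd (nat_lit 207) (nat_lit 0) (cs (lf (nat_lit 24) (nat_lit 185)) (nd (nat_lit 231) (nat_lit 0) (cs (lf (nat_lit 23) (nat_lit 206))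 (nd (nat_lit 187) (nat_lit 0) (cs (lf (nat_lit 37) (nat_lit 186)) (rf (nat_lit 18)))))))))) (nd (nat_lit 208) (nat_lit 0) (cs (rf (nat_lit 10)) (cs (rf (nat_lit 19)) (rf (nat_lit 20)))))))))))))))))))))) q87343 (by decide +kernel)
def q87350 : Q := Q.p (nat_lit 0x100000400003000004000000000000000000000000000000000000000000000000000000000) (nat_lit 0x1a0001ee0006a0001cc000780001e0000380000800000000000000000000000000000000000000000) (nat_lit 12)
theorem c87350 : QOK q87350 := cut [q79097, q84488, q87131, q87344] ⟨c79097, c84488, c87131, c87344, trivial⟩ (nd (nat_lit 295) (nat_lit 0) (cs (lf (nat_lit 41) (nat_lit 229)) (nd (nat_lit 297) (nat_lit 0) (cs (lf (nat_lit 29) (nat_lit 230)) (nd (nat_lit 231) (nat_lit 0) (cs (rf (nat_lit 0)) (nd (nat_lit 232) (nat_lit 0) (cs (rf (nat_lit 1)) (cs (rf (nat_lit 2)) (nd (nat_lit 250) (nat_lit 0) (cs (lf (nat_lit 13) (nat_lit 228)) (nd (nat_lit 275) (nat_lit 0) (cs (lf (nat_lit 35) (nat_lit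 209)) (rf (nat_lit 3))))))))))))))) q87350 (by decide +kernel)
def q87377 : Q := Q.p (nat_lit 0x400003000000000000000000000000000000000000000000000000000000000000000) (nat_lit 0x80000300000e0000ff0003fc000fe0000a0000c80000f800018000060000000000000000000000000000000000000000000000) (nat_lit 12)
theorem c87377 : QOK q87377 := cut [q83915, q83952, q82288, q83724, q87372, q87376] ⟨c83915, c83952, c82288, c83724, c87372, c87376, trivial⟩ (nd (nat_lit 296) (nat_lit 0) (cs (rf (nat_lit 0)) (cs (rf (nat_lit 1)) (cs (nd (nat_lit 230) (nat_lit 0) (cs (rf (nat_lit 2)) (rf (nat_lit 3)))) (cs (rf (nat_lit 4)) (rf (nat_lit 5))))))) q87377 (by decide +kernel)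
def q87414 : Q := Q.p (nat_lit 0x3000004000000000000000000000000000000000000000000000000000000000) (nat_lit 0x80000380000e0000380000c0000c8000338000fc0007e0000380000e00002800000000000000000000000000000) (nat_lit 11)
theorem c87414 : QOK q87414 := cut [q79029, q87394, q87397, q87400, q423, q499, q87396, q87399, q78937, q1061] ⟨c79029, c87394, c87397, c87400, c423, c499, c87396, c87399, c78937, c1061, trivial⟩ (nd (nat_lit 208) (nat_lit 0) (cs (rf (nat_lit 0)) (cs (rf (nat_lit 1)) (cs (rf (nat_lit 2)) (cs (rf (nat_lit 3)) (nd (nat_lit 186) (nat_lit 0) (cs (rf (nat_lit 4)) (cs (rf (nat_lit 5)) (cs (rf (nat_lit 6)) (cs (rf (nat_lit 7)) (cs (nd (nat_lit 165) (nat_lit 0) (cs (lf (nat_lit 34) (nat_lit 164)) (nd (nat_lit 164) (nat_lit 0) (cs (lf (nat_lit 35) (nat_lit 142)) (nd (nat_lit 229) (nat_lit 0) (cs (lf (nat_lit 41) (nat_lit 163)) (nd (nat_lit 254) (nat_lit 0) (cs (lf (nat_lit 18) (nat_lit 229)) (nd (nat_lit 227) (nat_lit 0)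 (cs (lf (nat_lit 1) (nat_lit 227)) (rf (nat_lit 8)))))))))))) (nd (nat_lit 163) (nat_lit 0) (cs (lf (nat_lit 46) (nat_lit 163)) (nd (nat_lit 164) (nat_lit 0) (cs (lf (nat_lit 47) (nat_lit 141)) (nd (nat_lit 229) (nat_lit 0) (cs (lf (nat_lit 41) (nat_lit 163)) (nd (nat_lit 254) (nat_lit 0) (cs (lf (nat_lit 18) (nat_lit 229)) (nd (nat_lit 228) (nat_lit 0) (cs (lf (nat_lit 0) (nat_lit 227)) (nd (nat_lit 207) (nat_lit 0) (cs (lf (nat_lit 36) (nat_lit 141)) (nd (nat_lit 209) (nat_lit 0) (cs (rf (nat_lit 9)) (lf (nat_lit 6) (nat_lit 206))))))))))))))))))))))))))) q87414 (by decide +kernel)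
def q87427 : Q := Q.p (nat_lit 0x3000004000000000000000000000000000000000000000000000000000000000) (nat_lit 0x80000380000e0000380000c0000c8000f9c0007e0003fc000380000a00000000000000000000000000000000000) (nat_lit 11)
theorem c87427 : QOK q87427 := cut [q6259, q79029, q79066, q87244, q85711, q87393, q87416, q87422, q87424] ⟨c6259, c79029, c79066, c87244, c85711, c87393, c87416, c87422, c87424, trivial⟩ (nd (nat_lit 208) (nat_lit 0) (cs (rf (nat_lit 0)) (cs (rf (nat_lit 1)) (cs (rf (nat_lit 2)) (cs (rf (nat_lit 3)) (nd (nat_lit 274) (nat_lit 0) (cs (rf (nat_lit 4)) (cs (rf (nat_lit 5)) (cs (nd (nat_lit 185) (nat_lit 0) (cs (lf (nat_lit 46) (nat_lit 185)) (rf (nat_lit 6)))) (cs (rf (nat_lit 7)) (nd (nat_lit 185) (nat_lit 0) (cs (lf (nat_lit 46) (nat_lit 185)) (rf (nat_lit 8)))))))))))))) q87427 (by decide +kernel)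
def q87444 : Q := Q.p (nat_lit 0x7000004000000000000000000000000000000000000000000000000000000000) (nat_lit 0x100000dc0000f0003bc000cc0003a0000e80002800000000000000000000000000000000000) (nat_lit 9)
theorem c87444 : QOK q87444 := cut [q2065, q2623, q79022, q87433, q87437, q87441] ⟨c2065, c2623, c79022, c87433, c87437, c87441, trivial⟩ (nd (nat_lit 251) (nat_lit 0) (cs (nd (nat_lit 232) (nat_lit 0) (cs (lf (nat_lit 17) (nat_lit 229)) (nd (nat_lit 250) (nat_lit 0) (cs (rf (nat_lit 0)) (lf (nat_lit 16) (nat_lit 228)))))) (cs (nd (nat_lit 250) (nat_lit 0) (cs (rf (nat_lit 1)) (cs (rf (nat_lit 2)) (nd (nat_lit 232) (nat_lit 0) (cs (lf (nat_lit 17) (nat_lit 229)) (rf (nat_lit 3))))))) (cs (rf (nat_lit 4)) (cs (nd (nat_lit 232) (nat_lit 0) (cs (lf (nat_lit 17) (nat_lit 229)) (nd (nat_lit 250) (nat_lit 0) (cs (lf (nat_lit 16) (nat_lit 228)) (rf (nat_lit 3)))))) (nd (nat_lit 228) (nat_lit 0) (cs (lf (nat_lit 22) (nat_lit 228)) (nd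 (nat_lit 250) (nat_lit 0) (cs (lf (nat_lit 23) (nat_lit 227)) (rf (nat_lit 5))))))))))) q87444 (by decide +kernel)
def q87574 : Q := Q.p (nat_lit 0x3000004000000000000000000000000000000000000000000000000000000000) (nat_lit 0xc0000340000dc001cf000fbc001ff00017c0007c0000f00002000000000000000000000000000000) (nat_lit 15)
theorem c87574 : QOK q87574 := cut [q79066, q87400, q87534, q1411, q87536, q83712, q87161, q85708, q87159, q87537, q24933, q87550, q6938, q87531, q5404, q84623, q87559, q24650, q84423, q87573] ⟨c79066, c87400, c87534, c1411, c87536, c83712, c87161, c85708, c87159, c87537, c24933, c87550, c6938, c87531, c5404, c84623, c87559, c24650, c84423, c87573, trivial⟩ (nd (nat_lit 208) (nat_lit 0) (cs (rf (nat_lit 0)) (cs (rf (nat_lit 1)) (cs (rf (nat_lit 2)) (cs (nd (nat_lit 207) (nat_lit 0) (cs (rf (nat_lit 3)) (cs (rf (nat_lit 4)) (cs (nd (nat_lit 229) (nat_lit 0) (cs (rf (nat_lit 5)) (cs (rf (nat_lit 6)) (cs (nd (nat_lit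 232) (nat_lit 0) (cs (rf (nat_lit 7)) (cs (rf (nat_lit 8)) (cs (nd (nat_lit 274) (nat_lit 0) (cs (lf (nat_lit 42) (nat_lit 207)) (nd (nat_lit 275) (nat_lit 0) (cs (lf (nat_lit 29) (nat_lit 208)) (nd (nat_lit 254) (nat_lit 0) (cs (lf (nat_lit 18) (nat_lit 229)) (nd (nat_lit 233) (nat_lit 0) (cs (lf (nat_lit 12) (nat_lit 229)) (rf (nat_lit 9)))))))))) (nd (nat_lit 254) (nat_lit 0) (cs (lf (nat_lit 18) (nat_lit 229)) (nd (nat_lit 206) (nat_lit 0) (cs (lf (nat_lit 19) (nat_lit 206)) (nd (nat_lit 205) (nat_lit 0) (cs (lf (nat_lit 0) (nat_lit 204)) (nd (nat_lit 274) (nat_lit 0) (cs (lf (nat_lit 42) (nat_lit 207)) (nd (nat_lit 275) (nat_lit 0) (cs (lf (nat_lit 29) (nat_lit 208)) (nd (nat_lit 188) (nat_lit 0) (cs (rf (nat_lit 10)) (lf (nat_lit 37) (nat_lit 187)))))))))))))))))) (cs (rf (nat_lit 11)) (nd (nat_lit 231) (nat_lit 0) (cs (rf (nat_lit 12)) (cs (rf (nat_lit 13)) (nd (nat_lit 228) (nat_lit 0) (cs (lf (nat_lit 0) (nat_lit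 227)) (nd (nat_lit 275) (nat_lit 0) (cs (lf (nat_lit 42) (nat_lit 208)) (nd (nat_lit 209) (nat_lit 0) (cs (lf (nat_lit 6) (nat_lit 206)) (nd (nat_lit 274) (nat_lit 0) (cs (lf (nat_lit 41) (nat_lit 208)) (nd (nat_lit 206) (nat_lit 0) (cs (lf (nat_lit 23) (nat_lit 205)) (nd (nat_lit 249) (nat_lit 0) (cs (lf (nat_lit 10) (nat_lit 227)) (rf (nat_lit 14)))))))))))))))))))))) (nd (nat_lit 231) (nat_lit 0) (cs (rf (nat_lit 12)) (cs (rf (nat_lit 15)) (cs (nd (nat_lit 228) (nat_lit 0) (cs (rf (nat_lit 16)) (cs (nd (nat_lit 275) (nat_lit 0) (cs (lf (nat_lit 42) (nat_lit 208)) (nd (nat_lit 206) (nat_lit 0) (cs (lf (nat_lit 0) (nat_lit 205)) (nd (nat_lit 209) (nat_lit 0) (cs (lf (nat_lit 11) (nat_lit 205)) (rf (nat_lit 17)))))))) (nd (nat_lit 205) (nat_lit 0) (cs (lf (nat_lit 1) (nat_lit 205)) (nd (nat_lit 229) (nat_lit 0) (cs (lf (nat_lit 5) (nat_lit 228)) (nd (nat_lit 250) (nat_lit 0) (cs (lf (nat_lit 11) (nat_lit 227)) (nd (nat_lit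 209) (nat_lit 0) (cs (lf (nat_lit 17) (nat_lit 206)) (nd (nat_lit 272) (nat_lit 0) (cs (lf (nat_lit 30) (nat_lit 206)) (nd (nat_lit 185) (nat_lit 0) (cs (lf (nat_lit 24) (nat_lit 163)) (lf (nat_lit 39) (nat_lit 184))))))))))))))))) (nd (nat_lit 229) (nat_lit 0) (cs (rf (nat_lit 5)) (cs (rf (nat_lit 18)) (rf (nat_lit 13))))))))))))) (rf (nat_lit 19))))))) q87574 (by decide +kernel)
def q87597 : Q := Q.p (nat_lit 0x3000004000000000000000000000000000000000000000000000000000000000) (nat_lit 0x20000090000ce000fb8003fe0007f8001fe0002a00000000000000000000000000000000000) (nat_lit 14)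
theorem c87597 : QOK q87597 := cut [q83712, q87161, q79029, q79066, q87579, q87582, q84909, q87144, q87531] ⟨c83712, c87161, c79029, c79066, c87579, c87582, c84909, c87144, c87531, trivial⟩ (nd (nat_lit 229) (nat_lit 0) (cs (rf (nat_lit 0)) (cs (rf (nat_lit 1)) (cs (nd (nat_lit 254) (nat_lit 0) (cs (lf (nat_lit 18) (nat_lit 229)) (nd (nat_lit 208) (nat_lit 0) (cs (rf (nat_lit 2)) (cs (rf (nat_lit 3)) (cs (rf (nat_lit 4)) (rf (nat_lit 5)))))))) (nd (nat_lit 231) (nat_lit 0) (cs (rf (nat_lit 6)) (cs (rf (nat_lit 7)) (cs (rf (nat_lit 8)) (nd (nat_lit 228) (nat_lit 0) (cs (lf (nat_lit 0) (nat_lit 227)) (nd (nat_lit 209) (nat_lit 0) (cs (lf (nat_lit 17) (nat_lit 206)) (nd (nat_lit 187) (nat_lit 0) (cs (lf (nat_lit 36) (nat_lit 164)) (nd (nat_lit 249) (nat_lit 0) (cs (lf (nat_lit 10) (nat_lit 227)) (nd (nat_lit 166) (nat_lit 0) (cs (lf (nat_lit 34) (nat_lit 165)) (nd (nat_lit 206) (nat_lit 0) (cs (lf (nat_lit 23) (nat_lit 205))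 (nd (nat_lit 186) (nat_lit 0) (cs (lf (nat_lit 47) (nat_lit 164)) (nd (nat_lit 208) (nat_lit 0) (cs (lf (nat_lit 42) (nat_lit 186)) (nd (nat_lit 185) (nat_lit 0) (cs (lf (nat_lit 47) (nat_lit 163)) (nd (nat_lit 184) (nat_lit 0) (cs (lf (nat_lit 0) (nat_lit 183)) (nd (nat_lit 162) (nat_lit 0) (cs (lf (nat_lit 23) (nat_lit 161)) (lf (nat_lit 29) (nat_lit 162)))))))))))))))))))))))))))))))) q87597 (by decide +kernel)
def q87630 : Q := Q.p (nat_lit 0x3000004000000000000000000000000000000000000000000000000000000000) (nat_lit 0xe0000380000c0000c8000fb8000ff0003dc000f80003e0000a800000000000000000000000000000) (nat_lit 11)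
theorem c87630 : QOK q87630 := cut [q6259, q87397, q87619, q10803, q87610, q87629] ⟨c6259, c87397, c87619, c10803, c87610, c87629, trivial⟩ (nd (nat_lit 208) (nat_lit 0) (cs (rf (nat_lit 0)) (cs (rf (nat_lit 1)) (cs (rf (nat_lit 2)) (cs (nd (nat_lit 209) (nat_lit 0) (cs (rf (nat_lit 3)) (cs (rf (nat_lit 4)) (nd (nat_lit 274) (nat_lit 0) (cs (lf (nat_lit 35) (nat_lit 186)) (nd (nat_lit 297) (nat_lit 0) (cs (lf (nat_lit 28) (nat_lit 208)) (nd (nat_lit 296) (nat_lit 0) (cs (lf (nat_lit 29) (nat_lit 230)) (nd (nat_lit 295) (nat_lit 0) (cs (lf (nat_lit 41) (nat_lit 229)) (nd (nat_lit 229) (nat_lit 0) (cs (lf (nat_lit 47) (nat_lit 207)) (nd (nat_lit 210) (nat_lit 0) (cs (lf (nat_lit 6) (nat_lit 207)) (nd (nat_lit 254) (nat_lit 0) (cs (lf (nat_lit 18) (nat_lit 229)) (nd (nat_lit 251) (nat_lit 0) (cs (lf (nat_lit 42) (nat_lit 229)) (lf (nat_lit 23) (nat_lit 228))))))))))))))))))))) (rf (nat_lit 5))))))) q87630 (by decide +kernel)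
def q87681 : Q := Q.p (nat_lit 0x300000c000000000000000000000000000000000000000000000000000000000) (nat_lit 0x1000004000000000300000fe0007f8000780000a00000000000000000000000000000000000) (nat_lit 8)
theorem c87681 : QOK q87681 := cut [q84993, q85008, q85011, q87244, q10803, q84998, q87241, q87680] ⟨c84993, c85008, c85011, c87244, c10803, c84998, c87241, c87680, trivial⟩ (nd (nat_lit 208) (nat_lit 0) (cs (rf (nat_lit 0)) (cs (rf (nat_lit 1)) (cs (rf (nat_lit 2)) (cs (rf (nat_lit 3)) (cs (nd (nat_lit 209) (nat_lit 0) (cs (rf (nat_lit 4)) (cs (rf (nat_lit 5)) (rf (nat_lit 6))))) (rf (nat_lit 7)))))))) q87681 (by decide +kernel)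
def q87779 : Q := Q.p (nat_lit 0x3000004000000000000000000000000000000000000000000000000000000000) (nat_lit 0x80000380000e0000380000c0000c8000fb8000ff0007fc000f00003c0000a000000000000000000000000000000) (nat_lit 11)
theorem c87779 : QOK q87779 := cut [q6259, q87394, q87573, q87619] ⟨c6259, c87394, c87573, c87619, trivial⟩ (nd (nat_lit 208) (nat_lit 0) (cs (rf (nat_lit 0)) (cs (rf (nat_lit 1)) (cs (rf (nat_lit 2)) (rf (nat_lit 3)))))) q87779 (by decide +kernel)
def q87804 : Q := Q.p (nat_lit 0x3000004000000000000000000000000000000000000000000000000000000000) (nat_lit 0x80000380000e0000380000dc000cf000fbc001ff0000fc0003c0000b00000000000000000000000000000000000) (nat_lit 13)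
theorem c87804 : QOK q87804 := cut [q6259, q79029, q87534, q83712, q87550, q1411, q1410, q85708, q5431, q4253, q87790, q10794, q84155, q87416, q87424, q87798] ⟨c6259, c79029, c87534, c83712, c87550, c1411, c1410, c85708, c5431, c4253, c87790, c10794, c84155, c87416, c87424, c87798, trivial⟩ (nd (nat_lit 208) (nat_lit 0) (cs (rf (nat_lit 0)) (cs (rf (nat_lit 1)) (cs (rf (nat_lit 2)) (nd (nat_lit 229) (nat_lit 0) (cs (rf (nat_lit 3)) (cs (rf (nat_lit 4)) (cs (nd (nat_lit 207) (nat_lit 0) (cs (rf (nat_lit 5)) (cs (nd (nat_lit 185) (nat_lit 0) (cs (rf (nat_lit 6)) (nd (nat_lit 232) (nat_lit 0) (cs (rf (nat_lit 7)) (cs (nd (nat_lit 254) (nat_lit 0) (cs (lf (nat_lit 18) (nat_lit 229)) (nd (nat_lit 251) (nat_lit 0) (cs (lf (nat_lit 17) (nat_lit 229)) (nd (nat_lit 250) (nat_lit 0) (cs (lf (nat_lit 41) (nat_lit 184)) (nd (nat_lit 248) (nat_lit 0) (cs (lf (nat_lit 13) (nat_lit 226)) (rf (nat_lit 8)))))))))) (cs (nd (nat_lit 206) (nat_lit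 0) (cs (lf (nat_lit 19) (nat_lit 206)) (nd (nat_lit 205) (nat_lit 0) (cs (lf (nat_lit 0) (nat_lit 204)) (nd (nat_lit 183) (nat_lit 0) (cs (lf (nat_lit 23) (nat_lit 182)) (nd (nat_lit 226) (nat_lit 0) (cs (lf (nat_lit 10) (nat_lit 204)) (nd (nat_lit 184) (nat_lit 0) (cs (lf (nat_lit 18) (nat_lit 183)) (rf (nat_lit 9)))))))))))) (rf (nat_lit 10)))))))) (nd (nat_lit 254) (nat_lit 0) (cs (lf (nat_lit 18) (nat_lit 229)) (nd (nat_lit 274) (nat_lit 0) (cs (lf (nat_lit 42) (nat_lit 207)) (nd (nat_lit 275) (nat_lit 0) (cs (lf (nat_lit 29) (nat_lit 208)) (nd (nat_lit 209) (nat_lit 0) (cs (lf (nat_lit 35) (nat_lit 186)) (rf (nat_lit 11))))))))))))) (nd (nat_lit 274) (nat_lit 0) (cs (rf (nat_lit 12)) (cs (rf (nat_lit 13)) (cs (rf (nat_lit 14)) (nd (nat_lit 228) (nat_lit 0) (cs (lf (nat_lit 0) (nat_lit 227)) (nd (nat_lit 185) (nat_lit 0) (cs (lf (nat_lit 46) (nat_lit 185)) (nd (nat_lit 275) (nat_lit 0) (cs (lf (nat_lit 29) (nat_lit 208))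 (rf (nat_lit 15)))))))))))))))))))) q87804 (by decide +kernel)
def q87936 : Q := Q.p (nat_lit 0x300000c000000000000000000000000000000000000000000000000000000000) (nat_lit 0x100001c0000780000e0003380000e0000300000c0000000000000000000000000000000000000000) (nat_lit 8)
theorem c87936 : QOK q87936 := cut [q84909, q87141, q426, q87917, q87919, q87922, q87925, q87935] ⟨c84909, c87141, c426, c87917, c87919, c87922, c87925, c87935, trivial⟩ (nd (nat_lit 229) (nat_lit 0) (cs (rf (nat_lit 0)) (cs (rf (nat_lit 1)) (cs (nd (nat_lit 251) (nat_lit 0) (cs (rf (nat_lit 2)) (cs (rf (nat_lit 3)) (rf (nat_lit 4))))) (cs (rf (nat_lit 5)) (cs (rf (nat_lit 6)) (rf (nat_lit 7)))))))) q87936 (by decide +kernel)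
def q87975 : Q := Q.p (nat_lit 0x3000004000000000000000000000000000000000000000000000000000000000) (nat_lit 0xb00002c0002b80018e0007b8003fe0007f80007e0001c00006000000000000000000000000000000) (nat_lit 14)
theorem c87975 : QOK q87975 := cut [q87815, q84332, q84608, q85459, q85461, q85464, q85466, q84518, q85473, q1563, q85001, q86958, q84909, q87922, q87925, q87935, q426, q87919, q87951, q87953, q57663, q87131, q12207, q12221, q87955, q87974] ⟨c87815, c84332, c84608, c85459, c85461, c85464, c85466, c84518, c85473, c1563, c85001, c86958, c84909, c87922, c87925, c87935, c426, c87919, c87951, c87953, c57663, c87131, c12207, c12221, c87955, c87974, trivial⟩ (nd (nat_lit 231) (nat_lit 0) (cs (rf (nat_lit 0)) (cs (nd (nat_lit 209) (nat_lit 0) (cs (rf (nat_lit 1)) (cs (rf (nat_lit 2)) (cs (rf (nat_lit 3)) (cs (rf (nat_lit 4)) (cs (rf (nat_lit 5)) (rf (nat_lit 6)))))))) (cs (nd (nat_lit 209) (nat_lit 0) (cs (rf (nat_lit 1)) (cs (rf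 (nat_lit 7)) (cs (rf (nat_lit 5)) (cs (rf (nat_lit 6)) (cs (rf (nat_lit 8)) (nd (nat_lit 208) (nat_lit 0) (cs (rf (nat_lit 9)) (cs (rf (nat_lit 10)) (rf (nat_lit 11))))))))))) (cs (nd (nat_lit 229) (nat_lit 0) (cs (rf (nat_lit 12)) (cs (rf (nat_lit 13)) (cs (rf (nat_lit 14)) (cs (rf (nat_lit 15)) (cs (nd (nat_lit 251) (nat_lit 0) (cs (rf (nat_lit 16)) (cs (rf (nat_lit 17)) (rf (nat_lit 18))))) (rf (nat_lit 19)))))))) (cs (nd (nat_lit 232) (nat_lit 0) (cs (rf (nat_lit 20)) (cs (rf (nat_lit 21)) (nd (nat_lit 210) (nat_lit 0) (cs (rf (nat_lit 22)) (cs (rf (nat_lit 23)) (nd (nat_lit 250) (nat_lit 0) (cs (lf (nat_lit 13) (nat_lit 228)) (nd (nat_lit 275) (nat_lit 0) (cs (lf (nat_lit 30) (nat_lit 209)) (nd (nat_lit 186) (nat_lit 0) (cs (lf (nat_lit 25) (nat_lit 186)) (nd (nat_lit 166) (nat_lit 0) (cs (lf (nat_lit 37) (nat_lit 165)) (rf (nat_lit 24)))))))))))))))) (rf (nat_lit 25)))))))) q87975 (by decide +kernel)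
def q88065 : Q := Q.p (nat_lit 0x3000004000010000000000000000000000000000000000000000000000000000) (nat_lit 0x800003c0000f00003e0002fc0018e0007bc001e6000790001e00005800000000000000000000000000000000000) (nat_lit 16)
theorem c88065 : QOK q88065 := cut [q83956, q87234, q87416, q87424, q88019, q57664, q88025, q84424, q57683, q10803, q57694, q57684, q57690, q57696, q88039, q88047, q2623, q12247, q87441, q10046, q13431, q88045] ⟨c83956, c87234, c87416, c87424, c88019, c57664, c88025, c84424, c57683, c10803, c57694, c57684, c57690, c57696, c88039, c88047, c2623, c12247, c87441, c10046, c13431, c88045, trivial⟩ (nd (nat_lit 274) (nat_lit 0) (cs (rf (nat_lit 0)) (cs (rf (nat_lit 1)) (cs (rf (nat_lit 2)) (cs (rf (nat_lit 3)) (cs (rf (nat_lit 4)) (nd (nat_lit 250) (nat_lit 0) (cs (nd (nat_lit 275) (nat_lit 0) (cs (lf (nat_lit 29) (nat_lit 208)) (nd (nat_lit 249) (nat_lit 0) (cs (lf (nat_lit 2) (nat_lit 249)) (nd (nat_lit 273) (nat_lit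 0) (cs (lf (nat_lit 41) (nat_lit 207)) (lf (nat_lit 21) (nat_lit 249)))))))) (cs (nd (nat_lit 231) (nat_lit 0) (cs (rf (nat_lit 5)) (cs (rf (nat_lit 6)) (cs (nd (nat_lit 232) (nat_lit 0) (cs (lf (nat_lit 13) (nat_lit 228)) (nd (nat_lit 211) (nat_lit 0) (cs (rf (nat_lit 7)) (cs (nd (nat_lit 209) (nat_lit 0) (cs (lf (nat_lit 35) (nat_lit 186)) (nd (nat_lit 275) (nat_lit 0) (cs (lf (nat_lit 42) (nat_lit 208)) (rf (nat_lit 8)))))) (nd (nat_lit 209) (nat_lit 0) (cs (rf (nat_lit 9)) (nd (nat_lit 189) (nat_lit 0) (cs (rf (nat_lit 10)) (cs (nd (nat_lit 275) (nat_lit 0) (cs (lf (nat_lit 42) (nat_lit 208)) (rf (nat_lit 11)))) (cs (nd (nat_lit 275) (nat_lit 0) (cs (lf (nat_lit 42) (nat_lit 208)) (nd (nat_lit 273) (nat_lit 0) (cs (lf (nat_lit 41) (nat_lit 207)) (nd (nat_lit 271) (nat_lit 0) (cs (lf (nat_lit 13) (nat_lit 249)) (rf (nat_lit 12)))))))) (nd (nat_lit 233) (nat_lit 0) (cs (lf (nat_lit 6) (nat_lit 230)) (nd (nat_lit 275) (nat_lit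 0) (cs (lf (nat_lit 29) (nat_lit 208)) (rf (nat_lit 13))))))))))))))))) (nd (nat_lit 187) (nat_lit 0) (cs (lf (nat_lit 37) (nat_lit 186)) (nd (nat_lit 251) (nat_lit 0) (cs (lf (nat_lit 17) (nat_lit 228)) (nd (nat_lit 275) (nat_lit 0) (cs (lf (nat_lit 42) (nat_lit 208)) (nd (nat_lit 227) (nat_lit 0) (cs (lf (nat_lit 22) (nat_lit 227)) (rf (nat_lit 14)))))))))))))) (cs (nd (nat_lit 209) (nat_lit 0) (cs (lf (nat_lit 35) (nat_lit 186)) (nd (nat_lit 275) (nat_lit 0) (cs (lf (nat_lit 29) (nat_lit 208)) (nd (nat_lit 251) (nat_lit 0) (cs (lf (nat_lit 0) (nat_lit 249)) (rf (nat_lit 15)))))))) (cs (nd (nat_lit 251) (nat_lit 0) (cs (rf (nat_lit 16)) (cs (rf (nat_lit 17)) (cs (rf (nat_lit 18)) (nd (nat_lit 273) (nat_lit 0) (cs (lf (nat_lit 41) (nat_lit 207)) (nd (nat_lit 271) (nat_lit 0) (cs (lf (nat_lit 13) (nat_lit 249)) (nd (nat_lit 228) (nat_lit 0) (cs (lf (nat_lit 23) (nat_lit 227)) (nd (nat_lit 209) (nat_lit 0) (cs (lf (nat_lit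 35) (nat_lit 186)) (nd (nat_lit 231) (nat_lit 0) (cs (lf (nat_lit 17) (nat_lit 228)) (nd (nat_lit 229) (nat_lit 0) (cs (lf (nat_lit 17) (nat_lit 206)) (rf (nat_lit 19)))))))))))))))))) (cs (nd (nat_lit 275) (nat_lit 0) (cs (lf (nat_lit 29) (nat_lit 208)) (rf (nat_lit 20)))) (nd (nat_lit 273) (nat_lit 0) (cs (lf (nat_lit 41) (nat_lit 207)) (nd (nat_lit 275) (nat_lit 0) (cs (lf (nat_lit 29) (nat_lit 208)) (nd (nat_lit 251) (nat_lit 0) (cs (lf (nat_lit 0) (nat_lit 249)) (nd (nat_lit 227) (nat_lit 0) (cs (lf (nat_lit 22) (nat_lit 227)) (nd (nat_lit 209) (nat_lit 0) (cs (lf (nat_lit 35) (nat_lit 186)) (rf (nat_lit 21)))))))))))))))))))))))) q88065 (by decide +kernel)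
def q88192 : Q := Q.p (nat_lit 0x10000040000300000c000000000000000000000000000000000000000000000000000000000) (nat_lit 0x80000200000000000e000738001ce000000000000000000000000000000000000000000000000000) (nat_lit 9)
theorem c88192 : QOK q88192 := cut [q88191] ⟨c88191, trivial⟩ (nd (nat_lit 297) (nat_lit 0) (cs (lf (nat_lit 29) (nat_lit 230)) (rf (nat_lit 0)))) q88192 (by decide +kernel)
def q88273 : Q := Q.p (nat_lit 0x7000000000000000000000000000000000000000000000000000000000000000) (nat_lit 0x228000ef000380000ff8007fe000ffc003f8000ba00000000000000000000000000000000000) (nat_lit 14)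
theorem c88273 : QOK q88273 := cut [q79028, q6259, q79029, q79066, q87244, q10803, q87776, q1411, q88234, q16319, q24538, q87326, q79044, q88241, q88247, q84998, q9467, q85483, q84701, q87994, q86745] ⟨c79028, c6259, c79029, c79066, c87244, c10803, c87776, c1411, c88234, c16319, c24538, c87326, c79044, c88241, c88247, c84998, c9467, c85483, c84701, c87994, c86745, trivial⟩ (nd (nat_lit 230) (nat_lit 0) (cs (rf (nat_lit 0)) (cs (nd (nat_lit 208) (nat_lit 0) (cs (rf (nat_lit 1)) (cs (rf (nat_lit 2)) (cs (rf (nat_lit 3)) (cs (rf (nat_lit 4)) (nd (nat_lit 209) (nat_lit 0) (cs (rf (nat_lit 5)) (cs (rf (nat_lit 6)) (cs (nd (nat_lit 207) (nat_lit 0) (cs (rf (nat_lit 7)) (cs (rf (nat_lit 8)) (nd (nat_lit 210) (nat_lit 0) (cs (rf (nat_lit 9)) (cs (rf (nat_lit 10)) (rf (nat_lit 11)))))))) (nd (nat_lit 274) (nat_lit 0) (cs (lf (nat_lit 35) (nat_lit 186)) (nd (nat_lit 185) (nat_lit 0) (cs (lf (nat_lit 46) (nat_lit 185)) (rf (nat_lit 12)))))))))))))))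 (cs (nd (nat_lit 255) (nat_lit 0) (cs (lf (nat_lit 23) (nat_lit 229)) (nd (nat_lit 277) (nat_lit 0) (cs (lf (nat_lit 5) (nat_lit 252)) (nd (nat_lit 274) (nat_lit 0) (cs (lf (nat_lit 11) (nat_lit 251)) (rf (nat_lit 13)))))))) (nd (nat_lit 208) (nat_lit 0) (cs (rf (nat_lit 1)) (cs (rf (nat_lit 2)) (cs (rf (nat_lit 3)) (cs (rf (nat_lit 4)) (nd (nat_lit 231) (nat_lit 0) (cs (nd (nat_lit 255) (nat_lit 0) (cs (lf (nat_lit 18) (nat_lit 230)) (rf (nat_lit 14)))) (cs (nd (nat_lit 209) (nat_lit 0) (cs (rf (nat_lit 5)) (cs (rf (nat_lit 15)) (nd (nat_lit 275) (nat_lit 0) (cs (lf (nat_lit 42) (nat_lit 208)) (nd (nat_lit 210) (nat_lit 0) (cs (lf (nat_lit 35) (nat_lit 187)) (nd (nat_lit 211) (nat_lit 0) (cs (lf (nat_lit 6) (nat_lit 208)) (nd (nat_lit 233) (nat_lit 0) (cs (lf (nat_lit 5) (nat_lit 208)) (nd (nat_lit 207) (nat_lit 0) (cs (lf (nat_lit 19) (nat_lit 207)) (nd (nat_lit 185) (nat_lit 0) (cs (lf (nat_lit 23) (nat_lit 184)) (lf (nat_lit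 42) (nat_lit 185))))))))))))))))) (cs (nd (nat_lit 209) (nat_lit 0) (cs (rf (nat_lit 5)) (nd (nat_lit 210) (nat_lit 0) (cs (rf (nat_lit 16)) (nd (nat_lit 234) (nat_lit 0) (cs (rf (nat_lit 17)) (cs (nd (nat_lit 256) (nat_lit 0) (cs (lf (nat_lit 19) (nat_lit 230)) (nd (nat_lit 212) (nat_lit 0) (cs (rf (nat_lit 18)) (lf (nat_lit 7) (nat_lit 208)))))) (nd (nat_lit 211) (nat_lit 0) (cs (lf (nat_lit 4) (nat_lit 208)) (lf (nat_lit 6) (nat_lit 208))))))))))) (cs (nd (nat_lit 275) (nat_lit 0) (cs (lf (nat_lit 42) (nat_lit 208)) (nd (nat_lit 255) (nat_lit 0) (cs (lf (nat_lit 18) (nat_lit 230)) (nd (nat_lit 274) (nat_lit 0) (cs (lf (nat_lit 11) (nat_lit 251)) (nd (nat_lit 277) (nat_lit 0) (cs (lf (nat_lit 5) (nat_lit 252)) (rf (nat_lit 19)))))))))) (nd (nat_lit 275) (nat_lit 0) (cs (lf (nat_lit 42) (nat_lit 208)) (nd (nat_lit 255) (nat_lit 0) (cs (lf (nat_lit 18) (nat_lit 230)) (nd (nat_lit 233) (nat_lit 0) (cs (lf (nat_lit 17) (nat_lit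 230)) (nd (nat_lit 232) (nat_lit 0) (cs (lf (nat_lit 23) (nat_lit 207)) (nd (nat_lit 188) (nat_lit 0) (cs (lf (nat_lit 37) (nat_lit 187)) (rf (nat_lit 20)))))))))))))))))))))))))) q88273 (by decide +kernel)
def q88275 : Q := Q.p (nat_lit 0x7000000000000000000000000000000000000000000000000000000000000000) (nat_lit 0xefe0038f001dfc00000000000000000000000000000000000000000000000000000000) (nat_lit 10)
theorem c88275 : QOK q88275 := cut [q81492, q83616, q86771, q86773, q86785, q82312] ⟨c81492, c83616, c86771, c86773, c86785, c82312, trivial⟩ (nd (nat_lit 251) (nat_lit 0) (cs (rf (nat_lit 0)) (cs (rf (nat_lit 1)) (cs (rf (nat_lit 2)) (cs (rf (nat_lit 3)) (cs (rf (nat_lit 4)) (nd (nat_lit 228) (nat_lit 0) (cs (lf (nat_lit 22) (nat_lit 228)) (rf (nat_lit 5)))))))))) q88275 (by decide +kernel)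
def q88281 : Q := Q.p (nat_lit 0x100000400003000000000000000000000000000000000000000000000000000000000000000) (nat_lit 0x80000eb8001cc000fb0000680001a0000000000000000000000000000000000000000000000) (nat_lit 7)
theorem c88281 : QOK q88281 := cut [q83705, q83979, q83984, q79013, q83980, q88278] ⟨c83705, c83979, c83984, c79013, c83980, c88278, trivial⟩ (nd (nat_lit 254) (nat_lit 0) (cs (rf (nat_lit 0)) (cs (rf (nat_lit 1)) (cs (rf (nat_lit 2)) (nd (nat_lit 251) (nat_lit 0) (cs (rf (nat_lit 3)) (cs (rf (nat_lit 4)) (nd (nat_lit 228) (nat_lit 0) (cs (lf (nat_lit 22) (nat_lit 228)) (rf (nat_lit 5))))))))))) q88281 (by decide +kernel)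
def q88307 : Q := Q.p (nat_lit 0x3800000000000000000000000000000000000000000000000000000000000000) (nat_lit 0x40000100000ff000478003f700000000000000000000000000000000000000000000000000000000) (nat_lit 10)
theorem c88307 : QOK q88307 := cut [q23543, q82187, q82253, q82394] ⟨c23543, c82187, c82253, c82394, trivial⟩ (nd (nat_lit 250) (nat_lit 0) (cs (rf (nat_lit 0)) (cs (rf (nat_lit 1)) (cs (rf (nat_lit 2)) (rf (nat_lit 3)))))) q88307 (by decide +kernel)
def q88608 : Q := Q.p (nat_lit 0x400003000000000000000000000000000000000000000000000000000000000000000) (nat_lit 0xa8000fe0007fc001fe000eb8000ce0000f80002e0000a8000000000000000000000000000000000000000000000) (nat_lit 16)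
theorem c88608 : QOK q88608 := cut [q81014, q83915, q86716, q14914, q86434, q86683, q82286, q88517, q12664, q83686, q14790, q88548, q88603, q83724] ⟨c81014, c83915, c86716, c14914, c86434, c86683, c82286, c88517, c12664, c83686, c14790, c88548, c88603, c83724, trivial⟩ (nd (nat_lit 296) (nat_lit 0) (cs (rf (nat_lit 0)) (cs (rf (nat_lit 1)) (nd (nat_lit 297) (nat_lit 0) (cs (rf (nat_lit 2)) (cs (nd (nat_lit 275) (nat_lit 0) (cs (rf (nat_lit 3)) (cs (rf (nat_lit 4)) (cs (nd (nat_lit 294) (nat_lit 0) (cs (nd (nat_lit 319) (nat_lit 0) (cs (rf (nat_lit 5)) (nd (nat_lit 251) (nat_lit 0) (cs (rf (nat_lit 6)) (cs (nd (nat_lit 209) (nat_lit 0) (cs (lf (nat_lit 37) (nat_lit 208)) (nd (nat_lit 250) (nat_lit 0) (cs (lf (nat_lit 0) (nat_lit 249)) (nd (nat_lit 320) (nat_lit 0) (cs (lf (nat_lit 29) (nat_lit 253)) (nd (nat_lit 321) (nat_lit 0) (cs (lf (nat_lit 18) (nat_lit 296)) (rf (nat_lit 7)))))))))) (cs (nd (nat_lit 273) (nat_lit 0) (cs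 (rf (nat_lit 8)) (rf (nat_lit 9)))) (cs (nd (nat_lit 209) (nat_lit 0) (cs (lf (nat_lit 37) (nat_lit 208)) (nd (nat_lit 250) (nat_lit 0) (cs (lf (nat_lit 0) (nat_lit 249)) (nd (nat_lit 320) (nat_lit 0) (cs (lf (nat_lit 29) (nat_lit 253)) (nd (nat_lit 272) (nat_lit 0) (cs (lf (nat_lit 11) (nat_lit 249)) (nd (nat_lit 321) (nat_lit 0) (cs (lf (nat_lit 18) (nat_lit 296)) (nd (nat_lit 229) (nat_lit 0) (cs (lf (nat_lit 30) (nat_lit 228)) (nd (nat_lit 228) (nat_lit 0) (cs (lf (nat_lit 23) (nat_lit 227)) (lf (nat_lit 18) (nat_lit 228)))))))))))))))) (cs (nd (nat_lit 320) (nat_lit 0) (cs (lf (nat_lit 29) (nat_lit 253)) (nd (nat_lit 209) (nat_lit 0) (cs (lf (nat_lit 37) (nat_lit 208)) (nd (nat_lit 321) (nat_lit 0) (cs (lf (nat_lit 18) (nat_lit 296)) (nd (nat_lit 250) (nat_lit 0) (cs (lf (nat_lit 0) (nat_lit 249)) (nd (nat_lit 227) (nat_lit 0) (cs (lf (nat_lit 22) (nat_lit 227)) (nd (nat_lit 272) (nat_lit 0) (cs (lf (nat_lit 11) (nat_lit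 249)) (nd (nat_lit 229) (nat_lit 0) (cs (lf (nat_lit 30) (nat_lit 228)) (nd (nat_lit 273) (nat_lit 0) (cs (lf (nat_lit 11) (nat_lit 271)) (lf (nat_lit 24) (nat_lit 207)))))))))))))))))) (nd (nat_lit 250) (nat_lit 0) (cs (lf (nat_lit 0) (nat_lit 249)) (nd (nat_lit 209) (nat_lit 0) (cs (lf (nat_lit 37) (nat_lit 208)) (nd (nat_lit 227) (nat_lit 0) (cs (lf (nat_lit 22) (nat_lit 227)) (nd (nat_lit 320) (nat_lit 0) (cs (lf (nat_lit 29) (nat_lit 253)) (nd (nat_lit 321) (nat_lit 0) (cs (lf (nat_lit 18) (nat_lit 296)) (nd (nat_lit 272) (nat_lit 0) (cs (lf (nat_lit 11) (nat_lit 249)) (nd (nat_lit 273) (nat_lit 0) (cs (lf (nat_lit 11) (nat_lit 271)) (lf (nat_lit 6) (nat_lit 250)))))))))))))))))))))))) (cs (nd (nat_lit 209) (nat_lit 0) (cs (lf (nat_lit 37) (nat_lit 208)) (rf (nat_lit 10)))) (nd (nat_lit 295) (nat_lit 0) (cs (lf (nat_lit 12) (nat_lit 271)) (nd (nat_lit 272) (nat_lit 0) (cs (lf (nat_lit 23) (nat_lit 271)) (nd (nat_lit 315)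 (nat_lit 0) (cs (lf (nat_lit 10) (nat_lit 293)) (nd (nat_lit 273) (nat_lit 0) (cs (lf (nat_lit 17) (nat_lit 250)) (nd (nat_lit 317) (nat_lit 0) (cs (lf (nat_lit 30) (nat_lit 251)) (rf (nat_lit 11))))))))))))))) (rf (nat_lit 12)))))) (nd (nat_lit 230) (nat_lit 0) (cs (lf (nat_lit 29) (nat_lit 230)) (nd (nat_lit 209) (nat_lit 0) (cs (lf (nat_lit 34) (nat_lit 208)) (rf (nat_lit 13)))))))))))) q88608 (by decide +kernel)
def q88695 : Q := Q.p (nat_lit 0x3800000000000000000000000000000000000000000000000000000000000000) (nat_lit 0xe78003c4001ff000000000000000000000000000000000000000000000000000000000) (nat_lit 10)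
theorem c88695 : QOK q88695 := cut [q79013, q83611, q85524, q86785] ⟨c79013, c83611, c85524, c86785, trivial⟩ (nd (nat_lit 254) (nat_lit 0) (cs (rf (nat_lit 0)) (cs (rf (nat_lit 1)) (cs (rf (nat_lit 2)) (rf (nat_lit 3)))))) q88695 (by decide +kernel)
def q88776 : Q := Q.p (nat_lit 0x3000008000000000000000000000000000000000000000000000000000000000) (nat_lit 0x1f00007c00004c000700000700001c0000700001400000000000000000000000000000000000) (nat_lit 10)
theorem c88776 : QOK q88776 := cut [q82301, q88751, q88739, q88743, q88759, q88767, q88772, q88775] ⟨c82301, c88751, c88739, c88743, c88759, c88767, c88772, c88775, trivial⟩ (nd (nat_lit 209) (nat_lit 0) (cs (rf (nat_lit 0)) (cs (rf (nat_lit 1)) (cs (nd (nat_lit 275) (nat_lit 0) (cs (rf (nat_lit 2)) (cs (rf (nat_lit 3)) (cs (rf (nat_lit 4)) (rf (nat_lit 5)))))) (cs (rf (nat_lit 6)) (rf (nat_lit 7))))))) q88776 (by decide +kernel)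
def q88874 : Q := Q.p (nat_lit 0x3000008000000000000000000000000000000000000000000000000000000000) (nat_lit 0x6c0003b80004e00077c000fe0001f00007c0000000000000000000000000000000000000000) (nat_lit 13)
theorem c88874 : QOK q88874 := cut [q82275, q82278, q88808, q82198, q88847, q79996, q88848, q88853, q88862, q88865, q88830, q88869, q87951, q88872] ⟨c82275, c82278, c88808, c82198, c88847, c79996, c88848, c88853, c88862, c88865, c88830, c88869, c87951, c88872, trivial⟩ (nd (nat_lit 251) (nat_lit 0) (cs (rf (nat_lit 0)) (cs (rf (nat_lit 1)) (cs (rf (nat_lit 2)) (nd (nat_lit 229) (nat_lit 0) (cs (rf (nat_lit 3)) (cs (nd (nat_lit 230) (nat_lit 0) (cs (rf (nat_lit 4)) (cs (nd (nat_lit 208) (nat_lit 0) (cs (rf (nat_lit 5)) (cs (rf (nat_lit 6)) (rf (nat_lit 7))))) (cs (rf (nat_lit 8)) (rf (nat_lit 9)))))) (cs (nd (nat_lit 230) (nat_lit 0) (cs (rf (nat_lit 10)) (cs (rf (nat_lit 4)) (cs (rf (nat_lit 11)) (nd (nat_lit 227) (nat_lit 0)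 (cs (lf (nat_lit 1) (nat_lit 227)) (rf (nat_lit 12)))))))) (rf (nat_lit 13)))))))))) q88874 (by decide +kernel)
def q88920 : Q := Q.p (nat_lit 0xc00003000008000020000000000000000000000000000000000000000000000000000) (nat_lit 0x28000038000000001400005e000160000000000000000000000000000000000000000000000) (nat_lit 8)
theorem c88920 : QOK q88920 := cut [q88919] ⟨c88919, trivial⟩ (nd (nat_lit 188) (nat_lit 0) (cs (lf (nat_lit 34) (nat_lit 187)) (rf (nat_lit 0)))) q88920 (by decide +kernel)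
def q89028 : Q := Q.p (nat_lit 0x300000000003000000000000000000000000000000000000000000000000000000000000000) (nat_lit 0x20000b80002e000fff001cf80073f000460001f80000a000000000000000000000000000000000000000000000000000) (nat_lit 11)
theorem c89028 : QOK q89028 := cut [q41955, q87836, q88966, q88977, q88980, q88983, q88986, q22528, q42041, q88998, q16777, q44960, q89024, q89025, q89027] ⟨c41955, c87836, c88966, c88977, c88980, c88983, c88986, c22528, c42041, c88998, c16777, c44960, c89024, c89025, c89027, trivial⟩ (nd (nat_lit 295) (nat_lit 0) (cs (nd (nat_lit 294) (nat_lit 0) (cs (rf (nat_lit 0)) (cs (rf (nat_lit 1)) (cs (nd (nat_lit 272) (nat_lit 0) (cs (lf (nat_lit 23) (nat_lit 271)) (nd (nat_lit 339) (nat_lit 0) (cs (nd (nat_lit 319) (nat_lit 0) (cs (lf (nat_lit 5) (nat_lit 294)) (nd (nat_lit 316) (nat_lit 0) (cs (lf (nat_lit 11) (nat_lit 293)) (nd (nat_lit 338) (nat_lit 0) (cs (lf (nat_lit 29) (nat_lit 272)) (nd (nat_lit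 359) (nat_lit 0) (cs (lf (nat_lit 40) (nat_lit 271)) (nd (nat_lit 360) (nat_lit 0) (cs (lf (nat_lit 41) (nat_lit 293)) (lf (nat_lit 35) (nat_lit 272)))))))))))) (cs (nd (nat_lit 317) (nat_lit 0) (cs (lf (nat_lit 42) (nat_lit 272)) (rf (nat_lit 2)))) (nd (nat_lit 319) (nat_lit 0) (cs (lf (nat_lit 5) (nat_lit 294)) (nd (nat_lit 316) (nat_lit 0) (cs (lf (nat_lit 11) (nat_lit 293)) (nd (nat_lit 250) (nat_lit 0) (cs (lf (nat_lit 28) (nat_lit 250)) (nd (nat_lit 227) (nat_lit 0) (cs (lf (nat_lit 46) (nat_lit 227)) (nd (nat_lit 228) (nat_lit 0) (cs (lf (nat_lit 47) (nat_lit 205)) (nd (nat_lit 229) (nat_lit 0) (cs (lf (nat_lit 3) (nat_lit 227)) (lf (nat_lit 35) (nat_lit 206))))))))))))))))))) (rf (nat_lit 3)))))) (cs (nd (nat_lit 298) (nat_lit 0) (cs (rf (nat_lit 4)) (cs (rf (nat_lit 5)) (rf (nat_lit 6))))) (cs (nd (nat_lit 294) (nat_lit 0) (cs (rf (nat_lit 0)) (cs (rf (nat_lit 1)) (cs (rf (nat_lit 3)) (nd (nat_lit 272) (nat_lit 0)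 (cs (lf (nat_lit 23) (nat_lit 271)) (nd (nat_lit 315) (nat_lit 0) (cs (lf (nat_lit 10) (nat_lit 293)) (nd (nat_lit 319) (nat_lit 0) (cs (lf (nat_lit 5) (nat_lit 294)) (nd (nat_lit 298) (nat_lit 0) (cs (lf (nat_lit 22) (nat_lit 272)) (nd (nat_lit 277) (nat_lit 0) (cs (lf (nat_lit 16) (nat_lit 273)) (nd (nat_lit 299) (nat_lit 0) (cs (lf (nat_lit 17) (nat_lit 274)) (nd (nat_lit 300) (nat_lit 0) (cs (rf (nat_lit 7)) (lf (nat_lit 11) (nat_lit 296)))))))))))))))))))) (cs (nd (nat_lit 298) (nat_lit 0) (cs (rf (nat_lit 8)) (cs (rf (nat_lit 4)) (cs (nd (nat_lit 272) (nat_lit 0) (cs (lf (nat_lit 22) (nat_lit 272)) (nd (nat_lit 271) (nat_lit 0) (cs (lf (nat_lit 21) (nat_lit 271)) (rf (nat_lit 9)))))) (cs (nd (nat_lit 276) (nat_lit 0) (cs (lf (nat_lit 17) (nat_lit 273)) (nd (nat_lit 272) (nat_lit 0) (cs (lf (nat_lit 22) (nat_lit 272)) (nd (nat_lit 294) (nat_lit 0) (cs (lf (nat_lit 23) (nat_lit 271)) (nd (nat_lit 319) (nat_lit 0) (cs (lf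 (nat_lit 5) (nat_lit 294)) (nd (nat_lit 341) (nat_lit 0) (cs (lf (nat_lit 30) (nat_lit 275)) (nd (nat_lit 232) (nat_lit 0) (cs (nd (nat_lit 318) (nat_lit 0) (cs (lf (nat_lit 0) (nat_lit 293)) (rf (nat_lit 10)))) (lf (nat_lit 37) (nat_lit 231)))))))))))))) (nd (nat_lit 272) (nat_lit 0) (cs (lf (nat_lit 22) (nat_lit 272)) (nd (nat_lit 271) (nat_lit 0) (cs (lf (nat_lit 21) (nat_lit 271)) (rf (nat_lit 11))))))))))) (cs (rf (nat_lit 12)) (cs (rf (nat_lit 13)) (rf (nat_lit 14))))))))) q89028 (by decide +kernel)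
def q89099 : Q := Q.p (nat_lit 0x300000000003000000000000000000000000000000000000000000000000000000000000000) (nat_lit 0xe0000f80007e0003fb8007cc001f78000400001f8000380000a0000000000000000000000000000000000000000000000) (nat_lit 14)
theorem c89099 : QOK q89099 := cut [q88953, q88956, q89030, q89033, q89034, q42013, q88958, q89040, q87827, q89032, q14037, q44364, q28143, q89098] ⟨c88953, c88956, c89030, c89033, c89034, c42013, c88958, c89040, c87827, c89032, c14037, c44364, c28143, c89098, trivial⟩ (nd (nat_lit 274) (nat_lit 0) (cs (rf (nat_lit 0)) (cs (rf (nat_lit 1)) (cs (nd (nat_lit 298) (nat_lit 0) (cs (rf (nat_lit 2)) (cs (rf (nat_lit 3)) (cs (rf (nat_lit 4)) (nd (nat_lit 320) (nat_lit 0) (cs (rf (nat_lit 5)) (cs (nd (nat_lit 295) (nat_lit 0) (cs (lf (nat_lit 5) (nat_lit 295)) (nd (nat_lit 316) (nat_lit 0) (cs (lf (nat_lit 10) (nat_lit 294)) (nd (nat_lit 294) (nat_lit 0) (cs (lf (nat_lit 11) (nat_lit 293)) (lf (nat_lit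 4) (nat_lit 294)))))))) (cs (nd (nat_lit 276) (nat_lit 0) (cs (rf (nat_lit 6)) (rf (nat_lit 7)))) (nd (nat_lit 299) (nat_lit 0) (cs (rf (nat_lit 8)) (cs (rf (nat_lit 9)) (cs (nd (nat_lit 278) (nat_lit 0) (cs (lf (nat_lit 16) (nat_lit 274)) (nd (nat_lit 300) (nat_lit 0) (cs (lf (nat_lit 17) (nat_lit 275)) (nd (nat_lit 301) (nat_lit 0) (cs (lf (nat_lit 11) (nat_lit 297)) (nd (nat_lit 324) (nat_lit 0) (cs (rf (nat_lit 10)) (lf (nat_lit 4) (nat_lit 298)))))))))) (cs (nd (nat_lit 343) (nat_lit 0) (cs (nd (nat_lit 277) (nat_lit 0) (cs (lf (nat_lit 17) (nat_lit 274)) (nd (nat_lit 342) (nat_lit 0) (cs (lf (nat_lit 30) (nat_lit 276)) (nd (nat_lit 276) (nat_lit 0) (cs (lf (nat_lit 29) (nat_lit 276)) (nd (nat_lit 341) (nat_lit 0) (cs (lf (nat_lit 41) (nat_lit 275)) (nd (nat_lit 254) (nat_lit 0) (cs (lf (nat_lit 47) (nat_lit 231)) (lf (nat_lit 40) (nat_lit 253)))))))))))) (cs (nd (nat_lit 277) (nat_lit 0) (cs (lf (nat_lit 17) (nat_lit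 274)) (nd (nat_lit 321) (nat_lit 0) (cs (lf (nat_lit 5) (nat_lit 296)) (nd (nat_lit 254) (nat_lit 0) (cs (nd (nat_lit 342) (nat_lit 0) (cs (lf (nat_lit 30) (nat_lit 276)) (nd (nat_lit 344) (nat_lit 0) (cs (lf (nat_lit 29) (nat_lit 277)) (nd (nat_lit 345) (nat_lit 0) (cs (lf (nat_lit 18) (nat_lit 320)) (lf (nat_lit 23) (nat_lit 319)))))))) (lf (nat_lit 25) (nat_lit 254)))))))) (cs (nd (nat_lit 277) (nat_lit 0) (cs (lf (nat_lit 17) (nat_lit 274)) (nd (nat_lit 321) (nat_lit 0) (cs (lf (nat_lit 5) (nat_lit 296)) (nd (nat_lit 344) (nat_lit 0) (cs (lf (nat_lit 29) (nat_lit 277)) (nd (nat_lit 365) (nat_lit 0) (cs (lf (nat_lit 42) (nat_lit 298)) (nd (nat_lit 364) (nat_lit 0) (cs (lf (nat_lit 41) (nat_lit 298)) (lf (nat_lit 31) (nat_lit 276)))))))))))) (nd (nat_lit 321) (nat_lit 0) (cs (lf (nat_lit 5) (nat_lit 296)) (nd (nat_lit 276) (nat_lit 0) (cs (lf (nat_lit 42) (nat_lit 276)) (lf (nat_lit 24) (nat_lit 254)))))))))) (cs (nd (nat_lit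 342) (nat_lit 0) (cs (nd (nat_lit 321) (nat_lit 0) (cs (lf (nat_lit 5) (nat_lit 296)) (nd (nat_lit 364) (nat_lit 0) (cs (lf (nat_lit 30) (nat_lit 298)) (lf (nat_lit 35) (nat_lit 276)))))) (cs (nd (nat_lit 364) (nat_lit 0) (cs (lf (nat_lit 35) (nat_lit 276)) (nd (nat_lit 319) (nat_lit 0) (cs (lf (nat_lit 42) (nat_lit 297)) (nd (nat_lit 363) (nat_lit 0) (cs (lf (nat_lit 41) (nat_lit 297)) (lf (nat_lit 43) (nat_lit 274)))))))) (cs (nd (nat_lit 322) (nat_lit 0) (cs (lf (nat_lit 4) (nat_lit 296)) (nd (nat_lit 300) (nat_lit 0) (cs (lf (nat_lit 5) (nat_lit 297)) (nd (nat_lit 319) (nat_lit 0) (cs (lf (nat_lit 6) (nat_lit 297)) (nd (nat_lit 341) (nat_lit 0) (cs (lf (nat_lit 42) (nat_lit 274)) (nd (nat_lit 276) (nat_lit 0) (cs (nd (nat_lit 343) (nat_lit 0) (cs (lf (nat_lit 29) (nat_lit 276)) (nd (nat_lit 344) (nat_lit 0) (cs (lf (nat_lit 18) (nat_lit 319)) (nd (nat_lit 366) (nat_lit 0) (cs (lf (nat_lit 5) (nat_lit 341)) (lf (nat_lit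 47) (nat_lit 277)))))))) (lf (nat_lit 36) (nat_lit 253)))))))))))) (nd (nat_lit 321) (nat_lit 0) (cs (lf (nat_lit 5) (nat_lit 296)) (nd (nat_lit 364) (nat_lit 0) (cs (lf (nat_lit 30) (nat_lit 298)) (nd (nat_lit 365) (nat_lit 0) (cs (lf (nat_lit 29) (nat_lit 298)) (nd (nat_lit 276) (nat_lit 0) (cs (lf (nat_lit 28) (nat_lit 276)) (rf (nat_lit 11)))))))))))))) (nd (nat_lit 322) (nat_lit 0) (cs (lf (nat_lit 4) (nat_lit 296)) (nd (nat_lit 300) (nat_lit 0) (cs (lf (nat_lit 5) (nat_lit 297)) (nd (nat_lit 301) (nat_lit 0) (cs (lf (nat_lit 11) (nat_lit 297)) (rf (nat_lit 12)))))))))))))))))))))) (rf (nat_lit 13)))))) q89099 (by decide +kernel)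
def q89114 : Q := Q.p (nat_lit 0x300000000003000000000000000000000000000000000000000000000000000000000000000) (nat_lit 0x200000800077c000cf00077e000400000f8000380000a0000000000000000000000000000000000000000000000) (nat_lit 9)
theorem c89114 : QOK q89114 := cut [q81014, q89098, q89112, q14318] ⟨c81014, c89098, c89112, c14318, trivial⟩ (nd (nat_lit 274) (nat_lit 0) (cs (rf (nat_lit 0)) (cs (rf (nat_lit 1)) (cs (rf (nat_lit 2)) (nd (nat_lit 318) (nat_lit 0) (cs (lf (nat_lit 35) (nat_lit 230)) (rf (nat_lit 3)))))))) q89114 (by decide +kernel)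
def q89582 : Q := Q.p (nat_lit 0x80000200000000003000000000000000000000000000000000000000000000000000000000000000) (nat_lit 0x4a0001a8000f7f007df803f7f0004000014000000000000000000000000000000000000000000000000000000000) (nat_lit 13)
theorem c89582 : QOK q89582 := cut [q89532, q28278, q42041, q89545, q28791, q89147, q89032, q89544, q84709, q84170, q89148, q89572, q89024, q89025, q89027, q88983, q88986, q11748, q83933] ⟨c89532, c28278, c42041, c89545, c28791, c89147, c89032, c89544, c84709, c84170, c89148, c89572, c89024, c89025, c89027, c88983, c88986, c11748, c83933, trivial⟩ (nd (nat_lit 296) (nat_lit 0) (cs (nd (nat_lit 298) (nat_lit 0) (cs (rf (nat_lit 0)) (cs (nd (nat_lit 274) (nat_lit 0) (cs (lf (nat_lit 24) (nat_lit 230)) (nd (nat_lit 341) (nat_lit 0) (cs (lf (nat_lit 42) (nat_lit 274)) (nd (nat_lit 299) (nat_lit 0) (cs (lf (nat_lit 23) (nat_lit 273)) (nd (nat_lit 322) (nat_lit 0) (cs (lf (nat_lit 4) (nat_lit 296)) (nd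 (nat_lit 277) (nat_lit 0) (cs (lf (nat_lit 17) (nat_lit 274)) (nd (nat_lit 300) (nat_lit 0) (cs (lf (nat_lit 5) (nat_lit 297)) (nd (nat_lit 344) (nat_lit 0) (cs (lf (nat_lit 42) (nat_lit 277)) (nd (nat_lit 301) (nat_lit 0) (cs (lf (nat_lit 10) (nat_lit 297)) (nd (nat_lit 280) (nat_lit 0) (cs (lf (nat_lit 16) (nat_lit 276)) (nd (nat_lit 302) (nat_lit 0) (cs (lf (nat_lit 17) (nat_lit 277)) (lf (nat_lit 23) (nat_lit 276)))))))))))))))))))))) (cs (nd (nat_lit 295) (nat_lit 0) (cs (rf (nat_lit 1)) (cs (rf (nat_lit 2)) (nd (nat_lit 230) (nat_lit 0) (cs (lf (nat_lit 26) (nat_lit 230)) (nd (nat_lit 316) (nat_lit 0) (cs (lf (nat_lit 10) (nat_lit 294)) (rf (nat_lit 3))))))))) (cs (nd (nat_lit 321) (nat_lit 0) (cs (rf (nat_lit 4)) (cs (nd (nat_lit 299) (nat_lit 0) (cs (lf (nat_lit 5) (nat_lit 296)) (rf (nat_lit 5)))) (nd (nat_lit 322) (nat_lit 0) (cs (lf (nat_lit 3) (nat_lit 296)) (lf (nat_lit 20) (nat_lit 296))))))) (nd (nat_lit 299)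 (nat_lit 0) (cs (rf (nat_lit 6)) (cs (nd (nat_lit 230) (nat_lit 0) (cs (lf (nat_lit 26) (nat_lit 230)) (nd (nat_lit 277) (nat_lit 0) (cs (lf (nat_lit 17) (nat_lit 274)) (nd (nat_lit 276) (nat_lit 0) (cs (lf (nat_lit 12) (nat_lit 273)) (nd (nat_lit 254) (nat_lit 0) (cs (lf (nat_lit 36) (nat_lit 231)) (nd (nat_lit 341) (nat_lit 0) (cs (lf (nat_lit 30) (nat_lit 275)) (lf (nat_lit 39) (nat_lit 253)))))))))))) (cs (nd (nat_lit 230) (nat_lit 0) (cs (lf (nat_lit 26) (nat_lit 230)) (nd (nat_lit 322) (nat_lit 0) (cs (lf (nat_lit 4) (nat_lit 296)) (nd (nat_lit 300) (nat_lit 0) (cs (lf (nat_lit 5) (nat_lit 297)) (nd (nat_lit 320) (nat_lit 0) (cs (lf (nat_lit 6) (nat_lit 297)) (nd (nat_lit 295) (nat_lit 0) (cs (lf (nat_lit 0) (nat_lit 294)) (rf (nat_lit 7)))))))))))) (nd (nat_lit 230) (nat_lit 0) (cs (lf (nat_lit 26) (nat_lit 230)) (nd (nat_lit 322) (nat_lit 0) (cs (lf (nat_lit 4) (nat_lit 296)) (nd (nat_lit 300) (nat_lit 0) (cs (lf (nat_lit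 5) (nat_lit 297)) (rf (nat_lit 8))))))))))))))))) (cs (nd (nat_lit 298) (nat_lit 0) (cs (rf (nat_lit 0)) (cs (nd (nat_lit 295) (nat_lit 0) (cs (rf (nat_lit 2)) (nd (nat_lit 274) (nat_lit 0) (cs (lf (nat_lit 24) (nat_lit 230)) (nd (nat_lit 317) (nat_lit 0) (cs (lf (nat_lit 11) (nat_lit 294)) (rf (nat_lit 9)))))))) (cs (nd (nat_lit 299) (nat_lit 0) (cs (rf (nat_lit 10)) (rf (nat_lit 11)))) (nd (nat_lit 274) (nat_lit 0) (cs (lf (nat_lit 24) (nat_lit 230)) (nd (nat_lit 299) (nat_lit 0) (cs (lf (nat_lit 23) (nat_lit 273)) (rf (nat_lit 11)))))))))) (cs (nd (nat_lit 295) (nat_lit 0) (cs (rf (nat_lit 12)) (cs (rf (nat_lit 13)) (cs (rf (nat_lit 14)) (cs (nd (nat_lit 298) (nat_lit 0) (cs (rf (nat_lit 15)) (cs (rf (nat_lit 16)) (rf (nat_lit 3))))) (nd (nat_lit 294) (nat_lit 0) (cs (lf (nat_lit 5) (nat_lit 294)) (nd (nat_lit 293) (nat_lit 0) (cs (rf (nat_lit 17)) (lf (nat_lit 4) (nat_lit 293))))))))))) (nd (nat_lit 274) (nat_lit 0) (cs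 (lf (nat_lit 24) (nat_lit 230)) (rf (nat_lit 18)))))))) q89582 (by decide +kernel)
def q89623 : Q := Q.p (nat_lit 0x200000800003000000000000000000000000000000000000000000000000000000000000000) (nat_lit 0x140003fe0007f0001de0000400004000010000000000000000000000000000000000000000000000000000000000) (nat_lit 12)
theorem c89623 : QOK q89623 := cut [q21908, q41536, q89585] ⟨c21908, c41536, c89585, trivial⟩ (nd (nat_lit 319) (nat_lit 0) (cs (rf (nat_lit 0)) (cs (rf (nat_lit 1)) (rf (nat_lit 2))))) q89623 (by decide +kernel)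
def q89650 : Q := Q.p (nat_lit 0x200000800003000008000000000000000000000000000000000000000000000000000000000) (nat_lit 0x1f60003de001e600004000017800058000000000000000000000000000000000000000000000000000) (nat_lit 13)
theorem c89650 : QOK q89650 := cut [q89649] ⟨c89649, trivial⟩ (nd (nat_lit 298) (nat_lit 0) (cs (lf (nat_lit 29) (nat_lit 231)) (rf (nat_lit 0)))) q89650 (by decide +kernel)
def q89690 : Q := Q.p (nat_lit 0x3800000000000000000000000000000000000000000000000000000000000000) (nat_lit 0x100000700001c0000fc0004000007c0007c0003f00003c0000500000000000000000000000000000000000) (nat_lit 11)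
theorem c89690 : QOK q89690 := cut [q82198, q89664, q89672, q5482, q11484, q80450, q89684, q89688] ⟨c82198, c89664, c89672, c5482, c11484, c80450, c89684, c89688, trivial⟩ (nd (nat_lit 229) (nat_lit 0) (cs (rf (nat_lit 0)) (cs (rf (nat_lit 1)) (cs (rf (nat_lit 2)) (nd (nat_lit 207) (nat_lit 0) (cs (rf (nat_lit 3)) (cs (rf (nat_lit 4)) (cs (rf (nat_lit 5)) (cs (rf (nat_lit 6)) (rf (nat_lit 7))))))))))) q89690 (by decide +kernel)
def q89840 : Q := Q.p (nat_lit 0x3800000000000000000000000000000000000000000000000000000000000000) (nat_lit 0x700001c00007f0004780007e0001c0000700001c0000000000000000000000000000000000000000) (nat_lit 9)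
theorem c89840 : QOK q89840 := cut [q82198, q89664, q89672, q89839] ⟨c82198, c89664, c89672, c89839, trivial⟩ (nd (nat_lit 229) (nat_lit 0) (cs (rf (nat_lit 0)) (cs (rf (nat_lit 1)) (cs (rf (nat_lit 2)) (rf (nat_lit 3)))))) q89840 (by decide +kernel)
def q89861 : Q := Q.p (nat_lit 0x3800000000000000000000000000000000000000000000000000000000000000) (nat_lit 0x1c0000780007c00007c000400000fc0001c0000700001c0000000000000000000000000000000000000000) (nat_lit 10)
theorem c89861 : QOK q89861 := cut [q88302, q82198, q85421, q88800, q89674, q89844, q80583, q86851, q85426, q88797, q89847, q86906, q88789, q89852, q89856] ⟨c88302, c82198, c85421, c88800, c89674, c89844, c80583, c86851, c85426, c88797, c89847, c86906, c88789, c89852, c89856, trivial⟩ (nd (nat_lit 273) (nat_lit 0) (cs (rf (nat_lit 0)) (cs (nd (nat_lit 229) (nat_lit 0) (cs (rf (nat_lit 1)) (cs (rf (nat_lit 2)) (nd (nat_lit 295) (nat_lit 0) (cs (rf (nat_lit 3)) (rf (nat_lit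 4))))))) (cs (rf (nat_lit 5)) (nd (nat_lit 295) (nat_lit 0) (cs (rf (nat_lit 6)) (cs (rf (nat_lit 7)) (cs (nd (nat_lit 229) (nat_lit 0) (cs (rf (nat_lit 8)) (cs (rf (nat_lit 9)) (rf (nat_lit 10))))) (nd (nat_lit 317) (nat_lit 0) (cs (rf (nat_lit 11)) (cs (rf (nat_lit 12)) (cs (rf (nat_lit 13)) (nd (nat_lit 316) (nat_lit 0) (cs (lf (nat_lit 41) (nat_lit 250)) (nd (nat_lit 318) (nat_lit 0) (cs (lf (nat_lit 29) (nat_lit 251)) (rf (nat_lit 14)))))))))))))))))) q89861 (by decide +kernel)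
def q89871 : Q := Q.p (nat_lit 0x3800000000000000000000000000000000000000000000000000000000000000) (nat_lit 0x200000800007c000460003dc00010000040000000000000000000000000000000000000000000000) (nat_lit 8)
theorem c89871 : QOK q89871 := cut [q2065, q6264, q89863, q89870] ⟨c2065, c6264, c89863, c89870, trivial⟩ (nd (nat_lit 250) (nat_lit 0) (cs (rf (nat_lit 0)) (cs (rf (nat_lit 1)) (cs (nd (nat_lit 232) (nat_lit 0) (cs (lf (nat_lit 16) (nat_lit 228)) (nd (nat_lit 227) (nat_lit 0) (cs (lf (nat_lit 22) (nat_lit 227)) (rf (nat_lit 2)))))) (rf (nat_lit 3)))))) q89871 (by decide +kernel)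
def q89976 : Q := Q.p (nat_lit 0x3800000000000000000000000000000000000000000000000000000000000000) (nat_lit 0xe000078000360000460007fc000fe0007f80007c0001500000000000000000000000000000000000) (nat_lit 12)
theorem c89976 : QOK q89976 := cut [q82275, q82278, q89969, q89975] ⟨c82275, c82278, c89969, c89975, trivial⟩ (nd (nat_lit 231) (nat_lit 0) (cs (rf (nat_lit 0)) (cs (rf (nat_lit 1)) (cs (rf (nat_lit 2)) (rf (nat_lit 3)))))) q89976 (by decide +kernel)
def q90136 : Q := Q.p (nat_lit 0x200003800000000000000000000000000000000000000000000000000000000000000) (nat_lit 0x40000580001f00007f000ffe003ff8007df000030000bc0003d000070000100000000000000000000000000000000000000000) (nat_lit 14)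
theorem c90136 : QOK q90136 := cut [q82638, q90036, q90043, q90044, q90046, q22302, q82585, q90054, q90060, q90061, q90065, q90071, q90078, q90083, q82413, q90085, q86855, q90091, q90094, q44960, q89315, q90104, q89399, q23321, q90118, q90122, q12808, q82589, q82631, q90134] ⟨c82638, c90036, c90043, c90044, c90046, c22302, c82585, c90054, c90060, c90061, c90065, c90071, c90078, c90083, c82413, c90085, c86855, c90091, c90094, c44960, c89315, c90104, c89399, c23321, c90118, c90122, c12808, c82589, c82631, c90134, trivial⟩ (nd (nat_lit 295) (nat_lit 0) (cs (rf (nat_lit 0)) (cs (rf (nat_lit 1)) (cs (rf (nat_lit 2)) (cs (nd (nat_lit 294) (nat_lit 0) (cs (rf (nat_lit 3)) (cs (nd (nat_lit 274) (nat_lit 0) (cs (rf (nat_lit 4)) (cs (nd (nat_lit 293) (nat_lit 0) (cs (lf (nat_lit 12) (nat_lit 270)) (nd (nat_lit 229) (nat_lit 0) (cs (rf (nat_lit 5)) (cs (rf (nat_lit 6)) (rf (nat_lit 7))))))) (cs (rf (nat_lit 8)) (rf (nat_lit 9)))))) (cs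 (rf (nat_lit 10)) (nd (nat_lit 274) (nat_lit 0) (cs (rf (nat_lit 4)) (cs (rf (nat_lit 9)) (cs (rf (nat_lit 11)) (rf (nat_lit 12)))))))))) (cs (rf (nat_lit 13)) (cs (nd (nat_lit 296) (nat_lit 0) (cs (rf (nat_lit 14)) (cs (rf (nat_lit 15)) (cs (nd (nat_lit 297) (nat_lit 0) (cs (rf (nat_lit 16)) (cs (nd (nat_lit 294) (nat_lit 0) (cs (rf (nat_lit 17)) (cs (nd (nat_lit 275) (nat_lit 0) (cs (lf (nat_lit 17) (nat_lit 272)) (nd (nat_lit 271) (nat_lit 0) (cs (lf (nat_lit 22) (nat_lit 271)) (nd (nat_lit 319) (nat_lit 0) (cs (lf (nat_lit 5) (nat_lit 294)) (rf (nat_lit 18)))))))) (nd (nat_lit 319) (nat_lit 0) (cs (lf (nat_lit 5) (nat_lit 294)) (nd (nat_lit 275) (nat_lit 0) (cs (lf (nat_lit 17) (nat_lit 272)) (nd (nat_lit 274) (nat_lit 0) (cs (lf (nat_lit 42) (nat_lit 252)) (lf (nat_lit 12) (nat_lit 271))))))))))) (cs (nd (nat_lit 298) (nat_lit 0) (cs (rf (nat_lit 19)) (cs (rf (nat_lit 20)) (cs (nd (nat_lit 274) (nat_lit 0) (cs (lf (nat_lit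 18) (nat_lit 273)) (nd (nat_lit 317) (nat_lit 0) (cs (lf (nat_lit 30) (nat_lit 251)) (nd (nat_lit 207) (nat_lit 0) (cs (lf (nat_lit 25) (nat_lit 207)) (rf (nat_lit 21)))))))) (cs (nd (nat_lit 276) (nat_lit 0) (cs (lf (nat_lit 17) (nat_lit 273)) (nd (nat_lit 275) (nat_lit 0) (cs (lf (nat_lit 12) (nat_lit 272)) (nd (nat_lit 209) (nat_lit 0) (cs (lf (nat_lit 25) (nat_lit 209)) (rf (nat_lit 22)))))))) (nd (nat_lit 274) (nat_lit 0) (cs (lf (nat_lit 18) (nat_lit 273)) (nd (nat_lit 317) (nat_lit 0) (cs (lf (nat_lit 30) (nat_lit 251)) (nd (nat_lit 207) (nat_lit 0) (cs (lf (nat_lit 25) (nat_lit 207)) (nd (nat_lit 276) (nat_lit 0) (cs (lf (nat_lit 17) (nat_lit 273)) (nd (nat_lit 275) (nat_lit 0) (cs (lf (nat_lit 12) (nat_lit 272)) (rf (nat_lit 23))))))))))))))))) (rf (nat_lit 24)))))) (rf (nat_lit 25)))))) (nd (nat_lit 317) (nat_lit 0) (cs (rf (nat_lit 26)) (cs (rf (nat_lit 27)) (cs (rf (nat_lit 28)) (rf (nat_lit 29))))))))))))) q90136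 (by decide +kernel)
def q90204 : Q := Q.p (nat_lit 0x1800002000008000000000000000000000000000000000000000000000000000) (nat_lit 0x100000700001c00003000000000040000040000700001c0000500000000000000000000000000000000000) (nat_lit 9)
theorem c90204 : QOK q90204 := cut [q5481, q11483, q85319, q85444] ⟨c5481, c11483, c85319, c85444, trivial⟩ (nd (nat_lit 185) (nat_lit 0) (cs (rf (nat_lit 0)) (cs (rf (nat_lit 1)) (cs (rf (nat_lit 2)) (rf (nat_lit 3)))))) q90204 (by decide +kernel)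
def q90234 : Q := Q.p (nat_lit 0x3000002000018000000000000000000000000000000000000000000000000000) (nat_lit 0x6000078000100000fdf003e780078e000f00003c00005000000000000000000000000000000) (nat_lit 13)
theorem c90234 : QOK q90234 := cut [q918, q13362, q85396, q85397] ⟨c918, c13362, c85396, c85397, trivial⟩ (nd (nat_lit 209) (nat_lit 0) (cs (rf (nat_lit 0)) (cs (rf (nat_lit 1)) (cs (rf (nat_lit 2)) (cs (rf (nat_lit 3)) (nd (nat_lit 210) (nat_lit 0) (cs (lf (nat_lit 11) (nat_lit 206)) (nd (nat_lit 232) (nat_lit 0) (cs (lf (nat_lit 5) (nat_lit 207)) (nd (nat_lit 211) (nat_lit 0) (cs (lf (nat_lit 10) (nat_lit 207)) (nd (nat_lit 189) (nat_lit 0) (cs (lf (nat_lit 17) (nat_lit 186)) (nd (nat_lit 145) (nat_lit 0) (cs (lf (nat_lit 37) (nat_lit 144)) (nd (nat_lit 231) (nat_lit 0) (cs (lf (nat_lit 0) (nat_lit 206)) (nd (nat_lit 275) (nat_lit 0) (cs (lf (nat_lit 30) (nat_lit 209)) (nd (nat_lit 212) (nat_lit 0) (cs (lf (nat_lit 6) (nat_lit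 209)) (nd (nat_lit 276) (nat_lit 0) (cs (lf (nat_lit 29) (nat_lit 209)) (nd (nat_lit 234) (nat_lit 0) (cs (lf (nat_lit 5) (nat_lit 209)) (nd (nat_lit 278) (nat_lit 0) (cs (lf (nat_lit 19) (nat_lit 252)) (lf (nat_lit 43) (nat_lit 189))))))))))))))))))))))))))))) q90234 (by decide +kernel)
def q90321 : Q := Q.p (nat_lit 0x3000004000000000000000000000000000000000000000000000000000000000) (nat_lit 0x1e0001fc0007fc000480007bc003ee0003f00007c0000400000000000000000000000000000000000) (nat_lit 13)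
theorem c90321 : QOK q90321 := cut [q87523, q82198, q90266, q90273, q90275, q82309, q90280, q88932, q90281, q90282, q90289, q90309, q88826, q90310, q90319, q90320] ⟨c87523, c82198, c90266, c90273, c90275, c82309, c90280, c88932, c90281, c90282, c90289, c90309, c88826, c90310, c90319, c90320, trivial⟩ (nd (nat_lit 229) (nat_lit 0) (cs (rf (nat_lit 0)) (cs (nd (nat_lit 251) (nat_lit 0) (cs (rf (nat_lit 1)) (cs (rf (nat_lit 2)) (rf (nat_lit 3))))) (cs (nd (nat_lit 231) (nat_lit 0) (cs (rf (nat_lit 4)) (cs (nd (nat_lit 209) (nat_lit 0) (cs (rf (nat_lit 5)) (cs (rf (nat_lit 6)) (nd (nat_lit 275) (nat_lit 0) (cs (rf (nat_lit 7)) (cs (rf (nat_lit 8)) (rf (nat_lit 9)))))))) (cs (rf (nat_lit 10)) (cs (rf (nat_lit 11)) (nd (nat_lit 209) (nat_lit 0) (cs (rf (nat_lit 5)) (cs (rf (nat_lit 6)) (nd (nat_lit 275) (nat_lit 0) (cs (rf (nat_lit 12)) (cs (rf (nat_lit 9)) (nd (nat_lit 274) (nat_lit 0) (cs (lf (nat_lit 30) (nat_lit 208)) (nd (nat_lit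 276) (nat_lit 0) (cs (lf (nat_lit 29) (nat_lit 209)) (nd (nat_lit 277) (nat_lit 0) (cs (lf (nat_lit 18) (nat_lit 252)) (nd (nat_lit 299) (nat_lit 0) (cs (lf (nat_lit 5) (nat_lit 274)) (rf (nat_lit 13))))))))))))))))))))) (cs (rf (nat_lit 14)) (rf (nat_lit 15))))))) q90321 (by decide +kernel)
def q90322 : Q := Q.p (nat_lit 0x400003000004000010000000000000000000000000000000000000000000000000000) (nat_lit 0x180000600003800008000000000020000280000a0000000000000000000000000000000000000000000000) (nat_lit 7)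
theorem c90322 : QOK q90322 := cut [q22354] ⟨c22354, trivial⟩ (nd (nat_lit 275) (nat_lit 0) (cs (lf (nat_lit 29) (nat_lit 208)) (rf (nat_lit 0)))) q90322 (by decide +kernel)
def q90443 : Q := Q.p (nat_lit 0x3000006000000000000000000000000000000000000000000000000000000000) (nat_lit 0x1c00007c0007b000048000780001ff0007fc0007f0000000000000000000000000000000000000000) (nat_lit 14)
theorem c90443 : QOK q90443 := cut [q90275, q81477, q90297, q12194, q90375, q84425, q87131, q90378, q80014, q19169, q85375, q90400, q90404, q90408, q88842, q90435, q90442] ⟨c90275, c81477, c90297, c12194, c90375, c84425, c87131, c90378, c80014, c19169, c85375, c90400, c90404, c90408, c88842, c90435, c90442, trivial⟩ (nd (nat_lit 231) (nat_lit 0) (cs (rf (nat_lit 0)) (cs (nd (nat_lit 275) (nat_lit 0) (cs (rf (nat_lit 1)) (cs (rf (nat_lit 2)) (nd (nat_lit 209) (nat_lit 0) (cs (nd (nat_lit 208) (nat_lit 0) (cs (lf (nat_lit 24) (nat_lit 186)) (rf (nat_lit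 3)))) (rf (nat_lit 4))))))) (cs (nd (nat_lit 208) (nat_lit 0) (cs (nd (nat_lit 232) (nat_lit 0) (cs (rf (nat_lit 5)) (cs (rf (nat_lit 6)) (nd (nat_lit 207) (nat_lit 0) (cs (lf (nat_lit 23) (nat_lit 206)) (nd (nat_lit 210) (nat_lit 0) (cs (lf (nat_lit 17) (nat_lit 207)) (nd (nat_lit 185) (nat_lit 0) (cs (lf (nat_lit 24) (nat_lit 163)) (nd (nat_lit 166) (nat_lit 0) (cs (lf (nat_lit 37) (nat_lit 165)) (nd (nat_lit 184) (nat_lit 0) (cs (lf (nat_lit 19) (nat_lit 184)) (nd (nat_lit 182) (nat_lit 0) (cs (lf (nat_lit 1) (nat_lit 182)) (nd (nat_lit 251) (nat_lit 0) (cs (lf (nat_lit 47) (nat_lit 162)) (rf (nat_lit 7))))))))))))))))))) (cs (nd (nat_lit 232) (nat_lit 0) (cs (rf (nat_lit 5)) (cs (rf (nat_lit 6)) (nd (nat_lit 187) (nat_lit 0) (cs (rf (nat_lit 8)) (cs (nd (nat_lit 165) (nat_lit 0) (cs (nd (nat_lit 210) (nat_lit 0) (cs (lf (nat_lit 17) (nat_lit 207)) (nd (nat_lit 188) (nat_lit 0) (cs (lf (nat_lit 36) (nat_lit 165)) (lf (nat_lit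 42) (nat_lit 165)))))) (lf (nat_lit 38) (nat_lit 164)))) (nd (nat_lit 210) (nat_lit 0) (cs (lf (nat_lit 17) (nat_lit 207)) (nd (nat_lit 166) (nat_lit 0) (cs (lf (nat_lit 37) (nat_lit 165)) (nd (nat_lit 186) (nat_lit 0) (cs (lf (nat_lit 24) (nat_lit 164)) (nd (nat_lit 251) (nat_lit 0) (cs (lf (nat_lit 41) (nat_lit 185)) (nd (nat_lit 185) (nat_lit 0) (cs (lf (nat_lit 47) (nat_lit 163)) (rf (nat_lit 9)))))))))))))))))) (cs (nd (nat_lit 186) (nat_lit 0) (cs (lf (nat_lit 24) (nat_lit 164)) (nd (nat_lit 251) (nat_lit 0) (cs (lf (nat_lit 41) (nat_lit 185)) (nd (nat_lit 232) (nat_lit 0) (cs (lf (nat_lit 6) (nat_lit 229)) (nd (nat_lit 207) (nat_lit 0) (cs (lf (nat_lit 23) (nat_lit 206)) (nd (nat_lit 165) (nat_lit 0) (cs (lf (nat_lit 34) (nat_lit 164)) (rf (nat_lit 10)))))))))))) (cs (nd (nat_lit 186) (nat_lit 0) (cs (lf (nat_lit 24) (nat_lit 164)) (nd (nat_lit 251) (nat_lit 0) (cs (lf (nat_lit 41) (nat_lit 185)) (nd (nat_lit 232) (nat_lit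 0) (cs (lf (nat_lit 6) (nat_lit 229)) (nd (nat_lit 210) (nat_lit 0) (cs (lf (nat_lit 17) (nat_lit 207)) (nd (nat_lit 187) (nat_lit 0) (cs (lf (nat_lit 35) (nat_lit 164)) (nd (nat_lit 188) (nat_lit 0) (cs (lf (nat_lit 36) (nat_lit 165)) (nd (nat_lit 207) (nat_lit 0) (cs (lf (nat_lit 6) (nat_lit 185)) (lf (nat_lit 23) (nat_lit 206)))))))))))))))) (nd (nat_lit 209) (nat_lit 0) (cs (rf (nat_lit 11)) (cs (rf (nat_lit 12)) (cs (rf (nat_lit 13)) (nd (nat_lit 210) (nat_lit 0) (cs (lf (nat_lit 6) (nat_lit 207)) (nd (nat_lit 187) (nat_lit 0) (cs (lf (nat_lit 36) (nat_lit 164)) (nd (nat_lit 254) (nat_lit 0) (cs (lf (nat_lit 29) (nat_lit 187)) (nd (nat_lit 188) (nat_lit 0) (cs (lf (nat_lit 35) (nat_lit 165)) (nd (nat_lit 189) (nat_lit 0) (cs (lf (nat_lit 12) (nat_lit 185)) (lf (nat_lit 6) (nat_lit 186))))))))))))))))))))) (cs (nd (nat_lit 275) (nat_lit 0) (cs (rf (nat_lit 1)) (cs (rf (nat_lit 2)) (nd (nat_lit 209) (nat_lit 0) (cs (rf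 (nat_lit 4)) (cs (nd (nat_lit 186) (nat_lit 0) (cs (lf (nat_lit 46) (nat_lit 186)) (nd (nat_lit 276) (nat_lit 0) (cs (lf (nat_lit 29) (nat_lit 209)) (nd (nat_lit 277) (nat_lit 0) (cs (lf (nat_lit 18) (nat_lit 252)) (nd (nat_lit 251) (nat_lit 0) (cs (lf (nat_lit 3) (nat_lit 251)) (nd (nat_lit 232) (nat_lit 0) (cs (lf (nat_lit 6) (nat_lit 229)) (rf (nat_lit 14)))))))))))) (rf (nat_lit 15)))))))) (rf (nat_lit 16))))))) q90443 (by decide +kernel)
def q90526 : Q := Q.p (nat_lit 0x3000004000000000000000000000000000000000000000000000000000000000) (nat_lit 0x700007c0000480007bc001ff0007fc000780000a00000000000000000000000000000000000) (nat_lit 12)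
theorem c90526 : QOK q90526 := cut [q6259, q79029, q79066, q10803, q87238, q90501, q90511, q90525] ⟨c6259, c79029, c79066, c10803, c87238, c90501, c90511, c90525, trivial⟩ (nd (nat_lit 208) (nat_lit 0) (cs (rf (nat_lit 0)) (cs (rf (nat_lit 1)) (cs (rf (nat_lit 2)) (cs (nd (nat_lit 209) (nat_lit 0) (cs (rf (nat_lit 3)) (cs (rf (nat_lit 4)) (cs (rf (nat_lit 5)) (rf (nat_lit 6)))))) (rf (nat_lit 7))))))) q90526 (by decide +kernel)
def q90548 : Q := Q.p (nat_lit 0x3000004000000000000000000000000000000000000000000000000000000000) (nat_lit 0x20000380000e0000f80007f8000480000b8000380000c0000300000800000000000000000000000000000000000) (nat_lit 13)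
theorem c90548 : QOK q90548 := cut [q3991, q6259, q6561, q90522, q79031, q79034, q87246, q87351] ⟨c3991, c6259, c6561, c90522, c79031, c79034, c87246, c87351, trivial⟩ (nd (nat_lit 208) (nat_lit 0) (cs (rf (nat_lit 0)) (cs (rf (nat_lit 1)) (cs (rf (nat_lit 2)) (cs (rf (nat_lit 3)) (nd (nat_lit 187) (nat_lit 0) (cs (rf (nat_lit 4)) (cs (rf (nat_lit 5)) (cs (rf (nat_lit 6)) (nd (nat_lit 274) (nat_lit 0) (cs (lf (nat_lit 34) (nat_lit 186)) (nd (nat_lit 273) (nat_lit 0) (cs (lf (nat_lit 41) (nat_lit 207)) (nd (nat_lit 271) (nat_lit 0) (cs (lf (nat_lit 13) (nat_lit 249)) (nd (nat_lit 186) (nat_lit 0) (cs (lf (nat_lit 40) (nat_lit 185)) (nd (nat_lit 231) (nat_lit 0) (cs (lf (nat_lit 24) (nat_lit 164)) (nd (nat_lit 296) (nat_lit 0) (cs (lf (nat_lit 30) (nat_lit 230)) (nd (nat_lit 297) (nat_lit 0) (cs (lf (nat_lit 29) (nat_lit 230)) (nd (nat_lit 298) (nat_lit 0) (cs (lf (nat_lit 18) (nat_lit 273)) (rf (nat_lit 7)))))))))))))))))))))))))))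 q90548 (by decide +kernel)
def q90570 : Q := Q.p (nat_lit 0x800003000000000000000000000000000000000000000000000000000000000000000) (nat_lit 0x300001c000070000fc0003f8000770000400001c000060000180000000000000000000000000000000000000000000000) (nat_lit 11)
theorem c90570 : QOK q90570 := cut [q88950, q89612, q89621, q89622, q89626] ⟨c88950, c89612, c89621, c89622, c89626, trivial⟩ (nd (nat_lit 297) (nat_lit 0) (cs (rf (nat_lit 0)) (cs (rf (nat_lit 1)) (cs (rf (nat_lit 2)) (cs (rf (nat_lit 3)) (rf (nat_lit 4))))))) q90570 (by decide +kernel)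
def q90576 : Q := Q.p (nat_lit 0x800003000000000000000000000000000000000000000000000000000000000000000) (nat_lit 0x140000700001c0000780007000004c0007c000060000000000000000000000000000000000000000000000000000) (nat_lit 7)
theorem c90576 : QOK q90576 := cut [q89612, q89613, q90572, q90573, q88944, q90575] ⟨c89612, c89613, c90572, c90573, c88944, c90575, trivial⟩ (nd (nat_lit 297) (nat_lit 0) (cs (rf (nat_lit 0)) (cs (rf (nat_lit 1)) (cs (rf (nat_lit 2)) (cs (rf (nat_lit 3)) (cs (nd (nat_lit 319) (nat_lit 0) (cs (lf (nat_lit 47) (nat_lit 230)) (rf (nat_lit 4)))) (rf (nat_lit 5)))))))) q90576 (by decide +kernel)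
def q90615 : Q := Q.p (nat_lit 0x800003000000000000000000000000000000000000000000000000000000000000000) (nat_lit 0x140000700001c0000f800007c0004c0007c0000600001c0000700000400000000000000000000000000000000000) (nat_lit 10)
theorem c90615 : QOK q90615 := cut [q88950, q89612, q89626, q90575, q81211, q90571, q90603, q82275, q90612] ⟨c88950, c89612, c89626, c90575, c81211, c90571, c90603, c82275, c90612, trivial⟩ (nd (nat_lit 297) (nat_lit 0) (cs (rf (nat_lit 0)) (cs (rf (nat_lit 1)) (cs (rf (nat_lit 2)) (cs (rf (nat_lit 3)) (nd (nat_lit 231) (nat_lit 0) (cs (rf (nat_lit 4)) (cs (rf (nat_lit 5)) (cs (nd (nat_lit 298) (nat_lit 0) (cs (lf (nat_lit 29) (nat_lit 231)) (nd (nat_lit 296) (nat_lit 0) (cs (lf (nat_lit 41) (nat_lit 230)) (rf (nat_lit 6)))))) (nd (nat_lit 251) (nat_lit 0) (cs (rf (nat_lit 7)) (rf (nat_lit 8))))))))))))) q90615 (by decide +kernel)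
def q90701 : Q := Q.p (nat_lit 0x800003000000000000000000000000000000000000000000000000000000000000000) (nat_lit 0x160000f80007fc000ff00077e0004e0000fc000680001e0000700000400000000000000000000000000000000000) (nat_lit 16)
theorem c90701 : QOK q90701 := cut [q2091, q89735, q90632, q89626, q90573, q90658, q90661, q86434, q90666, q15961, q89112, q90669, q90674, q21908, q90688, q25889] ⟨c2091, c89735, c90632, c89626, c90573, c90658, c90661, c86434, c90666, c15961, c89112, c90669, c90674, c21908, c90688, c25889, trivial⟩ (nd (nat_lit 251) (nat_lit 0) (cs (rf (nat_lit 0)) (cs (rf (nat_lit 1)) (cs (rf (nat_lit 2)) (nd (nat_lit 297) (nat_lit 0) (cs (rf (nat_lit 3)) (cs (rf (nat_lit 4)) (cs (nd (nat_lit 296) (nat_lit 0) (cs (rf (nat_lit 5)) (cs (rf (nat_lit 6)) (cs (nd (nat_lit 274) (nat_lit 0) (cs (rf (nat_lit 7)) (rf (nat_lit 8)))) (cs (nd (nat_lit 274) (nat_lit 0) (cs (rf (nat_lit 9)) (cs (rf (nat_lit 10)) (rf (nat_lit 8))))) (rf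 (nat_lit 11))))))) (cs (rf (nat_lit 12)) (cs (nd (nat_lit 319) (nat_lit 0) (cs (lf (nat_lit 47) (nat_lit 230)) (nd (nat_lit 320) (nat_lit 0) (cs (lf (nat_lit 29) (nat_lit 253)) (nd (nat_lit 231) (nat_lit 0) (cs (lf (nat_lit 28) (nat_lit 231)) (rf (nat_lit 13)))))))) (cs (nd (nat_lit 319) (nat_lit 0) (cs (lf (nat_lit 47) (nat_lit 230)) (nd (nat_lit 320) (nat_lit 0) (cs (lf (nat_lit 29) (nat_lit 253)) (nd (nat_lit 318) (nat_lit 0) (cs (lf (nat_lit 41) (nat_lit 252)) (nd (nat_lit 296) (nat_lit 0) (cs (lf (nat_lit 36) (nat_lit 230)) (nd (nat_lit 274) (nat_lit 0) (cs (lf (nat_lit 42) (nat_lit 252)) (lf (nat_lit 47) (nat_lit 229)))))))))))) (cs (rf (nat_lit 14)) (nd (nat_lit 319) (nat_lit 0) (cs (lf (nat_lit 47) (nat_lit 230)) (nd (nat_lit 320) (nat_lit 0) (cs (lf (nat_lit 29) (nat_lit 253)) (nd (nat_lit 318) (nat_lit 0) (cs (lf (nat_lit 41) (nat_lit 252)) (nd (nat_lit 274) (nat_lit 0) (cs (lf (nat_lit 42) (nat_lit 252)) (nd (nat_lit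 276) (nat_lit 0) (cs (lf (nat_lit 18) (nat_lit 251)) (nd (nat_lit 229) (nat_lit 0) (cs (lf (nat_lit 43) (nat_lit 229)) (nd (nat_lit 185) (nat_lit 0) (cs (lf (nat_lit 25) (nat_lit 185)) (nd (nat_lit 254) (nat_lit 0) (cs (lf (nat_lit 23) (nat_lit 228)) (nd (nat_lit 273) (nat_lit 0) (cs (lf (nat_lit 12) (nat_lit 250)) (nd (nat_lit 298) (nat_lit 0) (cs (lf (nat_lit 5) (nat_lit 273)) (nd (nat_lit 321) (nat_lit 0) (cs (rf (nat_lit 15)) (lf (nat_lit 29) (nat_lit 254)))))))))))))))))))))))))))))))))))) q90701 (by decide +kernel)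
def q90745 : Q := Q.p (nat_lit 0x200000800002000008000000000000000000000000000000000000000000000000000000000) (nat_lit 0xf78001dc0007780000000000000000000000000000000000000000000000000000000000000000000) (nat_lit 10)
theorem c90745 : QOK q90745 := cut [q11666, q88938, q88939] ⟨c11666, c88938, c88939, trivial⟩ (nd (nat_lit 296) (nat_lit 0) (cs (lf (nat_lit 41) (nat_lit 230)) (nd (nat_lit 295) (nat_lit 0) (cs (rf (nat_lit 0)) (cs (rf (nat_lit 1)) (rf (nat_lit 2))))))) q90745 (by decide +kernel)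
def q90775 : Q := Q.p (nat_lit 0x800003000000000000000000000000000000000000000000000000000000000000000) (nat_lit 0x140000740001f0001ff0003fe001f78000400001f800058000040000000000000000000000000000000000000000000000) (nat_lit 15)
theorem c90775 : QOK q90775 := cut [q88933, q88941, q89530, q90750, q89649, q90752, q22531, q90756, q11531, q89633, q52574, q89440, q28147, q90767] ⟨c88933, c88941, c89530, c90750, c89649, c90752, c22531, c90756, c11531, c89633, c52574, c89440, c28147, c90767, trivial⟩ (nd (nat_lit 297) (nat_lit 0) (cs (rf (nat_lit 0)) (cs (rf (nat_lit 1)) (cs (rf (nat_lit 2)) (nd (nat_lit 298) (nat_lit 0) (cs (rf (nat_lit 3)) (cs (nd (nat_lit 231) (nat_lit 0) (cs (lf (nat_lit 29) (nat_lit 231)) (rf (nat_lit 4)))) (cs (nd (nat_lit 296) (nat_lit 0) (cs (rf (nat_lit 5)) (cs (nd (nat_lit 318) (nat_lit 0) (cs (lf (nat_lit 36) (nat_lit 230)) (nd (nat_lit 340) (nat_lit 0) (cs (lf (nat_lit 30) (nat_lit 274)) (nd (nat_lit 299)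 (nat_lit 0) (cs (lf (nat_lit 11) (nat_lit 295)) (rf (nat_lit 6)))))))) (rf (nat_lit 7))))) (nd (nat_lit 299) (nat_lit 0) (cs (rf (nat_lit 8)) (cs (rf (nat_lit 9)) (cs (nd (nat_lit 296) (nat_lit 0) (cs (rf (nat_lit 10)) (cs (rf (nat_lit 11)) (nd (nat_lit 317) (nat_lit 0) (cs (lf (nat_lit 10) (nat_lit 295)) (nd (nat_lit 295) (nat_lit 0) (cs (lf (nat_lit 11) (nat_lit 294)) (rf (nat_lit 12))))))))) (nd (nat_lit 278) (nat_lit 0) (cs (nd (nat_lit 277) (nat_lit 0) (cs (lf (nat_lit 12) (nat_lit 274)) (lf (nat_lit 20) (nat_lit 252)))) (cs (rf (nat_lit 13)) (cs (nd (nat_lit 279) (nat_lit 0) (cs (lf (nat_lit 15) (nat_lit 275)) (nd (nat_lit 277) (nat_lit 0) (cs (lf (nat_lit 6) (nat_lit 276)) (lf (nat_lit 12) (nat_lit 274)))))) (nd (nat_lit 279) (nat_lit 0) (cs (lf (nat_lit 15) (nat_lit 275)) (nd (nat_lit 277) (nat_lit 0) (cs (lf (nat_lit 6) (nat_lit 276)) (lf (nat_lit 20) (nat_lit 252)))))))))))))))))))))) q90775 (by decide +kernel)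
def q90778 : Q := Q.p (nat_lit 0x3800000000000000000000000000000000000000000000000000000000000000) (nat_lit 0x600001c0000fc0004000007c0001c0003f00003c0000500000000000000000000000000000000000) (nat_lit 11)
theorem c90778 : QOK q90778 := cut [q82198, q89664, q89672, q90777] ⟨c82198, c89664, c89672, c90777, trivial⟩ (nd (nat_lit 229) (nat_lit 0) (cs (rf (nat_lit 0)) (cs (rf (nat_lit 1)) (cs (rf (nat_lit 2)) (rf (nat_lit 3)))))) q90778 (by decide +kernel)
def q90785 : Q := Q.p (nat_lit 0x800003800000000000000000000000000000000000000000000000000000000000000) (nat_lit 0x140000700001c000070000100000400007c000050000140000000000000000000000000000000000000000000000) (nat_lit 7)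
theorem c90785 : QOK q90785 := cut [q88941, q89612, q89613, q90784] ⟨c88941, c89612, c89613, c90784, trivial⟩ (nd (nat_lit 297) (nat_lit 0) (cs (rf (nat_lit 0)) (cs (rf (nat_lit 1)) (cs (rf (nat_lit 2)) (rf (nat_lit 3)))))) q90785 (by decide +kernel)
def q90846 : Q := Q.p (nat_lit 0x300000800003000000000000000000000000000000000000000000000000000000000000000) (nat_lit 0x18000078000cc0003400000e00006000018000000000000000000000000000000000000000000000000000) (nat_lit 7)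
theorem c90846 : QOK q90846 := cut [q14320, q89455, q90842, q90845] ⟨c14320, c89455, c90842, c90845, trivial⟩ (nd (nat_lit 274) (nat_lit 0) (cs (rf (nat_lit 0)) (cs (rf (nat_lit 1)) (cs (rf (nat_lit 2)) (rf (nat_lit 3)))))) q90846 (by decide +kernel)
def q90856 : Q := Q.p (nat_lit 0x800003000000000000000000000000000000000000000000000000000000000000000) (nat_lit 0xa00003e0000f8000ffc001ff800f7f0000c0007f000058000040000000000000000000000000000000000000000000000) (nat_lit 12)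
theorem c90856 : QOK q90856 := cut [q88933, q88941, q89626, q89372, q90752, q89376, q90756, q90853] ⟨c88933, c88941, c89626, c89372, c90752, c89376, c90756, c90853, trivial⟩ (nd (nat_lit 297) (nat_lit 0) (cs (rf (nat_lit 0)) (cs (rf (nat_lit 1)) (cs (rf (nat_lit 2)) (nd (nat_lit 296) (nat_lit 0) (cs (rf (nat_lit 3)) (cs (rf (nat_lit 4)) (nd (nat_lit 298) (nat_lit 0) (cs (rf (nat_lit 5)) (cs (rf (nat_lit 6)) (rf (nat_lit 7)))))))))))) q90856 (by decide +kernel)
def q90905 : Q := Q.p (nat_lit 0x3000008000000000000000000000000000000000000000000000000000000000) (nat_lit 0x40000700001c0000e00007c000040000f7c003fe0003fc000700001400000000000000000000000000000000000) (nat_lit 14)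
theorem c90905 : QOK q90905 := cut [q82309, q88751, q88756, q88818, q88826, q90876, q119, q90877, q78, q2935, q2938, q21908, q90903] ⟨c82309, c88751, c88756, c88818, c88826, c90876, c119, c90877, c78, c2935, c2938, c21908, c90903, trivial⟩ (nd (nat_lit 209) (nat_lit 0) (cs (rf (nat_lit 0)) (cs (rf (nat_lit 1)) (cs (rf (nat_lit 2)) (nd (nat_lit 275) (nat_lit 0) (cs (rf (nat_lit 3)) (cs (rf (nat_lit 4)) (cs (rf (nat_lit 5)) (cs (nd (nat_lit 208) (nat_lit 0) (cs (lf (nat_lit 47) (nat_lit 186)) (nd (nat_lit 207) (nat_lit 0) (cs (rf (nat_lit 6)) (cs (nd (nat_lit 210) (nat_lit 0) (cs (lf (nat_lit 35) (nat_lit 187)) (nd (nat_lit 276) (nat_lit 0) (cs (lf (nat_lit 29) (nat_lit 209)) (nd (nat_lit 277) (nat_lit 0) (cs (lf (nat_lit 18) (nat_lit 252)) (nd (nat_lit 184) (nat_lit 0) (cs (lf (nat_lit 22) (nat_lit 184)) (nd (nat_lit 228) (nat_lit 0) (cs (lf (nat_lit 10) (nat_lit 206)) (nd (nat_lit 232) (nat_lit 0) (cs (lf (nat_lit 5) (nat_lit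 207)) (rf (nat_lit 7)))))))))))))) (cs (nd (nat_lit 210) (nat_lit 0) (cs (lf (nat_lit 35) (nat_lit 187)) (nd (nat_lit 276) (nat_lit 0) (cs (lf (nat_lit 29) (nat_lit 209)) (nd (nat_lit 184) (nat_lit 0) (cs (lf (nat_lit 22) (nat_lit 184)) (nd (nat_lit 277) (nat_lit 0) (cs (rf (nat_lit 8)) (lf (nat_lit 18) (nat_lit 252)))))))))) (cs (nd (nat_lit 188) (nat_lit 0) (cs (lf (nat_lit 34) (nat_lit 187)) (nd (nat_lit 276) (nat_lit 0) (cs (lf (nat_lit 29) (nat_lit 209)) (nd (nat_lit 277) (nat_lit 0) (cs (lf (nat_lit 18) (nat_lit 252)) (rf (nat_lit 9)))))))) (nd (nat_lit 188) (nat_lit 0) (cs (lf (nat_lit 34) (nat_lit 187)) (nd (nat_lit 276) (nat_lit 0) (cs (lf (nat_lit 29) (nat_lit 209)) (nd (nat_lit 277) (nat_lit 0) (cs (lf (nat_lit 18) (nat_lit 252)) (rf (nat_lit 10))))))))))))))) (cs (nd (nat_lit 188) (nat_lit 0) (cs (lf (nat_lit 34) (nat_lit 187)) (nd (nat_lit 298) (nat_lit 0) (cs (lf (nat_lit 28) (nat_lit 209)) (nd (nat_lit 186)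 (nat_lit 0) (cs (lf (nat_lit 46) (nat_lit 186)) (nd (nat_lit 297) (nat_lit 0) (cs (lf (nat_lit 29) (nat_lit 231)) (nd (nat_lit 319) (nat_lit 0) (cs (lf (nat_lit 47) (nat_lit 230)) (rf (nat_lit 11)))))))))))) (rf (nat_lit 12)))))))))))) q90905 (by decide +kernel)
def q90964 : Q := Q.p (nat_lit 0x3000008000000000000000000000000000000000000000000000000000000000) (nat_lit 0x140000700001c0000600007c00000c000740000700001c0000700001400000000000000000000000000000000000) (nat_lit 13)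
theorem c90964 : QOK q90964 := cut [q82300, q82301, q82309, q88916, q90903, q90950, q4090, q80750, q82299, q88923] ⟨c82300, c82301, c82309, c88916, c90903, c90950, c4090, c80750, c82299, c88923, trivial⟩ (nd (nat_lit 209) (nat_lit 0) (cs (rf (nat_lit 0)) (cs (rf (nat_lit 1)) (cs (rf (nat_lit 2)) (cs (nd (nat_lit 275) (nat_lit 0) (cs (rf (nat_lit 3)) (cs (rf (nat_lit 4)) (nd (nat_lit 186) (nat_lit 0) (cs (lf (nat_lit 46) (nat_lit 186)) (nd (nat_lit 210) (nat_lit 0) (cs (lf (nat_lit 35) (nat_lit 187)) (nd (nat_lit 276) (nat_lit 0) (cs (lf (nat_lit 29) (nat_lit 209)) (nd (nat_lit 277) (nat_lit 0) (cs (lf (nat_lit 18) (nat_lit 252)) (nd (nat_lit 250) (nat_lit 0) (cs (lf (nat_lit 1) (nat_lit 250)) (nd (nat_lit 297) (nat_lit 0) (cs (lf (nat_lit 34) (nat_lit 209)) (rf (nat_lit 5))))))))))))))))) (nd (nat_lit 187) (nat_lit 0) (cs (rf (nat_lit 6)) (cs (rf (nat_lit 7)) (cs (rf (nat_lit 8)) (nd (nat_lit 166) (nat_lit 0) (cs (lf (nat_lit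 34) (nat_lit 165)) (nd (nat_lit 186) (nat_lit 0) (cs (lf (nat_lit 47) (nat_lit 164)) (nd (nat_lit 275) (nat_lit 0) (cs (lf (nat_lit 46) (nat_lit 186)) (nd (nat_lit 298) (nat_lit 0) (cs (lf (nat_lit 28) (nat_lit 209)) (nd (nat_lit 297) (nat_lit 0) (cs (lf (nat_lit 29) (nat_lit 231)) (rf (nat_lit 9))))))))))))))))))))) q90964 (by decide +kernel)
def q90999 : Q := Q.p (nat_lit 0x3000008000000000000000000000000000000000000000000000000000000000) (nat_lit 0x1d80007f800140001f7c00ffe001ffc000f00003400000000000000000000000000000000000) (nat_lit 16)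
theorem c90999 : QOK q90999 := cut [q82309, q88751, q88756, q7464, q85101, q85105, q90969, q90978, q90993, q84304, q84315, q84555, q89494, q90995] ⟨c82309, c88751, c88756, c7464, c85101, c85105, c90969, c90978, c90993, c84304, c84315, c84555, c89494, c90995, trivial⟩ (nd (nat_lit 209) (nat_lit 0) (cs (rf (nat_lit 0)) (cs (rf (nat_lit 1)) (cs (rf (nat_lit 2)) (nd (nat_lit 210) (nat_lit 0) (cs (rf (nat_lit 3)) (cs (nd (nat_lit 211) (nat_lit 0) (cs (rf (nat_lit 4)) (cs (rf (nat_lit 5)) (cs (rf (nat_lit 6)) (cs (nd (nat_lit 275) (nat_lit 0) (cs (lf (nat_lit 35) (nat_lit 187)) (nd (nat_lit 208) (nat_lit 0) (cs (lf (nat_lit 47) (nat_lit 186)) (nd (nat_lit 274) (nat_lit 0) (cs (lf (nat_lit 41) (nat_lit 208)) (nd (nat_lit 189) (nat_lit 0) (cs (lf (nat_lit 17) (nat_lit 186)) (nd (nat_lit 276) (nat_lit 0) (cs (lf (nat_lit 29) (nat_lit 209)) (nd (nat_lit 278) (nat_lit 0) (cs (lf (nat_lit 19) (nat_lit 252)) (nd (nat_lit 234) (nat_lit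 0) (cs (lf (nat_lit 4) (nat_lit 208)) (nd (nat_lit 212) (nat_lit 0) (cs (lf (nat_lit 5) (nat_lit 209)) (lf (nat_lit 43) (nat_lit 189)))))))))))))))))) (nd (nat_lit 275) (nat_lit 0) (cs (lf (nat_lit 35) (nat_lit 187)) (nd (nat_lit 208) (nat_lit 0) (cs (lf (nat_lit 47) (nat_lit 186)) (nd (nat_lit 274) (nat_lit 0) (cs (lf (nat_lit 41) (nat_lit 208)) (nd (nat_lit 230) (nat_lit 0) (cs (lf (nat_lit 11) (nat_lit 207)) (nd (nat_lit 185) (nat_lit 0) (cs (lf (nat_lit 46) (nat_lit 185)) (nd (nat_lit 276) (nat_lit 0) (cs (lf (nat_lit 29) (nat_lit 209)) (nd (nat_lit 277) (nat_lit 0) (cs (lf (nat_lit 18) (nat_lit 252)) (nd (nat_lit 299) (nat_lit 0) (cs (lf (nat_lit 5) (nat_lit 274)) (nd (nat_lit 233) (nat_lit 0) (cs (lf (nat_lit 5) (nat_lit 208)) (rf (nat_lit 7))))))))))))))))))))))))) (cs (rf (nat_lit 8)) (nd (nat_lit 211) (nat_lit 0) (cs (rf (nat_lit 9)) (cs (rf (nat_lit 10)) (cs (rf (nat_lit 11)) (cs (rf (nat_lit 6)) (nd (nat_lit 208)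 (nat_lit 0) (cs (rf (nat_lit 12)) (rf (nat_lit 13))))))))))))))))) q90999 (by decide +kernel)
def q91006 : Q := Q.p (nat_lit 0x3000008000020000000000000000000000000000000000000000000000000000) (nat_lit 0x1300005c0007fc0004e00073c0000e0000380000a0000000000000000000000000000000000000000) (nat_lit 11)
theorem c91006 : QOK q91006 := cut [q82278, q89827, q91005] ⟨c82278, c89827, c91005, trivial⟩ (nd (nat_lit 251) (nat_lit 0) (cs (rf (nat_lit 0)) (cs (rf (nat_lit 1)) (rf (nat_lit 2))))) q91006 (by decide +kernel)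
def q91033 : Q := Q.p (nat_lit 0x3000008000000000000000000000000000000000000000000000000000000000) (nat_lit 0x580003f80004e000078000fe0003f8000780001400000000000000000000000000000000000) (nat_lit 13)
theorem c91033 : QOK q91033 := cut [q82300, q82309, q88756, q88771, q1563, q84417, q23510, q90323, q91016, q88089, q11004, q91025, q87682, q91031] ⟨c82300, c82309, c88756, c88771, c1563, c84417, c23510, c90323, c91016, c88089, c11004, c91025, c87682, c91031, trivial⟩ (nd (nat_lit 209) (nat_lit 0) (cs (rf (nat_lit 0)) (cs (rf (nat_lit 1)) (cs (rf (nat_lit 2)) (cs (rf (nat_lit 3)) (nd (nat_lit 208) (nat_lit 0) (cs (rf (nat_lit 4)) (cs (nd (nat_lit 230) (nat_lit 0) (cs (nd (nat_lit 229) (nat_lit 0) (cs (rf (nat_lit 5)) (nd (nat_lit 210) (nat_lit 0) (cs (lf (nat_lit 6) (nat_lit 207)) (nd (nat_lit 188) (nat_lit 0) (cs (lf (nat_lit 30) (nat_lit 187)) (nd (nat_lit 207) (nat_lit 0) (cs (lf (nat_lit 17) (nat_lit 185)) (rf (nat_lit 6))))))))))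 (cs (nd (nat_lit 274) (nat_lit 0) (cs (lf (nat_lit 30) (nat_lit 208)) (nd (nat_lit 273) (nat_lit 0) (cs (lf (nat_lit 41) (nat_lit 207)) (rf (nat_lit 7)))))) (cs (rf (nat_lit 8)) (nd (nat_lit 274) (nat_lit 0) (cs (lf (nat_lit 30) (nat_lit 208)) (nd (nat_lit 273) (nat_lit 0) (cs (lf (nat_lit 41) (nat_lit 207)) (nd (nat_lit 271) (nat_lit 0) (cs (lf (nat_lit 13) (nat_lit 249)) (nd (nat_lit 207) (nat_lit 0) (cs (lf (nat_lit 47) (nat_lit 185)) (nd (nat_lit 206) (nat_lit 0) (cs (lf (nat_lit 0) (nat_lit 205)) (rf (nat_lit 9)))))))))))))))) (cs (nd (nat_lit 230) (nat_lit 0) (cs (rf (nat_lit 10)) (cs (rf (nat_lit 8)) (cs (rf (nat_lit 11)) (nd (nat_lit 274) (nat_lit 0) (cs (lf (nat_lit 30) (nat_lit 208)) (nd (nat_lit 164) (nat_lit 0) (cs (lf (nat_lit 25) (nat_lit 164)) (rf (nat_lit 12)))))))))) (rf (nat_lit 13))))))))))) q91033 (by decide +kernel)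
def q91055 : Q := Q.p (nat_lit 0x3000008000000000000000000000000000000000000000000000000000000000) (nat_lit 0x500003c00004c00077c001fe000ffc000780001600000000000000000000000000000000000) (nat_lit 11)
theorem c91055 : QOK q91055 := cut [q82309, q88751, q88756, q1563, q91031, q91044, q91053] ⟨c82309, c88751, c88756, c1563, c91031, c91044, c91053, trivial⟩ (nd (nat_lit 209) (nat_lit 0) (cs (rf (nat_lit 0)) (cs (rf (nat_lit 1)) (cs (rf (nat_lit 2)) (nd (nat_lit 208) (nat_lit 0) (cs (rf (nat_lit 3)) (cs (rf (nat_lit 4)) (cs (rf (nat_lit 5)) (rf (nat_lit 6)))))))))) q91055 (by decide +kernel)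
def q91061 : Q := Q.p (nat_lit 0x3000008000000000000000000000000000000000000000000000000000000000) (nat_lit 0x580003f80000e00077c001fe000ffc000780001400000000000000000000000000000000000) (nat_lit 11)
theorem c91061 : QOK q91061 := cut [q82300, q82301, q82309, q1563, q91031, q91044, q91056, q91060] ⟨c82300, c82301, c82309, c1563, c91031, c91044, c91056, c91060, trivial⟩ (nd (nat_lit 209) (nat_lit 0) (cs (rf (nat_lit 0)) (cs (rf (nat_lit 1)) (cs (rf (nat_lit 2)) (cs (nd (nat_lit 208) (nat_lit 0) (cs (rf (nat_lit 3)) (cs (rf (nat_lit 4)) (cs (rf (nat_lit 5)) (rf (nat_lit 6)))))) (rf (nat_lit 7))))))) q91061 (by decide +kernel)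
def q91084 : Q := Q.p (nat_lit 0x1a00003800000000000000000000000000000000000000000000000000000000000000) (nat_lit 0xc0000300000c000001000040000380000e0000380000000000000000000000000000000000000000000000) (nat_lit 9)
theorem c91084 : QOK q91084 := cut [q91083] ⟨c91083, trivial⟩ (nd (nat_lit 254) (nat_lit 0) (cs (lf (nat_lit 11) (nat_lit 250)) (rf (nat_lit 0)))) q91084 (by decide +kernel)
def q91149 : Q := Q.p (nat_lit 0x3000008000000000000000000000000000000000000000000000000000000000) (nat_lit 0x180000600003e00004e00077c000dc000370000dc0000500000000000000000000000000000000000) (nat_lit 11)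
theorem c91149 : QOK q91149 := cut [q82275, q82278, q91142, q82274, q82277, q91143, q91144, q91146] ⟨c82275, c82278, c91142, c82274, c82277, c91143, c91144, c91146, trivial⟩ (nd (nat_lit 251) (nat_lit 0) (cs (rf (nat_lit 0)) (cs (rf (nat_lit 1)) (cs (rf (nat_lit 2)) (nd (nat_lit 232) (nat_lit 0) (cs (rf (nat_lit 3)) (cs (rf (nat_lit 4)) (nd (nat_lit 229) (nat_lit 0) (cs (rf (nat_lit 5)) (cs (rf (nat_lit 6)) (rf (nat_lit 7)))))))))))) q91149 (by decide +kernel)
def q91150 : Q := Q.p (nat_lit 0x3000008000000000000000000000000000000000000000000000000000000000) (nat_lit 0xe0000780003600004e00077c000fe0007f80007c0001500000000000000000000000000000000000) (nat_lit 12)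
theorem c91150 : QOK q91150 := cut [q82275, q82278, q89969, q89975] ⟨c82275, c82278, c89969, c89975, trivial⟩ (nd (nat_lit 251) (nat_lit 0) (cs (rf (nat_lit 0)) (cs (rf (nat_lit 1)) (cs (rf (nat_lit 2)) (rf (nat_lit 3)))))) q91150 (by decide +kernel)
def q91165 : Q := Q.p (nat_lit 0x3000008000000000000000000000000000000000000000000000000000000000) (nat_lit 0x1f00007c00004c000740000600001c0000700000400000000000000000000000000000000000) (nat_lit 9)
theorem c91165 : QOK q91165 := cut [q82309, q91163, q4090, q90278] ⟨c82309, c91163, c4090, c90278, trivial⟩ (nd (nat_lit 209) (nat_lit 0) (cs (rf (nat_lit 0)) (cs (rf (nat_lit 1)) (nd (nat_lit 187) (nat_lit 0) (cs (rf (nat_lit 2)) (rf (nat_lit 3))))))) q91165 (by decide +kernel)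
def q91188 : Q := Q.p (nat_lit 0x3000008000000000000000000000000000000000000000000000000000000000) (nat_lit 0x180001f00007c00004c00074000070000180000600001000000000000000000000000000000000000) (nat_lit 10)
theorem c91188 : QOK q91188 := cut [q82300, q91163, q91002, q91177, q91180, q91187] ⟨c82300, c91163, c91002, c91177, c91180, c91187, trivial⟩ (nd (nat_lit 209) (nat_lit 0) (cs (rf (nat_lit 0)) (cs (rf (nat_lit 1)) (cs (nd (nat_lit 276) (nat_lit 0) (cs (rf (nat_lit 2)) (cs (rf (nat_lit 3)) (nd (nat_lit 275) (nat_lit 0) (cs (lf (nat_lit 29) (nat_lit 209)) (nd (nat_lit 277) (nat_lit 0) (cs (lf (nat_lit 18) (nat_lit 252)) (nd (nat_lit 250) (nat_lit 0) (cs (lf (nat_lit 1) (nat_lit 250)) (rf (nat_lit 4))))))))))) (rf (nat_lit 5)))))) q91188 (by decide +kernel)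
def q91236 : Q := Q.p (nat_lit 0x800003000000000000000000000000000000000000000000000000000000000000000) (nat_lit 0xa00003e0000f80007fc000ff80077f000440000d000030000040000000000000000000000000000000000000000000000) (nat_lit 13)
theorem c91236 : QOK q91236 := cut [q88933, q88941, q89626, q89654] ⟨c88933, c88941, c89626, c89654, trivial⟩ (nd (nat_lit 297) (nat_lit 0) (cs (rf (nat_lit 0)) (cs (rf (nat_lit 1)) (cs (rf (nat_lit 2)) (rf (nat_lit 3)))))) q91236 (by decide +kernel)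
def q91297 : Q := Q.p (nat_lit 0x3000008000000000000000000000000000000000000000000000000000000000) (nat_lit 0x200000c00004c00077c001fe000ffc000780001600000000000000000000000000000000000) (nat_lit 11)
theorem c91297 : QOK q91297 := cut [q82300, q82301, q82309, q91060, q1563, q85065, q91044, q91053] ⟨c82300, c82301, c82309, c91060, c1563, c85065, c91044, c91053, trivial⟩ (nd (nat_lit 209) (nat_lit 0) (cs (rf (nat_lit 0)) (cs (rf (nat_lit 1)) (cs (rf (nat_lit 2)) (cs (rf (nat_lit 3)) (nd (nat_lit 208) (nat_lit 0) (cs (rf (nat_lit 4)) (cs (rf (nat_lit 5)) (cs (rf (nat_lit 6)) (rf (nat_lit 7))))))))))) q91297 (by decide +kernel)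
def q91338 : Q := Q.p (nat_lit 0x3000008000000000000000000000000000000000000000000000000000000000) (nat_lit 0x100001c0001f80007f800140003f7000ffc001fa0000e00003000000000000000000000000000000000000) (nat_lit 16)
theorem c91338 : QOK q91338 := cut [q82300, q88751, q91187, q91304, q88812, q88826, q88914, q84315, q84555, q90969, q89494, q90978, q91319, q88425] ⟨c82300, c88751, c91187, c91304, c88812, c88826, c88914, c84315, c84555, c90969, c89494, c90978, c91319, c88425, trivial⟩ (nd (nat_lit 209) (nat_lit 0) (cs (rf (nat_lit 0)) (cs (rf (nat_lit 1)) (cs (rf (nat_lit 2)) (cs (rf (nat_lit 3)) (nd (nat_lit 275) (nat_lit 0) (cs (rf (nat_lit 4)) (cs (rf (nat_lit 5)) (cs (rf (nat_lit 6)) (cs (nd (nat_lit 210) (nat_lit 0) (cs (lf (nat_lit 35) (nat_lit 187)) (nd (nat_lit 276) (nat_lit 0) (cs (lf (nat_lit 29) (nat_lit 209)) (nd (nat_lit 211) (nat_lit 0) (cs (rf (nat_lit 7)) (cs (rf (nat_lit 8)) (cs (rf (nat_lit 9)) (cs (nd (nat_lit 208)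 (nat_lit 0) (cs (rf (nat_lit 10)) (cs (nd (nat_lit 277) (nat_lit 0) (cs (lf (nat_lit 18) (nat_lit 252)) (nd (nat_lit 274) (nat_lit 0) (cs (lf (nat_lit 41) (nat_lit 208)) (nd (nat_lit 299) (nat_lit 0) (cs (lf (nat_lit 5) (nat_lit 274)) (nd (nat_lit 254) (nat_lit 0) (cs (lf (nat_lit 25) (nat_lit 210)) (nd (nat_lit 189) (nat_lit 0) (cs (lf (nat_lit 17) (nat_lit 186)) (nd (nat_lit 273) (nat_lit 0) (cs (lf (nat_lit 12) (nat_lit 250)) (nd (nat_lit 230) (nat_lit 0) (cs (lf (nat_lit 41) (nat_lit 207)) (lf (nat_lit 11) (nat_lit 207)))))))))))))))) (cs (nd (nat_lit 233) (nat_lit 0) (cs (lf (nat_lit 5) (nat_lit 208)) (nd (nat_lit 277) (nat_lit 0) (cs (lf (nat_lit 18) (nat_lit 252)) (nd (nat_lit 230) (nat_lit 0) (cs (lf (nat_lit 11) (nat_lit 207)) (nd (nat_lit 274) (nat_lit 0) (cs (lf (nat_lit 41) (nat_lit 208)) (nd (nat_lit 185) (nat_lit 0) (cs (lf (nat_lit 46) (nat_lit 185)) (nd (nat_lit 299) (nat_lit 0) (cs (lf (nat_lit 5) (nat_lit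 274)) (rf (nat_lit 11)))))))))))))) (nd (nat_lit 274) (nat_lit 0) (cs (lf (nat_lit 41) (nat_lit 208)) (rf (nat_lit 12)))))))) (nd (nat_lit 274) (nat_lit 0) (cs (lf (nat_lit 41) (nat_lit 208)) (nd (nat_lit 212) (nat_lit 0) (cs (lf (nat_lit 11) (nat_lit 208)) (nd (nat_lit 190) (nat_lit 0) (cs (lf (nat_lit 17) (nat_lit 187)) (nd (nat_lit 277) (nat_lit 0) (cs (lf (nat_lit 18) (nat_lit 252)) (nd (nat_lit 213) (nat_lit 0) (cs (lf (nat_lit 10) (nat_lit 209)) (nd (nat_lit 299) (nat_lit 0) (cs (lf (nat_lit 5) (nat_lit 274)) (nd (nat_lit 189) (nat_lit 0) (cs (lf (nat_lit 12) (nat_lit 186)) (nd (nat_lit 236) (nat_lit 0) (cs (lf (nat_lit 4) (nat_lit 210)) (nd (nat_lit 214) (nat_lit 0) (cs (lf (nat_lit 5) (nat_lit 211)) (lf (nat_lit 18) (nat_lit 189))))))))))))))))))))))))))))) (nd (nat_lit 274) (nat_lit 0) (cs (lf (nat_lit 41) (nat_lit 208)) (nd (nat_lit 210) (nat_lit 0) (cs (lf (nat_lit 35) (nat_lit 187)) (nd (nat_lit 297) (nat_lit 0)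 (cs (lf (nat_lit 34) (nat_lit 209)) (rf (nat_lit 13)))))))))))))))))) q91338 (by decide +kernel)
def q91410 : Q := Q.p (nat_lit 0x3000008000000000000000000000000000000000000000000000000000000000) (nat_lit 0x480007e0001f8001fe0007fc0004e000078001fe0001b8000280000000000000000000000000000000000000000) (nat_lit 18)
theorem c91410 : QOK q91410 := cut [q80881, q81837, q90301, q85470, q91353, q88809, q87559, q89966, q87874, q87875, q22948, q91362, q84108, q91380, q12193, q89929, q88302, q90628, q90323, q11657, q91378, q91397, q84637, q84557, q91402, q91409] ⟨c80881, c81837, c90301, c85470, c91353, c88809, c87559, c89966, c87874, c87875, c22948, c91362, c84108, c91380, c12193, c89929, c88302, c90628, c90323, c11657, c91378, c91397, c84637, c84557, c91402, c91409, trivial⟩ (nd (nat_lit 274) (nat_lit 0) (cs (rf (nat_lit 0)) (cs (rf (nat_lit 1)) (cs (nd (nat_lit 275) (nat_lit 0) (cs (rf (nat_lit 2)) (cs (nd (nat_lit 230) (nat_lit 0)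 (cs (rf (nat_lit 3)) (cs (rf (nat_lit 4)) (nd (nat_lit 272) (nat_lit 0) (cs (rf (nat_lit 5)) (cs (nd (nat_lit 228) (nat_lit 0) (cs (rf (nat_lit 6)) (cs (rf (nat_lit 7)) (nd (nat_lit 250) (nat_lit 0) (cs (rf (nat_lit 8)) (cs (rf (nat_lit 9)) (cs (nd (nat_lit 251) (nat_lit 0) (cs (lf (nat_lit 11) (nat_lit 249)) (lf (nat_lit 12) (nat_lit 227)))) (nd (nat_lit 294) (nat_lit 0) (cs (rf (nat_lit 10)) (cs (nd (nat_lit 319) (nat_lit 0) (cs (lf (nat_lit 43) (nat_lit 230)) (nd (nat_lit 317) (nat_lit 0) (cs (lf (nat_lit 28) (nat_lit 228)) (nd (nat_lit 316) (nat_lit 0) (cs (lf (nat_lit 29) (nat_lit 250)) (nd (nat_lit 337) (nat_lit 0) (cs (lf (nat_lit 40) (nat_lit 249)) (nd (nat_lit 338) (nat_lit 0) (cs (lf (nat_lit 41) (nat_lit 271)) (lf (nat_lit 7) (nat_lit 315)))))))))))) (nd (nat_lit 295) (nat_lit 0) (cs (lf (nat_lit 29) (nat_lit 228)) (nd (nat_lit 187) (nat_lit 0) (cs (lf (nat_lit 37) (nat_lit 186)) (nd (nat_lit 297) (nat_lit 0) (cs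 (lf (nat_lit 42) (nat_lit 230)) (nd (nat_lit 298) (nat_lit 0) (cs (lf (nat_lit 29) (nat_lit 231)) (nd (nat_lit 299) (nat_lit 0) (cs (lf (nat_lit 18) (nat_lit 274)) (nd (nat_lit 205) (nat_lit 0) (cs (lf (nat_lit 46) (nat_lit 205)) (nd (nat_lit 206) (nat_lit 0) (cs (lf (nat_lit 47) (nat_lit 183)) (rf (nat_lit 11)))))))))))))))))))))))))) (cs (nd (nat_lit 187) (nat_lit 0) (cs (lf (nat_lit 37) (nat_lit 186)) (nd (nat_lit 273) (nat_lit 0) (cs (lf (nat_lit 17) (nat_lit 250)) (rf (nat_lit 12)))))) (nd (nat_lit 273) (nat_lit 0) (cs (lf (nat_lit 12) (nat_lit 249)) (rf (nat_lit 12))))))))))) (cs (rf (nat_lit 13)) (nd (nat_lit 230) (nat_lit 0) (cs (rf (nat_lit 3)) (nd (nat_lit 251) (nat_lit 0) (cs (rf (nat_lit 14)) (cs (rf (nat_lit 15)) (nd (nat_lit 273) (nat_lit 0) (cs (rf (nat_lit 16)) (rf (nat_lit 17))))))))))))) (cs (nd (nat_lit 297) (nat_lit 0) (cs (nd (nat_lit 273) (nat_lit 0) (cs (rf (nat_lit 18)) (cs (nd (nat_lit 296) (nat_lit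 0) (cs (lf (nat_lit 30) (nat_lit 230)) (nd (nat_lit 298) (nat_lit 0) (cs (lf (nat_lit 18) (nat_lit 273)) (nd (nat_lit 275) (nat_lit 0) (cs (lf (nat_lit 29) (nat_lit 231)) (nd (nat_lit 230) (nat_lit 0) (cs (lf (nat_lit 24) (nat_lit 208)) (nd (nat_lit 295) (nat_lit 0) (cs (lf (nat_lit 41) (nat_lit 229)) (rf (nat_lit 19)))))))))))) (nd (nat_lit 272) (nat_lit 0) (cs (lf (nat_lit 12) (nat_lit 249)) (nd (nat_lit 251) (nat_lit 0) (cs (lf (nat_lit 6) (nat_lit 250)) (nd (nat_lit 296) (nat_lit 0) (cs (lf (nat_lit 30) (nat_lit 230)) (nd (nat_lit 298) (nat_lit 0) (cs (lf (nat_lit 18) (nat_lit 273)) (lf (nat_lit 21) (nat_lit 272))))))))))))) (cs (nd (nat_lit 275) (nat_lit 0) (cs (rf (nat_lit 20)) (rf (nat_lit 21)))) (cs (nd (nat_lit 296) (nat_lit 0) (cs (lf (nat_lit 30) (nat_lit 230)) (nd (nat_lit 230) (nat_lit 0) (cs (lf (nat_lit 29) (nat_lit 230)) (rf (nat_lit 22)))))) (cs (nd (nat_lit 275) (nat_lit 0) (cs (rf (nat_lit 23)) (rf (nat_lit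 20)))) (nd (nat_lit 296) (nat_lit 0) (cs (lf (nat_lit 30) (nat_lit 230)) (nd (nat_lit 230) (nat_lit 0) (cs (lf (nat_lit 29) (nat_lit 230)) (nd (nat_lit 295) (nat_lit 0) (cs (lf (nat_lit 41) (nat_lit 229)) (nd (nat_lit 207) (nat_lit 0) (cs (lf (nat_lit 46) (nat_lit 207)) (rf (nat_lit 24))))))))))))))) (rf (nat_lit 25))))))) q91410 (by decide +kernel)
def q91442 : Q := Q.p (nat_lit 0x3000008000000000000000000000000000000000000000000000000000000000) (nat_lit 0x40000700001f0001fc0003fc0000e00077c000fe0001b80000a0000000000000000000000000000000000000000) (nat_lit 11)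
theorem c91442 : QOK q91442 := cut [q82275, q89827, q91441] ⟨c82275, c89827, c91441, trivial⟩ (nd (nat_lit 251) (nat_lit 0) (cs (rf (nat_lit 0)) (cs (rf (nat_lit 1)) (rf (nat_lit 2))))) q91442 (by decide +kernel)
def q91516 : Q := Q.p (nat_lit 0x3000004000000000000000000000000000000000000000000000000000000000) (nat_lit 0x300001c00007f0004f8007be001fe0003f80007c0000400000000000000000000000000000000000) (nat_lit 12)
theorem c91516 : QOK q91516 := cut [q87523, q90319, q84443, q90285, q88100, q90378, q6906, q5137, q88856, q91505, q91510, q82198, q89839, q85430, q90344, q91515] ⟨c87523, c90319, c84443, c90285, c88100, c90378, c6906, c5137, c88856, c91505, c91510, c82198, c89839, c85430, c90344, c91515, trivial⟩ (nd (nat_lit 229) (nat_lit 0) (cs (rf (nat_lit 0)) (cs (rf (nat_lit 1)) (cs (nd (nat_lit 207) (nat_lit 0) (cs (rf (nat_lit 2)) (cs (rf (nat_lit 3)) (cs (nd (nat_lit 208) (nat_lit 0) (cs (rf (nat_lit 4)) (cs (nd (nat_lit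 251) (nat_lit 0) (cs (rf (nat_lit 5)) (nd (nat_lit 186) (nat_lit 0) (cs (lf (nat_lit 36) (nat_lit 163)) (rf (nat_lit 6)))))) (cs (nd (nat_lit 274) (nat_lit 0) (cs (lf (nat_lit 42) (nat_lit 207)) (nd (nat_lit 273) (nat_lit 0) (cs (lf (nat_lit 41) (nat_lit 207)) (nd (nat_lit 271) (nat_lit 0) (cs (lf (nat_lit 13) (nat_lit 249)) (nd (nat_lit 186) (nat_lit 0) (cs (lf (nat_lit 40) (nat_lit 185)) (rf (nat_lit 7)))))))))) (nd (nat_lit 274) (nat_lit 0) (cs (lf (nat_lit 42) (nat_lit 207)) (nd (nat_lit 187) (nat_lit 0) (cs (lf (nat_lit 34) (nat_lit 186)) (nd (nat_lit 186) (nat_lit 0) (cs (lf (nat_lit 35) (nat_lit 164)) (rf (nat_lit 7)))))))))))) (nd (nat_lit 185) (nat_lit 0) (cs (lf (nat_lit 24) (nat_lit 163)) (nd (nat_lit 251) (nat_lit 0) (cs (rf (nat_lit 8)) (cs (nd (nat_lit 162) (nat_lit 0) (cs (lf (nat_lit 46) (nat_lit 162)) (nd (nat_lit 250) (nat_lit 0) (cs (lf (nat_lit 41) (nat_lit 184)) (rf (nat_lit 9)))))) (rf (nat_lit 10)))))))))))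 (cs (nd (nat_lit 251) (nat_lit 0) (cs (rf (nat_lit 11)) (cs (rf (nat_lit 12)) (nd (nat_lit 273) (nat_lit 0) (cs (rf (nat_lit 13)) (rf (nat_lit 14))))))) (rf (nat_lit 15))))))) q91516 (by decide +kernel)
def q91525 : Q := Q.p (nat_lit 0x3000006000010000000000000000000000000000000000000000000000000000) (nat_lit 0x2c0001b00004e000780000ec0001300004c0000000000000000000000000000000000000000) (nat_lit 8)
theorem c91525 : QOK q91525 := cut [q90345, q82275, q88865, q91522, q90442] ⟨c90345, c82275, c88865, c91522, c90442, trivial⟩ (nd (nat_lit 251) (nat_lit 0) (cs (rf (nat_lit 0)) (cs (nd (nat_lit 231) (nat_lit 0) (cs (rf (nat_lit 1)) (cs (rf (nat_lit 2)) (rf (nat_lit 3))))) (nd (nat_lit 231) (nat_lit 0) (cs (rf (nat_lit 1)) (cs (rf (nat_lit 4)) (rf (nat_lit 3)))))))) q91525 (by decide +kernel)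
def q91556 : Q := Q.p (nat_lit 0x3000004000000000000000000000000000000000000000000000000000000000) (nat_lit 0x8000020000380000f8000480007b8001fe0001a0000680000000000000000000000000000000000000000) (nat_lit 9)
theorem c91556 : QOK q91556 := cut [q87523, q90319, q90565, q91515] ⟨c87523, c90319, c90565, c91515, trivial⟩ (nd (nat_lit 229) (nat_lit 0) (cs (rf (nat_lit 0)) (cs (rf (nat_lit 1)) (cs (rf (nat_lit 2)) (rf (nat_lit 3)))))) q91556 (by decide +kernel)
def q91666 : Q := Q.p (nat_lit 0x400003000000000000000000000000000000000000000000000000000000000000000) (nat_lit 0x400007c0001f0001ef0007bc0004e0000fc0007e0003fc000040000000000000000000000000000000000000000) (nat_lit 12)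
theorem c91666 : QOK q91666 := cut [q86430, q88933, q2556, q58912, q11867, q2091, q89735, q1412, q82198, q13340, q117, q1550, q781, q85262, q89522, q700, q91100, q88427, q88302, q90909, q91653, q91655, q90815, q14769, q90627, q87021, q91660, q90628, q91664] ⟨c86430, c88933, c2556, c58912, c11867, c2091, c89735, c1412, c82198, c13340, c117, c1550, c781, c85262, c89522, c700, c91100, c88427, c88302, c90909, c91653, c91655, c90815, c14769, c90627, c87021, c91660, c90628, c91664, trivial⟩ (nd (nat_lit 275) (nat_lit 0) (cs (nd (nat_lit 297) (nat_lit 0) (cs (rf (nat_lit 0)) (cs (rf (nat_lit 1)) (nd (nat_lit 298) (nat_lit 0) (cs (rf (nat_lit 2)) (nd (nat_lit 208) (nat_lit 0) (cs (lf (nat_lit 25) (nat_lit 208)) (nd (nat_lit 231) (nat_lit 0) (cs (lf (nat_lit 29) (nat_lit 231)) (rf (nat_lit 3))))))))))) (cs (nd (nat_lit 297) (nat_lit 0) (cs (rf (nat_lit 0)) (cs (rf (nat_lit 1)) (nd (nat_lit 209) (nat_lit 0) (cs (nd (nat_lit 208) (nat_lit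 0) (cs (lf (nat_lit 25) (nat_lit 208)) (nd (nat_lit 231) (nat_lit 0) (cs (lf (nat_lit 36) (nat_lit 186)) (lf (nat_lit 47) (nat_lit 186)))))) (cs (nd (nat_lit 231) (nat_lit 0) (cs (lf (nat_lit 36) (nat_lit 186)) (rf (nat_lit 4)))) (cs (nd (nat_lit 251) (nat_lit 0) (cs (rf (nat_lit 5)) (cs (rf (nat_lit 6)) (nd (nat_lit 207) (nat_lit 0) (cs (nd (nat_lit 185) (nat_lit 0) (cs (lf (nat_lit 26) (nat_lit 185)) (nd (nat_lit 208) (nat_lit 0) (cs (lf (nat_lit 44) (nat_lit 185)) (rf (nat_lit 7)))))) (cs (nd (nat_lit 229) (nat_lit 0) (cs (lf (nat_lit 24) (nat_lit 185)) (rf (nat_lit 8)))) (cs (nd (nat_lit 208) (nat_lit 0) (cs (lf (nat_lit 25) (nat_lit 208)) (nd (nat_lit 206) (nat_lit 0) (cs (rf (nat_lit 9)) (nd (nat_lit 228) (nat_lit 0) (cs (lf (nat_lit 11) (nat_lit 205)) (nd (nat_lit 229) (nat_lit 0) (cs (lf (nat_lit 6) (nat_lit 206)) (lf (nat_lit 18) (nat_lit 228)))))))))) (cs (nd (nat_lit 208) (nat_lit 0) (cs (lf (nat_lit 25) (nat_lit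 208)) (nd (nat_lit 206) (nat_lit 0) (cs (rf (nat_lit 10)) (cs (rf (nat_lit 11)) (cs (rf (nat_lit 9)) (nd (nat_lit 227) (nat_lit 0) (cs (lf (nat_lit 10) (nat_lit 205)) (nd (nat_lit 188) (nat_lit 0) (cs (lf (nat_lit 16) (nat_lit 184)) (rf (nat_lit 12)))))))))))) (nd (nat_lit 229) (nat_lit 0) (cs (lf (nat_lit 24) (nat_lit 185)) (nd (nat_lit 228) (nat_lit 0) (cs (lf (nat_lit 18) (nat_lit 228)) (nd (nat_lit 227) (nat_lit 0) (cs (lf (nat_lit 0) (nat_lit 226)) (rf (nat_lit 13)))))))))))))))) (nd (nat_lit 208) (nat_lit 0) (cs (lf (nat_lit 25) (nat_lit 208)) (rf (nat_lit 14))))))))))) (cs (nd (nat_lit 276) (nat_lit 0) (cs (rf (nat_lit 15)) (rf (nat_lit 16)))) (cs (nd (nat_lit 251) (nat_lit 0) (cs (nd (nat_lit 250) (nat_lit 0) (cs (lf (nat_lit 0) (nat_lit 249)) (nd (nat_lit 272) (nat_lit 0) (cs (lf (nat_lit 11) (nat_lit 249)) (nd (nat_lit 273) (nat_lit 0) (cs (lf (nat_lit 17) (nat_lit 250)) (rf (nat_lit 17)))))))) (cs (nd (nat_lit 273)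 (nat_lit 0) (cs (rf (nat_lit 18)) (cs (rf (nat_lit 19)) (rf (nat_lit 20))))) (cs (rf (nat_lit 21)) (cs (nd (nat_lit 208) (nat_lit 0) (cs (rf (nat_lit 22)) (nd (nat_lit 297) (nat_lit 0) (cs (lf (nat_lit 25) (nat_lit 208)) (rf (nat_lit 0)))))) (nd (nat_lit 273) (nat_lit 0) (cs (rf (nat_lit 23)) (rf (nat_lit 24))))))))) (cs (nd (nat_lit 273) (nat_lit 0) (cs (rf (nat_lit 25)) (rf (nat_lit 26)))) (nd (nat_lit 273) (nat_lit 0) (cs (rf (nat_lit 25)) (cs (nd (nat_lit 251) (nat_lit 0) (cs (rf (nat_lit 5)) (cs (rf (nat_lit 27)) (rf (nat_lit 20))))) (rf (nat_lit 28))))))))))) q91666 (by decide +kernel)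
def q91674 : Q := Q.p (nat_lit 0x400003000000000000000000000000000000000000000000000000000000000000000) (nat_lit 0x380000e000038000038000480000f8000380000a0000000000000000000000000000000000000000000000) (nat_lit 8)
theorem c91674 : QOK q91674 := cut [q81014, q89098, q91672, q91673] ⟨c81014, c89098, c91672, c91673, trivial⟩ (nd (nat_lit 296) (nat_lit 0) (cs (rf (nat_lit 0)) (cs (rf (nat_lit 1)) (cs (rf (nat_lit 2)) (rf (nat_lit 3)))))) q91674 (by decide +kernel)
def q91680 : Q := Q.p (nat_lit 0x400003000000000000000000000000000000000000000000000000000000000000000) (nat_lit 0x20000380000e0000380000a0000400000f8000380000e0000000000000000000000000000000000000000000000) (nat_lit 8)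
theorem c91680 : QOK q91680 := cut [q80649, q89098, q91679] ⟨c80649, c89098, c91679, trivial⟩ (nd (nat_lit 296) (nat_lit 0) (cs (rf (nat_lit 0)) (cs (rf (nat_lit 1)) (rf (nat_lit 2))))) q91680 (by decide +kernel)
def q91778 : Q := Q.p (nat_lit 0x400003000000000000000000000000000000000000000000000000000000000000000) (nat_lit 0x80000380000fc0003fc000ff0007bc0004f0000bc0002c0000b0000000000000000000000000000000000000000000000) (nat_lit 18)
theorem c91778 : QOK q91778 := cut [q80649, q91672, q90323, q91686, q41526, q83612, q84121, q91700, q91704, q91707, q91759, q88302, q2065, q14768, q91762, q91767, q14899, q14879, q91777] ⟨c80649, c91672, c90323, c91686, c41526, c83612, c84121, c91700, c91704, c91707, c91759, c88302, c2065, c14768, c91762, c91767, c14899, c14879, c91777, trivial⟩ (nd (nat_lit 296) (nat_lit 0) (cs (rf (nat_lit 0)) (cs (rf (nat_lit 1)) (cs (nd (nat_lit 273) (nat_lit 0) (cs (rf (nat_lit 2)) (cs (nd (nat_lit 251)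 (nat_lit 0) (cs (rf (nat_lit 3)) (cs (nd (nat_lit 229) (nat_lit 0) (cs (lf (nat_lit 24) (nat_lit 207)) (nd (nat_lit 228) (nat_lit 0) (cs (lf (nat_lit 18) (nat_lit 228)) (nd (nat_lit 226) (nat_lit 0) (cs (lf (nat_lit 1) (nat_lit 226)) (nd (nat_lit 295) (nat_lit 0) (cs (lf (nat_lit 47) (nat_lit 206)) (nd (nat_lit 317) (nat_lit 0) (cs (lf (nat_lit 30) (nat_lit 251)) (rf (nat_lit 4)))))))))))) (cs (nd (nat_lit 250) (nat_lit 0) (cs (rf (nat_lit 5)) (cs (rf (nat_lit 6)) (nd (nat_lit 295) (nat_lit 0) (cs (nd (nat_lit 228) (nat_lit 0) (cs (lf (nat_lit 23) (nat_lit 227)) (lf (nat_lit 42) (nat_lit 228)))) (cs (nd (nat_lit 297) (nat_lit 0) (cs (nd (nat_lit 227) (nat_lit 0) (cs (lf (nat_lit 22) (nat_lit 227)) (nd (nat_lit 298) (nat_lit 0) (cs (lf (nat_lit 18) (nat_lit 273)) (nd (nat_lit 276) (nat_lit 0) (cs (lf (nat_lit 17) (nat_lit 273)) (lf (nat_lit 19) (nat_lit 250)))))))) (cs (nd (nat_lit 227) (nat_lit 0) (cs (lf (nat_lit 22) (nat_lit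 227)) (nd (nat_lit 298) (nat_lit 0) (cs (lf (nat_lit 18) (nat_lit 273)) (nd (nat_lit 276) (nat_lit 0) (cs (lf (nat_lit 17) (nat_lit 273)) (rf (nat_lit 7)))))))) (cs (nd (nat_lit 275) (nat_lit 0) (cs (lf (nat_lit 5) (nat_lit 250)) (nd (nat_lit 209) (nat_lit 0) (cs (lf (nat_lit 37) (nat_lit 208)) (rf (nat_lit 8)))))) (nd (nat_lit 227) (nat_lit 0) (cs (lf (nat_lit 22) (nat_lit 227)) (rf (nat_lit 9)))))))) (nd (nat_lit 275) (nat_lit 0) (cs (lf (nat_lit 5) (nat_lit 250)) (nd (nat_lit 209) (nat_lit 0) (cs (lf (nat_lit 37) (nat_lit 208)) (nd (nat_lit 294) (nat_lit 0) (cs (lf (nat_lit 12) (nat_lit 271)) (nd (nat_lit 317) (nat_lit 0) (cs (lf (nat_lit 30) (nat_lit 251)) (nd (nat_lit 316) (nat_lit 0) (cs (lf (nat_lit 41) (nat_lit 250)) (nd (nat_lit 315) (nat_lit 0) (cs (lf (nat_lit 6) (nat_lit 293)) (lf (nat_lit 12) (nat_lit 292)))))))))))))))))))) (rf (nat_lit 10)))))) (cs (nd (nat_lit 251) (nat_lit 0) (cs (rf (nat_lit 11)) (cs (rf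 (nat_lit 3)) (nd (nat_lit 250) (nat_lit 0) (cs (rf (nat_lit 12)) (cs (rf (nat_lit 13)) (nd (nat_lit 207) (nat_lit 0) (cs (lf (nat_lit 25) (nat_lit 207)) (rf (nat_lit 14)))))))))) (cs (nd (nat_lit 272) (nat_lit 0) (cs (lf (nat_lit 12) (nat_lit 249)) (nd (nat_lit 275) (nat_lit 0) (cs (lf (nat_lit 17) (nat_lit 250)) (nd (nat_lit 249) (nat_lit 0) (cs (lf (nat_lit 22) (nat_lit 249)) (rf (nat_lit 15)))))))) (nd (nat_lit 272) (nat_lit 0) (cs (lf (nat_lit 12) (nat_lit 249)) (nd (nat_lit 275) (nat_lit 0) (cs (rf (nat_lit 16)) (cs (rf (nat_lit 15)) (nd (nat_lit 209) (nat_lit 0) (cs (lf (nat_lit 37) (nat_lit 208)) (nd (nat_lit 249) (nat_lit 0) (cs (lf (nat_lit 22) (nat_lit 249)) (nd (nat_lit 293) (nat_lit 0) (cs (lf (nat_lit 10) (nat_lit 271)) (rf (nat_lit 17)))))))))))))))))) (rf (nat_lit 18)))))) q91778 (by decide +kernel)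
def q91794 : Q := Q.p (nat_lit 0x400003000000000000000000000000000000000000000000000000000000000000000) (nat_lit 0x280000e0000380003bc0004e0000fc00018000020000000000000000000000000000000000000000000000) (nat_lit 8)
theorem c91794 : QOK q91794 := cut [q81820, q91777, q81007, q82288, q91682, q87523] ⟨c81820, c91777, c81007, c82288, c91682, c87523, trivial⟩ (nd (nat_lit 296) (nat_lit 0) (cs (rf (nat_lit 0)) (cs (rf (nat_lit 1)) (nd (nat_lit 230) (nat_lit 0) (cs (rf (nat_lit 2)) (cs (rf (nat_lit 3)) (cs (rf (nat_lit 4)) (nd (nat_lit 295) (nat_lit 0) (cs (lf (nat_lit 41) (nat_lit 229)) (nd (nat_lit 297) (nat_lit 0) (cs (lf (nat_lit 29) (nat_lit 230)) (nd (nat_lit 229) (nat_lit 0) (cs (lf (nat_lit 47) (nat_lit 207)) (rf (nat_lit 5))))))))))))))) q91794 (by decide +kernel)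
def q91796 : Q := Q.p (nat_lit 0x400003000000000000000000000000000000000000000000000000000000000000000) (nat_lit 0xc0000300003bc0004e0000fc000380000a0000000000000000000000000000000000000000000000) (nat_lit 8)
theorem c91796 : QOK q91796 := cut [q81014, q91777, q80653, q89096, q91682] ⟨c81014, c91777, c80653, c89096, c91682, trivial⟩ (nd (nat_lit 296) (nat_lit 0) (cs (rf (nat_lit 0)) (cs (rf (nat_lit 1)) (nd (nat_lit 230) (nat_lit 0) (cs (rf (nat_lit 2)) (cs (rf (nat_lit 3)) (rf (nat_lit 4)))))))) q91796 (by decide +kernel)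
def q91831 : Q := Q.p (nat_lit 0x400003000000000000000000000000000000000000000000000000000000000000000) (nat_lit 0x20000780003e0000fc0003bc0004f00007c0001c0000f0000380000a00000000000000000000000000000000000) (nat_lit 11)
theorem c91831 : QOK q91831 := cut [q90323, q91783, q91786, q91788, q84112, q87979, q90327, q90662, q3991, q84155, q90329, q90341] ⟨c90323, c91783, c91786, c91788, c84112, c87979, c90327, c90662, c3991, c84155, c90329, c90341, trivial⟩ (nd (nat_lit 273) (nat_lit 0) (cs (rf (nat_lit 0)) (cs (rf (nat_lit 1)) (cs (rf (nat_lit 2)) (cs (rf (nat_lit 3)) (nd (nat_lit 230) (nat_lit 0) (cs (rf (nat_lit 4)) (cs (rf (nat_lit 5)) (cs (nd (nat_lit 296) (nat_lit 0) (cs (rf (nat_lit 6)) (cs (nd (nat_lit 297) (nat_lit 0) (cs (lf (nat_lit 29) (nat_lit 230)) (nd (nat_lit 298) (nat_lit 0) (cs (lf (nat_lit 18) (nat_lit 273)) (nd (nat_lit 207) (nat_lit 0) (cs (lf (nat_lit 46) (nat_lit 207)) (nd (nat_lit 295) (nat_lit 0) (cs (lf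 (nat_lit 41) (nat_lit 229)) (nd (nat_lit 320) (nat_lit 0) (cs (lf (nat_lit 5) (nat_lit 295)) (nd (nat_lit 276) (nat_lit 0) (cs (lf (nat_lit 17) (nat_lit 273)) (nd (nat_lit 275) (nat_lit 0) (cs (lf (nat_lit 42) (nat_lit 253)) (lf (nat_lit 12) (nat_lit 272)))))))))))))))) (cs (nd (nat_lit 295) (nat_lit 0) (cs (lf (nat_lit 41) (nat_lit 229)) (nd (nat_lit 229) (nat_lit 0) (cs (lf (nat_lit 47) (nat_lit 207)) (nd (nat_lit 251) (nat_lit 0) (cs (lf (nat_lit 29) (nat_lit 229)) (rf (nat_lit 7)))))))) (nd (nat_lit 297) (nat_lit 0) (cs (lf (nat_lit 29) (nat_lit 230)) (nd (nat_lit 298) (nat_lit 0) (cs (lf (nat_lit 18) (nat_lit 273)) (nd (nat_lit 229) (nat_lit 0) (cs (lf (nat_lit 47) (nat_lit 207)) (nd (nat_lit 251) (nat_lit 0) (cs (lf (nat_lit 42) (nat_lit 229)) (rf (nat_lit 7)))))))))))))) (nd (nat_lit 208) (nat_lit 0) (cs (rf (nat_lit 8)) (cs (rf (nat_lit 9)) (cs (rf (nat_lit 10)) (rf (nat_lit 11))))))))))))))) q91831 (by decide +kernel)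
def q91833 : Q := Q.p (nat_lit 0x400003000000000000000000000000000000000000000000000000000000000000000) (nat_lit 0x60000180003bc0004e0000fc000380000a0000000000000000000000000000000000000000000000) (nat_lit 8)
theorem c91833 : QOK q91833 := cut [q81014, q89098, q91777] ⟨c81014, c89098, c91777, trivial⟩ (nd (nat_lit 296) (nat_lit 0) (cs (rf (nat_lit 0)) (cs (rf (nat_lit 1)) (rf (nat_lit 2))))) q91833 (by decide +kernel)
def q91877 : Q := Q.p (nat_lit 0x600003000000000000000000000000000000000000000000000000000000000000000) (nat_lit 0x4c000130000ec0007800004e0003fc0003c0000f0000040000000000000000000000000000000000000000) (nat_lit 9)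
theorem c91877 : QOK q91877 := cut [q90144, q91866, q2091, q89807, q91867, q89735] ⟨c90144, c91866, c2091, c89807, c91867, c89735, trivial⟩ (nd (nat_lit 251) (nat_lit 0) (cs (rf (nat_lit 0)) (cs (rf (nat_lit 1)) (cs (nd (nat_lit 275) (nat_lit 0) (cs (rf (nat_lit 2)) (cs (rf (nat_lit 3)) (nd (nat_lit 250) (nat_lit 0) (cs (lf (nat_lit 0) (nat_lit 249)) (nd (nat_lit 231) (nat_lit 0) (cs (lf (nat_lit 17) (nat_lit 228)) (nd (nat_lit 209) (nat_lit 0) (cs (lf (nat_lit 36) (nat_lit 186)) (nd (nat_lit 227) (nat_lit 0) (cs (lf (nat_lit 22) (nat_lit 227)) (rf (nat_lit 4))))))))))))) (nd (nat_lit 275) (nat_lit 0) (cs (rf (nat_lit 5)) (cs (rf (nat_lit 3)) (nd (nat_lit 250) (nat_lit 0) (cs (lf (nat_lit 0) (nat_lit 249)) (nd (nat_lit 231) (nat_lit 0) (cs (lf (nat_lit 17) (nat_lit 228)) (nd (nat_lit 209) (nat_lit 0) (cs (lf (nat_lit 36) (nat_lit 186)) (rf (nat_lit 4))))))))))))))) q91877 (by decide +kernel)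
def q92009 : Q := Q.p (nat_lit 0x3000008000000000000000000000000000000000000000000000000000000000) (nat_lit 0x7f0001fe0007f80000e000778001de0001f80007c0000800000000000000000000000000000000000) (nat_lit 16)
theorem c92009 : QOK q92009 := cut [q79996, q84415, q22191, q82289, q91948, q87131, q91168, q91239, q91247, q91949, q25, q29, q87204, q57679, q84155, q1140, q22250, q85044, q81477, q91958, q91960, q91962, q91965, q91970, q91976, q91978, q91990, q91907, q91992, q92001, q92007] ⟨c79996, c84415, c22191, c82289, c91948, c87131, c91168, c91239, c91247, c91949, c25, c29, c87204, c57679, c84155, c1140, c22250, c85044, c81477, c91958, c91960, c91962, c91965, c91970, c91976, c91978, c91990, c91907, c91992, c92001, c92007, trivial⟩ (nd (nat_lit 230) (nat_lit 0) (cs (nd (nat_lit 208) (nat_lit 0) (cs (rf (nat_lit 0)) (cs (rf (nat_lit 1)) (nd (nat_lit 274) (nat_lit 0) (cs (rf (nat_lit 2)) (rf (nat_lit 3))))))) (cs (rf (nat_lit 4)) (cs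 (nd (nat_lit 232) (nat_lit 0) (cs (rf (nat_lit 5)) (cs (rf (nat_lit 6)) (nd (nat_lit 229) (nat_lit 0) (cs (rf (nat_lit 7)) (cs (rf (nat_lit 8)) (rf (nat_lit 9)))))))) (cs (nd (nat_lit 208) (nat_lit 0) (cs (rf (nat_lit 0)) (cs (nd (nat_lit 186) (nat_lit 0) (cs (rf (nat_lit 10)) (cs (rf (nat_lit 11)) (rf (nat_lit 12))))) (nd (nat_lit 274) (nat_lit 0) (cs (rf (nat_lit 13)) (cs (rf (nat_lit 14)) (nd (nat_lit 275) (nat_lit 0) (cs (rf (nat_lit 15)) (rf (nat_lit 16)))))))))) (cs (nd (nat_lit 274) (nat_lit 0) (cs (rf (nat_lit 17)) (cs (nd (nat_lit 275) (nat_lit 0) (cs (rf (nat_lit 18)) (cs (rf (nat_lit 19)) (rf (nat_lit 20))))) (cs (rf (nat_lit 21)) (cs (nd (nat_lit 296) (nat_lit 0) (cs (lf (nat_lit 30) (nat_lit 230)) (nd (nat_lit 297) (nat_lit 0) (cs (lf (nat_lit 29) (nat_lit 230)) (nd (nat_lit 208) (nat_lit 0) (cs (lf (nat_lit 43) (nat_lit 208)) (rf (nat_lit 22)))))))) (cs (nd (nat_lit 275) (nat_lit 0) (cs (rf (nat_lit 20)) (cs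 (rf (nat_lit 23)) (cs (rf (nat_lit 24)) (nd (nat_lit 297) (nat_lit 0) (cs (lf (nat_lit 42) (nat_lit 230)) (nd (nat_lit 296) (nat_lit 0) (cs (lf (nat_lit 41) (nat_lit 230)) (nd (nat_lit 210) (nat_lit 0) (cs (lf (nat_lit 34) (nat_lit 209)) (rf (nat_lit 25)))))))))))) (rf (nat_lit 26)))))))) (cs (nd (nat_lit 232) (nat_lit 0) (cs (rf (nat_lit 5)) (cs (rf (nat_lit 27)) (nd (nat_lit 233) (nat_lit 0) (cs (lf (nat_lit 6) (nat_lit 230)) (nd (nat_lit 211) (nat_lit 0) (cs (lf (nat_lit 17) (nat_lit 208)) (nd (nat_lit 229) (nat_lit 0) (cs (lf (nat_lit 16) (nat_lit 207)) (rf (nat_lit 28))))))))))) (nd (nat_lit 275) (nat_lit 0) (cs (rf (nat_lit 18)) (cs (nd (nat_lit 274) (nat_lit 0) (cs (rf (nat_lit 19)) (cs (rf (nat_lit 21)) (cs (rf (nat_lit 23)) (nd (nat_lit 296) (nat_lit 0) (cs (lf (nat_lit 30) (nat_lit 230)) (nd (nat_lit 186) (nat_lit 0) (cs (lf (nat_lit 25) (nat_lit 186)) (rf (nat_lit 29)))))))))) (rf (nat_lit 30)))))))))))) q92009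 (by decide +kernel)
def q92066 : Q := Q.p (nat_lit 0x3000008000000000000000000000000000000000000000000000000000000000) (nat_lit 0x100000e0000f80007f0000780000e000778001fe0007f80007e0001a00000000000000000000000000000000000) (nat_lit 14)
theorem c92066 : QOK q92066 := cut [q87131, q91907, q84852, q87953, q90289, q11005, q90525, q92011, q92012, q81837, q89933, q92014, q92018, q88136, q92019, q85044, q86536, q88159, q88155, q88156, q92023, q22948, q92025, q92031, q91945, q86677, q88133, q90471, q426, q88167, q88172, q88848, q92040, q92055, q10803, q92061] ⟨c87131, c91907, c84852, c87953, c90289, c11005, c90525, c92011, c92012, c81837, c89933, c92014, c92018, c88136, c92019, c85044, c86536, c88159, c88155, c88156, c92023, c22948, c92025, c92031, c91945, c86677, c88133, c90471, c426, c88167, c88172, c88848, c92040, c92055, c10803, c92061, trivial⟩ (nd (nat_lit 230) (nat_lit 0) (cs (nd (nat_lit 232) (nat_lit 0) (cs (rf (nat_lit 0))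 (cs (nd (nat_lit 233) (nat_lit 0) (cs (lf (nat_lit 6) (nat_lit 230)) (nd (nat_lit 211) (nat_lit 0) (cs (lf (nat_lit 17) (nat_lit 208)) (nd (nat_lit 210) (nat_lit 0) (cs (lf (nat_lit 12) (nat_lit 207)) (nd (nat_lit 188) (nat_lit 0) (cs (lf (nat_lit 36) (nat_lit 165)) (nd (nat_lit 208) (nat_lit 0) (cs (lf (nat_lit 23) (nat_lit 207)) (nd (nat_lit 186) (nat_lit 0) (cs (lf (nat_lit 24) (nat_lit 164)) (nd (nat_lit 185) (nat_lit 0) (cs (lf (nat_lit 47) (nat_lit 163)) (lf (nat_lit 2) (nat_lit 185)))))))))))))))) (rf (nat_lit 1))))) (cs (nd (nat_lit 229) (nat_lit 0) (cs (rf (nat_lit 2)) (cs (rf (nat_lit 3)) (rf (nat_lit 4))))) (cs (nd (nat_lit 208) (nat_lit 0) (cs (rf (nat_lit 5)) (cs (rf (nat_lit 6)) (cs (rf (nat_lit 7)) (rf (nat_lit 8)))))) (cs (nd (nat_lit 274) (nat_lit 0) (cs (rf (nat_lit 9)) (cs (rf (nat_lit 10)) (rf (nat_lit 11))))) (cs (rf (nat_lit 12)) (cs (nd (nat_lit 228) (nat_lit 0) (cs (rf (nat_lit 13)) (cs (rf (nat_lit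 14)) (cs (nd (nat_lit 274) (nat_lit 0) (cs (rf (nat_lit 9)) (cs (rf (nat_lit 15)) (nd (nat_lit 250) (nat_lit 0) (cs (rf (nat_lit 16)) (cs (rf (nat_lit 17)) (nd (nat_lit 272) (nat_lit 0) (cs (rf (nat_lit 18)) (cs (rf (nat_lit 19)) (cs (rf (nat_lit 20)) (nd (nat_lit 294) (nat_lit 0) (cs (rf (nat_lit 21)) (cs (rf (nat_lit 22)) (rf (nat_lit 23))))))))))))))) (nd (nat_lit 229) (nat_lit 0) (cs (lf (nat_lit 0) (nat_lit 227)) (rf (nat_lit 24)))))))) (cs (nd (nat_lit 274) (nat_lit 0) (cs (rf (nat_lit 9)) (cs (rf (nat_lit 10)) (nd (nat_lit 208) (nat_lit 0) (cs (rf (nat_lit 25)) (cs (rf (nat_lit 26)) (rf (nat_lit 27)))))))) (cs (nd (nat_lit 229) (nat_lit 0) (cs (rf (nat_lit 2)) (cs (rf (nat_lit 3)) (nd (nat_lit 251) (nat_lit 0) (cs (rf (nat_lit 28)) (cs (rf (nat_lit 29)) (nd (nat_lit 208) (nat_lit 0) (cs (rf (nat_lit 30)) (cs (rf (nat_lit 31)) (nd (nat_lit 232) (nat_lit 0) (cs (lf (nat_lit 6) (nat_lit 229)) (nd (nat_lit 210) (nat_lit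 0) (cs (lf (nat_lit 17) (nat_lit 207)) (nd (nat_lit 166) (nat_lit 0) (cs (lf (nat_lit 37) (nat_lit 165)) (nd (nat_lit 207) (nat_lit 0) (cs (lf (nat_lit 23) (nat_lit 206)) (nd (nat_lit 186) (nat_lit 0) (cs (lf (nat_lit 24) (nat_lit 164)) (nd (nat_lit 274) (nat_lit 0) (cs (lf (nat_lit 42) (nat_lit 207)) (rf (nat_lit 32))))))))))))))))))))))) (nd (nat_lit 274) (nat_lit 0) (cs (rf (nat_lit 9)) (cs (rf (nat_lit 10)) (nd (nat_lit 208) (nat_lit 0) (cs (rf (nat_lit 25)) (cs (rf (nat_lit 27)) (nd (nat_lit 251) (nat_lit 0) (cs (rf (nat_lit 28)) (cs (rf (nat_lit 33)) (nd (nat_lit 209) (nat_lit 0) (cs (rf (nat_lit 34)) (rf (nat_lit 35)))))))))))))))))))))) q92066 (by decide +kernel)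
def q92097 : Q := Q.p (nat_lit 0x3000008000000000000000000000000000000000000000000000000000000000) (nat_lit 0x1f00007c0007b80000e000778001fe0001f80007e0000000000000000000000000000000000000000) (nat_lit 16)
theorem c92097 : QOK q92097 := cut [q92018, q87131, q90440, q91239, q81477, q90297, q90372, q90435, q79996, q86956, q91352, q84909, q87953, q426, q87951, q88167, q92079, q92083, q91168, q12193, q88869, q90465, q92090] ⟨c92018, c87131, c90440, c91239, c81477, c90297, c90372, c90435, c79996, c86956, c91352, c84909, c87953, c426, c87951, c88167, c92079, c92083, c91168, c12193, c88869, c90465, c92090, trivial⟩ (nd (nat_lit 230) (nat_lit 0) (cs (rf (nat_lit 0)) (cs (nd (nat_lit 232) (nat_lit 0) (cs (rf (nat_lit 1)) (nd (nat_lit 229) (nat_lit 0) (cs (rf (nat_lit 2)) (rf (nat_lit 3)))))) (cs (nd (nat_lit 275) (nat_lit 0) (cs (rf (nat_lit 4)) (cs (rf (nat_lit 5)) (nd (nat_lit 209) (nat_lit 0) (cs (rf (nat_lit 6)) (cs (rf (nat_lit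 7)) (nd (nat_lit 208) (nat_lit 0) (cs (rf (nat_lit 8)) (nd (nat_lit 210) (nat_lit 0) (cs (lf (nat_lit 35) (nat_lit 187)) (nd (nat_lit 276) (nat_lit 0) (cs (lf (nat_lit 29) (nat_lit 209)) (rf (nat_lit 9)))))))))))))) (cs (nd (nat_lit 275) (nat_lit 0) (cs (rf (nat_lit 4)) (cs (rf (nat_lit 5)) (nd (nat_lit 209) (nat_lit 0) (cs (rf (nat_lit 6)) (cs (rf (nat_lit 7)) (rf (nat_lit 10)))))))) (cs (nd (nat_lit 229) (nat_lit 0) (cs (rf (nat_lit 11)) (cs (rf (nat_lit 12)) (cs (nd (nat_lit 251) (nat_lit 0) (cs (rf (nat_lit 13)) (cs (rf (nat_lit 14)) (rf (nat_lit 15))))) (cs (rf (nat_lit 16)) (cs (rf (nat_lit 17)) (nd (nat_lit 228) (nat_lit 0) (cs (lf (nat_lit 0) (nat_lit 227)) (nd (nat_lit 250) (nat_lit 0) (cs (lf (nat_lit 11) (nat_lit 227)) (nd (nat_lit 232) (nat_lit 0) (cs (lf (nat_lit 13) (nat_lit 228)) (rf (nat_lit 18)))))))))))))) (nd (nat_lit 275) (nat_lit 0) (cs (rf (nat_lit 4)) (cs (rf (nat_lit 5)) (nd (nat_lit 251) (nat_lit 0)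 (cs (rf (nat_lit 19)) (nd (nat_lit 229) (nat_lit 0) (cs (rf (nat_lit 14)) (cs (rf (nat_lit 20)) (cs (rf (nat_lit 21)) (nd (nat_lit 186) (nat_lit 0) (cs (lf (nat_lit 25) (nat_lit 186)) (nd (nat_lit 228) (nat_lit 0) (cs (lf (nat_lit 0) (nat_lit 227)) (nd (nat_lit 232) (nat_lit 0) (cs (lf (nat_lit 6) (nat_lit 229)) (rf (nat_lit 22))))))))))))))))))))))) q92097 (by decide +kernel)
def q92267 : Q := Q.p (nat_lit 0x7800000000000000000000000000000000000000000000000000000000000000) (nat_lit 0x1df000380000e7000000000000000000000000000000000000000000000000000000000) (nat_lit 9)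
theorem c92267 : QOK q92267 := cut [q92265] ⟨c92265, trivial⟩ (nd (nat_lit 229) (nat_lit 0) (cs (lf (nat_lit 23) (nat_lit 228)) (nd (nat_lit 272) (nat_lit 0) (cs (lf (nat_lit 10) (nat_lit 250)) (rf (nat_lit 0)))))) q92267 (by decide +kernel)
def q92272 : Q := Q.p (nat_lit 0x7000010000000000000000000000000000000000000000000000000000000000) (nat_lit 0xf80003e0000fc0001f00038c0000c0000f00003c0000200000800000000000000000000000000000000000) (nat_lit 17)
theorem c92272 : QOK q92272 := cut [q79169, q79199, q80292, q81704, q92271] ⟨c79169, c79199, c80292, c81704, c92271, trivial⟩ (nd (nat_lit 275) (nat_lit 0) (cs (rf (nat_lit 0)) (cs (rf (nat_lit 1)) (cs (rf (nat_lit 2)) (cs (rf (nat_lit 3)) (rf (nat_lit 4))))))) q92272 (by decide +kernel)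
def q92291 : Q := Q.p (nat_lit 0x7000000000000000000000000000000000000000000000000000000000000000) (nat_lit 0x1ddc0038e000ff000000000000000000000000000000000000000000000000000000000) (nat_lit 8)
theorem c92291 : QOK q92291 := cut [q81717, q92265] ⟨c81717, c92265, trivial⟩ (nd (nat_lit 229) (nat_lit 0) (cs (rf (nat_lit 0)) (cs (rf (nat_lit 1)) (nd (nat_lit 228) (nat_lit 0) (cs (lf (nat_lit 21) (nat_lit 228)) (nd (nat_lit 230) (nat_lit 0) (cs (lf (nat_lit 3) (nat_lit 228)) (lf (nat_lit 18) (nat_lit 229))))))))) q92291 (by decide +kernel)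
def q92334 : Q := Q.p (nat_lit 0x7800000000000000000000000000000000000000000000000000000000000000) (nat_lit 0x140000840003f0000ec000380000e00000000000000000000000000000000000000000) (nat_lit 11)
theorem c92334 : QOK q92334 := cut [q92330] ⟨c92330, trivial⟩ (nd (nat_lit 232) (nat_lit 0) (cs (lf (nat_lit 17) (nat_lit 229)) (nd (nat_lit 231) (nat_lit 0) (cs (lf (nat_lit 12) (nat_lit 228)) (nd (nat_lit 229) (nat_lit 0) (cs (lf (nat_lit 23) (nat_lit 228)) (nd (nat_lit 230) (nat_lit 0) (cs (lf (nat_lit 18) (nat_lit 229)) (rf (nat_lit 0)))))))))) q92334 (by decide +kernel)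
def q92391 : Q := Q.p (nat_lit 0x200003800000000000000000000000000000000000000000000000000000000000000) (nat_lit 0x40000580001f00007f0007fe000ff8001df000030000bc0001d000070000100000000000000000000000000000000000000000) (nat_lit 14)
theorem c92391 : QOK q92391 := cut [q82638, q90043, q92347, q90044, q90065, q90046, q90060, q22302, q90054, q92352, q90071, q90078, q92366, q82413, q90085, q90122, q86855, q90118, q92367, q25894, q14473, q90091, q92357, q92386, q12808, q82631, q86884, q90134] ⟨c82638, c90043, c92347, c90044, c90065, c90046, c90060, c22302, c90054, c92352, c90071, c90078, c92366, c82413, c90085, c90122, c86855, c90118, c92367, c25894, c14473, c90091, c92357, c92386, c12808, c82631, c86884, c90134, trivial⟩ (nd (nat_lit 295) (nat_lit 0) (cs (rf (nat_lit 0)) (cs (rf (nat_lit 1)) (cs (rf (nat_lit 2)) (cs (nd (nat_lit 294) (nat_lit 0) (cs (rf (nat_lit 3)) (cs (rf (nat_lit 4)) (cs (nd (nat_lit 274) (nat_lit 0) (cs (rf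 (nat_lit 5)) (cs (rf (nat_lit 6)) (cs (nd (nat_lit 293) (nat_lit 0) (cs (lf (nat_lit 12) (nat_lit 270)) (nd (nat_lit 229) (nat_lit 0) (cs (rf (nat_lit 7)) (cs (rf (nat_lit 8)) (nd (nat_lit 207) (nat_lit 0) (cs (lf (nat_lit 24) (nat_lit 185)) (lf (nat_lit 40) (nat_lit 206))))))))) (rf (nat_lit 9)))))) (nd (nat_lit 274) (nat_lit 0) (cs (rf (nat_lit 5)) (cs (rf (nat_lit 10)) (cs (rf (nat_lit 11)) (rf (nat_lit 9)))))))))) (cs (rf (nat_lit 12)) (cs (nd (nat_lit 296) (nat_lit 0) (cs (rf (nat_lit 13)) (cs (rf (nat_lit 14)) (cs (rf (nat_lit 15)) (nd (nat_lit 297) (nat_lit 0) (cs (rf (nat_lit 16)) (cs (rf (nat_lit 17)) (cs (nd (nat_lit 320) (nat_lit 0) (cs (nd (nat_lit 294) (nat_lit 0) (cs (lf (nat_lit 4) (nat_lit 294)) (nd (nat_lit 275) (nat_lit 0) (cs (lf (nat_lit 17) (nat_lit 272)) (rf (nat_lit 18)))))) (cs (nd (nat_lit 298) (nat_lit 0) (cs (lf (nat_lit 5) (nat_lit 295)) (nd (nat_lit 274) (nat_lit 0) (cs (lf (nat_lit 18) (nat_lit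 273)) (nd (nat_lit 317) (nat_lit 0) (cs (lf (nat_lit 30) (nat_lit 251)) (nd (nat_lit 207) (nat_lit 0) (cs (lf (nat_lit 25) (nat_lit 207)) (nd (nat_lit 275) (nat_lit 0) (cs (lf (nat_lit 24) (nat_lit 231)) (rf (nat_lit 19)))))))))))) (nd (nat_lit 319) (nat_lit 0) (cs (lf (nat_lit 0) (nat_lit 294)) (rf (nat_lit 20))))))) (cs (nd (nat_lit 298) (nat_lit 0) (cs (lf (nat_lit 23) (nat_lit 272)) (nd (nat_lit 274) (nat_lit 0) (cs (lf (nat_lit 18) (nat_lit 273)) (nd (nat_lit 317) (nat_lit 0) (cs (lf (nat_lit 30) (nat_lit 251)) (nd (nat_lit 207) (nat_lit 0) (cs (lf (nat_lit 25) (nat_lit 207)) (nd (nat_lit 320) (nat_lit 0) (cs (lf (nat_lit 5) (nat_lit 295)) (nd (nat_lit 294) (nat_lit 0) (cs (lf (nat_lit 4) (nat_lit 294)) (nd (nat_lit 275) (nat_lit 0) (cs (lf (nat_lit 24) (nat_lit 231)) (lf (nat_lit 17) (nat_lit 272)))))))))))))))) (nd (nat_lit 294) (nat_lit 0) (cs (rf (nat_lit 21)) (cs (rf (nat_lit 22)) (rf (nat_lit 23)))))))))))))) (nd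 (nat_lit 317) (nat_lit 0) (cs (rf (nat_lit 24)) (cs (rf (nat_lit 25)) (cs (rf (nat_lit 26)) (rf (nat_lit 27))))))))))))) q92391 (by decide +kernel)
def q92600 : Q := Q.p (nat_lit 0x3800000000000000000000000000000000000000000000000000000000000000) (nat_lit 0xf80003e0001fc000060001bc0000e0000380000e0000280000000000000000000000000000000000) (nat_lit 15)
theorem c92600 : QOK q92600 := cut [q2065, q18255, q40546, q92599] ⟨c2065, c18255, c40546, c92599, trivial⟩ (nd (nat_lit 250) (nat_lit 0) (cs (rf (nat_lit 0)) (cs (rf (nat_lit 1)) (cs (rf (nat_lit 2)) (rf (nat_lit 3)))))) q92600 (by decide +kernel)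
def q92702 : Q := Q.p (nat_lit 0x3000000000000000000000000000000000000000000000000000000000000000) (nat_lit 0x500003c0001fe0007f0001ff001cf80077c000ff0003f80003e0000500000000000000000000000000000000000) (nat_lit 16)
theorem c92702 : QOK q92702 := cut [q92608, q92346, q92588, q92610, q80583, q86851, q92347, q92366, q92617, q92658, q92671, q89895, q80587, q92677, q92367, q18784, q92672, q92695, q2065, q18255, q40546, q89826, q92701] ⟨c92608, c92346, c92588, c92610, c80583, c86851, c92347, c92366, c92617, c92658, c92671, c89895, c80587, c92677, c92367, c18784, c92672, c92695, c2065, c18255, c40546, c89826, c92701, trivial⟩ (nd (nat_lit 251) (nat_lit 0) (cs (rf (nat_lit 0)) (cs (nd (nat_lit 273) (nat_lit 0) (cs (rf (nat_lit 1)) (cs (rf (nat_lit 2)) (cs (nd (nat_lit 254) (nat_lit 0) (cs (lf (nat_lit 11) (nat_lit 250)) (nd (nat_lit 232) (nat_lit 0) (cs (lf (nat_lit 17) (nat_lit 229)) (rf (nat_lit 3)))))) (nd (nat_lit 295) (nat_lit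 0) (cs (rf (nat_lit 4)) (cs (rf (nat_lit 5)) (cs (rf (nat_lit 6)) (rf (nat_lit 7)))))))))) (cs (rf (nat_lit 8)) (cs (rf (nat_lit 9)) (cs (rf (nat_lit 10)) (cs (nd (nat_lit 273) (nat_lit 0) (cs (rf (nat_lit 11)) (cs (rf (nat_lit 1)) (nd (nat_lit 295) (nat_lit 0) (cs (rf (nat_lit 4)) (cs (rf (nat_lit 5)) (cs (nd (nat_lit 229) (nat_lit 0) (cs (rf (nat_lit 12)) (cs (rf (nat_lit 13)) (cs (nd (nat_lit 275) (nat_lit 0) (cs (nd (nat_lit 250) (nat_lit 0) (cs (lf (nat_lit 5) (nat_lit 250)) (nd (nat_lit 249) (nat_lit 0) (cs (lf (nat_lit 4) (nat_lit 249)) (nd (nat_lit 230) (nat_lit 0) (cs (lf (nat_lit 12) (nat_lit 226)) (lf (nat_lit 35) (nat_lit 207)))))))) (cs (nd (nat_lit 276) (nat_lit 0) (cs (lf (nat_lit 0) (nat_lit 250)) (nd (nat_lit 296) (nat_lit 0) (cs (lf (nat_lit 29) (nat_lit 229)) (nd (nat_lit 294) (nat_lit 0) (cs (lf (nat_lit 41) (nat_lit 228)) (lf (nat_lit 15) (nat_lit 272)))))))) (nd (nat_lit 296) (nat_lit 0) (cs (lf (nat_lit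 29) (nat_lit 229)) (nd (nat_lit 208) (nat_lit 0) (cs (lf (nat_lit 34) (nat_lit 207)) (nd (nat_lit 294) (nat_lit 0) (cs (lf (nat_lit 41) (nat_lit 228)) (rf (nat_lit 14))))))))))) (cs (nd (nat_lit 294) (nat_lit 0) (cs (lf (nat_lit 41) (nat_lit 228)) (nd (nat_lit 208) (nat_lit 0) (cs (lf (nat_lit 34) (nat_lit 207)) (nd (nat_lit 207) (nat_lit 0) (cs (lf (nat_lit 35) (nat_lit 185)) (nd (nat_lit 184) (nat_lit 0) (cs (lf (nat_lit 46) (nat_lit 184)) (rf (nat_lit 15)))))))))) (nd (nat_lit 296) (nat_lit 0) (cs (lf (nat_lit 29) (nat_lit 229)) (nd (nat_lit 207) (nat_lit 0) (cs (lf (nat_lit 28) (nat_lit 207)) (rf (nat_lit 16))))))))))) (rf (nat_lit 17))))))))) (cs (nd (nat_lit 250) (nat_lit 0) (cs (rf (nat_lit 18)) (cs (rf (nat_lit 19)) (cs (rf (nat_lit 20)) (rf (nat_lit 21)))))) (rf (nat_lit 22)))))))))) q92702 (by decide +kernel)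
def q92725 : Q := Q.p (nat_lit 0x300000c000000000000000000000000000000000000000000000000000000000) (nat_lit 0xe0000380000f0000c0000000000180000e0000380000800000000000000000000000000000000000) (nat_lit 8)
theorem c92725 : QOK q92725 := cut [q6259, q84438, q92724] ⟨c6259, c84438, c92724, trivial⟩ (nd (nat_lit 208) (nat_lit 0) (cs (rf (nat_lit 0)) (cs (rf (nat_lit 1)) (rf (nat_lit 2))))) q92725 (by decide +kernel)
def q92731 : Q := Q.p (nat_lit 0x40000300000c000000000000000000000000000000000000000000000000000000000) (nat_lit 0x180001e80001b0000c000010000050000040000000000000000000000000000000000000000000000) (nat_lit 7)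
theorem c92731 : QOK q92731 := cut [q81477, q84626, q92730] ⟨c81477, c84626, c92730, trivial⟩ (nd (nat_lit 275) (nat_lit 0) (cs (rf (nat_lit 0)) (cs (rf (nat_lit 1)) (rf (nat_lit 2))))) q92731 (by decide +kernel)
def q92796 : Q := Q.p (nat_lit 0x3000008000000000000000000000000000000000000000000000000000000000) (nat_lit 0x300001f0001f00001f0001c0000f3c001fe000ffc000700001400000000000000000000000000000000000) (nat_lit 14)
theorem c92796 : QOK q92796 := cut [q82301, q92707, q91882, q21989, q84361, q84362, q17544, q137, q79079, q92770, q92783, q92785, q92789, q92792, q92793] ⟨c82301, c92707, c91882, c21989, c84361, c84362, c17544, c137, c79079, c92770, c92783, c92785, c92789, c92792, c92793, trivial⟩ (nd (nat_lit 209) (nat_lit 0) (cs (rf (nat_lit 0)) (cs (rf (nat_lit 1)) (cs (nd (nat_lit 275) (nat_lit 0) (cs (rf (nat_lit 2)) (cs (nd (nat_lit 208) (nat_lit 0) (cs (lf (nat_lit 47) (nat_lit 186)) (nd (nat_lit 207) (nat_lit 0) (cs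 (rf (nat_lit 3)) (cs (rf (nat_lit 4)) (cs (rf (nat_lit 5)) (nd (nat_lit 274) (nat_lit 0) (cs (rf (nat_lit 6)) (nd (nat_lit 210) (nat_lit 0) (cs (lf (nat_lit 35) (nat_lit 187)) (nd (nat_lit 211) (nat_lit 0) (cs (rf (nat_lit 7)) (cs (nd (nat_lit 276) (nat_lit 0) (cs (lf (nat_lit 29) (nat_lit 209)) (nd (nat_lit 184) (nat_lit 0) (cs (lf (nat_lit 22) (nat_lit 184)) (nd (nat_lit 228) (nat_lit 0) (cs (lf (nat_lit 10) (nat_lit 206)) (nd (nat_lit 189) (nat_lit 0) (cs (lf (nat_lit 17) (nat_lit 186)) (nd (nat_lit 254) (nat_lit 0) (cs (rf (nat_lit 8)) (lf (nat_lit 32) (nat_lit 188)))))))))))) (rf (nat_lit 9))))))))))))))) (cs (rf (nat_lit 10)) (cs (nd (nat_lit 188) (nat_lit 0) (cs (lf (nat_lit 34) (nat_lit 187)) (rf (nat_lit 11)))) (rf (nat_lit 12))))))) (cs (rf (nat_lit 13)) (rf (nat_lit 14))))))) q92796 (by decide +kernel)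
def q92918 : Q := Q.p (nat_lit 0x3000008000000000000000000000000000000000000000000000000000000000) (nat_lit 0x18000060000198001c6000778001ff0007f8000ff0001600000000000000000000000000000000000) (nat_lit 15)
theorem c92918 : QOK q92918 := cut [q92728, q92799, q92803, q92805, q92807, q92710, q1563, q85001, q92811, q92816, q85472, q16045, q92827, q13, q92845, q92854, q92903, q92906, q84417, q84429, q84418, q92726, q92916] ⟨c92728, c92799, c92803, c92805, c92807, c92710, c1563, c85001, c92811, c92816, c85472, c16045, c92827, c13, c92845, c92854, c92903, c92906, c84417, c84429, c84418, c92726, c92916, trivial⟩ (nd (nat_lit 230) (nat_lit 0) (cs (rf (nat_lit 0)) (cs (nd (nat_lit 209) (nat_lit 0) (cs (rf (nat_lit 1)) (cs (rf (nat_lit 2)) (cs (rf (nat_lit 3)) (rf (nat_lit 4)))))) (cs (nd (nat_lit 209) (nat_lit 0) (cs (rf (nat_lit 5)) (cs (rf (nat_lit 4)) (cs (nd (nat_lit 208) (nat_lit 0) (cs (rf (nat_lit 6)) (cs (rf (nat_lit 7)) (rf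 (nat_lit 8))))) (cs (rf (nat_lit 9)) (cs (nd (nat_lit 187) (nat_lit 0) (cs (lf (nat_lit 36) (nat_lit 164)) (nd (nat_lit 254) (nat_lit 0) (cs (lf (nat_lit 29) (nat_lit 187)) (nd (nat_lit 255) (nat_lit 0) (cs (lf (nat_lit 18) (nat_lit 230)) (nd (nat_lit 233) (nat_lit 0) (cs (lf (nat_lit 17) (nat_lit 230)) (rf (nat_lit 10)))))))))) (cs (nd (nat_lit 208) (nat_lit 0) (cs (rf (nat_lit 7)) (cs (nd (nat_lit 187) (nat_lit 0) (cs (lf (nat_lit 36) (nat_lit 164)) (nd (nat_lit 254) (nat_lit 0) (cs (lf (nat_lit 29) (nat_lit 187)) (nd (nat_lit 255) (nat_lit 0) (cs (lf (nat_lit 18) (nat_lit 230)) (nd (nat_lit 233) (nat_lit 0) (cs (lf (nat_lit 17) (nat_lit 230)) (nd (nat_lit 207) (nat_lit 0) (cs (rf (nat_lit 11)) (lf (nat_lit 19) (nat_lit 207)))))))))))) (nd (nat_lit 187) (nat_lit 0) (cs (lf (nat_lit 36) (nat_lit 164)) (nd (nat_lit 254) (nat_lit 0) (cs (lf (nat_lit 29) (nat_lit 187)) (nd (nat_lit 255) (nat_lit 0) (cs (lf (nat_lit 18) (nat_lit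 230)) (nd (nat_lit 233) (nat_lit 0) (cs (lf (nat_lit 17) (nat_lit 230)) (rf (nat_lit 12))))))))))))) (nd (nat_lit 187) (nat_lit 0) (cs (lf (nat_lit 36) (nat_lit 164)) (nd (nat_lit 254) (nat_lit 0) (cs (lf (nat_lit 29) (nat_lit 187)) (nd (nat_lit 255) (nat_lit 0) (cs (lf (nat_lit 18) (nat_lit 230)) (nd (nat_lit 233) (nat_lit 0) (cs (lf (nat_lit 17) (nat_lit 230)) (nd (nat_lit 186) (nat_lit 0) (cs (lf (nat_lit 47) (nat_lit 164)) (nd (nat_lit 208) (nat_lit 0) (cs (lf (nat_lit 42) (nat_lit 186)) (nd (nat_lit 207) (nat_lit 0) (cs (lf (nat_lit 19) (nat_lit 207)) (nd (nat_lit 205) (nat_lit 0) (cs (rf (nat_lit 13)) (lf (nat_lit 1) (nat_lit 205))))))))))))))))))))))))) (cs (rf (nat_lit 14)) (cs (rf (nat_lit 15)) (cs (rf (nat_lit 16)) (nd (nat_lit 209) (nat_lit 0) (cs (rf (nat_lit 17)) (cs (nd (nat_lit 208) (nat_lit 0) (cs (rf (nat_lit 6)) (cs (rf (nat_lit 7)) (nd (nat_lit 229) (nat_lit 0) (cs (rf (nat_lit 18)) (cs (rf (nat_lit 19))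 (nd (nat_lit 232) (nat_lit 0) (cs (rf (nat_lit 20)) (cs (rf (nat_lit 21)) (nd (nat_lit 275) (nat_lit 0) (cs (lf (nat_lit 42) (nat_lit 208)) (nd (nat_lit 276) (nat_lit 0) (cs (lf (nat_lit 29) (nat_lit 209)) (nd (nat_lit 254) (nat_lit 0) (cs (lf (nat_lit 18) (nat_lit 229)) (nd (nat_lit 207) (nat_lit 0) (cs (lf (nat_lit 23) (nat_lit 206)) (nd (nat_lit 185) (nat_lit 0) (cs (lf (nat_lit 24) (nat_lit 163)) (nd (nat_lit 210) (nat_lit 0) (cs (lf (nat_lit 23) (nat_lit 184)) (lf (nat_lit 17) (nat_lit 207))))))))))))))))))))))) (rf (nat_lit 22)))))))))))) q92918 (by decide +kernel)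
def q92922 : Q := Q.p (nat_lit 0x300000c000000000000000000000000000000000000000000000000000000000) (nat_lit 0xe000078000078000c00001000003e0000e0000380000000000000000000000000000000000000000) (nat_lit 9)
theorem c92922 : QOK q92922 := cut [q79097, q85044, q84624, q92919, q92920] ⟨c79097, c85044, c84624, c92919, c92920, trivial⟩ (nd (nat_lit 274) (nat_lit 0) (cs (rf (nat_lit 0)) (cs (rf (nat_lit 1)) (nd (nat_lit 208) (nat_lit 0) (cs (rf (nat_lit 2)) (cs (rf (nat_lit 3)) (rf (nat_lit 4)))))))) q92922 (by decide +kernel)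
def q92942 : Q := Q.p (nat_lit 0x300000c000000000000000000000000000000000000000000000000000000000) (nat_lit 0x400001000004000006000738001ff0007f8000780001000000000000000000000000000000000000) (nat_lit 9)
theorem c92942 : QOK q92942 := cut [q82300, q92937, q92941] ⟨c82300, c92937, c92941, trivial⟩ (nd (nat_lit 209) (nat_lit 0) (cs (rf (nat_lit 0)) (cs (rf (nat_lit 1)) (rf (nat_lit 2))))) q92942 (by decide +kernel)
def q93005 : Q := Q.p (nat_lit 0x3000008000030000000000000000000000000000000000000000000000000000) (nat_lit 0x60000780001e000000000760001ce000138000000000000000000000000000000000000000000000) (nat_lit 10)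
theorem c93005 : QOK q93005 := cut [q92713, q92798, q92811] ⟨c92713, c92798, c92811, trivial⟩ (nd (nat_lit 230) (nat_lit 0) (cs (rf (nat_lit 0)) (cs (rf (nat_lit 1)) (rf (nat_lit 2))))) q93005 (by decide +kernel)
def q93158 : Q := Q.p (nat_lit 0x3000008000000000000000000000000000000000000000000000000000000000) (nat_lit 0x7f8000fc001df8007c0003f78007e0001ff000ff00005400000000000000000000000000000000000) (nat_lit 17)
theorem c93158 : QOK q93158 := cut [q82300, q92707, q84644, q84848, q42008, q88986, q93020, q42010, q11580, q93029, q80728, q7464, q93032, q93043, q79028, q87864, q87865, q84925, q93042, q93121, q93122, q93054, q93127, q84431, q93139, q93141, q93142, q82309, q93156] ⟨c82300, c92707, c84644, c84848, c42008, c88986, c93020, c42010, c11580, c93029, c80728, c7464, c93032, c93043, c79028, c87864, c87865, c84925, c93042, c93121, c93122, c93054, c93127, c84431, c93139, c93141, c93142, c82309, c93156, trivial⟩ (nd (nat_lit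 254) (nat_lit 0) (cs (nd (nat_lit 209) (nat_lit 0) (cs (rf (nat_lit 0)) (cs (rf (nat_lit 1)) (cs (nd (nat_lit 298) (nat_lit 0) (cs (nd (nat_lit 276) (nat_lit 0) (cs (lf (nat_lit 27) (nat_lit 209)) (lf (nat_lit 45) (nat_lit 209)))) (cs (nd (nat_lit 276) (nat_lit 0) (cs (lf (nat_lit 42) (nat_lit 231)) (lf (nat_lit 45) (nat_lit 209)))) (cs (nd (nat_lit 296) (nat_lit 0) (cs (rf (nat_lit 2)) (cs (rf (nat_lit 3)) (nd (nat_lit 297) (nat_lit 0) (cs (nd (nat_lit 295) (nat_lit 0) (cs (rf (nat_lit 4)) (cs (rf (nat_lit 5)) (cs (rf (nat_lit 6)) (nd (nat_lit 320) (nat_lit 0) (cs (lf (nat_lit 5) (nat_lit 295)) (rf (nat_lit 7)))))))) (cs (nd (nat_lit 275) (nat_lit 0) (cs (lf (nat_lit 29) (nat_lit 231)) (rf (nat_lit 8)))) (nd (nat_lit 275) (nat_lit 0) (cs (lf (nat_lit 41) (nat_lit 230)) (rf (nat_lit 8)))))))))) (nd (nat_lit 276) (nat_lit 0) (cs (lf (nat_lit 42) (nat_lit 231)) (lf (nat_lit 27) (nat_lit 209)))))))) (rf (nat_lit 9)))))) (cs (nd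 (nat_lit 209) (nat_lit 0) (cs (rf (nat_lit 10)) (cs (rf (nat_lit 9)) (cs (nd (nat_lit 210) (nat_lit 0) (cs (rf (nat_lit 11)) (cs (nd (nat_lit 275) (nat_lit 0) (cs (lf (nat_lit 35) (nat_lit 187)) (nd (nat_lit 298) (nat_lit 0) (cs (lf (nat_lit 28) (nat_lit 209)) (nd (nat_lit 297) (nat_lit 0) (cs (lf (nat_lit 29) (nat_lit 231)) (nd (nat_lit 296) (nat_lit 0) (cs (lf (nat_lit 41) (nat_lit 230)) (rf (nat_lit 12)))))))))) (rf (nat_lit 13))))) (nd (nat_lit 230) (nat_lit 0) (cs (rf (nat_lit 14)) (cs (nd (nat_lit 187) (nat_lit 0) (cs (lf (nat_lit 36) (nat_lit 164)) (nd (nat_lit 255) (nat_lit 0) (cs (lf (nat_lit 18) (nat_lit 230)) (nd (nat_lit 233) (nat_lit 0) (cs (lf (nat_lit 17) (nat_lit 230)) (rf (nat_lit 15)))))))) (nd (nat_lit 228) (nat_lit 0) (cs (lf (nat_lit 1) (nat_lit 228)) (rf (nat_lit 16))))))))))) (cs (nd (nat_lit 255) (nat_lit 0) (cs (rf (nat_lit 17)) (cs (rf (nat_lit 18)) (nd (nat_lit 297) (nat_lit 0) (cs (rf (nat_lit 19))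 (cs (nd (nat_lit 230) (nat_lit 0) (cs (lf (nat_lit 23) (nat_lit 229)) (nd (nat_lit 233) (nat_lit 0) (cs (lf (nat_lit 17) (nat_lit 230)) (nd (nat_lit 275) (nat_lit 0) (cs (lf (nat_lit 42) (nat_lit 230)) (nd (nat_lit 232) (nat_lit 0) (cs (lf (nat_lit 35) (nat_lit 209)) (rf (nat_lit 20)))))))))) (cs (nd (nat_lit 275) (nat_lit 0) (cs (nd (nat_lit 298) (nat_lit 0) (cs (lf (nat_lit 29) (nat_lit 231)) (nd (nat_lit 296) (nat_lit 0) (cs (lf (nat_lit 41) (nat_lit 230)) (nd (nat_lit 273) (nat_lit 0) (cs (lf (nat_lit 10) (nat_lit 251)) (rf (nat_lit 21)))))))) (rf (nat_lit 22)))) (nd (nat_lit 274) (nat_lit 0) (cs (lf (nat_lit 11) (nat_lit 251)) (nd (nat_lit 230) (nat_lit 0) (cs (lf (nat_lit 23) (nat_lit 229)) (rf (nat_lit 23))))))))))))) (cs (rf (nat_lit 24)) (cs (rf (nat_lit 25)) (cs (nd (nat_lit 255) (nat_lit 0) (cs (rf (nat_lit 17)) (cs (rf (nat_lit 18)) (nd (nat_lit 230) (nat_lit 0) (cs (lf (nat_lit 23) (nat_lit 229)) (nd (nat_lit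 233) (nat_lit 0) (cs (lf (nat_lit 17) (nat_lit 230)) (rf (nat_lit 26))))))))) (nd (nat_lit 209) (nat_lit 0) (cs (rf (nat_lit 27)) (cs (rf (nat_lit 1)) (rf (nat_lit 28)))))))))))) q93158 (by decide +kernel)
def q93174 : Q := Q.p (nat_lit 0x3000008000060000000000000000000000000000000000000000000000000000) (nat_lit 0x60000180000e0000000007600019e000078000100000400000000000000000000000000000000000) (nat_lit 8)
theorem c93174 : QOK q93174 := cut [q1563, q85116, q93173] ⟨c1563, c85116, c93173, trivial⟩ (nd (nat_lit 208) (nat_lit 0) (cs (rf (nat_lit 0)) (cs (rf (nat_lit 1)) (rf (nat_lit 2))))) q93174 (by decide +kernel)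
def q93505 : Q := Q.p (nat_lit 0x3800002000000000000000000000000000000000000000000000000000000000) (nat_lit 0x140000700001c00003c000c00007400001c0000700001c0000400000000000000000000000000000000000) (nat_lit 10)
theorem c93505 : QOK q93505 := cut [q85421, q82405, q86851, q92677, q85523] ⟨c85421, c82405, c86851, c92677, c85523, trivial⟩ (nd (nat_lit 273) (nat_lit 0) (cs (rf (nat_lit 0)) (cs (nd (nat_lit 295) (nat_lit 0) (cs (rf (nat_lit 1)) (cs (rf (nat_lit 2)) (rf (nat_lit 3))))) (nd (nat_lit 254) (nat_lit 0) (cs (lf (nat_lit 11) (nat_lit 250)) (rf (nat_lit 4))))))) q93505 (by decide +kernel)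
def q93602 : Q := Q.p (nat_lit 0x300000c000000000000000000000000000000000000000000000000000000000) (nat_lit 0x200000c00018e000738001ce000120000480000000000000000000000000000000000000000) (nat_lit 9)
theorem c93602 : QOK q93602 := cut [q87131, q93595, q93601] ⟨c87131, c93595, c93601, trivial⟩ (nd (nat_lit 232) (nat_lit 0) (cs (rf (nat_lit 0)) (cs (rf (nat_lit 1)) (rf (nat_lit 2))))) q93602 (by decide +kernel)
def q93644 : Q := Q.p (nat_lit 0x300000c000000000000000000000000000000000000000000000000000000000) (nat_lit 0x10000040000780000e000338000ee0001a0000680000000000000000000000000000000000000000) (nat_lit 8)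
theorem c93644 : QOK q93644 := cut [q84852, q93641, q93643] ⟨c84852, c93641, c93643, trivial⟩ (nd (nat_lit 229) (nat_lit 0) (cs (rf (nat_lit 0)) (cs (rf (nat_lit 1)) (rf (nat_lit 2))))) q93644 (by decide +kernel)
def q93670 : Q := Q.p (nat_lit 0x300000c000000000000000000000000000000000000000000000000000000000) (nat_lit 0x1f0001fe0001f80000e0003380002e0000300000c0000000000000000000000000000000000000000) (nat_lit 15)
theorem c93670 : QOK q93670 := cut [q84909, q87141, q426, q87917, q93630, q93652, q87928, q93654, q93662, q93669] ⟨c84909, c87141, c426, c87917, c93630, c93652, c87928, c93654, c93662, c93669, trivial⟩ (nd (nat_lit 229) (nat_lit 0) (cs (rf (nat_lit 0)) (cs (rf (nat_lit 1)) (cs (nd (nat_lit 251) (nat_lit 0) (cs (rf (nat_lit 2)) (cs (rf (nat_lit 3)) (rf (nat_lit 4))))) (cs (rf (nat_lit 5)) (cs (nd (nat_lit 251) (nat_lit 0) (cs (rf (nat_lit 6)) (cs (rf (nat_lit 4)) (cs (rf (nat_lit 7)) (rf (nat_lit 8)))))) (rf (nat_lit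 9)))))))) q93670 (by decide +kernel)
def q93727 : Q := Q.p (nat_lit 0x3000004000000000000000000000000000000000000000000000000000000000) (nat_lit 0x300000e0000380000e0000000001be001ff0001fe000380000a00000000000000000000000000000000000) (nat_lit 12)
theorem c93727 : QOK q93727 := cut [q6259, q79029, q79066, q22313, q79048, q93555, q93717, q25, q499, q79032, q79045] ⟨c6259, c79029, c79066, c22313, c79048, c93555, c93717, c25, c499, c79032, c79045, trivial⟩ (nd (nat_lit 208) (nat_lit 0) (cs (rf (nat_lit 0)) (cs (rf (nat_lit 1)) (cs (rf (nat_lit 2)) (cs (nd (nat_lit 274) (nat_lit 0) (cs (rf (nat_lit 3)) (cs (rf (nat_lit 4)) (cs (rf (nat_lit 5)) (rf (nat_lit 6)))))) (nd (nat_lit 186) (nat_lit 0) (cs (rf (nat_lit 7)) (cs (rf (nat_lit 8)) (cs (rf (nat_lit 9)) (nd (nat_lit 163) (nat_lit 0) (cs (lf (nat_lit 46) (nat_lit 163)) (nd (nat_lit 187) (nat_lit 0) (cs (lf (nat_lit 35) (nat_lit 164)) (nd (nat_lit 274) (nat_lit 0) (cs (lf (nat_lit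 34) (nat_lit 186)) (nd (nat_lit 295) (nat_lit 0) (cs (lf (nat_lit 40) (nat_lit 207)) (nd (nat_lit 296) (nat_lit 0) (cs (lf (nat_lit 41) (nat_lit 229)) (nd (nat_lit 207) (nat_lit 0) (cs (lf (nat_lit 46) (nat_lit 207)) (nd (nat_lit 205) (nat_lit 0) (cs (lf (nat_lit 13) (nat_lit 183)) (rf (nat_lit 10))))))))))))))))))))))))) q93727 (by decide +kernel)
def q94053 : Q := Q.p (nat_lit 0x3000004000000000000000000000000000000000000000000000000000000000) (nat_lit 0xa0000380000f0000c8000030000f80000e0000380000a00000000000000000000000000000000000) (nat_lit 8)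
theorem c94053 : QOK q94053 := cut [q1409, q3991, q79029, q93685, q22313, q93682, q94051] ⟨c1409, c3991, c79029, c93685, c22313, c93682, c94051, trivial⟩ (nd (nat_lit 208) (nat_lit 0) (cs (rf (nat_lit 0)) (cs (rf (nat_lit 1)) (cs (rf (nat_lit 2)) (cs (rf (nat_lit 3)) (nd (nat_lit 274) (nat_lit 0) (cs (rf (nat_lit 4)) (cs (rf (nat_lit 5)) (rf (nat_lit 6)))))))))) q94053 (by decide +kernel)
def q94061 : Q := Q.p (nat_lit 0x3000004000000000000000000000000000000000000000000000000000000000) (nat_lit 0x6000018001df0007c8003fb8000cc0003b0000ec0002800000000000000000000000000000000000) (nat_lit 11)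
theorem c94061 : QOK q94061 := cut [q79028, q81644, q94055, q79026, q81406, q87153, q79251, q87155, q79128, q79160, q94057] ⟨c79028, c81644, c94055, c79026, c81406, c87153, c79251, c87155, c79128, c79160, c94057, trivial⟩ (nd (nat_lit 254) (nat_lit 0) (cs (rf (nat_lit 0)) (cs (rf (nat_lit 1)) (cs (rf (nat_lit 2)) (nd (nat_lit 229) (nat_lit 0) (cs (rf (nat_lit 3)) (cs (rf (nat_lit 4)) (nd (nat_lit 232) (nat_lit 0) (cs (rf (nat_lit 5)) (cs (nd (nat_lit 231) (nat_lit 0) (cs (rf (nat_lit 6)) (rf (nat_lit 7)))) (nd (nat_lit 210) (nat_lit 0) (cs (rf (nat_lit 8)) (cs (rf (nat_lit 9)) (rf (nat_lit 10))))))))))))))) q94061 (by decide +kernel)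
def q94127 : Q := Q.p (nat_lit 0x3000004000010000000000000000000000000000000000000000000000000000) (nat_lit 0x280000f8000c80001be001ef0001be000000000000000000000000000000000000000000000) (nat_lit 11)
theorem c94127 : QOK q94127 := cut [q85716, q93717, q94050, q94126] ⟨c85716, c93717, c94050, c94126, trivial⟩ (nd (nat_lit 274) (nat_lit 0) (cs (rf (nat_lit 0)) (cs (rf (nat_lit 1)) (cs (rf (nat_lit 2)) (rf (nat_lit 3)))))) q94127 (by decide +kernel)
def q94157 : Q := Q.p (nat_lit 0x3000004000000000000000000000000000000000000000000000000000000000) (nat_lit 0x8000078001df0007c8003fb8001f00003c0000f00002800000000000000000000000000000000000) (nat_lit 14)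
theorem c94157 : QOK q94157 := cut [q79028, q81644, q94055, q79118, q94087, q79199, q81955, q92844, q94096, q94139, q81681, q83627, q94138, q79128, q94091, q80236, q94153] ⟨c79028, c81644, c94055, c79118, c94087, c79199, c81955, c92844, c94096, c94139, c81681, c83627, c94138, c79128, c94091, c80236, c94153, trivial⟩ (nd (nat_lit 254) (nat_lit 0) (cs (rf (nat_lit 0)) (cs (rf (nat_lit 1)) (cs (rf (nat_lit 2)) (nd (nat_lit 232) (nat_lit 0) (cs (rf (nat_lit 3)) (cs (rf (nat_lit 4)) (cs (nd (nat_lit 275) (nat_lit 0) (cs (rf (nat_lit 5)) (cs (rf (nat_lit 6)) (nd (nat_lit 231) (nat_lit 0) (cs (rf (nat_lit 7)) (cs (rf (nat_lit 8)) (cs (nd (nat_lit 208) (nat_lit 0) (cs (lf (nat_lit 24) (nat_lit 186)) (nd (nat_lit 228) (nat_lit 0) (cs (lf (nat_lit 1) (nat_lit 228)) (nd (nat_lit 233) (nat_lit 0) (cs (lf (nat_lit 6) (nat_lit 230)) (nd (nat_lit 211) (nat_lit 0) (cs (lf (nat_lit 17) (nat_lit 208)) (nd (nat_lit 167) (nat_lit 0) (cs (lf (nat_lit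 37) (nat_lit 166)) (nd (nat_lit 276) (nat_lit 0) (cs (lf (nat_lit 30) (nat_lit 210)) (rf (nat_lit 9)))))))))))))) (nd (nat_lit 209) (nat_lit 0) (cs (rf (nat_lit 10)) (cs (rf (nat_lit 11)) (nd (nat_lit 233) (nat_lit 0) (cs (lf (nat_lit 6) (nat_lit 230)) (nd (nat_lit 276) (nat_lit 0) (cs (lf (nat_lit 42) (nat_lit 209)) (nd (nat_lit 208) (nat_lit 0) (cs (lf (nat_lit 47) (nat_lit 186)) (nd (nat_lit 188) (nat_lit 0) (cs (lf (nat_lit 34) (nat_lit 187)) (rf (nat_lit 12)))))))))))))))))))) (nd (nat_lit 210) (nat_lit 0) (cs (rf (nat_lit 13)) (cs (rf (nat_lit 14)) (nd (nat_lit 231) (nat_lit 0) (cs (rf (nat_lit 15)) (rf (nat_lit 16))))))))))))))) q94157 (by decide +kernel)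
def q94244 : Q := Q.p (nat_lit 0x800007800000000000000000000000000000000000000000000000000000000000000) (nat_lit 0x40000340001d3000380001fc0003f0001ff0003f0000bc00000000000000000000000000000000000) (nat_lit 13)
theorem c94244 : QOK q94244 := cut [q94179, q81207, q93255, q94187, q22455, q84694, q84657, q81604, q2453, q94212, q94222, q94224, q94230, q15499, q94235, q79250, q79868, q94239] ⟨c94179, c81207, c93255, c94187, c22455, c84694, c84657, c81604, c2453, c94212, c94222, c94224, c94230, c15499, c94235, c79250, c79868, c94239, trivial⟩ (nd (nat_lit 231) (nat_lit 0) (cs (nd (nat_lit 233) (nat_lit 0) (cs (lf (nat_lit 16) (nat_lit 229)) (nd (nat_lit 255) (nat_lit 0) (cs (lf (nat_lit 17) (nat_lit 230)) (nd (nat_lit 256) (nat_lit 0) (cs (lf (nat_lit 23) (nat_lit 230)) (nd (nat_lit 278) (nat_lit 0) (cs (lf (nat_lit 5) (nat_lit 253)) (nd (nat_lit 300) (nat_lit 0) (cs (lf (nat_lit 42) (nat_lit 233)) (nd (nat_lit 189) (nat_lit 0)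 (cs (lf (nat_lit 25) (nat_lit 189)) (rf (nat_lit 0)))))))))))))) (cs (nd (nat_lit 209) (nat_lit 0) (cs (rf (nat_lit 1)) (cs (rf (nat_lit 2)) (nd (nat_lit 208) (nat_lit 0) (cs (lf (nat_lit 47) (nat_lit 186)) (nd (nat_lit 210) (nat_lit 0) (cs (lf (nat_lit 35) (nat_lit 187)) (nd (nat_lit 234) (nat_lit 0) (cs (nd (nat_lit 233) (nat_lit 0) (cs (lf (nat_lit 3) (nat_lit 208)) (lf (nat_lit 15) (nat_lit 230)))) (cs (nd (nat_lit 272) (nat_lit 0) (cs (lf (nat_lit 10) (nat_lit 250)) (nd (nat_lit 255) (nat_lit 0) (cs (lf (nat_lit 16) (nat_lit 230)) (rf (nat_lit 3)))))) (cs (nd (nat_lit 256) (nat_lit 0) (cs (nd (nat_lit 255) (nat_lit 0) (cs (lf (nat_lit 17) (nat_lit 231)) (lf (nat_lit 23) (nat_lit 230)))) (cs (nd (nat_lit 276) (nat_lit 0) (cs (lf (nat_lit 29) (nat_lit 209)) (nd (nat_lit 255) (nat_lit 0) (cs (lf (nat_lit 23) (nat_lit 230)) (lf (nat_lit 6) (nat_lit 253)))))) (cs (nd (nat_lit 212) (nat_lit 0) (cs (nd (nat_lit 211) (nat_lit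 0) (cs (lf (nat_lit 5) (nat_lit 209)) (lf (nat_lit 11) (nat_lit 208)))) (cs (nd (nat_lit 190) (nat_lit 0) (cs (rf (nat_lit 4)) (cs (rf (nat_lit 5)) (cs (nd (nat_lit 276) (nat_lit 0) (cs (lf (nat_lit 29) (nat_lit 209)) (rf (nat_lit 6)))) (nd (nat_lit 279) (nat_lit 0) (cs (lf (nat_lit 28) (nat_lit 190)) (nd (nat_lit 167) (nat_lit 0) (cs (lf (nat_lit 46) (nat_lit 167)) (nd (nat_lit 278) (nat_lit 0) (cs (lf (nat_lit 29) (nat_lit 212)) (rf (nat_lit 7)))))))))))) (nd (nat_lit 276) (nat_lit 0) (cs (lf (nat_lit 29) (nat_lit 209)) (nd (nat_lit 211) (nat_lit 0) (cs (lf (nat_lit 11) (nat_lit 208)) (rf (nat_lit 8))))))))) (nd (nat_lit 276) (nat_lit 0) (cs (lf (nat_lit 29) (nat_lit 209)) (nd (nat_lit 255) (nat_lit 0) (cs (lf (nat_lit 17) (nat_lit 231)) (lf (nat_lit 6) (nat_lit 253)))))))))) (nd (nat_lit 276) (nat_lit 0) (cs (lf (nat_lit 29) (nat_lit 209)) (nd (nat_lit 211) (nat_lit 0) (cs (lf (nat_lit 4) (nat_lit 208)) (nd (nat_lit 212)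 (nat_lit 0) (cs (lf (nat_lit 5) (nat_lit 209)) (lf (nat_lit 11) (nat_lit 208))))))))))))))))))) (cs (nd (nat_lit 272) (nat_lit 0) (cs (lf (nat_lit 10) (nat_lit 250)) (nd (nat_lit 233) (nat_lit 0) (cs (lf (nat_lit 16) (nat_lit 229)) (nd (nat_lit 255) (nat_lit 0) (cs (lf (nat_lit 17) (nat_lit 230)) (nd (nat_lit 256) (nat_lit 0) (cs (lf (nat_lit 23) (nat_lit 230)) (rf (nat_lit 9)))))))))) (cs (rf (nat_lit 10)) (cs (nd (nat_lit 209) (nat_lit 0) (cs (rf (nat_lit 1)) (cs (nd (nat_lit 210) (nat_lit 0) (cs (lf (nat_lit 35) (nat_lit 187)) (nd (nat_lit 272) (nat_lit 0) (cs (lf (nat_lit 10) (nat_lit 250)) (nd (nat_lit 276) (nat_lit 0) (cs (lf (nat_lit 29) (nat_lit 209)) (nd (nat_lit 208) (nat_lit 0) (cs (lf (nat_lit 47) (nat_lit 186)) (rf (nat_lit 11)))))))))) (rf (nat_lit 12))))) (cs (nd (nat_lit 209) (nat_lit 0) (cs (rf (nat_lit 2)) (cs (rf (nat_lit 12)) (cs (nd (nat_lit 208) (nat_lit 0) (cs (rf (nat_lit 13)) (nd (nat_lit 272) (nat_lit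 0) (cs (lf (nat_lit 10) (nat_lit 250)) (nd (nat_lit 210) (nat_lit 0) (cs (lf (nat_lit 35) (nat_lit 187)) (rf (nat_lit 11)))))))) (nd (nat_lit 232) (nat_lit 0) (cs (lf (nat_lit 17) (nat_lit 229)) (rf (nat_lit 14)))))))) (nd (nat_lit 232) (nat_lit 0) (cs (lf (nat_lit 17) (nat_lit 229)) (nd (nat_lit 210) (nat_lit 0) (cs (rf (nat_lit 15)) (nd (nat_lit 209) (nat_lit 0) (cs (rf (nat_lit 16)) (cs (rf (nat_lit 14)) (nd (nat_lit 272) (nat_lit 0) (cs (lf (nat_lit 10) (nat_lit 250)) (rf (nat_lit 17)))))))))))))))))) q94244 (by decide +kernel)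
def q94394 : Q := Q.p (nat_lit 0x800003000000000000000000000000000000000000000000000000000000000000000) (nat_lit 0x1f80007f8001ff000178001ce00074000050000140000000000000000000000000000000000000000000000) (nat_lit 13)
theorem c94394 : QOK q94394 := cut [q25707, q94337, q86873, q89773, q94338, q94343, q94356, q94359, q94370, q14764, q87978, q86874, q94380, q94383, q94384, q94392] ⟨c25707, c94337, c86873, c89773, c94338, c94343, c94356, c94359, c94370, c14764, c87978, c86874, c94380, c94383, c94384, c94392, trivial⟩ (nd (nat_lit 274) (nat_lit 0) (cs (nd (nat_lit 296) (nat_lit 0) (cs (rf (nat_lit 0)) (cs (rf (nat_lit 1)) (cs (nd (nat_lit 297) (nat_lit 0) (cs (rf (nat_lit 2)) (cs (rf (nat_lit 3)) (rf (nat_lit 4))))) (cs (rf (nat_lit 5)) (cs (rf (nat_lit 6)) (rf (nat_lit 7)))))))) (cs (rf (nat_lit 8)) (cs (nd (nat_lit 273) (nat_lit 0) (cs (nd (nat_lit 295) (nat_lit 0) (cs (rf (nat_lit 9)) (nd (nat_lit 230) (nat_lit 0) (cs (lf (nat_lit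 36) (nat_lit 207)) (rf (nat_lit 10)))))) (cs (nd (nat_lit 272) (nat_lit 0) (cs (lf (nat_lit 12) (nat_lit 249)) (nd (nat_lit 249) (nat_lit 0) (cs (lf (nat_lit 22) (nat_lit 249)) (rf (nat_lit 11)))))) (rf (nat_lit 12))))) (cs (rf (nat_lit 13)) (nd (nat_lit 296) (nat_lit 0) (cs (rf (nat_lit 0)) (cs (rf (nat_lit 1)) (cs (rf (nat_lit 5)) (cs (rf (nat_lit 7)) (cs (nd (nat_lit 297) (nat_lit 0) (cs (rf (nat_lit 2)) (cs (rf (nat_lit 3)) (rf (nat_lit 14))))) (rf (nat_lit 15))))))))))))) q94394 (by decide +kernel)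
def q94694 : Q := Q.p (nat_lit 0x800003000000000000000000000000000000000000000000000000000000000000000) (nat_lit 0x50001d5c003ce001ffc003fc001ff00007c0001500000000000000000000000000000000000) (nat_lit 15)
theorem c94694 : QOK q94694 := cut [q1999, q93921, q92660, q94178, q94651, q94260, q11484, q80450, q82300, q82309, q92710, q92795, q94655, q82220, q82301, q92707, q92792, q92793, q94662, q79181, q94674, q93029, q94688, q94690] ⟨c1999, c93921, c92660, c94178, c94651, c94260, c11484, c80450, c82300, c82309, c92710, c92795, c94655, c82220, c82301, c92707, c92792, c92793, c94662, c79181, c94674, c93029, c94688, c94690, trivial⟩ (nd (nat_lit 251) (nat_lit 0) (cs (rf (nat_lit 0)) (cs (rf (nat_lit 1)) (nd (nat_lit 254) (nat_lit 0) (cs (rf (nat_lit 2)) (cs (rf (nat_lit 3)) (cs (rf (nat_lit 4)) (cs (nd (nat_lit 229) (nat_lit 0) (cs (lf (nat_lit 23) (nat_lit 228)) (nd (nat_lit 231) (nat_lit 0) (cs (rf (nat_lit 5)) (cs (nd (nat_lit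 207) (nat_lit 0) (cs (rf (nat_lit 6)) (cs (rf (nat_lit 7)) (cs (nd (nat_lit 209) (nat_lit 0) (cs (rf (nat_lit 8)) (cs (rf (nat_lit 9)) (cs (rf (nat_lit 10)) (cs (rf (nat_lit 11)) (rf (nat_lit 12))))))) (nd (nat_lit 186) (nat_lit 0) (cs (rf (nat_lit 13)) (cs (nd (nat_lit 164) (nat_lit 0) (cs (lf (nat_lit 33) (nat_lit 163)) (nd (nat_lit 208) (nat_lit 0) (cs (lf (nat_lit 36) (nat_lit 141)) (lf (nat_lit 45) (nat_lit 186)))))) (nd (nat_lit 208) (nat_lit 0) (cs (lf (nat_lit 45) (nat_lit 186)) (lf (nat_lit 26) (nat_lit 186))))))))))) (cs (nd (nat_lit 209) (nat_lit 0) (cs (rf (nat_lit 14)) (cs (rf (nat_lit 15)) (cs (rf (nat_lit 16)) (cs (rf (nat_lit 17)) (nd (nat_lit 232) (nat_lit 0) (cs (lf (nat_lit 17) (nat_lit 229)) (nd (nat_lit 276) (nat_lit 0) (cs (lf (nat_lit 42) (nat_lit 209)) (nd (nat_lit 188) (nat_lit 0) (cs (lf (nat_lit 34) (nat_lit 187)) (nd (nat_lit 208) (nat_lit 0) (cs (lf (nat_lit 47) (nat_lit 186)) (nd (nat_lit 274)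 (nat_lit 0) (cs (lf (nat_lit 41) (nat_lit 208)) (rf (nat_lit 18))))))))))))))))) (cs (nd (nat_lit 232) (nat_lit 0) (cs (lf (nat_lit 17) (nat_lit 229)) (nd (nat_lit 210) (nat_lit 0) (cs (lf (nat_lit 36) (nat_lit 187)) (nd (nat_lit 211) (nat_lit 0) (cs (lf (nat_lit 13) (nat_lit 207)) (nd (nat_lit 212) (nat_lit 0) (cs (lf (nat_lit 6) (nat_lit 209)) (nd (nat_lit 276) (nat_lit 0) (cs (lf (nat_lit 35) (nat_lit 188)) (rf (nat_lit 19)))))))))))) (cs (nd (nat_lit 232) (nat_lit 0) (cs (lf (nat_lit 17) (nat_lit 229)) (nd (nat_lit 210) (nat_lit 0) (cs (lf (nat_lit 36) (nat_lit 187)) (rf (nat_lit 20)))))) (nd (nat_lit 209) (nat_lit 0) (cs (rf (nat_lit 9)) (cs (rf (nat_lit 21)) (nd (nat_lit 232) (nat_lit 0) (cs (lf (nat_lit 17) (nat_lit 229)) (nd (nat_lit 276) (nat_lit 0) (cs (lf (nat_lit 42) (nat_lit 209)) (nd (nat_lit 274) (nat_lit 0) (cs (lf (nat_lit 41) (nat_lit 208)) (nd (nat_lit 208) (nat_lit 0) (cs (lf (nat_lit 47) (nat_lit 186))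 (rf (nat_lit 18))))))))))))))))))))) (cs (rf (nat_lit 22)) (nd (nat_lit 228) (nat_lit 0) (cs (lf (nat_lit 22) (nat_lit 228)) (nd (nat_lit 233) (nat_lit 0) (cs (lf (nat_lit 16) (nat_lit 229)) (rf (nat_lit 23))))))))))))))) q94694 (by decide +kernel)
def q94790 : Q := Q.p (nat_lit 0x3000008000000000000000000000000000000000000000000000000000000000) (nat_lit 0x100001c000070000180001cc000760003fc0007f0000780001600000000000000000000000000000000000) (nat_lit 12)
theorem c94790 : QOK q94790 := cut [q94159, q94424, q26315, q87016, q93179, q93255, q94773, q94775, q81706, q93008, q79466, q94789] ⟨c94159, c94424, c26315, c87016, c93179, c93255, c94773, c94775, c81706, c93008, c79466, c94789, trivial⟩ (nd (nat_lit 232) (nat_lit 0) (cs (rf (nat_lit 0)) (cs (rf (nat_lit 1)) (cs (nd (nat_lit 275) (nat_lit 0) (cs (rf (nat_lit 2)) (cs (rf (nat_lit 3)) (cs (nd (nat_lit 209) (nat_lit 0) (cs (rf (nat_lit 4)) (cs (rf (nat_lit 5)) (cs (rf (nat_lit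 6)) (nd (nat_lit 250) (nat_lit 0) (cs (lf (nat_lit 13) (nat_lit 228)) (rf (nat_lit 7)))))))) (nd (nat_lit 297) (nat_lit 0) (cs (rf (nat_lit 8)) (cs (rf (nat_lit 9)) (nd (nat_lit 250) (nat_lit 0) (cs (lf (nat_lit 13) (nat_lit 228)) (nd (nat_lit 298) (nat_lit 0) (cs (lf (nat_lit 29) (nat_lit 231)) (nd (nat_lit 209) (nat_lit 0) (cs (lf (nat_lit 28) (nat_lit 209)) (nd (nat_lit 186) (nat_lit 0) (cs (lf (nat_lit 46) (nat_lit 186)) (nd (nat_lit 296) (nat_lit 0) (cs (lf (nat_lit 41) (nat_lit 230)) (nd (nat_lit 254) (nat_lit 0) (cs (lf (nat_lit 30) (nat_lit 231)) (rf (nat_lit 10))))))))))))))))))))) (rf (nat_lit 11)))))) q94790 (by decide +kernel)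
def q94836 : Q := Q.p (nat_lit 0x3000008000000000000000000000000000000000000000000000000000000000) (nat_lit 0x500001c0003fc000ff00017c001cc000760001ff000ffc000ff0001400000000000000000000000000000000000) (nat_lit 17)
theorem c94836 : QOK q94836 := cut [q82300, q92707, q94159, q94424, q82279, q88888, q1597, q85713, q87049, q82682, q92695, q91700, q94801, q94808, q92716, q92721, q94813, q94816, q4090, q82299, q84587, q4698, q91271, q91276, q92941] ⟨c82300, c92707, c94159, c94424, c82279, c88888, c1597, c85713, c87049, c82682, c92695, c91700, c94801, c94808, c92716, c92721, c94813, c94816, c4090, c82299, c84587, c4698, c91271, c91276, c92941, trivial⟩ (nd (nat_lit 209) (nat_lit 0) (cs (rf (nat_lit 0)) (cs (rf (nat_lit 1)) (cs (nd (nat_lit 232) (nat_lit 0) (cs (rf (nat_lit 2)) (cs (rf (nat_lit 3)) (cs (nd (nat_lit 251) (nat_lit 0) (cs (lf (nat_lit 12) (nat_lit 228)) (nd (nat_lit 274) (nat_lit 0) (cs (rf (nat_lit 4)) (cs (nd (nat_lit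 208) (nat_lit 0) (cs (rf (nat_lit 5)) (cs (nd (nat_lit 207) (nat_lit 0) (cs (lf (nat_lit 0) (nat_lit 206)) (nd (nat_lit 185) (nat_lit 0) (cs (lf (nat_lit 26) (nat_lit 185)) (rf (nat_lit 6)))))) (nd (nat_lit 273) (nat_lit 0) (cs (rf (nat_lit 7)) (rf (nat_lit 8))))))) (nd (nat_lit 273) (nat_lit 0) (cs (rf (nat_lit 7)) (cs (nd (nat_lit 295) (nat_lit 0) (cs (rf (nat_lit 9)) (cs (rf (nat_lit 10)) (cs (nd (nat_lit 296) (nat_lit 0) (cs (lf (nat_lit 30) (nat_lit 230)) (nd (nat_lit 207) (nat_lit 0) (cs (lf (nat_lit 25) (nat_lit 207)) (nd (nat_lit 206) (nat_lit 0) (cs (lf (nat_lit 2) (nat_lit 206)) (nd (nat_lit 254) (nat_lit 0) (cs (lf (nat_lit 6) (nat_lit 251)) (nd (nat_lit 298) (nat_lit 0) (cs (lf (nat_lit 43) (nat_lit 209)) (nd (nat_lit 297) (nat_lit 0) (cs (lf (nat_lit 18) (nat_lit 273)) (rf (nat_lit 11)))))))))))))) (nd (nat_lit 254) (nat_lit 0) (cs (lf (nat_lit 6) (nat_lit 251)) (nd (nat_lit 276) (nat_lit 0) (cs (lf (nat_lit 42)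 (nat_lit 209)) (rf (nat_lit 12)))))))))) (rf (nat_lit 13)))))))))) (nd (nat_lit 233) (nat_lit 0) (cs (lf (nat_lit 6) (nat_lit 230)) (nd (nat_lit 230) (nat_lit 0) (cs (rf (nat_lit 14)) (cs (rf (nat_lit 15)) (cs (rf (nat_lit 16)) (rf (nat_lit 17)))))))))))) (nd (nat_lit 232) (nat_lit 0) (cs (rf (nat_lit 2)) (cs (rf (nat_lit 3)) (cs (nd (nat_lit 187) (nat_lit 0) (cs (rf (nat_lit 18)) (cs (rf (nat_lit 19)) (nd (nat_lit 186) (nat_lit 0) (cs (lf (nat_lit 47) (nat_lit 164)) (nd (nat_lit 185) (nat_lit 0) (cs (rf (nat_lit 20)) (cs (nd (nat_lit 250) (nat_lit 0) (cs (lf (nat_lit 13) (nat_lit 228)) (nd (nat_lit 254) (nat_lit 0) (cs (lf (nat_lit 29) (nat_lit 187)) (nd (nat_lit 188) (nat_lit 0) (cs (lf (nat_lit 35) (nat_lit 165)) (rf (nat_lit 21)))))))) (cs (nd (nat_lit 188) (nat_lit 0) (cs (lf (nat_lit 35) (nat_lit 165)) (nd (nat_lit 250) (nat_lit 0) (cs (lf (nat_lit 13) (nat_lit 228)) (nd (nat_lit 162) (nat_lit 0) (cs (lf (nat_lit 22)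 (nat_lit 162)) (nd (nat_lit 206) (nat_lit 0) (cs (lf (nat_lit 10) (nat_lit 184)) (nd (nat_lit 254) (nat_lit 0) (cs (lf (nat_lit 29) (nat_lit 187)) (rf (nat_lit 22)))))))))))) (nd (nat_lit 166) (nat_lit 0) (cs (lf (nat_lit 34) (nat_lit 165)) (nd (nat_lit 250) (nat_lit 0) (cs (lf (nat_lit 13) (nat_lit 228)) (rf (nat_lit 23))))))))))))))) (nd (nat_lit 233) (nat_lit 0) (cs (lf (nat_lit 6) (nat_lit 230)) (nd (nat_lit 230) (nat_lit 0) (cs (rf (nat_lit 14)) (cs (rf (nat_lit 15)) (rf (nat_lit 24))))))))))))))) q94836 (by decide +kernel)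
def q94869 : Q := Q.p (nat_lit 0x3000008000030000000000000000000000000000000000000000000000000000) (nat_lit 0x60000180000e000000000760001ce000f38000400001000000000000000000000000000000000000) (nat_lit 8)
theorem c94869 : QOK q94869 := cut [q7463, q7464, q93173] ⟨c7463, c7464, c93173, trivial⟩ (nd (nat_lit 210) (nat_lit 0) (cs (rf (nat_lit 0)) (cs (rf (nat_lit 1)) (rf (nat_lit 2))))) q94869 (by decide +kernel)
def q94893 : Q := Q.p (nat_lit 0x200003800008000000000000000000000000000000000000000000000000000000000) (nat_lit 0x500001c0000f00003f0000dc0000000036e0003f0000fc000100000400000000000000000000000000000000000) (nat_lit 13)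
theorem c94893 : QOK q94893 := cut [q80881, q94808, q87049, q7922, q92114] ⟨c80881, c94808, c87049, c7922, c92114, trivial⟩ (nd (nat_lit 274) (nat_lit 0) (cs (rf (nat_lit 0)) (cs (rf (nat_lit 1)) (nd (nat_lit 208) (nat_lit 0) (cs (rf (nat_lit 2)) (cs (nd (nat_lit 209) (nat_lit 0) (cs (lf (nat_lit 36) (nat_lit 186)) (nd (nat_lit 271) (nat_lit 0) (cs (lf (nat_lit 13) (nat_lit 249)) (nd (nat_lit 186) (nat_lit 0) (cs (lf (nat_lit 42) (nat_lit 186)) (nd (nat_lit 142) (nat_lit 0) (cs (lf (nat_lit 25) (nat_lit 142)) (nd (nat_lit 207) (nat_lit 0) (cs (lf (nat_lit 32) (nat_lit 185)) (nd (nat_lit 206) (nat_lit 0) (cs (lf (nat_lit 5) (nat_lit 206)) (nd (nat_lit 183) (nat_lit 0) (cs (lf (nat_lit 22) (nat_lit 183)) (nd (nat_lit 205) (nat_lit 0) (cs (lf (nat_lit 23) (nat_lit 182)) (rf (nat_lit 3)))))))))))))))))) (nd (nat_lit 187) (nat_lit 0) (cs (lf (nat_lit 37) (nat_lit 186)) (nd (nat_lit 230) (nat_lit 0) (cs (lf (nat_lit 41) (nat_lit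 207)) (nd (nat_lit 275) (nat_lit 0) (cs (lf (nat_lit 42) (nat_lit 208)) (nd (nat_lit 232) (nat_lit 0) (cs (lf (nat_lit 6) (nat_lit 229)) (rf (nat_lit 4)))))))))))))))) q94893 (by decide +kernel)
def q94998 : Q := Q.p (nat_lit 0x400003000000000000000000000000000000000000000000000000000000000000000) (nat_lit 0x180000e0000b80006e0001be000cf0000fe0003f0000f80003e0000a80000000000000000000000000000000000) (nat_lit 13)
theorem c94998 : QOK q94998 := cut [q83829, q86569, q42194, q88351, q17127, q40706, q91362, q88353, q88356, q94963, q26272, q88365, q6259, q79066, q88361, q81803, q88369, q25776, q88377, q88381, q46659, q45333, q88384, q88388, q88394, q88399, q15806, q92030, q88402, q17373, q17541, q83677, q83821, q84072, q94989, q14308, q88429, q88422, q14897, q88427] ⟨c83829, c86569, c42194, c88351, c17127, c40706, c91362, c88353, c88356, c94963, c26272, c88365, c6259, c79066, c88361, c81803, c88369, c25776, c88377, c88381, c46659,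 c45333, c88384, c88388, c88394, c88399, c15806, c92030, c88402, c17373, c17541, c83677, c83821, c84072, c94989, c14308, c88429, c88422, c14897, c88427, trivial⟩ (nd (nat_lit 272) (nat_lit 0) (cs (rf (nat_lit 0)) (cs (rf (nat_lit 1)) (cs (nd (nat_lit 250) (nat_lit 0) (cs (rf (nat_lit 2)) (cs (rf (nat_lit 3)) (cs (nd (nat_lit 228) (nat_lit 0) (cs (nd (nat_lit 206) (nat_lit 0) (cs (rf (nat_lit 4)) (cs (rf (nat_lit 5)) (cs (rf (nat_lit 6)) (nd (nat_lit 183) (nat_lit 0) (cs (lf (nat_lit 46) (nat_lit 183)) (rf (nat_lit 7)))))))) (cs (nd (nat_lit 294) (nat_lit 0) (cs (rf (nat_lit 8)) (cs (rf (nat_lit 9)) (nd (nat_lit 293) (nat_lit 0) (cs (lf (nat_lit 41) (nat_lit 227)) (rf (nat_lit 10))))))) (cs (nd (nat_lit 230) (nat_lit 0) (cs (rf (nat_lit 11)) (cs (nd (nat_lit 206) (nat_lit 0) (cs (rf (nat_lit 4)) (nd (nat_lit 208) (nat_lit 0) (cs (rf (nat_lit 12)) (cs (rf (nat_lit 13)) (rf (nat_lit 14))))))) (cs (nd (nat_lit 206) (nat_lit 0)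 (cs (rf (nat_lit 4)) (cs (rf (nat_lit 6)) (nd (nat_lit 207) (nat_lit 0) (cs (lf (nat_lit 35) (nat_lit 184)) (nd (nat_lit 183) (nat_lit 0) (cs (lf (nat_lit 46) (nat_lit 183)) (nd (nat_lit 227) (nat_lit 0) (cs (lf (nat_lit 2) (nat_lit 227)) (nd (nat_lit 225) (nat_lit 0) (cs (lf (nat_lit 13) (nat_lit 203)) (nd (nat_lit 208) (nat_lit 0) (cs (lf (nat_lit 6) (nat_lit 205)) (rf (nat_lit 15))))))))))))))) (nd (nat_lit 206) (nat_lit 0) (cs (rf (nat_lit 4)) (cs (rf (nat_lit 5)) (cs (rf (nat_lit 16)) (rf (nat_lit 6)))))))))) (cs (nd (nat_lit 294) (nat_lit 0) (cs (rf (nat_lit 17)) (cs (rf (nat_lit 18)) (cs (rf (nat_lit 19)) (cs (rf (nat_lit 9)) (nd (nat_lit 293) (nat_lit 0) (cs (lf (nat_lit 41) (nat_lit 227)) (nd (nat_lit 271) (nat_lit 0) (cs (lf (nat_lit 36) (nat_lit 205)) (nd (nat_lit 317) (nat_lit 0) (cs (lf (nat_lit 28) (nat_lit 228)) (nd (nat_lit 316) (nat_lit 0) (cs (lf (nat_lit 29) (nat_lit 250)) (rf (nat_lit 20)))))))))))))))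 (cs (nd (nat_lit 206) (nat_lit 0) (cs (rf (nat_lit 5)) (cs (rf (nat_lit 21)) (cs (rf (nat_lit 22)) (cs (rf (nat_lit 23)) (cs (rf (nat_lit 24)) (rf (nat_lit 25)))))))) (cs (nd (nat_lit 294) (nat_lit 0) (cs (rf (nat_lit 26)) (cs (rf (nat_lit 10)) (rf (nat_lit 27))))) (nd (nat_lit 206) (nat_lit 0) (cs (rf (nat_lit 5)) (cs (rf (nat_lit 28)) (nd (nat_lit 205) (nat_lit 0) (cs (lf (nat_lit 47) (nat_lit 183)) (nd (nat_lit 293) (nat_lit 0) (cs (lf (nat_lit 40) (nat_lit 205)) (rf (nat_lit 29)))))))))))))))) (nd (nat_lit 251) (nat_lit 0) (cs (rf (nat_lit 30)) (rf (nat_lit 31)))))))) (cs (nd (nat_lit 273) (nat_lit 0) (cs (rf (nat_lit 32)) (cs (rf (nat_lit 33)) (rf (nat_lit 34))))) (nd (nat_lit 250) (nat_lit 0) (cs (rf (nat_lit 35)) (cs (rf (nat_lit 2)) (cs (rf (nat_lit 36)) (nd (nat_lit 251) (nat_lit 0) (cs (rf (nat_lit 30)) (cs (nd (nat_lit 227) (nat_lit 0) (cs (lf (nat_lit 22) (nat_lit 227)) (nd (nat_lit 249) (nat_lit 0) (cs (lf (nat_lit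 23) (nat_lit 226)) (nd (nat_lit 183) (nat_lit 0) (cs (lf (nat_lit 25) (nat_lit 183)) (rf (nat_lit 37)))))))) (nd (nat_lit 273) (nat_lit 0) (cs (rf (nat_lit 38)) (nd (nat_lit 275) (nat_lit 0) (cs (lf (nat_lit 18) (nat_lit 250)) (rf (nat_lit 39)))))))))))))))))) q94998 (by decide +kernel)
def q95097 : Q := Q.p (nat_lit 0x400003000000000000000000000000000000000000000000000000000000000000000) (nat_lit 0x50003ff0007fc001ff0001b8000cf0000bc0003c0000f0000100000000000000000000000000000000000000000) (nat_lit 18)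
theorem c95097 : QOK q95097 := cut [q83839, q85713, q95062, q5304, q14769, q14764, q82638, q92695, q14299, q95085, q95095] ⟨c83839, c85713, c95062, c5304, c14769, c14764, c82638, c92695, c14299, c95085, c95095, trivial⟩ (nd (nat_lit 273) (nat_lit 0) (cs (rf (nat_lit 0)) (cs (rf (nat_lit 1)) (cs (rf (nat_lit 2)) (nd (nat_lit 275) (nat_lit 0) (cs (nd (nat_lit 251) (nat_lit 0) (cs (rf (nat_lit 3)) (cs (rf (nat_lit 4)) (nd (nat_lit 295) (nat_lit 0) (cs (rf (nat_lit 5)) (cs (rf (nat_lit 6)) (rf (nat_lit 7)))))))) (cs (nd (nat_lit 272) (nat_lit 0) (cs (lf (nat_lit 12) (nat_lit 249)) (nd (nat_lit 297) (nat_lit 0) (cs (lf (nat_lit 5) (nat_lit 272)) (nd (nat_lit 319) (nat_lit 0) (cs (lf (nat_lit 42) (nat_lit 252)) (nd (nat_lit 249) (nat_lit 0) (cs (lf (nat_lit 22) (nat_lit 249)) (rf (nat_lit 8)))))))))) (cs (nd (nat_lit 272) (nat_lit 0) (cs (lf (nat_lit 12) (nat_lit 249)) (nd (nat_lit 249) (nat_lit 0) (cs (lf (nat_lit 22) (nat_lit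 249)) (nd (nat_lit 294) (nat_lit 0) (cs (lf (nat_lit 11) (nat_lit 271)) (nd (nat_lit 297) (nat_lit 0) (cs (lf (nat_lit 5) (nat_lit 272)) (nd (nat_lit 319) (nat_lit 0) (cs (lf (nat_lit 42) (nat_lit 252)) (nd (nat_lit 318) (nat_lit 0) (cs (lf (nat_lit 41) (nat_lit 252)) (nd (nat_lit 296) (nat_lit 0) (cs (lf (nat_lit 36) (nat_lit 230)) (nd (nat_lit 317) (nat_lit 0) (cs (lf (nat_lit 41) (nat_lit 251)) (nd (nat_lit 320) (nat_lit 0) (cs (lf (nat_lit 29) (nat_lit 253)) (nd (nat_lit 316) (nat_lit 0) (cs (lf (nat_lit 12) (nat_lit 293)) (nd (nat_lit 251) (nat_lit 0) (cs (lf (nat_lit 30) (nat_lit 250)) (lf (nat_lit 47) (nat_lit 229)))))))))))))))))))))))) (cs (nd (nat_lit 272) (nat_lit 0) (cs (lf (nat_lit 12) (nat_lit 249)) (nd (nat_lit 249) (nat_lit 0) (cs (lf (nat_lit 22) (nat_lit 249)) (nd (nat_lit 297) (nat_lit 0) (cs (lf (nat_lit 5) (nat_lit 272)) (rf (nat_lit 9)))))))) (cs (nd (nat_lit 272) (nat_lit 0) (cs (lf (nat_lit 12) (nat_lit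 249)) (nd (nat_lit 297) (nat_lit 0) (cs (lf (nat_lit 5) (nat_lit 272)) (nd (nat_lit 293) (nat_lit 0) (cs (lf (nat_lit 10) (nat_lit 271)) (rf (nat_lit 9)))))))) (rf (nat_lit 10)))))))))))) q95097 (by decide +kernel)
def q95102 : Q := Q.p (nat_lit 0x400003000000000000000000000000000000000000000000000000000000000000000) (nat_lit 0x80000380000e0000780000b8000400000f8000380000c0000000000000000000000000000000000000000000000) (nat_lit 8)
theorem c95102 : QOK q95102 := cut [q46633, q81014, q95100, q95101] ⟨c46633, c81014, c95100, c95101, trivial⟩ (nd (nat_lit 296) (nat_lit 0) (cs (rf (nat_lit 0)) (cs (rf (nat_lit 1)) (cs (rf (nat_lit 2)) (rf (nat_lit 3)))))) q95102 (by decide +kernel)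
def q95148 : Q := Q.p (nat_lit 0x600003000000000000000000000000000000000000000000000000000000000000000) (nat_lit 0x4000090000660001980000e00006000010000000000000000000000000000000000000000000000000000) (nat_lit 7)
theorem c95148 : QOK q95148 := cut [q94989] ⟨c94989, trivial⟩ (nd (nat_lit 272) (nat_lit 0) (cs (lf (nat_lit 12) (nat_lit 249)) (rf (nat_lit 0)))) q95148 (by decide +kernel)
def q95215 : Q := Q.p (nat_lit 0x7000004000000000000000000000000000000000000000000000000000000000) (nat_lit 0x80000200001ce0000f0003be000cc0003a0000e80002800000000000000000000000000000000000) (nat_lit 10)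
theorem c95215 : QOK q95215 := cut [q81752, q87437, q92604, q95214] ⟨c81752, c87437, c92604, c95214, trivial⟩ (nd (nat_lit 251) (nat_lit 0) (cs (rf (nat_lit 0)) (cs (rf (nat_lit 1)) (cs (rf (nat_lit 2)) (rf (nat_lit 3)))))) q95215 (by decide +kernel)
def q95260 : Q := Q.p (nat_lit 0x3000004000000000000000000000000000000000000000000000000000000000) (nat_lit 0x600001a0000ce000fb8001fe0007e0000f80002a00000000000000000000000000000000000) (nat_lit 13)
theorem c95260 : QOK q95260 := cut [q79029, q79066, q95240, q83723, q94114, q95250, q87953, q91965] ⟨c79029, c79066, c95240, c83723, c94114, c95250, c87953, c91965, trivial⟩ (nd (nat_lit 208) (nat_lit 0) (cs (rf (nat_lit 0)) (cs (rf (nat_lit 1)) (cs (rf (nat_lit 2)) (nd (nat_lit 229) (nat_lit 0) (cs (rf (nat_lit 3)) (cs (rf (nat_lit 4)) (cs (rf (nat_lit 5)) (nd (nat_lit 231) (nat_lit 0) (cs (rf (nat_lit 6)) (cs (rf (nat_lit 7)) (nd (nat_lit 228) (nat_lit 0) (cs (lf (nat_lit 0) (nat_lit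 227)) (nd (nat_lit 164) (nat_lit 0) (cs (lf (nat_lit 25) (nat_lit 164)) (nd (nat_lit 249) (nat_lit 0) (cs (lf (nat_lit 10) (nat_lit 227)) (nd (nat_lit 206) (nat_lit 0) (cs (lf (nat_lit 23) (nat_lit 205)) (nd (nat_lit 209) (nat_lit 0) (cs (lf (nat_lit 17) (nat_lit 206)) (nd (nat_lit 187) (nat_lit 0) (cs (lf (nat_lit 36) (nat_lit 164)) (nd (nat_lit 188) (nat_lit 0) (cs (lf (nat_lit 35) (nat_lit 165)) (lf (nat_lit 13) (nat_lit 184))))))))))))))))))))))))))) q95260 (by decide +kernel)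
def q95276 : Q := Q.p (nat_lit 0x3000004000000000000000000000000000000000000000000000000000000000) (nat_lit 0x200000e000038000160000cc0007b8001fe0007f8000f80000a00000000000000000000000000000000000) (nat_lit 14)
theorem c95276 : QOK q95276 := cut [q83723, q94114, q94115, q87228, q80524, q93882, q95250, q80982, q88097, q11336, q79045, q94952, q95269, q80983] ⟨c83723, c94114, c94115, c87228, c80524, c93882, c95250, c80982, c88097, c11336, c79045, c94952, c95269, c80983, trivial⟩ (nd (nat_lit 229) (nat_lit 0) (cs (rf (nat_lit 0)) (cs (rf (nat_lit 1)) (cs (rf (nat_lit 2)) (nd (nat_lit 274) (nat_lit 0) (cs (rf (nat_lit 3)) (cs (nd (nat_lit 208) (nat_lit 0) (cs (rf (nat_lit 4)) (cs (rf (nat_lit 5)) (cs (rf (nat_lit 6)) (cs (nd (nat_lit 207) (nat_lit 0) (cs (rf (nat_lit 7)) (nd (nat_lit 254) (nat_lit 0) (cs (lf (nat_lit 18) (nat_lit 229)) (nd (nat_lit 273) (nat_lit 0) (cs (lf (nat_lit 41) (nat_lit 207)) (rf (nat_lit 8)))))))) (nd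 (nat_lit 185) (nat_lit 0) (cs (lf (nat_lit 46) (nat_lit 185)) (nd (nat_lit 254) (nat_lit 0) (cs (rf (nat_lit 9)) (lf (nat_lit 18) (nat_lit 229))))))))))) (cs (nd (nat_lit 296) (nat_lit 0) (cs (rf (nat_lit 10)) (cs (rf (nat_lit 11)) (nd (nat_lit 254) (nat_lit 0) (cs (lf (nat_lit 18) (nat_lit 229)) (nd (nat_lit 297) (nat_lit 0) (cs (lf (nat_lit 29) (nat_lit 230)) (nd (nat_lit 251) (nat_lit 0) (cs (lf (nat_lit 42) (nat_lit 229)) (rf (nat_lit 12))))))))))) (nd (nat_lit 254) (nat_lit 0) (cs (lf (nat_lit 18) (nat_lit 229)) (rf (nat_lit 13)))))))))))) q95276 (by decide +kernel)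
def q95320 : Q := Q.p (nat_lit 0x3000004000000000000000000000000000000000000000000000000000000000) (nat_lit 0xe0000380001e0000ce000fbc0007f0001700001c0000200000000000000000000000000000000000) (nat_lit 14)
theorem c95320 : QOK q95320 := cut [q1409, q6561, q79066, q95307, q88116, q88121, q88117] ⟨c1409, c6561, c79066, c95307, c88116, c88121, c88117, trivial⟩ (nd (nat_lit 208) (nat_lit 0) (cs (rf (nat_lit 0)) (cs (rf (nat_lit 1)) (cs (rf (nat_lit 2)) (cs (rf (nat_lit 3)) (nd (nat_lit 185) (nat_lit 0) (cs (rf (nat_lit 4)) (cs (rf (nat_lit 5)) (nd (nat_lit 274) (nat_lit 0) (cs (lf (nat_lit 46) (nat_lit 185)) (nd (nat_lit 273) (nat_lit 0) (cs (lf (nat_lit 41) (nat_lit 207)) (nd (nat_lit 254) (nat_lit 0) (cs (lf (nat_lit 6) (nat_lit 251)) (rf (nat_lit 6)))))))))))))))) q95320 (by decide +kernel)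
def q95356 : Q := Q.p (nat_lit 0x3000004000000000000000000000000000000000000000000000000000000000) (nat_lit 0xe000038001de0003cc000fb8001fe0003a0000e80003800002000000000000000000000000000000) (nat_lit 15)
theorem c95356 : QOK q95356 := cut [q83723, q94114, q94115, q87228, q80982, q87227, q92248, q92265, q93928, q87458, q87462, q87473, q87469, q95344, q4419, q82288] ⟨c83723, c94114, c94115, c87228, c80982, c87227, c92248, c92265, c93928, c87458, c87462, c87473, c87469, c95344, c4419, c82288, trivial⟩ (nd (nat_lit 229) (nat_lit 0) (cs (rf (nat_lit 0)) (cs (rf (nat_lit 1)) (cs (rf (nat_lit 2)) (nd (nat_lit 274) (nat_lit 0) (cs (rf (nat_lit 3)) (cs (nd (nat_lit 207) (nat_lit 0) (cs (rf (nat_lit 4)) (cs (rf (nat_lit 5)) (nd (nat_lit 254) (nat_lit 0) (cs (rf (nat_lit 6)) (cs (rf (nat_lit 7)) (cs (rf (nat_lit 8)) (nd (nat_lit 209) (nat_lit 0) (cs (rf (nat_lit 9)) (cs (rf (nat_lit 10)) (cs (rf (nat_lit 11)) (nd (nat_lit 232) (nat_lit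 0) (cs (rf (nat_lit 12)) (cs (nd (nat_lit 231) (nat_lit 0) (cs (lf (nat_lit 23) (nat_lit 206)) (nd (nat_lit 250) (nat_lit 0) (cs (lf (nat_lit 13) (nat_lit 228)) (rf (nat_lit 13)))))) (nd (nat_lit 231) (nat_lit 0) (cs (lf (nat_lit 23) (nat_lit 206)) (nd (nat_lit 233) (nat_lit 0) (cs (lf (nat_lit 6) (nat_lit 230)) (lf (nat_lit 22) (nat_lit 207)))))))))))))))))))) (nd (nat_lit 296) (nat_lit 0) (cs (rf (nat_lit 14)) (nd (nat_lit 254) (nat_lit 0) (cs (lf (nat_lit 18) (nat_lit 229)) (rf (nat_lit 15))))))))))))) q95356 (by decide +kernel)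
def q95464 : Q := Q.p (nat_lit 0x7000004000010000000000000000000000000000000000000000000000000000) (nat_lit 0x20000080001fe0000f00003e00000000000000000000000000000000000000000000000000000000) (nat_lit 8)
theorem c95464 : QOK q95464 := cut [q81729, q94270, q95214] ⟨c81729, c94270, c95214, trivial⟩ (nd (nat_lit 251) (nat_lit 0) (cs (rf (nat_lit 0)) (cs (rf (nat_lit 1)) (rf (nat_lit 2))))) q95464 (by decide +kernel)
def q95491 : Q := Q.p (nat_lit 0x3000004000000000000000000000000000000000000000000000000000000000) (nat_lit 0x80000680001f0000cc00079c001fe0007fc000780000a00000000000000000000000000000000000) (nat_lit 13)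
theorem c95491 : QOK q95491 := cut [q6259, q79029, q79066, q93563, q10803, q88234, q2952, q24650, q94768, q11133, q1140, q95486, q84998, q92811, q95364, q95489] ⟨c6259, c79029, c79066, c93563, c10803, c88234, c2952, c24650, c94768, c11133, c1140, c95486, c84998, c92811, c95364, c95489, trivial⟩ (nd (nat_lit 208) (nat_lit 0) (cs (rf (nat_lit 0)) (cs (rf (nat_lit 1)) (cs (rf (nat_lit 2)) (cs (rf (nat_lit 3)) (nd (nat_lit 209) (nat_lit 0) (cs (rf (nat_lit 4)) (cs (nd (nat_lit 207) (nat_lit 0) (cs (rf (nat_lit 5)) (cs (nd (nat_lit 231) (nat_lit 0) (cs (rf (nat_lit 6)) (cs (nd (nat_lit 206) (nat_lit 0) (cs (lf (nat_lit 0) (nat_lit 205)) (nd (nat_lit 275) (nat_lit 0) (cs (lf (nat_lit 42) (nat_lit 208)) (rf (nat_lit 7)))))) (nd (nat_lit 275) (nat_lit 0) (cs (lf (nat_lit 42) (nat_lit 208)) (nd (nat_lit 210) (nat_lit 0) (cs (lf (nat_lit 35) (nat_lit 187)) (nd (nat_lit 232) (nat_lit 0) (cs (lf (nat_lit 18) (nat_lit 207)) (nd (nat_lit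 184) (nat_lit 0) (cs (lf (nat_lit 22) (nat_lit 184)) (nd (nat_lit 250) (nat_lit 0) (cs (lf (nat_lit 13) (nat_lit 228)) (rf (nat_lit 8))))))))))))))) (cs (nd (nat_lit 232) (nat_lit 0) (cs (rf (nat_lit 9)) (nd (nat_lit 210) (nat_lit 0) (cs (lf (nat_lit 5) (nat_lit 207)) (nd (nat_lit 188) (nat_lit 0) (cs (lf (nat_lit 17) (nat_lit 185)) (nd (nat_lit 275) (nat_lit 0) (cs (rf (nat_lit 10)) (lf (nat_lit 39) (nat_lit 187)))))))))) (rf (nat_lit 11)))))) (cs (nd (nat_lit 231) (nat_lit 0) (cs (rf (nat_lit 12)) (cs (rf (nat_lit 13)) (rf (nat_lit 14))))) (rf (nat_lit 15))))))))))) q95491 (by decide +kernel)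
def q95807 : Q := Q.p (nat_lit 0x3800008000000000000000000000000000000000000000000000000000000000) (nat_lit 0x7c0004600007800066000080000200000000000000000000000000000000000000000) (nat_lit 8)
theorem c95807 : QOK q95807 := cut [q82184, q88836, q94045] ⟨c82184, c88836, c94045, trivial⟩ (nd (nat_lit 250) (nat_lit 0) (cs (rf (nat_lit 0)) (cs (rf (nat_lit 1)) (rf (nat_lit 2))))) q95807 (by decide +kernel)
def q95973 : Q := Q.p (nat_lit 0x800003000000000000000000000000000000000000000000000000000000000000000) (nat_lit 0x500001c0000f0000ff0003fe001d78001c00007e00005c000040000000000000000000000000000000000000000000000) (nat_lit 11)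
theorem c95973 : QOK q95973 := cut [q88933, q94168, q94537, q90750, q11531, q11637, q23396, q28116, q11617, q28119, q52574, q95954, q90752, q28143, q2556, q94338, q94384, q79111, q88337, q95967] ⟨c88933, c94168, c94537, c90750, c11531, c11637, c23396, c28116, c11617, c28119, c52574, c95954, c90752, c28143, c2556, c94338, c94384, c79111, c88337, c95967, trivial⟩ (nd (nat_lit 297) (nat_lit 0) (cs (rf (nat_lit 0)) (cs (rf (nat_lit 1)) (cs (rf (nat_lit 2)) (nd (nat_lit 298) (nat_lit 0) (cs (rf (nat_lit 3)) (cs (nd (nat_lit 299) (nat_lit 0) (cs (rf (nat_lit 4)) (cs (rf (nat_lit 5)) (cs (nd (nat_lit 300) (nat_lit 0) (cs (rf (nat_lit 6)) (cs (rf (nat_lit 7)) (nd (nat_lit 322) (nat_lit 0) (cs (lf (nat_lit 5) (nat_lit 297)) (nd (nat_lit 321) (nat_lit 0) (cs (lf (nat_lit 0) (nat_lit 296)) (nd (nat_lit 278) (nat_lit 0) (cs (lf (nat_lit 17) (nat_lit 275)) (nd (nat_lit 256) (nat_lit 0) (cs (lf (nat_lit 36) (nat_lit 233)) (lf (nat_lit 41)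 (nat_lit 255))))))))))))) (nd (nat_lit 296) (nat_lit 0) (cs (rf (nat_lit 8)) (cs (rf (nat_lit 9)) (cs (rf (nat_lit 10)) (rf (nat_lit 11)))))))))) (cs (nd (nat_lit 296) (nat_lit 0) (cs (rf (nat_lit 12)) (cs (nd (nat_lit 318) (nat_lit 0) (cs (lf (nat_lit 36) (nat_lit 230)) (nd (nat_lit 340) (nat_lit 0) (cs (lf (nat_lit 30) (nat_lit 274)) (nd (nat_lit 299) (nat_lit 0) (cs (lf (nat_lit 11) (nat_lit 295)) (nd (nat_lit 322) (nat_lit 0) (cs (lf (nat_lit 4) (nat_lit 296)) (nd (nat_lit 300) (nat_lit 0) (cs (lf (nat_lit 5) (nat_lit 297)) (nd (nat_lit 301) (nat_lit 0) (cs (lf (nat_lit 22) (nat_lit 275)) (rf (nat_lit 13)))))))))))))) (nd (nat_lit 274) (nat_lit 0) (cs (rf (nat_lit 14)) (cs (rf (nat_lit 15)) (rf (nat_lit 16)))))))) (nd (nat_lit 230) (nat_lit 0) (cs (rf (nat_lit 17)) (cs (rf (nat_lit 18)) (nd (nat_lit 231) (nat_lit 0) (cs (lf (nat_lit 29) (nat_lit 231)) (nd (nat_lit 296) (nat_lit 0) (cs (lf (nat_lit 41) (nat_lit 230)) (nd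 (nat_lit 232) (nat_lit 0) (cs (lf (nat_lit 35) (nat_lit 209)) (rf (nat_lit 19))))))))))))))))))) q95973 (by decide +kernel)
def q96030 : Q := Q.p (nat_lit 0x800003000000000000000000000000000000000000000000000000000000000000000) (nat_lit 0x500001c0000700001e0001ff001d7e003cf000efe00018000060000000000000000000000000000000000000000000000) (nat_lit 12)
theorem c96030 : QOK q96030 := cut [q88933, q88941, q1999, q2091, q94046, q83686, q94364, q80250, q14470, q95974, q41536, q89625, q90094, q91378] ⟨c88933, c88941, c1999, c2091, c94046, c83686, c94364, c80250, c14470, c95974, c41536, c89625, c90094, c91378, trivial⟩ (nd (nat_lit 297) (nat_lit 0) (cs (rf (nat_lit 0)) (cs (rf (nat_lit 1)) (cs (nd (nat_lit 251) (nat_lit 0) (cs (rf (nat_lit 2)) (cs (rf (nat_lit 3)) (cs (rf (nat_lit 4)) (nd (nat_lit 273) (nat_lit 0) (cs (nd (nat_lit 254) (nat_lit 0) (cs (lf (nat_lit 11) (nat_lit 250)) (nd (nat_lit 229) (nat_lit 0) (cs (lf (nat_lit 23)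 (nat_lit 228)) (nd (nat_lit 230) (nat_lit 0) (cs (lf (nat_lit 18) (nat_lit 229)) (nd (nat_lit 208) (nat_lit 0) (cs (lf (nat_lit 45) (nat_lit 208)) (lf (nat_lit 36) (nat_lit 185)))))))))) (cs (nd (nat_lit 274) (nat_lit 0) (cs (rf (nat_lit 5)) (cs (rf (nat_lit 6)) (nd (nat_lit 254) (nat_lit 0) (cs (lf (nat_lit 6) (nat_lit 251)) (nd (nat_lit 228) (nat_lit 0) (cs (lf (nat_lit 22) (nat_lit 228)) (nd (nat_lit 230) (nat_lit 0) (cs (lf (nat_lit 24) (nat_lit 208)) (nd (nat_lit 295) (nat_lit 0) (cs (lf (nat_lit 30) (nat_lit 229)) (nd (nat_lit 276) (nat_lit 0) (cs (lf (nat_lit 11) (nat_lit 272)) (rf (nat_lit 7))))))))))))))) (cs (nd (nat_lit 274) (nat_lit 0) (cs (rf (nat_lit 8)) (rf (nat_lit 6)))) (nd (nat_lit 254) (nat_lit 0) (cs (lf (nat_lit 11) (nat_lit 250)) (nd (nat_lit 228) (nat_lit 0) (cs (lf (nat_lit 22) (nat_lit 228)) (rf (nat_lit 9)))))))))))))) (nd (nat_lit 319) (nat_lit 0) (cs (rf (nat_lit 10)) (cs (rf (nat_lit 11)) (cs (rf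 (nat_lit 12)) (nd (nat_lit 318) (nat_lit 0) (cs (lf (nat_lit 41) (nat_lit 252)) (nd (nat_lit 274) (nat_lit 0) (cs (lf (nat_lit 42) (nat_lit 252)) (nd (nat_lit 231) (nat_lit 0) (cs (lf (nat_lit 31) (nat_lit 230)) (rf (nat_lit 13)))))))))))))))) q96030 (by decide +kernel)
def q96039 : Q := Q.p (nat_lit 0x300000c00003000000000000000000000000000000000000000000000000000000000000000) (nat_lit 0x380004e0000380000e0000780001e000000000000000000000000000000000000000000000000000) (nat_lit 11)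
theorem c96039 : QOK q96039 := cut [q96036] ⟨c96036, trivial⟩ (nd (nat_lit 230) (nat_lit 0) (cs (lf (nat_lit 24) (nat_lit 208)) (nd (nat_lit 207) (nat_lit 0) (cs (lf (nat_lit 46) (nat_lit 207)) (nd (nat_lit 295) (nat_lit 0) (cs (lf (nat_lit 41) (nat_lit 229)) (rf (nat_lit 0)))))))) q96039 (by decide +kernel)
def q96077 : Q := Q.p (nat_lit 0x800003000000000000000000000000000000000000000000000000000000000000000) (nat_lit 0x500001d00007c0001f8000fc001d7e003cf000dfe0005c000070000100000000000000000000000000000000000000000) (nat_lit 12)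
theorem c96077 : QOK q96077 := cut [q88933, q94168, q94537, q1999, q2091, q94046, q92326, q94651, q95993, q80250, q80583, q82638, q96062] ⟨c88933, c94168, c94537, c1999, c2091, c94046, c92326, c94651, c95993, c80250, c80583, c82638, c96062, trivial⟩ (nd (nat_lit 297) (nat_lit 0) (cs (rf (nat_lit 0)) (cs (rf (nat_lit 1)) (cs (rf (nat_lit 2)) (nd (nat_lit 251) (nat_lit 0) (cs (rf (nat_lit 3)) (cs (rf (nat_lit 4)) (cs (rf (nat_lit 5)) (nd (nat_lit 254) (nat_lit 0) (cs (rf (nat_lit 6)) (cs (rf (nat_lit 7)) (cs (rf (nat_lit 8)) (cs (nd (nat_lit 273) (nat_lit 0) (cs (lf (nat_lit 11) (nat_lit 250)) (nd (nat_lit 274) (nat_lit 0) (cs (lf (nat_lit 6) (nat_lit 251)) (nd (nat_lit 230) (nat_lit 0) (cs (lf (nat_lit 24) (nat_lit 208)) (nd (nat_lit 295) (nat_lit 0) (cs (lf (nat_lit 30) (nat_lit 229)) (nd (nat_lit 276) (nat_lit 0) (cs (lf (nat_lit 11) (nat_lit 272)) (nd (nat_lit 210) (nat_lit 0) (cs (rf (nat_lit 9)) (lf (nat_lit 37) (nat_lit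 209)))))))))))))) (nd (nat_lit 273) (nat_lit 0) (cs (lf (nat_lit 11) (nat_lit 250)) (nd (nat_lit 295) (nat_lit 0) (cs (rf (nat_lit 10)) (cs (rf (nat_lit 11)) (cs (nd (nat_lit 229) (nat_lit 0) (cs (lf (nat_lit 23) (nat_lit 228)) (nd (nat_lit 208) (nat_lit 0) (cs (lf (nat_lit 34) (nat_lit 207)) (nd (nat_lit 186) (nat_lit 0) (cs (lf (nat_lit 33) (nat_lit 185)) (nd (nat_lit 296) (nat_lit 0) (cs (lf (nat_lit 29) (nat_lit 229)) (rf (nat_lit 12)))))))))) (nd (nat_lit 228) (nat_lit 0) (cs (lf (nat_lit 22) (nat_lit 228)) (nd (nat_lit 317) (nat_lit 0) (cs (lf (nat_lit 35) (nat_lit 229)) (nd (nat_lit 316) (nat_lit 0) (cs (lf (nat_lit 41) (nat_lit 250)) (nd (nat_lit 274) (nat_lit 0) (cs (lf (nat_lit 30) (nat_lit 251)) (nd (nat_lit 296) (nat_lit 0) (cs (lf (nat_lit 6) (nat_lit 294)) (nd (nat_lit 294) (nat_lit 0) (cs (lf (nat_lit 11) (nat_lit 293)) (lf (nat_lit 6) (nat_lit 272))))))))))))))))))))))))))))))))) q96077 (by decide +kernel)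
def q96181 : Q := Q.p (nat_lit 0x3000008000000000000000000000000000000000000000000000000000000000) (nat_lit 0x200006c0001be0014f000f7c003fc000ff0000fc0002800000000000000000000000000000000000) (nat_lit 13)
theorem c96181 : QOK q96181 := cut [q82275, q82278, q82274, q82277, q86622, q12207, q84455, q96144, q96154, q95863, q96156, q81899, q82198, q96168, q88858, q4231, q96180] ⟨c82275, c82278, c82274, c82277, c86622, c12207, c84455, c96144, c96154, c95863, c96156, c81899, c82198, c96168, c88858, c4231, c96180, trivial⟩ (nd (nat_lit 251) (nat_lit 0) (cs (rf (nat_lit 0)) (cs (rf (nat_lit 1)) (cs (nd (nat_lit 232) (nat_lit 0) (cs (rf (nat_lit 2)) (cs (rf (nat_lit 3)) (cs (rf (nat_lit 4)) (nd (nat_lit 210) (nat_lit 0) (cs (rf (nat_lit 5)) (cs (rf (nat_lit 6)) (cs (nd (nat_lit 209) (nat_lit 0) (cs (nd (nat_lit 275) (nat_lit 0) (cs (lf (nat_lit 30) (nat_lit 209)) (nd (nat_lit 276) (nat_lit 0) (cs (lf (nat_lit 29) (nat_lit 209)) (nd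 (nat_lit 187) (nat_lit 0) (cs (lf (nat_lit 28) (nat_lit 187)) (rf (nat_lit 7)))))))) (cs (nd (nat_lit 275) (nat_lit 0) (cs (lf (nat_lit 30) (nat_lit 209)) (rf (nat_lit 8)))) (cs (nd (nat_lit 229) (nat_lit 0) (cs (rf (nat_lit 9)) (nd (nat_lit 254) (nat_lit 0) (cs (lf (nat_lit 23) (nat_lit 228)) (rf (nat_lit 10)))))) (cs (nd (nat_lit 275) (nat_lit 0) (cs (lf (nat_lit 30) (nat_lit 209)) (nd (nat_lit 276) (nat_lit 0) (cs (lf (nat_lit 29) (nat_lit 209)) (nd (nat_lit 187) (nat_lit 0) (cs (rf (nat_lit 11)) (lf (nat_lit 43) (nat_lit 187)))))))) (nd (nat_lit 275) (nat_lit 0) (cs (lf (nat_lit 30) (nat_lit 209)) (nd (nat_lit 186) (nat_lit 0) (cs (lf (nat_lit 46) (nat_lit 186)) (nd (nat_lit 187) (nat_lit 0) (cs (lf (nat_lit 47) (nat_lit 164)) (rf (nat_lit 7))))))))))))) (nd (nat_lit 229) (nat_lit 0) (cs (rf (nat_lit 12)) (cs (nd (nat_lit 188) (nat_lit 0) (cs (lf (nat_lit 36) (nat_lit 165)) (nd (nat_lit 254) (nat_lit 0) (cs (lf (nat_lit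 23) (nat_lit 228)) (nd (nat_lit 167) (nat_lit 0) (cs (lf (nat_lit 34) (nat_lit 166)) (nd (nat_lit 272) (nat_lit 0) (cs (lf (nat_lit 10) (nat_lit 250)) (rf (nat_lit 13)))))))))) (cs (nd (nat_lit 230) (nat_lit 0) (cs (lf (nat_lit 17) (nat_lit 207)) (nd (nat_lit 207) (nat_lit 0) (cs (lf (nat_lit 23) (nat_lit 206)) (nd (nat_lit 166) (nat_lit 0) (cs (lf (nat_lit 37) (nat_lit 165)) (rf (nat_lit 14)))))))) (nd (nat_lit 230) (nat_lit 0) (cs (rf (nat_lit 15)) (lf (nat_lit 17) (nat_lit 207)))))))))))))))) (rf (nat_lit 16)))))) q96181 (by decide +kernel)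
def q96352 : Q := Q.p (nat_lit 0x300000c000000000000000000000000000000000000000000000000000000000) (nat_lit 0xe0000380000f8000000003200001e0000e0000380000000000000000000000000000000000000000) (nat_lit 9)
theorem c96352 : QOK q96352 := cut [q79996, q84415, q57679, q84440, q92723] ⟨c79996, c84415, c57679, c84440, c92723, trivial⟩ (nd (nat_lit 208) (nat_lit 0) (cs (rf (nat_lit 0)) (cs (rf (nat_lit 1)) (nd (nat_lit 274) (nat_lit 0) (cs (rf (nat_lit 2)) (cs (rf (nat_lit 3)) (rf (nat_lit 4)))))))) q96352 (by decide +kernel)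
def q96355 : Q := Q.p (nat_lit 0x300000c000000000000000000000000000000000000000000000000000000000) (nat_lit 0xe0000380000f0000c0000000000180000e0000380000000000000000000000000000000000000000) (nat_lit 8)
theorem c96355 : QOK q96355 := cut [q79996, q84438, q92724] ⟨c79996, c84438, c92724, trivial⟩ (nd (nat_lit 208) (nat_lit 0) (cs (rf (nat_lit 0)) (cs (rf (nat_lit 1)) (rf (nat_lit 2))))) q96355 (by decide +kernel)
def q96503 : Q := Q.p (nat_lit 0x3000008000000000000000000000000000000000000000000000000000000000) (nat_lit 0x1f00007c00077c001ce000f7c0009e000270000040000000000000000000000000000000000000000) (nat_lit 13)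
theorem c96503 : QOK q96503 := cut [q82275, q82278, q96299, q96400, q96446, q96473, q80583, q96476, q89666, q96497, q96502] ⟨c82275, c82278, c96299, c96400, c96446, c96473, c80583, c96476, c89666, c96497, c96502, trivial⟩ (nd (nat_lit 251) (nat_lit 0) (cs (rf (nat_lit 0)) (cs (rf (nat_lit 1)) (cs (nd (nat_lit 254) (nat_lit 0) (cs (nd (nat_lit 273) (nat_lit 0) (cs (lf (nat_lit 11) (nat_lit 250)) (nd (nat_lit 228) (nat_lit 0) (cs (lf (nat_lit 22) (nat_lit 228)) (nd (nat_lit 255) (nat_lit 0) (cs (lf (nat_lit 10) (nat_lit 251)) (rf (nat_lit 2)))))))) (cs (rf (nat_lit 3)) (cs (rf (nat_lit 4)) (cs (rf (nat_lit 5)) (nd (nat_lit 273) (nat_lit 0) (cs (lf (nat_lit 11) (nat_lit 250)) (nd (nat_lit 295) (nat_lit 0) (cs (rf (nat_lit 6)) (cs (nd (nat_lit 276) (nat_lit 0) (cs (lf (nat_lit 5) (nat_lit 251)) (nd (nat_lit 298) (nat_lit 0) (cs (lf (nat_lit 42) (nat_lit 231)) (nd (nat_lit 229) (nat_lit 0) (cs (lf (nat_lit 23) (nat_lit 228)) (nd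 (nat_lit 232) (nat_lit 0) (cs (lf (nat_lit 17) (nat_lit 229)) (nd (nat_lit 297) (nat_lit 0) (cs (lf (nat_lit 41) (nat_lit 231)) (nd (nat_lit 296) (nat_lit 0) (cs (lf (nat_lit 29) (nat_lit 229)) (rf (nat_lit 7)))))))))))))) (nd (nat_lit 229) (nat_lit 0) (cs (lf (nat_lit 23) (nat_lit 228)) (nd (nat_lit 276) (nat_lit 0) (cs (lf (nat_lit 5) (nat_lit 251)) (nd (nat_lit 298) (nat_lit 0) (cs (lf (nat_lit 42) (nat_lit 231)) (rf (nat_lit 8)))))))))))))))))) (cs (rf (nat_lit 9)) (rf (nat_lit 10))))))) q96503 (by decide +kernel)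
def q96514 : Q := Q.p (nat_lit 0x7000018000000000000000000000000000000000000000000000000000000000) (nat_lit 0x180000700003f000088000030000c8000320000c00000000000000000000000000000000000000000) (nat_lit 7)
theorem c96514 : QOK q96514 := cut [q88781, q96513] ⟨c88781, c96513, trivial⟩ (nd (nat_lit 276) (nat_lit 0) (cs (rf (nat_lit 0)) (rf (nat_lit 1)))) q96514 (by decide +kernel)
def q96601 : Q := Q.p (nat_lit 0x200003800008000000000000000000000000000000000000000000000000000000000) (nat_lit 0x600001800004000040000778001dc000070000080000000000000000000000000000000000000000) (nat_lit 7)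
theorem c96601 : QOK q96601 := cut [q85505, q89866, q92712, q84417] ⟨c85505, c89866, c92712, c84417, trivial⟩ (nd (nat_lit 230) (nat_lit 0) (cs (rf (nat_lit 0)) (cs (rf (nat_lit 1)) (cs (rf (nat_lit 2)) (nd (nat_lit 229) (nat_lit 0) (cs (rf (nat_lit 3)) (nd (nat_lit 295) (nat_lit 0) (cs (lf (nat_lit 30) (nat_lit 229)) (nd (nat_lit 296) (nat_lit 0) (cs (lf (nat_lit 29) (nat_lit 229)) (nd (nat_lit 207) (nat_lit 0) (cs (lf (nat_lit 28) (nat_lit 207)) (nd (nat_lit 206) (nat_lit 0) (cs (lf (nat_lit 47) (nat_lit 184)) (lf (nat_lit 18) (nat_lit 206)))))))))))))))) q96601 (by decide +kernel)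
def q96711 : Q := Q.p (nat_lit 0x8000070000000000000000000000000000000000000000000000000000) (nat_lit 0xf780018c000638000000000000000000000000000000000000000000000) (nat_lit 8)
theorem c96711 : QOK q96711 := cut [q8148, q10670, q22157] ⟨c8148, c10670, c22157, trivial⟩ (nd (nat_lit 211) (nat_lit 0) (cs (rf (nat_lit 0)) (cs (rf (nat_lit 1)) (rf (nat_lit 2))))) q96711 (by decide +kernel)
def q96731 : Q := Q.p (nat_lit 0x800002000008000020000000000000000000000000000000000000000000000000000) (nat_lit 0x40000180000700000400004000014000050000040000000000000000000000000000000000000000000000) (nat_lit 7)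
theorem c96731 : QOK q96731 := cut [q96730] ⟨c96730, trivial⟩ (nd (nat_lit 274) (nat_lit 0) (cs (lf (nat_lit 41) (nat_lit 208)) (rf (nat_lit 0)))) q96731 (by decide +kernel)
def q96786 : Q := Q.p (nat_lit 0x300000c000000000000000000000000000000000000000000000000000000000) (nat_lit 0x180000780000c0003000007e0007e0000780001000000000000000000000000000000000000) (nat_lit 8)
theorem c96786 : QOK q96786 := cut [q11005, q92012, q93759, q96785] ⟨c11005, c92012, c93759, c96785, trivial⟩ (nd (nat_lit 208) (nat_lit 0) (cs (rf (nat_lit 0)) (cs (rf (nat_lit 1)) (cs (rf (nat_lit 2)) (rf (nat_lit 3)))))) q96786 (by decide +kernel)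
def q96847 : Q := Q.p (nat_lit 0x200000c000000000000000000000000000000000000000000000000000000000) (nat_lit 0x120001cf000338001ff000fd8000f00000c00000000000000000000000000000000000) (nat_lit 11)
theorem c96847 : QOK q96847 := cut [q96764, q80199, q96825, q96828, q96832, q96836, q96837, q96846] ⟨c96764, c80199, c96825, c96828, c96832, c96836, c96837, c96846, trivial⟩ (nd (nat_lit 229) (nat_lit 0) (cs (rf (nat_lit 0)) (cs (nd (nat_lit 232) (nat_lit 0) (cs (rf (nat_lit 1)) (cs (rf (nat_lit 2)) (cs (nd (nat_lit 206) (nat_lit 0) (cs (lf (nat_lit 22) (nat_lit 206)) (rf (nat_lit 3)))) (rf (nat_lit 4)))))) (cs (rf (nat_lit 5)) (cs (rf (nat_lit 6)) (rf (nat_lit 7))))))) q96847 (by decide +kernel)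
def q96877 : Q := Q.p (nat_lit 0x200000c000000000000000000000000000000000000000000000000000000000) (nat_lit 0x1e000078000778001de000638001fe0007f80007c0001000000000000000000000000000000000000) (nat_lit 14)
theorem c96877 : QOK q96877 := cut [q96781, q81488, q96530, q96850, q84417, q87151, q96856, q96797, q85488, q85550, q96867, q87526, q96868, q96869, q84998, q85001, q96307, q96873, q96772] ⟨c96781, c81488, c96530, c96850, c84417, c87151, c96856, c96797, c85488, c85550, c96867, c87526, c96868, c96869, c84998, c85001, c96307, c96873, c96772, trivial⟩ (nd (nat_lit 252) (nat_lit 0) (cs (rf (nat_lit 0)) (cs (nd (nat_lit 254) (nat_lit 0) (cs (rf (nat_lit 1)) (cs (rf (nat_lit 2)) (nd (nat_lit 251) (nat_lit 0) (cs (rf (nat_lit 3)) (cs (nd (nat_lit 229) (nat_lit 0) (cs (rf (nat_lit 4)) (nd (nat_lit 273) (nat_lit 0) (cs (lf (nat_lit 11) (nat_lit 250)) (nd (nat_lit 276) (nat_lit 0) (cs (lf (nat_lit 5) (nat_lit 251)) (nd (nat_lit 298)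 (nat_lit 0) (cs (lf (nat_lit 42) (nat_lit 231)) (nd (nat_lit 187) (nat_lit 0) (cs (lf (nat_lit 25) (nat_lit 187)) (rf (nat_lit 5)))))))))))) (rf (nat_lit 6)))))))) (cs (nd (nat_lit 254) (nat_lit 0) (cs (rf (nat_lit 1)) (cs (rf (nat_lit 7)) (nd (nat_lit 251) (nat_lit 0) (cs (rf (nat_lit 8)) (cs (rf (nat_lit 6)) (nd (nat_lit 229) (nat_lit 0) (cs (lf (nat_lit 0) (nat_lit 228)) (nd (nat_lit 276) (nat_lit 0) (cs (lf (nat_lit 5) (nat_lit 251)) (nd (nat_lit 298) (nat_lit 0) (cs (lf (nat_lit 42) (nat_lit 231)) (nd (nat_lit 187) (nat_lit 0) (cs (lf (nat_lit 25) (nat_lit 187)) (rf (nat_lit 9)))))))))))))))) (cs (rf (nat_lit 10)) (cs (nd (nat_lit 208) (nat_lit 0) (cs (rf (nat_lit 11)) (cs (rf (nat_lit 12)) (cs (rf (nat_lit 13)) (cs (nd (nat_lit 209) (nat_lit 0) (cs (rf (nat_lit 14)) (cs (rf (nat_lit 15)) (rf (nat_lit 16))))) (rf (nat_lit 17))))))) (nd (nat_lit 254) (nat_lit 0) (cs (rf (nat_lit 1)) (cs (rf (nat_lit 2)) (nd (nat_lit 251)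 (nat_lit 0) (cs (rf (nat_lit 18)) (rf (nat_lit 6))))))))))))) q96877 (by decide +kernel)
def q96917 : Q := Q.p (nat_lit 0x300000c000000000000000000000000000000000000000000000000000000000) (nat_lit 0x10000040000780000e000338000ee0001a0000680000000000000000000000000000000000000000) (nat_lit 8)
theorem c96917 : QOK q96917 := cut [q84852, q93643, q426, q87919, q88829] ⟨c84852, c93643, c426, c87919, c88829, trivial⟩ (nd (nat_lit 229) (nat_lit 0) (cs (rf (nat_lit 0)) (cs (rf (nat_lit 1)) (nd (nat_lit 251) (nat_lit 0) (cs (rf (nat_lit 2)) (cs (rf (nat_lit 3)) (rf (nat_lit 4)))))))) q96917 (by decide +kernel)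
def q96993 : Q := Q.p (nat_lit 0x600000c000000000000000000000000000000000000000000000000000000000) (nat_lit 0x7700019800062000000000000000000000000000000000000000000000000000000000) (nat_lit 7)
theorem c96993 : QOK q96993 := cut [q96992] ⟨c96992, trivial⟩ (nd (nat_lit 255) (nat_lit 0) (cs (lf (nat_lit 18) (nat_lit 230)) (rf (nat_lit 0)))) q96993 (by decide +kernel)
def q97022 : Q := Q.p (nat_lit 0x200000e000000000000000000000000000000000000000000000000000000000) (nat_lit 0x100003d0000f00001fc000f80000e00000000000000000000000000000000000000000) (nat_lit 10)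
theorem c97022 : QOK q97022 := cut [q96832, q96974, q97014, q97021] ⟨c96832, c96974, c97014, c97021, trivial⟩ (nd (nat_lit 232) (nat_lit 0) (cs (rf (nat_lit 0)) (cs (rf (nat_lit 1)) (cs (rf (nat_lit 2)) (rf (nat_lit 3)))))) q97022 (by decide +kernel)
def q97108 : Q := Q.p (nat_lit 0x200000c000000000000000000000000000000000000000000000000000000000) (nat_lit 0x40000300007df000f38001f7000fc0000f00000000000000000000000000000000000000000) (nat_lit 11)
theorem c97108 : QOK q97108 := cut [q96764, q96769, q97102, q97107] ⟨c96764, c96769, c97102, c97107, trivial⟩ (nd (nat_lit 229) (nat_lit 0) (cs (rf (nat_lit 0)) (cs (rf (nat_lit 1)) (cs (rf (nat_lit 2)) (rf (nat_lit 3)))))) q97108 (by decide +kernel)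
def q97185 : Q := Q.p (nat_lit 0x280000e000000000000000000000000000000000000000000000000000000000) (nat_lit 0x1700005c00037c000d60000000003e0000f00001c0000000000000000000000000000000000000000) (nat_lit 12)
theorem c97185 : QOK q97185 := cut [q97174, q97175, q97183, q87151, q87919, q88302] ⟨c97174, c97175, c97183, c87151, c87919, c88302, trivial⟩ (nd (nat_lit 273) (nat_lit 0) (cs (rf (nat_lit 0)) (cs (rf (nat_lit 1)) (cs (rf (nat_lit 2)) (nd (nat_lit 252) (nat_lit 0) (cs (rf (nat_lit 3)) (cs (rf (nat_lit 4)) (rf (nat_lit 5))))))))) q97185 (by decide +kernel)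
def q97189 : Q := Q.p (nat_lit 0x280000e000000000000000000000000000000000000000000000000000000000) (nat_lit 0x58000778001d00007000003c0000e0000180000000000000000000000000000000000000000) (nat_lit 7)
theorem c97189 : QOK q97189 := cut [q87917, q96781, q96792] ⟨c87917, c96781, c96792, trivial⟩ (nd (nat_lit 252) (nat_lit 0) (cs (rf (nat_lit 0)) (cs (rf (nat_lit 1)) (rf (nat_lit 2))))) q97189 (by decide +kernel)
def q97222 : Q := Q.p (nat_lit 0x200000c000000000000000000000000000000000000000000000000000000000) (nat_lit 0x40000300007df000f3c001f8000fc0000f00000000000000000000000000000000000000000) (nat_lit 11)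
theorem c97222 : QOK q97222 := cut [q96758, q96764, q97102, q97120, q97221] ⟨c96758, c96764, c97102, c97120, c97221, trivial⟩ (nd (nat_lit 229) (nat_lit 0) (cs (rf (nat_lit 0)) (cs (rf (nat_lit 1)) (cs (rf (nat_lit 2)) (cs (rf (nat_lit 3)) (rf (nat_lit 4))))))) q97222 (by decide +kernel)
def q97529 : Q := Q.p (nat_lit 0x2000008000000000000000000000000000000000000000000000000000000000) (nat_lit 0x500005e00017e000ff800fdf003f7800fff000778000dc0000700001400000000000000000000000000000) (nat_lit 17)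
theorem c97529 : QOK q97529 := cut [q97366, q97307, q22241, q97301, q97369, q97375, q97376, q96905, q97382, q96982, q97308, q97314, q10759, q93185, q97433, q26315, q87016, q12206, q85515, q12221, q97192, q97434, q97436, q97441, q96981, q97306, q97443, q97448, q97451, q97461, q97486, q97365, q97472, q97489, q97491, q97498, q97507, q97527, q84457] ⟨c97366, c97307, c22241, c97301, c97369, c97375, c97376, c96905, c97382, c96982, c97308, c97314, c10759, c93185, c97433, c26315, c87016, c12206, c85515, c12221, c97192, c97434, c97436, c97441, c96981, c97306, c97443, c97448, c97451, c97461, c97486, c97365, c97472, c97489, c97491, c97498, c97507, c97527, c84457, trivial⟩ (nd (nat_lit 232) (nat_lit 0) (cs (rf (nat_lit 0)) (cs (nd (nat_lit 233) (nat_lit 0) (cs (rf (nat_lit 1)) (cs (nd (nat_lit 230) (nat_lit 0) (cs (rf (nat_lit 2)) (cs (rf (nat_lit 3)) (rf (nat_lit 4))))) (cs (rf (nat_lit 5)) (cs (rf (nat_lit 6)) (cs (nd (nat_lit 234)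 (nat_lit 0) (cs (lf (nat_lit 11) (nat_lit 230)) (nd (nat_lit 208) (nat_lit 0) (cs (lf (nat_lit 22) (nat_lit 208)) (nd (nat_lit 230) (nat_lit 0) (cs (lf (nat_lit 23) (nat_lit 207)) (rf (nat_lit 7)))))))) (rf (nat_lit 8)))))))) (cs (nd (nat_lit 233) (nat_lit 0) (cs (rf (nat_lit 9)) (cs (rf (nat_lit 1)) (cs (rf (nat_lit 10)) (cs (rf (nat_lit 11)) (nd (nat_lit 230) (nat_lit 0) (cs (rf (nat_lit 2)) (cs (rf (nat_lit 4)) (nd (nat_lit 211) (nat_lit 0) (cs (lf (nat_lit 17) (nat_lit 208)) (nd (nat_lit 252) (nat_lit 0) (cs (rf (nat_lit 12)) (nd (nat_lit 255) (nat_lit 0) (cs (lf (nat_lit 5) (nat_lit 230)) (nd (nat_lit 208) (nat_lit 0) (cs (lf (nat_lit 23) (nat_lit 207)) (nd (nat_lit 186) (nat_lit 0) (cs (lf (nat_lit 24) (nat_lit 164)) (nd (nat_lit 185) (nat_lit 0) (cs (lf (nat_lit 47) (nat_lit 163)) (nd (nat_lit 209) (nat_lit 0) (cs (lf (nat_lit 19) (nat_lit 185)) (nd (nat_lit 183) (nat_lit 0) (cs (lf (nat_lit 1) (nat_lit 183)) (rf (nat_lit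 13)))))))))))))))))))))))))) (cs (rf (nat_lit 14)) (cs (nd (nat_lit 275) (nat_lit 0) (cs (rf (nat_lit 15)) (cs (rf (nat_lit 16)) (cs (nd (nat_lit 210) (nat_lit 0) (cs (rf (nat_lit 17)) (cs (rf (nat_lit 18)) (nd (nat_lit 230) (nat_lit 0) (cs (rf (nat_lit 19)) (cs (nd (nat_lit 233) (nat_lit 0) (cs (rf (nat_lit 20)) (rf (nat_lit 21)))) (rf (nat_lit 22)))))))) (rf (nat_lit 23)))))) (cs (nd (nat_lit 233) (nat_lit 0) (cs (rf (nat_lit 9)) (cs (rf (nat_lit 1)) (cs (nd (nat_lit 234) (nat_lit 0) (cs (rf (nat_lit 24)) (cs (rf (nat_lit 25)) (nd (nat_lit 208) (nat_lit 0) (cs (lf (nat_lit 22) (nat_lit 208)) (nd (nat_lit 207) (nat_lit 0) (cs (lf (nat_lit 21) (nat_lit 207)) (rf (nat_lit 26))))))))) (cs (nd (nat_lit 230) (nat_lit 0) (cs (rf (nat_lit 3)) (cs (rf (nat_lit 4)) (cs (rf (nat_lit 27)) (rf (nat_lit 28)))))) (rf (nat_lit 29))))))) (cs (rf (nat_lit 30)) (cs (nd (nat_lit 275) (nat_lit 0) (cs (rf (nat_lit 15)) (cs (rf (nat_lit 16)) (cs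 (rf (nat_lit 31)) (nd (nat_lit 233) (nat_lit 0) (cs (rf (nat_lit 9)) (cs (rf (nat_lit 1)) (cs (rf (nat_lit 29)) (cs (nd (nat_lit 230) (nat_lit 0) (cs (rf (nat_lit 2)) (cs (rf (nat_lit 27)) (cs (nd (nat_lit 255) (nat_lit 0) (cs (lf (nat_lit 5) (nat_lit 230)) (rf (nat_lit 32)))) (rf (nat_lit 33)))))) (rf (nat_lit 34))))))))))) (cs (nd (nat_lit 275) (nat_lit 0) (cs (rf (nat_lit 15)) (cs (rf (nat_lit 16)) (cs (rf (nat_lit 23)) (nd (nat_lit 233) (nat_lit 0) (cs (rf (nat_lit 8)) (cs (rf (nat_lit 29)) (cs (nd (nat_lit 230) (nat_lit 0) (cs (rf (nat_lit 21)) (rf (nat_lit 33)))) (cs (rf (nat_lit 35)) (rf (nat_lit 36))))))))))) (cs (rf (nat_lit 37)) (nd (nat_lit 233) (nat_lit 0) (cs (rf (nat_lit 9)) (cs (nd (nat_lit 230) (nat_lit 0) (cs (rf (nat_lit 2)) (cs (rf (nat_lit 38)) (rf (nat_lit 3))))) (cs (rf (nat_lit 1)) (cs (rf (nat_lit 29)) (rf (nat_lit 34)))))))))))))))))) q97529 (by decide +kernel)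
def q97707 : Q := Q.p (nat_lit 0x80000300001c000000000000000000000000000000000000000000000000000000000) (nat_lit 0x8000020000000001c00006380000e000000000000000000000000000000000000000000000000000) (nat_lit 7)
theorem c97707 : QOK q97707 := cut [q97706] ⟨c97706, trivial⟩ (nd (nat_lit 297) (nat_lit 0) (cs (lf (nat_lit 42) (nat_lit 230)) (rf (nat_lit 0)))) q97707 (by decide +kernel)
def q97788 : Q := Q.p (nat_lit 0x7000008000000000000000000000000000000000000000000000000000000000) (nat_lit 0xe380018e00077c00000000000000000000000000000000000000000000000000000000) (nat_lit 7)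
theorem c97788 : QOK q97788 := cut [q82278, q96569, q96646] ⟨c82278, c96569, c96646, trivial⟩ (nd (nat_lit 251) (nat_lit 0) (cs (rf (nat_lit 0)) (cs (rf (nat_lit 1)) (rf (nat_lit 2))))) q97788 (by decide +kernel)
def q97912 : Q := Q.p (nat_lit 0x2000008000020000000000000000000000000000000000000000000000000000) (nat_lit 0x380002f0003dc001f7000fde000fb8000e00003800000000000000000000000000000000000) (nat_lit 14)
theorem c97912 : QOK q97912 := cut [q9673, q97853, q84327, q85178, q97890, q97893, q97899, q97909] ⟨c9673, c97853, c84327, c85178, c97890, c97893, c97899, c97909, trivial⟩ (nd (nat_lit 210) (nat_lit 0) (cs (rf (nat_lit 0)) (cs (rf (nat_lit 1)) (nd (nat_lit 230) (nat_lit 0) (cs (rf (nat_lit 2)) (cs (rf (nat_lit 3)) (cs (rf (nat_lit 4)) (nd (nat_lit 232) (nat_lit 0) (cs (rf (nat_lit 5)) (cs (rf (nat_lit 6)) (rf (nat_lit 7)))))))))))) q97912 (by decide +kernel)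
def q97967 : Q := Q.p (nat_lit 0x800002000008000000000000000000000000000000000000000000000000000000000) (nat_lit 0x40000180000700001f000078000370003df000f78003df0000700001c0000700001400000000000000000000000000000) (nat_lit 15)
theorem c97967 : QOK q97967 := cut [q96915, q97956, q97957, q97604, q97964, q97429] ⟨c96915, c97956, c97957, c97604, c97964, c97429, trivial⟩ (nd (nat_lit 230) (nat_lit 0) (cs (rf (nat_lit 0)) (cs (rf (nat_lit 1)) (cs (rf (nat_lit 2)) (nd (nat_lit 232) (nat_lit 0) (cs (rf (nat_lit 3)) (cs (rf (nat_lit 4)) (nd (nat_lit 210) (nat_lit 0) (cs (lf (nat_lit 30) (nat_lit 209)) (rf (nat_lit 5))))))))))) q97967 (by decide +kernel)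
def q97976 : Q := Q.p (nat_lit 0x800002000008000000000000000000000000000000000000000000000000000000000) (nat_lit 0xc000030000170001d0000140000700000c0000700001c00005000000000000000000000000000000) (nat_lit 11)
theorem c97976 : QOK q97976 := cut [q97786, q97875, q97975] ⟨c97786, c97875, c97975, trivial⟩ (nd (nat_lit 209) (nat_lit 0) (cs (rf (nat_lit 0)) (cs (rf (nat_lit 1)) (rf (nat_lit 2))))) q97976 (by decide +kernel)
def q98119 : Q := Q.p (nat_lit 0x2000008000000000000000000000000000000000000000000000000000000000) (nat_lit 0x80000700003e0001dc000f7c003ff800ffe001ff0001400000000000000000000000000000000000) (nat_lit 15)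
theorem c98119 : QOK q98119 := cut [q1563, q2990, q119, q2935, q2938, q108, q96233, q7581, q2683, q10108, q96258, q10753, q79298, q96263, q96270, q96273, q96280, q96281, q96293, q96308, q96323, q96333, q96337, q96693] ⟨c1563, c2990, c119, c2935, c2938, c108, c96233, c7581, c2683, c10108, c96258, c10753, c79298, c96263, c96270, c96273, c96280, c96281, c96293, c96308, c96323, c96333, c96337, c96693, trivial⟩ (nd (nat_lit 209) (nat_lit 0) (cs (nd (nat_lit 208) (nat_lit 0) (cs (rf (nat_lit 0)) (cs (rf (nat_lit 1)) (cs (nd (nat_lit 207) (nat_lit 0) (cs (rf (nat_lit 2)) (cs (rf (nat_lit 3)) (cs (rf (nat_lit 4)) (cs (nd (nat_lit 210) (nat_lit 0) (cs (rf (nat_lit 5)) (cs (rf (nat_lit 6)) (cs (nd (nat_lit 184) (nat_lit 0) (cs (lf (nat_lit 22) (nat_lit 184)) (nd (nat_lit 232) (nat_lit 0) (cs (lf (nat_lit 5) (nat_lit 207)) (nd (nat_lit 166) (nat_lit 0) (cs (lf (nat_lit 37) (nat_lit 165)) (nd (nat_lit 229) (nat_lit 0) (cs (lf (nat_lit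 11) (nat_lit 206)) (nd (nat_lit 230) (nat_lit 0) (cs (lf (nat_lit 6) (nat_lit 207)) (nd (nat_lit 254) (nat_lit 0) (cs (lf (nat_lit 5) (nat_lit 229)) (nd (nat_lit 276) (nat_lit 0) (cs (rf (nat_lit 7)) (lf (nat_lit 42) (nat_lit 209)))))))))))))))) (cs (nd (nat_lit 228) (nat_lit 0) (cs (lf (nat_lit 10) (nat_lit 206)) (nd (nat_lit 184) (nat_lit 0) (cs (lf (nat_lit 22) (nat_lit 184)) (rf (nat_lit 8)))))) (nd (nat_lit 184) (nat_lit 0) (cs (lf (nat_lit 22) (nat_lit 184)) (rf (nat_lit 9))))))))) (rf (nat_lit 10))))))) (nd (nat_lit 232) (nat_lit 0) (cs (rf (nat_lit 11)) (cs (rf (nat_lit 12)) (cs (rf (nat_lit 13)) (nd (nat_lit 230) (nat_lit 0) (cs (rf (nat_lit 14)) (cs (rf (nat_lit 15)) (cs (rf (nat_lit 16)) (cs (nd (nat_lit 233) (nat_lit 0) (cs (lf (nat_lit 18) (nat_lit 208)) (nd (nat_lit 275) (nat_lit 0) (cs (lf (nat_lit 42) (nat_lit 208)) (nd (nat_lit 188) (nat_lit 0) (cs (lf (nat_lit 34) (nat_lit 187)) (nd (nat_lit 255) (nat_lit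 0) (cs (lf (nat_lit 5) (nat_lit 230)) (nd (nat_lit 251) (nat_lit 0) (cs (lf (nat_lit 10) (nat_lit 229)) (nd (nat_lit 274) (nat_lit 0) (cs (lf (nat_lit 41) (nat_lit 208)) (nd (nat_lit 211) (nat_lit 0) (cs (lf (nat_lit 17) (nat_lit 208)) (nd (nat_lit 166) (nat_lit 0) (cs (lf (nat_lit 45) (nat_lit 166)) (nd (nat_lit 276) (nat_lit 0) (cs (lf (nat_lit 29) (nat_lit 209)) (rf (nat_lit 17)))))))))))))))))))) (rf (nat_lit 18))))))))))))))) (cs (rf (nat_lit 19)) (cs (rf (nat_lit 20)) (cs (rf (nat_lit 21)) (cs (rf (nat_lit 22)) (rf (nat_lit 23)))))))) q98119 (by decide +kernel)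
def q98178 : Q := Q.p (nat_lit 0x800002000008000000000000000000000000000000000000000000000000000000000) (nat_lit 0x4000030000170001d000014000070000180000700001c00005000000000000000000000000000000) (nat_lit 11)
theorem c98178 : QOK q98178 := cut [q96312, q96741, q97875, q98177] ⟨c96312, c96741, c97875, c98177, trivial⟩ (nd (nat_lit 209) (nat_lit 0) (cs (rf (nat_lit 0)) (cs (rf (nat_lit 1)) (cs (rf (nat_lit 2)) (rf (nat_lit 3)))))) q98178 (by decide +kernel)
def q98222 : Q := Q.p (nat_lit 0x6000008000000000000000000000000000000000000000000000000000000000) (nat_lit 0x14000050001ff00039e000f3c000ff0003f8001ff0001400000000000000000000000000000000000) (nat_lit 13)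
theorem c98222 : QOK q98222 := cut [q96308, q96693, q96698, q80921, q80922, q96513, q98213, q82257, q82278, q96395, q96402] ⟨c96308, c96693, c96698, c80921, c80922, c96513, c98213, c82257, c82278, c96395, c96402, trivial⟩ (nd (nat_lit 209) (nat_lit 0) (cs (rf (nat_lit 0)) (cs (rf (nat_lit 1)) (cs (rf (nat_lit 2)) (nd (nat_lit 276) (nat_lit 0) (cs (rf (nat_lit 3)) (cs (rf (nat_lit 4)) (nd (nat_lit 252) (nat_lit 0) (cs (rf (nat_lit 5)) (cs (nd (nat_lit 255) (nat_lit 0) (cs (rf (nat_lit 6)) (nd (nat_lit 234) (nat_lit 0) (cs (lf (nat_lit 16) (nat_lit 230)) (nd (nat_lit 256) (nat_lit 0) (cs (lf (nat_lit 17) (nat_lit 231)) (rf (nat_lit 7)))))))) (cs (nd (nat_lit 251) (nat_lit 0) (cs (rf (nat_lit 8)) (cs (rf (nat_lit 9)) (rf (nat_lit 10))))) (nd (nat_lit 251) (nat_lit 0) (cs (lf (nat_lit 5) (nat_lit 251)) (nd (nat_lit 232) (nat_lit 0) (cs (lf (nat_lit 12) (nat_lit 228)) (lf (nat_lit 17) (nat_lit 229))))))))))))))))) q98222 (by decide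 +kernel)
def q98238 : Q := Q.p (nat_lit 0x2000008000038000000000000000000000000000000000000000000000000000) (nat_lit 0x800000000011c0000700006e000100000400000000000000000000000000000000000) (nat_lit 8)
theorem c98238 : QOK q98238 := cut [q132] ⟨c132, trivial⟩ (nd (nat_lit 186) (nat_lit 0) (cs (lf (nat_lit 42) (nat_lit 186)) (rf (nat_lit 0)))) q98238 (by decide +kernel)
def q98240 : Q := Q.p (nat_lit 0x2000008000038000000000000000000000000000000000000000000000000000) (nat_lit 0x800000000010e0000700007c000100000400000000000000000000000000000000000) (nat_lit 8)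
theorem c98240 : QOK q98240 := cut [q2631] ⟨c2631, trivial⟩ (nd (nat_lit 186) (nat_lit 0) (cs (lf (nat_lit 42) (nat_lit 186)) (nd (nat_lit 142) (nat_lit 0) (cs (lf (nat_lit 25) (nat_lit 142)) (rf (nat_lit 0)))))) q98240 (by decide +kernel)
def q98385 : Q := Q.p (nat_lit 0xc00003000000000000000000000000000000000000000000000000000000000000000) (nat_lit 0x100001de000738000c600008000020000000000000000000000000000000000000000000000000000) (nat_lit 8)
theorem c98385 : QOK q98385 := cut [q87021, q98382, q98384] ⟨c87021, c98382, c98384, trivial⟩ (nd (nat_lit 273) (nat_lit 0) (cs (rf (nat_lit 0)) (cs (rf (nat_lit 1)) (rf (nat_lit 2))))) q98385 (by decide +kernel)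
def q98390 : Q := Q.p (nat_lit 0xc00003000000000000000000000000000000000000000000000000000000000000000) (nat_lit 0x8000020001de000738000c600004000010000000000000000000000000000000000000000000000000000) (nat_lit 8)
theorem c98390 : QOK q98390 := cut [q87021, q98384, q98389] ⟨c87021, c98384, c98389, trivial⟩ (nd (nat_lit 273) (nat_lit 0) (cs (rf (nat_lit 0)) (cs (rf (nat_lit 1)) (rf (nat_lit 2))))) q98390 (by decide +kernel)
def q98460 : Q := Q.p (nat_lit 0xc00003000000000000000000000000000000000000000000000000000000000000000) (nat_lit 0x80000300001ce000738000c6000ff8003fc000ff8000000000000000000000000000000000000000000000) (nat_lit 17)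
theorem c98460 : QOK q98460 := cut [q87021, q98384, q1310, q94412, q98433, q24766, q80288, q15523, q17112, q98395, q87, q186, q11668, q90173, q81647] ⟨c87021, c98384, c1310, c94412, c98433, c24766, c80288, c15523, c17112, c98395, c87, c186, c11668, c90173, c81647, trivial⟩ (nd (nat_lit 273) (nat_lit 0) (cs (rf (nat_lit 0)) (cs (rf (nat_lit 1)) (nd (nat_lit 254) (nat_lit 0) (cs (lf (nat_lit 6) (nat_lit 251)) (nd (nat_lit 276) (nat_lit 0) (cs (rf (nat_lit 2)) (cs (rf (nat_lit 3)) (cs (rf (nat_lit 4)) (nd (nat_lit 208) (nat_lit 0) (cs (rf (nat_lit 5)) (cs (nd (nat_lit 210) (nat_lit 0) (cs (nd (nat_lit 277) (nat_lit 0) (cs (lf (nat_lit 18) (nat_lit 252)) (nd (nat_lit 294) (nat_lit 0) (cs (lf (nat_lit 10) (nat_lit 272)) (nd (nat_lit 232) (nat_lit 0) (cs (lf (nat_lit 36) (nat_lit 187)) (rf (nat_lit 6)))))))) (cs (nd (nat_lit 209) (nat_lit 0) (cs (rf (nat_lit 7)) (nd (nat_lit 277) (nat_lit 0) (cs (lf (nat_lit 18) (nat_lit 252)) (nd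 (nat_lit 294) (nat_lit 0) (cs (lf (nat_lit 10) (nat_lit 272)) (nd (nat_lit 232) (nat_lit 0) (cs (lf (nat_lit 47) (nat_lit 187)) (nd (nat_lit 189) (nat_lit 0) (cs (rf (nat_lit 8)) (lf (nat_lit 34) (nat_lit 188)))))))))))) (cs (nd (nat_lit 209) (nat_lit 0) (cs (rf (nat_lit 7)) (cs (rf (nat_lit 9)) (nd (nat_lit 207) (nat_lit 0) (cs (rf (nat_lit 10)) (cs (rf (nat_lit 11)) (rf (nat_lit 12)))))))) (cs (nd (nat_lit 277) (nat_lit 0) (cs (lf (nat_lit 18) (nat_lit 252)) (nd (nat_lit 232) (nat_lit 0) (cs (lf (nat_lit 36) (nat_lit 187)) (nd (nat_lit 294) (nat_lit 0) (cs (lf (nat_lit 10) (nat_lit 272)) (nd (nat_lit 189) (nat_lit 0) (cs (lf (nat_lit 34) (nat_lit 188)) (nd (nat_lit 209) (nat_lit 0) (cs (rf (nat_lit 8)) (lf (nat_lit 47) (nat_lit 187)))))))))))) (nd (nat_lit 232) (nat_lit 0) (cs (lf (nat_lit 36) (nat_lit 187)) (rf (nat_lit 13))))))))) (nd (nat_lit 277) (nat_lit 0) (cs (lf (nat_lit 18) (nat_lit 252)) (nd (nat_lit 230) (nat_lit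 0) (cs (lf (nat_lit 24) (nat_lit 186)) (nd (nat_lit 185) (nat_lit 0) (cs (lf (nat_lit 46) (nat_lit 185)) (nd (nat_lit 209) (nat_lit 0) (cs (lf (nat_lit 35) (nat_lit 186)) (nd (nat_lit 231) (nat_lit 0) (cs (lf (nat_lit 29) (nat_lit 209)) (nd (nat_lit 228) (nat_lit 0) (cs (lf (nat_lit 1) (nat_lit 228)) (rf (nat_lit 14)))))))))))))))))))))))))) q98460 (by decide +kernel)
def q98505 : Q := Q.p (nat_lit 0xc00003000000000000000000000000000000000000000000000000000000000000000) (nat_lit 0x40001d0000700000c00007f8001fe0001e0000400000000000000000000000000000000000000000) (nat_lit 13)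
theorem c98505 : QOK q98505 := cut [q98468, q98471, q56839, q98472, q98476, q98478, q98479, q90529] ⟨c98468, c98471, c56839, c98472, c98476, c98478, c98479, c90529, trivial⟩ (nd (nat_lit 230) (nat_lit 0) (cs (rf (nat_lit 0)) (cs (rf (nat_lit 1)) (cs (nd (nat_lit 231) (nat_lit 0) (cs (rf (nat_lit 2)) (cs (rf (nat_lit 3)) (rf (nat_lit 4))))) (cs (rf (nat_lit 5)) (cs (nd (nat_lit 231) (nat_lit 0) (cs (rf (nat_lit 4)) (cs (rf (nat_lit 6)) (cs (nd (nat_lit 186) (nat_lit 0) (cs (lf (nat_lit 25) (nat_lit 186)) (nd (nat_lit 209) (nat_lit 0) (cs (lf (nat_lit 36) (nat_lit 186)) (nd (nat_lit 210) (nat_lit 0) (cs (lf (nat_lit 35) (nat_lit 187)) (nd (nat_lit 211) (nat_lit 0) (cs (lf (nat_lit 6) (nat_lit 208)) (nd (nat_lit 276) (nat_lit 0) (cs (lf (nat_lit 29) (nat_lit 209)) (nd (nat_lit 277) (nat_lit 0) (cs (lf (nat_lit 18) (nat_lit 252)) (nd (nat_lit 299) (nat_lit 0) (cs (lf (nat_lit 5) (nat_lit 274)) (nd (nat_lit 232) (nat_lit 0) (cs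 (lf (nat_lit 26) (nat_lit 210)) (nd (nat_lit 233) (nat_lit 0) (cs (lf (nat_lit 6) (nat_lit 230)) (lf (nat_lit 44) (nat_lit 210)))))))))))))))))))) (nd (nat_lit 209) (nat_lit 0) (cs (lf (nat_lit 36) (nat_lit 186)) (nd (nat_lit 208) (nat_lit 0) (cs (lf (nat_lit 24) (nat_lit 186)) (nd (nat_lit 185) (nat_lit 0) (cs (lf (nat_lit 46) (nat_lit 185)) (rf (nat_lit 7)))))))))))) (nd (nat_lit 208) (nat_lit 0) (cs (lf (nat_lit 24) (nat_lit 186)) (nd (nat_lit 185) (nat_lit 0) (cs (lf (nat_lit 46) (nat_lit 185)) (nd (nat_lit 209) (nat_lit 0) (cs (lf (nat_lit 35) (nat_lit 186)) (nd (nat_lit 231) (nat_lit 0) (cs (lf (nat_lit 30) (nat_lit 208)) (nd (nat_lit 276) (nat_lit 0) (cs (lf (nat_lit 29) (nat_lit 209)) (nd (nat_lit 277) (nat_lit 0) (cs (lf (nat_lit 18) (nat_lit 252)) (nd (nat_lit 299) (nat_lit 0) (cs (lf (nat_lit 5) (nat_lit 274)) (nd (nat_lit 210) (nat_lit 0) (cs (lf (nat_lit 35) (nat_lit 187)) (nd (nat_lit 211) (nat_lit 0) (cs (lf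 (nat_lit 6) (nat_lit 208)) (nd (nat_lit 233) (nat_lit 0) (cs (lf (nat_lit 5) (nat_lit 208)) (nd (nat_lit 232) (nat_lit 0) (cs (lf (nat_lit 26) (nat_lit 210)) (lf (nat_lit 44) (nat_lit 210)))))))))))))))))))))))))))))) q98505 (by decide +kernel)
def q98520 : Q := Q.p (nat_lit 0x800003000000000000000000000000000000000000000000000000000000000000000) (nat_lit 0xc0000300000c800073c000ce0003fc000f60003c0000300000000000000000000000000000000000000000) (nat_lit 12)
theorem c98520 : QOK q98520 := cut [q2066, q24207, q93921, q98377, q98507, q98510, q98519] ⟨c2066, c24207, c93921, c98377, c98507, c98510, c98519, trivial⟩ (nd (nat_lit 251) (nat_lit 0) (cs (rf (nat_lit 0)) (cs (rf (nat_lit 1)) (cs (rf (nat_lit 2)) (cs (nd (nat_lit 254) (nat_lit 0) (cs (rf (nat_lit 3)) (cs (rf (nat_lit 4)) (nd (nat_lit 232) (nat_lit 0) (cs (lf (nat_lit 17) (nat_lit 229)) (nd (nat_lit 188) (nat_lit 0) (cs (lf (nat_lit 37) (nat_lit 187)) (rf (nat_lit 5)))))))))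 (rf (nat_lit 6))))))) q98520 (by decide +kernel)
def q98675 : Q := Q.p (nat_lit 0x100000c0000300000c000000000000000000000000000000000000000000000000000000000) (nat_lit 0x200000e0000000000e000738001ce000000000000000000000000000000000000000000000000000) (nat_lit 10)
theorem c98675 : QOK q98675 := cut [q88191] ⟨c88191, trivial⟩ (nd (nat_lit 295) (nat_lit 0) (cs (lf (nat_lit 41) (nat_lit 229)) (nd (nat_lit 293) (nat_lit 0) (cs (lf (nat_lit 13) (nat_lit 271)) (rf (nat_lit 0)))))) q98675 (by decide +kernel)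
def q98747 : Q := Q.p (nat_lit 0x800003000000000000000000000000000000000000000000000000000000000000000) (nat_lit 0xc0000300000cc00077c000ce0007bc000e0000380000000000000000000000000000000000000000000000) (nat_lit 12)
theorem c98747 : QOK q98747 := cut [q1999, q2066, q2091, q98378, q79020, q98507, q98740, q98743] ⟨c1999, c2066, c2091, c98378, c79020, c98507, c98740, c98743, trivial⟩ (nd (nat_lit 251) (nat_lit 0) (cs (rf (nat_lit 0)) (cs (rf (nat_lit 1)) (cs (rf (nat_lit 2)) (cs (rf (nat_lit 3)) (nd (nat_lit 254) (nat_lit 0) (cs (rf (nat_lit 4)) (cs (rf (nat_lit 5)) (cs (nd (nat_lit 228) (nat_lit 0) (cs (lf (nat_lit 22) (nat_lit 228)) (rf (nat_lit 6)))) (nd (nat_lit 276) (nat_lit 0) (cs (lf (nat_lit 5) (nat_lit 251)) (nd (nat_lit 228) (nat_lit 0) (cs (lf (nat_lit 22) (nat_lit 228)) (rf (nat_lit 7))))))))))))))) q98747 (by decide +kernel)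
def q98752 : Q := Q.p (nat_lit 0x800003800000000000000000000000000000000000000000000000000000000000000) (nat_lit 0x50000740000c00007f0000fc0003f0000000000000000000000000000000000000000000000) (nat_lit 13)
theorem c98752 : QOK q98752 := cut [q81998, q98510, q98740, q81741] ⟨c81998, c98510, c98740, c81741, trivial⟩ (nd (nat_lit 254) (nat_lit 0) (cs (nd (nat_lit 276) (nat_lit 0) (cs (lf (nat_lit 5) (nat_lit 251)) (nd (nat_lit 232) (nat_lit 0) (cs (lf (nat_lit 17) (nat_lit 229)) (nd (nat_lit 210) (nat_lit 0) (cs (lf (nat_lit 36) (nat_lit 187)) (nd (nat_lit 228) (nat_lit 0) (cs (lf (nat_lit 22) (nat_lit 228)) (rf (nat_lit 0)))))))))) (cs (rf (nat_lit 1)) (cs (rf (nat_lit 2)) (nd (nat_lit 232) (nat_lit 0) (cs (lf (nat_lit 17) (nat_lit 229)) (nd (nat_lit 210) (nat_lit 0) (cs (lf (nat_lit 36) (nat_lit 187)) (nd (nat_lit 229) (nat_lit 0) (cs (lf (nat_lit 23) (nat_lit 228)) (nd (nat_lit 230) (nat_lit 0) (cs (lf (nat_lit 18) (nat_lit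 229)) (rf (nat_lit 3)))))))))))))) q98752 (by decide +kernel)
def q98759 : Q := Q.p (nat_lit 0x800003000000000000000000000000000000000000000000000000000000000000000) (nat_lit 0xc0000300000cc00077c000ce0007c0000e0000380000000000000000000000000000000000000000000000) (nat_lit 12)
theorem c98759 : QOK q98759 := cut [q1999, q24207, q79020, q98507, q98740, q98743, q1998, q23550, q89927, q98758] ⟨c1999, c24207, c79020, c98507, c98740, c98743, c1998, c23550, c89927, c98758, trivial⟩ (nd (nat_lit 251) (nat_lit 0) (cs (rf (nat_lit 0)) (cs (rf (nat_lit 1)) (cs (nd (nat_lit 254) (nat_lit 0) (cs (rf (nat_lit 2)) (cs (rf (nat_lit 3)) (cs (rf (nat_lit 4)) (nd (nat_lit 276) (nat_lit 0) (cs (lf (nat_lit 5) (nat_lit 251)) (rf (nat_lit 5)))))))) (cs (nd (nat_lit 250) (nat_lit 0) (cs (rf (nat_lit 6)) (cs (rf (nat_lit 7)) (rf (nat_lit 8))))) (rf (nat_lit 9))))))) q98759 (by decide +kernel)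
def q98783 : Q := Q.p (nat_lit 0x800003000000000000000000000000000000000000000000000000000000000000000) (nat_lit 0x5c000170001de00077c000ce0000fc0003c000070000000000000000000000000000000000000000000000) (nat_lit 14)
theorem c98783 : QOK q98783 := cut [q1999, q2066, q2091, q98540, q98766, q98768, q80583, q86851, q14907, q90616, q98776, q22305, q98382, q98679, q98701, q98781] ⟨c1999, c2066, c2091, c98540, c98766, c98768, c80583, c86851, c14907, c90616, c98776, c22305, c98382, c98679, c98701, c98781, trivial⟩ (nd (nat_lit 251) (nat_lit 0) (cs (rf (nat_lit 0)) (cs (rf (nat_lit 1)) (cs (rf (nat_lit 2)) (cs (rf (nat_lit 3)) (nd (nat_lit 273) (nat_lit 0) (cs (rf (nat_lit 4)) (cs (rf (nat_lit 5)) (cs (nd (nat_lit 295) (nat_lit 0) (cs (rf (nat_lit 6)) (cs (rf (nat_lit 7)) (cs (nd (nat_lit 274) (nat_lit 0) (cs (rf (nat_lit 8)) (cs (rf (nat_lit 9)) (rf (nat_lit 10))))) (nd (nat_lit 274) (nat_lit 0) (cs (rf (nat_lit 11)) (rf (nat_lit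 9)))))))) (cs (nd (nat_lit 274) (nat_lit 0) (cs (rf (nat_lit 12)) (cs (rf (nat_lit 13)) (rf (nat_lit 14))))) (rf (nat_lit 15)))))))))))) q98783 (by decide +kernel)
def q98790 : Q := Q.p (nat_lit 0x200000800002000008000000000000000000000000000000000000000000000000000000000) (nat_lit 0xf78001dc0007780000000014000050000000000000000000000000000000000000000000000000000) (nat_lit 12)
theorem c98790 : QOK q98790 := cut [q11666, q88938, q98788] ⟨c11666, c88938, c98788, trivial⟩ (nd (nat_lit 296) (nat_lit 0) (cs (lf (nat_lit 41) (nat_lit 230)) (nd (nat_lit 295) (nat_lit 0) (cs (rf (nat_lit 0)) (cs (nd (nat_lit 208) (nat_lit 0) (cs (lf (nat_lit 46) (nat_lit 208)) (nd (nat_lit 210) (nat_lit 0) (cs (lf (nat_lit 34) (nat_lit 209)) (rf (nat_lit 1)))))) (rf (nat_lit 2))))))) q98790 (by decide +kernel)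
def q98847 : Q := Q.p (nat_lit 0x1e00006000000000000000000000000000000000000000000000000000000000000000) (nat_lit 0x60000180000ec00000000000000300000c0000300000000000000000000000000000000000000000000000) (nat_lit 8)
theorem c98847 : QOK q98847 := cut [q98846] ⟨c98846, trivial⟩ (nd (nat_lit 294) (nat_lit 0) (cs (lf (nat_lit 10) (nat_lit 272)) (rf (nat_lit 0)))) q98847 (by decide +kernel)
def q98874 : Q := Q.p (nat_lit 0xc00003000000000000000000000000000000000000000000000000000000000000000) (nat_lit 0x380000e00003e000000000c8000078000f80000e0000000000000000000000000000000000000000000000) (nat_lit 9)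
theorem c98874 : QOK q98874 := cut [q98468, q98863, q98873] ⟨c98468, c98863, c98873, trivial⟩ (nd (nat_lit 230) (nat_lit 0) (cs (rf (nat_lit 0)) (cs (rf (nat_lit 1)) (rf (nat_lit 2))))) q98874 (by decide +kernel)
def q98947 : Q := Q.p (nat_lit 0xc00003000000000000000000000000000000000000000000000000000000000000000) (nat_lit 0x380000e00003c00030000000000070000f80000e0000000000000000000000000000000000000000000000) (nat_lit 7)
theorem c98947 : QOK q98947 := cut [q98468, q98863, q98946] ⟨c98468, c98863, c98946, trivial⟩ (nd (nat_lit 230) (nat_lit 0) (cs (rf (nat_lit 0)) (cs (rf (nat_lit 1)) (rf (nat_lit 2))))) q98947 (by decide +kernel)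
def q98955 : Q := Q.p (nat_lit 0xc00003000000000000000000000000000000000000000000000000000000000000000) (nat_lit 0x1f80007f8001fe0003000004000014000010000040000000000000000000000000000000000000000000000) (nat_lit 10)
theorem c98955 : QOK q98955 := cut [q25707, q94337, q94343, q94359, q88425, q89773, q98948, q98954] ⟨c25707, c94337, c94343, c94359, c88425, c89773, c98948, c98954, trivial⟩ (nd (nat_lit 296) (nat_lit 0) (cs (rf (nat_lit 0)) (cs (rf (nat_lit 1)) (cs (rf (nat_lit 2)) (cs (rf (nat_lit 3)) (cs (nd (nat_lit 297) (nat_lit 0) (cs (rf (nat_lit 4)) (cs (rf (nat_lit 5)) (rf (nat_lit 6))))) (rf (nat_lit 7)))))))) q98955 (by decide +kernel)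
def q99024 : Q := Q.p (nat_lit 0xc00002000000000000000000000000000000000000000000000000000000000000000) (nat_lit 0x20000fc0003f0003df000f38000df0000700001c000050000000000000000000000000000000000000000000000) (nat_lit 14)
theorem c99024 : QOK q99024 := cut [q98349, q98839, q98960, q99005, q99008, q83845, q99022, q99023] ⟨c98349, c98839, c98960, c99005, c99008, c83845, c99022, c99023, trivial⟩ (nd (nat_lit 273) (nat_lit 0) (cs (rf (nat_lit 0)) (cs (nd (nat_lit 254) (nat_lit 0) (cs (lf (nat_lit 12) (nat_lit 250)) (nd (nat_lit 276) (nat_lit 0) (cs (lf (nat_lit 17) (nat_lit 251)) (nd (nat_lit 250) (nat_lit 0) (cs (lf (nat_lit 22) (nat_lit 250)) (nd (nat_lit 295) (nat_lit 0) (cs (lf (nat_lit 11) (nat_lit 272)) (nd (nat_lit 298) (nat_lit 0) (cs (lf (nat_lit 5) (nat_lit 273)) (nd (nat_lit 296) (nat_lit 0) (cs (lf (nat_lit 6) (nat_lit 273)) (nd (nat_lit 318) (nat_lit 0) (cs (lf (nat_lit 30) (nat_lit 252)) (nd (nat_lit 320) (nat_lit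 0) (cs (lf (nat_lit 42) (nat_lit 253)) (nd (nat_lit 319) (nat_lit 0) (cs (lf (nat_lit 18) (nat_lit 295)) (lf (nat_lit 41) (nat_lit 253)))))))))))))))))))) (cs (nd (nat_lit 276) (nat_lit 0) (cs (rf (nat_lit 1)) (cs (rf (nat_lit 2)) (cs (rf (nat_lit 3)) (cs (nd (nat_lit 250) (nat_lit 0) (cs (lf (nat_lit 22) (nat_lit 250)) (rf (nat_lit 4)))) (nd (nat_lit 298) (nat_lit 0) (cs (lf (nat_lit 5) (nat_lit 273)) (nd (nat_lit 320) (nat_lit 0) (cs (lf (nat_lit 42) (nat_lit 253)) (nd (nat_lit 250) (nat_lit 0) (cs (lf (nat_lit 22) (nat_lit 250)) (nd (nat_lit 295) (nat_lit 0) (cs (lf (nat_lit 11) (nat_lit 272)) (nd (nat_lit 296) (nat_lit 0) (cs (lf (nat_lit 6) (nat_lit 273)) (nd (nat_lit 318) (nat_lit 0) (cs (lf (nat_lit 30) (nat_lit 252)) (nd (nat_lit 319) (nat_lit 0) (cs (lf (nat_lit 18) (nat_lit 295)) (nd (nat_lit 252) (nat_lit 0) (cs (lf (nat_lit 29) (nat_lit 252)) (rf (nat_lit 5))))))))))))))))))))))) (cs (rf (nat_lit 6)) (rf (nat_lit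 7))))))) q99024 (by decide +kernel)
def q99039 : Q := Q.p (nat_lit 0x100000c00003000004000000000000000000000000000000000000000000000000000000000) (nat_lit 0xb80006e0000380000e0000380000e000000000000000000000000000000000000000000000000000) (nat_lit 11)
theorem c99039 : QOK q99039 := cut [q99038] ⟨c99038, trivial⟩ (nd (nat_lit 297) (nat_lit 0) (cs (lf (nat_lit 42) (nat_lit 230)) (rf (nat_lit 0)))) q99039 (by decide +kernel)
def q99140 : Q := Q.p (nat_lit 0xd00003000000000000000000000000000000000000000000000000000000000000000) (nat_lit 0x88000360001080000e000078000fe0000f80000a0000000000000000000000000000000000000000) (nat_lit 10)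
theorem c99140 : QOK q99140 := cut [q98468, q98863, q99139] ⟨c98468, c98863, c99139, trivial⟩ (nd (nat_lit 230) (nat_lit 0) (cs (rf (nat_lit 0)) (cs (rf (nat_lit 1)) (rf (nat_lit 2))))) q99140 (by decide +kernel)
def q99226 : Q := Q.p (nat_lit 0xc00002000000000000000000000000000000000000000000000000000000000000000) (nat_lit 0x20000dc000370007ff000f38000df0000700001c000050000000000000000000000000000000000000000000000) (nat_lit 14)
theorem c99226 : QOK q99226 := cut [q98349, q98972, q99022, q98839, q98844, q98960, q99008, q99001, q99002, q99003, q11700] ⟨c98349, c98972, c99022, c98839, c98844, c98960, c99008, c99001, c99002, c99003, c11700, trivial⟩ (nd (nat_lit 273) (nat_lit 0) (cs (rf (nat_lit 0)) (cs (rf (nat_lit 1)) (cs (rf (nat_lit 2)) (nd (nat_lit 276) (nat_lit 0) (cs (rf (nat_lit 3)) (cs (rf (nat_lit 4)) (cs (rf (nat_lit 5)) (cs (rf (nat_lit 6)) (nd (nat_lit 295) (nat_lit 0) (cs (lf (nat_lit 11) (nat_lit 272)) (nd (nat_lit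 317) (nat_lit 0) (cs (rf (nat_lit 7)) (cs (rf (nat_lit 8)) (cs (rf (nat_lit 9)) (nd (nat_lit 250) (nat_lit 0) (cs (lf (nat_lit 22) (nat_lit 250)) (nd (nat_lit 298) (nat_lit 0) (cs (lf (nat_lit 5) (nat_lit 273)) (nd (nat_lit 320) (nat_lit 0) (cs (lf (nat_lit 42) (nat_lit 253)) (nd (nat_lit 254) (nat_lit 0) (cs (lf (nat_lit 17) (nat_lit 251)) (nd (nat_lit 321) (nat_lit 0) (cs (lf (nat_lit 29) (nat_lit 254)) (nd (nat_lit 296) (nat_lit 0) (cs (rf (nat_lit 10)) (lf (nat_lit 2) (nat_lit 295))))))))))))))))))))))))))))) q99226 (by decide +kernel)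
def q99238 : Q := Q.p (nat_lit 0x200000800002000000000000000000000000000000000000000000000000000000000000000) (nat_lit 0x10000040000100000de000ff8003ff000140000400000000000000000000000000000000000000000) (nat_lit 10)
theorem c99238 : QOK q99238 := cut [q32034, q88936, q99237] ⟨c32034, c88936, c99237, trivial⟩ (nd (nat_lit 231) (nat_lit 0) (cs (rf (nat_lit 0)) (cs (rf (nat_lit 1)) (rf (nat_lit 2))))) q99238 (by decide +kernel)
def q99276 : Q := Q.p (nat_lit 0x200000800002000000000000000000000000000000000000000000000000000000000000000) (nat_lit 0x4000010000040000de000ff8003ff000140000400000000000000000000000000000000000000000) (nat_lit 10)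
theorem c99276 : QOK q99276 := cut [q22004, q79188, q99237] ⟨c22004, c79188, c99237, trivial⟩ (nd (nat_lit 231) (nat_lit 0) (cs (rf (nat_lit 0)) (cs (rf (nat_lit 1)) (rf (nat_lit 2))))) q99276 (by decide +kernel)
def q99375 : Q := Q.p (nat_lit 0x800003000000000000000000000000000000000000000000000000000000000000000) (nat_lit 0x2800033c000ce0003fc00050000140000000000000000000000000000000000000000000000) (nat_lit 7)
theorem c99375 : QOK q99375 := cut [q2066, q93921, q99373, q99374] ⟨c2066, c93921, c99373, c99374, trivial⟩ (nd (nat_lit 251) (nat_lit 0) (cs (rf (nat_lit 0)) (cs (rf (nat_lit 1)) (cs (rf (nat_lit 2)) (rf (nat_lit 3)))))) q99375 (by decide +kernel)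
def q99454 : Q := Q.p (nat_lit 0x800003000000000000000000000000000000000000000000000000000000000000000) (nat_lit 0x140000f8000ff0003fc000f70000cc000fc0000d0000040000000000000000000000000000000000000000000000) (nat_lit 12)
theorem c99454 : QOK q99454 := cut [q88933, q99236, q99409, q90750, q90853, q88742, q99424, q99427, q14698, q99435, q88915, q79116, q99447] ⟨c88933, c99236, c99409, c90750, c90853, c88742, c99424, c99427, c14698, c99435, c88915, c79116, c99447, trivial⟩ (nd (nat_lit 297) (nat_lit 0) (cs (rf (nat_lit 0)) (cs (rf (nat_lit 1)) (cs (rf (nat_lit 2)) (nd (nat_lit 298) (nat_lit 0) (cs (rf (nat_lit 3)) (cs (rf (nat_lit 4)) (cs (nd (nat_lit 276) (nat_lit 0) (cs (rf (nat_lit 5)) (cs (nd (nat_lit 273) (nat_lit 0) (cs (rf (nat_lit 6)) (cs (nd (nat_lit 320) (nat_lit 0) (cs (lf (nat_lit 42) (nat_lit 253)) (rf (nat_lit 7)))) (nd (nat_lit 250) (nat_lit 0) (cs (lf (nat_lit 1) (nat_lit 250)) (nd (nat_lit 274) (nat_lit 0) (cs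 (lf (nat_lit 5) (nat_lit 273)) (nd (nat_lit 295) (nat_lit 0) (cs (lf (nat_lit 11) (nat_lit 272)) (nd (nat_lit 320) (nat_lit 0) (cs (lf (nat_lit 42) (nat_lit 253)) (nd (nat_lit 208) (nat_lit 0) (cs (lf (nat_lit 37) (nat_lit 207)) (rf (nat_lit 8))))))))))))))) (cs (rf (nat_lit 9)) (nd (nat_lit 320) (nat_lit 0) (cs (lf (nat_lit 42) (nat_lit 253)) (rf (nat_lit 10)))))))) (nd (nat_lit 276) (nat_lit 0) (cs (rf (nat_lit 10)) (cs (nd (nat_lit 273) (nat_lit 0) (cs (rf (nat_lit 6)) (cs (rf (nat_lit 7)) (nd (nat_lit 274) (nat_lit 0) (cs (lf (nat_lit 5) (nat_lit 273)) (nd (nat_lit 294) (nat_lit 0) (cs (lf (nat_lit 10) (nat_lit 272)) (nd (nat_lit 208) (nat_lit 0) (cs (lf (nat_lit 25) (nat_lit 208)) (nd (nat_lit 254) (nat_lit 0) (cs (lf (nat_lit 6) (nat_lit 251)) (nd (nat_lit 232) (nat_lit 0) (cs (lf (nat_lit 36) (nat_lit 209)) (nd (nat_lit 233) (nat_lit 0) (cs (rf (nat_lit 11)) (lf (nat_lit 35) (nat_lit 210))))))))))))))))) (nd (nat_lit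 277) (nat_lit 0) (cs (lf (nat_lit 18) (nat_lit 252)) (nd (nat_lit 296) (nat_lit 0) (cs (lf (nat_lit 12) (nat_lit 273)) (nd (nat_lit 231) (nat_lit 0) (cs (lf (nat_lit 41) (nat_lit 230)) (nd (nat_lit 208) (nat_lit 0) (cs (lf (nat_lit 46) (nat_lit 208)) (rf (nat_lit 12))))))))))))))))))))) q99454 (by decide +kernel)
def q99515 : Q := Q.p (nat_lit 0x800003800004000000000000000000000000000000000000000000000000000000000) (nat_lit 0x800007c000060007bc001fc0007f0000200000800000000000000000000000000000000000) (nat_lit 14)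
theorem c99515 : QOK q99515 := cut [q2090, q23543, q99513] ⟨c2090, c23543, c99513, trivial⟩ (nd (nat_lit 208) (nat_lit 0) (cs (lf (nat_lit 24) (nat_lit 186)) (nd (nat_lit 250) (nat_lit 0) (cs (rf (nat_lit 0)) (cs (rf (nat_lit 1)) (rf (nat_lit 2))))))) q99515 (by decide +kernel)
def q99585 : Q := Q.p (nat_lit 0x800003000000000000000000000000000000000000000000000000000000000000000) (nat_lit 0xa0001bf0006f80007f000cfc007ff001ff0001f80002a0000800000000000000000000000000000000000) (nat_lit 18)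
theorem c99585 : QOK q99585 := cut [q79078, q99497, q81385, q87559, q87874, q91478, q41226, q87885, q20194, q44513, q64951, q44140, q59495, q40706, q48541, q82179, q99498, q96758, q96769, q426, q87919, q99559, q99564, q99567, q99584] ⟨c79078, c99497, c81385, c87559, c87874, c91478, c41226, c87885, c20194, c44513, c64951, c44140, c59495, c40706, c48541, c82179, c99498, c96758, c96769, c426, c87919, c99559, c99564, c99567, c99584, trivial⟩ (nd (nat_lit 230) (nat_lit 0) (cs (rf (nat_lit 0)) (cs (rf (nat_lit 1)) (cs (nd (nat_lit 231) (nat_lit 0) (cs (rf (nat_lit 2)) (cs (nd (nat_lit 228) (nat_lit 0) (cs (rf (nat_lit 3)) (cs (nd (nat_lit 297) (nat_lit 0) (cs (lf (nat_lit 42) (nat_lit 230)) (nd (nat_lit 250) (nat_lit 0) (cs (rf (nat_lit 4)) (cs (nd (nat_lit 298) (nat_lit 0) (cs (lf (nat_lit 29) (nat_lit 231)) (nd (nat_lit 251) (nat_lit 0) (cs (lf (nat_lit 23) (nat_lit 227)) (rf (nat_lit 5)))))) (cs (nd (nat_lit 272) (nat_lit 0)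 (cs (nd (nat_lit 298) (nat_lit 0) (cs (lf (nat_lit 29) (nat_lit 231)) (nd (nat_lit 273) (nat_lit 0) (cs (lf (nat_lit 2) (nat_lit 272)) (nd (nat_lit 206) (nat_lit 0) (cs (lf (nat_lit 29) (nat_lit 206)) (rf (nat_lit 6)))))))) (cs (nd (nat_lit 298) (nat_lit 0) (cs (lf (nat_lit 29) (nat_lit 231)) (nd (nat_lit 273) (nat_lit 0) (cs (lf (nat_lit 2) (nat_lit 272)) (rf (nat_lit 7)))))) (cs (nd (nat_lit 294) (nat_lit 0) (cs (rf (nat_lit 8)) (cs (nd (nat_lit 317) (nat_lit 0) (cs (lf (nat_lit 28) (nat_lit 228)) (rf (nat_lit 9)))) (cs (nd (nat_lit 227) (nat_lit 0) (cs (lf (nat_lit 47) (nat_lit 205)) (nd (nat_lit 293) (nat_lit 0) (cs (lf (nat_lit 41) (nat_lit 227)) (nd (nat_lit 292) (nat_lit 0) (cs (rf (nat_lit 10)) (cs (nd (nat_lit 298) (nat_lit 0) (cs (lf (nat_lit 29) (nat_lit 231)) (nd (nat_lit 295) (nat_lit 0) (cs (lf (nat_lit 29) (nat_lit 228)) (rf (nat_lit 11)))))) (nd (nat_lit 298) (nat_lit 0) (cs (lf (nat_lit 29) (nat_lit 231))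 (nd (nat_lit 273) (nat_lit 0) (cs (lf (nat_lit 2) (nat_lit 272)) (nd (nat_lit 295) (nat_lit 0) (cs (lf (nat_lit 29) (nat_lit 228)) (nd (nat_lit 314) (nat_lit 0) (cs (lf (nat_lit 11) (nat_lit 291)) (nd (nat_lit 270) (nat_lit 0) (cs (lf (nat_lit 23) (nat_lit 269)) (nd (nat_lit 249) (nat_lit 0) (cs (lf (nat_lit 33) (nat_lit 226)) (lf (nat_lit 38) (nat_lit 226))))))))))))))))))))) (nd (nat_lit 298) (nat_lit 0) (cs (lf (nat_lit 29) (nat_lit 231)) (nd (nat_lit 293) (nat_lit 0) (cs (lf (nat_lit 41) (nat_lit 227)) (nd (nat_lit 273) (nat_lit 0) (cs (lf (nat_lit 2) (nat_lit 272)) (nd (nat_lit 292) (nat_lit 0) (cs (lf (nat_lit 12) (nat_lit 269)) (nd (nat_lit 227) (nat_lit 0) (cs (lf (nat_lit 47) (nat_lit 205)) (nd (nat_lit 249) (nat_lit 0) (cs (lf (nat_lit 42) (nat_lit 227)) (nd (nat_lit 271) (nat_lit 0) (cs (lf (nat_lit 41) (nat_lit 226)) (rf (nat_lit 12)))))))))))))))))))) (nd (nat_lit 206) (nat_lit 0) (cs (rf (nat_lit 13)) (cs (rf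 (nat_lit 6)) (rf (nat_lit 14))))))))) (nd (nat_lit 298) (nat_lit 0) (cs (lf (nat_lit 29) (nat_lit 231)) (nd (nat_lit 251) (nat_lit 0) (cs (lf (nat_lit 12) (nat_lit 227)) (rf (nat_lit 5)))))))))))) (cs (nd (nat_lit 297) (nat_lit 0) (cs (lf (nat_lit 42) (nat_lit 230)) (nd (nat_lit 229) (nat_lit 0) (cs (lf (nat_lit 5) (nat_lit 228)) (nd (nat_lit 249) (nat_lit 0) (cs (lf (nat_lit 10) (nat_lit 227)) (rf (nat_lit 15)))))))) (nd (nat_lit 229) (nat_lit 0) (cs (lf (nat_lit 0) (nat_lit 227)) (nd (nat_lit 297) (nat_lit 0) (cs (lf (nat_lit 42) (nat_lit 230)) (nd (nat_lit 249) (nat_lit 0) (cs (lf (nat_lit 10) (nat_lit 227)) (rf (nat_lit 16)))))))))))) (cs (nd (nat_lit 229) (nat_lit 0) (cs (rf (nat_lit 17)) (cs (rf (nat_lit 18)) (cs (nd (nat_lit 251) (nat_lit 0) (cs (rf (nat_lit 19)) (cs (rf (nat_lit 20)) (nd (nat_lit 297) (nat_lit 0) (cs (lf (nat_lit 42) (nat_lit 230)) (rf (nat_lit 21))))))) (rf (nat_lit 22)))))) (rf (nat_lit 23))))))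 (rf (nat_lit 24)))))) q99585 (by decide +kernel)
def q99586 : Q := Q.p (nat_lit 0x800003000000000000000000000000000000000000000000000000000000000000000) (nat_lit 0x2800037c000ce00037c00050000140000000000000000000000000000000000000000000000) (nat_lit 7)
theorem c99586 : QOK q99586 := cut [q1999, q2091, q98540, q99373] ⟨c1999, c2091, c98540, c99373, trivial⟩ (nd (nat_lit 251) (nat_lit 0) (cs (rf (nat_lit 0)) (cs (rf (nat_lit 1)) (cs (rf (nat_lit 2)) (rf (nat_lit 3)))))) q99586 (by decide +kernel)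
def q99591 : Q := Q.p (nat_lit 0x800003000000000000000000000000000000000000000000000000000000000000000) (nat_lit 0x440001b0000ee00037c000ce0000fc0003c000070000000000000000000000000000000000000000000000) (nat_lit 10)
theorem c99591 : QOK q99591 := cut [q1999, q2066, q2091, q98540, q98766, q98768, q98781, q99463, q89807, q90790, q91652] ⟨c1999, c2066, c2091, c98540, c98766, c98768, c98781, c99463, c89807, c90790, c91652, trivial⟩ (nd (nat_lit 251) (nat_lit 0) (cs (rf (nat_lit 0)) (cs (rf (nat_lit 1)) (cs (rf (nat_lit 2)) (cs (rf (nat_lit 3)) (nd (nat_lit 273) (nat_lit 0) (cs (rf (nat_lit 4)) (cs (rf (nat_lit 5)) (cs (rf (nat_lit 6)) (cs (rf (nat_lit 7)) (nd (nat_lit 274) (nat_lit 0) (cs (rf (nat_lit 8)) (cs (rf (nat_lit 9)) (nd (nat_lit 254) (nat_lit 0) (cs (lf (nat_lit 6) (nat_lit 251)) (nd (nat_lit 229) (nat_lit 0) (cs (lf (nat_lit 23) (nat_lit 228)) (rf (nat_lit 10))))))))))))))))))) q99591 (by decide +kernel)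
def q99623 : Q := Q.p (nat_lit 0x800002000008000000000000000000000000000000000000000000000000000000000) (nat_lit 0xe0003be000f7c000df00077c003ec0003b0000e00002000000000000000000000000000000000000) (nat_lit 12)
theorem c99623 : QOK q99623 := cut [q26315, q87016, q86313, q86631, q97704, q97717, q24703, q54413, q87351, q2091, q24207, q98540, q79196, q98510, q95778, q56839, q97741, q99609, q98349, q98355, q98984, q99215, q11768, q99193, q82274, q98546, q98679, q97774, q85515, q79800, q97763, q12220, q80089] ⟨c26315, c87016, c86313, c86631, c97704, c97717, c24703, c54413, c87351, c2091, c24207, c98540, c79196, c98510, c95778, c56839, c97741, c99609, c98349, c98355, c98984, c99215, c11768, c99193, c82274, c98546, c98679, c97774, c85515, c79800, c97763, c12220, c80089, trivial⟩ (nd (nat_lit 232) (nat_lit 0) (cs (rf (nat_lit 0)) (cs (rf (nat_lit 1)) (cs (nd (nat_lit 252) (nat_lit 0) (cs (rf (nat_lit 2)) (cs (rf (nat_lit 3)) (cs (nd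 (nat_lit 296) (nat_lit 0) (cs (rf (nat_lit 4)) (cs (rf (nat_lit 5)) (nd (nat_lit 274) (nat_lit 0) (cs (rf (nat_lit 6)) (nd (nat_lit 295) (nat_lit 0) (cs (rf (nat_lit 7)) (nd (nat_lit 230) (nat_lit 0) (cs (lf (nat_lit 41) (nat_lit 229)) (nd (nat_lit 297) (nat_lit 0) (cs (lf (nat_lit 42) (nat_lit 230)) (rf (nat_lit 8))))))))))))) (nd (nat_lit 251) (nat_lit 0) (cs (rf (nat_lit 9)) (cs (rf (nat_lit 10)) (cs (rf (nat_lit 11)) (nd (nat_lit 254) (nat_lit 0) (cs (rf (nat_lit 12)) (cs (rf (nat_lit 13)) (nd (nat_lit 297) (nat_lit 0) (cs (lf (nat_lit 30) (nat_lit 231)) (nd (nat_lit 296) (nat_lit 0) (cs (lf (nat_lit 41) (nat_lit 230)) (nd (nat_lit 274) (nat_lit 0) (cs (lf (nat_lit 36) (nat_lit 208)) (rf (nat_lit 14))))))))))))))))))) (nd (nat_lit 274) (nat_lit 0) (cs (rf (nat_lit 15)) (cs (rf (nat_lit 16)) (cs (rf (nat_lit 17)) (cs (nd (nat_lit 273) (nat_lit 0) (cs (rf (nat_lit 18)) (cs (rf (nat_lit 19)) (cs (rf (nat_lit 20)) (cs (rf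 (nat_lit 21)) (nd (nat_lit 251) (nat_lit 0) (cs (rf (nat_lit 22)) (cs (rf (nat_lit 23)) (nd (nat_lit 252) (nat_lit 0) (cs (rf (nat_lit 24)) (cs (rf (nat_lit 25)) (rf (nat_lit 26))))))))))))) (nd (nat_lit 254) (nat_lit 0) (cs (nd (nat_lit 188) (nat_lit 0) (cs (lf (nat_lit 37) (nat_lit 187)) (rf (nat_lit 27)))) (cs (nd (nat_lit 210) (nat_lit 0) (cs (rf (nat_lit 28)) (nd (nat_lit 211) (nat_lit 0) (cs (rf (nat_lit 29)) (cs (rf (nat_lit 30)) (nd (nat_lit 189) (nat_lit 0) (cs (lf (nat_lit 30) (nat_lit 188)) (nd (nat_lit 145) (nat_lit 0) (cs (lf (nat_lit 37) (nat_lit 144)) (nd (nat_lit 230) (nat_lit 0) (cs (lf (nat_lit 12) (nat_lit 207)) (rf (nat_lit 31))))))))))))) (nd (nat_lit 273) (nat_lit 0) (cs (lf (nat_lit 12) (nat_lit 250)) (nd (nat_lit 252) (nat_lit 0) (cs (rf (nat_lit 32)) (lf (nat_lit 6) (nat_lit 251)))))))))))))))))) q99623 (by decide +kernel)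
def q99767 : Q := Q.p (nat_lit 0x800002000000000000000000000000000000000000000000000000000000000000000) (nat_lit 0x100001e0003fe001ffc003fe001f7c000df0003b0000780001c0000500000000000000000000000000000000000000000) (nat_lit 13)
theorem c99767 : QOK q99767 := cut [q99274, q99680, q99681, q99682, q99693, q90752, q99694, q23012, q99215, q15634, q90838, q23013, q22076, q99706, q81192, q97774, q95631, q11666, q11728, q11708, q11779, q23401, q23308, q99722, q99724, q28308, q99736, q94166, q98129, q2583, q2591, q2605, q99750, q2579, q99749, q99754, q99765] ⟨c99274, c99680, c99681, c99682, c99693, c90752, c99694, c23012, c99215, c15634, c90838, c23013, c22076, c99706, c81192, c97774, c95631, c11666, c11728, c11708, c11779, c23401, c23308, c99722, c99724, c28308, c99736, c94166, c98129, c2583, c2591, c2605, c99750, c2579, c99749, c99754, c99765, trivial⟩ (nd (nat_lit 297) (nat_lit 0) (cs (rf (nat_lit 0)) (cs (rf (nat_lit 1)) (cs (rf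 (nat_lit 2)) (cs (rf (nat_lit 3)) (cs (rf (nat_lit 4)) (cs (nd (nat_lit 296) (nat_lit 0) (cs (rf (nat_lit 5)) (cs (rf (nat_lit 6)) (cs (nd (nat_lit 274) (nat_lit 0) (cs (nd (nat_lit 273) (nat_lit 0) (cs (rf (nat_lit 7)) (cs (rf (nat_lit 8)) (nd (nat_lit 276) (nat_lit 0) (cs (rf (nat_lit 9)) (cs (rf (nat_lit 10)) (nd (nat_lit 295) (nat_lit 0) (cs (lf (nat_lit 12) (nat_lit 272)) (nd (nat_lit 250) (nat_lit 0) (cs (lf (nat_lit 22) (nat_lit 250)) (nd (nat_lit 209) (nat_lit 0) (cs (lf (nat_lit 37) (nat_lit 208)) (rf (nat_lit 11)))))))))))))) (cs (nd (nat_lit 231) (nat_lit 0) (cs (lf (nat_lit 36) (nat_lit 208)) (nd (nat_lit 232) (nat_lit 0) (cs (lf (nat_lit 35) (nat_lit 209)) (nd (nat_lit 254) (nat_lit 0) (cs (lf (nat_lit 30) (nat_lit 231)) (nd (nat_lit 273) (nat_lit 0) (cs (lf (nat_lit 12) (nat_lit 250)) (nd (nat_lit 276) (nat_lit 0) (cs (rf (nat_lit 12)) (lf (nat_lit 17) (nat_lit 251)))))))))))) (cs (nd (nat_lit 231) (nat_lit 0)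 (cs (lf (nat_lit 36) (nat_lit 208)) (rf (nat_lit 13)))) (nd (nat_lit 254) (nat_lit 0) (cs (rf (nat_lit 14)) (cs (rf (nat_lit 15)) (nd (nat_lit 232) (nat_lit 0) (cs (lf (nat_lit 30) (nat_lit 231)) (nd (nat_lit 188) (nat_lit 0) (cs (lf (nat_lit 37) (nat_lit 187)) (nd (nat_lit 273) (nat_lit 0) (cs (lf (nat_lit 12) (nat_lit 250)) (nd (nat_lit 252) (nat_lit 0) (cs (lf (nat_lit 6) (nat_lit 251)) (nd (nat_lit 251) (nat_lit 0) (cs (lf (nat_lit 17) (nat_lit 229)) (rf (nat_lit 16))))))))))))))))))) (nd (nat_lit 295) (nat_lit 0) (cs (rf (nat_lit 17)) (cs (rf (nat_lit 18)) (cs (nd (nat_lit 298) (nat_lit 0) (cs (rf (nat_lit 19)) (cs (rf (nat_lit 20)) (cs (rf (nat_lit 21)) (cs (nd (nat_lit 319) (nat_lit 0) (cs (nd (nat_lit 318) (nat_lit 0) (cs (lf (nat_lit 41) (nat_lit 252)) (nd (nat_lit 316) (nat_lit 0) (cs (lf (nat_lit 13) (nat_lit 294)) (nd (nat_lit 254) (nat_lit 0) (cs (lf (nat_lit 35) (nat_lit 231)) (nd (nat_lit 276) (nat_lit 0) (cs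 (lf (nat_lit 17) (nat_lit 273)) (nd (nat_lit 273) (nat_lit 0) (cs (lf (nat_lit 23) (nat_lit 272)) (nd (nat_lit 274) (nat_lit 0) (cs (rf (nat_lit 22)) (lf (nat_lit 17) (nat_lit 251)))))))))))))) (cs (nd (nat_lit 272) (nat_lit 0) (cs (lf (nat_lit 22) (nat_lit 272)) (rf (nat_lit 23)))) (nd (nat_lit 276) (nat_lit 0) (cs (lf (nat_lit 17) (nat_lit 273)) (rf (nat_lit 24))))))) (nd (nat_lit 276) (nat_lit 0) (cs (lf (nat_lit 17) (nat_lit 273)) (rf (nat_lit 25))))))))) (rf (nat_lit 26)))))))))) (cs (nd (nat_lit 319) (nat_lit 0) (cs (rf (nat_lit 27)) (cs (rf (nat_lit 28)) (nd (nat_lit 318) (nat_lit 0) (cs (lf (nat_lit 41) (nat_lit 252)) (nd (nat_lit 317) (nat_lit 0) (cs (rf (nat_lit 29)) (cs (rf (nat_lit 30)) (rf (nat_lit 31)))))))))) (cs (rf (nat_lit 32)) (nd (nat_lit 319) (nat_lit 0) (cs (rf (nat_lit 33)) (cs (rf (nat_lit 34)) (cs (nd (nat_lit 342) (nat_lit 0) (cs (lf (nat_lit 28) (nat_lit 253)) (nd (nat_lit 341) (nat_lit 0) (cs (lf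 (nat_lit 29) (nat_lit 275)) (nd (nat_lit 340) (nat_lit 0) (cs (lf (nat_lit 41) (nat_lit 274)) (rf (nat_lit 35)))))))) (cs (nd (nat_lit 340) (nat_lit 0) (cs (lf (nat_lit 40) (nat_lit 252)) (nd (nat_lit 341) (nat_lit 0) (cs (lf (nat_lit 41) (nat_lit 274)) (nd (nat_lit 342) (nat_lit 0) (cs (lf (nat_lit 29) (nat_lit 275)) (rf (nat_lit 35)))))))) (rf (nat_lit 36)))))))))))))))) q99767 (by decide +kernel)
def q99906 : Q := Q.p (nat_lit 0x1800002000000000000000000000000000000000000000000000000000000000000000) (nat_lit 0x40000700001f8001fe0007dc000e70000dc000f80003e0000000000000000000000000000000000000000000000000000) (nat_lit 15)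
theorem c99906 : QOK q99906 := cut [q16715, q99782, q99842, q99845, q81362, q99846, q79786, q99841, q53462, q94411, q99857, q99867, q99901, q99905] ⟨c16715, c99782, c99842, c99845, c81362, c99846, c79786, c99841, c53462, c94411, c99857, c99867, c99901, c99905, trivial⟩ (nd (nat_lit 277) (nat_lit 0) (cs (rf (nat_lit 0)) (cs (rf (nat_lit 1)) (cs (nd (nat_lit 299) (nat_lit 0) (cs (rf (nat_lit 2)) (cs (rf (nat_lit 3)) (cs (nd (nat_lit 254) (nat_lit 0) (cs (rf (nat_lit 4)) (cs (rf (nat_lit 5)) (cs (nd (nat_lit 321) (nat_lit 0) (cs (lf (nat_lit 42) (nat_lit 254)) (nd (nat_lit 274) (nat_lit 0) (cs (rf (nat_lit 6)) (cs (rf (nat_lit 7)) (nd (nat_lit 278) (nat_lit 0) (cs (lf (nat_lit 18) (nat_lit 253)) (nd (nat_lit 296) (nat_lit 0) (cs (lf (nat_lit 11) (nat_lit 273)) (nd (nat_lit 340) (nat_lit 0) (cs (lf (nat_lit 31) (nat_lit 252)) (nd (nat_lit 231) (nat_lit 0) (cs (lf (nat_lit 36) (nat_lit 208)) (nd (nat_lit 320) (nat_lit 0) (cs (lf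 (nat_lit 43) (nat_lit 231)) (nd (nat_lit 342) (nat_lit 0) (cs (lf (nat_lit 36) (nat_lit 254)) (nd (nat_lit 364) (nat_lit 0) (cs (lf (nat_lit 30) (nat_lit 298)) (rf (nat_lit 8))))))))))))))))))))) (nd (nat_lit 298) (nat_lit 0) (cs (rf (nat_lit 9)) (cs (nd (nat_lit 278) (nat_lit 0) (cs (lf (nat_lit 18) (nat_lit 253)) (nd (nat_lit 273) (nat_lit 0) (cs (lf (nat_lit 1) (nat_lit 273)) (nd (nat_lit 231) (nat_lit 0) (cs (lf (nat_lit 24) (nat_lit 209)) (nd (nat_lit 232) (nat_lit 0) (cs (lf (nat_lit 24) (nat_lit 210)) (rf (nat_lit 10)))))))))) (nd (nat_lit 210) (nat_lit 0) (cs (lf (nat_lit 25) (nat_lit 210)) (nd (nat_lit 278) (nat_lit 0) (cs (lf (nat_lit 18) (nat_lit 253)) (rf (nat_lit 11))))))))))))) (rf (nat_lit 12)))))) (rf (nat_lit 13)))))) q99906 (by decide +kernel)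
def q100143 : Q := Q.p (nat_lit 0x1800002000000000000000000000000000000000000000000000000000000000000000) (nat_lit 0x700001f0001fe0007e0000e7000edc001f80007e0000300000400000000000000000000000000000000000000000) (nat_lit 15)
theorem c100143 : QOK q100143 := cut [q16715, q99782, q100120, q99901, q100091, q100121, q15512, q99922, q100111, q100075, q98845, q99091, q100065] ⟨c16715, c99782, c100120, c99901, c100091, c100121, c15512, c99922, c100111, c100075, c98845, c99091, c100065, trivial⟩ (nd (nat_lit 277) (nat_lit 0) (cs (rf (nat_lit 0)) (cs (rf (nat_lit 1)) (cs (rf (nat_lit 2)) (nd (nat_lit 299) (nat_lit 0) (cs (rf (nat_lit 3)) (cs (rf (nat_lit 4)) (cs (nd (nat_lit 274) (nat_lit 0) (cs (lf (nat_lit 5) (nat_lit 274)) (rf (nat_lit 5)))) (nd (nat_lit 298) (nat_lit 0) (cs (rf (nat_lit 6)) (cs (rf (nat_lit 7)) (cs (nd (nat_lit 232) (nat_lit 0) (cs (rf (nat_lit 8)) (cs (nd (nat_lit 273) (nat_lit 0) (cs (lf (nat_lit 1) (nat_lit 273))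 (nd (nat_lit 231) (nat_lit 0) (cs (lf (nat_lit 24) (nat_lit 209)) (nd (nat_lit 210) (nat_lit 0) (cs (lf (nat_lit 30) (nat_lit 209)) (nd (nat_lit 166) (nat_lit 0) (cs (lf (nat_lit 37) (nat_lit 165)) (nd (nat_lit 233) (nat_lit 0) (cs (lf (nat_lit 44) (nat_lit 210)) (nd (nat_lit 234) (nat_lit 0) (cs (lf (nat_lit 11) (nat_lit 230)) (nd (nat_lit 213) (nat_lit 0) (cs (lf (nat_lit 16) (nat_lit 209)) (nd (nat_lit 235) (nat_lit 0) (cs (lf (nat_lit 17) (nat_lit 210)) (nd (nat_lit 236) (nat_lit 0) (cs (nd (nat_lit 258) (nat_lit 0) (cs (lf (nat_lit 5) (nat_lit 233)) (lf (nat_lit 4) (nat_lit 232)))) (lf (nat_lit 22) (nat_lit 210)))))))))))))))))))) (nd (nat_lit 209) (nat_lit 0) (cs (lf (nat_lit 25) (nat_lit 209)) (nd (nat_lit 254) (nat_lit 0) (cs (lf (nat_lit 29) (nat_lit 232)) (nd (nat_lit 297) (nat_lit 0) (cs (lf (nat_lit 41) (nat_lit 231)) (nd (nat_lit 252) (nat_lit 0) (cs (lf (nat_lit 0) (nat_lit 251)) (nd (nat_lit 273) (nat_lit 0)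 (cs (lf (nat_lit 1) (nat_lit 273)) (rf (nat_lit 9))))))))))))))) (nd (nat_lit 254) (nat_lit 0) (cs (rf (nat_lit 10)) (cs (rf (nat_lit 11)) (rf (nat_lit 12))))))))))))))))) q100143 (by decide +kernel)
def q100270 : Q := Q.p (nat_lit 0x1800003000000000000000000000000000000000000000000000000000000000000000) (nat_lit 0x500003f80007e0001be000678000c00000f8000380000e0000000000000000000000000000000000000000000000) (nat_lit 14)
theorem c100270 : QOK q100270 := cut [q79078, q99497, q98946, q99844, q12665, q87021, q13628, q100248, q11506, q98862, q87352, q98730, q100265] ⟨c79078, c99497, c98946, c99844, c12665, c87021, c13628, c100248, c11506, c98862, c87352, c98730, c100265, trivial⟩ (nd (nat_lit 230) (nat_lit 0) (cs (rf (nat_lit 0)) (cs (rf (nat_lit 1)) (cs (nd (nat_lit 277) (nat_lit 0) (cs (lf (nat_lit 18) (nat_lit 252)) (nd (nat_lit 274) (nat_lit 0) (cs (rf (nat_lit 2)) (cs (rf (nat_lit 3)) (cs (nd (nat_lit 273) (nat_lit 0) (cs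 (rf (nat_lit 4)) (cs (rf (nat_lit 5)) (nd (nat_lit 299) (nat_lit 0) (cs (lf (nat_lit 5) (nat_lit 274)) (nd (nat_lit 319) (nat_lit 0) (cs (lf (nat_lit 43) (nat_lit 230)) (nd (nat_lit 321) (nat_lit 0) (cs (nd (nat_lit 254) (nat_lit 0) (cs (lf (nat_lit 42) (nat_lit 254)) (lf (nat_lit 6) (nat_lit 251)))) (cs (nd (nat_lit 339) (nat_lit 0) (cs (nd (nat_lit 295) (nat_lit 0) (cs (lf (nat_lit 11) (nat_lit 272)) (lf (nat_lit 31) (nat_lit 251)))) (nd (nat_lit 255) (nat_lit 0) (cs (lf (nat_lit 16) (nat_lit 251)) (nd (nat_lit 322) (nat_lit 0) (cs (lf (nat_lit 29) (nat_lit 255)) (nd (nat_lit 320) (nat_lit 0) (cs (lf (nat_lit 41) (nat_lit 254)) (nd (nat_lit 340) (nat_lit 0) (cs (lf (nat_lit 10) (nat_lit 318)) (lf (nat_lit 9) (nat_lit 317)))))))))))) (cs (nd (nat_lit 343) (nat_lit 0) (cs (rf (nat_lit 6)) (cs (nd (nat_lit 295) (nat_lit 0) (cs (lf (nat_lit 11) (nat_lit 272)) (nd (nat_lit 317) (nat_lit 0) (cs (lf (nat_lit 30) (nat_lit 251))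 (nd (nat_lit 342) (nat_lit 0) (cs (lf (nat_lit 41) (nat_lit 276)) (nd (nat_lit 320) (nat_lit 0) (cs (lf (nat_lit 36) (nat_lit 254)) (lf (nat_lit 1) (nat_lit 317)))))))))) (cs (nd (nat_lit 344) (nat_lit 0) (cs (lf (nat_lit 29) (nat_lit 277)) (nd (nat_lit 322) (nat_lit 0) (cs (lf (nat_lit 24) (nat_lit 255)) (nd (nat_lit 320) (nat_lit 0) (cs (lf (nat_lit 5) (nat_lit 319)) (lf (nat_lit 0) (nat_lit 318)))))))) (cs (nd (nat_lit 294) (nat_lit 0) (cs (lf (nat_lit 10) (nat_lit 272)) (nd (nat_lit 344) (nat_lit 0) (cs (lf (nat_lit 29) (nat_lit 277)) (nd (nat_lit 322) (nat_lit 0) (cs (lf (nat_lit 24) (nat_lit 255)) (nd (nat_lit 342) (nat_lit 0) (cs (lf (nat_lit 41) (nat_lit 276)) (nd (nat_lit 341) (nat_lit 0) (cs (lf (nat_lit 12) (nat_lit 318)) (lf (nat_lit 23) (nat_lit 318)))))))))))) (nd (nat_lit 342) (nat_lit 0) (cs (lf (nat_lit 41) (nat_lit 276)) (nd (nat_lit 294) (nat_lit 0) (cs (lf (nat_lit 10) (nat_lit 272)) (rf (nat_lit 7)))))))))))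 (nd (nat_lit 294) (nat_lit 0) (cs (lf (nat_lit 10) (nat_lit 272)) (nd (nat_lit 343) (nat_lit 0) (cs (lf (nat_lit 47) (nat_lit 254)) (nd (nat_lit 342) (nat_lit 0) (cs (lf (nat_lit 41) (nat_lit 276)) (rf (nat_lit 7))))))))))))))))))) (nd (nat_lit 296) (nat_lit 0) (cs (rf (nat_lit 8)) (cs (rf (nat_lit 9)) (nd (nat_lit 299) (nat_lit 0) (cs (lf (nat_lit 5) (nat_lit 274)) (nd (nat_lit 231) (nat_lit 0) (cs (lf (nat_lit 36) (nat_lit 208)) (rf (nat_lit 10))))))))))))))) (nd (nat_lit 274) (nat_lit 0) (cs (rf (nat_lit 11)) (cs (nd (nat_lit 277) (nat_lit 0) (cs (lf (nat_lit 18) (nat_lit 252)) (rf (nat_lit 3)))) (nd (nat_lit 277) (nat_lit 0) (cs (lf (nat_lit 18) (nat_lit 252)) (nd (nat_lit 208) (nat_lit 0) (cs (lf (nat_lit 24) (nat_lit 186)) (nd (nat_lit 299) (nat_lit 0) (cs (lf (nat_lit 5) (nat_lit 274)) (rf (nat_lit 12))))))))))))))) q100270 (by decide +kernel)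
def q100355 : Q := Q.p (nat_lit 0x1800003000000000000000000000000000000000000000000000000000000000000000) (nat_lit 0x380000e0001de000670000c00000f8000380000e0000000000000000000000000000000000000000000000) (nat_lit 9)
theorem c100355 : QOK q100355 := cut [q98464, q98467, q99772] ⟨c98464, c98467, c99772, trivial⟩ (nd (nat_lit 274) (nat_lit 0) (cs (rf (nat_lit 0)) (cs (rf (nat_lit 1)) (nd (nat_lit 277) (nat_lit 0) (cs (lf (nat_lit 18) (nat_lit 252)) (rf (nat_lit 2))))))) q100355 (by decide +kernel)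
def q100434 : Q := Q.p (nat_lit 0x1800002000000000000000000000000000000000000000000000000000000000000000) (nat_lit 0x40000f80007e0007ec00067c000df0007fc001be0001e0000780001000000000000000000000000000000000000) (nat_lit 14)
theorem c100434 : QOK q100434 := cut [q88742, q88915, q90494, q88933, q88941, q88936, q100321, q100348, q90634, q100417, q21908, q99476, q2545, q100337, q100363, q99818, q92800, q92239, q80845] ⟨c88742, c88915, c90494, c88933, c88941, c88936, c100321, c100348, c90634, c100417, c21908, c99476, c2545, c100337, c100363, c99818, c92800, c92239, c80845, trivial⟩ (nd (nat_lit 252) (nat_lit 0) (cs (rf (nat_lit 0)) (cs (rf (nat_lit 1)) (cs (rf (nat_lit 2)) (cs (nd (nat_lit 297) (nat_lit 0) (cs (rf (nat_lit 3)) (cs (rf (nat_lit 4)) (cs (nd (nat_lit 231) (nat_lit 0) (cs (rf (nat_lit 5)) (cs (rf (nat_lit 6)) (cs (rf (nat_lit 7)) (cs (nd (nat_lit 277) (nat_lit 0) (cs (lf (nat_lit 18) (nat_lit 252)) (nd (nat_lit 208)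 (nat_lit 0) (cs (lf (nat_lit 46) (nat_lit 208)) (nd (nat_lit 209) (nat_lit 0) (cs (lf (nat_lit 47) (nat_lit 186)) (rf (nat_lit 8)))))))) (rf (nat_lit 9))))))) (nd (nat_lit 319) (nat_lit 0) (cs (rf (nat_lit 10)) (cs (rf (nat_lit 11)) (nd (nat_lit 277) (nat_lit 0) (cs (lf (nat_lit 18) (nat_lit 252)) (nd (nat_lit 320) (nat_lit 0) (cs (lf (nat_lit 29) (nat_lit 253)) (nd (nat_lit 298) (nat_lit 0) (cs (lf (nat_lit 24) (nat_lit 231)) (nd (nat_lit 232) (nat_lit 0) (cs (rf (nat_lit 12)) (lf (nat_lit 37) (nat_lit 231))))))))))))))))) (nd (nat_lit 231) (nat_lit 0) (cs (rf (nat_lit 6)) (cs (rf (nat_lit 13)) (cs (rf (nat_lit 7)) (cs (rf (nat_lit 14)) (nd (nat_lit 254) (nat_lit 0) (cs (rf (nat_lit 15)) (cs (nd (nat_lit 209) (nat_lit 0) (cs (lf (nat_lit 24) (nat_lit 187)) (nd (nat_lit 208) (nat_lit 0) (cs (lf (nat_lit 47) (nat_lit 186)) (nd (nat_lit 230) (nat_lit 0) (cs (lf (nat_lit 42) (nat_lit 208)) (rf (nat_lit 16)))))))) (cs (nd (nat_lit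 187) (nat_lit 0) (cs (lf (nat_lit 25) (nat_lit 187)) (nd (nat_lit 251) (nat_lit 0) (cs (lf (nat_lit 0) (nat_lit 250)) (rf (nat_lit 17)))))) (nd (nat_lit 250) (nat_lit 0) (cs (lf (nat_lit 1) (nat_lit 250)) (nd (nat_lit 209) (nat_lit 0) (cs (lf (nat_lit 24) (nat_lit 187)) (rf (nat_lit 18)))))))))))))))))))) q100434 (by decide +kernel)
def q100610 : Q := Q.p (nat_lit 0x1800002000000000000000000000000000000000000000000000000000000000000000) (nat_lit 0x400007c0001f0001fd8007e6003e7800edf0002f8001ff0001f00005c0000000000000000000000000000000000000000) (nat_lit 18)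
theorem c100610 : QOK q100610 := cut [q16715, q99782, q15512, q99922, q99836, q100095, q100208, q14020, q100513, q15559, q99779, q100094, q100609] ⟨c16715, c99782, c15512, c99922, c99836, c100095, c100208, c14020, c100513, c15559, c99779, c100094, c100609, trivial⟩ (nd (nat_lit 277) (nat_lit 0) (cs (rf (nat_lit 0)) (cs (rf (nat_lit 1)) (cs (nd (nat_lit 298) (nat_lit 0) (cs (rf (nat_lit 2)) (cs (rf (nat_lit 3)) (cs (nd (nat_lit 300) (nat_lit 0) (cs (rf (nat_lit 4)) (cs (rf (nat_lit 5)) (nd (nat_lit 299) (nat_lit 0) (cs (rf (nat_lit 6)) (nd (nat_lit 322) (nat_lit 0) (cs (rf (nat_lit 7)) (nd (nat_lit 209) (nat_lit 0) (cs (lf (nat_lit 25) (nat_lit 209)) (nd (nat_lit 297) (nat_lit 0) (cs (lf (nat_lit 5) (nat_lit 297)) (nd (nat_lit 319) (nat_lit 0) (cs (lf (nat_lit 11) (nat_lit 296)) (rf (nat_lit 8))))))))))))))) (nd (nat_lit 320) (nat_lit 0) (cs (lf (nat_lit 42) (nat_lit 253)) (nd (nat_lit 278) (nat_lit 0) (cs (rf (nat_lit 9))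 (cs (rf (nat_lit 10)) (cs (rf (nat_lit 11)) (nd (nat_lit 300) (nat_lit 0) (cs (lf (nat_lit 5) (nat_lit 275)) (nd (nat_lit 299) (nat_lit 0) (cs (lf (nat_lit 0) (nat_lit 274)) (nd (nat_lit 255) (nat_lit 0) (cs (lf (nat_lit 36) (nat_lit 232)) (nd (nat_lit 322) (nat_lit 0) (cs (lf (nat_lit 42) (nat_lit 255)) (nd (nat_lit 297) (nat_lit 0) (cs (lf (nat_lit 5) (nat_lit 297)) (nd (nat_lit 319) (nat_lit 0) (cs (lf (nat_lit 11) (nat_lit 296)) (nd (nat_lit 341) (nat_lit 0) (cs (lf (nat_lit 30) (nat_lit 275)) (lf (nat_lit 36) (nat_lit 253)))))))))))))))))))))))))) (rf (nat_lit 12)))))) q100610 (by decide +kernel)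
def q100635 : Q := Q.p (nat_lit 0x1800002000000000000000000000000000000000000000000000000000000000000000) (nat_lit 0x200000c80007a0003fe003e7800edc0002f800038000060000000000000000000000000000000000000000000000) (nat_lit 13)
theorem c100635 : QOK q100635 := cut [q16715, q99782, q100443, q15512, q99922, q235, q97549, q98690, q99772, q100487, q98471, q98863, q100619, q98694, q99844, q100444] ⟨c16715, c99782, c100443, c15512, c99922, c235, c97549, c98690, c99772, c100487, c98471, c98863, c100619, c98694, c99844, c100444, trivial⟩ (nd (nat_lit 277) (nat_lit 0) (cs (rf (nat_lit 0)) (cs (rf (nat_lit 1)) (cs (rf (nat_lit 2)) (nd (nat_lit 298) (nat_lit 0) (cs (rf (nat_lit 3)) (cs (rf (nat_lit 4)) (cs (nd (nat_lit 252) (nat_lit 0) (cs (rf (nat_lit 5)) (cs (rf (nat_lit 6)) (nd (nat_lit 274) (nat_lit 0) (cs (rf (nat_lit 7)) (cs (rf (nat_lit 8)) (cs (rf (nat_lit 9)) (nd (nat_lit 230) (nat_lit 0) (cs (rf (nat_lit 10)) (cs (rf (nat_lit 11))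 (nd (nat_lit 209) (nat_lit 0) (cs (lf (nat_lit 25) (nat_lit 209)) (nd (nat_lit 296) (nat_lit 0) (cs (lf (nat_lit 11) (nat_lit 273)) (nd (nat_lit 297) (nat_lit 0) (cs (lf (nat_lit 29) (nat_lit 230)) (nd (nat_lit 299) (nat_lit 0) (cs (lf (nat_lit 5) (nat_lit 274)) (nd (nat_lit 207) (nat_lit 0) (cs (lf (nat_lit 46) (nat_lit 207)) (rf (nat_lit 12)))))))))))))))))))))) (nd (nat_lit 320) (nat_lit 0) (cs (lf (nat_lit 42) (nat_lit 253)) (nd (nat_lit 274) (nat_lit 0) (cs (rf (nat_lit 13)) (cs (rf (nat_lit 8)) (cs (rf (nat_lit 14)) (nd (nat_lit 297) (nat_lit 0) (cs (rf (nat_lit 15)) (nd (nat_lit 296) (nat_lit 0) (cs (lf (nat_lit 12) (nat_lit 273)) (nd (nat_lit 299) (nat_lit 0) (cs (lf (nat_lit 5) (nat_lit 274)) (nd (nat_lit 233) (nat_lit 0) (cs (lf (nat_lit 37) (nat_lit 232)) (rf (nat_lit 12)))))))))))))))))))))))) q100635 (by decide +kernel)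
def q100656 : Q := Q.p (nat_lit 0x800003800004000000000000000000000000000000000000000000000000000000000) (nat_lit 0x40000100001d8000778000000000bc001ff0001f0000000000000000000000000000000000000000000000) (nat_lit 13)
theorem c100656 : QOK q100656 := cut [q22313, q90531, q100649, q100654] ⟨c22313, c90531, c100649, c100654, trivial⟩ (nd (nat_lit 208) (nat_lit 0) (cs (lf (nat_lit 24) (nat_lit 186)) (nd (nat_lit 274) (nat_lit 0) (cs (rf (nat_lit 0)) (cs (rf (nat_lit 1)) (cs (rf (nat_lit 2)) (rf (nat_lit 3)))))))) q100656 (by decide +kernel)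
def q100758 : Q := Q.p (nat_lit 0x800002000000000000000000000000000000000000000000000000000000000000000) (nat_lit 0x140003fe000ffc003fe001f7c000dc0007e00007c0000c0000700001c00005000000000000000000000000000000) (nat_lit 14)
theorem c100758 : QOK q100758 := cut [q99236, q99247, q99274, q99283, q90752, q91137, q11666, q11728, q99736, q11778, q23400, q15058, q100737, q90750, q99678, q79735, q88936, q98797, q99665, q79188, q98795, q100749, q100751, q100756] ⟨c99236, c99247, c99274, c99283, c90752, c91137, c11666, c11728, c99736, c11778, c23400, c15058, c100737, c90750, c99678, c79735, c88936, c98797, c99665, c79188, c98795, c100749, c100751, c100756, trivial⟩ (nd (nat_lit 297) (nat_lit 0) (cs (rf (nat_lit 0)) (cs (rf (nat_lit 1)) (cs (rf (nat_lit 2)) (cs (rf (nat_lit 3)) (cs (nd (nat_lit 296) (nat_lit 0) (cs (rf (nat_lit 4)) (cs (nd (nat_lit 231) (nat_lit 0) (cs (lf (nat_lit 41) (nat_lit 230)) (nd (nat_lit 210) (nat_lit 0) (cs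 (lf (nat_lit 34) (nat_lit 209)) (rf (nat_lit 5)))))) (cs (nd (nat_lit 295) (nat_lit 0) (cs (rf (nat_lit 6)) (cs (rf (nat_lit 7)) (cs (rf (nat_lit 8)) (nd (nat_lit 298) (nat_lit 0) (cs (rf (nat_lit 9)) (cs (rf (nat_lit 10)) (cs (nd (nat_lit 276) (nat_lit 0) (cs (lf (nat_lit 17) (nat_lit 273)) (rf (nat_lit 11)))) (nd (nat_lit 272) (nat_lit 0) (cs (lf (nat_lit 22) (nat_lit 272)) (nd (nat_lit 276) (nat_lit 0) (cs (lf (nat_lit 17) (nat_lit 273)) (nd (nat_lit 320) (nat_lit 0) (cs (lf (nat_lit 42) (nat_lit 253)) (rf (nat_lit 12)))))))))))))))) (nd (nat_lit 298) (nat_lit 0) (cs (rf (nat_lit 13)) (cs (rf (nat_lit 14)) (nd (nat_lit 231) (nat_lit 0) (cs (lf (nat_lit 29) (nat_lit 231)) (nd (nat_lit 210) (nat_lit 0) (cs (lf (nat_lit 34) (nat_lit 209)) (rf (nat_lit 15))))))))))))) (cs (nd (nat_lit 231) (nat_lit 0) (cs (rf (nat_lit 16)) (cs (rf (nat_lit 17)) (rf (nat_lit 18))))) (nd (nat_lit 231) (nat_lit 0) (cs (rf (nat_lit 19)) (cs (rf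 (nat_lit 20)) (cs (rf (nat_lit 21)) (cs (nd (nat_lit 208) (nat_lit 0) (cs (lf (nat_lit 46) (nat_lit 208)) (nd (nat_lit 232) (nat_lit 0) (cs (lf (nat_lit 35) (nat_lit 209)) (rf (nat_lit 22)))))) (rf (nat_lit 23)))))))))))))) q100758 (by decide +kernel)
def q100797 : Q := Q.p (nat_lit 0x800003000000000000000000000000000000000000000000000000000000000000000) (nat_lit 0x100002c000078000cf0007f8001fe0001e0000300000800000000000000000000000000000000000) (nat_lit 10)
theorem c100797 : QOK q100797 := cut [q99584, q83723, q94114, q87919, q100775, q99573, q82179, q87924, q100793, q97957, q99567, q100796] ⟨c99584, c83723, c94114, c87919, c100775, c99573, c82179, c87924, c100793, c97957, c99567, c100796, trivial⟩ (nd (nat_lit 230) (nat_lit 0) (cs (rf (nat_lit 0)) (cs (nd (nat_lit 229) (nat_lit 0) (cs (rf (nat_lit 1)) (cs (rf (nat_lit 2)) (cs (nd (nat_lit 251) (nat_lit 0) (cs (nd (nat_lit 231) (nat_lit 0) (cs (rf (nat_lit 3)) (nd (nat_lit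 232) (nat_lit 0) (cs (lf (nat_lit 6) (nat_lit 229)) (rf (nat_lit 4)))))) (cs (nd (nat_lit 254) (nat_lit 0) (cs (lf (nat_lit 18) (nat_lit 229)) (rf (nat_lit 5)))) (cs (nd (nat_lit 254) (nat_lit 0) (cs (lf (nat_lit 18) (nat_lit 229)) (nd (nat_lit 232) (nat_lit 0) (cs (lf (nat_lit 17) (nat_lit 229)) (nd (nat_lit 272) (nat_lit 0) (cs (lf (nat_lit 10) (nat_lit 250)) (nd (nat_lit 210) (nat_lit 0) (cs (lf (nat_lit 36) (nat_lit 187)) (nd (nat_lit 231) (nat_lit 0) (cs (lf (nat_lit 30) (nat_lit 209)) (lf (nat_lit 17) (nat_lit 207)))))))))))) (nd (nat_lit 254) (nat_lit 0) (cs (lf (nat_lit 18) (nat_lit 229)) (nd (nat_lit 272) (nat_lit 0) (cs (lf (nat_lit 10) (nat_lit 250)) (nd (nat_lit 250) (nat_lit 0) (cs (lf (nat_lit 11) (nat_lit 249)) (nd (nat_lit 249) (nat_lit 0) (cs (lf (nat_lit 12) (nat_lit 226)) (lf (nat_lit 4) (nat_lit 249)))))))))))))) (nd (nat_lit 228) (nat_lit 0) (cs (lf (nat_lit 0) (nat_lit 227)) (nd (nat_lit 231) (nat_lit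 0) (cs (rf (nat_lit 6)) (rf (nat_lit 7)))))))))) (cs (rf (nat_lit 8)) (cs (nd (nat_lit 231) (nat_lit 0) (cs (rf (nat_lit 9)) (rf (nat_lit 10)))) (rf (nat_lit 11))))))) q100797 (by decide +kernel)
def q100830 : Q := Q.p (nat_lit 0x800002000000000000000000000000000000000000000000000000000000000000000) (nat_lit 0x200001c000078000770000df000ffe003ff8007fc000500000000000000000000000000000000000000000) (nat_lit 14)
theorem c100830 : QOK q100830 := cut [q98318, q97956, q97957, q96758, q96769, q96836, q98320, q98323, q98327, q98294, q98344, q98347, q81901, q98315, q98360, q79188, q82063, q88936, q98362, q98370, q98372, q98809] ⟨c98318, c97956, c97957, c96758, c96769, c96836, c98320, c98323, c98327, c98294, c98344, c98347, c81901, c98315, c98360, c79188, c82063, c88936, c98362, c98370, c98372, c98809, trivial⟩ (nd (nat_lit 231) (nat_lit 0) (cs (rf (nat_lit 0)) (cs (nd (nat_lit 230) (nat_lit 0) (cs (rf (nat_lit 1)) (cs (rf (nat_lit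 2)) (cs (nd (nat_lit 229) (nat_lit 0) (cs (rf (nat_lit 3)) (cs (rf (nat_lit 4)) (cs (rf (nat_lit 5)) (cs (nd (nat_lit 232) (nat_lit 0) (cs (rf (nat_lit 6)) (cs (nd (nat_lit 206) (nat_lit 0) (cs (lf (nat_lit 22) (nat_lit 206)) (rf (nat_lit 7)))) (cs (nd (nat_lit 206) (nat_lit 0) (cs (lf (nat_lit 22) (nat_lit 206)) (rf (nat_lit 8)))) (nd (nat_lit 206) (nat_lit 0) (cs (lf (nat_lit 22) (nat_lit 206)) (rf (nat_lit 9)))))))) (rf (nat_lit 10))))))) (rf (nat_lit 11)))))) (cs (nd (nat_lit 209) (nat_lit 0) (cs (rf (nat_lit 12)) (cs (rf (nat_lit 13)) (rf (nat_lit 14))))) (cs (nd (nat_lit 297) (nat_lit 0) (cs (rf (nat_lit 15)) (cs (rf (nat_lit 16)) (cs (rf (nat_lit 17)) (nd (nat_lit 298) (nat_lit 0) (cs (lf (nat_lit 29) (nat_lit 231)) (nd (nat_lit 296) (nat_lit 0) (cs (lf (nat_lit 41) (nat_lit 230)) (nd (nat_lit 230) (nat_lit 0) (cs (lf (nat_lit 47) (nat_lit 208)) (nd (nat_lit 319) (nat_lit 0) (cs (lf (nat_lit 46) (nat_lit 230)) (nd (nat_lit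 254) (nat_lit 0) (cs (lf (nat_lit 35) (nat_lit 231)) (nd (nat_lit 228) (nat_lit 0) (cs (lf (nat_lit 1) (nat_lit 228)) (rf (nat_lit 18)))))))))))))))))) (cs (rf (nat_lit 19)) (cs (rf (nat_lit 20)) (rf (nat_lit 21))))))))) q100830 (by decide +kernel)
def q100902 : Q := Q.p (nat_lit 0x40000300000c000000000000000000000000000000000000000000000000000000000) (nat_lit 0x7e0001fe0003b00004000010000040000000000000000000000000000000000000000000000000000) (nat_lit 11)
theorem c100902 : QOK q100902 := cut [q91970, q92730, q92757] ⟨c91970, c92730, c92757, trivial⟩ (nd (nat_lit 275) (nat_lit 0) (cs (rf (nat_lit 0)) (cs (rf (nat_lit 1)) (cs (rf (nat_lit 2)) (nd (nat_lit 296) (nat_lit 0) (cs (lf (nat_lit 30) (nat_lit 230)) (nd (nat_lit 295) (nat_lit 0) (cs (lf (nat_lit 41) (nat_lit 229)) (nd (nat_lit 293) (nat_lit 0) (cs (lf (nat_lit 13) (nat_lit 271)) (nd (nat_lit 276) (nat_lit 0) (cs (lf (nat_lit 6) (nat_lit 273)) (nd (nat_lit 297) (nat_lit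 0) (cs (lf (nat_lit 42) (nat_lit 230)) (nd (nat_lit 298) (nat_lit 0) (cs (lf (nat_lit 29) (nat_lit 231)) (nd (nat_lit 299) (nat_lit 0) (cs (lf (nat_lit 18) (nat_lit 274)) (nd (nat_lit 321) (nat_lit 0) (cs (lf (nat_lit 5) (nat_lit 296)) (nd (nat_lit 232) (nat_lit 0) (cs (lf (nat_lit 35) (nat_lit 209)) (lf (nat_lit 25) (nat_lit 232)))))))))))))))))))))))) q100902 (by decide +kernel)
def q100944 : Q := Q.p (nat_lit 0x300000c000000000000000000000000000000000000000000000000000000000) (nat_lit 0x1300004c000378001ce0000380001e0001f80007e0000000000000000000000000000000000000000) (nat_lit 14)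
theorem c100944 : QOK q100944 := cut [q82295, q89959, q100923, q100930, q100941, q100943] ⟨c82295, c89959, c100923, c100930, c100941, c100943, trivial⟩ (nd (nat_lit 251) (nat_lit 0) (cs (rf (nat_lit 0)) (cs (rf (nat_lit 1)) (cs (rf (nat_lit 2)) (cs (rf (nat_lit 3)) (cs (nd (nat_lit 250) (nat_lit 0) (cs (lf (nat_lit 12) (nat_lit 227)) (rf (nat_lit 4)))) (rf (nat_lit 5)))))))) q100944 (by decide +kernel)
def q101101 : Q := Q.p (nat_lit 0x3000008000000000000000000000000000000000000000000000000000000000) (nat_lit 0x80003f0000fc000378003ce001f7c000dc0001700005c0000000000000000000000000000000000000000) (nat_lit 14)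
theorem c101101 : QOK q101101 := cut [q82275, q82278, q92239, q100868, q81735, q101089, q101093, q101095, q101100] ⟨c82275, c82278, c92239, c100868, c81735, c101089, c101093, c101095, c101100, trivial⟩ (nd (nat_lit 251) (nat_lit 0) (cs (rf (nat_lit 0)) (cs (rf (nat_lit 1)) (cs (nd (nat_lit 254) (nat_lit 0) (cs (rf (nat_lit 2)) (cs (rf (nat_lit 3)) (cs (nd (nat_lit 276) (nat_lit 0) (cs (lf (nat_lit 5) (nat_lit 251)) (nd (nat_lit 298) (nat_lit 0) (cs (lf (nat_lit 42) (nat_lit 231)) (nd (nat_lit 229) (nat_lit 0) (cs (lf (nat_lit 23) (nat_lit 228)) (nd (nat_lit 232) (nat_lit 0) (cs (lf (nat_lit 17) (nat_lit 229)) (nd (nat_lit 297) (nat_lit 0) (cs (lf (nat_lit 41) (nat_lit 231)) (nd (nat_lit 230) (nat_lit 0) (cs (lf (nat_lit 5) (nat_lit 229)) (nd (nat_lit 210) (nat_lit 0) (cs (lf (nat_lit 17) (nat_lit 207)) (nd (nat_lit 166) (nat_lit 0) (cs (lf (nat_lit 37) (nat_lit 165)) (nd (nat_lit 299) (nat_lit 0) (cs (lf (nat_lit 29) (nat_lit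 232)) (rf (nat_lit 4)))))))))))))))))))) (cs (rf (nat_lit 5)) (cs (rf (nat_lit 6)) (nd (nat_lit 276) (nat_lit 0) (cs (lf (nat_lit 5) (nat_lit 251)) (nd (nat_lit 298) (nat_lit 0) (cs (lf (nat_lit 42) (nat_lit 231)) (nd (nat_lit 228) (nat_lit 0) (cs (lf (nat_lit 22) (nat_lit 228)) (rf (nat_lit 7)))))))))))))) (rf (nat_lit 8)))))) q101101 (by decide +kernel)
def q101137 : Q := Q.p (nat_lit 0x200003800008000000000000000000000000000000000000000000000000000000000) (nat_lit 0x600001800004000040000778001dc0000700000c0000000000000000000000000000000000000000) (nat_lit 8)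
theorem c101137 : QOK q101137 := cut [q85505, q89866, q92712, q84417, q100955] ⟨c85505, c89866, c92712, c84417, c100955, trivial⟩ (nd (nat_lit 230) (nat_lit 0) (cs (rf (nat_lit 0)) (cs (rf (nat_lit 1)) (cs (rf (nat_lit 2)) (nd (nat_lit 229) (nat_lit 0) (cs (rf (nat_lit 3)) (rf (nat_lit 4)))))))) q101137 (by decide +kernel)

end Crest.Agent.H3.Snaky.CR
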