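import Crest.Agent.H3.Snaky.Cert
import Crest.Agent.H3.Snaky.CR.CR0
import Crest.Agent.H3.Snaky.CR.CR1
import Crest.Agent.H3.Snaky.CR.CR2
import Crest.Agent.H3.Snaky.CR.CR3
import Crest.Agent.H3.Snaky.CR.CR4
import Crest.Agent.H3.Snaky.CR.CR5
import Crest.Agent.H3.Snaky.CR.CR6
import Crest.Agent.H3.Snaky.CR.CR9
import Crest.Agent.H3.Snaky.CR.CR12
import Crest.Agent.H3.Snaky.CR.CR15
import Crest.Agent.H3.Snaky.CR.CR16
import Crest.Agent.H3.Snaky.CR.CR17
import Crest.Agent.H3.Snaky.CR.CR18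
import Crest.Agent.H3.Snaky.CR.CR19
import Crest.Agent.H3.Snaky.CR.CR20
import Crest.Agent.H3.Snaky.CR.CR21
import Crest.Agent.H3.Snaky.CR.CR22
import Crest.Agent.H3.Snaky.CR.CR23
import Crest.Agent.H3.Snaky.CR.CR24
import Crest.Agent.H3.Snaky.CR.CR25
import Crest.Agent.H3.Snaky.CR.CR26
import Crest.Agent.H3.Snaky.CR.CR27
import Crest.Agent.H3.Snaky.CR.CR30
import Crest.Agent.H3.Snaky.CR.CR33
import Crest.Agent.H3.Snaky.CR.CR34
import Crest.Agent.H3.Snaky.CR.CR35
import Crest.Agent.H3.Snaky.CR.CR36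
import Crest.Agent.H3.Snaky.CR.CR37
import Crest.Agent.H3.Snaky.CR.CR38
import Crest.Agent.H3.Snaky.CR.CR39
import Crest.Agent.H3.Snaky.CR.CR40
import Crest.Agent.H3.Snaky.CR.CR41
import Crest.Agent.H3.Snaky.CR.CR42
import Crest.Agent.H3.Snaky.CR.CR45
import Crest.Agent.H3.Snaky.CR.CR48
import Crest.Agent.H3.Snaky.CR.CR49
import Crest.Agent.H3.Snaky.CR.CR50
import Crest.Agent.H3.Snaky.CR.CR51
import Crest.Agent.H3.Snaky.CR.CR52
import Crest.Agent.H3.Snaky.CR.CR53
import Crest.Agent.H3.Snaky.CR.CR54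
import Crest.Agent.H3.Snaky.CR.CR55
import Crest.Agent.H3.Snaky.CR.CR56
import Crest.Agent.H3.Snaky.CR.CR57
import Crest.Agent.H3.Snaky.CR.CR59
import Crest.Agent.H3.Snaky.CR.CR60
import Crest.Agent.H3.Snaky.CR.CR61
import Crest.Agent.H3.Snaky.CR.CR62
import Crest.Agent.H3.Snaky.CR.CR63
import Crest.Agent.H3.Snaky.CR.CR64
import Crest.Agent.H3.Snaky.CR.CR65
import Crest.Agent.H3.Snaky.CR.CR66
import Crest.Agent.H3.Snaky.CR.CR67
import Crest.Agent.H3.Snaky.CR.CR68
import Crest.Agent.H3.Snaky.CR.CR69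
import Crest.Agent.H3.Snaky.CR.CR70

set_option autoImplicit false
set_option maxRecDepth 100000

namespace Crest.Agent.H3.Snaky.CR

open T

def q101232 : Q := Q.p (nat_lit 0x2000008000020000000000000000000000000000000000000000000000000000) (nat_lit 0x140001d0000700001df0007f8001ff0001400000000000000000000000000000000000) (nat_lit 15)
theorem c101232 : QOK q101232 := cut [q1580, q92706, q100877, q101231] ⟨c1580, c92706, c100877, c101231, trivial⟩ (nd (nat_lit 187) (nat_lit 0) (cs (rf (nat_lit 0)) (cs (rf (nat_lit 1)) (cs (rf (nat_lit 2)) (rf (nat_lit 3)))))) q101232 (by decide +kernel)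
def q101290 : Q := Q.p (nat_lit 0x2000008000000000000000000000000000000000000000000000000000000000) (nat_lit 0x1400007e0003f0001de000240003fe000ff0003fe0005400010000000000000000000000000000000) (nat_lit 14)
theorem c101290 : QOK q101290 := cut [q96725, q100881, q101233, q101235, q717, q92991, q101213, q97786, q1580, q80724, q80756, q101244, q97246, q101249, q101260] ⟨c96725, c100881, c101233, c101235, c717, c92991, c101213, c97786, c1580, c80724, c80756, c101244, c97246, c101249, c101260, trivial⟩ (nd (nat_lit 209) (nat_lit 0) (cs (rf (nat_lit 0)) (cs (rf (nat_lit 1)) (cs (rf (nat_lit 2)) (cs (rf (nat_lit 3)) (cs (nd (nat_lit 275) (nat_lit 0) (cs (rf (nat_lit 4)) (cs (rf (nat_lit 5)) (cs (rf (nat_lit 6)) (nd (nat_lit 188) (nat_lit 0) (cs (lf (nat_lit 34) (nat_lit 187)) (rf (nat_lit 7)))))))) (nd (nat_lit 187) (nat_lit 0) (cs (rf (nat_lit 8)) (cs (rf (nat_lit 9)) (cs (rf (nat_lit 10)) (nd (nat_lit 188) (nat_lit 0) (cs (lf (nat_lit 35) (nat_lit 165)) (nd (nat_lit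 189) (nat_lit 0) (cs (rf (nat_lit 11)) (cs (nd (nat_lit 186) (nat_lit 0) (cs (lf (nat_lit 47) (nat_lit 164)) (nd (nat_lit 252) (nat_lit 0) (cs (lf (nat_lit 41) (nat_lit 186)) (nd (nat_lit 207) (nat_lit 0) (cs (lf (nat_lit 10) (nat_lit 185)) (rf (nat_lit 12)))))))) (cs (nd (nat_lit 252) (nat_lit 0) (cs (lf (nat_lit 41) (nat_lit 186)) (nd (nat_lit 186) (nat_lit 0) (cs (lf (nat_lit 47) (nat_lit 164)) (nd (nat_lit 254) (nat_lit 0) (cs (lf (nat_lit 29) (nat_lit 187)) (rf (nat_lit 13)))))))) (rf (nat_lit 14)))))))))))))))))) q101290 (by decide +kernel)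
def q101482 : Q := Q.p (nat_lit 0x200000e000000000000000000000000000000000000000000000000000000000) (nat_lit 0x300000c0000300003d0000f00000fc000380000e00000000000000000000000000000000000000000) (nat_lit 10)
theorem c101482 : QOK q101482 := cut [q97021, q101382, q101300, q101479] ⟨c97021, c101382, c101300, c101479, trivial⟩ (nd (nat_lit 232) (nat_lit 0) (cs (rf (nat_lit 0)) (cs (rf (nat_lit 1)) (cs (nd (nat_lit 254) (nat_lit 0) (cs (nd (nat_lit 255) (nat_lit 0) (cs (lf (nat_lit 21) (nat_lit 229)) (lf (nat_lit 3) (nat_lit 229)))) (rf (nat_lit 2)))) (nd (nat_lit 210) (nat_lit 0) (cs (lf (nat_lit 17) (nat_lit 207)) (nd (nat_lit 166) (nat_lit 0) (cs (lf (nat_lit 37) (nat_lit 165)) (rf (nat_lit 3)))))))))) q101482 (by decide +kernel)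
def q101485 : Q := Q.p (nat_lit 0x200000e000008000000000000000000000000000000000000000000000000000) (nat_lit 0x10000058000370000de00010000010000060000080000000000000000000000000000000000000000) (nat_lit 8)
theorem c101485 : QOK q101485 := cut [q84443, q87138, q101484] ⟨c84443, c87138, c101484, trivial⟩ (nd (nat_lit 252) (nat_lit 0) (cs (rf (nat_lit 0)) (cs (rf (nat_lit 1)) (rf (nat_lit 2))))) q101485 (by decide +kernel)
def q101499 : Q := Q.p (nat_lit 0x200000c000000000000000000000000000000000000000000000000000000000) (nat_lit 0x300000c0000300007df000f38007f70003c0000f00000000000000000000000000000000000000000) (nat_lit 12)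
theorem c101499 : QOK q101499 := cut [q96764, q96769, q97107, q101498] ⟨c96764, c96769, c97107, c101498, trivial⟩ (nd (nat_lit 229) (nat_lit 0) (cs (rf (nat_lit 0)) (cs (rf (nat_lit 1)) (cs (rf (nat_lit 2)) (rf (nat_lit 3)))))) q101499 (by decide +kernel)
def q101500 : Q := Q.p (nat_lit 0x200000c000000000000000000000000000000000000000000000000000000000) (nat_lit 0x300000c0000300007df000f3c007f80003c0000f00000000000000000000000000000000000000000) (nat_lit 12)
theorem c101500 : QOK q101500 := cut [q96758, q96764, q97120, q97221, q101498] ⟨c96758, c96764, c97120, c97221, c101498, trivial⟩ (nd (nat_lit 229) (nat_lit 0) (cs (rf (nat_lit 0)) (cs (rf (nat_lit 1)) (cs (rf (nat_lit 2)) (cs (rf (nat_lit 3)) (rf (nat_lit 4))))))) q101500 (by decide +kernel)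
def q101503 : Q := Q.p (nat_lit 0x280000e000000000000000000000000000000000000000000000000000000000) (nat_lit 0x1700005c00037c001d60000000003e0000f00001c0000000000000000000000000000000000000000) (nat_lit 12)
theorem c101503 : QOK q101503 := cut [q97174, q97175, q97183, q82295, q100955] ⟨c97174, c97175, c97183, c82295, c100955, trivial⟩ (nd (nat_lit 273) (nat_lit 0) (cs (rf (nat_lit 0)) (cs (rf (nat_lit 1)) (cs (rf (nat_lit 2)) (nd (nat_lit 252) (nat_lit 0) (cs (rf (nat_lit 3)) (rf (nat_lit 4)))))))) q101503 (by decide +kernel)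
def q101511 : Q := Q.p (nat_lit 0x280000e000000000000000000000000000000000000000000000000000000000) (nat_lit 0x1e000078000378000d00003000003e0000e0000300000000000000000000000000000000000000000) (nat_lit 8)
theorem c101511 : QOK q101511 := cut [q93813, q100922, q101510] ⟨c93813, c100922, c101510, trivial⟩ (nd (nat_lit 252) (nat_lit 0) (cs (rf (nat_lit 0)) (cs (rf (nat_lit 1)) (cs (nd (nat_lit 254) (nat_lit 0) (cs (lf (nat_lit 18) (nat_lit 229)) (nd (nat_lit 276) (nat_lit 0) (cs (lf (nat_lit 5) (nat_lit 251)) (nd (nat_lit 298) (nat_lit 0) (cs (lf (nat_lit 42) (nat_lit 231)) (nd (nat_lit 232) (nat_lit 0) (cs (lf (nat_lit 6) (nat_lit 229)) (lf (nat_lit 47) (nat_lit 209)))))))))) (rf (nat_lit 2)))))) q101511 (by decide +kernel)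
def q101590 : Q := Q.p (nat_lit 0x2000008000000000000000000000000000000000000000000000000000000000) (nat_lit 0x50000fc0003fc0003f000090000f78003fc000ff8001500004000000000000000000000000000000000000) (nat_lit 13)
theorem c101590 : QOK q101590 := cut [q101562, q84365, q99300, q94545, q32432, q29854, q101582, q81901, q96312, q99312, q100882, q101587, q101588, q101589] ⟨c101562, c84365, c99300, c94545, c32432, c29854, c101582, c81901, c96312, c99312, c100882, c101587, c101588, c101589, trivial⟩ (nd (nat_lit 275) (nat_lit 0) (cs (rf (nat_lit 0)) (cs (nd (nat_lit 297) (nat_lit 0) (cs (rf (nat_lit 1)) (cs (rf (nat_lit 2)) (cs (nd (nat_lit 298) (nat_lit 0) (cs (lf (nat_lit 29) (nat_lit 231)) (nd (nat_lit 273) (nat_lit 0) (cs (rf (nat_lit 3)) (cs (nd (nat_lit 296) (nat_lit 0) (cs (lf (nat_lit 41) (nat_lit 230)) (nd (nat_lit 272) (nat_lit 0) (cs (lf (nat_lit 2) (nat_lit 272)) (lf (nat_lit 21) (nat_lit 272)))))) (cs (nd (nat_lit 208) (nat_lit 0) (cs (lf (nat_lit 46)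 (nat_lit 208)) (nd (nat_lit 210) (nat_lit 0) (cs (lf (nat_lit 34) (nat_lit 209)) (nd (nat_lit 296) (nat_lit 0) (cs (lf (nat_lit 41) (nat_lit 230)) (rf (nat_lit 4)))))))) (nd (nat_lit 208) (nat_lit 0) (cs (lf (nat_lit 46) (nat_lit 208)) (nd (nat_lit 210) (nat_lit 0) (cs (lf (nat_lit 34) (nat_lit 209)) (nd (nat_lit 296) (nat_lit 0) (cs (lf (nat_lit 41) (nat_lit 230)) (nd (nat_lit 299) (nat_lit 0) (cs (lf (nat_lit 22) (nat_lit 273)) (nd (nat_lit 322) (nat_lit 0) (cs (lf (nat_lit 4) (nat_lit 296)) (nd (nat_lit 300) (nat_lit 0) (cs (lf (nat_lit 5) (nat_lit 297)) (rf (nat_lit 5)))))))))))))))))))) (rf (nat_lit 6)))))) (cs (nd (nat_lit 209) (nat_lit 0) (cs (rf (nat_lit 7)) (cs (rf (nat_lit 8)) (cs (rf (nat_lit 9)) (rf (nat_lit 10)))))) (cs (rf (nat_lit 11)) (cs (rf (nat_lit 12)) (rf (nat_lit 13)))))))) q101590 (by decide +kernel)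
def q101707 : Q := Q.p (nat_lit 0x200000c000000000000000000000000000000000000000000000000000000000) (nat_lit 0x50000ff8003fe0003f8001df000338001f6000150000140000000000000000000000000000000000000000) (nat_lit 14)
theorem c101707 : QOK q101707 := cut [q97957, q101550, q101657, q97347, q101647, q101684, q91962, q101415, q98319, q100927, q100946, q101704] ⟨c97957, c101550, c101657, c97347, c101647, c101684, c91962, c101415, c98319, c100927, c100946, c101704, trivial⟩ (nd (nat_lit 275) (nat_lit 0) (cs (rf (nat_lit 0)) (cs (rf (nat_lit 1)) (cs (rf (nat_lit 2)) (nd (nat_lit 274) (nat_lit 0) (cs (rf (nat_lit 3)) (cs (rf (nat_lit 4)) (cs (rf (nat_lit 5)) (nd (nat_lit 254) (nat_lit 0) (cs (nd (nat_lit 273) (nat_lit 0) (cs (lf (nat_lit 12) (nat_lit 250)) (nd (nat_lit 255) (nat_lit 0) (cs (lf (nat_lit 18) (nat_lit 230)) (lf (nat_lit 9) (nat_lit 251)))))) (cs (nd (nat_lit 252) (nat_lit 0) (cs (rf (nat_lit 6)) (cs (rf (nat_lit 7)) (cs (nd (nat_lit 229) (nat_lit 0) (cs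 (lf (nat_lit 0) (nat_lit 228)) (nd (nat_lit 186) (nat_lit 0) (cs (lf (nat_lit 25) (nat_lit 186)) (nd (nat_lit 296) (nat_lit 0) (cs (lf (nat_lit 30) (nat_lit 230)) (nd (nat_lit 295) (nat_lit 0) (cs (lf (nat_lit 41) (nat_lit 229)) (nd (nat_lit 276) (nat_lit 0) (cs (lf (nat_lit 6) (nat_lit 273)) (nd (nat_lit 251) (nat_lit 0) (cs (lf (nat_lit 0) (nat_lit 250)) (nd (nat_lit 298) (nat_lit 0) (cs (lf (nat_lit 42) (nat_lit 231)) (nd (nat_lit 232) (nat_lit 0) (cs (lf (nat_lit 17) (nat_lit 229)) (rf (nat_lit 8)))))))))))))))))) (nd (nat_lit 251) (nat_lit 0) (cs (rf (nat_lit 9)) (cs (rf (nat_lit 10)) (nd (nat_lit 296) (nat_lit 0) (cs (lf (nat_lit 30) (nat_lit 230)) (nd (nat_lit 272) (nat_lit 0) (cs (lf (nat_lit 10) (nat_lit 250)) (nd (nat_lit 276) (nat_lit 0) (cs (lf (nat_lit 5) (nat_lit 251)) (nd (nat_lit 298) (nat_lit 0) (cs (lf (nat_lit 42) (nat_lit 231)) (nd (nat_lit 232) (nat_lit 0) (cs (lf (nat_lit 17) (nat_lit 229)) (nd (nat_lit 210) (nat_lit 0) (cs (lf (nat_lit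 36) (nat_lit 187)) (nd (nat_lit 229) (nat_lit 0) (cs (lf (nat_lit 17) (nat_lit 207)) (lf (nat_lit 23) (nat_lit 228))))))))))))))))))))))) (rf (nat_lit 11))))))))))))) q101707 (by decide +kernel)
def q101733 : Q := Q.p (nat_lit 0x800002000008000000000000000000000000000000000000000000000000000000000) (nat_lit 0x10000360001de000378001df0001700006c0001a0000400000000000000000000000000000000000000000) (nat_lit 10)
theorem c101733 : QOK q101733 := cut [q97347, q97583, q101723, q91107, q98356, q101724, q101731] ⟨c97347, c97583, c101723, c91107, c98356, c101724, c101731, trivial⟩ (nd (nat_lit 274) (nat_lit 0) (cs (rf (nat_lit 0)) (cs (nd (nat_lit 209) (nat_lit 0) (cs (lf (nat_lit 41) (nat_lit 208)) (rf (nat_lit 1)))) (cs (rf (nat_lit 2)) (nd (nat_lit 276) (nat_lit 0) (cs (rf (nat_lit 3)) (cs (rf (nat_lit 4)) (cs (rf (nat_lit 5)) (rf (nat_lit 6)))))))))) q101733 (by decide +kernel)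
def q101840 : Q := Q.p (nat_lit 0x800002000008000000000000000000000000000000000000000000000000000000000) (nat_lit 0x30000ff0003fc000370007dc003f70007c0000700001c00004000000000000000000000000000000000000) (nat_lit 16)
theorem c101840 : QOK q101840 := cut [q87016, q101761, q96982, q101768, q97607, q97608, q79384, q96515, q97352, q101776, q101778, q101787, q84825, q101792, q101800, q101804, q101839] ⟨c87016, c101761, c96982, c101768, c97607, c97608, c79384, c96515, c97352, c101776, c101778, c101787, c84825, c101792, c101800, c101804, c101839, trivial⟩ (nd (nat_lit 232) (nat_lit 0) (cs (rf (nat_lit 0)) (cs (rf (nat_lit 1)) (cs (nd (nat_lit 233) (nat_lit 0) (cs (rf (nat_lit 2)) (cs (rf (nat_lit 3)) (cs (nd (nat_lit 255) (nat_lit 0) (cs (rf (nat_lit 4)) (cs (rf (nat_lit 5)) (cs (nd (nat_lit 254) (nat_lit 0) (cs (rf (nat_lit 6)) (cs (nd (nat_lit 276) (nat_lit 0) (cs (rf (nat_lit 7)) (cs (nd (nat_lit 210) (nat_lit 0) (cs (lf (nat_lit 36) (nat_lit 187)) (nd (nat_lit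 256) (nat_lit 0) (cs (lf (nat_lit 6) (nat_lit 253)) (nd (nat_lit 211) (nat_lit 0) (cs (lf (nat_lit 35) (nat_lit 188)) (nd (nat_lit 251) (nat_lit 0) (cs (lf (nat_lit 13) (nat_lit 229)) (nd (nat_lit 277) (nat_lit 0) (cs (lf (nat_lit 42) (nat_lit 210)) (rf (nat_lit 8)))))))))))) (rf (nat_lit 9))))) (nd (nat_lit 276) (nat_lit 0) (cs (rf (nat_lit 7)) (nd (nat_lit 252) (nat_lit 0) (cs (lf (nat_lit 12) (nat_lit 229)) (nd (nat_lit 274) (nat_lit 0) (cs (lf (nat_lit 11) (nat_lit 251)) (nd (nat_lit 296) (nat_lit 0) (cs (lf (nat_lit 30) (nat_lit 230)) (nd (nat_lit 277) (nat_lit 0) (cs (lf (nat_lit 11) (nat_lit 273)) (rf (nat_lit 10))))))))))))))) (nd (nat_lit 211) (nat_lit 0) (cs (rf (nat_lit 11)) (cs (nd (nat_lit 212) (nat_lit 0) (cs (lf (nat_lit 12) (nat_lit 208)) (nd (nat_lit 213) (nat_lit 0) (cs (lf (nat_lit 6) (nat_lit 210)) (nd (nat_lit 190) (nat_lit 0) (cs (lf (nat_lit 30) (nat_lit 189)) (rf (nat_lit 12)))))))) (nd (nat_lit 188) (nat_lit 0) (cs (nd (nat_lit 166)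 (nat_lit 0) (cs (lf (nat_lit 38) (nat_lit 165)) (lf (nat_lit 45) (nat_lit 166)))) (cs (nd (nat_lit 189) (nat_lit 0) (cs (lf (nat_lit 47) (nat_lit 166)) (rf (nat_lit 13)))) (nd (nat_lit 210) (nat_lit 0) (cs (lf (nat_lit 42) (nat_lit 188)) (lf (nat_lit 39) (nat_lit 187)))))))))))))) (cs (rf (nat_lit 14)) (rf (nat_lit 15))))))) (rf (nat_lit 16)))))) q101840 (by decide +kernel)
def q101871 : Q := Q.p (nat_lit 0x800002000018000000000000000000000000000000000000000000000000000000000) (nat_lit 0xe00003c000370001dc0006780002e0000a0000280000000000000000000000000000000000000000) (nat_lit 12)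
theorem c101871 : QOK q101871 := cut [q86631, q94159, q97706, q101654, q79196, q97719, q101857, q94715, q80257] ⟨c86631, c94159, c97706, c101654, c79196, c97719, c101857, c94715, c80257, trivial⟩ (nd (nat_lit 252) (nat_lit 0) (cs (rf (nat_lit 0)) (cs (rf (nat_lit 1)) (cs (nd (nat_lit 230) (nat_lit 0) (cs (rf (nat_lit 2)) (nd (nat_lit 297) (nat_lit 0) (cs (lf (nat_lit 42) (nat_lit 230)) (nd (nat_lit 296) (nat_lit 0) (cs (lf (nat_lit 41) (nat_lit 230)) (rf (nat_lit 3)))))))) (nd (nat_lit 254) (nat_lit 0) (cs (rf (nat_lit 4)) (cs (nd (nat_lit 297) (nat_lit 0) (cs (lf (nat_lit 30) (nat_lit 231)) (nd (nat_lit 296) (nat_lit 0) (cs (lf (nat_lit 41) (nat_lit 230)) (nd (nat_lit 251) (nat_lit 0) (cs (lf (nat_lit 12) (nat_lit 228)) (nd (nat_lit 229) (nat_lit 0) (cs (lf (nat_lit 23) (nat_lit 228)) (nd (nat_lit 273) (nat_lit 0) (cs (lf (nat_lit 11) (nat_lit 250)) (nd (nat_lit 276) (nat_lit 0) (cs (lf (nat_lit 5) (nat_lit 251)) (nd (nat_lit 187) (nat_lit 0) (cs (lf (nat_lit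 25) (nat_lit 187)) (nd (nat_lit 295) (nat_lit 0) (cs (lf (nat_lit 12) (nat_lit 272)) (rf (nat_lit 5)))))))))))))))))) (cs (rf (nat_lit 6)) (cs (nd (nat_lit 250) (nat_lit 0) (cs (lf (nat_lit 13) (nat_lit 228)) (nd (nat_lit 297) (nat_lit 0) (cs (lf (nat_lit 30) (nat_lit 231)) (nd (nat_lit 296) (nat_lit 0) (cs (lf (nat_lit 41) (nat_lit 230)) (nd (nat_lit 274) (nat_lit 0) (cs (lf (nat_lit 36) (nat_lit 208)) (rf (nat_lit 7)))))))))) (nd (nat_lit 297) (nat_lit 0) (cs (lf (nat_lit 30) (nat_lit 231)) (nd (nat_lit 296) (nat_lit 0) (cs (lf (nat_lit 41) (nat_lit 230)) (nd (nat_lit 251) (nat_lit 0) (cs (lf (nat_lit 12) (nat_lit 228)) (nd (nat_lit 272) (nat_lit 0) (cs (lf (nat_lit 10) (nat_lit 250)) (nd (nat_lit 276) (nat_lit 0) (cs (lf (nat_lit 5) (nat_lit 251)) (nd (nat_lit 294) (nat_lit 0) (cs (lf (nat_lit 13) (nat_lit 272)) (nd (nat_lit 229) (nat_lit 0) (cs (lf (nat_lit 23) (nat_lit 228)) (nd (nat_lit 230) (nat_lit 0) (cs (lf (nat_lit 18) (nat_lit 229)) (rf (nat_lit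 8))))))))))))))))))))))))))) q101871 (by decide +kernel)
def q101898 : Q := Q.p (nat_lit 0xc00006000018000040000000000000000000000000000000000000000000000000000) (nat_lit 0x8c0003300031c000e60003a0000280000800000000000000000000000000000000000000000) (nat_lit 10)
theorem c101898 : QOK q101898 := cut [q97321, q97333, q97766, q101897] ⟨c97321, c97333, c97766, c101897, trivial⟩ (nd (nat_lit 251) (nat_lit 0) (cs (rf (nat_lit 0)) (cs (rf (nat_lit 1)) (cs (nd (nat_lit 273) (nat_lit 0) (cs (lf (nat_lit 12) (nat_lit 250)) (nd (nat_lit 276) (nat_lit 0) (cs (lf (nat_lit 23) (nat_lit 250)) (nd (nat_lit 277) (nat_lit 0) (cs (lf (nat_lit 29) (nat_lit 210)) (rf (nat_lit 2)))))))) (rf (nat_lit 3)))))) q101898 (by decide +kernel)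
def q101924 : Q := Q.p (nat_lit 0x800002000008000000000000000000000000000000000000000000000000000000000) (nat_lit 0x10000160001de000378001df0001700003c0000e0000100000000000000000000000000000000000000000) (nat_lit 10)
theorem c101924 : QOK q101924 := cut [q97347, q101723, q101919, q97949, q98357, q15625, q97408, q101207] ⟨c97347, c101723, c101919, c97949, c98357, c15625, c97408, c101207, trivial⟩ (nd (nat_lit 274) (nat_lit 0) (cs (rf (nat_lit 0)) (cs (rf (nat_lit 1)) (cs (rf (nat_lit 2)) (nd (nat_lit 276) (nat_lit 0) (cs (rf (nat_lit 3)) (cs (nd (nat_lit 209) (nat_lit 0) (cs (lf (nat_lit 29) (nat_lit 209)) (nd (nat_lit 186) (nat_lit 0) (cs (lf (nat_lit 46) (nat_lit 186)) (rf (nat_lit 4)))))) (nd (nat_lit 273) (nat_lit 0) (cs (rf (nat_lit 5)) (cs (rf (nat_lit 6)) (rf (nat_lit 7)))))))))))) q101924 (by decide +kernel)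
def q101950 : Q := Q.p (nat_lit 0x200000c000000000000000000000000000000000000000000000000000000000) (nat_lit 0x12000048000370001df0003380003f0000700001c0000700001400000000000000000000000000000) (nat_lit 14)
theorem c101950 : QOK q101950 := cut [q96758, q96769, q96836, q97207, q101710] ⟨c96758, c96769, c96836, c97207, c101710, trivial⟩ (nd (nat_lit 229) (nat_lit 0) (cs (rf (nat_lit 0)) (cs (rf (nat_lit 1)) (cs (rf (nat_lit 2)) (cs (rf (nat_lit 3)) (rf (nat_lit 4))))))) q101950 (by decide +kernel)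
def q102138 : Q := Q.p (nat_lit 0x2000008000000000000000000000000000000000000000000000000000000000) (nat_lit 0x100001c0000f80003b0007df001f7c00fff000ffc003fe0007d00007000014000000000000000000000000) (nat_lit 14)
theorem c102138 : QOK q102138 := cut [q1580, q84607, q101268, q101264, q97292, q9467, q7464, q102017, q84324, q96704, q209, q90995, q102019, q102020, q1563, q39, q102028, q88774, q92814, q102038, q102091, q97295, q1946, q102131, q88755, q92706, q102137] ⟨c1580, c84607, c101268, c101264, c97292, c9467, c7464, c102017, c84324, c96704, c209, c90995, c102019, c102020, c1563, c39, c102028, c88774, c92814, c102038, c102091, c97295, c1946, c102131, c88755, c92706, c102137, trivial⟩ (nd (nat_lit 209) (nat_lit 0) (cs (nd (nat_lit 187) (nat_lit 0) (cs (rf (nat_lit 0)) (cs (rf (nat_lit 1)) (cs (nd (nat_lit 254) (nat_lit 0) (cs (lf (nat_lit 29) (nat_lit 187)) (rf (nat_lit 2)))) (cs (nd (nat_lit 254) (nat_lit 0) (cs (lf (nat_lit 29) (nat_lit 187)) (nd (nat_lit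 164) (nat_lit 0) (cs (lf (nat_lit 46) (nat_lit 164)) (nd (nat_lit 165) (nat_lit 0) (cs (lf (nat_lit 47) (nat_lit 142)) (nd (nat_lit 144) (nat_lit 0) (cs (lf (nat_lit 34) (nat_lit 143)) (nd (nat_lit 143) (nat_lit 0) (cs (lf (nat_lit 35) (nat_lit 121)) (rf (nat_lit 3)))))))))))) (cs (nd (nat_lit 254) (nat_lit 0) (cs (lf (nat_lit 29) (nat_lit 187)) (nd (nat_lit 166) (nat_lit 0) (cs (lf (nat_lit 34) (nat_lit 165)) (nd (nat_lit 165) (nat_lit 0) (cs (lf (nat_lit 35) (nat_lit 143)) (nd (nat_lit 230) (nat_lit 0) (cs (lf (nat_lit 41) (nat_lit 164)) (nd (nat_lit 255) (nat_lit 0) (cs (lf (nat_lit 18) (nat_lit 230)) (nd (nat_lit 228) (nat_lit 0) (cs (lf (nat_lit 1) (nat_lit 228)) (rf (nat_lit 4)))))))))))))) (nd (nat_lit 254) (nat_lit 0) (cs (lf (nat_lit 29) (nat_lit 187)) (nd (nat_lit 164) (nat_lit 0) (cs (lf (nat_lit 46) (nat_lit 164)) (nd (nat_lit 165) (nat_lit 0) (cs (lf (nat_lit 47) (nat_lit 142)) (nd (nat_lit 230) (nat_lit 0) (cs (lf (nat_lit 41) (nat_lit 164))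 (nd (nat_lit 255) (nat_lit 0) (cs (lf (nat_lit 18) (nat_lit 230)) (nd (nat_lit 229) (nat_lit 0) (cs (lf (nat_lit 0) (nat_lit 228)) (nd (nat_lit 208) (nat_lit 0) (cs (lf (nat_lit 36) (nat_lit 142)) (nd (nat_lit 210) (nat_lit 0) (cs (lf (nat_lit 6) (nat_lit 207)) (rf (nat_lit 5)))))))))))))))))))))))) (cs (nd (nat_lit 210) (nat_lit 0) (cs (rf (nat_lit 6)) (cs (rf (nat_lit 7)) (cs (nd (nat_lit 211) (nat_lit 0) (cs (rf (nat_lit 8)) (cs (rf (nat_lit 9)) (cs (nd (nat_lit 208) (nat_lit 0) (cs (rf (nat_lit 10)) (rf (nat_lit 11)))) (cs (rf (nat_lit 12)) (nd (nat_lit 212) (nat_lit 0) (cs (lf (nat_lit 11) (nat_lit 208)) (nd (nat_lit 234) (nat_lit 0) (cs (lf (nat_lit 5) (nat_lit 209)) (nd (nat_lit 208) (nat_lit 0) (cs (lf (nat_lit 4) (nat_lit 208)) (nd (nat_lit 185) (nat_lit 0) (cs (lf (nat_lit 22) (nat_lit 185)) (nd (nat_lit 232) (nat_lit 0) (cs (lf (nat_lit 6) (nat_lit 209)) (rf (nat_lit 13))))))))))))))))) (nd (nat_lit 208) (nat_lit 0) (cs (rf (nat_lit 14)) (cs (nd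 (nat_lit 186) (nat_lit 0) (cs (lf (nat_lit 42) (nat_lit 186)) (rf (nat_lit 15)))) (rf (nat_lit 16))))))))) (cs (nd (nat_lit 187) (nat_lit 0) (cs (rf (nat_lit 0)) (cs (rf (nat_lit 17)) (rf (nat_lit 18))))) (cs (rf (nat_lit 19)) (cs (rf (nat_lit 20)) (cs (nd (nat_lit 187) (nat_lit 0) (cs (rf (nat_lit 18)) (cs (rf (nat_lit 21)) (nd (nat_lit 254) (nat_lit 0) (cs (lf (nat_lit 29) (nat_lit 187)) (nd (nat_lit 165) (nat_lit 0) (cs (lf (nat_lit 28) (nat_lit 165)) (nd (nat_lit 230) (nat_lit 0) (cs (lf (nat_lit 41) (nat_lit 164)) (nd (nat_lit 255) (nat_lit 0) (cs (lf (nat_lit 18) (nat_lit 230)) (nd (nat_lit 228) (nat_lit 0) (cs (lf (nat_lit 1) (nat_lit 228)) (nd (nat_lit 143) (nat_lit 0) (cs (rf (nat_lit 22)) (lf (nat_lit 40) (nat_lit 142))))))))))))))))) (cs (rf (nat_lit 23)) (cs (nd (nat_lit 187) (nat_lit 0) (cs (rf (nat_lit 1)) (cs (rf (nat_lit 24)) (rf (nat_lit 25))))) (rf (nat_lit 26))))))))))) q102138 (by decide +kernel)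
def q102151 : Q := Q.p (nat_lit 0x200000c000010000000000000000000000000000000000000000000000000000) (nat_lit 0x180000780001c0003000006e0007e0000780001000000000000000000000000000000000000) (nat_lit 8)
theorem c102151 : QOK q102151 := cut [q11005, q92012, q93759, q96785] ⟨c11005, c92012, c93759, c96785, trivial⟩ (nd (nat_lit 252) (nat_lit 0) (cs (rf (nat_lit 0)) (cs (rf (nat_lit 1)) (cs (rf (nat_lit 2)) (rf (nat_lit 3)))))) q102151 (by decide +kernel)
def q102226 : Q := Q.p (nat_lit 0x3000008000000000000000000000000000000000000000000000000000000000) (nat_lit 0x100000e0001f8001fe0003fc001ce00067c001fe0001b80000e0000000000000000000000000000000000000000) (nat_lit 15)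
theorem c102226 : QOK q102226 := cut [q80881, q82280, q98731, q85470, q91353, q87559, q87874, q102193, q90819, q101463, q102199, q102212, q102215, q101100, q88302, q81451, q82292, q85044, q100961, q85713, q87979, q84408] ⟨c80881, c82280, c98731, c85470, c91353, c87559, c87874, c102193, c90819, c101463, c102199, c102212, c102215, c101100, c88302, c81451, c82292, c85044, c100961, c85713, c87979, c84408, trivial⟩ (nd (nat_lit 274) (nat_lit 0) (cs (rf (nat_lit 0)) (cs (rf (nat_lit 1)) (cs (nd (nat_lit 275) (nat_lit 0) (cs (rf (nat_lit 2)) (cs (nd (nat_lit 230) (nat_lit 0) (cs (rf (nat_lit 3)) (cs (rf (nat_lit 4)) (nd (nat_lit 228) (nat_lit 0) (cs (rf (nat_lit 5)) (cs (nd (nat_lit 250) (nat_lit 0) (cs (rf (nat_lit 6)) (cs (nd (nat_lit 187) (nat_lit 0) (cs (lf (nat_lit 37) (nat_lit 186)) (nd (nat_lit 227) (nat_lit 0) (cs (lf (nat_lit 20) (nat_lit 227)) (rf (nat_lit 7)))))) (cs (nd (nat_lit 297) (nat_lit 0) (cs (lf (nat_lit 42) (nat_lit 230)) (nd (nat_lit 272)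 (nat_lit 0) (cs (rf (nat_lit 8)) (rf (nat_lit 9)))))) (nd (nat_lit 187) (nat_lit 0) (cs (lf (nat_lit 37) (nat_lit 186)) (nd (nat_lit 297) (nat_lit 0) (cs (lf (nat_lit 42) (nat_lit 230)) (nd (nat_lit 251) (nat_lit 0) (cs (lf (nat_lit 12) (nat_lit 227)) (rf (nat_lit 10)))))))))))) (rf (nat_lit 11)))))))) (cs (rf (nat_lit 12)) (nd (nat_lit 251) (nat_lit 0) (cs (rf (nat_lit 13)) (cs (nd (nat_lit 273) (nat_lit 0) (cs (rf (nat_lit 14)) (nd (nat_lit 276) (nat_lit 0) (cs (lf (nat_lit 18) (nat_lit 251)) (nd (nat_lit 187) (nat_lit 0) (cs (lf (nat_lit 37) (nat_lit 186)) (rf (nat_lit 15)))))))) (nd (nat_lit 276) (nat_lit 0) (cs (lf (nat_lit 0) (nat_lit 250)) (lf (nat_lit 18) (nat_lit 251))))))))))) (nd (nat_lit 230) (nat_lit 0) (cs (rf (nat_lit 16)) (cs (rf (nat_lit 17)) (cs (rf (nat_lit 18)) (nd (nat_lit 273) (nat_lit 0) (cs (rf (nat_lit 19)) (cs (rf (nat_lit 20)) (nd (nat_lit 208) (nat_lit 0) (cs (lf (nat_lit 41) (nat_lit 207)) (nd (nat_lit 275) (nat_lit 0) (cs (lf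 (nat_lit 42) (nat_lit 208)) (rf (nat_lit 21))))))))))))))))) q102226 (by decide +kernel)
def q102267 : Q := Q.p (nat_lit 0x3000008000000000000000000000000000000000000000000000000000000000) (nat_lit 0x100001c0000fc0003f0001c0001f7000ffe000fa0000f00003c00001000000000000000000000000000000) (nat_lit 14)
theorem c102267 : QOK q102267 := cut [q82300, q91187, q101235, q102038, q7464, q93183, q84304, q84324, q84555, q102019, q85123, q85124, q85128, q85138, q102237, q93185, q84327, q85178, q82279, q2953, q84411, q93211, q93229, q93235, q93232] ⟨c82300, c91187, c101235, c102038, c7464, c93183, c84304, c84324, c84555, c102019, c85123, c85124, c85128, c85138, c102237, c93185, c84327, c85178, c82279, c2953, c84411, c93211, c93229, c93235, c93232, trivial⟩ (nd (nat_lit 209) (nat_lit 0) (cs (rf (nat_lit 0)) (cs (rf (nat_lit 1)) (cs (rf (nat_lit 2)) (cs (rf (nat_lit 3)) (nd (nat_lit 210) (nat_lit 0) (cs (rf (nat_lit 4)) (cs (rf (nat_lit 5)) (cs (nd (nat_lit 211) (nat_lit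 0) (cs (rf (nat_lit 6)) (cs (rf (nat_lit 7)) (cs (rf (nat_lit 8)) (cs (rf (nat_lit 9)) (nd (nat_lit 233) (nat_lit 0) (cs (rf (nat_lit 10)) (cs (rf (nat_lit 11)) (cs (nd (nat_lit 232) (nat_lit 0) (cs (rf (nat_lit 12)) (cs (rf (nat_lit 13)) (cs (nd (nat_lit 230) (nat_lit 0) (cs (lf (nat_lit 12) (nat_lit 207)) (rf (nat_lit 14)))) (nd (nat_lit 230) (nat_lit 0) (cs (lf (nat_lit 12) (nat_lit 207)) (nd (nat_lit 166) (nat_lit 0) (cs (lf (nat_lit 37) (nat_lit 165)) (nd (nat_lit 255) (nat_lit 0) (cs (lf (nat_lit 5) (nat_lit 230)) (nd (nat_lit 277) (nat_lit 0) (cs (lf (nat_lit 42) (nat_lit 210)) (nd (nat_lit 276) (nat_lit 0) (cs (lf (nat_lit 41) (nat_lit 210)) (nd (nat_lit 208) (nat_lit 0) (cs (lf (nat_lit 23) (nat_lit 207)) (rf (nat_lit 15)))))))))))))))))) (nd (nat_lit 232) (nat_lit 0) (cs (lf (nat_lit 6) (nat_lit 230)) (nd (nat_lit 230) (nat_lit 0) (cs (lf (nat_lit 12) (nat_lit 207)) (nd (nat_lit 166) (nat_lit 0) (cs (lf (nat_lit 37) (nat_lit 165)) (rf (nat_lit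 14))))))))))))))))) (nd (nat_lit 230) (nat_lit 0) (cs (rf (nat_lit 16)) (cs (rf (nat_lit 17)) (cs (nd (nat_lit 274) (nat_lit 0) (cs (rf (nat_lit 18)) (nd (nat_lit 208) (nat_lit 0) (cs (rf (nat_lit 19)) (cs (rf (nat_lit 20)) (rf (nat_lit 21))))))) (nd (nat_lit 232) (nat_lit 0) (cs (rf (nat_lit 22)) (cs (rf (nat_lit 23)) (cs (nd (nat_lit 274) (nat_lit 0) (cs (lf (nat_lit 30) (nat_lit 208)) (nd (nat_lit 275) (nat_lit 0) (cs (lf (nat_lit 30) (nat_lit 209)) (nd (nat_lit 276) (nat_lit 0) (cs (lf (nat_lit 29) (nat_lit 209)) (nd (nat_lit 233) (nat_lit 0) (cs (lf (nat_lit 6) (nat_lit 230)) (nd (nat_lit 255) (nat_lit 0) (cs (lf (nat_lit 5) (nat_lit 230)) (nd (nat_lit 277) (nat_lit 0) (cs (lf (nat_lit 42) (nat_lit 210)) (nd (nat_lit 273) (nat_lit 0) (cs (lf (nat_lit 7) (nat_lit 251)) (nd (nat_lit 208) (nat_lit 0) (cs (lf (nat_lit 41) (nat_lit 207)) (lf (nat_lit 23) (nat_lit 207)))))))))))))))))) (nd (nat_lit 274) (nat_lit 0) (cs (lf (nat_lit 30) (nat_lit 208)) (nd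 (nat_lit 275) (nat_lit 0) (cs (lf (nat_lit 30) (nat_lit 209)) (nd (nat_lit 276) (nat_lit 0) (cs (lf (nat_lit 29) (nat_lit 209)) (rf (nat_lit 24))))))))))))))))))))))))) q102267 (by decide +kernel)
def q102306 : Q := Q.p (nat_lit 0x7000008000020000000000000000000000000000000000000000000000000000) (nat_lit 0x380018e00077c000100000c0000300000000000000000000000000000000000000000) (nat_lit 9)
theorem c102306 : QOK q102306 := cut [q82278, q101100, q92088] ⟨c82278, c101100, c92088, trivial⟩ (nd (nat_lit 251) (nat_lit 0) (cs (rf (nat_lit 0)) (cs (rf (nat_lit 1)) (nd (nat_lit 228) (nat_lit 0) (cs (lf (nat_lit 22) (nat_lit 228)) (nd (nat_lit 233) (nat_lit 0) (cs (lf (nat_lit 16) (nat_lit 229)) (nd (nat_lit 255) (nat_lit 0) (cs (lf (nat_lit 17) (nat_lit 230)) (nd (nat_lit 273) (nat_lit 0) (cs (lf (nat_lit 11) (nat_lit 250)) (nd (nat_lit 230) (nat_lit 0) (cs (lf (nat_lit 18) (nat_lit 230)) (nd (nat_lit 186) (nat_lit 0) (cs (lf (nat_lit 37) (nat_lit 185)) (rf (nat_lit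 2))))))))))))))))) q102306 (by decide +kernel)
def q102390 : Q := Q.p (nat_lit 0x2000008000020000000000000000000000000000000000000000000000000000) (nat_lit 0x400001c0000700000c000050000140000500000c0000700001c00004000000000000000000000000000000) (nat_lit 8)
theorem c102390 : QOK q102390 := cut [q91300, q98075, q102388] ⟨c91300, c98075, c102388, trivial⟩ (nd (nat_lit 186) (nat_lit 0) (cs (rf (nat_lit 0)) (cs (rf (nat_lit 1)) (nd (nat_lit 275) (nat_lit 0) (cs (lf (nat_lit 46) (nat_lit 186)) (rf (nat_lit 2))))))) q102390 (by decide +kernel)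
def q102528 : Q := Q.p (nat_lit 0x2000018000000000000000000000000000000000000000000000000000000000) (nat_lit 0x180000700001c0000300001f0001d0000c70003fc0007f0000f00003400000000000000000000000000000000000) (nat_lit 17)
theorem c102528 : QOK q102528 := cut [q87016, q98133, q101589, q96312, q100882, q100886, q95343, q80720, q11823] ⟨c87016, c98133, c101589, c96312, c100882, c100886, c95343, c80720, c11823, trivial⟩ (nd (nat_lit 275) (nat_lit 0) (cs (rf (nat_lit 0)) (cs (rf (nat_lit 1)) (cs (rf (nat_lit 2)) (cs (nd (nat_lit 209) (nat_lit 0) (cs (rf (nat_lit 3)) (cs (rf (nat_lit 4)) (cs (rf (nat_lit 5)) (nd (nat_lit 210) (nat_lit 0) (cs (rf (nat_lit 6)) (nd (nat_lit 274) (nat_lit 0) (cs (lf (nat_lit 41) (nat_lit 208)) (nd (nat_lit 208) (nat_lit 0) (cs (lf (nat_lit 47) (nat_lit 186)) (nd (nat_lit 207) (nat_lit 0) (cs (lf (nat_lit 0) (nat_lit 206)) (nd (nat_lit 184) (nat_lit 0) (cs (lf (nat_lit 22) (nat_lit 184)) (nd (nat_lit 229) (nat_lit 0) (cs (lf (nat_lit 11)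 (nat_lit 206)) (nd (nat_lit 211) (nat_lit 0) (cs (lf (nat_lit 10) (nat_lit 207)) (nd (nat_lit 189) (nat_lit 0) (cs (lf (nat_lit 17) (nat_lit 186)) (nd (nat_lit 145) (nat_lit 0) (cs (lf (nat_lit 37) (nat_lit 144)) (nd (nat_lit 212) (nat_lit 0) (cs (lf (nat_lit 6) (nat_lit 209)) (nd (nat_lit 234) (nat_lit 0) (cs (lf (nat_lit 5) (nat_lit 209)) (nd (nat_lit 254) (nat_lit 0) (cs (lf (nat_lit 30) (nat_lit 188)) (rf (nat_lit 7)))))))))))))))))))))))))))))) (nd (nat_lit 297) (nat_lit 0) (cs (lf (nat_lit 35) (nat_lit 209)) (nd (nat_lit 208) (nat_lit 0) (cs (lf (nat_lit 46) (nat_lit 208)) (nd (nat_lit 186) (nat_lit 0) (cs (lf (nat_lit 45) (nat_lit 186)) (nd (nat_lit 296) (nat_lit 0) (cs (lf (nat_lit 41) (nat_lit 230)) (nd (nat_lit 319) (nat_lit 0) (cs (rf (nat_lit 8)) (lf (nat_lit 34) (nat_lit 231))))))))))))))))) q102528 (by decide +kernel)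
def q102559 : Q := Q.p (nat_lit 0x200001c000000000000000000000000000000000000000000000000000000000) (nat_lit 0xa00001c0002000003e0000e0000380000000000000000000000000000000000000000) (nat_lit 8)
theorem c102559 : QOK q102559 := cut [q98040, q102140, q102141] ⟨c98040, c102140, c102141, trivial⟩ (nd (nat_lit 208) (nat_lit 0) (cs (rf (nat_lit 0)) (cs (rf (nat_lit 1)) (rf (nat_lit 2))))) q102559 (by decide +kernel)
def q102769 : Q := Q.p (nat_lit 0x2000018000000000000000000000000000000000000000000000000000000000) (nat_lit 0x400001c0000700001c000050000070000fc0007f0000700000000000000000000000000000000000000000) (nat_lit 12)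
theorem c102769 : QOK q102769 := cut [q26315, q87016, q102760, q94775, q96325, q98315, q95343, q96154] ⟨c26315, c87016, c102760, c94775, c96325, c98315, c95343, c96154, trivial⟩ (nd (nat_lit 275) (nat_lit 0) (cs (rf (nat_lit 0)) (cs (rf (nat_lit 1)) (cs (rf (nat_lit 2)) (nd (nat_lit 209) (nat_lit 0) (cs (rf (nat_lit 3)) (cs (rf (nat_lit 4)) (cs (rf (nat_lit 5)) (nd (nat_lit 210) (nat_lit 0) (cs (rf (nat_lit 6)) (nd (nat_lit 274) (nat_lit 0) (cs (lf (nat_lit 41) (nat_lit 208)) (rf (nat_lit 7)))))))))))))) q102769 (by decide +kernel)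
def q102821 : Q := Q.p (nat_lit 0x6000010000040000000000000000000000000000000000000000000000000000) (nat_lit 0xfc000ff000398000e00000a0000280000000000000000000000000000000000000000000000) (nat_lit 10)
theorem c102821 : QOK q102821 := cut [q102806, q102810, q102814, q102820] ⟨c102806, c102810, c102814, c102820, trivial⟩ (nd (nat_lit 276) (nat_lit 0) (cs (rf (nat_lit 0)) (cs (rf (nat_lit 1)) (cs (nd (nat_lit 275) (nat_lit 0) (cs (lf (nat_lit 41) (nat_lit 209)) (nd (nat_lit 187) (nat_lit 0) (cs (lf (nat_lit 46) (nat_lit 187)) (rf (nat_lit 2)))))) (rf (nat_lit 3)))))) q102821 (by decide +kernel)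
def q102851 : Q := Q.p (nat_lit 0x6000010000000000000000000000000000000000000000000000000000000000) (nat_lit 0x280000e000078000018000200001fe001ff0007f80002800000000000000000000000000000000000) (nat_lit 12)
theorem c102851 : QOK q102851 := cut [q79128, q79988, q102837, q102850] ⟨c79128, c79988, c102837, c102850, trivial⟩ (nd (nat_lit 210) (nat_lit 0) (cs (rf (nat_lit 0)) (cs (rf (nat_lit 1)) (cs (rf (nat_lit 2)) (rf (nat_lit 3)))))) q102851 (by decide +kernel)
def q102874 : Q := Q.p (nat_lit 0x6000010000000000000000000000000000000000000000000000000000000000) (nat_lit 0x200000b8000ef80019c000e78000fc0001f0000180000400000000000000000000000000000000000) (nat_lit 13)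
theorem c102874 : QOK q102874 := cut [q81677, q81730, q102862, q102873] ⟨c81677, c81730, c102862, c102873, trivial⟩ (nd (nat_lit 252) (nat_lit 0) (cs (rf (nat_lit 0)) (cs (rf (nat_lit 1)) (cs (rf (nat_lit 2)) (rf (nat_lit 3)))))) q102874 (by decide +kernel)
def q102875 : Q := Q.p (nat_lit 0xf000030000000000000000000000000000000000000000000000000000000000) (nat_lit 0x300000c00007600000000000000180000600001800000000000000000000000000000000000000000) (nat_lit 8)
theorem c102875 : QOK q102875 := cut [q80976] ⟨c80976, trivial⟩ (nd (nat_lit 273) (nat_lit 0) (cs (lf (nat_lit 10) (nat_lit 251)) (rf (nat_lit 0)))) q102875 (by decide +kernel)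
def q102959 : Q := Q.p (nat_lit 0x6000010000000000000000000000000000000000000000000000000000000000) (nat_lit 0x80000e00003a0000fc000ff00039c000078000f80003e0000e80002800000000000000000000000000000000000) (nat_lit 14)
theorem c102959 : QOK q102959 := cut [q79128, q79988, q79961, q102810, q102820, q102901, q102912, q102931, q102915, q102906, q80522, q102948, q102936, q102954, q102958] ⟨c79128, c79988, c79961, c102810, c102820, c102901, c102912, c102931, c102915, c102906, c80522, c102948, c102936, c102954, c102958, trivial⟩ (nd (nat_lit 210) (nat_lit 0) (cs (rf (nat_lit 0)) (cs (rf (nat_lit 1)) (cs (nd (nat_lit 276) (nat_lit 0) (cs (rf (nat_lit 2)) (cs (rf (nat_lit 3)) (cs (rf (nat_lit 4)) (cs (nd (nat_lit 252) (nat_lit 0) (cs (nd (nat_lit 275) (nat_lit 0) (cs (lf (nat_lit 41) (nat_lit 209)) (nd (nat_lit 251) (nat_lit 0) (cs (lf (nat_lit 0) (nat_lit 250)) (nd (nat_lit 228) (nat_lit 0) (cs (lf (nat_lit 22) (nat_lit 228)) (rf (nat_lit 5)))))))) (cs (rf (nat_lit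 6)) (rf (nat_lit 7))))) (nd (nat_lit 252) (nat_lit 0) (cs (rf (nat_lit 6)) (cs (nd (nat_lit 275) (nat_lit 0) (cs (lf (nat_lit 41) (nat_lit 209)) (rf (nat_lit 8)))) (cs (nd (nat_lit 278) (nat_lit 0) (cs (nd (nat_lit 275) (nat_lit 0) (cs (lf (nat_lit 19) (nat_lit 252)) (lf (nat_lit 41) (nat_lit 209)))) (cs (nd (nat_lit 277) (nat_lit 0) (cs (lf (nat_lit 18) (nat_lit 253)) (lf (nat_lit 3) (nat_lit 252)))) (nd (nat_lit 230) (nat_lit 0) (cs (nd (nat_lit 229) (nat_lit 0) (cs (lf (nat_lit 18) (nat_lit 229)) (nd (nat_lit 227) (nat_lit 0) (cs (lf (nat_lit 1) (nat_lit 227)) (rf (nat_lit 9)))))) (cs (nd (nat_lit 187) (nat_lit 0) (cs (lf (nat_lit 46) (nat_lit 187)) (nd (nat_lit 297) (nat_lit 0) (cs (lf (nat_lit 40) (nat_lit 209)) (nd (nat_lit 319) (nat_lit 0) (cs (lf (nat_lit 39) (nat_lit 231)) (nd (nat_lit 274) (nat_lit 0) (cs (lf (nat_lit 27) (nat_lit 230)) (nd (nat_lit 273) (nat_lit 0) (cs (lf (nat_lit 6) (nat_lit 251)) (nd (nat_lit 208) (nat_lit 0) (cs (lf (nat_lit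 41) (nat_lit 207)) (nd (nat_lit 185) (nat_lit 0) (cs (lf (nat_lit 46) (nat_lit 185)) (rf (nat_lit 10)))))))))))))))) (cs (nd (nat_lit 208) (nat_lit 0) (cs (nd (nat_lit 275) (nat_lit 0) (cs (lf (nat_lit 24) (nat_lit 186)) (lf (nat_lit 41) (nat_lit 209)))) (rf (nat_lit 11)))) (nd (nat_lit 275) (nat_lit 0) (cs (lf (nat_lit 41) (nat_lit 209)) (nd (nat_lit 189) (nat_lit 0) (cs (lf (nat_lit 34) (nat_lit 188)) (rf (nat_lit 12))))))))))))) (nd (nat_lit 189) (nat_lit 0) (cs (lf (nat_lit 34) (nat_lit 188)) (rf (nat_lit 13))))))))))))) (rf (nat_lit 14)))))) q102959 (by decide +kernel)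
def q103083 : Q := Q.p (nat_lit 0x6000010000000000000000000000000000000000000000000000000000000000) (nat_lit 0x200000a80007f80019c000e7800050000140000000000000000000000000000000000000000000000) (nat_lit 10)
theorem c103083 : QOK q103083 := cut [q81677, q81730, q102862, q102887] ⟨c81677, c81730, c102862, c102887, trivial⟩ (nd (nat_lit 252) (nat_lit 0) (cs (rf (nat_lit 0)) (cs (rf (nat_lit 1)) (cs (rf (nat_lit 2)) (rf (nat_lit 3)))))) q103083 (by decide +kernel)
def q103356 : Q := Q.p (nat_lit 0x6000018000000000000000000000000000000000000000000000000000000000) (nat_lit 0x1c0000700001e000180000000000300001c0000700000000000000000000000000000000000000000) (nat_lit 8)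
theorem c103356 : QOK q103356 := cut [q79193, q79320, q103355] ⟨c79193, c79320, c103355, trivial⟩ (nd (nat_lit 209) (nat_lit 0) (cs (rf (nat_lit 0)) (cs (rf (nat_lit 1)) (rf (nat_lit 2))))) q103356 (by decide +kernel)
def q103410 : Q := Q.p (nat_lit 0x6000018000000000000000000000000000000000000000000000000000000000) (nat_lit 0x1c00007c0003f00001c0000700003c0001f0000700000000000000000000000000000000000000000) (nat_lit 13)
theorem c103410 : QOK q103410 := cut [q79193, q79320, q79297, q103354, q80357] ⟨c79193, c79320, c79297, c103354, c80357, trivial⟩ (nd (nat_lit 209) (nat_lit 0) (cs (rf (nat_lit 0)) (cs (rf (nat_lit 1)) (nd (nat_lit 275) (nat_lit 0) (cs (rf (nat_lit 2)) (cs (rf (nat_lit 3)) (nd (nat_lit 276) (nat_lit 0) (cs (lf (nat_lit 42) (nat_lit 209)) (rf (nat_lit 4)))))))))) q103410 (by decide +kernel)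
def q103422 : Q := Q.p (nat_lit 0x6000018000000000000000000000000000000000000000000000000000000000) (nat_lit 0x200000d00007700019c0000700003c0000a0000080000000000000000000000000000000000000000) (nat_lit 8)
theorem c103422 : QOK q103422 := cut [q103413, q103417, q103418, q103421] ⟨c103413, c103417, c103418, c103421, trivial⟩ (nd (nat_lit 252) (nat_lit 0) (cs (rf (nat_lit 0)) (cs (rf (nat_lit 1)) (cs (rf (nat_lit 2)) (rf (nat_lit 3)))))) q103422 (by decide +kernel)
def q103437 : Q := Q.p (nat_lit 0x6000018000000000000000000000000000000000000000000000000000000000) (nat_lit 0x2c0000b0000ef00039c000c7000018000060000180000000000000000000000000000000000000000) (nat_lit 12)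
theorem c103437 : QOK q103437 := cut [q79626, q103424, q97811, q103426, q79307, q103432] ⟨c79626, c103424, c97811, c103426, c79307, c103432, trivial⟩ (nd (nat_lit 255) (nat_lit 0) (cs (rf (nat_lit 0)) (cs (rf (nat_lit 1)) (nd (nat_lit 252) (nat_lit 0) (cs (rf (nat_lit 2)) (cs (rf (nat_lit 3)) (nd (nat_lit 230) (nat_lit 0) (cs (rf (nat_lit 4)) (nd (nat_lit 277) (nat_lit 0) (cs (lf (nat_lit 5) (nat_lit 252)) (nd (nat_lit 299) (nat_lit 0) (cs (lf (nat_lit 42) (nat_lit 232)) (rf (nat_lit 5)))))))))))))) q103437 (by decide +kernel)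
def q103609 : Q := Q.p (nat_lit 0x6000010000000000000000000000000000000000000000000000000000000000) (nat_lit 0x300000c8003f780079c003ef80019c000660001880000000000000000000000000000000000000000) (nat_lit 12)
theorem c103609 : QOK q103609 := cut [q81677, q81730, q103516, q103608] ⟨c81677, c81730, c103516, c103608, trivial⟩ (nd (nat_lit 252) (nat_lit 0) (cs (rf (nat_lit 0)) (cs (rf (nat_lit 1)) (cs (rf (nat_lit 2)) (rf (nat_lit 3)))))) q103609 (by decide +kernel)
def q103613 : Q := Q.p (nat_lit 0x6000010000000000000000000000000000000000000000000000000000000000) (nat_lit 0x300000c0000ff80079c003eb800180000600001800000000000000000000000000000000000000000) (nat_lit 11)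
theorem c103613 : QOK q103613 := cut [q81677, q81730, q103611, q103612] ⟨c81677, c81730, c103611, c103612, trivial⟩ (nd (nat_lit 252) (nat_lit 0) (cs (rf (nat_lit 0)) (cs (rf (nat_lit 1)) (cs (rf (nat_lit 2)) (rf (nat_lit 3)))))) q103613 (by decide +kernel)
def q103658 : Q := Q.p (nat_lit 0x6000010000000000000000000000000000000000000000000000000000000000) (nat_lit 0x300000c8000fb80079c003ef800190000640001800000000000000000000000000000000000000000) (nat_lit 11)
theorem c103658 : QOK q103658 := cut [q81677, q81730, q102887, q103657] ⟨c81677, c81730, c102887, c103657, trivial⟩ (nd (nat_lit 252) (nat_lit 0) (cs (rf (nat_lit 0)) (cs (rf (nat_lit 1)) (cs (rf (nat_lit 2)) (rf (nat_lit 3)))))) q103658 (by decide +kernel)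
def q103667 : Q := Q.p (nat_lit 0x6000010000000000000000000000000000000000000000000000000000000000) (nat_lit 0x300000c0000ff00079c003ec0001a0000680001800000000000000000000000000000000000000000) (nat_lit 11)
theorem c103667 : QOK q103667 := cut [q81677, q103611, q103623, q103666] ⟨c81677, c103611, c103623, c103666, trivial⟩ (nd (nat_lit 252) (nat_lit 0) (cs (rf (nat_lit 0)) (cs (rf (nat_lit 1)) (cs (rf (nat_lit 2)) (rf (nat_lit 3)))))) q103667 (by decide +kernel)
def q103702 : Q := Q.p (nat_lit 0x6000010000000000000000000000000000000000000000000000000000000000) (nat_lit 0x380003e0000f80007f80009c0006f8001bc0006e0001980000000000000000000000000000000000000000) (nat_lit 14)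
theorem c103702 : QOK q103702 := cut [q81730, q103516, q103623, q80971, q81014, q103500, q103636, q81837, q82664, q79307, q103431, q103644, q80649, q81004, q81007, q81010, q86011] ⟨c81730, c103516, c103623, c80971, c81014, c103500, c103636, c81837, c82664, c79307, c103431, c103644, c80649, c81004, c81007, c81010, c86011, trivial⟩ (nd (nat_lit 252) (nat_lit 0) (cs (rf (nat_lit 0)) (cs (rf (nat_lit 1)) (cs (rf (nat_lit 2)) (nd (nat_lit 274) (nat_lit 0) (cs (rf (nat_lit 3)) (cs (nd (nat_lit 296) (nat_lit 0) (cs (rf (nat_lit 4)) (cs (nd (nat_lit 255) (nat_lit 0) (cs (lf (nat_lit 11) (nat_lit 251)) (nd (nat_lit 233) (nat_lit 0) (cs (lf (nat_lit 17) (nat_lit 230)) (nd (nat_lit 277) (nat_lit 0) (cs (lf (nat_lit 5) (nat_lit 252)) (nd (nat_lit 299) (nat_lit 0) (cs (lf (nat_lit 42) (nat_lit 232)) (nd (nat_lit 298) (nat_lit 0) (cs (lf (nat_lit 41) (nat_lit 232)) (nd (nat_lit 211) (nat_lit 0) (cs (lf (nat_lit 40) (nat_lit 210)) (nd (nat_lit 167) (nat_lit 0) (cs (lf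 (nat_lit 37) (nat_lit 166)) (nd (nat_lit 190) (nat_lit 0) (cs (lf (nat_lit 34) (nat_lit 189)) (rf (nat_lit 5)))))))))))))))))) (nd (nat_lit 255) (nat_lit 0) (cs (lf (nat_lit 11) (nat_lit 251)) (rf (nat_lit 6))))))) (cs (nd (nat_lit 231) (nat_lit 0) (cs (rf (nat_lit 7)) (cs (rf (nat_lit 8)) (cs (nd (nat_lit 230) (nat_lit 0) (cs (rf (nat_lit 9)) (rf (nat_lit 10)))) (nd (nat_lit 230) (nat_lit 0) (cs (rf (nat_lit 9)) (rf (nat_lit 11)))))))) (nd (nat_lit 296) (nat_lit 0) (cs (rf (nat_lit 12)) (cs (rf (nat_lit 13)) (cs (rf (nat_lit 4)) (nd (nat_lit 230) (nat_lit 0) (cs (rf (nat_lit 14)) (cs (rf (nat_lit 15)) (rf (nat_lit 16))))))))))))))))) q103702 (by decide +kernel)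
def q103773 : Q := Q.p (nat_lit 0x6000018000040000000000000000000000000000000000000000000000000000) (nat_lit 0xc0000f0000000000040003b00002f0000300000000000000000000000000000000000000000) (nat_lit 7)
theorem c103773 : QOK q103773 := cut [q79193, q103771, q103772] ⟨c79193, c103771, c103772, trivial⟩ (nd (nat_lit 209) (nat_lit 0) (cs (rf (nat_lit 0)) (cs (rf (nat_lit 1)) (rf (nat_lit 2))))) q103773 (by decide +kernel)
def q103887 : Q := Q.p (nat_lit 0x800006000010000000000000000000000000000000000000000000000000000000000) (nat_lit 0xc0000340000dc000f700038c000ef0003fc0002c0000800000000000000000000000000000000000000000) (nat_lit 15)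
theorem c103887 : QOK q103887 := cut [q79181, q103781, q103854, q79289, q103857, q103858, q103352, q79422, q79768, q103780, q87305, q103885] ⟨c79181, c103781, c103854, c79289, c103857, c103858, c103352, c79422, c79768, c103780, c87305, c103885, trivial⟩ (nd (nat_lit 276) (nat_lit 0) (cs (nd (nat_lit 231) (nat_lit 0) (cs (rf (nat_lit 0)) (cs (rf (nat_lit 1)) (rf (nat_lit 2))))) (cs (nd (nat_lit 274) (nat_lit 0) (cs (rf (nat_lit 3)) (cs (rf (nat_lit 4)) (nd (nat_lit 209) (nat_lit 0) (cs (nd (nat_lit 256) (nat_lit 0) (cs (lf (nat_lit 7) (nat_lit 252)) (nd (nat_lit 210) (nat_lit 0) (cs (lf (nat_lit 47) (nat_lit 187)) (nd (nat_lit 189) (nat_lit 0) (cs (lf (nat_lit 34) (nat_lit 188)) (nd (nat_lit 277) (nat_lit 0) (cs (lf (nat_lit 29) (nat_lit 210)) (rf (nat_lit 5)))))))))) (cs (nd (nat_lit 231) (nat_lit 0) (cs (lf (nat_lit 41) (nat_lit 208)) (lf (nat_lit 24) (nat_lit 187)))) (nd (nat_lit 255) (nat_lit 0) (cs (lf (nat_lit 6) (nat_lit 252)) (nd (nat_lit 231) (nat_lit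 0) (cs (lf (nat_lit 41) (nat_lit 208)) (nd (nat_lit 229) (nat_lit 0) (cs (lf (nat_lit 1) (nat_lit 229)) (nd (nat_lit 208) (nat_lit 0) (cs (lf (nat_lit 47) (nat_lit 186)) (nd (nat_lit 207) (nat_lit 0) (cs (lf (nat_lit 0) (nat_lit 206)) (nd (nat_lit 210) (nat_lit 0) (cs (lf (nat_lit 5) (nat_lit 207)) (lf (nat_lit 11) (nat_lit 206)))))))))))))))))))) (cs (nd (nat_lit 231) (nat_lit 0) (cs (rf (nat_lit 0)) (rf (nat_lit 6)))) (cs (nd (nat_lit 298) (nat_lit 0) (cs (rf (nat_lit 7)) (cs (rf (nat_lit 8)) (rf (nat_lit 9))))) (nd (nat_lit 231) (nat_lit 0) (cs (rf (nat_lit 0)) (cs (nd (nat_lit 298) (nat_lit 0) (cs (lf (nat_lit 42) (nat_lit 231)) (nd (nat_lit 299) (nat_lit 0) (cs (lf (nat_lit 29) (nat_lit 232)) (nd (nat_lit 273) (nat_lit 0) (cs (lf (nat_lit 1) (nat_lit 273)) (nd (nat_lit 277) (nat_lit 0) (cs (lf (nat_lit 24) (nat_lit 210)) (nd (nat_lit 278) (nat_lit 0) (cs (lf (nat_lit 18) (nat_lit 253)) (nd (nat_lit 256) (nat_lit 0) (cs (lf (nat_lit 17) (nat_lit 253))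 (nd (nat_lit 230) (nat_lit 0) (cs (lf (nat_lit 19) (nat_lit 230)) (nd (nat_lit 229) (nat_lit 0) (cs (lf (nat_lit 0) (nat_lit 228)) (nd (nat_lit 212) (nat_lit 0) (cs (lf (nat_lit 37) (nat_lit 211)) (nd (nat_lit 251) (nat_lit 0) (cs (lf (nat_lit 11) (nat_lit 228)) (nd (nat_lit 207) (nat_lit 0) (cs (lf (nat_lit 23) (nat_lit 206)) (rf (nat_lit 10)))))))))))))))))))))))) (rf (nat_lit 11)))))))))) q103887 (by decide +kernel)
def q103911 : Q := Q.p (nat_lit 0x6000010000000000000000000000000000000000000000000000000000000000) (nat_lit 0x280000e0000380000fc000ff0003800000c0000f00003c0000e00002800000000000000000000000000000000000) (nat_lit 12)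
theorem c103911 : QOK q103911 := cut [q79128, q79988, q102958, q102820, q103901, q97030, q103908] ⟨c79128, c79988, c102958, c102820, c103901, c97030, c103908, trivial⟩ (nd (nat_lit 210) (nat_lit 0) (cs (rf (nat_lit 0)) (cs (rf (nat_lit 1)) (cs (rf (nat_lit 2)) (nd (nat_lit 276) (nat_lit 0) (cs (rf (nat_lit 3)) (cs (nd (nat_lit 277) (nat_lit 0) (cs (lf (nat_lit 29) (nat_lit 210)) (nd (nat_lit 278) (nat_lit 0) (cs (lf (nat_lit 18) (nat_lit 253)) (nd (nat_lit 189) (nat_lit 0) (cs (lf (nat_lit 34) (nat_lit 188)) (nd (nat_lit 209) (nat_lit 0) (cs (lf (nat_lit 47) (nat_lit 187)) (nd (nat_lit 298) (nat_lit 0) (cs (lf (nat_lit 46) (nat_lit 209)) (nd (nat_lit 319) (nat_lit 0) (cs (lf (nat_lit 40) (nat_lit 231)) (nd (nat_lit 320) (nat_lit 0) (cs (lf (nat_lit 41) (nat_lit 253)) (nd (nat_lit 343) (nat_lit 0) (cs (lf (nat_lit 28) (nat_lit 254)) (nd (nat_lit 342) (nat_lit 0) (cs (lf (nat_lit 29) (nat_lit 276)) (lf (nat_lit 35) (nat_lit 254)))))))))))))))))))) (cs (rf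 (nat_lit 4)) (cs (nd (nat_lit 277) (nat_lit 0) (cs (lf (nat_lit 29) (nat_lit 210)) (nd (nat_lit 278) (nat_lit 0) (cs (lf (nat_lit 18) (nat_lit 253)) (nd (nat_lit 275) (nat_lit 0) (cs (lf (nat_lit 41) (nat_lit 209)) (nd (nat_lit 256) (nat_lit 0) (cs (lf (nat_lit 17) (nat_lit 253)) (nd (nat_lit 255) (nat_lit 0) (cs (lf (nat_lit 12) (nat_lit 252)) (nd (nat_lit 231) (nat_lit 0) (cs (lf (nat_lit 23) (nat_lit 230)) (rf (nat_lit 5)))))))))))))) (nd (nat_lit 189) (nat_lit 0) (cs (lf (nat_lit 34) (nat_lit 188)) (rf (nat_lit 6))))))))))))) q103911 (by decide +kernel)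
def q103950 : Q := Q.p (nat_lit 0x6000010000040000000000000000000000000000000000000000000000000000) (nat_lit 0x80000600003e0000f0000ff000380000ec00033c000cc0000000000000000000000000000000000000000000000) (nat_lit 12)
theorem c103950 : QOK q103950 := cut [q102896, q103763, q103908, q103928, q79276] ⟨c102896, c103763, c103908, c103928, c79276, trivial⟩ (nd (nat_lit 276) (nat_lit 0) (cs (rf (nat_lit 0)) (cs (rf (nat_lit 1)) (cs (rf (nat_lit 2)) (cs (rf (nat_lit 3)) (cs (nd (nat_lit 275) (nat_lit 0) (cs (rf (nat_lit 4)) (nd (nat_lit 187) (nat_lit 0) (cs (lf (nat_lit 46) (nat_lit 187)) (nd (nat_lit 277) (nat_lit 0) (cs (lf (nat_lit 29) (nat_lit 210)) (nd (nat_lit 278) (nat_lit 0) (cs (lf (nat_lit 18) (nat_lit 253)) (nd (nat_lit 256) (nat_lit 0) (cs (lf (nat_lit 17) (nat_lit 253)) (nd (nat_lit 255) (nat_lit 0) (cs (lf (nat_lit 12) (nat_lit 252)) (nd (nat_lit 231) (nat_lit 0) (cs (lf (nat_lit 23) (nat_lit 230)) (nd (nat_lit 234) (nat_lit 0) (cs (lf (nat_lit 17)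 (nat_lit 231)) (nd (nat_lit 212) (nat_lit 0) (cs (lf (nat_lit 36) (nat_lit 189)) (nd (nat_lit 213) (nat_lit 0) (cs (lf (nat_lit 35) (nat_lit 190)) (lf (nat_lit 14) (nat_lit 209)))))))))))))))))))))) (nd (nat_lit 277) (nat_lit 0) (cs (lf (nat_lit 29) (nat_lit 210)) (nd (nat_lit 278) (nat_lit 0) (cs (lf (nat_lit 18) (nat_lit 253)) (nd (nat_lit 209) (nat_lit 0) (cs (lf (nat_lit 47) (nat_lit 187)) (nd (nat_lit 298) (nat_lit 0) (cs (lf (nat_lit 46) (nat_lit 209)) (nd (nat_lit 319) (nat_lit 0) (cs (lf (nat_lit 40) (nat_lit 231)) (nd (nat_lit 320) (nat_lit 0) (cs (lf (nat_lit 41) (nat_lit 253)) (nd (nat_lit 255) (nat_lit 0) (cs (lf (nat_lit 35) (nat_lit 232)) (lf (nat_lit 30) (nat_lit 254)))))))))))))))))))))) q103950 (by decide +kernel)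
def q104171 : Q := Q.p (nat_lit 0x2000018000000000000000000000000000000000000000000000000000000000) (nat_lit 0x50000340000f8000ff0003dc000c70003e8000380000e00000000000000000000000000000000000000000) (nat_lit 14)
theorem c104171 : QOK q104171 := cut [q87016, q103149, q97351, q97533, q104166, q103430, q104001, q104008, q104167] ⟨c87016, c103149, c97351, c97533, c104166, c103430, c104001, c104008, c104167, trivial⟩ (nd (nat_lit 275) (nat_lit 0) (cs (rf (nat_lit 0)) (cs (rf (nat_lit 1)) (nd (nat_lit 276) (nat_lit 0) (cs (rf (nat_lit 2)) (cs (rf (nat_lit 3)) (cs (rf (nat_lit 4)) (nd (nat_lit 254) (nat_lit 0) (cs (rf (nat_lit 5)) (cs (rf (nat_lit 6)) (cs (rf (nat_lit 7)) (nd (nat_lit 188) (nat_lit 0) (cs (lf (nat_lit 37) (nat_lit 187)) (rf (nat_lit 8))))))))))))))) q104171 (by decide +kernel)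
def q104291 : Q := Q.p (nat_lit 0x2000018000000000000000000000000000000000000000000000000000000000) (nat_lit 0x360000d8000f70001de000278003fe0007e0001f80002000000000000000000000000000000000000) (nat_lit 13)
theorem c104291 : QOK q104291 := cut [q86623, q104264, q104265, q104270, q104283, q79307, q103787, q104284, q104287, q104288, q103413, q103417, q103418, q103421] ⟨c86623, c104264, c104265, c104270, c104283, c79307, c103787, c104284, c104287, c104288, c103413, c103417, c103418, c103421, trivial⟩ (nd (nat_lit 252) (nat_lit 0) (cs (rf (nat_lit 0)) (cs (rf (nat_lit 1)) (cs (nd (nat_lit 230) (nat_lit 0) (cs (rf (nat_lit 2)) (cs (rf (nat_lit 3)) (cs (rf (nat_lit 4)) (nd (nat_lit 254) (nat_lit 0) (cs (rf (nat_lit 5)) (cs (rf (nat_lit 6)) (rf (nat_lit 7))))))))) (cs (nd (nat_lit 230) (nat_lit 0) (cs (rf (nat_lit 3)) (cs (rf (nat_lit 8)) (rf (nat_lit 9))))) (nd (nat_lit 254) (nat_lit 0) (cs (rf (nat_lit 10)) (cs (rf (nat_lit 11)) (cs (rf (nat_lit 12)) (rf (nat_lit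 13))))))))))) q104291 (by decide +kernel)
def q104422 : Q := Q.p (nat_lit 0x6000010000000000000000000000000000000000000000000000000000000000) (nat_lit 0x200000a80006f80019c000ef80005c000160000080000000000000000000000000000000000000000) (nat_lit 10)
theorem c104422 : QOK q104422 := cut [q81677, q81730, q102862, q103516] ⟨c81677, c81730, c102862, c103516, trivial⟩ (nd (nat_lit 252) (nat_lit 0) (cs (rf (nat_lit 0)) (cs (rf (nat_lit 1)) (cs (rf (nat_lit 2)) (rf (nat_lit 3)))))) q104422 (by decide +kernel)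
def q104437 : Q := Q.p (nat_lit 0x6000010000000000000000000000000000000000000000000000000000000000) (nat_lit 0x20000090000ef80079c000eb800048000020000000000000000000000000000000000000000000000) (nat_lit 7)
theorem c104437 : QOK q104437 := cut [q81677, q81730, q104435, q104436] ⟨c81677, c81730, c104435, c104436, trivial⟩ (nd (nat_lit 252) (nat_lit 0) (cs (rf (nat_lit 0)) (cs (rf (nat_lit 1)) (cs (rf (nat_lit 2)) (rf (nat_lit 3)))))) q104437 (by decide +kernel)
def q104474 : Q := Q.p (nat_lit 0x6000010000000000000000000000000000000000000000000000000000000000) (nat_lit 0x80000700003f00019c000e80000fc000fc0000e00002800000000000000000000000000000000000) (nat_lit 11)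
theorem c104474 : QOK q104474 := cut [q79128, q102805, q102828, q102829, q102814, q102835, q103908, q79276, q80008, q80720, q79273] ⟨c79128, c102805, c102828, c102829, c102814, c102835, c103908, c79276, c80008, c80720, c79273, trivial⟩ (nd (nat_lit 210) (nat_lit 0) (cs (rf (nat_lit 0)) (cs (rf (nat_lit 1)) (cs (rf (nat_lit 2)) (cs (rf (nat_lit 3)) (nd (nat_lit 276) (nat_lit 0) (cs (rf (nat_lit 4)) (cs (rf (nat_lit 5)) (cs (rf (nat_lit 6)) (nd (nat_lit 275) (nat_lit 0) (cs (rf (nat_lit 7)) (nd (nat_lit 274) (nat_lit 0) (cs (rf (nat_lit 8)) (cs (rf (nat_lit 9)) (nd (nat_lit 255) (nat_lit 0) (cs (lf (nat_lit 6) (nat_lit 252)) (nd (nat_lit 189) (nat_lit 0) (cs (lf (nat_lit 34) (nat_lit 188)) (nd (nat_lit 209) (nat_lit 0) (cs (lf (nat_lit 47) (nat_lit 187)) (nd (nat_lit 231) (nat_lit 0) (cs (lf (nat_lit 41) (nat_lit 208)) (rf (nat_lit 10)))))))))))))))))))))))) q104474 (by decide +kernel)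
def q104534 : Q := Q.p (nat_lit 0x2000010000000000000000000000000000000000000000000000000000000000) (nat_lit 0x500003e0000fe000ff8007df003ef0007fc0006e0001f00005c00004000000000000000000000000000000) (nat_lit 14)
theorem c104534 : QOK q104534 := cut [q102762, q103130, q104143, q104487, q102760, q103131, q104142, q79299, q10764, q102740, q103232, q79193, q102079, q102459, q103149, q104517, q80158, q104525, q101804, q102535, q102742, q22592, q102731, q102733, q104287, q79097, q92960] ⟨c102762, c103130, c104143, c104487, c102760, c103131, c104142, c79299, c10764, c102740, c103232, c79193, c102079, c102459, c103149, c104517, c80158, c104525, c101804, c102535, c102742, c22592, c102731, c102733, c104287, c79097, c92960, trivial⟩ (nd (nat_lit 231) (nat_lit 0) (cs (rf (nat_lit 0)) (cs (rf (nat_lit 1)) (cs (rf (nat_lit 2)) (cs (rf (nat_lit 3)) (cs (nd (nat_lit 275) (nat_lit 0) (cs (rf (nat_lit 4)) (cs (rf (nat_lit 5)) (cs (rf (nat_lit 6)) (nd (nat_lit 209) (nat_lit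 0) (cs (rf (nat_lit 7)) (cs (nd (nat_lit 274) (nat_lit 0) (cs (lf (nat_lit 41) (nat_lit 208)) (nd (nat_lit 276) (nat_lit 0) (cs (lf (nat_lit 29) (nat_lit 209)) (nd (nat_lit 187) (nat_lit 0) (cs (rf (nat_lit 8)) (lf (nat_lit 28) (nat_lit 187)))))))) (nd (nat_lit 233) (nat_lit 0) (cs (rf (nat_lit 9)) (cs (rf (nat_lit 10)) (cs (nd (nat_lit 254) (nat_lit 0) (cs (rf (nat_lit 11)) (nd (nat_lit 274) (nat_lit 0) (cs (lf (nat_lit 41) (nat_lit 208)) (nd (nat_lit 255) (nat_lit 0) (cs (lf (nat_lit 6) (nat_lit 252)) (nd (nat_lit 230) (nat_lit 0) (cs (lf (nat_lit 0) (nat_lit 229)) (nd (nat_lit 272) (nat_lit 0) (cs (lf (nat_lit 13) (nat_lit 250)) (nd (nat_lit 208) (nat_lit 0) (cs (lf (nat_lit 23) (nat_lit 207)) (rf (nat_lit 12)))))))))))))) (nd (nat_lit 274) (nat_lit 0) (cs (lf (nat_lit 41) (nat_lit 208)) (nd (nat_lit 276) (nat_lit 0) (cs (lf (nat_lit 29) (nat_lit 209)) (nd (nat_lit 187) (nat_lit 0) (cs (lf (nat_lit 28) (nat_lit 187)) (rf (nat_lit 13)))))))))))))))))))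 (cs (nd (nat_lit 275) (nat_lit 0) (cs (rf (nat_lit 5)) (cs (rf (nat_lit 14)) (cs (rf (nat_lit 15)) (cs (nd (nat_lit 297) (nat_lit 0) (cs (lf (nat_lit 35) (nat_lit 209)) (nd (nat_lit 298) (nat_lit 0) (cs (lf (nat_lit 29) (nat_lit 231)) (nd (nat_lit 209) (nat_lit 0) (cs (lf (nat_lit 28) (nat_lit 209)) (nd (nat_lit 254) (nat_lit 0) (cs (lf (nat_lit 30) (nat_lit 231)) (nd (nat_lit 187) (nat_lit 0) (cs (lf (nat_lit 24) (nat_lit 165)) (rf (nat_lit 16)))))))))))) (nd (nat_lit 297) (nat_lit 0) (cs (lf (nat_lit 35) (nat_lit 209)) (rf (nat_lit 17))))))))) (cs (nd (nat_lit 275) (nat_lit 0) (cs (rf (nat_lit 4)) (cs (rf (nat_lit 5)) (cs (rf (nat_lit 6)) (rf (nat_lit 15)))))) (nd (nat_lit 233) (nat_lit 0) (cs (rf (nat_lit 18)) (cs (rf (nat_lit 19)) (cs (rf (nat_lit 9)) (cs (rf (nat_lit 20)) (nd (nat_lit 230) (nat_lit 0) (cs (rf (nat_lit 21)) (cs (rf (nat_lit 22)) (cs (rf (nat_lit 23)) (nd (nat_lit 252) (nat_lit 0) (cs (rf (nat_lit 24)) (nd (nat_lit 274) (nat_lit 0) (cs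 (rf (nat_lit 25)) (nd (nat_lit 211) (nat_lit 0) (cs (lf (nat_lit 17) (nat_lit 208)) (rf (nat_lit 26))))))))))))))))))))))))) q104534 (by decide +kernel)
def q104678 : Q := Q.p (nat_lit 0x2000018000000000000000000000000000000000000000000000000000000000) (nat_lit 0x500003e0000f80007f0001df000278000de000160000180000000000000000000000000000000000000000) (nat_lit 10)
theorem c104678 : QOK q104678 := cut [q103131, q86623, q104657, q104661, q102936, q104284, q94153, q104287, q104288, q104672, q104674, q97957, q102401, q97428, q98308, q103156] ⟨c103131, c86623, c104657, c104661, c102936, c104284, c94153, c104287, c104288, c104672, c104674, c97957, c102401, c97428, c98308, c103156, trivial⟩ (nd (nat_lit 275) (nat_lit 0) (cs (rf (nat_lit 0)) (cs (nd (nat_lit 252) (nat_lit 0) (cs (rf (nat_lit 1)) (cs (nd (nat_lit 230) (nat_lit 0) (cs (rf (nat_lit 2)) (cs (rf (nat_lit 3)) (nd (nat_lit 254) (nat_lit 0) (cs (rf (nat_lit 4)) (cs (rf (nat_lit 5)) (nd (nat_lit 210) (nat_lit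 0) (cs (lf (nat_lit 36) (nat_lit 187)) (rf (nat_lit 6)))))))))) (cs (nd (nat_lit 230) (nat_lit 0) (cs (rf (nat_lit 7)) (cs (rf (nat_lit 8)) (rf (nat_lit 2))))) (cs (rf (nat_lit 9)) (rf (nat_lit 10))))))) (nd (nat_lit 230) (nat_lit 0) (cs (rf (nat_lit 11)) (cs (rf (nat_lit 12)) (nd (nat_lit 229) (nat_lit 0) (cs (rf (nat_lit 13)) (cs (rf (nat_lit 14)) (rf (nat_lit 15))))))))))) q104678 (by decide +kernel)
def q104797 : Q := Q.p (nat_lit 0x6000010000000000000000000000000000000000000000000000000000000000) (nat_lit 0x100001c0003f0000fc000ff80039c0000f0003fc000370000580000000000000000000000000000000000000000) (nat_lit 17)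
theorem c104797 : QOK q104797 := cut [q79199, q79739, q80292, q104749, q79894, q104099, q104758, q101062, q85515, q102052, q104025, q82543, q13397, q1238, q101063, q104779, q101609, q104788, q96544, q103516, q102935, q103661, q91101, q104796] ⟨c79199, c79739, c80292, c104749, c79894, c104099, c104758, c101062, c85515, c102052, c104025, c82543, c13397, c1238, c101063, c104779, c101609, c104788, c96544, c103516, c102935, c103661, c91101, c104796, trivial⟩ (nd (nat_lit 275) (nat_lit 0) (cs (rf (nat_lit 0)) (cs (rf (nat_lit 1)) (cs (rf (nat_lit 2)) (cs (nd (nat_lit 276) (nat_lit 0) (cs (rf (nat_lit 3)) (cs (nd (nat_lit 210) (nat_lit 0) (cs (lf (nat_lit 36) (nat_lit 187)) (nd (nat_lit 189) (nat_lit 0) (cs (lf (nat_lit 34) (nat_lit 188)) (nd (nat_lit 277) (nat_lit 0) (cs (lf (nat_lit 29) (nat_lit 210)) (nd (nat_lit 278) (nat_lit 0) (cs (lf (nat_lit 18) (nat_lit 253)) (nd (nat_lit 256) (nat_lit 0) (cs (lf (nat_lit 17) (nat_lit 253)) (nd (nat_lit 255) (nat_lit 0)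 (cs (lf (nat_lit 12) (nat_lit 252)) (nd (nat_lit 231) (nat_lit 0) (cs (lf (nat_lit 23) (nat_lit 230)) (rf (nat_lit 4)))))))))))))))) (cs (nd (nat_lit 231) (nat_lit 0) (cs (rf (nat_lit 4)) (cs (nd (nat_lit 210) (nat_lit 0) (cs (lf (nat_lit 36) (nat_lit 187)) (rf (nat_lit 5)))) (nd (nat_lit 273) (nat_lit 0) (cs (rf (nat_lit 6)) (cs (nd (nat_lit 251) (nat_lit 0) (cs (nd (nat_lit 252) (nat_lit 0) (cs (lf (nat_lit 12) (nat_lit 228)) (lf (nat_lit 11) (nat_lit 250)))) (cs (nd (nat_lit 252) (nat_lit 0) (cs (lf (nat_lit 11) (nat_lit 250)) (nd (nat_lit 229) (nat_lit 0) (cs (lf (nat_lit 23) (nat_lit 228)) (nd (nat_lit 188) (nat_lit 0) (cs (lf (nat_lit 37) (nat_lit 187)) (rf (nat_lit 7)))))))) (cs (nd (nat_lit 320) (nat_lit 0) (cs (lf (nat_lit 43) (nat_lit 231)) (nd (nat_lit 210) (nat_lit 0) (cs (rf (nat_lit 8)) (nd (nat_lit 229) (nat_lit 0) (cs (rf (nat_lit 9)) (cs (rf (nat_lit 10)) (nd (nat_lit 295) (nat_lit 0) (cs (nd (nat_lit 189) (nat_lit 0) (cs (lf (nat_lit 34)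 (nat_lit 188)) (rf (nat_lit 11)))) (cs (nd (nat_lit 318) (nat_lit 0) (cs (lf (nat_lit 28) (nat_lit 229)) (rf (nat_lit 12)))) (nd (nat_lit 189) (nat_lit 0) (cs (lf (nat_lit 34) (nat_lit 188)) (nd (nat_lit 206) (nat_lit 0) (cs (lf (nat_lit 46) (nat_lit 206)) (nd (nat_lit 296) (nat_lit 0) (cs (lf (nat_lit 29) (nat_lit 229)) (nd (nat_lit 207) (nat_lit 0) (cs (lf (nat_lit 47) (nat_lit 184)) (nd (nat_lit 186) (nat_lit 0) (cs (lf (nat_lit 34) (nat_lit 185)) (nd (nat_lit 185) (nat_lit 0) (cs (rf (nat_lit 13)) (lf (nat_lit 35) (nat_lit 163)))))))))))))))))))))))) (nd (nat_lit 188) (nat_lit 0) (cs (lf (nat_lit 37) (nat_lit 187)) (nd (nat_lit 252) (nat_lit 0) (cs (lf (nat_lit 12) (nat_lit 228)) (nd (nat_lit 229) (nat_lit 0) (cs (lf (nat_lit 23) (nat_lit 228)) (rf (nat_lit 14)))))))))))) (cs (nd (nat_lit 298) (nat_lit 0) (cs (lf (nat_lit 42) (nat_lit 231)) (rf (nat_lit 15)))) (nd (nat_lit 274) (nat_lit 0) (cs (lf (nat_lit 12) (nat_lit 250)) (rf (nat_lit 16)))))))))))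 (cs (rf (nat_lit 17)) (nd (nat_lit 252) (nat_lit 0) (cs (rf (nat_lit 18)) (cs (rf (nat_lit 19)) (nd (nat_lit 255) (nat_lit 0) (cs (rf (nat_lit 20)) (cs (rf (nat_lit 21)) (nd (nat_lit 274) (nat_lit 0) (cs (lf (nat_lit 12) (nat_lit 251)) (nd (nat_lit 229) (nat_lit 0) (cs (lf (nat_lit 22) (nat_lit 229)) (nd (nat_lit 188) (nat_lit 0) (cs (lf (nat_lit 37) (nat_lit 187)) (rf (nat_lit 22))))))))))))))))))) (rf (nat_lit 23))))))) q104797 (by decide +kernel)
def q104833 : Q := Q.p (nat_lit 0x6000010000040000000000000000000000000000000000000000000000000000) (nat_lit 0x80000380000f0001df80079c003ef8007a8001ea0001800006000000000000000000000000000000000000) (nat_lit 14)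
theorem c104833 : QOK q104833 := cut [q81677, q81730, q104435, q102855, q103606, q104807, q79800, q104414, q104814, q79569, q104830] ⟨c81677, c81730, c104435, c102855, c103606, c104807, c79800, c104414, c104814, c79569, c104830, trivial⟩ (nd (nat_lit 252) (nat_lit 0) (cs (rf (nat_lit 0)) (cs (rf (nat_lit 1)) (cs (rf (nat_lit 2)) (nd (nat_lit 255) (nat_lit 0) (cs (rf (nat_lit 3)) (cs (rf (nat_lit 4)) (cs (nd (nat_lit 229) (nat_lit 0) (cs (lf (nat_lit 22) (nat_lit 229)) (rf (nat_lit 5)))) (cs (nd (nat_lit 211) (nat_lit 0) (cs (rf (nat_lit 6)) (cs (nd (nat_lit 273) (nat_lit 0) (cs (lf (nat_lit 10) (nat_lit 251)) (nd (nat_lit 276) (nat_lit 0) (cs (lf (nat_lit 35) (nat_lit 188)) (nd (nat_lit 187) (nat_lit 0) (cs (lf (nat_lit 46) (nat_lit 187)) (nd (nat_lit 297) (nat_lit 0) (cs (lf (nat_lit 40) (nat_lit 209)) (nd (nat_lit 229) (nat_lit 0) (cs (lf (nat_lit 22) (nat_lit 229)) (rf (nat_lit 7)))))))))))) (cs (nd (nat_lit 233) (nat_lit 0) (cs (lf (nat_lit 17) (nat_lit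 230)) (nd (nat_lit 167) (nat_lit 0) (cs (lf (nat_lit 37) (nat_lit 166)) (nd (nat_lit 273) (nat_lit 0) (cs (lf (nat_lit 10) (nat_lit 251)) (nd (nat_lit 230) (nat_lit 0) (cs (lf (nat_lit 23) (nat_lit 229)) (rf (nat_lit 8)))))))))) (nd (nat_lit 230) (nat_lit 0) (cs (lf (nat_lit 23) (nat_lit 229)) (nd (nat_lit 233) (nat_lit 0) (cs (lf (nat_lit 17) (nat_lit 230)) (nd (nat_lit 276) (nat_lit 0) (cs (lf (nat_lit 30) (nat_lit 210)) (nd (nat_lit 275) (nat_lit 0) (cs (lf (nat_lit 41) (nat_lit 209)) (nd (nat_lit 273) (nat_lit 0) (cs (lf (nat_lit 13) (nat_lit 251)) (nd (nat_lit 212) (nat_lit 0) (cs (lf (nat_lit 13) (nat_lit 208)) (nd (nat_lit 213) (nat_lit 0) (cs (lf (nat_lit 6) (nat_lit 210)) (nd (nat_lit 235) (nat_lit 0) (cs (lf (nat_lit 5) (nat_lit 210)) (rf (nat_lit 9)))))))))))))))))))))) (nd (nat_lit 229) (nat_lit 0) (cs (lf (nat_lit 22) (nat_lit 229)) (rf (nat_lit 10))))))))))))) q104833 (by decide +kernel)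
def q104953 : Q := Q.p (nat_lit 0x6000010000000000000000000000000000000000000000000000000000000000) (nat_lit 0x3c0000f80007f80001c0006f80007c0001f0000300000000000000000000000000000000000000000) (nat_lit 13)
theorem c104953 : QOK q104953 := cut [q81730, q103623, q79199, q79739, q80374, q104732, q79181, q103854, q104157, q104943, q96544, q81994] ⟨c81730, c103623, c79199, c79739, c80374, c104732, c79181, c103854, c104157, c104943, c96544, c81994, trivial⟩ (nd (nat_lit 252) (nat_lit 0) (cs (rf (nat_lit 0)) (cs (rf (nat_lit 1)) (cs (nd (nat_lit 275) (nat_lit 0) (cs (rf (nat_lit 2)) (cs (rf (nat_lit 3)) (cs (nd (nat_lit 276) (nat_lit 0) (cs (rf (nat_lit 4)) (cs (rf (nat_lit 5)) (nd (nat_lit 231) (nat_lit 0) (cs (rf (nat_lit 6)) (cs (rf (nat_lit 7)) (nd (nat_lit 277) (nat_lit 0) (cs (lf (nat_lit 18) (nat_lit 252)) (nd (nat_lit 233) (nat_lit 0) (cs (lf (nat_lit 6) (nat_lit 230)) (rf (nat_lit 8)))))))))))) (rf (nat_lit 9)))))) (nd (nat_lit 275) (nat_lit 0) (cs (rf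 (nat_lit 2)) (cs (rf (nat_lit 3)) (cs (rf (nat_lit 9)) (nd (nat_lit 276) (nat_lit 0) (cs (rf (nat_lit 10)) (cs (rf (nat_lit 5)) (nd (nat_lit 210) (nat_lit 0) (cs (lf (nat_lit 36) (nat_lit 187)) (nd (nat_lit 250) (nat_lit 0) (cs (lf (nat_lit 1) (nat_lit 250)) (nd (nat_lit 209) (nat_lit 0) (cs (lf (nat_lit 47) (nat_lit 187)) (nd (nat_lit 231) (nat_lit 0) (cs (lf (nat_lit 29) (nat_lit 209)) (nd (nat_lit 274) (nat_lit 0) (cs (lf (nat_lit 41) (nat_lit 208)) (nd (nat_lit 272) (nat_lit 0) (cs (lf (nat_lit 13) (nat_lit 250)) (rf (nat_lit 11))))))))))))))))))))))))) q104953 (by decide +kernel)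
def q105113 : Q := Q.p (nat_lit 0x2000010000000000000000000000000000000000000000000000000000000000) (nat_lit 0x400001c0000fe000ff0007de003ef0007fc000fc0001f00007c00010000000000000000000000000000000) (nat_lit 16)
theorem c105113 : QOK q105113 := cut [q102739, q102762, q102765, q12207, q88863, q79693, q80157, q102428, q16090, q80721, q79960, q104078, q104218] ⟨c102739, c102762, c102765, c12207, c88863, c79693, c80157, c102428, c16090, c80721, c79960, c104078, c104218, trivial⟩ (nd (nat_lit 231) (nat_lit 0) (cs (rf (nat_lit 0)) (cs (rf (nat_lit 1)) (cs (rf (nat_lit 2)) (cs (nd (nat_lit 210) (nat_lit 0) (cs (rf (nat_lit 3)) (cs (rf (nat_lit 4)) (cs (nd (nat_lit 188) (nat_lit 0) (cs (lf (nat_lit 36) (nat_lit 165)) (nd (nat_lit 254) (nat_lit 0) (cs (rf (nat_lit 5)) (nd (nat_lit 167) (nat_lit 0) (cs (lf (nat_lit 34) (nat_lit 166)) (nd (nat_lit 187) (nat_lit 0) (cs (lf (nat_lit 47) (nat_lit 165)) (nd (nat_lit 209) (nat_lit 0) (cs (lf (nat_lit 42) (nat_lit 187))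 (rf (nat_lit 6)))))))))))) (nd (nat_lit 275) (nat_lit 0) (cs (lf (nat_lit 30) (nat_lit 209)) (nd (nat_lit 209) (nat_lit 0) (cs (nd (nat_lit 274) (nat_lit 0) (cs (lf (nat_lit 41) (nat_lit 208)) (nd (nat_lit 187) (nat_lit 0) (cs (lf (nat_lit 40) (nat_lit 186)) (rf (nat_lit 7)))))) (cs (nd (nat_lit 276) (nat_lit 0) (cs (lf (nat_lit 29) (nat_lit 209)) (nd (nat_lit 187) (nat_lit 0) (cs (rf (nat_lit 8)) (lf (nat_lit 43) (nat_lit 187)))))) (nd (nat_lit 254) (nat_lit 0) (cs (rf (nat_lit 9)) (cs (nd (nat_lit 276) (nat_lit 0) (cs (lf (nat_lit 42) (nat_lit 209)) (rf (nat_lit 10)))) (nd (nat_lit 274) (nat_lit 0) (cs (lf (nat_lit 41) (nat_lit 208)) (nd (nat_lit 272) (nat_lit 0) (cs (lf (nat_lit 13) (nat_lit 250)) (nd (nat_lit 255) (nat_lit 0) (cs (lf (nat_lit 6) (nat_lit 252)) (nd (nat_lit 229) (nat_lit 0) (cs (lf (nat_lit 1) (nat_lit 229)) (nd (nat_lit 276) (nat_lit 0) (cs (lf (nat_lit 42) (nat_lit 209)) (nd (nat_lit 277) (nat_lit 0) (cs (lf (nat_lit 29) (nat_lit 210))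 (nd (nat_lit 278) (nat_lit 0) (cs (lf (nat_lit 18) (nat_lit 253)) (nd (nat_lit 211) (nat_lit 0) (cs (lf (nat_lit 35) (nat_lit 188)) (nd (nat_lit 212) (nat_lit 0) (cs (lf (nat_lit 6) (nat_lit 209)) (nd (nat_lit 190) (nat_lit 0) (cs (lf (nat_lit 17) (nat_lit 187)) (lf (nat_lit 32) (nat_lit 189)))))))))))))))))))))))))))))))))) (cs (rf (nat_lit 11)) (rf (nat_lit 12)))))))) q105113 (by decide +kernel)
def q105131 : Q := Q.p (nat_lit 0x3800002000000000000000000000000000000000000000000000000000000000) (nat_lit 0x10000070000fc0003fc000000000d80003e0003f00003c0000500000000000000000000000000000000000) (nat_lit 12)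
theorem c105131 : QOK q105131 := cut [q5482, q11484, q80450, q82226, q82207, q89679, q105120, q105124] ⟨c5482, c11484, c80450, c82226, c82207, c89679, c105120, c105124, trivial⟩ (nd (nat_lit 207) (nat_lit 0) (cs (rf (nat_lit 0)) (cs (rf (nat_lit 1)) (cs (rf (nat_lit 2)) (cs (rf (nat_lit 3)) (nd (nat_lit 273) (nat_lit 0) (cs (rf (nat_lit 4)) (cs (rf (nat_lit 5)) (cs (rf (nat_lit 6)) (nd (nat_lit 184) (nat_lit 0) (cs (lf (nat_lit 46) (nat_lit 184)) (nd (nat_lit 274) (nat_lit 0) (cs (lf (nat_lit 29) (nat_lit 207)) (nd (nat_lit 208) (nat_lit 0) (cs (lf (nat_lit 35) (nat_lit 185)) (nd (nat_lit 230) (nat_lit 0) (cs (lf (nat_lit 30) (nat_lit 207)) (nd (nat_lit 227) (nat_lit 0) (cs (lf (nat_lit 1) (nat_lit 227)) (rf (nat_lit 7))))))))))))))))))))) q105131 (by decide +kernel)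
def q105251 : Q := Q.p (nat_lit 0xc00003000000000000000000000000000000000000000000000000000000000000000) (nat_lit 0xf80003e0001de000738001c600004000010000000000000000000000000000000000000000000000000000) (nat_lit 12)
theorem c105251 : QOK q105251 := cut [q84408, q98384, q1310, q105248] ⟨c84408, c98384, c1310, c105248, trivial⟩ (nd (nat_lit 273) (nat_lit 0) (cs (rf (nat_lit 0)) (cs (rf (nat_lit 1)) (nd (nat_lit 276) (nat_lit 0) (cs (rf (nat_lit 2)) (cs (nd (nat_lit 298) (nat_lit 0) (cs (lf (nat_lit 5) (nat_lit 273)) (nd (nat_lit 320) (nat_lit 0) (cs (lf (nat_lit 42) (nat_lit 253)) (nd (nat_lit 254) (nat_lit 0) (cs (lf (nat_lit 17) (nat_lit 251)) (nd (nat_lit 319) (nat_lit 0) (cs (lf (nat_lit 41) (nat_lit 253)) (nd (nat_lit 295) (nat_lit 0) (cs (lf (nat_lit 11) (nat_lit 272)) (nd (nat_lit 321) (nat_lit 0) (cs (lf (nat_lit 29) (nat_lit 254)) (nd (nat_lit 208) (nat_lit 0) (cs (lf (nat_lit 37) (nat_lit 207)) (nd (nat_lit 318) (nat_lit 0) (cs (lf (nat_lit 22)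 (nat_lit 295)) (nd (nat_lit 339) (nat_lit 0) (cs (lf (nat_lit 10) (nat_lit 317)) (lf (nat_lit 31) (nat_lit 251)))))))))))))))))))) (nd (nat_lit 294) (nat_lit 0) (cs (lf (nat_lit 10) (nat_lit 272)) (rf (nat_lit 3)))))))))) q105251 (by decide +kernel)
def q105268 : Q := Q.p (nat_lit 0xc00003000000000000000000000000000000000000000000000000000000000000000) (nat_lit 0x40000100001ce000738001c600008000000000000000000000000000000000000000000000000000000000) (nat_lit 8)
theorem c105268 : QOK q105268 := cut [q84408, q98384, q1310, q105248] ⟨c84408, c98384, c1310, c105248, trivial⟩ (nd (nat_lit 273) (nat_lit 0) (cs (rf (nat_lit 0)) (cs (rf (nat_lit 1)) (nd (nat_lit 276) (nat_lit 0) (cs (rf (nat_lit 2)) (cs (rf (nat_lit 3)) (nd (nat_lit 298) (nat_lit 0) (cs (lf (nat_lit 5) (nat_lit 273)) (nd (nat_lit 320) (nat_lit 0) (cs (lf (nat_lit 42) (nat_lit 253)) (nd (nat_lit 254) (nat_lit 0) (cs (lf (nat_lit 47) (nat_lit 231)) (lf (nat_lit 6) (nat_lit 251)))))))))))))) q105268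 (by decide +kernel)
def q105300 : Q := Q.p (nat_lit 0xc00003000000000000000000000000000000000000000000000000000000000000000) (nat_lit 0x380000e00003c00030000000000070000f80000e0000000000000000000000000000000000000000000000) (nat_lit 7)
theorem c105300 : QOK q105300 := cut [q98468, q98863, q83734, q98860, q105298] ⟨c98468, c98863, c83734, c98860, c105298, trivial⟩ (nd (nat_lit 230) (nat_lit 0) (cs (rf (nat_lit 0)) (cs (rf (nat_lit 1)) (nd (nat_lit 296) (nat_lit 0) (cs (rf (nat_lit 2)) (cs (rf (nat_lit 3)) (rf (nat_lit 4)))))))) q105300 (by decide +kernel)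
def q105332 : Q := Q.p (nat_lit 0xc00003000000000000000000000000000000000000000000000000000000000000000) (nat_lit 0xc0000320001fe000738001c600004000010000000000000000000000000000000000000000000000000000) (nat_lit 10)
theorem c105332 : QOK q105332 := cut [q84408, q98384, q1310, q105248] ⟨c84408, c98384, c1310, c105248, trivial⟩ (nd (nat_lit 273) (nat_lit 0) (cs (rf (nat_lit 0)) (cs (rf (nat_lit 1)) (nd (nat_lit 276) (nat_lit 0) (cs (rf (nat_lit 2)) (cs (rf (nat_lit 3)) (nd (nat_lit 298) (nat_lit 0) (cs (lf (nat_lit 5) (nat_lit 273)) (nd (nat_lit 320) (nat_lit 0) (cs (lf (nat_lit 42) (nat_lit 253)) (nd (nat_lit 254) (nat_lit 0) (cs (lf (nat_lit 17) (nat_lit 251)) (nd (nat_lit 295) (nat_lit 0) (cs (lf (nat_lit 11) (nat_lit 272)) (nd (nat_lit 321) (nat_lit 0) (cs (lf (nat_lit 29) (nat_lit 254)) (nd (nat_lit 230) (nat_lit 0) (cs (lf (nat_lit 36) (nat_lit 207)) (nd (nat_lit 296) (nat_lit 0) (cs (lf (nat_lit 41) (nat_lit 229)) (lf (nat_lit 2) (nat_lit 295))))))))))))))))))))))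 q105332 (by decide +kernel)
def q105466 : Q := Q.p (nat_lit 0x80000300000c000000000000000000000000000000000000000000000000000000000) (nat_lit 0x20000000001c0000738003ce000100000400000000000000000000000000000000000000000) (nat_lit 7)
theorem c105466 : QOK q105466 := cut [q87016, q97706, q97958] ⟨c87016, c97706, c97958, trivial⟩ (nd (nat_lit 232) (nat_lit 0) (cs (rf (nat_lit 0)) (cs (rf (nat_lit 1)) (rf (nat_lit 2))))) q105466 (by decide +kernel)
def q105526 : Q := Q.p (nat_lit 0xc00003000000000000000000000000000000000000000000000000000000000000000) (nat_lit 0x400001a0000ee0003380000e00007800014000010000000000000000000000000000000000000000000000) (nat_lit 8)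
theorem c105526 : QOK q105526 := cut [q91664, q99030, q99105, q105525] ⟨c91664, c99030, c99105, c105525, trivial⟩ (nd (nat_lit 273) (nat_lit 0) (cs (rf (nat_lit 0)) (cs (rf (nat_lit 1)) (cs (rf (nat_lit 2)) (rf (nat_lit 3)))))) q105526 (by decide +kernel)
def q105549 : Q := Q.p (nat_lit 0xc00003000008000000000000000000000000000000000000000000000000000000000) (nat_lit 0x28000038000000001400003e0000e0000000000000000000000000000000000000000000000) (nat_lit 8)
theorem c105549 : QOK q105549 := cut [q88919] ⟨c88919, trivial⟩ (nd (nat_lit 209) (nat_lit 0) (cs (lf (nat_lit 36) (nat_lit 186)) (rf (nat_lit 0)))) q105549 (by decide +kernel)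
def q105571 : Q := Q.p (nat_lit 0xc00003000000000000000000000000000000000000000000000000000000000000000) (nat_lit 0x18000060001de0007380018e0000300000c000030000000000000000000000000000000000000000000000) (nat_lit 10)
theorem c105571 : QOK q105571 := cut [q700, q2190, q99108] ⟨c700, c2190, c99108, trivial⟩ (nd (nat_lit 276) (nat_lit 0) (cs (rf (nat_lit 0)) (cs (rf (nat_lit 1)) (rf (nat_lit 2))))) q105571 (by decide +kernel)
def q105647 : Q := Q.p (nat_lit 0x400003000000000000000000000000000000000000000000000000000000000000000) (nat_lit 0xa0000380001f0001fc0007b80000e0007f8001ee000080000000000000000000000000000000000000000000000) (nat_lit 15)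
theorem c105647 : QOK q105647 := cut [q80649, q105515, q80648, q81013, q95187, q88191, q89030, q2560, q105566, q105635, q2561, q90571] ⟨c80649, c105515, c80648, c81013, c95187, c88191, c89030, c2560, c105566, c105635, c2561, c90571, trivial⟩ (nd (nat_lit 296) (nat_lit 0) (cs (rf (nat_lit 0)) (cs (rf (nat_lit 1)) (nd (nat_lit 231) (nat_lit 0) (cs (rf (nat_lit 2)) (cs (rf (nat_lit 3)) (nd (nat_lit 297) (nat_lit 0) (cs (rf (nat_lit 4)) (cs (nd (nat_lit 230) (nat_lit 0) (cs (lf (nat_lit 29) (nat_lit 230)) (nd (nat_lit 295) (nat_lit 0) (cs (lf (nat_lit 41) (nat_lit 229)) (rf (nat_lit 5)))))) (cs (nd (nat_lit 298) (nat_lit 0) (cs (rf (nat_lit 6)) (cs (nd (nat_lit 275) (nat_lit 0) (cs (lf (nat_lit 29) (nat_lit 231)) (rf (nat_lit 7)))) (cs (nd (nat_lit 275) (nat_lit 0) (cs (lf (nat_lit 29) (nat_lit 231)) (rf (nat_lit 8)))) (nd (nat_lit 275) (nat_lit 0) (cs (lf (nat_lit 29) (nat_lit 231)) (nd (nat_lit 273) (nat_lit 0) (cs (lf (nat_lit 0) (nat_lit 272)) (nd (nat_lit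 319) (nat_lit 0) (cs (lf (nat_lit 42) (nat_lit 252)) (nd (nat_lit 232) (nat_lit 0) (cs (lf (nat_lit 35) (nat_lit 209)) (nd (nat_lit 233) (nat_lit 0) (cs (lf (nat_lit 6) (nat_lit 230)) (nd (nat_lit 251) (nat_lit 0) (cs (lf (nat_lit 12) (nat_lit 228)) (nd (nat_lit 207) (nat_lit 0) (cs (lf (nat_lit 25) (nat_lit 207)) (rf (nat_lit 9)))))))))))))))))))) (nd (nat_lit 275) (nat_lit 0) (cs (rf (nat_lit 10)) (rf (nat_lit 11)))))))))))))) q105647 (by decide +kernel)
def q105707 : Q := Q.p (nat_lit 0x100000400003000004000000000000000000000000000000000000000000000000000000000) (nat_lit 0xe0007b8001ee000080000000000000000000000000000000000000000000000) (nat_lit 9)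
theorem c105707 : QOK q105707 := cut [q79097, q88191] ⟨c79097, c88191, trivial⟩ (nd (nat_lit 231) (nat_lit 0) (cs (rf (nat_lit 0)) (rf (nat_lit 1)))) q105707 (by decide +kernel)
def q105738 : Q := Q.p (nat_lit 0x400003000000000000000000000000000000000000000000000000000000000000000) (nat_lit 0xa0000780003f0001fe0007b80018e0007c0000f0000080000000000000000000000000000000000000000000000) (nat_lit 14)
theorem c105738 : QOK q105738 := cut [q80649, q81014, q91797, q95187, q89030, q105716, q23321, q105718, q91801, q105635, q105494, q105520, q105601, q98948, q105737] ⟨c80649, c81014, c91797, c95187, c89030, c105716, c23321, c105718, c91801, c105635, c105494, c105520, c105601, c98948, c105737, trivial⟩ (nd (nat_lit 296) (nat_lit 0) (cs (rf (nat_lit 0)) (cs (rf (nat_lit 1)) (cs (nd (nat_lit 297) (nat_lit 0) (cs (rf (nat_lit 2)) (cs (rf (nat_lit 3)) (cs (nd (nat_lit 298) (nat_lit 0) (cs (rf (nat_lit 4)) (cs (nd (nat_lit 273) (nat_lit 0) (cs (lf (nat_lit 18) (nat_lit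 273)) (rf (nat_lit 5)))) (cs (nd (nat_lit 275) (nat_lit 0) (cs (rf (nat_lit 6)) (cs (nd (nat_lit 319) (nat_lit 0) (cs (lf (nat_lit 42) (nat_lit 252)) (nd (nat_lit 299) (nat_lit 0) (cs (lf (nat_lit 18) (nat_lit 274)) (rf (nat_lit 7)))))) (nd (nat_lit 299) (nat_lit 0) (cs (lf (nat_lit 18) (nat_lit 274)) (nd (nat_lit 209) (nat_lit 0) (cs (lf (nat_lit 37) (nat_lit 208)) (rf (nat_lit 8))))))))) (nd (nat_lit 275) (nat_lit 0) (cs (rf (nat_lit 6)) (cs (nd (nat_lit 272) (nat_lit 0) (cs (lf (nat_lit 1) (nat_lit 272)) (nd (nat_lit 319) (nat_lit 0) (cs (lf (nat_lit 42) (nat_lit 252)) (rf (nat_lit 7)))))) (nd (nat_lit 319) (nat_lit 0) (cs (lf (nat_lit 42) (nat_lit 252)) (nd (nat_lit 273) (nat_lit 0) (cs (lf (nat_lit 0) (nat_lit 272)) (nd (nat_lit 231) (nat_lit 0) (cs (lf (nat_lit 36) (nat_lit 208)) (nd (nat_lit 232) (nat_lit 0) (cs (lf (nat_lit 35) (nat_lit 209)) (nd (nat_lit 233) (nat_lit 0) (cs (lf (nat_lit 6) (nat_lit 230)) (nd (nat_lit 251) (nat_lit 0) (cs (lf (nat_lit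 12) (nat_lit 228)) (rf (nat_lit 9))))))))))))))))))))) (nd (nat_lit 275) (nat_lit 0) (cs (rf (nat_lit 10)) (cs (rf (nat_lit 11)) (cs (rf (nat_lit 12)) (nd (nat_lit 209) (nat_lit 0) (cs (lf (nat_lit 37) (nat_lit 208)) (rf (nat_lit 13)))))))))))) (rf (nat_lit 14)))))) q105738 (by decide +kernel)
def q105768 : Q := Q.p (nat_lit 0x3800000000000000000000000000000000000000000000000000000000000000) (nat_lit 0xe0000380000e00007f0000c00007b0000e0000380000c00002000000000000000000000000000000000000) (nat_lit 14)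
theorem c105768 : QOK q105768 := cut [q79020, q79232, q105764, q105767] ⟨c79020, c79232, c105764, c105767, trivial⟩ (nd (nat_lit 254) (nat_lit 0) (cs (rf (nat_lit 0)) (cs (rf (nat_lit 1)) (cs (rf (nat_lit 2)) (rf (nat_lit 3)))))) q105768 (by decide +kernel)
def q105769 : Q := Q.p (nat_lit 0x3800000000000000000000000000000000000000000000000000000000000000) (nat_lit 0xf80003e0001fc000060001bc0000e0000380000e0000280000000000000000000000000000000000) (nat_lit 15)
theorem c105769 : QOK q105769 := cut [q2065, q3764, q3765, q92599] ⟨c2065, c3764, c3765, c92599, trivial⟩ (nd (nat_lit 250) (nat_lit 0) (cs (rf (nat_lit 0)) (cs (rf (nat_lit 1)) (cs (rf (nat_lit 2)) (rf (nat_lit 3)))))) q105769 (by decide +kernel)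
def q105826 : Q := Q.p (nat_lit 0x3000000000000000000000000000000000000000000000000000000000000000) (nat_lit 0x80000f8001ff8003cc000f78001fc0007f0001dc0004500000000000000000000000000000000000) (nat_lit 15)
theorem c105826 : QOK q105826 := cut [q80466, q105807, q79009, q79024, q79201, q5482, q80450, q83967, q80446, q105819, q105823, q105767, q105825] ⟨c80466, c105807, c79009, c79024, c79201, c5482, c80450, c83967, c80446, c105819, c105823, c105767, c105825, trivial⟩ (nd (nat_lit 254) (nat_lit 0) (cs (rf (nat_lit 0)) (cs (rf (nat_lit 1)) (cs (nd (nat_lit 251) (nat_lit 0) (cs (rf (nat_lit 2)) (cs (rf (nat_lit 3)) (cs (rf (nat_lit 4)) (nd (nat_lit 229) (nat_lit 0) (cs (lf (nat_lit 23) (nat_lit 228)) (nd (nat_lit 207) (nat_lit 0) (cs (rf (nat_lit 5)) (cs (rf (nat_lit 6)) (cs (nd (nat_lit 273) (nat_lit 0) (cs (lf (nat_lit 11) (nat_lit 250)) (nd (nat_lit 276) (nat_lit 0) (cs (lf (nat_lit 5) (nat_lit 251)) (nd (nat_lit 184) (nat_lit 0) (cs (lf (nat_lit 46) (nat_lit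 184)) (nd (nat_lit 274) (nat_lit 0) (cs (lf (nat_lit 29) (nat_lit 207)) (nd (nat_lit 232) (nat_lit 0) (cs (lf (nat_lit 17) (nat_lit 229)) (rf (nat_lit 7)))))))))))) (nd (nat_lit 276) (nat_lit 0) (cs (lf (nat_lit 5) (nat_lit 251)) (nd (nat_lit 273) (nat_lit 0) (cs (lf (nat_lit 11) (nat_lit 250)) (nd (nat_lit 232) (nat_lit 0) (cs (lf (nat_lit 17) (nat_lit 229)) (rf (nat_lit 8)))))))))))))))))) (cs (rf (nat_lit 9)) (cs (rf (nat_lit 10)) (cs (nd (nat_lit 251) (nat_lit 0) (cs (rf (nat_lit 2)) (cs (rf (nat_lit 4)) (rf (nat_lit 11))))) (rf (nat_lit 12))))))))) q105826 (by decide +kernel)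
def q105885 : Q := Q.p (nat_lit 0x40000300000c000000000000000000000000000000000000000000000000000000000) (nat_lit 0x8000038000c00001000003e0000e0000380000000000000000000000000000000000000000) (nat_lit 8)
theorem c105885 : QOK q105885 := cut [q85040, q86677, q92919] ⟨c85040, c86677, c92919, trivial⟩ (nd (nat_lit 208) (nat_lit 0) (cs (rf (nat_lit 0)) (cs (rf (nat_lit 1)) (rf (nat_lit 2))))) q105885 (by decide +kernel)
def q105949 : Q := Q.p (nat_lit 0x3000008000000000000000000000000000000000000000000000000000000000) (nat_lit 0x1e000078000778001ce00067c001fe0007f80007c0001000000000000000000000000000000000000) (nat_lit 14)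
theorem c105949 : QOK q105949 := cut [q105914, q105924, q92800, q105925, q105930, q105927, q105939, q101387, q82198, q87152, q87526, q96868, q96869, q96873, q84998, q85001, q105875] ⟨c105914, c105924, c92800, c105925, c105930, c105927, c105939, c101387, c82198, c87152, c87526, c96868, c96869, c96873, c84998, c85001, c105875, trivial⟩ (nd (nat_lit 230) (nat_lit 0) (cs (rf (nat_lit 0)) (cs (rf (nat_lit 1)) (cs (nd (nat_lit 254) (nat_lit 0) (cs (rf (nat_lit 2)) (cs (rf (nat_lit 3)) (rf (nat_lit 4))))) (cs (nd (nat_lit 254) (nat_lit 0) (cs (rf (nat_lit 2)) (cs (nd (nat_lit 255) (nat_lit 0) (cs (lf (nat_lit 18) (nat_lit 230)) (nd (nat_lit 233) (nat_lit 0) (cs (lf (nat_lit 17) (nat_lit 230)) (nd (nat_lit 277) (nat_lit 0) (cs (lf (nat_lit 5) (nat_lit 252)) (nd (nat_lit 251) (nat_lit 0) (cs (lf (nat_lit 4) (nat_lit 251)) (rf (nat_lit 5)))))))))) (rf (nat_lit 6))))) (cs (nd (nat_lit 254) (nat_lit 0) (cs (rf (nat_lit 2)) (cs (rf (nat_lit 3)) (nd (nat_lit 251) (nat_lit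 0) (cs (rf (nat_lit 7)) (cs (rf (nat_lit 5)) (nd (nat_lit 229) (nat_lit 0) (cs (rf (nat_lit 8)) (nd (nat_lit 276) (nat_lit 0) (cs (lf (nat_lit 5) (nat_lit 251)) (nd (nat_lit 298) (nat_lit 0) (cs (lf (nat_lit 42) (nat_lit 231)) (nd (nat_lit 187) (nat_lit 0) (cs (lf (nat_lit 25) (nat_lit 187)) (rf (nat_lit 9)))))))))))))))) (nd (nat_lit 208) (nat_lit 0) (cs (rf (nat_lit 10)) (cs (rf (nat_lit 11)) (cs (rf (nat_lit 12)) (cs (rf (nat_lit 13)) (nd (nat_lit 209) (nat_lit 0) (cs (rf (nat_lit 14)) (cs (rf (nat_lit 15)) (rf (nat_lit 16)))))))))))))))) q105949 (by decide +kernel)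
def q105999 : Q := Q.p (nat_lit 0x7000018000020000000000000000000000000000000000000000000000000000) (nat_lit 0x500003700008800003000008000020000000000000000000000000000000000000000000000) (nat_lit 7)
theorem c105999 : QOK q105999 := cut [q96513] ⟨c96513, trivial⟩ (nd (nat_lit 276) (nat_lit 0) (cs (lf (nat_lit 42) (nat_lit 209)) (rf (nat_lit 0)))) q105999 (by decide +kernel)
def q106136 : Q := Q.p (nat_lit 0x3000004000000000000000000000000000000000000000000000000000000000) (nat_lit 0x18000068000fb0001c8000fb8001fc0003c0000e00000000000000000000000000000000000000000) (nat_lit 9)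
theorem c106136 : QOK q106136 := cut [q79028, q81409, q106113, q106114, q81463, q80310, q106115, q85047, q80189, q80905, q106135] ⟨c79028, c81409, c106113, c106114, c81463, c80310, c106115, c85047, c80189, c80905, c106135, trivial⟩ (nd (nat_lit 254) (nat_lit 0) (cs (rf (nat_lit 0)) (cs (rf (nat_lit 1)) (cs (nd (nat_lit 276) (nat_lit 0) (cs (rf (nat_lit 2)) (cs (rf (nat_lit 3)) (nd (nat_lit 231) (nat_lit 0) (cs (rf (nat_lit 4)) (cs (nd (nat_lit 232) (nat_lit 0) (cs (rf (nat_lit 5)) (cs (rf (nat_lit 6)) (nd (nat_lit 228) (nat_lit 0) (cs (lf (nat_lit 1) (nat_lit 228)) (nd (nat_lit 298) (nat_lit 0) (cs (lf (nat_lit 42) (nat_lit 231)) (nd (nat_lit 297) (nat_lit 0) (cs (lf (nat_lit 41) (nat_lit 231)) (nd (nat_lit 275) (nat_lit 0) (cs (lf (nat_lit 36) (nat_lit 209)) (lf (nat_lit 47) (nat_lit 208))))))))))))) (cs (nd (nat_lit 232) (nat_lit 0) (cs (rf (nat_lit 6)) (cs (nd (nat_lit 187) (nat_lit 0) (cs (lf (nat_lit 25) (nat_lit 187)) (rf (nat_lit 7)))) (nd (nat_lit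 233) (nat_lit 0) (cs (lf (nat_lit 6) (nat_lit 230)) (nd (nat_lit 211) (nat_lit 0) (cs (lf (nat_lit 17) (nat_lit 208)) (rf (nat_lit 8))))))))) (nd (nat_lit 228) (nat_lit 0) (cs (lf (nat_lit 1) (nat_lit 228)) (rf (nat_lit 9))))))))))) (rf (nat_lit 10)))))) q106136 (by decide +kernel)
def q106189 : Q := Q.p (nat_lit 0x3000004000000000000000000000000000000000000000000000000000000000) (nat_lit 0x1a0000f80007f0001c8000fb8001f00003c0000f00001400000000000000000000000000000000000) (nat_lit 15)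
theorem c106189 : QOK q106189 := cut [q79028, q81409, q106135, q79118, q106151, q106163, q106160, q80232, q95663, q94139, q82300, q92843, q94138, q79733] ⟨c79028, c81409, c106135, c79118, c106151, c106163, c106160, c80232, c95663, c94139, c82300, c92843, c94138, c79733, trivial⟩ (nd (nat_lit 254) (nat_lit 0) (cs (rf (nat_lit 0)) (cs (rf (nat_lit 1)) (cs (rf (nat_lit 2)) (nd (nat_lit 232) (nat_lit 0) (cs (rf (nat_lit 3)) (cs (rf (nat_lit 4)) (cs (rf (nat_lit 5)) (nd (nat_lit 275) (nat_lit 0) (cs (rf (nat_lit 6)) (cs (nd (nat_lit 231) (nat_lit 0) (cs (rf (nat_lit 7)) (cs (rf (nat_lit 8)) (cs (nd (nat_lit 208) (nat_lit 0) (cs (lf (nat_lit 24) (nat_lit 186)) (nd (nat_lit 228) (nat_lit 0) (cs (lf (nat_lit 1) (nat_lit 228)) (nd (nat_lit 233) (nat_lit 0) (cs (lf (nat_lit 6) (nat_lit 230)) (nd (nat_lit 211) (nat_lit 0) (cs (lf (nat_lit 17) (nat_lit 208)) (nd (nat_lit 167) (nat_lit 0) (cs (lf (nat_lit 37) (nat_lit 166)) (nd (nat_lit 276) (nat_lit 0) (cs (lf (nat_lit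 30) (nat_lit 210)) (nd (nat_lit 277) (nat_lit 0) (cs (lf (nat_lit 18) (nat_lit 252)) (rf (nat_lit 9)))))))))))))))) (nd (nat_lit 209) (nat_lit 0) (cs (rf (nat_lit 10)) (cs (rf (nat_lit 11)) (nd (nat_lit 233) (nat_lit 0) (cs (lf (nat_lit 6) (nat_lit 230)) (nd (nat_lit 188) (nat_lit 0) (cs (lf (nat_lit 34) (nat_lit 187)) (nd (nat_lit 208) (nat_lit 0) (cs (lf (nat_lit 47) (nat_lit 186)) (nd (nat_lit 276) (nat_lit 0) (cs (lf (nat_lit 42) (nat_lit 209)) (nd (nat_lit 277) (nat_lit 0) (cs (lf (nat_lit 18) (nat_lit 252)) (rf (nat_lit 12))))))))))))))))))) (nd (nat_lit 297) (nat_lit 0) (cs (lf (nat_lit 42) (nat_lit 230)) (rf (nat_lit 13))))))))))))))) q106189 (by decide +kernel)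
def q106207 : Q := Q.p (nat_lit 0x3000004000000000000000000000000000000000000000000000000000000000) (nat_lit 0x1a0000e80007f0001c8000fb8001fc000380000c00000000000000000000000000000000000000000) (nat_lit 13)
theorem c106207 : QOK q106207 := cut [q79028, q81409, q106135, q79118, q79026, q81406, q79199, q106158, q95669, q79548, q106115, q79171, q91339] ⟨c79028, c81409, c106135, c79118, c79026, c81406, c79199, c106158, c95669, c79548, c106115, c79171, c91339, trivial⟩ (nd (nat_lit 254) (nat_lit 0) (cs (rf (nat_lit 0)) (cs (rf (nat_lit 1)) (cs (rf (nat_lit 2)) (nd (nat_lit 232) (nat_lit 0) (cs (rf (nat_lit 3)) (cs (nd (nat_lit 229) (nat_lit 0) (cs (rf (nat_lit 4)) (cs (rf (nat_lit 5)) (nd (nat_lit 275) (nat_lit 0) (cs (rf (nat_lit 6)) (cs (rf (nat_lit 7)) (nd (nat_lit 297) (nat_lit 0) (cs (lf (nat_lit 30) (nat_lit 231)) (rf (nat_lit 8)))))))))) (cs (nd (nat_lit 231) (nat_lit 0) (cs (rf (nat_lit 9)) (cs (rf (nat_lit 10)) (nd (nat_lit 233) (nat_lit 0) (cs (lf (nat_lit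 6) (nat_lit 230)) (nd (nat_lit 211) (nat_lit 0) (cs (lf (nat_lit 17) (nat_lit 208)) (nd (nat_lit 167) (nat_lit 0) (cs (lf (nat_lit 37) (nat_lit 166)) (nd (nat_lit 276) (nat_lit 0) (cs (lf (nat_lit 30) (nat_lit 210)) (nd (nat_lit 187) (nat_lit 0) (cs (lf (nat_lit 25) (nat_lit 187)) (nd (nat_lit 208) (nat_lit 0) (cs (lf (nat_lit 23) (nat_lit 207)) (nd (nat_lit 275) (nat_lit 0) (cs (lf (nat_lit 42) (nat_lit 208)) (rf (nat_lit 11))))))))))))))))))) (nd (nat_lit 251) (nat_lit 0) (cs (lf (nat_lit 17) (nat_lit 229)) (nd (nat_lit 229) (nat_lit 0) (cs (lf (nat_lit 23) (nat_lit 228)) (nd (nat_lit 276) (nat_lit 0) (cs (lf (nat_lit 5) (nat_lit 251)) (rf (nat_lit 12)))))))))))))))) q106207 (by decide +kernel)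
def q106364 : Q := Q.p (nat_lit 0x400007000018000000000000000000000000000000000000000000000000000000000) (nat_lit 0xe0000380001a000000000640003d8000380000e00000000000000000000000000000000000000000) (nat_lit 10)
theorem c106364 : QOK q106364 := cut [q86581, q95753] ⟨c86581, c95753, trivial⟩ (nd (nat_lit 297) (nat_lit 0) (cs (rf (nat_lit 0)) (cs (rf (nat_lit 1)) (nd (nat_lit 233) (nat_lit 0) (cs (lf (nat_lit 6) (nat_lit 230)) (nd (nat_lit 296) (nat_lit 0) (cs (lf (nat_lit 30) (nat_lit 230)) (nd (nat_lit 230) (nat_lit 0) (cs (lf (nat_lit 29) (nat_lit 230)) (nd (nat_lit 295) (nat_lit 0) (cs (lf (nat_lit 41) (nat_lit 229)) (nd (nat_lit 208) (nat_lit 0) (cs (lf (nat_lit 40) (nat_lit 207)) (lf (nat_lit 23) (nat_lit 207))))))))))))))) q106364 (by decide +kernel)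
def q106414 : Q := Q.p (nat_lit 0x3800000000000000000000000000000000000000000000000000000000000000) (nat_lit 0x1c0000780007c00037c000c00000fc0001c000070000140000000000000000000000000000000000000000) (nat_lit 11)
theorem c106414 : QOK q106414 := cut [q88302, q98766, q80583, q86851, q80587, q82629, q89847, q88798, q106410, q106413] ⟨c88302, c98766, c80583, c86851, c80587, c82629, c89847, c88798, c106410, c106413, trivial⟩ (nd (nat_lit 273) (nat_lit 0) (cs (rf (nat_lit 0)) (cs (rf (nat_lit 1)) (cs (nd (nat_lit 295) (nat_lit 0) (cs (rf (nat_lit 2)) (cs (rf (nat_lit 3)) (cs (nd (nat_lit 229) (nat_lit 0) (cs (rf (nat_lit 4)) (cs (rf (nat_lit 5)) (cs (rf (nat_lit 6)) (nd (nat_lit 294) (nat_lit 0) (cs (lf (nat_lit 41) (nat_lit 228)) (nd (nat_lit 206) (nat_lit 0) (cs (lf (nat_lit 46) (nat_lit 206)) (rf (nat_lit 7)))))))))) (rf (nat_lit 8)))))) (rf (nat_lit 9)))))) q106414 (by decide +kernel)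
def q106425 : Q := Q.p (nat_lit 0x3800000000000000000000000000000000000000000000000000000000000000) (nat_lit 0x7fc001c7000eee00000000000000000000000000000000000000000000000000000000) (nat_lit 8)
theorem c106425 : QOK q106425 := cut [q91225, q106421, q106423] ⟨c91225, c106421, c106423, trivial⟩ (nd (nat_lit 272) (nat_lit 0) (cs (rf (nat_lit 0)) (cs (rf (nat_lit 1)) (nd (nat_lit 254) (nat_lit 0) (cs (lf (nat_lit 10) (nat_lit 250)) (rf (nat_lit 2))))))) q106425 (by decide +kernel)
def q106514 : Q := Q.p (nat_lit 0x800003800000000000000000000000000000000000000000000000000000000000000) (nat_lit 0x300000c0000700001e0000fc000370000000000e000030000040000000000000000000000000000000000000000000000) (nat_lit 9)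
theorem c106514 : QOK q106514 := cut [q88933, q88941, q105497, q90752, q94505, q98948, q105494, q106510, q15961] ⟨c88933, c88941, c105497, c90752, c94505, c98948, c105494, c106510, c15961, trivial⟩ (nd (nat_lit 297) (nat_lit 0) (cs (rf (nat_lit 0)) (cs (rf (nat_lit 1)) (cs (rf (nat_lit 2)) (nd (nat_lit 296) (nat_lit 0) (cs (rf (nat_lit 3)) (cs (rf (nat_lit 4)) (cs (nd (nat_lit 274) (nat_lit 0) (cs (rf (nat_lit 5)) (cs (rf (nat_lit 6)) (rf (nat_lit 7))))) (nd (nat_lit 274) (nat_lit 0) (cs (rf (nat_lit 8)) (rf (nat_lit 5)))))))))))) q106514 (by decide +kernel)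
def q106567 : Q := Q.p (nat_lit 0x7000000000000000000000000000000000000000000000000000000000000000) (nat_lit 0x800002c0001f00007c00018e0001f8000fc0007e0000780000a00000000000000000000000000000000000) (nat_lit 13)
theorem c106567 : QOK q106567 := cut [q79028, q81409, q106170, q81379, q99497, q106480, q106565] ⟨c79028, c81409, c106170, c81379, c99497, c106480, c106565, trivial⟩ (nd (nat_lit 230) (nat_lit 0) (cs (rf (nat_lit 0)) (cs (rf (nat_lit 1)) (cs (rf (nat_lit 2)) (nd (nat_lit 275) (nat_lit 0) (cs (rf (nat_lit 3)) (cs (rf (nat_lit 4)) (cs (rf (nat_lit 5)) (rf (nat_lit 6)))))))))) q106567 (by decide +kernel)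
def q106617 : Q := Q.p (nat_lit 0x7000000000000000000000000000000000000000000000000000000000000000) (nat_lit 0x700001c0000f00003e0001f0001fc000780003ff8001fe0007f8000f80000a00000000000000000000000000000000000) (nat_lit 15)
theorem c106617 : QOK q106617 := cut [q79028, q82014, q6259, q79029, q79066, q106156, q10803, q87238, q87683, q2953, q106585, q99639, q84998, q93029, q99497, q106480, q80460, q81355, q106598, q106606, q94168, q94444, q100639, q100682, q81384, q82063, q79237] ⟨c79028, c82014, c6259, c79029, c79066, c106156, c10803, c87238, c87683, c2953, c106585, c99639, c84998, c93029, c99497, c106480, c80460, c81355, c106598, c106606, c94168, c94444, c100639, c100682, c81384, c82063, c79237, trivial⟩ (nd (nat_lit 230) (nat_lit 0) (cs (rf (nat_lit 0)) (cs (nd (nat_lit 255) (nat_lit 0) (cs (lf (nat_lit 23) (nat_lit 229)) (nd (nat_lit 278) (nat_lit 0) (cs (lf (nat_lit 4) (nat_lit 252)) (nd (nat_lit 233) (nat_lit 0) (cs (lf (nat_lit 17) (nat_lit 230)) (nd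 (nat_lit 256) (nat_lit 0) (cs (lf (nat_lit 5) (nat_lit 253)) (nd (nat_lit 275) (nat_lit 0) (cs (lf (nat_lit 11) (nat_lit 252)) (rf (nat_lit 1)))))))))))) (cs (nd (nat_lit 208) (nat_lit 0) (cs (rf (nat_lit 2)) (cs (rf (nat_lit 3)) (cs (rf (nat_lit 4)) (cs (rf (nat_lit 5)) (nd (nat_lit 209) (nat_lit 0) (cs (rf (nat_lit 6)) (cs (rf (nat_lit 7)) (cs (nd (nat_lit 231) (nat_lit 0) (cs (rf (nat_lit 8)) (cs (nd (nat_lit 275) (nat_lit 0) (cs (lf (nat_lit 42) (nat_lit 208)) (nd (nat_lit 274) (nat_lit 0) (cs (lf (nat_lit 41) (nat_lit 208)) (nd (nat_lit 188) (nat_lit 0) (cs (lf (nat_lit 34) (nat_lit 187)) (nd (nat_lit 276) (nat_lit 0) (cs (lf (nat_lit 29) (nat_lit 209)) (nd (nat_lit 277) (nat_lit 0) (cs (lf (nat_lit 18) (nat_lit 252)) (nd (nat_lit 299) (nat_lit 0) (cs (lf (nat_lit 5) (nat_lit 274)) (nd (nat_lit 321) (nat_lit 0) (cs (rf (nat_lit 9)) (lf (nat_lit 42) (nat_lit 254)))))))))))))))) (cs (rf (nat_lit 10)) (nd (nat_lit 274) (nat_lit 0) (cs (lf (nat_lit 30)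 (nat_lit 208)) (nd (nat_lit 275) (nat_lit 0) (cs (lf (nat_lit 29) (nat_lit 208)) (nd (nat_lit 276) (nat_lit 0) (cs (lf (nat_lit 29) (nat_lit 209)) (nd (nat_lit 277) (nat_lit 0) (cs (lf (nat_lit 18) (nat_lit 252)) (nd (nat_lit 299) (nat_lit 0) (cs (lf (nat_lit 5) (nat_lit 274)) (nd (nat_lit 321) (nat_lit 0) (cs (lf (nat_lit 42) (nat_lit 254)) (rf (nat_lit 11)))))))))))))))))) (nd (nat_lit 231) (nat_lit 0) (cs (rf (nat_lit 12)) (cs (rf (nat_lit 13)) (rf (nat_lit 10)))))))))))))) (nd (nat_lit 275) (nat_lit 0) (cs (rf (nat_lit 14)) (cs (rf (nat_lit 15)) (cs (nd (nat_lit 208) (nat_lit 0) (cs (rf (nat_lit 3)) (nd (nat_lit 255) (nat_lit 0) (cs (rf (nat_lit 16)) (cs (rf (nat_lit 17)) (nd (nat_lit 232) (nat_lit 0) (cs (rf (nat_lit 18)) (cs (nd (nat_lit 277) (nat_lit 0) (cs (lf (nat_lit 5) (nat_lit 252)) (nd (nat_lit 299) (nat_lit 0) (cs (lf (nat_lit 42) (nat_lit 232)) (nd (nat_lit 233) (nat_lit 0) (cs (lf (nat_lit 17) (nat_lit 230)) (nd (nat_lit 298) (nat_lit 0)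 (cs (lf (nat_lit 41) (nat_lit 232)) (nd (nat_lit 211) (nat_lit 0) (cs (lf (nat_lit 40) (nat_lit 210)) (nd (nat_lit 212) (nat_lit 0) (cs (lf (nat_lit 35) (nat_lit 189)) (lf (nat_lit 13) (nat_lit 208)))))))))))))) (rf (nat_lit 19)))))))))) (nd (nat_lit 297) (nat_lit 0) (cs (rf (nat_lit 20)) (cs (rf (nat_lit 21)) (cs (rf (nat_lit 22)) (cs (rf (nat_lit 23)) (nd (nat_lit 231) (nat_lit 0) (cs (rf (nat_lit 24)) (cs (rf (nat_lit 25)) (nd (nat_lit 232) (nat_lit 0) (cs (lf (nat_lit 35) (nat_lit 209)) (nd (nat_lit 296) (nat_lit 0) (cs (lf (nat_lit 41) (nat_lit 230)) (nd (nat_lit 233) (nat_lit 0) (cs (lf (nat_lit 6) (nat_lit 230)) (nd (nat_lit 255) (nat_lit 0) (cs (lf (nat_lit 5) (nat_lit 230)) (rf (nat_lit 26)))))))))))))))))))))))))) q106617 (by decide +kernel)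
def q106622 : Q := Q.p (nat_lit 0x200003800002000008000000000000000000000000000000000000000000000000000) (nat_lit 0x380000c0000000000d8000f40003d0000000000000000000000000000000000000000000000) (nat_lit 10)
theorem c106622 : QOK q106622 := cut [q82217] ⟨c82217, trivial⟩ (nd (nat_lit 184) (nat_lit 0) (cs (lf (nat_lit 46) (nat_lit 184)) (rf (nat_lit 0)))) q106622 (by decide +kernel)
def q106665 : Q := Q.p (nat_lit 0x3800000000000000000000000000000000000000000000000000000000000000) (nat_lit 0xeee001c70007fc00000000000000000000000000000000000000000000000000000000) (nat_lit 8)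
theorem c106665 : QOK q106665 := cut [q82312, q91191, q105771] ⟨c82312, c91191, c105771, trivial⟩ (nd (nat_lit 228) (nat_lit 0) (cs (rf (nat_lit 0)) (cs (rf (nat_lit 1)) (nd (nat_lit 254) (nat_lit 0) (cs (lf (nat_lit 22) (nat_lit 228)) (rf (nat_lit 2))))))) q106665 (by decide +kernel)
def q106675 : Q := Q.p (nat_lit 0x3800008000000000000000000000000000000000000000000000000000000000) (nat_lit 0x40000380000f800000000360001fe0001f0000780001400000000000000000000000000000000000) (nat_lit 11)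
theorem c106675 : QOK q106675 := cut [q82300, q82301, q82309, q105163, q1563, q93250, q106672, q11001, q82378, q87526] ⟨c82300, c82301, c82309, c105163, c1563, c93250, c106672, c11001, c82378, c87526, trivial⟩ (nd (nat_lit 209) (nat_lit 0) (cs (rf (nat_lit 0)) (cs (rf (nat_lit 1)) (cs (rf (nat_lit 2)) (cs (rf (nat_lit 3)) (nd (nat_lit 208) (nat_lit 0) (cs (rf (nat_lit 4)) (cs (rf (nat_lit 5)) (cs (rf (nat_lit 6)) (nd (nat_lit 230) (nat_lit 0) (cs (rf (nat_lit 7)) (cs (rf (nat_lit 8)) (rf (nat_lit 9)))))))))))))) q106675 (by decide +kernel)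
def q106687 : Q := Q.p (nat_lit 0x3800000000000000000000000000000000000000000000000000000000000000) (nat_lit 0x40000100000f7000c78003ff00000000000000000000000000000000000000000000000000000000) (nat_lit 10)
theorem c106687 : QOK q106687 := cut [q82256, q82394, q89874] ⟨c82256, c82394, c89874, trivial⟩ (nd (nat_lit 250) (nat_lit 0) (cs (rf (nat_lit 0)) (cs (rf (nat_lit 1)) (rf (nat_lit 2))))) q106687 (by decide +kernel)
def q106987 : Q := Q.p (nat_lit 0x7000010000000000000000000000000000000000000000000000000000000000) (nat_lit 0x700001f0000000006c0003f80003e0000f00002800000000000000000000000000000000000) (nat_lit 11)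
theorem c106987 : QOK q106987 := cut [q79123, q79128, q79145, q79160, q106986] ⟨c79123, c79128, c79145, c79160, c106986, trivial⟩ (nd (nat_lit 210) (nat_lit 0) (cs (rf (nat_lit 0)) (cs (rf (nat_lit 1)) (cs (rf (nat_lit 2)) (cs (rf (nat_lit 3)) (rf (nat_lit 4))))))) q106987 (by decide +kernel)
def q107023 : Q := Q.p (nat_lit 0xe00002400008000000000000000000000000000000000000000000000000000000000) (nat_lit 0x40001de0007180001200000000000000000000000000000000000000000000000000000000000000) (nat_lit 8)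
theorem c107023 : QOK q107023 := cut [q107022] ⟨c107022, trivial⟩ (nd (nat_lit 272) (nat_lit 0) (cs (lf (nat_lit 23) (nat_lit 249)) (rf (nat_lit 0)))) q107023 (by decide +kernel)
def q107098 : Q := Q.p (nat_lit 0x300000c000000000000000000000000000000000000000000000000000000000) (nat_lit 0x16000058000778001ce0006380000c0000300000c0000000000000000000000000000000000000000) (nat_lit 12)
theorem c107098 : QOK q107098 := cut [q102009, q105925, q101387, q105927, q100958] ⟨c102009, c105925, c101387, c105927, c100958, trivial⟩ (nd (nat_lit 254) (nat_lit 0) (cs (rf (nat_lit 0)) (cs (rf (nat_lit 1)) (nd (nat_lit 251) (nat_lit 0) (cs (rf (nat_lit 2)) (cs (rf (nat_lit 3)) (nd (nat_lit 229) (nat_lit 0) (cs (lf (nat_lit 23) (nat_lit 228)) (rf (nat_lit 4)))))))))) q107098 (by decide +kernel)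
def q107153 : Q := Q.p (nat_lit 0x200003800008000000000000000000000000000000000000000000000000000000000) (nat_lit 0x1c0000700001c000058000000000780001c000070000140000000000000000000000000000000000000000) (nat_lit 10)
theorem c107153 : QOK q107153 := cut [q80583, q86851, q96603, q80587, q82629, q88617, q89845] ⟨c80583, c86851, c96603, c80587, c82629, c88617, c89845, trivial⟩ (nd (nat_lit 295) (nat_lit 0) (cs (rf (nat_lit 0)) (cs (rf (nat_lit 1)) (cs (rf (nat_lit 2)) (nd (nat_lit 229) (nat_lit 0) (cs (rf (nat_lit 3)) (cs (rf (nat_lit 4)) (cs (nd (nat_lit 294) (nat_lit 0) (cs (lf (nat_lit 41) (nat_lit 228)) (nd (nat_lit 207) (nat_lit 0) (cs (lf (nat_lit 40) (nat_lit 206)) (rf (nat_lit 5)))))) (nd (nat_lit 294) (nat_lit 0) (cs (lf (nat_lit 41) (nat_lit 228)) (nd (nat_lit 296) (nat_lit 0) (cs (lf (nat_lit 29) (nat_lit 229)) (rf (nat_lit 6)))))))))))))) q107153 (by decide +kernel)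
def q107225 : Q := Q.p (nat_lit 0x200001e000000000000000000000000000000000000000000000000000000000) (nat_lit 0x300000c0000300000c0000000000e0000380000e00000000000000000000000000000000000000000) (nat_lit 9)
theorem c107225 : QOK q107225 := cut [q101300] ⟨c101300, trivial⟩ (nd (nat_lit 254) (nat_lit 0) (cs (lf (nat_lit 5) (nat_lit 229)) (rf (nat_lit 0)))) q107225 (by decide +kernel)
def q107307 : Q := Q.p (nat_lit 0x200000e000008000000000000000000000000000000000000000000000000000) (nat_lit 0x10000058000370000de00010000010000060000080000000000000000000000000000000000000000) (nat_lit 8)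
theorem c107307 : QOK q107307 := cut [q84443, q90285, q101484] ⟨c84443, c90285, c101484, trivial⟩ (nd (nat_lit 252) (nat_lit 0) (cs (rf (nat_lit 0)) (cs (rf (nat_lit 1)) (rf (nat_lit 2))))) q107307 (by decide +kernel)
def q107351 : Q := Q.p (nat_lit 0x200000800002000008000000000000000000000000000000000000000000000000000000000) (nat_lit 0xf78001dc0007780000000014000050000000000000000000000000000000000000000000000000000) (nat_lit 10)
theorem c107351 : QOK q107351 := cut [q88938, q98788, q107349] ⟨c88938, c98788, c107349, trivial⟩ (nd (nat_lit 296) (nat_lit 0) (cs (lf (nat_lit 41) (nat_lit 230)) (nd (nat_lit 295) (nat_lit 0) (cs (rf (nat_lit 0)) (cs (rf (nat_lit 1)) (rf (nat_lit 2))))))) q107351 (by decide +kernel)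
def q107366 : Q := Q.p (nat_lit 0x800002000008000000000000000000000000000000000000000000000000000000000) (nat_lit 0x50000740001c000077c001fe0007fc000500000000000000000000000000000000000000000) (nat_lit 15)
theorem c107366 : QOK q107366 := cut [q81901, q98317, q98359, q107365] ⟨c81901, c98317, c98359, c107365, trivial⟩ (nd (nat_lit 209) (nat_lit 0) (cs (rf (nat_lit 0)) (cs (rf (nat_lit 1)) (cs (rf (nat_lit 2)) (rf (nat_lit 3)))))) q107366 (by decide +kernel)
def q107387 : Q := Q.p (nat_lit 0x8000020000080000e0000000000000000000000000000000000000000000000000000) (nat_lit 0x10000040000000007380001c000678000000000000000000000000000000000000000000000) (nat_lit 9)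
theorem c107387 : QOK q107387 := cut [q22157] ⟨c22157, trivial⟩ (nd (nat_lit 208) (nat_lit 0) (cs (lf (nat_lit 47) (nat_lit 186)) (nd (nat_lit 274) (nat_lit 0) (cs (lf (nat_lit 41) (nat_lit 208)) (rf (nat_lit 0)))))) q107387 (by decide +kernel)
def q107402 : Q := Q.p (nat_lit 0x2000008000020000000000000000000000000000000000000000000000000000) (nat_lit 0x14000050000240007de000ff0003fe0005400010000000000000000000000000000000) (nat_lit 12)
theorem c107402 : QOK q107402 := cut [q1568, q80750, q80756, q101244, q101260, q101249, q57802] ⟨c1568, c80750, c80756, c101244, c101260, c101249, c57802, trivial⟩ (nd (nat_lit 187) (nat_lit 0) (cs (rf (nat_lit 0)) (cs (rf (nat_lit 1)) (cs (rf (nat_lit 2)) (nd (nat_lit 188) (nat_lit 0) (cs (lf (nat_lit 35) (nat_lit 165)) (nd (nat_lit 189) (nat_lit 0) (cs (rf (nat_lit 3)) (cs (rf (nat_lit 4)) (cs (nd (nat_lit 186) (nat_lit 0) (cs (lf (nat_lit 47) (nat_lit 164)) (nd (nat_lit 252) (nat_lit 0) (cs (lf (nat_lit 41) (nat_lit 186))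 (rf (nat_lit 5)))))) (nd (nat_lit 190) (nat_lit 0) (cs (lf (nat_lit 11) (nat_lit 186)) (nd (nat_lit 164) (nat_lit 0) (cs (lf (nat_lit 46) (nat_lit 164)) (nd (nat_lit 191) (nat_lit 0) (cs (rf (nat_lit 6)) (lf (nat_lit 10) (nat_lit 187)))))))))))))))))) q107402 (by decide +kernel)
def q107567 : Q := Q.p (nat_lit 0x2000008000060000000000000000000000000000000000000000000000000000) (nat_lit 0x8000000001f780039c000c78000100000400000000000000000000000000000000000) (nat_lit 8)
theorem c107567 : QOK q107567 := cut [q1563, q85116, q107566] ⟨c1563, c85116, c107566, trivial⟩ (nd (nat_lit 208) (nat_lit 0) (cs (rf (nat_lit 0)) (cs (rf (nat_lit 1)) (rf (nat_lit 2))))) q107567 (by decide +kernel)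
def q107573 : Q := Q.p (nat_lit 0x6000008000060000000000000000000000000000000000000000000000000000) (nat_lit 0xc0000f000018000016000380000300000c00000000000000000000000000000000000000000) (nat_lit 7)
theorem c107573 : QOK q107573 := cut [q98253, q103772, q107570, q79607] ⟨c98253, c103772, c107570, c79607, trivial⟩ (nd (nat_lit 232) (nat_lit 0) (cs (rf (nat_lit 0)) (cs (rf (nat_lit 1)) (cs (rf (nat_lit 2)) (nd (nat_lit 276) (nat_lit 0) (cs (lf (nat_lit 42) (nat_lit 209)) (nd (nat_lit 166) (nat_lit 0) (cs (lf (nat_lit 37) (nat_lit 165)) (rf (nat_lit 3)))))))))) q107573 (by decide +kernel)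
def q107657 : Q := Q.p (nat_lit 0x6000018000020000000000000000000000000000000000000000000000000000) (nat_lit 0xc0000f8000000000040003c0000300000400000000000000000000000000000000000000000) (nat_lit 7)
theorem c107657 : QOK q107657 := cut [q95343, q103772] ⟨c95343, c103772, trivial⟩ (nd (nat_lit 210) (nat_lit 0) (cs (rf (nat_lit 0)) (rf (nat_lit 1)))) q107657 (by decide +kernel)
def q107694 : Q := Q.p (nat_lit 0x6000008000000000000000000000000000000000000000000000000000000000) (nat_lit 0x580001f000198001f7c001fe0007fc000780001600000000000000000000000000000000000) (nat_lit 15)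
theorem c107694 : QOK q107694 := cut [q80708, q107347, q107403, q1563, q107656, q82042, q96990, q102009, q107673, q102155, q101881, q107688, q98192] ⟨c80708, c107347, c107403, c1563, c107656, c82042, c96990, c102009, c107673, c102155, c101881, c107688, c98192, trivial⟩ (nd (nat_lit 209) (nat_lit 0) (cs (rf (nat_lit 0)) (cs (rf (nat_lit 1)) (cs (rf (nat_lit 2)) (nd (nat_lit 208) (nat_lit 0) (cs (rf (nat_lit 3)) (cs (rf (nat_lit 4)) (cs (nd (nat_lit 230) (nat_lit 0) (cs (rf (nat_lit 5)) (cs (rf (nat_lit 6)) (cs (rf (nat_lit 7)) (nd (nat_lit 233) (nat_lit 0) (cs (rf (nat_lit 8)) (cs (nd (nat_lit 255) (nat_lit 0) (cs (lf (nat_lit 18) (nat_lit 230)) (nd (nat_lit 234) (nat_lit 0) (cs (lf (nat_lit 12) (nat_lit 230)) (nd (nat_lit 235) (nat_lit 0) (cs (lf (nat_lit 6) (nat_lit 232)) (nd (nat_lit 210) (nat_lit 0) (cs (lf (nat_lit 3) (nat_lit 208)) (rf (nat_lit 9)))))))))) (cs (nd (nat_lit 255) (nat_lit 0) (cs (lf (nat_lit 18) (nat_lit 230)) (nd (nat_lit 207) (nat_lit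 0) (cs (lf (nat_lit 19) (nat_lit 207)) (nd (nat_lit 206) (nat_lit 0) (cs (lf (nat_lit 0) (nat_lit 205)) (nd (nat_lit 227) (nat_lit 0) (cs (lf (nat_lit 10) (nat_lit 205)) (nd (nat_lit 184) (nat_lit 0) (cs (lf (nat_lit 23) (nat_lit 183)) (nd (nat_lit 185) (nat_lit 0) (cs (lf (nat_lit 18) (nat_lit 184)) (nd (nat_lit 141) (nat_lit 0) (cs (lf (nat_lit 25) (nat_lit 141)) (nd (nat_lit 274) (nat_lit 0) (cs (lf (nat_lit 43) (nat_lit 185)) (nd (nat_lit 275) (nat_lit 0) (cs (lf (nat_lit 41) (nat_lit 208)) (rf (nat_lit 10)))))))))))))))))))) (rf (nat_lit 11)))))))))) (nd (nat_lit 275) (nat_lit 0) (cs (lf (nat_lit 47) (nat_lit 186)) (nd (nat_lit 188) (nat_lit 0) (cs (lf (nat_lit 34) (nat_lit 187)) (rf (nat_lit 12)))))))))))))) q107694 (by decide +kernel)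
def q107722 : Q := Q.p (nat_lit 0x3000008000020000000000000000000000000000000000000000000000000000) (nat_lit 0x100001c00007000018000000000040000400001c0000700001400000000000000000000000000000000000) (nat_lit 8)
theorem c107722 : QOK q107722 := cut [q4090, q80750, q92102] ⟨c4090, c80750, c92102, trivial⟩ (nd (nat_lit 187) (nat_lit 0) (cs (rf (nat_lit 0)) (cs (rf (nat_lit 1)) (rf (nat_lit 2))))) q107722 (by decide +kernel)
def q107751 : Q := Q.p (nat_lit 0x3000008000000000000000000000000000000000000000000000000000000000) (nat_lit 0x180000600007b8001ce00077c000c0000300000c00000000000000000000000000000000000000000) (nat_lit 11)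
theorem c107751 : QOK q107751 := cut [q82275, q82278, q96646, q96341, q96575, q105153] ⟨c82275, c82278, c96646, c96341, c96575, c105153, trivial⟩ (nd (nat_lit 251) (nat_lit 0) (cs (rf (nat_lit 0)) (cs (rf (nat_lit 1)) (cs (rf (nat_lit 2)) (nd (nat_lit 254) (nat_lit 0) (cs (rf (nat_lit 3)) (cs (rf (nat_lit 4)) (nd (nat_lit 229) (nat_lit 0) (cs (lf (nat_lit 23) (nat_lit 228)) (nd (nat_lit 272) (nat_lit 0) (cs (lf (nat_lit 10) (nat_lit 250)) (rf (nat_lit 5))))))))))))) q107751 (by decide +kernel)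
def q107753 : Q := Q.p (nat_lit 0x3000008000000000000000000000000000000000000000000000000000000000) (nat_lit 0x3a0000e8000f7c001ce000f7c000ee0001b00004c0000000000000000000000000000000000000000) (nat_lit 14)
theorem c107753 : QOK q107753 := cut [q82275, q82278, q96497, q96502, q79020, q105861, q107068, q107070] ⟨c82275, c82278, c96497, c96502, c79020, c105861, c107068, c107070, trivial⟩ (nd (nat_lit 251) (nat_lit 0) (cs (rf (nat_lit 0)) (cs (rf (nat_lit 1)) (cs (rf (nat_lit 2)) (cs (rf (nat_lit 3)) (nd (nat_lit 254) (nat_lit 0) (cs (rf (nat_lit 4)) (cs (rf (nat_lit 5)) (cs (rf (nat_lit 6)) (rf (nat_lit 7))))))))))) q107753 (by decide +kernel)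
def q107780 : Q := Q.p (nat_lit 0x3000008000000000000000000000000000000000000000000000000000000000) (nat_lit 0x60000180000f8001ce00077c001ee0001b00006c0000000000000000000000000000000000000000) (nat_lit 9)
theorem c107780 : QOK q107780 := cut [q82275, q82278, q96646, q82198, q93918, q107772, q88829, q92727, q107777] ⟨c82275, c82278, c96646, c82198, c93918, c107772, c88829, c92727, c107777, trivial⟩ (nd (nat_lit 251) (nat_lit 0) (cs (rf (nat_lit 0)) (cs (rf (nat_lit 1)) (cs (rf (nat_lit 2)) (nd (nat_lit 229) (nat_lit 0) (cs (rf (nat_lit 3)) (cs (rf (nat_lit 4)) (cs (rf (nat_lit 5)) (nd (nat_lit 230) (nat_lit 0) (cs (rf (nat_lit 6)) (cs (rf (nat_lit 7)) (rf (nat_lit 8))))))))))))) q107780 (by decide +kernel)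
def q107858 : Q := Q.p (nat_lit 0x800002000008000000000000000000000000000000000000000000000000000000000) (nat_lit 0x140000700001c0001fc00077000050000100000200001c0000700001400000000000000000000000000000000000) (nat_lit 11)
theorem c107858 : QOK q107858 := cut [q84365, q97689, q98131, q101906, q101926] ⟨c84365, c97689, c98131, c101906, c101926, trivial⟩ (nd (nat_lit 297) (nat_lit 0) (cs (rf (nat_lit 0)) (cs (rf (nat_lit 1)) (cs (rf (nat_lit 2)) (cs (rf (nat_lit 3)) (rf (nat_lit 4))))))) q107858 (by decide +kernel)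
def q107925 : Q := Q.p (nat_lit 0x7000008000000000000000000000000000000000000000000000000000000000) (nat_lit 0xe380018e00077c00000000000000000000000000000000000000000000000000000000) (nat_lit 8)
theorem c107925 : QOK q107925 := cut [q82278, q96646, q82395] ⟨c82278, c96646, c82395, trivial⟩ (nd (nat_lit 251) (nat_lit 0) (cs (rf (nat_lit 0)) (cs (rf (nat_lit 1)) (nd (nat_lit 228) (nat_lit 0) (cs (lf (nat_lit 22) (nat_lit 228)) (nd (nat_lit 233) (nat_lit 0) (cs (lf (nat_lit 16) (nat_lit 229)) (nd (nat_lit 255) (nat_lit 0) (cs (lf (nat_lit 17) (nat_lit 230)) (nd (nat_lit 272) (nat_lit 0) (cs (lf (nat_lit 10) (nat_lit 250)) (rf (nat_lit 2))))))))))))) q107925 (by decide +kernel)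
def q108002 : Q := Q.p (nat_lit 0x2000008000030000000000000000000000000000000000000000000000000000) (nat_lit 0xc8000f20001de00077e003cf000efc000b80002e00000000000000000000000000000000000) (nat_lit 14)
theorem c108002 : QOK q108002 := cut [q80931, q9653, q1582, q10753, q79283, q102052, q107933, q10949, q79307, q107960, q79349, q33, q1562, q96990, q102009, q107016, q107673, q107688, q1435, q107993, q2631, q7956] ⟨c80931, c9653, c1582, c10753, c79283, c102052, c107933, c10949, c79307, c107960, c79349, c33, c1562, c96990, c102009, c107016, c107673, c107688, c1435, c107993, c2631, c7956, trivial⟩ (nd (nat_lit 254) (nat_lit 0) (cs (rf (nat_lit 0)) (cs (nd (nat_lit 187) (nat_lit 0) (cs (rf (nat_lit 1)) (lf (nat_lit 29) (nat_lit 187)))) (cs (nd (nat_lit 187) (nat_lit 0) (cs (lf (nat_lit 29) (nat_lit 187)) (nd (nat_lit 165) (nat_lit 0) (cs (rf (nat_lit 2)) (lf (nat_lit 28) (nat_lit 165)))))) (cs (nd (nat_lit 232) (nat_lit 0) (cs (rf (nat_lit 3)) (cs (rf (nat_lit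 4)) (cs (nd (nat_lit 229) (nat_lit 0) (cs (rf (nat_lit 5)) (cs (rf (nat_lit 6)) (cs (nd (nat_lit 276) (nat_lit 0) (cs (lf (nat_lit 42) (nat_lit 209)) (nd (nat_lit 207) (nat_lit 0) (cs (lf (nat_lit 0) (nat_lit 206)) (nd (nat_lit 210) (nat_lit 0) (cs (lf (nat_lit 11) (nat_lit 206)) (nd (nat_lit 189) (nat_lit 0) (cs (lf (nat_lit 34) (nat_lit 188)) (nd (nat_lit 184) (nat_lit 0) (cs (lf (nat_lit 22) (nat_lit 184)) (nd (nat_lit 277) (nat_lit 0) (cs (lf (nat_lit 29) (nat_lit 210)) (nd (nat_lit 278) (nat_lit 0) (cs (lf (nat_lit 18) (nat_lit 253)) (nd (nat_lit 252) (nat_lit 0) (cs (lf (nat_lit 0) (nat_lit 251)) (lf (nat_lit 3) (nat_lit 252)))))))))))))))))) (nd (nat_lit 230) (nat_lit 0) (cs (lf (nat_lit 5) (nat_lit 229)) (nd (nat_lit 251) (nat_lit 0) (cs (lf (nat_lit 11) (nat_lit 228)) (nd (nat_lit 210) (nat_lit 0) (cs (lf (nat_lit 17) (nat_lit 207)) (rf (nat_lit 7)))))))))))) (nd (nat_lit 230) (nat_lit 0) (cs (rf (nat_lit 8)) (cs (rf (nat_lit 9)) (nd (nat_lit 255)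 (nat_lit 0) (cs (lf (nat_lit 18) (nat_lit 230)) (nd (nat_lit 164) (nat_lit 0) (cs (lf (nat_lit 25) (nat_lit 164)) (nd (nat_lit 276) (nat_lit 0) (cs (lf (nat_lit 42) (nat_lit 209)) (nd (nat_lit 233) (nat_lit 0) (cs (lf (nat_lit 18) (nat_lit 208)) (rf (nat_lit 10))))))))))))))))) (nd (nat_lit 186) (nat_lit 0) (cs (rf (nat_lit 11)) (cs (rf (nat_lit 12)) (nd (nat_lit 230) (nat_lit 0) (cs (rf (nat_lit 13)) (cs (rf (nat_lit 14)) (cs (rf (nat_lit 15)) (cs (nd (nat_lit 233) (nat_lit 0) (cs (rf (nat_lit 16)) (cs (rf (nat_lit 17)) (cs (nd (nat_lit 255) (nat_lit 0) (cs (lf (nat_lit 18) (nat_lit 230)) (nd (nat_lit 252) (nat_lit 0) (cs (lf (nat_lit 17) (nat_lit 230)) (nd (nat_lit 251) (nat_lit 0) (cs (lf (nat_lit 41) (nat_lit 185)) (nd (nat_lit 249) (nat_lit 0) (cs (lf (nat_lit 13) (nat_lit 227)) (nd (nat_lit 165) (nat_lit 0) (cs (lf (nat_lit 37) (nat_lit 164)) (nd (nat_lit 277) (nat_lit 0) (cs (rf (nat_lit 18)) (lf (nat_lit 5) (nat_lit 252)))))))))))))) (nd (nat_lit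 255) (nat_lit 0) (cs (lf (nat_lit 18) (nat_lit 230)) (nd (nat_lit 207) (nat_lit 0) (cs (lf (nat_lit 19) (nat_lit 207)) (rf (nat_lit 19)))))))))) (nd (nat_lit 207) (nat_lit 0) (cs (rf (nat_lit 20)) (cs (rf (nat_lit 19)) (nd (nat_lit 229) (nat_lit 0) (cs (lf (nat_lit 0) (nat_lit 228)) (nd (nat_lit 232) (nat_lit 0) (cs (lf (nat_lit 18) (nat_lit 207)) (rf (nat_lit 21)))))))))))))))))))))) q108002 (by decide +kernel)
def q108051 : Q := Q.p (nat_lit 0x2000008000020000000000000000000000000000000000000000000000000000) (nat_lit 0x300000c000000001f7c003df800f7e000500001400000000000000000000000000000000000) (nat_lit 9)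
theorem c108051 : QOK q108051 := cut [q1563, q93250, q119, q2938, q100845, q102360, q7463, q7464, q107566] ⟨c1563, c93250, c119, c2938, c100845, c102360, c7463, c7464, c107566, trivial⟩ (nd (nat_lit 208) (nat_lit 0) (cs (rf (nat_lit 0)) (cs (rf (nat_lit 1)) (cs (nd (nat_lit 207) (nat_lit 0) (cs (rf (nat_lit 2)) (cs (rf (nat_lit 3)) (cs (rf (nat_lit 4)) (rf (nat_lit 5)))))) (nd (nat_lit 210) (nat_lit 0) (cs (rf (nat_lit 6)) (cs (rf (nat_lit 7)) (rf (nat_lit 8))))))))) q108051 (by decide +kernel)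
def q108078 : Q := Q.p (nat_lit 0x2000008000020000000000000000000000000000000000000000000000000000) (nat_lit 0x380002f0001de000f78003de000fb8000e80003800000000000000000000000000000000000) (nat_lit 14)
theorem c108078 : QOK q108078 := cut [q7464, q9673, q84327, q85178, q97890, q97893, q97899, q87131, q82300, q102605, q102607, q102616, q96408, q105994, q207, q687, q86313, q86623, q94424, q95857, q102629, q102622, q108067, q79606, q84835] ⟨c7464, c9673, c84327, c85178, c97890, c97893, c97899, c87131, c82300, c102605, c102607, c102616, c96408, c105994, c207, c687, c86313, c86623, c94424, c95857, c102629, c102622, c108067, c79606, c84835, trivial⟩ (nd (nat_lit 210) (nat_lit 0) (cs (rf (nat_lit 0)) (cs (rf (nat_lit 1)) (cs (nd (nat_lit 230) (nat_lit 0) (cs (rf (nat_lit 2)) (cs (rf (nat_lit 3)) (cs (rf (nat_lit 4)) (nd (nat_lit 232) (nat_lit 0) (cs (rf (nat_lit 5)) (cs (rf (nat_lit 6)) (nd (nat_lit 275) (nat_lit 0) (cs (lf (nat_lit 30) (nat_lit 209)) (nd (nat_lit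 274) (nat_lit 0) (cs (lf (nat_lit 41) (nat_lit 208)) (nd (nat_lit 252) (nat_lit 0) (cs (lf (nat_lit 36) (nat_lit 186)) (rf (nat_lit 7))))))))))))))) (nd (nat_lit 252) (nat_lit 0) (cs (rf (nat_lit 8)) (cs (rf (nat_lit 9)) (cs (rf (nat_lit 10)) (cs (nd (nat_lit 230) (nat_lit 0) (cs (rf (nat_lit 2)) (cs (rf (nat_lit 3)) (cs (rf (nat_lit 11)) (nd (nat_lit 232) (nat_lit 0) (cs (rf (nat_lit 7)) (cs (rf (nat_lit 12)) (nd (nat_lit 233) (nat_lit 0) (cs (lf (nat_lit 6) (nat_lit 230)) (rf (nat_lit 13))))))))))) (nd (nat_lit 188) (nat_lit 0) (cs (rf (nat_lit 14)) (cs (rf (nat_lit 15)) (nd (nat_lit 232) (nat_lit 0) (cs (rf (nat_lit 16)) (cs (rf (nat_lit 17)) (cs (rf (nat_lit 18)) (cs (nd (nat_lit 229) (nat_lit 0) (cs (rf (nat_lit 19)) (cs (rf (nat_lit 20)) (cs (nd (nat_lit 251) (nat_lit 0) (cs (lf (nat_lit 12) (nat_lit 228)) (nd (nat_lit 254) (nat_lit 0) (cs (lf (nat_lit 23) (nat_lit 228)) (nd (nat_lit 255) (nat_lit 0) (cs (lf (nat_lit 29) (nat_lit 188)) (rf (nat_lit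 21)))))))) (nd (nat_lit 250) (nat_lit 0) (cs (lf (nat_lit 13) (nat_lit 228)) (nd (nat_lit 211) (nat_lit 0) (cs (lf (nat_lit 13) (nat_lit 207)) (rf (nat_lit 22)))))))))) (nd (nat_lit 211) (nat_lit 0) (cs (rf (nat_lit 23)) (cs (rf (nat_lit 22)) (nd (nat_lit 233) (nat_lit 0) (cs (lf (nat_lit 6) (nat_lit 230)) (nd (nat_lit 207) (nat_lit 0) (cs (lf (nat_lit 1) (nat_lit 207)) (nd (nat_lit 255) (nat_lit 0) (cs (lf (nat_lit 42) (nat_lit 188)) (rf (nat_lit 24)))))))))))))))))))))))))))) q108078 (by decide +kernel)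
def q108223 : Q := Q.p (nat_lit 0x800002000008000000000000000000000000000000000000000000000000000000000) (nat_lit 0x140000700001c00003000014000050000170001f00001c0000300000400000000000000000000000000000000000) (nat_lit 11)
theorem c108223 : QOK q108223 := cut [q99649, q108207, q108221] ⟨c99649, c108207, c108221, trivial⟩ (nd (nat_lit 209) (nat_lit 0) (cs (rf (nat_lit 0)) (cs (rf (nat_lit 1)) (nd (nat_lit 274) (nat_lit 0) (cs (lf (nat_lit 41) (nat_lit 208)) (rf (nat_lit 2))))))) q108223 (by decide +kernel)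
def q108231 : Q := Q.p (nat_lit 0x3000008000020000000000000000000000000000000000000000000000000000) (nat_lit 0x2000048000f7c001ce000f7c00006000010000040000000000000000000000000000000000000000) (nat_lit 13)
theorem c108231 : QOK q108231 := cut [q82275, q82278, q96497, q96502, q79020, q107070, q100865] ⟨c82275, c82278, c96497, c96502, c79020, c107070, c100865, trivial⟩ (nd (nat_lit 251) (nat_lit 0) (cs (rf (nat_lit 0)) (cs (rf (nat_lit 1)) (cs (rf (nat_lit 2)) (cs (rf (nat_lit 3)) (nd (nat_lit 254) (nat_lit 0) (cs (rf (nat_lit 4)) (cs (rf (nat_lit 5)) (nd (nat_lit 228) (nat_lit 0) (cs (lf (nat_lit 22) (nat_lit 228)) (rf (nat_lit 6)))))))))))) q108231 (by decide +kernel)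
def q108248 : Q := Q.p (nat_lit 0x2000008000000000000000000000000000000000000000000000000000000000) (nat_lit 0x140003fe0007f0001de000140001fc0007f0001f00001400000000000000000000000000000000000) (nat_lit 14)
theorem c108248 : QOK q108248 := cut [q101233, q107337, q107345, q107347, q107403, q80750, q92706, q100877, q97244, q97260, q97247] ⟨c101233, c107337, c107345, c107347, c107403, c80750, c92706, c100877, c97244, c97260, c97247, trivial⟩ (nd (nat_lit 209) (nat_lit 0) (cs (rf (nat_lit 0)) (cs (rf (nat_lit 1)) (cs (rf (nat_lit 2)) (cs (rf (nat_lit 3)) (cs (rf (nat_lit 4)) (nd (nat_lit 187) (nat_lit 0) (cs (rf (nat_lit 5)) (cs (rf (nat_lit 6)) (cs (rf (nat_lit 7)) (nd (nat_lit 188) (nat_lit 0) (cs (lf (nat_lit 35) (nat_lit 165)) (nd (nat_lit 207) (nat_lit 0) (cs (rf (nat_lit 8)) (cs (rf (nat_lit 9)) (cs (nd (nat_lit 252) (nat_lit 0) (cs (lf (nat_lit 41) (nat_lit 186)) (nd (nat_lit 254) (nat_lit 0) (cs (lf (nat_lit 29) (nat_lit 187)) (rf (nat_lit 10)))))) (nd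 (nat_lit 252) (nat_lit 0) (cs (lf (nat_lit 41) (nat_lit 186)) (nd (nat_lit 254) (nat_lit 0) (cs (lf (nat_lit 29) (nat_lit 187)) (nd (nat_lit 186) (nat_lit 0) (cs (lf (nat_lit 47) (nat_lit 164)) (nd (nat_lit 189) (nat_lit 0) (cs (lf (nat_lit 10) (nat_lit 185)) (nd (nat_lit 167) (nat_lit 0) (cs (lf (nat_lit 17) (nat_lit 164)) (nd (nat_lit 211) (nat_lit 0) (cs (lf (nat_lit 5) (nat_lit 186)) (nd (nat_lit 210) (nat_lit 0) (cs (lf (nat_lit 0) (nat_lit 185)) (lf (nat_lit 31) (nat_lit 166)))))))))))))))))))))))))))))))) q108248 (by decide +kernel)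
def q108382 : Q := Q.p (nat_lit 0xc00003000004000000000000000000000000000000000000000000000000000000000) (nat_lit 0x180000600001800000000000000020000380000e0000000000000000000000000000000000000000000000) (nat_lit 7)
theorem c108382 : QOK q108382 := cut [q22354] ⟨c22354, trivial⟩ (nd (nat_lit 208) (nat_lit 0) (cs (lf (nat_lit 24) (nat_lit 186)) (rf (nat_lit 0)))) q108382 (by decide +kernel)
def q108666 : Q := Q.p (nat_lit 0xc00002000000000000000000000000000000000000000000000000000000000000000) (nat_lit 0x70000fc0003f0000ff000138001df000770000dc000370000000000000000000000000000000000000000000000) (nat_lit 15)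
theorem c108666 : QOK q108666 := cut [q97408, q97409, q98857, q14764, q108619, q99003, q108648, q108664] ⟨c97408, c97409, c98857, c14764, c108619, c99003, c108648, c108664, trivial⟩ (nd (nat_lit 273) (nat_lit 0) (cs (rf (nat_lit 0)) (cs (rf (nat_lit 1)) (cs (rf (nat_lit 2)) (nd (nat_lit 295) (nat_lit 0) (cs (rf (nat_lit 3)) (cs (rf (nat_lit 4)) (cs (nd (nat_lit 317) (nat_lit 0) (cs (rf (nat_lit 5)) (cs (nd (nat_lit 276) (nat_lit 0) (cs (lf (nat_lit 11) (nat_lit 272)) (nd (nat_lit 254) (nat_lit 0) (cs (lf (nat_lit 17) (nat_lit 251)) (nd (nat_lit 298) (nat_lit 0) (cs (lf (nat_lit 5) (nat_lit 273)) (nd (nat_lit 320) (nat_lit 0) (cs (lf (nat_lit 42) (nat_lit 253)) (nd (nat_lit 252) (nat_lit 0) (cs (lf (nat_lit 30) (nat_lit 251)) (nd (nat_lit 208) (nat_lit 0) (cs (lf (nat_lit 37) (nat_lit 207)) (rf (nat_lit 6)))))))))))))) (nd (nat_lit 276) (nat_lit 0) (cs (lf (nat_lit 11) (nat_lit 272)) (nd (nat_lit 254) (nat_lit 0) (cs (lf (nat_lit 17) (nat_lit 251)) (nd (nat_lit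 298) (nat_lit 0) (cs (lf (nat_lit 5) (nat_lit 273)) (nd (nat_lit 320) (nat_lit 0) (cs (lf (nat_lit 42) (nat_lit 253)) (nd (nat_lit 250) (nat_lit 0) (cs (lf (nat_lit 22) (nat_lit 250)) (rf (nat_lit 6))))))))))))))) (rf (nat_lit 7)))))))))) q108666 (by decide +kernel)
def q108707 : Q := Q.p (nat_lit 0xc00003000000000000000000000000000000000000000000000000000000000000000) (nat_lit 0x380001e00001e000320000000000f0000f80000e0000000000000000000000000000000000000000000000) (nat_lit 8)
theorem c108707 : QOK q108707 := cut [q11506, q25707, q91969, q98468] ⟨c11506, c25707, c91969, c98468, trivial⟩ (nd (nat_lit 296) (nat_lit 0) (cs (rf (nat_lit 0)) (cs (rf (nat_lit 1)) (nd (nat_lit 230) (nat_lit 0) (cs (rf (nat_lit 2)) (rf (nat_lit 3))))))) q108707 (by decide +kernel)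
def q108710 : Q := Q.p (nat_lit 0xc00003000000000000000000000000000000000000000000000000000000000000000) (nat_lit 0x600001e000030000c00001f8001f80001e0000000000000000000000000000000000000000000000) (nat_lit 8)
theorem c108710 : QOK q108710 := cut [q98468, q105227, q105295, q79097, q105293, q108708] ⟨c98468, c105227, c105295, c79097, c105293, c108708, trivial⟩ (nd (nat_lit 230) (nat_lit 0) (cs (rf (nat_lit 0)) (cs (rf (nat_lit 1)) (cs (rf (nat_lit 2)) (nd (nat_lit 231) (nat_lit 0) (cs (rf (nat_lit 3)) (cs (rf (nat_lit 4)) (rf (nat_lit 5))))))))) q108710 (by decide +kernel)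
def q108746 : Q := Q.p (nat_lit 0x800007800000000000000000000000000000000000000000000000000000000000000) (nat_lit 0xc0000300000c000030000000000380000e0000380000000000000000000000000000000000000000000000) (nat_lit 9)
theorem c108746 : QOK q108746 := cut [q91083] ⟨c91083, trivial⟩ (nd (nat_lit 276) (nat_lit 0) (cs (lf (nat_lit 5) (nat_lit 251)) (rf (nat_lit 0)))) q108746 (by decide +kernel)
def q108909 : Q := Q.p (nat_lit 0x800003800000000000000000000000000000000000000000000000000000000000000) (nat_lit 0x50000170000dc00037c000400003fc0007c0001f00001c0000700001400000000000000000000000000000) (nat_lit 13)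
theorem c108909 : QOK q108909 := cut [q82198, q108890, q108892, q5482, q11484, q80450, q108893, q82207, q89679, q105120, q12654] ⟨c82198, c108890, c108892, c5482, c11484, c80450, c108893, c82207, c89679, c105120, c12654, trivial⟩ (nd (nat_lit 229) (nat_lit 0) (cs (rf (nat_lit 0)) (cs (rf (nat_lit 1)) (cs (rf (nat_lit 2)) (nd (nat_lit 207) (nat_lit 0) (cs (rf (nat_lit 3)) (cs (rf (nat_lit 4)) (cs (rf (nat_lit 5)) (cs (rf (nat_lit 6)) (nd (nat_lit 273) (nat_lit 0) (cs (rf (nat_lit 7)) (cs (rf (nat_lit 8)) (cs (rf (nat_lit 9)) (cs (nd (nat_lit 184) (nat_lit 0) (cs (lf (nat_lit 46) (nat_lit 184)) (nd (nat_lit 208) (nat_lit 0) (cs (lf (nat_lit 35) (nat_lit 185)) (nd (nat_lit 274) (nat_lit 0) (cs (lf (nat_lit 29) (nat_lit 207)) (nd (nat_lit 271) (nat_lit 0) (cs (lf (nat_lit 13) (nat_lit 249)) (nd (nat_lit 276) (nat_lit 0) (cs (lf (nat_lit 18) (nat_lit 251)) (nd (nat_lit 298) (nat_lit 0) (cs (lf (nat_lit 5) (nat_lit 273)) (nd (nat_lit 320) (nat_lit 0) (cs (lf (nat_lit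 42) (nat_lit 253)) (nd (nat_lit 209) (nat_lit 0) (cs (lf (nat_lit 25) (nat_lit 209)) (nd (nat_lit 230) (nat_lit 0) (cs (lf (nat_lit 35) (nat_lit 186)) (lf (nat_lit 30) (nat_lit 207)))))))))))))))))))) (nd (nat_lit 274) (nat_lit 0) (cs (lf (nat_lit 29) (nat_lit 207)) (nd (nat_lit 276) (nat_lit 0) (cs (lf (nat_lit 18) (nat_lit 251)) (nd (nat_lit 186) (nat_lit 0) (cs (lf (nat_lit 34) (nat_lit 185)) (nd (nat_lit 295) (nat_lit 0) (cs (lf (nat_lit 11) (nat_lit 272)) (rf (nat_lit 10)))))))))))))))))))))))) q108909 (by decide +kernel)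
def q108969 : Q := Q.p (nat_lit 0x800003000000000000000000000000000000000000000000000000000000000000000) (nat_lit 0x100000700001e00017c000ce0003fc000fc0003f00001c0000500000000000000000000000000000000000) (nat_lit 13)
theorem c108969 : QOK q108969 := cut [q1999, q2066, q2091, q108693, q108968] ⟨c1999, c2066, c2091, c108693, c108968, trivial⟩ (nd (nat_lit 251) (nat_lit 0) (cs (rf (nat_lit 0)) (cs (rf (nat_lit 1)) (cs (rf (nat_lit 2)) (cs (rf (nat_lit 3)) (rf (nat_lit 4))))))) q108969 (by decide +kernel)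
def q109025 : Q := Q.p (nat_lit 0x200000800002000000000000000000000000000000000000000000000000000000000000000) (nat_lit 0x200000c00005c000700000580007e0001f00001c0000500000000000000000000000000000000000000000) (nat_lit 11)
theorem c109025 : QOK q109025 := cut [q99253, q99260, q99269, q108258, q109006] ⟨c99253, c99260, c99269, c108258, c109006, trivial⟩ (nd (nat_lit 231) (nat_lit 0) (cs (rf (nat_lit 0)) (cs (rf (nat_lit 1)) (cs (rf (nat_lit 2)) (cs (rf (nat_lit 3)) (rf (nat_lit 4))))))) q109025 (by decide +kernel)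
def q109249 : Q := Q.p (nat_lit 0x800002000000000000000000000000000000000000000000000000000000000000000) (nat_lit 0x170001ff000ff8003fe00077c00fdf001ff8003dc000770001900000000000000000000000000000000000000000) (nat_lit 19)
theorem c109249 : QOK q109249 := cut [q81192, q109026, q109086, q105048, q108302, q80249, q109088, q109092, q109097, q109106, q109062, q109079, q109083, q79214, q86390, q98248, q106596, q80658, q109123, q109129, q109146, q109184, q109197, q97319, q101882, q108489, q108645, q108365, q1999, q80247, q109208, q109214, q15728, q86389, q109222, q109225, q109024, q108309, q81880, q79217, q105778, q109248] ⟨c81192, c109026, c109086, c105048, c108302, c80249, c109088, c109092, c109097, c109106, c109062, c109079, c109083, c79214, c86390, c98248, c106596, c80658, c109123, c109129, c109146, c109184, c109197, c97319, c101882, c108489, c108645, c108365, c1999, c80247, c109208, c109214, c15728, c86389, c109222, c109225, c109024, c108309, c81880, c79217,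 c105778, c109248, trivial⟩ (nd (nat_lit 254) (nat_lit 0) (cs (nd (nat_lit 297) (nat_lit 0) (cs (rf (nat_lit 0)) (cs (rf (nat_lit 1)) (cs (nd (nat_lit 296) (nat_lit 0) (cs (rf (nat_lit 2)) (cs (nd (nat_lit 276) (nat_lit 0) (cs (rf (nat_lit 3)) (cs (rf (nat_lit 4)) (cs (nd (nat_lit 298) (nat_lit 0) (cs (rf (nat_lit 5)) (nd (nat_lit 210) (nat_lit 0) (cs (lf (nat_lit 37) (nat_lit 209)) (rf (nat_lit 6)))))) (nd (nat_lit 298) (nat_lit 0) (cs (rf (nat_lit 5)) (nd (nat_lit 277) (nat_lit 0) (cs (lf (nat_lit 6) (nat_lit 274)) (rf (nat_lit 7)))))))))) (rf (nat_lit 8))))) (rf (nat_lit 9)))))) (cs (nd (nat_lit 255) (nat_lit 0) (cs (rf (nat_lit 10)) (cs (rf (nat_lit 11)) (cs (rf (nat_lit 12)) (cs (nd (nat_lit 252) (nat_lit 0) (cs (rf (nat_lit 13)) (cs (rf (nat_lit 14)) (cs (rf (nat_lit 15)) (nd (nat_lit 277) (nat_lit 0) (cs (lf (nat_lit 5) (nat_lit 252)) (nd (nat_lit 299) (nat_lit 0) (cs (nd (nat_lit 229) (nat_lit 0) (cs (lf (nat_lit 22) (nat_lit 229)) (nd (nat_lit 232)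 (nat_lit 0) (cs (lf (nat_lit 42) (nat_lit 232)) (rf (nat_lit 16)))))) (cs (nd (nat_lit 233) (nat_lit 0) (cs (lf (nat_lit 17) (nat_lit 230)) (rf (nat_lit 17)))) (nd (nat_lit 233) (nat_lit 0) (cs (lf (nat_lit 17) (nat_lit 230)) (nd (nat_lit 300) (nat_lit 0) (cs (lf (nat_lit 29) (nat_lit 233)) (nd (nat_lit 274) (nat_lit 0) (cs (lf (nat_lit 2) (nat_lit 274)) (lf (nat_lit 11) (nat_lit 251))))))))))))))))) (cs (rf (nat_lit 18)) (rf (nat_lit 19)))))))) (cs (rf (nat_lit 20)) (cs (rf (nat_lit 21)) (cs (rf (nat_lit 22)) (cs (nd (nat_lit 274) (nat_lit 0) (cs (rf (nat_lit 23)) (cs (rf (nat_lit 24)) (cs (rf (nat_lit 25)) (cs (rf (nat_lit 26)) (nd (nat_lit 252) (nat_lit 0) (cs (rf (nat_lit 27)) (cs (nd (nat_lit 251) (nat_lit 0) (cs (rf (nat_lit 28)) (rf (nat_lit 29)))) (rf (nat_lit 30)))))))))) (cs (rf (nat_lit 31)) (cs (nd (nat_lit 297) (nat_lit 0) (cs (rf (nat_lit 0)) (cs (rf (nat_lit 1)) (cs (rf (nat_lit 9)) (nd (nat_lit 274) (nat_lit 0) (cs (rf (nat_lit 23)) (cs (nd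 (nat_lit 296) (nat_lit 0) (cs (nd (nat_lit 318) (nat_lit 0) (cs (lf (nat_lit 30) (nat_lit 252)) (lf (nat_lit 36) (nat_lit 230)))) (nd (nat_lit 277) (nat_lit 0) (cs (rf (nat_lit 32)) (cs (nd (nat_lit 255) (nat_lit 0) (cs (lf (nat_lit 6) (nat_lit 252)) (nd (nat_lit 252) (nat_lit 0) (cs (lf (nat_lit 5) (nat_lit 252)) (rf (nat_lit 33)))))) (rf (nat_lit 34))))))) (rf (nat_lit 35))))))))) (cs (nd (nat_lit 297) (nat_lit 0) (cs (rf (nat_lit 0)) (cs (rf (nat_lit 36)) (nd (nat_lit 296) (nat_lit 0) (cs (rf (nat_lit 2)) (cs (rf (nat_lit 8)) (nd (nat_lit 274) (nat_lit 0) (cs (rf (nat_lit 23)) (cs (rf (nat_lit 35)) (nd (nat_lit 277) (nat_lit 0) (cs (rf (nat_lit 32)) (cs (rf (nat_lit 34)) (nd (nat_lit 255) (nat_lit 0) (cs (lf (nat_lit 6) (nat_lit 252)) (nd (nat_lit 252) (nat_lit 0) (cs (lf (nat_lit 5) (nat_lit 252)) (rf (nat_lit 37)))))))))))))))))) (cs (nd (nat_lit 255) (nat_lit 0) (cs (rf (nat_lit 10)) (cs (nd (nat_lit 256) (nat_lit 0) (cs (lf (nat_lit 11) (nat_lit 252))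 (nd (nat_lit 234) (nat_lit 0) (cs (lf (nat_lit 17) (nat_lit 231)) (nd (nat_lit 233) (nat_lit 0) (cs (lf (nat_lit 12) (nat_lit 230)) (rf (nat_lit 38)))))))) (cs (rf (nat_lit 11)) (cs (rf (nat_lit 12)) (cs (rf (nat_lit 18)) (nd (nat_lit 252) (nat_lit 0) (cs (rf (nat_lit 39)) (cs (rf (nat_lit 15)) (rf (nat_lit 40))))))))))) (rf (nat_lit 41))))))))))))) q109249 (by decide +kernel)
def q109395 : Q := Q.p (nat_lit 0x1800002000000000000000000000000000000000000000000000000000000000000000) (nat_lit 0x300003e0000678007dc000fe0001f00003c0000500000000000000000000000000000000000000000) (nat_lit 12)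
theorem c109395 : QOK q109395 := cut [q91107, q100321, q100461, q100469, q16715, q99782, q109380, q109389, q235, q97549, q14688, q91097, q108731, q108742, q108365, q108498, q109373] ⟨c91107, c100321, c100461, c100469, c16715, c99782, c109380, c109389, c235, c97549, c14688, c91097, c108731, c108742, c108365, c108498, c109373, trivial⟩ (nd (nat_lit 231) (nat_lit 0) (cs (rf (nat_lit 0)) (cs (rf (nat_lit 1)) (cs (rf (nat_lit 2)) (cs (rf (nat_lit 3)) (nd (nat_lit 277) (nat_lit 0) (cs (rf (nat_lit 4)) (cs (rf (nat_lit 5)) (cs (nd (nat_lit 256) (nat_lit 0) (cs (nd (nat_lit 278) (nat_lit 0) (cs (lf (nat_lit 17) (nat_lit 253)) (rf (nat_lit 6)))) (cs (nd (nat_lit 255) (nat_lit 0) (cs (lf (nat_lit 12) (nat_lit 252)) (nd (nat_lit 230) (nat_lit 0) (cs (lf (nat_lit 20) (nat_lit 230)) (nd (nat_lit 232) (nat_lit 0) (cs (nd (nat_lit 297) (nat_lit 0) (cs (lf (nat_lit 35) (nat_lit 209)) (lf (nat_lit 47) (nat_lit 208)))) (lf (nat_lit 3) (nat_lit 230)))))))) (rf (nat_lit 7)))))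 (nd (nat_lit 252) (nat_lit 0) (cs (rf (nat_lit 8)) (cs (rf (nat_lit 9)) (nd (nat_lit 274) (nat_lit 0) (cs (rf (nat_lit 10)) (cs (rf (nat_lit 11)) (cs (rf (nat_lit 12)) (cs (rf (nat_lit 13)) (nd (nat_lit 254) (nat_lit 0) (cs (rf (nat_lit 14)) (cs (nd (nat_lit 255) (nat_lit 0) (cs (lf (nat_lit 6) (nat_lit 252)) (rf (nat_lit 15)))) (rf (nat_lit 16)))))))))))))))))))))) q109395 (by decide +kernel)
def q109419 : Q := Q.p (nat_lit 0x1800002000000000000000000000000000000000000000000000000000000000000000) (nat_lit 0x1600007c000660007df0007f8001ff0001e0000580000000000000000000000000000000000000000) (nat_lit 15)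
theorem c109419 : QOK q109419 := cut [q100391, q109006, q109056, q97957, q109372, q90494, q104510, q109396, q100800, q108301, q109411, q87016, q109417] ⟨c100391, c109006, c109056, c97957, c109372, c90494, c104510, c109396, c100800, c108301, c109411, c87016, c109417, trivial⟩ (nd (nat_lit 231) (nat_lit 0) (cs (rf (nat_lit 0)) (cs (rf (nat_lit 1)) (cs (rf (nat_lit 2)) (nd (nat_lit 230) (nat_lit 0) (cs (rf (nat_lit 3)) (cs (rf (nat_lit 4)) (cs (nd (nat_lit 252) (nat_lit 0) (cs (rf (nat_lit 5)) (cs (rf (nat_lit 6)) (cs (nd (nat_lit 255) (nat_lit 0) (cs (rf (nat_lit 7)) (cs (nd (nat_lit 277) (nat_lit 0) (cs (lf (nat_lit 18) (nat_lit 252)) (nd (nat_lit 256) (nat_lit 0) (cs (lf (nat_lit 12) (nat_lit 252)) (nd (nat_lit 257) (nat_lit 0) (cs (lf (nat_lit 6) (nat_lit 254)) (nd (nat_lit 232) (nat_lit 0) (cs (rf (nat_lit 8)) (lf (nat_lit 3) (nat_lit 230)))))))))) (cs (nd (nat_lit 277) (nat_lit 0) (cs (lf (nat_lit 18) (nat_lit 252)) (nd (nat_lit 229) (nat_lit 0) (cs (lf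 (nat_lit 19) (nat_lit 229)) (nd (nat_lit 228) (nat_lit 0) (cs (lf (nat_lit 0) (nat_lit 227)) (nd (nat_lit 249) (nat_lit 0) (cs (lf (nat_lit 10) (nat_lit 227)) (nd (nat_lit 206) (nat_lit 0) (cs (lf (nat_lit 23) (nat_lit 205)) (nd (nat_lit 207) (nat_lit 0) (cs (lf (nat_lit 18) (nat_lit 206)) (nd (nat_lit 163) (nat_lit 0) (cs (lf (nat_lit 25) (nat_lit 163)) (nd (nat_lit 296) (nat_lit 0) (cs (lf (nat_lit 43) (nat_lit 207)) (nd (nat_lit 297) (nat_lit 0) (cs (lf (nat_lit 41) (nat_lit 230)) (rf (nat_lit 9)))))))))))))))))))) (rf (nat_lit 10)))))) (nd (nat_lit 251) (nat_lit 0) (cs (lf (nat_lit 0) (nat_lit 250)) (nd (nat_lit 232) (nat_lit 0) (cs (lf (nat_lit 6) (nat_lit 229)) (rf (nat_lit 11)))))))))) (rf (nat_lit 12)))))))))) q109419 (by decide +kernel)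
def q109449 : Q := Q.p (nat_lit 0x1800002000000000000000000000000000000000000000000000000000000000000000) (nat_lit 0x10000360001fc00067c003de0001fc001f00001c0000500000000000000000000000000000000000000000) (nat_lit 12)
theorem c109449 : QOK q109449 := cut [q100391, q109006, q109056, q88742, q104510, q97586, q109284, q108498, q1999, q2066, q2091, q109446] ⟨c100391, c109006, c109056, c88742, c104510, c97586, c109284, c108498, c1999, c2066, c2091, c109446, trivial⟩ (nd (nat_lit 231) (nat_lit 0) (cs (rf (nat_lit 0)) (cs (rf (nat_lit 1)) (cs (rf (nat_lit 2)) (nd (nat_lit 252) (nat_lit 0) (cs (rf (nat_lit 3)) (cs (rf (nat_lit 4)) (cs (nd (nat_lit 296) (nat_lit 0) (cs (rf (nat_lit 5)) (cs (rf (nat_lit 6)) (nd (nat_lit 277) (nat_lit 0) (cs (lf (nat_lit 18) (nat_lit 252)) (nd (nat_lit 274) (nat_lit 0) (cs (lf (nat_lit 11) (nat_lit 273)) (nd (nat_lit 255) (nat_lit 0) (cs (lf (nat_lit 17) (nat_lit 252)) (nd (nat_lit 254) (nat_lit 0) (cs (lf (nat_lit 12) (nat_lit 251))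 (nd (nat_lit 229) (nat_lit 0) (cs (lf (nat_lit 22) (nat_lit 229)) (nd (nat_lit 298) (nat_lit 0) (cs (lf (nat_lit 42) (nat_lit 231)) (rf (nat_lit 7))))))))))))))))) (nd (nat_lit 251) (nat_lit 0) (cs (rf (nat_lit 8)) (cs (rf (nat_lit 9)) (cs (rf (nat_lit 10)) (rf (nat_lit 11)))))))))))))) q109449 (by decide +kernel)
def q109493 : Q := Q.p (nat_lit 0xc00002000000000000000000000000000000000000000000000000000000000000000) (nat_lit 0x60000180001ee000738001df000300000c0000300000000000000000000000000000000000000000000000) (nat_lit 11)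
theorem c109493 : QOK q109493 := cut [q97408, q97409, q99215, q98831, q108364, q108486] ⟨c97408, c97409, c99215, c98831, c108364, c108486, trivial⟩ (nd (nat_lit 273) (nat_lit 0) (cs (rf (nat_lit 0)) (cs (rf (nat_lit 1)) (cs (rf (nat_lit 2)) (nd (nat_lit 276) (nat_lit 0) (cs (rf (nat_lit 3)) (cs (rf (nat_lit 4)) (rf (nat_lit 5))))))))) q109493 (by decide +kernel)
def q109497 : Q := Q.p (nat_lit 0xc00002000000000000000000000000000000000000000000000000000000000000000) (nat_lit 0xe80003a0003df000738003df0003b80006c000130000000000000000000000000000000000000000000000) (nat_lit 14)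
theorem c109497 : QOK q109497 := cut [q97408, q97409, q108433, q108436, q108359, q108361, q108391, q98379] ⟨c97408, c97409, c108433, c108436, c108359, c108361, c108391, c98379, trivial⟩ (nd (nat_lit 273) (nat_lit 0) (cs (rf (nat_lit 0)) (cs (rf (nat_lit 1)) (cs (rf (nat_lit 2)) (cs (rf (nat_lit 3)) (nd (nat_lit 276) (nat_lit 0) (cs (rf (nat_lit 4)) (cs (rf (nat_lit 5)) (cs (rf (nat_lit 6)) (nd (nat_lit 250) (nat_lit 0) (cs (lf (nat_lit 22) (nat_lit 250)) (nd (nat_lit 254) (nat_lit 0) (cs (lf (nat_lit 17) (nat_lit 251)) (rf (nat_lit 7))))))))))))))) q109497 (by decide +kernel)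
def q109521 : Q := Q.p (nat_lit 0xc00002000000000000000000000000000000000000000000000000000000000000000) (nat_lit 0x180000600003e000738001df0007b80006c0001b0000000000000000000000000000000000000000000000) (nat_lit 9)
theorem c109521 : QOK q109521 := cut [q97408, q97409, q99215, q11768, q98137, q14769, q24705, q98546, q90731, q108380] ⟨c97408, c97409, c99215, c11768, c98137, c14769, c24705, c98546, c90731, c108380, trivial⟩ (nd (nat_lit 273) (nat_lit 0) (cs (rf (nat_lit 0)) (cs (rf (nat_lit 1)) (cs (rf (nat_lit 2)) (nd (nat_lit 251) (nat_lit 0) (cs (rf (nat_lit 3)) (cs (rf (nat_lit 4)) (cs (nd (nat_lit 252) (nat_lit 0) (cs (rf (nat_lit 5)) (cs (rf (nat_lit 6)) (rf (nat_lit 7))))) (nd (nat_lit 252) (nat_lit 0) (cs (rf (nat_lit 8)) (cs (rf (nat_lit 7)) (rf (nat_lit 9))))))))))))) q109521 (by decide +kernel)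
def q109528 : Q := Q.p (nat_lit 0x200000800002000000000000000000000000000000000000000000000000000000000000000) (nat_lit 0x14000050000f78001de00077c000580000e000038000040000000000000000000000000000000000000000000000) (nat_lit 11)
theorem c109528 : QOK q109528 := cut [q89653, q94505, q11666, q11728, q108286, q108299, q109527] ⟨c89653, c94505, c11666, c11728, c108286, c108299, c109527, trivial⟩ (nd (nat_lit 296) (nat_lit 0) (cs (rf (nat_lit 0)) (cs (rf (nat_lit 1)) (cs (nd (nat_lit 295) (nat_lit 0) (cs (rf (nat_lit 2)) (cs (rf (nat_lit 3)) (cs (rf (nat_lit 4)) (rf (nat_lit 5)))))) (rf (nat_lit 6)))))) q109528 (by decide +kernel)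
def q109636 : Q := Q.p (nat_lit 0x800003800000000000000000000000000000000000000000000000000000000000000) (nat_lit 0x1900006c00007c000060007fc001fe0007f0000200000800000000000000000000000000000000000) (nat_lit 15)
theorem c109636 : QOK q109636 := cut [q79078, q79112, q426, q91971, q109632, q1998, q2065, q2090, q99513] ⟨c79078, c79112, c426, c91971, c109632, c1998, c2065, c2090, c99513, trivial⟩ (nd (nat_lit 230) (nat_lit 0) (cs (rf (nat_lit 0)) (cs (rf (nat_lit 1)) (cs (nd (nat_lit 231) (nat_lit 0) (cs (rf (nat_lit 2)) (cs (rf (nat_lit 3)) (rf (nat_lit 4))))) (nd (nat_lit 208) (nat_lit 0) (cs (lf (nat_lit 24) (nat_lit 186)) (nd (nat_lit 250) (nat_lit 0) (cs (rf (nat_lit 5)) (cs (rf (nat_lit 6)) (cs (rf (nat_lit 7)) (rf (nat_lit 8)))))))))))) q109636 (by decide +kernel)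
def q109704 : Q := Q.p (nat_lit 0x1c00002000000000000000000000000000000000000000000000000000000000000000) (nat_lit 0x38e000638001df00000000000000000000000000000000000000000000000000000000000000) (nat_lit 8)
theorem c109704 : QOK q109704 := cut [q97409, q99215, q109699] ⟨c97409, c99215, c109699, trivial⟩ (nd (nat_lit 273) (nat_lit 0) (cs (rf (nat_lit 0)) (cs (rf (nat_lit 1)) (nd (nat_lit 250) (nat_lit 0) (cs (lf (nat_lit 22) (nat_lit 250)) (nd (nat_lit 255) (nat_lit 0) (cs (lf (nat_lit 16) (nat_lit 251)) (nd (nat_lit 277) (nat_lit 0) (cs (lf (nat_lit 17) (nat_lit 252)) (nd (nat_lit 294) (nat_lit 0) (cs (lf (nat_lit 10) (nat_lit 272)) (rf (nat_lit 2))))))))))))) q109704 (by decide +kernel)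
def q109749 : Q := Q.p (nat_lit 0x800002000008000000000000000000000000000000000000000000000000000000000) (nat_lit 0x3a0003e8000778001df800f7c003bf0002e0000b80000000000000000000000000000000000000000) (nat_lit 15)
theorem c109749 : QOK q109749 := cut [q81896, q97957, q80735, q107016, q107808, q109708, q100321, q109712, q109714, q107793, q107805, q109715, q109722, q79170, q101314, q97543, q3983, q3985, q88742, q90494, q104510, q109396, q109411, q109736, q109742, q109745] ⟨c81896, c97957, c80735, c107016, c107808, c109708, c100321, c109712, c109714, c107793, c107805, c109715, c109722, c79170, c101314, c97543, c3983, c3985, c88742, c90494, c104510, c109396, c109411, c109736, c109742, c109745, trivial⟩ (nd (nat_lit 230) (nat_lit 0) (cs (rf (nat_lit 0)) (cs (rf (nat_lit 1)) (cs (nd (nat_lit 254) (nat_lit 0) (cs (rf (nat_lit 2)) (cs (rf (nat_lit 3)) (cs (rf (nat_lit 4)) (rf (nat_lit 5)))))) (nd (nat_lit 276) (nat_lit 0) (cs (rf (nat_lit 6)) (cs (rf (nat_lit 7))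 (cs (rf (nat_lit 8)) (cs (nd (nat_lit 254) (nat_lit 0) (cs (rf (nat_lit 2)) (cs (rf (nat_lit 3)) (cs (nd (nat_lit 251) (nat_lit 0) (cs (rf (nat_lit 9)) (cs (rf (nat_lit 10)) (cs (nd (nat_lit 298) (nat_lit 0) (cs (lf (nat_lit 42) (nat_lit 231)) (nd (nat_lit 229) (nat_lit 0) (cs (lf (nat_lit 0) (nat_lit 228)) (nd (nat_lit 232) (nat_lit 0) (cs (lf (nat_lit 11) (nat_lit 228)) (nd (nat_lit 211) (nat_lit 0) (cs (lf (nat_lit 34) (nat_lit 210)) (nd (nat_lit 206) (nat_lit 0) (cs (lf (nat_lit 22) (nat_lit 206)) (rf (nat_lit 11)))))))))))) (nd (nat_lit 252) (nat_lit 0) (cs (lf (nat_lit 5) (nat_lit 251)) (rf (nat_lit 12)))))))) (nd (nat_lit 252) (nat_lit 0) (cs (rf (nat_lit 13)) (cs (rf (nat_lit 14)) (nd (nat_lit 277) (nat_lit 0) (cs (lf (nat_lit 18) (nat_lit 252)) (nd (nat_lit 186) (nat_lit 0) (cs (lf (nat_lit 25) (nat_lit 186)) (nd (nat_lit 298) (nat_lit 0) (cs (lf (nat_lit 42) (nat_lit 231)) (nd (nat_lit 255) (nat_lit 0) (cs (lf (nat_lit 18) (nat_lit 230)) (rf (nat_lit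 15))))))))))))))))) (nd (nat_lit 208) (nat_lit 0) (cs (rf (nat_lit 16)) (cs (rf (nat_lit 17)) (nd (nat_lit 252) (nat_lit 0) (cs (rf (nat_lit 18)) (cs (rf (nat_lit 19)) (cs (rf (nat_lit 20)) (cs (nd (nat_lit 255) (nat_lit 0) (cs (rf (nat_lit 21)) (cs (rf (nat_lit 22)) (cs (rf (nat_lit 23)) (rf (nat_lit 24)))))) (rf (nat_lit 25))))))))))))))))))) q109749 (by decide +kernel)
def q109862 : Q := Q.p (nat_lit 0x200000800002000000000000000000000000000000000000000000000000000000000000000) (nat_lit 0x300000c00000800037c003de000f7c00050000140000000000000000000000000000000000000000000000) (nat_lit 10)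
theorem c109862 : QOK q109862 := cut [q88933, q109654, q109858, q109861] ⟨c88933, c109654, c109858, c109861, trivial⟩ (nd (nat_lit 252) (nat_lit 0) (cs (rf (nat_lit 0)) (cs (rf (nat_lit 1)) (cs (rf (nat_lit 2)) (rf (nat_lit 3)))))) q109862 (by decide +kernel)
def q109977 : Q := Q.p (nat_lit 0xc00002000008000000000000000000000000000000000000000000000000000000000) (nat_lit 0x8000120003df000738003df00001800004000010000000000000000000000000000000000000000000000) (nat_lit 13)
theorem c109977 : QOK q109977 := cut [q97408, q97409, q108433, q108436, q108361, q108391, q104121] ⟨c97408, c97409, c108433, c108436, c108361, c108391, c104121, trivial⟩ (nd (nat_lit 273) (nat_lit 0) (cs (rf (nat_lit 0)) (cs (rf (nat_lit 1)) (cs (rf (nat_lit 2)) (cs (rf (nat_lit 3)) (nd (nat_lit 276) (nat_lit 0) (cs (rf (nat_lit 4)) (cs (rf (nat_lit 5)) (nd (nat_lit 250) (nat_lit 0) (cs (lf (nat_lit 22) (nat_lit 250)) (rf (nat_lit 6)))))))))))) q109977 (by decide +kernel)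
def q109983 : Q := Q.p (nat_lit 0x800002000000000000000000000000000000000000000000000000000000000000000) (nat_lit 0x1c0000700001e0001f000077c003df800ffe001ff000140000000000000000000000000000000000000000000000) (nat_lit 16)
theorem c109983 : QOK q109983 := cut [q108313, q89625, q108319, q108332, q2544, q108341, q109023, q109026, q88933, q108281, q109861, q1999, q2066, q91218, q95553, q81727, q108275, q95552, q108259] ⟨c108313, c89625, c108319, c108332, c2544, c108341, c109023, c109026, c88933, c108281, c109861, c1999, c2066, c91218, c95553, c81727, c108275, c95552, c108259, trivial⟩ (nd (nat_lit 297) (nat_lit 0) (cs (rf (nat_lit 0)) (cs (nd (nat_lit 319) (nat_lit 0) (cs (rf (nat_lit 1)) (cs (rf (nat_lit 2)) (cs (rf (nat_lit 3)) (nd (nat_lit 320) (nat_lit 0) (cs (lf (nat_lit 29) (nat_lit 253)) (nd (nat_lit 318) (nat_lit 0) (cs (lf (nat_lit 41) (nat_lit 252)) (nd (nat_lit 252) (nat_lit 0) (cs (lf (nat_lit 47) (nat_lit 230)) (nd (nat_lit 341) (nat_lit 0) (cs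 (lf (nat_lit 46) (nat_lit 252)) (nd (nat_lit 276) (nat_lit 0) (cs (lf (nat_lit 35) (nat_lit 253)) (nd (nat_lit 277) (nat_lit 0) (cs (lf (nat_lit 18) (nat_lit 252)) (nd (nat_lit 298) (nat_lit 0) (cs (rf (nat_lit 4)) (lf (nat_lit 30) (nat_lit 275)))))))))))))))))))) (cs (rf (nat_lit 5)) (cs (rf (nat_lit 6)) (cs (rf (nat_lit 7)) (nd (nat_lit 252) (nat_lit 0) (cs (rf (nat_lit 8)) (cs (rf (nat_lit 9)) (cs (rf (nat_lit 10)) (nd (nat_lit 251) (nat_lit 0) (cs (rf (nat_lit 11)) (cs (rf (nat_lit 12)) (cs (nd (nat_lit 272) (nat_lit 0) (cs (rf (nat_lit 13)) (cs (nd (nat_lit 254) (nat_lit 0) (cs (lf (nat_lit 10) (nat_lit 250)) (nd (nat_lit 232) (nat_lit 0) (cs (lf (nat_lit 17) (nat_lit 229)) (rf (nat_lit 14)))))) (cs (nd (nat_lit 254) (nat_lit 0) (cs (lf (nat_lit 10) (nat_lit 250)) (nd (nat_lit 232) (nat_lit 0) (cs (lf (nat_lit 17) (nat_lit 229)) (nd (nat_lit 188) (nat_lit 0) (cs (lf (nat_lit 37) (nat_lit 187)) (nd (nat_lit 228) (nat_lit 0) (cs (lf (nat_lit 22) (nat_lit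 228)) (rf (nat_lit 15)))))))))) (rf (nat_lit 16)))))) (nd (nat_lit 254) (nat_lit 0) (cs (rf (nat_lit 17)) (rf (nat_lit 18)))))))))))))))))) q109983 (by decide +kernel)
def q110160 : Q := Q.p (nat_lit 0x300000c000000000000000000000000000000000000000000000000000000000) (nat_lit 0x10000040001c6000738001de000120000480000000000000000000000000000000000000000) (nat_lit 9)
theorem c110160 : QOK q110160 := cut [q84417, q84429, q84418, q84447, q110054] ⟨c84417, c84429, c84418, c84447, c110054, trivial⟩ (nd (nat_lit 229) (nat_lit 0) (cs (rf (nat_lit 0)) (cs (rf (nat_lit 1)) (nd (nat_lit 232) (nat_lit 0) (cs (rf (nat_lit 2)) (cs (rf (nat_lit 3)) (rf (nat_lit 4)))))))) q110160 (by decide +kernel)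
def q110163 : Q := Q.p (nat_lit 0x300000c000000000000000000000000000000000000000000000000000000000) (nat_lit 0xe000038000078000000003200003e0000e0000380000000000000000000000000000000000000000) (nat_lit 9)
theorem c110163 : QOK q110163 := cut [q79097, q110022, q110162] ⟨c79097, c110022, c110162, trivial⟩ (nd (nat_lit 274) (nat_lit 0) (cs (rf (nat_lit 0)) (cs (rf (nat_lit 1)) (rf (nat_lit 2))))) q110163 (by decide +kernel)
def q110190 : Q := Q.p (nat_lit 0x3000004000010000000000000000000000000000000000000000000000000000) (nat_lit 0x200000e00003800006000000000080000080000e0000380000a00000000000000000000000000000000000) (nat_lit 9)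
theorem c110190 : QOK q110190 := cut [q25, q499, q79032, q110187] ⟨c25, c499, c79032, c110187, trivial⟩ (nd (nat_lit 186) (nat_lit 0) (cs (rf (nat_lit 0)) (cs (rf (nat_lit 1)) (cs (rf (nat_lit 2)) (nd (nat_lit 165) (nat_lit 0) (cs (lf (nat_lit 34) (nat_lit 164)) (nd (nat_lit 185) (nat_lit 0) (cs (lf (nat_lit 47) (nat_lit 163)) (rf (nat_lit 3)))))))))) q110190 (by decide +kernel)
def q110226 : Q := Q.p (nat_lit 0x7000004000000000000000000000000000000000000000000000000000000000) (nat_lit 0x900003f8001fc0007f000180000780000d0000340000000000000000000000000000000000000000000000) (nat_lit 13)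
theorem c110226 : QOK q110226 := cut [q79078, q79112, q79079, q79080, q99093, q110193, q81970, q102935, q110218, q79102] ⟨c79078, c79112, c79079, c79080, c99093, c110193, c81970, c102935, c110218, c79102, trivial⟩ (nd (nat_lit 275) (nat_lit 0) (cs (rf (nat_lit 0)) (cs (rf (nat_lit 1)) (cs (nd (nat_lit 274) (nat_lit 0) (cs (rf (nat_lit 2)) (cs (rf (nat_lit 3)) (nd (nat_lit 276) (nat_lit 0) (cs (rf (nat_lit 4)) (cs (rf (nat_lit 5)) (nd (nat_lit 186) (nat_lit 0) (cs (lf (nat_lit 25) (nat_lit 186)) (nd (nat_lit 277) (nat_lit 0) (cs (lf (nat_lit 18) (nat_lit 252)) (nd (nat_lit 299) (nat_lit 0) (cs (lf (nat_lit 5) (nat_lit 274)) (nd (nat_lit 321) (nat_lit 0) (cs (lf (nat_lit 42) (nat_lit 254)) (rf (nat_lit 6)))))))))))))))) (nd (nat_lit 255) (nat_lit 0) (cs (rf (nat_lit 7)) (cs (rf (nat_lit 8)) (nd (nat_lit 297) (nat_lit 0) (cs (lf (nat_lit 42) (nat_lit 230)) (nd (nat_lit 277) (nat_lit 0) (cs (lf (nat_lit 5) (nat_lit 252)) (nd (nat_lit 231) (nat_lit 0) (cs (lf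 (nat_lit 18) (nat_lit 230)) (nd (nat_lit 210) (nat_lit 0) (cs (lf (nat_lit 34) (nat_lit 209)) (nd (nat_lit 298) (nat_lit 0) (cs (lf (nat_lit 29) (nat_lit 231)) (nd (nat_lit 233) (nat_lit 0) (cs (lf (nat_lit 17) (nat_lit 230)) (rf (nat_lit 9))))))))))))))))))))) q110226 (by decide +kernel)
def q110238 : Q := Q.p (nat_lit 0xc00007000004000000000000000000000000000000000000000000000000000000000) (nat_lit 0x1800003000000000030000f80000a0000000000000000000000000000000000000000000000) (nat_lit 7)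
theorem c110238 : QOK q110238 := cut [q110237] ⟨c110237, trivial⟩ (nd (nat_lit 273) (nat_lit 0) (cs (lf (nat_lit 12) (nat_lit 250)) (rf (nat_lit 0)))) q110238 (by decide +kernel)
def q110313 : Q := Q.p (nat_lit 0x7000004000000000000000000000000000000000000000000000000000000000) (nat_lit 0x1e0001fe0007f0000000007b0001f00001c0000200000000000000000000000000000000000000000) (nat_lit 11)
theorem c110313 : QOK q110313 := cut [q79078, q79112, q110256, q110312] ⟨c79078, c79112, c110256, c110312, trivial⟩ (nd (nat_lit 275) (nat_lit 0) (cs (rf (nat_lit 0)) (cs (rf (nat_lit 1)) (cs (rf (nat_lit 2)) (rf (nat_lit 3)))))) q110313 (by decide +kernel)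
def q110349 : Q := Q.p (nat_lit 0xc00003000000000000000000000000000000000000000000000000000000000000000) (nat_lit 0x600001a0000ee0003380000e00007800014000010000000000000000000000000000000000000000000000) (nat_lit 8)
theorem c110349 : QOK q110349 := cut [q90627, q91664, q105525] ⟨c90627, c91664, c105525, trivial⟩ (nd (nat_lit 273) (nat_lit 0) (cs (rf (nat_lit 0)) (cs (rf (nat_lit 1)) (rf (nat_lit 2))))) q110349 (by decide +kernel)
def q110365 : Q := Q.p (nat_lit 0xd00003000000000000000000000000000000000000000000000000000000000000000) (nat_lit 0x88000360001080000e0000780003e0000f80000a0000000000000000000000000000000000000000) (nat_lit 10)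
theorem c110365 : QOK q110365 := cut [q79068, q99139, q14306] ⟨c79068, c99139, c14306, trivial⟩ (nd (nat_lit 230) (nat_lit 0) (cs (rf (nat_lit 0)) (cs (rf (nat_lit 1)) (nd (nat_lit 208) (nat_lit 0) (cs (lf (nat_lit 24) (nat_lit 186)) (nd (nat_lit 187) (nat_lit 0) (cs (lf (nat_lit 34) (nat_lit 186)) (nd (nat_lit 207) (nat_lit 0) (cs (lf (nat_lit 47) (nat_lit 185)) (nd (nat_lit 229) (nat_lit 0) (cs (lf (nat_lit 42) (nat_lit 207)) (nd (nat_lit 228) (nat_lit 0) (cs (lf (nat_lit 0) (nat_lit 227)) (nd (nat_lit 250) (nat_lit 0) (cs (lf (nat_lit 30) (nat_lit 206)) (rf (nat_lit 2))))))))))))))))) q110365 (by decide +kernel)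
def q110408 : Q := Q.p (nat_lit 0x800003000000000000000000000000000000000000000000000000000000000000000) (nat_lit 0x780001e0001fe0007780018e0003bc0007c0001f0000000000000000000000000000000000000000000000) (nat_lit 13)
theorem c110408 : QOK q110408 := cut [q110358, q700, q110392, q80881, q98731, q41455, q91397, q22293, q91802, q86429, q105353, q105402, q14866, q105572, q105575, q98350, q56066] ⟨c110358, c700, c110392, c80881, c98731, c41455, c91397, c22293, c91802, c86429, c105353, c105402, c14866, c105572, c105575, c98350, c56066, trivial⟩ (nd (nat_lit 274) (nat_lit 0) (cs (rf (nat_lit 0)) (cs (nd (nat_lit 276) (nat_lit 0) (cs (rf (nat_lit 1)) (rf (nat_lit 2)))) (cs (nd (nat_lit 231) (nat_lit 0) (cs (rf (nat_lit 3)) (cs (rf (nat_lit 4)) (nd (nat_lit 297) (nat_lit 0) (cs (rf (nat_lit 5)) (cs (rf (nat_lit 6)) (nd (nat_lit 296) (nat_lit 0) (cs (rf (nat_lit 7)) (nd (nat_lit 298) (nat_lit 0) (cs (lf (nat_lit 29) (nat_lit 231)) (nd (nat_lit 210) (nat_lit 0) (cs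 (lf (nat_lit 34) (nat_lit 209)) (rf (nat_lit 8)))))))))))))) (cs (nd (nat_lit 231) (nat_lit 0) (cs (rf (nat_lit 3)) (cs (rf (nat_lit 9)) (nd (nat_lit 297) (nat_lit 0) (cs (rf (nat_lit 5)) (cs (rf (nat_lit 6)) (rf (nat_lit 10)))))))) (nd (nat_lit 231) (nat_lit 0) (cs (rf (nat_lit 3)) (cs (rf (nat_lit 11)) (nd (nat_lit 273) (nat_lit 0) (cs (rf (nat_lit 12)) (cs (rf (nat_lit 13)) (cs (rf (nat_lit 14)) (cs (nd (nat_lit 296) (nat_lit 0) (cs (lf (nat_lit 30) (nat_lit 230)) (nd (nat_lit 272) (nat_lit 0) (cs (lf (nat_lit 12) (nat_lit 249)) (nd (nat_lit 250) (nat_lit 0) (cs (lf (nat_lit 23) (nat_lit 249)) (nd (nat_lit 293) (nat_lit 0) (cs (lf (nat_lit 10) (nat_lit 271)) (rf (nat_lit 15)))))))))) (nd (nat_lit 272) (nat_lit 0) (cs (lf (nat_lit 12) (nat_lit 249)) (rf (nat_lit 16))))))))))))))))) q110408 (by decide +kernel)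
def q110441 : Q := Q.p (nat_lit 0x800003800000000000000000000000000000000000000000000000000000000000000) (nat_lit 0x40001900006e00007c000060007fc001fe0001e0000380000a00000000000000000000000000000000000) (nat_lit 12)
theorem c110441 : QOK q110441 := cut [q79078, q79112, q82275, q91971, q109632, q6259, q79029, q79066, q2090, q23543, q10803, q88039, q88045] ⟨c79078, c79112, c82275, c91971, c109632, c6259, c79029, c79066, c2090, c23543, c10803, c88039, c88045, trivial⟩ (nd (nat_lit 230) (nat_lit 0) (cs (rf (nat_lit 0)) (cs (rf (nat_lit 1)) (cs (nd (nat_lit 231) (nat_lit 0) (cs (rf (nat_lit 2)) (cs (rf (nat_lit 3)) (rf (nat_lit 4))))) (nd (nat_lit 208) (nat_lit 0) (cs (rf (nat_lit 5)) (cs (rf (nat_lit 6)) (cs (rf (nat_lit 7)) (nd (nat_lit 250) (nat_lit 0) (cs (rf (nat_lit 8)) (cs (rf (nat_lit 9)) (nd (nat_lit 209) (nat_lit 0) (cs (rf (nat_lit 10)) (cs (nd (nat_lit 227) (nat_lit 0) (cs (lf (nat_lit 22) (nat_lit 227)) (nd (nat_lit 274) (nat_lit 0) (cs (lf (nat_lit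 35) (nat_lit 186)) (nd (nat_lit 185) (nat_lit 0) (cs (lf (nat_lit 46) (nat_lit 185)) (rf (nat_lit 11)))))))) (nd (nat_lit 227) (nat_lit 0) (cs (lf (nat_lit 22) (nat_lit 227)) (nd (nat_lit 271) (nat_lit 0) (cs (lf (nat_lit 10) (nat_lit 249)) (rf (nat_lit 12)))))))))))))))))))) q110441 (by decide +kernel)
def q110447 : Q := Q.p (nat_lit 0x800003000000000000000000000000000000000000000000000000000000000000000) (nat_lit 0x140000700001c0000780007400000c0007c000060000180000000000000000000000000000000000000000000000) (nat_lit 8)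
theorem c110447 : QOK q110447 := cut [q90706, q90950, q110332, q12650, q81211, q110081, q90571, q105433] ⟨c90706, c90950, c110332, c12650, c81211, c110081, c90571, c105433, trivial⟩ (nd (nat_lit 297) (nat_lit 0) (cs (rf (nat_lit 0)) (cs (rf (nat_lit 1)) (cs (rf (nat_lit 2)) (cs (nd (nat_lit 231) (nat_lit 0) (cs (rf (nat_lit 3)) (cs (rf (nat_lit 4)) (cs (rf (nat_lit 5)) (nd (nat_lit 296) (nat_lit 0) (cs (lf (nat_lit 41) (nat_lit 230)) (nd (nat_lit 298) (nat_lit 0) (cs (lf (nat_lit 29) (nat_lit 231)) (rf (nat_lit 6)))))))))) (nd (nat_lit 319) (nat_lit 0) (cs (lf (nat_lit 47) (nat_lit 230)) (rf (nat_lit 7))))))))) q110447 (by decide +kernel)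
def q110458 : Q := Q.p (nat_lit 0x300000800003000000000000000000000000000000000000000000000000000000000000000) (nat_lit 0x338000ce0007780000e0000f80001e000040000000000000000000000000000000000000000000000) (nat_lit 12)
theorem c110458 : QOK q110458 := cut [q11666, q11728, q91728, q98769, q88337, q96036] ⟨c11666, c11728, c91728, c98769, c88337, c96036, trivial⟩ (nd (nat_lit 295) (nat_lit 0) (cs (rf (nat_lit 0)) (cs (rf (nat_lit 1)) (cs (nd (nat_lit 298) (nat_lit 0) (cs (rf (nat_lit 2)) (nd (nat_lit 316) (nat_lit 0) (cs (lf (nat_lit 10) (nat_lit 294)) (nd (nat_lit 276) (nat_lit 0) (cs (lf (nat_lit 17) (nat_lit 273)) (nd (nat_lit 251) (nat_lit 0) (cs (lf (nat_lit 0) (nat_lit 250)) (nd (nat_lit 273) (nat_lit 0) (cs (lf (nat_lit 23) (nat_lit 272)) (nd (nat_lit 274) (nat_lit 0) (cs (lf (nat_lit 18) (nat_lit 273)) (nd (nat_lit 230) (nat_lit 0) (cs (lf (nat_lit 36) (nat_lit 207)) (rf (nat_lit 3)))))))))))))))) (nd (nat_lit 230) (nat_lit 0) (cs (rf (nat_lit 4)) (nd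 (nat_lit 274) (nat_lit 0) (cs (lf (nat_lit 41) (nat_lit 229)) (nd (nat_lit 207) (nat_lit 0) (cs (lf (nat_lit 46) (nat_lit 207)) (rf (nat_lit 5)))))))))))) q110458 (by decide +kernel)
def q110459 : Q := Q.p (nat_lit 0x300000800003000000000000000000000000000000000000000000000000000000000000000) (nat_lit 0x58000160001ce0007780018e0000700001c000070000000000000000000000000000000000000000000000) (nat_lit 13)
theorem c110459 : QOK q110459 := cut [q89455, q90842, q94337, q110358] ⟨c89455, c90842, c94337, c110358, trivial⟩ (nd (nat_lit 274) (nat_lit 0) (cs (rf (nat_lit 0)) (cs (rf (nat_lit 1)) (cs (rf (nat_lit 2)) (rf (nat_lit 3)))))) q110459 (by decide +kernel)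
def q110497 : Q := Q.p (nat_lit 0x800003000000000000000000000000000000000000000000000000000000000000000) (nat_lit 0x80000380000e00003e00037c0000e0007fc001fe0001f8000780001e00000000000000000000000000000000000) (nat_lit 14)
theorem c110497 : QOK q110497 := cut [q2091, q24207, q110483, q79112, q110477, q81390, q91971, q100698, q79097, q110474, q87115, q6259, q79029, q79066, q22313, q110232, q106532] ⟨c2091, c24207, c110483, c79112, c110477, c81390, c91971, c100698, c79097, c110474, c87115, c6259, c79029, c79066, c22313, c110232, c106532, trivial⟩ (nd (nat_lit 251) (nat_lit 0) (cs (rf (nat_lit 0)) (cs (rf (nat_lit 1)) (cs (rf (nat_lit 2)) (nd (nat_lit 230) (nat_lit 0) (cs (rf (nat_lit 3)) (cs (rf (nat_lit 4)) (cs (nd (nat_lit 231) (nat_lit 0) (cs (rf (nat_lit 5)) (cs (rf (nat_lit 6)) (cs (rf (nat_lit 7)) (nd (nat_lit 274) (nat_lit 0) (cs (rf (nat_lit 8)) (cs (rf (nat_lit 9)) (nd (nat_lit 232) (nat_lit 0) (cs (lf (nat_lit 6) (nat_lit 229)) (nd (nat_lit 209) (nat_lit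 0) (cs (lf (nat_lit 36) (nat_lit 186)) (nd (nat_lit 276) (nat_lit 0) (cs (lf (nat_lit 18) (nat_lit 251)) (rf (nat_lit 10))))))))))))))) (nd (nat_lit 208) (nat_lit 0) (cs (rf (nat_lit 11)) (cs (rf (nat_lit 12)) (cs (rf (nat_lit 13)) (nd (nat_lit 274) (nat_lit 0) (cs (rf (nat_lit 14)) (cs (rf (nat_lit 15)) (nd (nat_lit 207) (nat_lit 0) (cs (lf (nat_lit 47) (nat_lit 185)) (nd (nat_lit 276) (nat_lit 0) (cs (lf (nat_lit 18) (nat_lit 251)) (rf (nat_lit 16))))))))))))))))))))) q110497 (by decide +kernel)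
def q110512 : Q := Q.p (nat_lit 0x3800000000000000000000000000000000000000000000000000000000000000) (nat_lit 0xe0000380000e00007f0000c00007b0000e0000380000c00002000000000000000000000000000000000000) (nat_lit 14)
theorem c110512 : QOK q110512 := cut [q79020, q105767, q110510, q110511] ⟨c79020, c105767, c110510, c110511, trivial⟩ (nd (nat_lit 254) (nat_lit 0) (cs (rf (nat_lit 0)) (cs (rf (nat_lit 1)) (cs (rf (nat_lit 2)) (rf (nat_lit 3)))))) q110512 (by decide +kernel)
def q110549 : Q := Q.p (nat_lit 0x7000000000000000000000000000000000000000000000000000000000000000) (nat_lit 0x1c0000700005c0003780000c0003f80003c0000f0000140000000000000000000000000000000000000000) (nat_lit 13)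
theorem c110549 : QOK q110549 := cut [q79201, q80606, q105203] ⟨c79201, c80606, c105203, trivial⟩ (nd (nat_lit 251) (nat_lit 0) (cs (rf (nat_lit 0)) (cs (rf (nat_lit 1)) (rf (nat_lit 2))))) q110549 (by decide +kernel)
def q110716 : Q := Q.p (nat_lit 0x3000000000000000000000000000000000000000000000000000000000000000) (nat_lit 0x140003fe0007f0001fe000ffc003ce000fdc000fc0003f0000700001400000000000000000000000000000000000) (nat_lit 15)
theorem c110716 : QOK q110716 := cut [q110342, q110486, q2091, q24207, q79020, q103009, q105829, q88741, q81998, q2090, q89927, q110668, q110685, q88742, q101650, q104510, q99092, q110686, q88849, q91107, q88933, q99447, q82300, q82309, q91882, q90635, q108824, q105257, q110392, q99903, q88941, q110667, q79188, q81211, q90571, q110332, q94433, q110081, q41426, q89453] ⟨c110342, c110486, c2091, c24207, c79020, c103009, c105829, c88741, c81998, c2090, c89927, c110668, c110685, c88742, c101650, c104510, c99092, c110686, c88849, c91107,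 c88933, c99447, c82300, c82309, c91882, c90635, c108824, c105257, c110392, c99903, c88941, c110667, c79188, c81211, c90571, c110332, c94433, c110081, c41426, c89453, trivial⟩ (nd (nat_lit 275) (nat_lit 0) (cs (rf (nat_lit 0)) (cs (rf (nat_lit 1)) (cs (nd (nat_lit 251) (nat_lit 0) (cs (rf (nat_lit 2)) (cs (rf (nat_lit 3)) (cs (nd (nat_lit 254) (nat_lit 0) (cs (rf (nat_lit 4)) (cs (rf (nat_lit 5)) (cs (rf (nat_lit 6)) (nd (nat_lit 276) (nat_lit 0) (cs (rf (nat_lit 7)) (nd (nat_lit 232) (nat_lit 0) (cs (lf (nat_lit 17) (nat_lit 229)) (nd (nat_lit 210) (nat_lit 0) (cs (lf (nat_lit 36) (nat_lit 187)) (nd (nat_lit 272) (nat_lit 0) (cs (lf (nat_lit 10) (nat_lit 250)) (rf (nat_lit 8)))))))))))))) (nd (nat_lit 250) (nat_lit 0) (cs (rf (nat_lit 9)) (rf (nat_lit 10)))))))) (cs (rf (nat_lit 11)) (cs (rf (nat_lit 12)) (cs (nd (nat_lit 276) (nat_lit 0) (cs (rf (nat_lit 13)) (cs (rf (nat_lit 14)) (cs (rf (nat_lit 15)) (cs (nd (nat_lit 254) (nat_lit 0) (cs (rf (nat_lit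 16)) (cs (rf (nat_lit 17)) (nd (nat_lit 251) (nat_lit 0) (cs (lf (nat_lit 0) (nat_lit 250)) (nd (nat_lit 273) (nat_lit 0) (cs (lf (nat_lit 11) (nat_lit 250)) (nd (nat_lit 255) (nat_lit 0) (cs (lf (nat_lit 13) (nat_lit 251)) (nd (nat_lit 256) (nat_lit 0) (cs (lf (nat_lit 6) (nat_lit 253)) (nd (nat_lit 278) (nat_lit 0) (cs (lf (nat_lit 5) (nat_lit 253)) (nd (nat_lit 234) (nat_lit 0) (cs (lf (nat_lit 17) (nat_lit 231)) (nd (nat_lit 231) (nat_lit 0) (cs (lf (nat_lit 23) (nat_lit 230)) (rf (nat_lit 18))))))))))))))))))) (nd (nat_lit 231) (nat_lit 0) (cs (rf (nat_lit 19)) (cs (nd (nat_lit 277) (nat_lit 0) (cs (lf (nat_lit 18) (nat_lit 252)) (nd (nat_lit 297) (nat_lit 0) (cs (rf (nat_lit 20)) (nd (nat_lit 298) (nat_lit 0) (cs (lf (nat_lit 29) (nat_lit 231)) (rf (nat_lit 21)))))))) (cs (nd (nat_lit 209) (nat_lit 0) (cs (rf (nat_lit 22)) (cs (rf (nat_lit 23)) (rf (nat_lit 24))))) (nd (nat_lit 277) (nat_lit 0) (cs (lf (nat_lit 18) (nat_lit 252)) (rf (nat_lit 25)))))))))))))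 (cs (nd (nat_lit 276) (nat_lit 0) (cs (rf (nat_lit 13)) (cs (rf (nat_lit 15)) (cs (nd (nat_lit 254) (nat_lit 0) (cs (rf (nat_lit 16)) (cs (rf (nat_lit 17)) (nd (nat_lit 251) (nat_lit 0) (cs (lf (nat_lit 0) (nat_lit 250)) (rf (nat_lit 26))))))) (nd (nat_lit 274) (nat_lit 0) (cs (rf (nat_lit 27)) (cs (rf (nat_lit 28)) (nd (nat_lit 277) (nat_lit 0) (cs (lf (nat_lit 18) (nat_lit 252)) (nd (nat_lit 255) (nat_lit 0) (cs (lf (nat_lit 17) (nat_lit 252)) (rf (nat_lit 29))))))))))))) (cs (nd (nat_lit 297) (nat_lit 0) (cs (rf (nat_lit 30)) (cs (rf (nat_lit 31)) (nd (nat_lit 231) (nat_lit 0) (cs (rf (nat_lit 32)) (cs (rf (nat_lit 33)) (rf (nat_lit 34)))))))) (nd (nat_lit 297) (nat_lit 0) (cs (rf (nat_lit 20)) (cs (rf (nat_lit 30)) (cs (rf (nat_lit 35)) (nd (nat_lit 231) (nat_lit 0) (cs (rf (nat_lit 36)) (cs (rf (nat_lit 37)) (nd (nat_lit 296) (nat_lit 0) (cs (lf (nat_lit 41) (nat_lit 230)) (nd (nat_lit 274) (nat_lit 0) (cs (rf (nat_lit 38)) (nd (nat_lit 210) (nat_lit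 0) (cs (lf (nat_lit 34) (nat_lit 209)) (nd (nat_lit 230) (nat_lit 0) (cs (lf (nat_lit 47) (nat_lit 208)) (rf (nat_lit 39)))))))))))))))))))))))))) q110716 (by decide +kernel)
def q110767 : Q := Q.p (nat_lit 0x7000000000000000000000000000000000000000000000000000000000000000) (nat_lit 0xa0000380000f0000fc00000c000fb8001f80003e0000f00002800000000000000000000000000000000000) (nat_lit 12)
theorem c110767 : QOK q110767 := cut [q79118, q79165, q110764, q81475, q81991, q110765] ⟨c79118, c79165, c110764, c81475, c81991, c110765, trivial⟩ (nd (nat_lit 232) (nat_lit 0) (cs (rf (nat_lit 0)) (cs (rf (nat_lit 1)) (cs (rf (nat_lit 2)) (nd (nat_lit 276) (nat_lit 0) (cs (rf (nat_lit 3)) (cs (rf (nat_lit 4)) (rf (nat_lit 5))))))))) q110767 (by decide +kernel)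
def q110772 : Q := Q.p (nat_lit 0x7000000000000000000000000000000000000000000000000000000000000000) (nat_lit 0x800002c0001f00007c00018e0001f8000fc0007e0000780000a00000000000000000000000000000000000) (nat_lit 12)
theorem c110772 : QOK q110772 := cut [q79028, q81409, q110584, q110771] ⟨c79028, c81409, c110584, c110771, trivial⟩ (nd (nat_lit 230) (nat_lit 0) (cs (rf (nat_lit 0)) (cs (rf (nat_lit 1)) (cs (rf (nat_lit 2)) (rf (nat_lit 3)))))) q110772 (by decide +kernel)
def q110805 : Q := Q.p (nat_lit 0x7000000000000000000000000000000000000000000000000000000000000000) (nat_lit 0x100000400003dc0038e000ffc00000000000000000000000000000000000000000000000000000000) (nat_lit 10)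
theorem c110805 : QOK q110805 := cut [q81872, q82070, q110546] ⟨c81872, c82070, c110546, trivial⟩ (nd (nat_lit 255) (nat_lit 0) (cs (rf (nat_lit 0)) (cs (rf (nat_lit 1)) (rf (nat_lit 2))))) q110805 (by decide +kernel)
def q111094 : Q := Q.p (nat_lit 0x7000000000000000000000000000000000000000000000000000000000000000) (nat_lit 0x10000060000180003f00000c0003fc0001c000070000140000000000000000000000000000000000000000) (nat_lit 10)
theorem c111094 : QOK q111094 := cut [q110037, q106413] ⟨c110037, c106413, trivial⟩ (nd (nat_lit 251) (nat_lit 0) (cs (rf (nat_lit 0)) (nd (nat_lit 273) (nat_lit 0) (cs (lf (nat_lit 11) (nat_lit 250)) (rf (nat_lit 1)))))) q111094 (by decide +kernel)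
def q111108 : Q := Q.p (nat_lit 0x3000000000000000000000000000000000000000000000000000000000000000) (nat_lit 0x80000380005f0001fc001ffc007ce003ff8000bc0002f00001c0000500000000000000000000000000000000000) (nat_lit 16)
theorem c111108 : QOK q111108 := cut [q110532, q110533, q110534, q110535, q110536, q110537, q83707, q106386, q80649, q84221, q110269, q111104, q79028, q110266, q110780] ⟨c110532, c110533, c110534, c110535, c110536, c110537, c83707, c106386, c80649, c84221, c110269, c111104, c79028, c110266, c110780, trivial⟩ (nd (nat_lit 254) (nat_lit 0) (cs (rf (nat_lit 0)) (cs (rf (nat_lit 1)) (cs (rf (nat_lit 2)) (cs (rf (nat_lit 3)) (cs (rf (nat_lit 4)) (cs (rf (nat_lit 5)) (nd (nat_lit 274) (nat_lit 0) (cs (rf (nat_lit 6)) (cs (rf (nat_lit 7)) (cs (nd (nat_lit 296) (nat_lit 0) (cs (rf (nat_lit 8)) (cs (nd (nat_lit 230) (nat_lit 0) (cs (rf (nat_lit 9)) (rf (nat_lit 10)))) (rf (nat_lit 11))))) (nd (nat_lit 230) (nat_lit 0) (cs (rf (nat_lit 12)) (cs (rf (nat_lit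 13)) (rf (nat_lit 14)))))))))))))))) q111108 (by decide +kernel)
def q111257 : Q := Q.p (nat_lit 0x1000006000000000000000000000000000000000000000000000000000000000000000) (nat_lit 0x1f00007c0003bc000ef00038c000ff0003fc0007c0000000000000000000000000000000000000000000000) (nat_lit 16)
theorem c111257 : QOK q111257 := cut [q111196, q105405, q111202, q111198, q105049, q111220, q111223, q111225, q111227, q111235, q111238, q111234, q111239, q111244, q103885, q90020, q111229, q111253, q111255] ⟨c111196, c105405, c111202, c111198, c105049, c111220, c111223, c111225, c111227, c111235, c111238, c111234, c111239, c111244, c103885, c90020, c111229, c111253, c111255, trivial⟩ (nd (nat_lit 275) (nat_lit 0) (cs (rf (nat_lit 0)) (cs (nd (nat_lit 297) (nat_lit 0) (cs (rf (nat_lit 1)) (cs (rf (nat_lit 2)) (nd (nat_lit 231) (nat_lit 0) (cs (nd (nat_lit 296) (nat_lit 0) (cs (lf (nat_lit 41) (nat_lit 230)) (nd (nat_lit 209) (nat_lit 0) (cs (lf (nat_lit 40) (nat_lit 208)) (lf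 (nat_lit 24) (nat_lit 187)))))) (cs (rf (nat_lit 3)) (nd (nat_lit 210) (nat_lit 0) (cs (lf (nat_lit 37) (nat_lit 209)) (nd (nat_lit 208) (nat_lit 0) (cs (lf (nat_lit 46) (nat_lit 208)) (rf (nat_lit 4)))))))))))) (cs (nd (nat_lit 297) (nat_lit 0) (cs (rf (nat_lit 1)) (cs (rf (nat_lit 2)) (rf (nat_lit 5))))) (cs (rf (nat_lit 6)) (cs (nd (nat_lit 231) (nat_lit 0) (cs (rf (nat_lit 7)) (cs (nd (nat_lit 209) (nat_lit 0) (cs (lf (nat_lit 24) (nat_lit 187)) (rf (nat_lit 8)))) (cs (rf (nat_lit 9)) (cs (rf (nat_lit 10)) (cs (nd (nat_lit 232) (nat_lit 0) (cs (rf (nat_lit 11)) (cs (rf (nat_lit 12)) (nd (nat_lit 187) (nat_lit 0) (cs (lf (nat_lit 25) (nat_lit 187)) (nd (nat_lit 210) (nat_lit 0) (cs (lf (nat_lit 36) (nat_lit 187)) (rf (nat_lit 13))))))))) (nd (nat_lit 209) (nat_lit 0) (cs (lf (nat_lit 24) (nat_lit 187)) (nd (nat_lit 186) (nat_lit 0) (cs (lf (nat_lit 46) (nat_lit 186)) (nd (nat_lit 210) (nat_lit 0) (cs (lf (nat_lit 35) (nat_lit 187)) (nd (nat_lit 232) (nat_lit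 0) (cs (lf (nat_lit 30) (nat_lit 209)) (rf (nat_lit 13)))))))))))))))) (nd (nat_lit 231) (nat_lit 0) (cs (rf (nat_lit 14)) (cs (rf (nat_lit 7)) (cs (nd (nat_lit 232) (nat_lit 0) (cs (rf (nat_lit 15)) (cs (rf (nat_lit 16)) (rf (nat_lit 17))))) (rf (nat_lit 18)))))))))))) q111257 (by decide +kernel)
def q111303 : Q := Q.p (nat_lit 0x1000006000000000000000000000000000000000000000000000000000000000000000) (nat_lit 0x1f00007c0003fc000ef00038c000ef0001f00007c0000000000000000000000000000000000000000000000) (nat_lit 13)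
theorem c111303 : QOK q111303 := cut [q111196, q111264, q111225, q111255, q111259, q111260, q111266, q111273, q101592, q79272, q111207, q111275, q80551, q100118, q111302] ⟨c111196, c111264, c111225, c111255, c111259, c111260, c111266, c111273, c101592, c79272, c111207, c111275, c80551, c100118, c111302, trivial⟩ (nd (nat_lit 275) (nat_lit 0) (cs (rf (nat_lit 0)) (cs (rf (nat_lit 1)) (cs (nd (nat_lit 231) (nat_lit 0) (cs (rf (nat_lit 2)) (cs (rf (nat_lit 3)) (nd (nat_lit 297) (nat_lit 0) (cs (rf (nat_lit 4)) (cs (rf (nat_lit 5)) (nd (nat_lit 298) (nat_lit 0) (cs (lf (nat_lit 42) (nat_lit 231)) (rf (nat_lit 6)))))))))) (cs (rf (nat_lit 7)) (cs (nd (nat_lit 231) (nat_lit 0) (cs (rf (nat_lit 8)) (cs (rf (nat_lit 2)) (nd (nat_lit 277) (nat_lit 0) (cs (rf (nat_lit 9)) (cs (nd (nat_lit 278) (nat_lit 0) (cs (lf (nat_lit 18) (nat_lit 253)) (nd (nat_lit 256) (nat_lit 0) (cs (lf (nat_lit 17) (nat_lit 253)) (nd (nat_lit 255) (nat_lit 0) (cs (lf (nat_lit 12) (nat_lit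 252)) (rf (nat_lit 10)))))))) (cs (nd (nat_lit 298) (nat_lit 0) (cs (lf (nat_lit 42) (nat_lit 231)) (rf (nat_lit 11)))) (cs (nd (nat_lit 255) (nat_lit 0) (cs (rf (nat_lit 12)) (cs (nd (nat_lit 256) (nat_lit 0) (cs (lf (nat_lit 6) (nat_lit 253)) (nd (nat_lit 234) (nat_lit 0) (cs (lf (nat_lit 17) (nat_lit 231)) (nd (nat_lit 212) (nat_lit 0) (cs (lf (nat_lit 36) (nat_lit 189)) (nd (nat_lit 299) (nat_lit 0) (cs (lf (nat_lit 33) (nat_lit 211)) (lf (nat_lit 30) (nat_lit 233)))))))))) (nd (nat_lit 320) (nat_lit 0) (cs (lf (nat_lit 43) (nat_lit 231)) (nd (nat_lit 274) (nat_lit 0) (cs (lf (nat_lit 12) (nat_lit 251)) (nd (nat_lit 299) (nat_lit 0) (cs (lf (nat_lit 5) (nat_lit 274)) (nd (nat_lit 321) (nat_lit 0) (cs (lf (nat_lit 41) (nat_lit 254)) (lf (nat_lit 42) (nat_lit 254))))))))))))) (cs (nd (nat_lit 298) (nat_lit 0) (cs (lf (nat_lit 42) (nat_lit 231)) (rf (nat_lit 13)))) (nd (nat_lit 298) (nat_lit 0) (cs (lf (nat_lit 42) (nat_lit 231)) (nd (nat_lit 278) (nat_lit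 0) (cs (lf (nat_lit 18) (nat_lit 253)) (nd (nat_lit 256) (nat_lit 0) (cs (lf (nat_lit 17) (nat_lit 253)) (nd (nat_lit 230) (nat_lit 0) (cs (lf (nat_lit 19) (nat_lit 230)) (nd (nat_lit 228) (nat_lit 0) (cs (lf (nat_lit 1) (nat_lit 228)) (nd (nat_lit 300) (nat_lit 0) (cs (lf (nat_lit 5) (nat_lit 275)) (nd (nat_lit 297) (nat_lit 0) (cs (lf (nat_lit 47) (nat_lit 208)) (nd (nat_lit 319) (nat_lit 0) (cs (lf (nat_lit 30) (nat_lit 253)) (nd (nat_lit 318) (nat_lit 0) (cs (lf (nat_lit 41) (nat_lit 252)) (lf (nat_lit 7) (nat_lit 296))))))))))))))))))))))))))))) (rf (nat_lit 14)))))))) q111303 (by decide +kernel)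
def q111392 : Q := Q.p (nat_lit 0x1000006000000000000000000000000000000000000000000000000000000000000000) (nat_lit 0xe0000780007e0001fe0007f0003fe000ef00038c000f00003f8000780000000000000000000000000000000000000000000000) (nat_lit 18)
theorem c111392 : QOK q111392 := cut [q111223, q111273, q99975, q99946, q99947, q105405, q109236, q111310, q90020, q111319, q80313, q79768, q111375, q79289, q111182, q108186, q111193, q80551, q108505, q79765, q100209, q111373] ⟨c111223, c111273, c99975, c99946, c99947, c105405, c109236, c111310, c90020, c111319, c80313, c79768, c111375, c79289, c111182, c108186, c111193, c80551, c108505, c79765, c100209, c111373, trivial⟩ (nd (nat_lit 275) (nat_lit 0) (cs (rf (nat_lit 0)) (cs (rf (nat_lit 1)) (cs (nd (nat_lit 298) (nat_lit 0) (cs (rf (nat_lit 2)) (cs (nd (nat_lit 297) (nat_lit 0) (cs (rf (nat_lit 3)) (cs (rf (nat_lit 4)) (rf (nat_lit 5))))) (cs (nd (nat_lit 320) (nat_lit 0) (cs (lf (nat_lit 42) (nat_lit 253)) (nd (nat_lit 321)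 (nat_lit 0) (cs (lf (nat_lit 29) (nat_lit 254)) (nd (nat_lit 319) (nat_lit 0) (cs (lf (nat_lit 41) (nat_lit 253)) (rf (nat_lit 6)))))))) (rf (nat_lit 7)))))) (cs (nd (nat_lit 232) (nat_lit 0) (cs (rf (nat_lit 8)) (cs (rf (nat_lit 9)) (nd (nat_lit 298) (nat_lit 0) (cs (rf (nat_lit 10)) (cs (nd (nat_lit 297) (nat_lit 0) (cs (lf (nat_lit 41) (nat_lit 231)) (nd (nat_lit 211) (nat_lit 0) (cs (lf (nat_lit 34) (nat_lit 210)) (nd (nat_lit 299) (nat_lit 0) (cs (lf (nat_lit 29) (nat_lit 232)) (nd (nat_lit 300) (nat_lit 0) (cs (lf (nat_lit 18) (nat_lit 275)) (nd (nat_lit 278) (nat_lit 0) (cs (lf (nat_lit 17) (nat_lit 275)) (nd (nat_lit 277) (nat_lit 0) (cs (lf (nat_lit 12) (nat_lit 274)) (nd (nat_lit 256) (nat_lit 0) (cs (lf (nat_lit 17) (nat_lit 253)) (nd (nat_lit 234) (nat_lit 0) (cs (lf (nat_lit 36) (nat_lit 211)) (nd (nat_lit 235) (nat_lit 0) (cs (lf (nat_lit 35) (nat_lit 212)) (lf (nat_lit 14) (nat_lit 231)))))))))))))))))))) (nd (nat_lit 299) (nat_lit 0) (cs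 (lf (nat_lit 29) (nat_lit 232)) (rf (nat_lit 11)))))))))) (cs (rf (nat_lit 12)) (cs (nd (nat_lit 274) (nat_lit 0) (cs (rf (nat_lit 13)) (cs (rf (nat_lit 14)) (nd (nat_lit 277) (nat_lit 0) (cs (rf (nat_lit 15)) (cs (rf (nat_lit 16)) (nd (nat_lit 297) (nat_lit 0) (cs (rf (nat_lit 5)) (cs (nd (nat_lit 255) (nat_lit 0) (cs (lf (nat_lit 6) (nat_lit 252)) (nd (nat_lit 299) (nat_lit 0) (cs (lf (nat_lit 5) (nat_lit 274)) (nd (nat_lit 210) (nat_lit 0) (cs (lf (nat_lit 37) (nat_lit 209)) (nd (nat_lit 296) (nat_lit 0) (cs (lf (nat_lit 11) (nat_lit 273)) (nd (nat_lit 318) (nat_lit 0) (cs (lf (nat_lit 30) (nat_lit 252)) (nd (nat_lit 298) (nat_lit 0) (cs (lf (nat_lit 11) (nat_lit 295)) (nd (nat_lit 233) (nat_lit 0) (cs (lf (nat_lit 36) (nat_lit 210)) (lf (nat_lit 30) (nat_lit 232)))))))))))))))) (nd (nat_lit 255) (nat_lit 0) (cs (rf (nat_lit 17)) (nd (nat_lit 299) (nat_lit 0) (cs (lf (nat_lit 5) (nat_lit 274)) (nd (nat_lit 295) (nat_lit 0) (cs (lf (nat_lit 10) (nat_lit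 273)) (nd (nat_lit 319) (nat_lit 0) (cs (lf (nat_lit 30) (nat_lit 253)) (nd (nat_lit 320) (nat_lit 0) (cs (lf (nat_lit 29) (nat_lit 253)) (rf (nat_lit 18))))))))))))))))))))) (nd (nat_lit 232) (nat_lit 0) (cs (rf (nat_lit 8)) (cs (nd (nat_lit 298) (nat_lit 0) (cs (rf (nat_lit 19)) (cs (rf (nat_lit 10)) (nd (nat_lit 299) (nat_lit 0) (cs (lf (nat_lit 29) (nat_lit 232)) (nd (nat_lit 320) (nat_lit 0) (cs (lf (nat_lit 42) (nat_lit 253)) (rf (nat_lit 20))))))))) (rf (nat_lit 21)))))))))))) q111392 (by decide +kernel)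
def q111471 : Q := Q.p (nat_lit 0x1000006000010000000000000000000000000000000000000000000000000000000000) (nat_lit 0x80000200003bc000ef00038c00000000040000100000000000000000000000000000000000000000000000) (nat_lit 9)
theorem c111471 : QOK q111471 := cut [q90020, q111223] ⟨c90020, c111223, trivial⟩ (nd (nat_lit 275) (nat_lit 0) (cs (rf (nat_lit 0)) (rf (nat_lit 1)))) q111471 (by decide +kernel)
def q111538 : Q := Q.p (nat_lit 0x1000006000000000000000000000000000000000000000000000000000000000000000) (nat_lit 0x60000180001f00007f0003fc000ef00038c0001f0000700001c0000000000000000000000000000000000000000000000) (nat_lit 14)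
theorem c111538 : QOK q111538 := cut [q90151, q111497, q106906, q111452, q89040, q99919, q99946, q111441, q109088, q111220, q111223, q111302, q111530, q111537] ⟨c90151, c111497, c106906, c111452, c89040, c99919, c99946, c111441, c109088, c111220, c111223, c111302, c111530, c111537, trivial⟩ (nd (nat_lit 298) (nat_lit 0) (cs (rf (nat_lit 0)) (cs (rf (nat_lit 1)) (cs (nd (nat_lit 297) (nat_lit 0) (cs (rf (nat_lit 2)) (cs (rf (nat_lit 3)) (cs (nd (nat_lit 296) (nat_lit 0) (cs (rf (nat_lit 4)) (cs (nd (nat_lit 275) (nat_lit 0) (cs (rf (nat_lit 5)) (cs (rf (nat_lit 6)) (nd (nat_lit 319) (nat_lit 0) (cs (lf (nat_lit 30) (nat_lit 253)) (nd (nat_lit 277) (nat_lit 0) (cs (lf (nat_lit 6) (nat_lit 274)) (nd (nat_lit 231) (nat_lit 0) (cs (lf (nat_lit 24) (nat_lit 209)) (nd (nat_lit 230) (nat_lit 0) (cs (lf (nat_lit 47) (nat_lit 208)) (nd (nat_lit 228) (nat_lit 0) (cs (lf (nat_lit 1) (nat_lit 228)) (nd (nat_lit 255) (nat_lit 0) (cs (lf (nat_lit 18) (nat_lit 230)) (rf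 (nat_lit 7))))))))))))))))) (cs (nd (nat_lit 275) (nat_lit 0) (cs (rf (nat_lit 5)) (rf (nat_lit 8)))) (nd (nat_lit 277) (nat_lit 0) (cs (lf (nat_lit 12) (nat_lit 273)) (nd (nat_lit 278) (nat_lit 0) (cs (lf (nat_lit 6) (nat_lit 275)) (lf (nat_lit 9) (nat_lit 274)))))))))) (nd (nat_lit 275) (nat_lit 0) (cs (rf (nat_lit 9)) (cs (rf (nat_lit 10)) (cs (rf (nat_lit 11)) (rf (nat_lit 12)))))))))) (rf (nat_lit 13)))))) q111538 (by decide +kernel)
def q111575 : Q := Q.p (nat_lit 0x1000006000000000000000000000000000000000000000000000000000000000000000) (nat_lit 0xe0000380000e00001c0003fc000ef000380000ff0007fc000380000a00000000000000000000000000000000000000000) (nat_lit 15)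
theorem c111575 : QOK q111575 := cut [q81413, q90151, q111508, q111543, q79767, q90153, q79446] ⟨c81413, c90151, c111508, c111543, c79767, c90153, c79446, trivial⟩ (nd (nat_lit 298) (nat_lit 0) (cs (rf (nat_lit 0)) (cs (rf (nat_lit 1)) (cs (rf (nat_lit 2)) (cs (rf (nat_lit 3)) (nd (nat_lit 319) (nat_lit 0) (cs (nd (nat_lit 232) (nat_lit 0) (cs (lf (nat_lit 40) (nat_lit 231)) (nd (nat_lit 320) (nat_lit 0) (cs (lf (nat_lit 41) (nat_lit 253)) (rf (nat_lit 4)))))) (cs (nd (nat_lit 320) (nat_lit 0) (cs (lf (nat_lit 41) (nat_lit 253)) (nd (nat_lit 255) (nat_lit 0) (cs (lf (nat_lit 35) (nat_lit 232)) (nd (nat_lit 342) (nat_lit 0) (cs (lf (nat_lit 34) (nat_lit 254)) (lf (nat_lit 46) (nat_lit 253)))))))) (cs (nd (nat_lit 232) (nat_lit 0) (cs (lf (nat_lit 40) (nat_lit 231)) (nd (nat_lit 211) (nat_lit 0) (cs (lf (nat_lit 34) (nat_lit 210)) (nd (nat_lit 210) (nat_lit 0) (cs (lf (nat_lit 35) (nat_lit 188)) (nd (nat_lit 188) (nat_lit 0) (cs (lf (nat_lit 41) (nat_lit 187))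 (rf (nat_lit 5)))))))))) (nd (nat_lit 232) (nat_lit 0) (cs (lf (nat_lit 40) (nat_lit 231)) (nd (nat_lit 320) (nat_lit 0) (cs (lf (nat_lit 41) (nat_lit 253)) (nd (nat_lit 275) (nat_lit 0) (cs (lf (nat_lit 42) (nat_lit 253)) (nd (nat_lit 210) (nat_lit 0) (cs (lf (nat_lit 36) (nat_lit 187)) (nd (nat_lit 187) (nat_lit 0) (cs (lf (nat_lit 46) (nat_lit 187)) (nd (nat_lit 189) (nat_lit 0) (cs (lf (nat_lit 34) (nat_lit 188)) (rf (nat_lit 6))))))))))))))))))))))) q111575 (by decide +kernel)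
def q111742 : Q := Q.p (nat_lit 0x1800006000000000000000000000000000000000000000000000000000000000000000) (nat_lit 0xe00003b0000ec0002700001c0000f0001fc0003f0000140000000000000000000000000000000000000000) (nat_lit 14)
theorem c111742 : QOK q111742 := cut [q94487, q90151, q2178, q81450, q111722, q82212, q98379, q93574] ⟨c94487, c90151, c2178, c81450, c111722, c82212, c98379, c93574, trivial⟩ (nd (nat_lit 273) (nat_lit 0) (cs (nd (nat_lit 274) (nat_lit 0) (cs (lf (nat_lit 12) (nat_lit 250)) (rf (nat_lit 0)))) (cs (nd (nat_lit 298) (nat_lit 0) (cs (rf (nat_lit 1)) (cs (nd (nat_lit 209) (nat_lit 0) (cs (lf (nat_lit 25) (nat_lit 209)) (nd (nat_lit 274) (nat_lit 0) (cs (lf (nat_lit 5) (nat_lit 273)) (nd (nat_lit 294) (nat_lit 0) (cs (lf (nat_lit 10) (nat_lit 272)) (nd (nat_lit 251) (nat_lit 0) (cs (lf (nat_lit 23) (nat_lit 250)) (nd (nat_lit 252) (nat_lit 0) (cs (lf (nat_lit 5) (nat_lit 251)) (nd (nat_lit 229) (nat_lit 0) (cs (lf (nat_lit 23) (nat_lit 228)) (nd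 (nat_lit 207) (nat_lit 0) (cs (lf (nat_lit 24) (nat_lit 185)) (nd (nat_lit 184) (nat_lit 0) (cs (lf (nat_lit 46) (nat_lit 184)) (nd (nat_lit 208) (nat_lit 0) (cs (lf (nat_lit 35) (nat_lit 185)) (rf (nat_lit 2)))))))))))))))))))) (nd (nat_lit 274) (nat_lit 0) (cs (lf (nat_lit 5) (nat_lit 273)) (nd (nat_lit 295) (nat_lit 0) (cs (lf (nat_lit 11) (nat_lit 272)) (nd (nat_lit 251) (nat_lit 0) (cs (lf (nat_lit 23) (nat_lit 250)) (nd (nat_lit 320) (nat_lit 0) (cs (lf (nat_lit 42) (nat_lit 253)) (nd (nat_lit 252) (nat_lit 0) (cs (lf (nat_lit 5) (nat_lit 251)) (rf (nat_lit 3))))))))))))))) (cs (rf (nat_lit 4)) (cs (nd (nat_lit 274) (nat_lit 0) (cs (lf (nat_lit 12) (nat_lit 250)) (nd (nat_lit 294) (nat_lit 0) (cs (lf (nat_lit 10) (nat_lit 272)) (nd (nat_lit 251) (nat_lit 0) (cs (lf (nat_lit 23) (nat_lit 250)) (nd (nat_lit 252) (nat_lit 0) (cs (lf (nat_lit 18) (nat_lit 251)) (nd (nat_lit 229) (nat_lit 0) (cs (lf (nat_lit 23) (nat_lit 228)) (nd (nat_lit 207) (nat_lit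 0) (cs (lf (nat_lit 24) (nat_lit 185)) (nd (nat_lit 184) (nat_lit 0) (cs (lf (nat_lit 46) (nat_lit 184)) (nd (nat_lit 208) (nat_lit 0) (cs (lf (nat_lit 35) (nat_lit 185)) (nd (nat_lit 230) (nat_lit 0) (cs (lf (nat_lit 29) (nat_lit 208)) (rf (nat_lit 5)))))))))))))))))))) (cs (nd (nat_lit 274) (nat_lit 0) (cs (lf (nat_lit 12) (nat_lit 250)) (rf (nat_lit 6)))) (nd (nat_lit 274) (nat_lit 0) (cs (lf (nat_lit 12) (nat_lit 250)) (nd (nat_lit 298) (nat_lit 0) (cs (lf (nat_lit 5) (nat_lit 273)) (nd (nat_lit 320) (nat_lit 0) (cs (lf (nat_lit 42) (nat_lit 253)) (nd (nat_lit 251) (nat_lit 0) (cs (lf (nat_lit 23) (nat_lit 250)) (nd (nat_lit 321) (nat_lit 0) (cs (lf (nat_lit 29) (nat_lit 254)) (nd (nat_lit 252) (nat_lit 0) (cs (lf (nat_lit 5) (nat_lit 251)) (nd (nat_lit 228) (nat_lit 0) (cs (lf (nat_lit 22) (nat_lit 228)) (nd (nat_lit 319) (nat_lit 0) (cs (lf (nat_lit 41) (nat_lit 253)) (nd (nat_lit 230) (nat_lit 0) (cs (lf (nat_lit 43) (nat_lit 230)) (rf (nat_lit 7))))))))))))))))))))))))))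 q111742 (by decide +kernel)
def q111871 : Q := Q.p (nat_lit 0x200000800006000008000000000000000000000000000000000000000000000000000000000) (nat_lit 0x1c000f70003dc000100000000000000000000000000000000000000000000000) (nat_lit 9)
theorem c111871 : QOK q111871 := cut [q81878, q111581] ⟨c81878, c111581, trivial⟩ (nd (nat_lit 232) (nat_lit 0) (cs (rf (nat_lit 0)) (rf (nat_lit 1)))) q111871 (by decide +kernel)
def q111927 : Q := Q.p (nat_lit 0x7000000000000000000000000000000000000000000000000000000000000000) (nat_lit 0x1c0000700001c0000fe000180000f60001c0000700001800004000000000000000000000000000000000000) (nat_lit 14)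
theorem c111927 : QOK q111927 := cut [q79223, q80425, q80429, q111926] ⟨c79223, c80425, c80429, c111926, trivial⟩ (nd (nat_lit 255) (nat_lit 0) (cs (rf (nat_lit 0)) (cs (rf (nat_lit 1)) (cs (rf (nat_lit 2)) (rf (nat_lit 3)))))) q111927 (by decide +kernel)
def q112128 : Q := Q.p (nat_lit 0x6000000000000000000000000000000000000000000000000000000000000000) (nat_lit 0x200003c0001fc001ff000390001ff0007f8000fe0003f8000fc00000000000000000000000000000000000) (nat_lit 16)
theorem c112128 : QOK q112128 := cut [q80725, q80754, q80757, q102589, q111985, q112010, q80708, q80733, q111224, q111456, q756, q112020, q112021, q80819, q80872, q80763, q80858, q112027, q81198, q112033, q104245, q103734, q15742, q112045, q112065, q80890, q80893, q80727, q98192, q80721, q111961, q80811, q80885, q112075, q80895, q80222, q112084, q112107, q80728, q111227, q1580, q80889, q80942, q112127] ⟨c80725, c80754, c80757, c102589, c111985, c112010, c80708, c80733, c111224, c111456, c756, c112020,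 c112021, c80819, c80872, c80763, c80858, c112027, c81198, c112033, c104245, c103734, c15742, c112045, c112065, c80890, c80893, c80727, c98192, c80721, c111961, c80811, c80885, c112075, c80895, c80222, c112084, c112107, c80728, c111227, c1580, c80889, c80942, c112127, trivial⟩ (nd (nat_lit 231) (nat_lit 0) (cs (nd (nat_lit 209) (nat_lit 0) (cs (rf (nat_lit 0)) (cs (rf (nat_lit 1)) (cs (rf (nat_lit 2)) (cs (rf (nat_lit 3)) (rf (nat_lit 4))))))) (cs (rf (nat_lit 5)) (cs (nd (nat_lit 209) (nat_lit 0) (cs (rf (nat_lit 6)) (cs (rf (nat_lit 7)) (cs (rf (nat_lit 1)) (nd (nat_lit 275) (nat_lit 0) (cs (rf (nat_lit 8)) (cs (nd (nat_lit 208) (nat_lit 0) (cs (lf (nat_lit 47) (nat_lit 186)) (nd (nat_lit 276) (nat_lit 0) (cs (rf (nat_lit 9)) (nd (nat_lit 210) (nat_lit 0) (cs (lf (nat_lit 35) (nat_lit 187)) (nd (nat_lit 274) (nat_lit 0) (cs (lf (nat_lit 41) (nat_lit 208)) (nd (nat_lit 273) (nat_lit 0) (cs (lf (nat_lit 12) (nat_lit 250)) (nd (nat_lit 295) (nat_lit 0) (cs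 (lf (nat_lit 11) (nat_lit 272)) (nd (nat_lit 230) (nat_lit 0) (cs (rf (nat_lit 10)) (lf (nat_lit 38) (nat_lit 207)))))))))))))))) (cs (rf (nat_lit 11)) (nd (nat_lit 274) (nat_lit 0) (cs (lf (nat_lit 41) (nat_lit 208)) (nd (nat_lit 272) (nat_lit 0) (cs (lf (nat_lit 13) (nat_lit 250)) (rf (nat_lit 12)))))))))))))) (cs (nd (nat_lit 255) (nat_lit 0) (cs (rf (nat_lit 13)) (cs (rf (nat_lit 14)) (cs (nd (nat_lit 277) (nat_lit 0) (cs (rf (nat_lit 15)) (cs (rf (nat_lit 16)) (nd (nat_lit 232) (nat_lit 0) (cs (rf (nat_lit 17)) (cs (nd (nat_lit 233) (nat_lit 0) (cs (rf (nat_lit 18)) (cs (rf (nat_lit 19)) (nd (nat_lit 229) (nat_lit 0) (cs (lf (nat_lit 1) (nat_lit 229)) (rf (nat_lit 20))))))) (nd (nat_lit 233) (nat_lit 0) (cs (rf (nat_lit 19)) (cs (nd (nat_lit 188) (nat_lit 0) (cs (lf (nat_lit 25) (nat_lit 188)) (rf (nat_lit 21)))) (nd (nat_lit 234) (nat_lit 0) (cs (lf (nat_lit 6) (nat_lit 231)) (nd (nat_lit 212) (nat_lit 0) (cs (lf (nat_lit 17) (nat_lit 209)) (rf (nat_lit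 22))))))))))))))) (rf (nat_lit 23)))))) (cs (rf (nat_lit 24)) (cs (nd (nat_lit 209) (nat_lit 0) (cs (rf (nat_lit 1)) (cs (rf (nat_lit 25)) (cs (rf (nat_lit 26)) (cs (nd (nat_lit 187) (nat_lit 0) (cs (lf (nat_lit 29) (nat_lit 187)) (nd (nat_lit 252) (nat_lit 0) (cs (lf (nat_lit 41) (nat_lit 186)) (rf (nat_lit 27)))))) (nd (nat_lit 275) (nat_lit 0) (cs (rf (nat_lit 28)) (cs (rf (nat_lit 12)) (nd (nat_lit 186) (nat_lit 0) (cs (lf (nat_lit 46) (nat_lit 186)) (nd (nat_lit 188) (nat_lit 0) (cs (lf (nat_lit 34) (nat_lit 187)) (rf (nat_lit 29)))))))))))))) (cs (nd (nat_lit 255) (nat_lit 0) (cs (rf (nat_lit 14)) (cs (rf (nat_lit 30)) (nd (nat_lit 233) (nat_lit 0) (cs (rf (nat_lit 31)) (cs (rf (nat_lit 32)) (cs (rf (nat_lit 33)) (nd (nat_lit 232) (nat_lit 0) (cs (rf (nat_lit 34)) (cs (rf (nat_lit 19)) (nd (nat_lit 234) (nat_lit 0) (cs (lf (nat_lit 6) (nat_lit 231)) (nd (nat_lit 212) (nat_lit 0) (cs (lf (nat_lit 17) (nat_lit 209)) (nd (nat_lit 168) (nat_lit 0) (cs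 (lf (nat_lit 37) (nat_lit 167)) (nd (nat_lit 277) (nat_lit 0) (cs (lf (nat_lit 30) (nat_lit 211)) (rf (nat_lit 35)))))))))))))))))))) (cs (nd (nat_lit 255) (nat_lit 0) (cs (rf (nat_lit 13)) (cs (rf (nat_lit 14)) (cs (rf (nat_lit 23)) (rf (nat_lit 36)))))) (cs (rf (nat_lit 37)) (cs (nd (nat_lit 209) (nat_lit 0) (cs (rf (nat_lit 38)) (cs (rf (nat_lit 4)) (cs (nd (nat_lit 275) (nat_lit 0) (cs (rf (nat_lit 28)) (cs (rf (nat_lit 39)) (rf (nat_lit 11))))) (nd (nat_lit 187) (nat_lit 0) (cs (rf (nat_lit 40)) (cs (rf (nat_lit 27)) (cs (rf (nat_lit 41)) (rf (nat_lit 42)))))))))) (rf (nat_lit 43))))))))))))) q112128 (by decide +kernel)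
def q112300 : Q := Q.p (nat_lit 0xe000000000000000000000000000000000000000000000000000000000000000) (nat_lit 0x140001f00007c0001f8003bf00071c001f80007fc0007c0001f00000000000000000000000000000000000000000) (nat_lit 18)
theorem c112300 : QOK q112300 := cut [q112240, q80811, q79199, q86323, q112252, q79734, q104438, q111631, q112225, q80719, q101881, q81134, q81149, q81120, q81128, q81126, q105405, q111899, q111882, q112284, q112286, q112293] ⟨c112240, c80811, c79199, c86323, c112252, c79734, c104438, c111631, c112225, c80719, c101881, c81134, c81149, c81120, c81128, c81126, c105405, c111899, c111882, c112284, c112286, c112293, trivial⟩ (nd (nat_lit 275) (nat_lit 0) (cs (rf (nat_lit 0)) (cs (nd (nat_lit 233) (nat_lit 0) (cs (rf (nat_lit 1)) (cs (nd (nat_lit 252) (nat_lit 0) (cs (lf (nat_lit 17) (nat_lit 230)) (nd (nat_lit 273) (nat_lit 0) (cs (lf (nat_lit 10) (nat_lit 251)) (nd (nat_lit 251) (nat_lit 0) (cs (lf (nat_lit 11) (nat_lit 250)) (nd (nat_lit 276)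 (nat_lit 0) (cs (lf (nat_lit 0) (nat_lit 250)) (lf (nat_lit 5) (nat_lit 251)))))))))) (cs (nd (nat_lit 232) (nat_lit 0) (cs (rf (nat_lit 2)) (cs (rf (nat_lit 3)) (cs (nd (nat_lit 298) (nat_lit 0) (cs (nd (nat_lit 276) (nat_lit 0) (cs (lf (nat_lit 35) (nat_lit 210)) (lf (nat_lit 30) (nat_lit 232)))) (cs (nd (nat_lit 234) (nat_lit 0) (cs (lf (nat_lit 6) (nat_lit 231)) (nd (nat_lit 297) (nat_lit 0) (cs (lf (nat_lit 30) (nat_lit 231)) (nd (nat_lit 231) (nat_lit 0) (cs (lf (nat_lit 29) (nat_lit 231)) (nd (nat_lit 296) (nat_lit 0) (cs (lf (nat_lit 41) (nat_lit 230)) (nd (nat_lit 209) (nat_lit 0) (cs (lf (nat_lit 40) (nat_lit 208)) (lf (nat_lit 23) (nat_lit 208)))))))))))) (nd (nat_lit 297) (nat_lit 0) (cs (lf (nat_lit 30) (nat_lit 231)) (nd (nat_lit 211) (nat_lit 0) (cs (lf (nat_lit 31) (nat_lit 210)) (nd (nat_lit 189) (nat_lit 0) (cs (lf (nat_lit 36) (nat_lit 166)) (nd (nat_lit 234) (nat_lit 0) (cs (lf (nat_lit 6) (nat_lit 231)) (nd (nat_lit 166) (nat_lit 0)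 (cs (lf (nat_lit 46) (nat_lit 166)) (nd (nat_lit 190) (nat_lit 0) (cs (lf (nat_lit 35) (nat_lit 167)) (nd (nat_lit 212) (nat_lit 0) (cs (lf (nat_lit 30) (nat_lit 189)) (rf (nat_lit 4))))))))))))))))))) (cs (nd (nat_lit 234) (nat_lit 0) (cs (lf (nat_lit 6) (nat_lit 231)) (rf (nat_lit 5)))) (nd (nat_lit 276) (nat_lit 0) (cs (rf (nat_lit 6)) (cs (rf (nat_lit 7)) (nd (nat_lit 210) (nat_lit 0) (cs (lf (nat_lit 36) (nat_lit 187)) (nd (nat_lit 273) (nat_lit 0) (cs (lf (nat_lit 13) (nat_lit 251)) (nd (nat_lit 277) (nat_lit 0) (cs (lf (nat_lit 42) (nat_lit 210)) (nd (nat_lit 189) (nat_lit 0) (cs (lf (nat_lit 34) (nat_lit 188)) (nd (nat_lit 234) (nat_lit 0) (cs (lf (nat_lit 6) (nat_lit 231)) (rf (nat_lit 8)))))))))))))))))))) (nd (nat_lit 274) (nat_lit 0) (cs (rf (nat_lit 9)) (cs (rf (nat_lit 10)) (nd (nat_lit 276) (nat_lit 0) (cs (rf (nat_lit 11)) (cs (rf (nat_lit 12)) (cs (nd (nat_lit 210) (nat_lit 0) (cs (rf (nat_lit 13)) (cs (rf (nat_lit 14)) (cs (nd (nat_lit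 189) (nat_lit 0) (cs (lf (nat_lit 37) (nat_lit 188)) (rf (nat_lit 15)))) (nd (nat_lit 188) (nat_lit 0) (cs (lf (nat_lit 38) (nat_lit 187)) (nd (nat_lit 211) (nat_lit 0) (cs (lf (nat_lit 42) (nat_lit 188)) (lf (nat_lit 36) (nat_lit 188)))))))))) (nd (nat_lit 297) (nat_lit 0) (cs (rf (nat_lit 16)) (cs (rf (nat_lit 17)) (nd (nat_lit 298) (nat_lit 0) (cs (lf (nat_lit 30) (nat_lit 232)) (nd (nat_lit 299) (nat_lit 0) (cs (lf (nat_lit 18) (nat_lit 274)) (rf (nat_lit 18)))))))))))))))))))) (cs (rf (nat_lit 19)) (cs (rf (nat_lit 20)) (cs (nd (nat_lit 256) (nat_lit 0) (cs (lf (nat_lit 11) (nat_lit 252)) (nd (nat_lit 257) (nat_lit 0) (cs (lf (nat_lit 10) (nat_lit 253)) (nd (nat_lit 235) (nat_lit 0) (cs (lf (nat_lit 17) (nat_lit 232)) (nd (nat_lit 280) (nat_lit 0) (cs (lf (nat_lit 4) (nat_lit 254)) (nd (nat_lit 232) (nat_lit 0) (cs (lf (nat_lit 23) (nat_lit 231)) (nd (nat_lit 258) (nat_lit 0) (cs (lf (nat_lit 5) (nat_lit 255)) (lf (nat_lit 22) (nat_lit 232))))))))))))))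 (nd (nat_lit 256) (nat_lit 0) (cs (lf (nat_lit 11) (nat_lit 252)) (nd (nat_lit 257) (nat_lit 0) (cs (lf (nat_lit 10) (nat_lit 253)) (nd (nat_lit 232) (nat_lit 0) (cs (lf (nat_lit 23) (nat_lit 231)) (nd (nat_lit 279) (nat_lit 0) (cs (lf (nat_lit 5) (nat_lit 254)) (nd (nat_lit 297) (nat_lit 0) (cs (lf (nat_lit 30) (nat_lit 231)) (nd (nat_lit 233) (nat_lit 0) (cs (lf (nat_lit 18) (nat_lit 232)) (rf (nat_lit 21)))))))))))))))))))) q112300 (by decide +kernel)
def q112306 : Q := Q.p (nat_lit 0x400007000000000000000000000000000000000000000000000000000000000000000) (nat_lit 0x380000f0000f80000b0000000001f0000380000e0000000000000000000000000000000000000000000000) (nat_lit 10)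
theorem c112306 : QOK q112306 := cut [q80649, q81014, q111104, q80653, q81010, q81320] ⟨c80649, c81014, c111104, c80653, c81010, c81320, trivial⟩ (nd (nat_lit 296) (nat_lit 0) (cs (rf (nat_lit 0)) (cs (rf (nat_lit 1)) (cs (rf (nat_lit 2)) (nd (nat_lit 230) (nat_lit 0) (cs (rf (nat_lit 3)) (cs (rf (nat_lit 4)) (rf (nat_lit 5))))))))) q112306 (by decide +kernel)
def q112356 : Q := Q.p (nat_lit 0x7000000000000000000000000000000000000000000000000000000000000000) (nat_lit 0x800003e0001fc0007c00018e0001f8000fe0003e0000f80000a00000000000000000000000000000000000) (nat_lit 15)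
theorem c112356 : QOK q112356 := cut [q79028, q81409, q79078, q79112, q81379, q106565, q81475, q10831, q3187, q81463, q106128, q87650, q79603, q112327, q81385, q97957, q79052, q79026, q81406, q84446, q112341, q79066, q97989] ⟨c79028, c81409, c79078, c79112, c81379, c106565, c81475, c10831, c3187, c81463, c106128, c87650, c79603, c112327, c81385, c97957, c79052, c79026, c81406, c84446, c112341, c79066, c97989, trivial⟩ (nd (nat_lit 230) (nat_lit 0) (cs (rf (nat_lit 0)) (cs (rf (nat_lit 1)) (cs (nd (nat_lit 275) (nat_lit 0) (cs (rf (nat_lit 2)) (cs (rf (nat_lit 3)) (cs (rf (nat_lit 4)) (rf (nat_lit 5)))))) (nd (nat_lit 276) (nat_lit 0) (cs (rf (nat_lit 6)) (cs (nd (nat_lit 251) (nat_lit 0) (cs (lf (nat_lit 5) (nat_lit 251)) (nd (nat_lit 228) (nat_lit 0) (cs (rf (nat_lit 7)) (lf (nat_lit 22) (nat_lit 228)))))) (cs (nd (nat_lit 251) (nat_lit 0) (cs (lf (nat_lit 5) (nat_lit 251)) (nd (nat_lit 250) (nat_lit 0) (cs (rf (nat_lit 8)) (lf (nat_lit 4) (nat_lit 250))))))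 (cs (nd (nat_lit 231) (nat_lit 0) (cs (rf (nat_lit 9)) (cs (rf (nat_lit 10)) (cs (nd (nat_lit 297) (nat_lit 0) (cs (rf (nat_lit 11)) (cs (nd (nat_lit 228) (nat_lit 0) (cs (lf (nat_lit 1) (nat_lit 228)) (nd (nat_lit 298) (nat_lit 0) (cs (lf (nat_lit 42) (nat_lit 231)) (nd (nat_lit 232) (nat_lit 0) (cs (lf (nat_lit 41) (nat_lit 231)) (rf (nat_lit 12)))))))) (nd (nat_lit 298) (nat_lit 0) (cs (lf (nat_lit 42) (nat_lit 231)) (nd (nat_lit 208) (nat_lit 0) (cs (lf (nat_lit 43) (nat_lit 208)) (nd (nat_lit 186) (nat_lit 0) (cs (lf (nat_lit 24) (nat_lit 164)) (nd (nat_lit 228) (nat_lit 0) (cs (lf (nat_lit 1) (nat_lit 228)) (nd (nat_lit 165) (nat_lit 0) (cs (lf (nat_lit 34) (nat_lit 164)) (nd (nat_lit 185) (nat_lit 0) (cs (lf (nat_lit 47) (nat_lit 163)) (nd (nat_lit 274) (nat_lit 0) (cs (lf (nat_lit 46) (nat_lit 185)) (nd (nat_lit 296) (nat_lit 0) (cs (lf (nat_lit 30) (nat_lit 230)) (nd (nat_lit 295) (nat_lit 0) (cs (lf (nat_lit 41) (nat_lit 229)) (lf (nat_lit 17)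 (nat_lit 273))))))))))))))))))))))) (cs (rf (nat_lit 13)) (nd (nat_lit 275) (nat_lit 0) (cs (rf (nat_lit 14)) (cs (rf (nat_lit 15)) (nd (nat_lit 209) (nat_lit 0) (cs (lf (nat_lit 24) (nat_lit 187)) (nd (nat_lit 277) (nat_lit 0) (cs (lf (nat_lit 18) (nat_lit 252)) (nd (nat_lit 186) (nat_lit 0) (cs (lf (nat_lit 46) (nat_lit 186)) (nd (nat_lit 274) (nat_lit 0) (cs (lf (nat_lit 41) (nat_lit 208)) (rf (nat_lit 16)))))))))))))))))) (nd (nat_lit 229) (nat_lit 0) (cs (rf (nat_lit 17)) (cs (rf (nat_lit 18)) (nd (nat_lit 231) (nat_lit 0) (cs (rf (nat_lit 9)) (cs (rf (nat_lit 10)) (cs (rf (nat_lit 13)) (cs (nd (nat_lit 297) (nat_lit 0) (cs (rf (nat_lit 11)) (cs (nd (nat_lit 298) (nat_lit 0) (cs (lf (nat_lit 42) (nat_lit 231)) (nd (nat_lit 232) (nat_lit 0) (cs (lf (nat_lit 41) (nat_lit 231)) (nd (nat_lit 250) (nat_lit 0) (cs (lf (nat_lit 13) (nat_lit 228)) (nd (nat_lit 299) (nat_lit 0) (cs (lf (nat_lit 29) (nat_lit 232)) (rf (nat_lit 19)))))))))) (cs (nd (nat_lit 298)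 (nat_lit 0) (cs (lf (nat_lit 42) (nat_lit 231)) (nd (nat_lit 208) (nat_lit 0) (cs (lf (nat_lit 43) (nat_lit 208)) (rf (nat_lit 20)))))) (nd (nat_lit 275) (nat_lit 0) (cs (lf (nat_lit 42) (nat_lit 230)) (nd (nat_lit 210) (nat_lit 0) (cs (lf (nat_lit 37) (nat_lit 209)) (nd (nat_lit 250) (nat_lit 0) (cs (lf (nat_lit 1) (nat_lit 250)) (nd (nat_lit 296) (nat_lit 0) (cs (lf (nat_lit 41) (nat_lit 230)) (nd (nat_lit 295) (nat_lit 0) (cs (lf (nat_lit 12) (nat_lit 272)) (nd (nat_lit 274) (nat_lit 0) (cs (lf (nat_lit 41) (nat_lit 229)) (lf (nat_lit 47) (nat_lit 207)))))))))))))))))) (nd (nat_lit 208) (nat_lit 0) (cs (rf (nat_lit 21)) (cs (rf (nat_lit 20)) (nd (nat_lit 209) (nat_lit 0) (cs (lf (nat_lit 24) (nat_lit 187)) (rf (nat_lit 22)))))))))))))))))))))))) q112356 (by decide +kernel)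
def q112390 : Q := Q.p (nat_lit 0xe000000000000000000000000000000000000000000000000000000000000000) (nat_lit 0x100000580003e0000f800031c0003f0001f0000fc0000f00001400000000000000000000000000000000000) (nat_lit 13)
theorem c112390 : QOK q112390 := cut [q80819, q80872, q112084, q81463, q81544, q106128, q81548, q81551, q88781] ⟨c80819, c80872, c112084, c81463, c81544, c106128, c81548, c81551, c88781, trivial⟩ (nd (nat_lit 231) (nat_lit 0) (cs (rf (nat_lit 0)) (cs (rf (nat_lit 1)) (cs (rf (nat_lit 2)) (nd (nat_lit 276) (nat_lit 0) (cs (rf (nat_lit 3)) (cs (rf (nat_lit 4)) (cs (rf (nat_lit 5)) (nd (nat_lit 232) (nat_lit 0) (cs (rf (nat_lit 6)) (cs (rf (nat_lit 7)) (nd (nat_lit 256) (nat_lit 0) (cs (lf (nat_lit 18) (nat_lit 231)) (nd (nat_lit 278) (nat_lit 0) (cs (lf (nat_lit 5) (nat_lit 253)) (nd (nat_lit 252) (nat_lit 0) (cs (lf (nat_lit 4) (nat_lit 252)) (nd (nat_lit 250) (nat_lit 0) (cs (lf (nat_lit 13) (nat_lit 228)) (rf (nat_lit 8))))))))))))))))))))) q112390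 (by decide +kernel)
def q112437 : Q := Q.p (nat_lit 0x7000000000000000000000000000000000000000000000000000000000000000) (nat_lit 0x200000e000078001df800780003ff8001fc0007e0000780000a00000000000000000000000000000000000) (nat_lit 13)
theorem c112437 : QOK q112437 := cut [q79028, q81644, q81655, q81334, q81657, q92260] ⟨c79028, c81644, c81655, c81334, c81657, c92260, trivial⟩ (nd (nat_lit 230) (nat_lit 0) (cs (rf (nat_lit 0)) (cs (rf (nat_lit 1)) (cs (rf (nat_lit 2)) (nd (nat_lit 274) (nat_lit 0) (cs (rf (nat_lit 3)) (cs (rf (nat_lit 4)) (rf (nat_lit 5))))))))) q112437 (by decide +kernel)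
def q112443 : Q := Q.p (nat_lit 0x400007000038000000000000000000000000000000000000000000000000000000000) (nat_lit 0xe00003800018000180000040003c0000380000e00000000000000000000000000000000000000000) (nat_lit 9)
theorem c112443 : QOK q112443 := cut [q86581, q95769, q111039] ⟨c86581, c95769, c111039, trivial⟩ (nd (nat_lit 297) (nat_lit 0) (cs (rf (nat_lit 0)) (cs (rf (nat_lit 1)) (nd (nat_lit 296) (nat_lit 0) (cs (lf (nat_lit 30) (nat_lit 230)) (rf (nat_lit 2))))))) q112443 (by decide +kernel)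
def q112451 : Q := Q.p (nat_lit 0x800007000010000000000000000000000000000000000000000000000000000000000) (nat_lit 0x20000080001780000c0000f8000fc0003e0000e80002800000000000000000000000000000000000) (nat_lit 8)
theorem c112451 : QOK q112451 := cut [q79128, q79201, q81678, q81744] ⟨c79128, c79201, c81678, c81744, trivial⟩ (nd (nat_lit 210) (nat_lit 0) (cs (rf (nat_lit 0)) (nd (nat_lit 251) (nat_lit 0) (cs (rf (nat_lit 1)) (cs (rf (nat_lit 2)) (rf (nat_lit 3))))))) q112451 (by decide +kernel)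
def q112536 : Q := Q.p (nat_lit 0x6000010000000000000000000000000000000000000000000000000000000000) (nat_lit 0xa0000380000e000078000018000e80000e0000380000e00002800000000000000000000000000000000000) (nat_lit 12)
theorem c112536 : QOK q112536 := cut [q79123, q79128, q79160, q102806, q105757, q111627, q79121, q79127, q79159, q100002] ⟨c79123, c79128, c79160, c102806, c105757, c111627, c79121, c79127, c79159, c100002, trivial⟩ (nd (nat_lit 210) (nat_lit 0) (cs (rf (nat_lit 0)) (cs (rf (nat_lit 1)) (cs (rf (nat_lit 2)) (cs (nd (nat_lit 276) (nat_lit 0) (cs (rf (nat_lit 3)) (cs (rf (nat_lit 4)) (rf (nat_lit 5))))) (nd (nat_lit 188) (nat_lit 0) (cs (rf (nat_lit 6)) (cs (rf (nat_lit 7)) (cs (rf (nat_lit 8)) (nd (nat_lit 167) (nat_lit 0) (cs (lf (nat_lit 34) (nat_lit 166)) (nd (nat_lit 187) (nat_lit 0) (cs (lf (nat_lit 47) (nat_lit 165)) (nd (nat_lit 276) (nat_lit 0) (cs (lf (nat_lit 46) (nat_lit 187)) (nd (nat_lit 299) (nat_lit 0) (cs (lf (nat_lit 28) (nat_lit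 210)) (nd (nat_lit 298) (nat_lit 0) (cs (lf (nat_lit 29) (nat_lit 232)) (nd (nat_lit 297) (nat_lit 0) (cs (lf (nat_lit 41) (nat_lit 231)) (nd (nat_lit 231) (nat_lit 0) (cs (lf (nat_lit 42) (nat_lit 231)) (rf (nat_lit 9))))))))))))))))))))))))) q112536 (by decide +kernel)
def q112558 : Q := Q.p (nat_lit 0x7000000000000000000000000000000000000000000000000000000000000000) (nat_lit 0x60000180000e00003c0001f80007f80000c000fc0000e0000380000a00000000000000000000000000000000000000000) (nat_lit 10)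
theorem c112558 : QOK q112558 := cut [q80339, q81755, q112360, q112557] ⟨c80339, c81755, c112360, c112557, trivial⟩ (nd (nat_lit 276) (nat_lit 0) (cs (rf (nat_lit 0)) (cs (rf (nat_lit 1)) (cs (rf (nat_lit 2)) (rf (nat_lit 3)))))) q112558 (by decide +kernel)
def q112583 : Q := Q.p (nat_lit 0x7000000000000000000000000000000000000000000000000000000000000000) (nat_lit 0x10000040001fdc0038e001fdc00000000000000000000000000000000000000000000000000000000) (nat_lit 10)
theorem c112583 : QOK q112583 := cut [q81724, q81867, q81872, q86782] ⟨c81724, c81867, c81872, c86782, trivial⟩ (nd (nat_lit 255) (nat_lit 0) (cs (rf (nat_lit 0)) (cs (rf (nat_lit 1)) (cs (rf (nat_lit 2)) (rf (nat_lit 3)))))) q112583 (by decide +kernel)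
def q112893 : Q := Q.p (nat_lit 0x80000e00002000000000000000000000000000000000000000000000000000000000000000) (nat_lit 0x1800006000010000100001de0007700001c000030000000000000000000000000000000000000000000000) (nat_lit 8)
theorem c112893 : QOK q112893 := cut [q98386, q108662, q112808, q5304, q108446] ⟨c98386, c108662, c112808, c5304, c108446, trivial⟩ (nd (nat_lit 252) (nat_lit 0) (cs (rf (nat_lit 0)) (cs (rf (nat_lit 1)) (cs (rf (nat_lit 2)) (nd (nat_lit 251) (nat_lit 0) (cs (rf (nat_lit 3)) (rf (nat_lit 4)))))))) q112893 (by decide +kernel)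
def q112944 : Q := Q.p (nat_lit 0x800007800000000000000000000000000000000000000000000000000000000000000) (nat_lit 0xc0000300000c0000300000000003b0000e0000380000000000000000000000000000000000000000000000) (nat_lit 10)
theorem c112944 : QOK q112944 := cut [q91083] ⟨c91083, trivial⟩ (nd (nat_lit 276) (nat_lit 0) (cs (lf (nat_lit 5) (nat_lit 251)) (nd (nat_lit 228) (nat_lit 0) (cs (lf (nat_lit 22) (nat_lit 228)) (rf (nat_lit 0)))))) q112944 (by decide +kernel)
def q112959 : Q := Q.p (nat_lit 0xc00003000000000000000000000000000000000000000000000000000000000000000) (nat_lit 0x600001e000030000c00001f8001f80001e0000400000000000000000000000000000000000000000) (nat_lit 8)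
theorem c112959 : QOK q112959 := cut [q105227, q105295, q112956, q22510] ⟨c105227, c105295, c112956, c22510, trivial⟩ (nd (nat_lit 230) (nat_lit 0) (cs (rf (nat_lit 0)) (cs (rf (nat_lit 1)) (cs (rf (nat_lit 2)) (nd (nat_lit 208) (nat_lit 0) (cs (lf (nat_lit 24) (nat_lit 186)) (nd (nat_lit 185) (nat_lit 0) (cs (lf (nat_lit 46) (nat_lit 185)) (rf (nat_lit 3)))))))))) q112959 (by decide +kernel)
def q112995 : Q := Q.p (nat_lit 0x800003000000000000000000000000000000000000000000000000000000000000000) (nat_lit 0x48000120000dc000f7c003ce000f7c0005c0001700001c0000500000000000000000000000000000000000) (nat_lit 14)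
theorem c112995 : QOK q112995 := cut [q1999, q2066, q2091, q98377, q98529, q112949, q112952, q112985, q112994] ⟨c1999, c2066, c2091, c98377, c98529, c112949, c112952, c112985, c112994, trivial⟩ (nd (nat_lit 251) (nat_lit 0) (cs (rf (nat_lit 0)) (cs (rf (nat_lit 1)) (cs (rf (nat_lit 2)) (cs (nd (nat_lit 254) (nat_lit 0) (cs (rf (nat_lit 3)) (cs (rf (nat_lit 4)) (cs (rf (nat_lit 5)) (cs (rf (nat_lit 6)) (rf (nat_lit 7))))))) (rf (nat_lit 8))))))) q112995 (by decide +kernel)
def q112997 : Q := Q.p (nat_lit 0xc00003000000000000000000000000000000000000000000000000000000000000000) (nat_lit 0x380000e000018000000000c80000f8000380000c0000000000000000000000000000000000000000000000) (nat_lit 7)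
theorem c112997 : QOK q112997 := cut [q11506, q110345, q83724, q98394] ⟨c11506, c110345, c83724, c98394, trivial⟩ (nd (nat_lit 296) (nat_lit 0) (cs (rf (nat_lit 0)) (cs (rf (nat_lit 1)) (nd (nat_lit 230) (nat_lit 0) (cs (rf (nat_lit 2)) (rf (nat_lit 3))))))) q112997 (by decide +kernel)
def q113048 : Q := Q.p (nat_lit 0x800007800000000000000000000000000000000000000000000000000000000000000) (nat_lit 0xe7000380001f8000040000100000000000000000000000000000000000000000000000) (nat_lit 9)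
theorem c113048 : QOK q113048 := cut [q82204] ⟨c82204, trivial⟩ (nd (nat_lit 232) (nat_lit 0) (cs (lf (nat_lit 17) (nat_lit 229)) (nd (nat_lit 188) (nat_lit 0) (cs (lf (nat_lit 37) (nat_lit 187)) (rf (nat_lit 0)))))) q113048 (by decide +kernel)
def q113112 : Q := Q.p (nat_lit 0x200000800002000008000000000000000000000000000000000000000000000000000000000) (nat_lit 0xf78001dc0007780000000014000050000000000000000000000000000000000000000000000000000) (nat_lit 10)
theorem c113112 : QOK q113112 := cut [q88938, q107349, q88939] ⟨c88938, c107349, c88939, trivial⟩ (nd (nat_lit 296) (nat_lit 0) (cs (lf (nat_lit 41) (nat_lit 230)) (nd (nat_lit 295) (nat_lit 0) (cs (rf (nat_lit 0)) (cs (rf (nat_lit 1)) (nd (nat_lit 210) (nat_lit 0) (cs (lf (nat_lit 34) (nat_lit 209)) (nd (nat_lit 208) (nat_lit 0) (cs (lf (nat_lit 46) (nat_lit 208)) (rf (nat_lit 2))))))))))) q113112 (by decide +kernel)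
def q113114 : Q := Q.p (nat_lit 0x800002000008000000000000000000000000000000000000000000000000000000000) (nat_lit 0x50000740001c000077c001fe0007fc000500000000000000000000000000000000000000000) (nat_lit 15)
theorem c113114 : QOK q113114 := cut [q81901, q98317, q107365, q108991] ⟨c81901, c98317, c107365, c108991, trivial⟩ (nd (nat_lit 209) (nat_lit 0) (cs (rf (nat_lit 0)) (cs (rf (nat_lit 1)) (cs (rf (nat_lit 2)) (rf (nat_lit 3)))))) q113114 (by decide +kernel)
def q113150 : Q := Q.p (nat_lit 0x200000800002000000000000000000000000000000000000000000000000000000000000000) (nat_lit 0x140003fe0007f0001de0001000005000014000000000000000000000000000000000000000000000000000000000) (nat_lit 11)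
theorem c113150 : QOK q113150 := cut [q98129, q99244, q113145, q113148] ⟨c98129, c99244, c113145, c113148, trivial⟩ (nd (nat_lit 319) (nat_lit 0) (cs (rf (nat_lit 0)) (cs (rf (nat_lit 1)) (cs (rf (nat_lit 2)) (nd (nat_lit 230) (nat_lit 0) (cs (lf (nat_lit 46) (nat_lit 230)) (rf (nat_lit 3)))))))) q113150 (by decide +kernel)
def q113152 : Q := Q.p (nat_lit 0x200000800002000000000000000000000000000000000000000000000000000000000000000) (nat_lit 0x200000c00005c000700000580007e0001f00001c0000500000000000000000000000000000000000000000) (nat_lit 11)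
theorem c113152 : QOK q113152 := cut [q99253, q99260, q99269, q108258, q112791] ⟨c99253, c99260, c99269, c108258, c112791, trivial⟩ (nd (nat_lit 231) (nat_lit 0) (cs (rf (nat_lit 0)) (cs (rf (nat_lit 1)) (cs (rf (nat_lit 2)) (cs (rf (nat_lit 3)) (rf (nat_lit 4))))))) q113152 (by decide +kernel)
def q113164 : Q := Q.p (nat_lit 0x200000800002000000000000000000000000000000000000000000000000000000000000000) (nat_lit 0x140003fe0007f0001de0000400005000014000000000000000000000000000000000000000000000000000000000) (nat_lit 11)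
theorem c113164 : QOK q113164 := cut [q2579, q99278, q99281, q113145] ⟨c2579, c99278, c99281, c113145, trivial⟩ (nd (nat_lit 319) (nat_lit 0) (cs (rf (nat_lit 0)) (cs (rf (nat_lit 1)) (cs (rf (nat_lit 2)) (rf (nat_lit 3)))))) q113164 (by decide +kernel)
def q113182 : Q := Q.p (nat_lit 0x200000800003000000000000000000000000000000000000000000000000000000000000000) (nat_lit 0x4000050000378001de000778001c00007f8001dc000040000000000000000000000000000000000000000000000) (nat_lit 14)
theorem c113182 : QOK q113182 := cut [q79111, q88337, q90752, q105437, q105445, q11666, q11728, q105451, q105459] ⟨c79111, c88337, c90752, c105437, c105445, c11666, c11728, c105451, c105459, trivial⟩ (nd (nat_lit 230) (nat_lit 0) (cs (rf (nat_lit 0)) (cs (rf (nat_lit 1)) (nd (nat_lit 296) (nat_lit 0) (cs (rf (nat_lit 2)) (cs (rf (nat_lit 3)) (cs (rf (nat_lit 4)) (nd (nat_lit 295) (nat_lit 0) (cs (rf (nat_lit 5)) (cs (rf (nat_lit 6)) (cs (rf (nat_lit 7)) (rf (nat_lit 8)))))))))))))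 q113182 (by decide +kernel)
def q113338 : Q := Q.p (nat_lit 0x1800002000000000000000000000000000000000000000000000000000000000000000) (nat_lit 0x700007e0000e70003df0007fe001ff8001c0000500000000000000000000000000000000000000000) (nat_lit 13)
theorem c113338 : QOK q113338 := cut [q91107, q100321, q100461, q100469, q16715, q99782, q113327, q22169, q99772, q113314, q97957, q99594, q113304] ⟨c91107, c100321, c100461, c100469, c16715, c99782, c113327, c22169, c99772, c113314, c97957, c99594, c113304, trivial⟩ (nd (nat_lit 231) (nat_lit 0) (cs (rf (nat_lit 0)) (cs (rf (nat_lit 1)) (cs (rf (nat_lit 2)) (cs (rf (nat_lit 3)) (nd (nat_lit 277) (nat_lit 0) (cs (rf (nat_lit 4)) (cs (rf (nat_lit 5)) (cs (rf (nat_lit 6)) (nd (nat_lit 274) (nat_lit 0) (cs (rf (nat_lit 7)) (cs (rf (nat_lit 8)) (cs (rf (nat_lit 9)) (nd (nat_lit 230) (nat_lit 0) (cs (rf (nat_lit 10)) (cs (rf (nat_lit 11)) (cs (rf (nat_lit 12)) (nd (nat_lit 255) (nat_lit 0) (cs (lf (nat_lit 17) (nat_lit 252))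 (nd (nat_lit 299) (nat_lit 0) (cs (lf (nat_lit 5) (nat_lit 274)) (nd (nat_lit 297) (nat_lit 0) (cs (lf (nat_lit 47) (nat_lit 208)) (nd (nat_lit 298) (nat_lit 0) (cs (lf (nat_lit 29) (nat_lit 231)) (nd (nat_lit 211) (nat_lit 0) (cs (lf (nat_lit 37) (nat_lit 210)) (nd (nat_lit 232) (nat_lit 0) (cs (lf (nat_lit 35) (nat_lit 209)) (nd (nat_lit 254) (nat_lit 0) (cs (lf (nat_lit 29) (nat_lit 232)) (lf (nat_lit 0) (nat_lit 229))))))))))))))))))))))))))))))))) q113338 (by decide +kernel)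
def q113537 : Q := Q.p (nat_lit 0x800002000000000000000000000000000000000000000000000000000000000000000) (nat_lit 0x500001c0001fc000ff8003fc001f78003de000fb8001f80007c0000500000000000000000000000000000000000000000) (nat_lit 18)
theorem c113537 : QOK q113537 := cut [q99750, q113161, q113177, q113359, q2579, q98129, q105339, q89529, q113148, q2541, q21939, q113176, q81211, q113371, q113451, q81192, q113461, q94689, q113476, q113504, q113505, q81149, q80720, q97337, q113373, q113515, q16758, q113519, q15634, q98838, q113526, q99749, q99765, q113156] ⟨c99750, c113161, c113177, c113359, c2579, c98129, c105339, c89529, c113148, c2541, c21939, c113176, c81211, c113371, c113451, c81192, c113461, c94689, c113476, c113504, c113505, c81149, c80720, c97337, c113373, c113515, c16758, c113519, c15634, c98838, c113526, c99749, c99765, c113156, trivial⟩ (nd (nat_lit 297) (nat_lit 0) (cs (rf (nat_lit 0)) (cs (rf (nat_lit 1)) (cs (rf (nat_lit 2)) (cs (rf (nat_lit 3)) (cs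 (nd (nat_lit 319) (nat_lit 0) (cs (rf (nat_lit 4)) (cs (rf (nat_lit 5)) (rf (nat_lit 6))))) (cs (nd (nat_lit 319) (nat_lit 0) (cs (rf (nat_lit 4)) (cs (rf (nat_lit 7)) (rf (nat_lit 8))))) (cs (nd (nat_lit 319) (nat_lit 0) (cs (rf (nat_lit 9)) (cs (rf (nat_lit 4)) (cs (nd (nat_lit 318) (nat_lit 0) (cs (lf (nat_lit 41) (nat_lit 252)) (rf (nat_lit 10)))) (cs (rf (nat_lit 11)) (nd (nat_lit 320) (nat_lit 0) (cs (lf (nat_lit 29) (nat_lit 253)) (nd (nat_lit 231) (nat_lit 0) (cs (lf (nat_lit 28) (nat_lit 231)) (rf (nat_lit 12))))))))))) (cs (rf (nat_lit 13)) (cs (rf (nat_lit 14)) (cs (nd (nat_lit 254) (nat_lit 0) (cs (rf (nat_lit 15)) (cs (rf (nat_lit 16)) (cs (nd (nat_lit 255) (nat_lit 0) (cs (rf (nat_lit 17)) (cs (rf (nat_lit 18)) (cs (rf (nat_lit 19)) (cs (rf (nat_lit 20)) (nd (nat_lit 256) (nat_lit 0) (cs (lf (nat_lit 11) (nat_lit 252)) (nd (nat_lit 234) (nat_lit 0) (cs (lf (nat_lit 17) (nat_lit 231)) (nd (nat_lit 233) (nat_lit 0) (cs (lf (nat_lit 12) (nat_lit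 230)) (nd (nat_lit 276) (nat_lit 0) (cs (lf (nat_lit 6) (nat_lit 253)) (rf (nat_lit 21))))))))))))))) (nd (nat_lit 274) (nat_lit 0) (cs (rf (nat_lit 22)) (cs (rf (nat_lit 23)) (cs (nd (nat_lit 255) (nat_lit 0) (cs (rf (nat_lit 17)) (cs (rf (nat_lit 20)) (nd (nat_lit 319) (nat_lit 0) (cs (rf (nat_lit 4)) (cs (rf (nat_lit 24)) (nd (nat_lit 298) (nat_lit 0) (cs (rf (nat_lit 25)) (cs (nd (nat_lit 299) (nat_lit 0) (cs (lf (nat_lit 18) (nat_lit 274)) (nd (nat_lit 318) (nat_lit 0) (cs (lf (nat_lit 41) (nat_lit 252)) (rf (nat_lit 26)))))) (nd (nat_lit 318) (nat_lit 0) (cs (lf (nat_lit 41) (nat_lit 252)) (nd (nat_lit 316) (nat_lit 0) (cs (lf (nat_lit 13) (nat_lit 294)) (rf (nat_lit 27))))))))))))))) (nd (nat_lit 273) (nat_lit 0) (cs (lf (nat_lit 12) (nat_lit 250)) (nd (nat_lit 276) (nat_lit 0) (cs (rf (nat_lit 28)) (cs (rf (nat_lit 29)) (nd (nat_lit 250) (nat_lit 0) (cs (lf (nat_lit 22) (nat_lit 250)) (nd (nat_lit 294) (nat_lit 0) (cs (lf (nat_lit 10) (nat_lit 272))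 (nd (nat_lit 298) (nat_lit 0) (cs (lf (nat_lit 5) (nat_lit 273)) (nd (nat_lit 320) (nat_lit 0) (cs (lf (nat_lit 42) (nat_lit 253)) (nd (nat_lit 319) (nat_lit 0) (cs (lf (nat_lit 30) (nat_lit 253)) (rf (nat_lit 30))))))))))))))))))))))))) (nd (nat_lit 319) (nat_lit 0) (cs (rf (nat_lit 31)) (cs (rf (nat_lit 32)) (cs (rf (nat_lit 33)) (rf (nat_lit 11))))))))))))))))) q113537 (by decide +kernel)
def q113591 : Q := Q.p (nat_lit 0x800002000008000000000000000000000000000000000000000000000000000000000) (nat_lit 0x380003e8000778001df800f7c003bf0007e0001f80001000000000000000000000000000000000000) (nat_lit 15)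
theorem c113591 : QOK q113591 := cut [q81896, q97957, q102009, q107016, q107808, q109708, q100321, q109712, q109714, q90494, q97550, q104510, q109396, q113557, q113569, q101314, q113578, q3983, q3985, q109745, q113587] ⟨c81896, c97957, c102009, c107016, c107808, c109708, c100321, c109712, c109714, c90494, c97550, c104510, c109396, c113557, c113569, c101314, c113578, c3983, c3985, c109745, c113587, trivial⟩ (nd (nat_lit 230) (nat_lit 0) (cs (rf (nat_lit 0)) (cs (rf (nat_lit 1)) (cs (nd (nat_lit 254) (nat_lit 0) (cs (rf (nat_lit 2)) (cs (rf (nat_lit 3)) (cs (rf (nat_lit 4)) (rf (nat_lit 5)))))) (nd (nat_lit 276) (nat_lit 0) (cs (rf (nat_lit 6)) (cs (rf (nat_lit 7)) (cs (rf (nat_lit 8)) (cs (nd (nat_lit 252) (nat_lit 0) (cs (rf (nat_lit 9)) (cs (rf (nat_lit 10)) (cs (rf (nat_lit 11)) (cs (nd (nat_lit 255) (nat_lit 0) (cs (rf (nat_lit 12)) (cs (nd (nat_lit 186) (nat_lit 0) (cs (lf (nat_lit 25) (nat_lit 186)) (nd (nat_lit 277) (nat_lit 0) (cs (lf (nat_lit 18)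 (nat_lit 252)) (nd (nat_lit 256) (nat_lit 0) (cs (lf (nat_lit 12) (nat_lit 252)) (rf (nat_lit 13)))))))) (rf (nat_lit 14))))) (nd (nat_lit 254) (nat_lit 0) (cs (rf (nat_lit 15)) (cs (rf (nat_lit 2)) (rf (nat_lit 16)))))))))) (nd (nat_lit 208) (nat_lit 0) (cs (rf (nat_lit 17)) (cs (rf (nat_lit 18)) (nd (nat_lit 252) (nat_lit 0) (cs (rf (nat_lit 9)) (cs (rf (nat_lit 10)) (cs (rf (nat_lit 11)) (cs (rf (nat_lit 19)) (rf (nat_lit 20))))))))))))))))))) q113591 (by decide +kernel)
def q113614 : Q := Q.p (nat_lit 0x800002000008000000000000000000000000000000000000000000000000000000000) (nat_lit 0x180000600007400005c00014000070000180000700001c00005000000000000000000000000000000) (nat_lit 11)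
theorem c113614 : QOK q113614 := cut [q26053, q97872, q102411] ⟨c26053, c97872, c102411, trivial⟩ (nd (nat_lit 209) (nat_lit 0) (cs (rf (nat_lit 0)) (cs (rf (nat_lit 1)) (rf (nat_lit 2))))) q113614 (by decide +kernel)
def q113615 : Q := Q.p (nat_lit 0x800002000008000020000000000000000000000000000000000000000000000000000) (nat_lit 0x4000050000140000500000c0000700001800004000000000000000000000000000000) (nat_lit 8)
theorem c113615 : QOK q113615 := cut [q98075] ⟨c98075, trivial⟩ (nd (nat_lit 186) (nat_lit 0) (cs (lf (nat_lit 46) (nat_lit 186)) (rf (nat_lit 0)))) q113615 (by decide +kernel)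
def q113669 : Q := Q.p (nat_lit 0x800002000008000000000000000000000000000000000000000000000000000000000) (nat_lit 0x300002e0003be000f78003df000f78003ec0007f0001f00000400000000000000000000000000000000000) (nat_lit 17)
theorem c113669 : QOK q113669 := cut [q56839, q108131, q80720, q97337, q97774, q108134, q108148, q108135, q108146, q113641, q101896, q107026, q108152, q108160, q87016, q108173, q86313, q94424, q109818, q79079, q108396, q15801, q15828, q84347, q97708, q84408, q91664, q95632, q113668] ⟨c56839, c108131, c80720, c97337, c97774, c108134, c108148, c108135, c108146, c113641, c101896, c107026, c108152, c108160, c87016, c108173, c86313, c94424, c109818, c79079, c108396, c15801, c15828, c84347, c97708, c84408, c91664, c95632, c113668, trivial⟩ (nd (nat_lit 274) (nat_lit 0) (cs (rf (nat_lit 0)) (cs (rf (nat_lit 1)) (cs (nd (nat_lit 254) (nat_lit 0) (cs (rf (nat_lit 2)) (cs (rf (nat_lit 3)) (cs (rf (nat_lit 4)) (cs (nd (nat_lit 210) (nat_lit 0) (cs (rf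 (nat_lit 5)) (cs (rf (nat_lit 6)) (nd (nat_lit 251) (nat_lit 0) (cs (rf (nat_lit 7)) (cs (rf (nat_lit 8)) (cs (nd (nat_lit 232) (nat_lit 0) (cs (lf (nat_lit 30) (nat_lit 209)) (rf (nat_lit 9)))) (nd (nat_lit 272) (nat_lit 0) (cs (lf (nat_lit 13) (nat_lit 250)) (nd (nat_lit 232) (nat_lit 0) (cs (lf (nat_lit 30) (nat_lit 209)) (rf (nat_lit 10))))))))))))) (nd (nat_lit 252) (nat_lit 0) (cs (rf (nat_lit 11)) (cs (rf (nat_lit 12)) (nd (nat_lit 187) (nat_lit 0) (cs (lf (nat_lit 37) (nat_lit 186)) (rf (nat_lit 13)))))))))))) (cs (nd (nat_lit 232) (nat_lit 0) (cs (rf (nat_lit 14)) (cs (nd (nat_lit 297) (nat_lit 0) (cs (lf (nat_lit 35) (nat_lit 209)) (rf (nat_lit 15)))) (cs (nd (nat_lit 252) (nat_lit 0) (cs (rf (nat_lit 16)) (cs (rf (nat_lit 17)) (cs (rf (nat_lit 18)) (nd (nat_lit 254) (nat_lit 0) (cs (rf (nat_lit 19)) (cs (rf (nat_lit 11)) (rf (nat_lit 20))))))))) (nd (nat_lit 296) (nat_lit 0) (cs (rf (nat_lit 21)) (cs (rf (nat_lit 22)) (nd (nat_lit 252) (nat_lit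 0) (cs (rf (nat_lit 17)) (cs (nd (nat_lit 255) (nat_lit 0) (cs (rf (nat_lit 23)) (cs (nd (nat_lit 233) (nat_lit 0) (cs (lf (nat_lit 6) (nat_lit 230)) (nd (nat_lit 230) (nat_lit 0) (cs (lf (nat_lit 5) (nat_lit 230)) (nd (nat_lit 211) (nat_lit 0) (cs (lf (nat_lit 17) (nat_lit 208)) (rf (nat_lit 24)))))))) (nd (nat_lit 233) (nat_lit 0) (cs (lf (nat_lit 6) (nat_lit 230)) (nd (nat_lit 254) (nat_lit 0) (cs (lf (nat_lit 11) (nat_lit 251)) (nd (nat_lit 297) (nat_lit 0) (cs (lf (nat_lit 30) (nat_lit 231)) (nd (nat_lit 277) (nat_lit 0) (cs (lf (nat_lit 5) (nat_lit 252)) (nd (nat_lit 299) (nat_lit 0) (cs (lf (nat_lit 42) (nat_lit 232)) (nd (nat_lit 276) (nat_lit 0) (cs (lf (nat_lit 5) (nat_lit 274)) (lf (nat_lit 11) (nat_lit 273))))))))))))))))) (nd (nat_lit 273) (nat_lit 0) (cs (rf (nat_lit 25)) (cs (rf (nat_lit 26)) (nd (nat_lit 251) (nat_lit 0) (cs (lf (nat_lit 12) (nat_lit 228)) (rf (nat_lit 27))))))))))))))))) (rf (nat_lit 28))))))) q113669 (by decide +kernel)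
def q113676 : Q := Q.p (nat_lit 0x800002000008000000000000000000000000000000000000000000000000000000000) (nat_lit 0x140000700001c000030000170001d00007400007c0000c0000700001c00005000000000000000000000000000000) (nat_lit 11)
theorem c113676 : QOK q113676 := cut [q97875, q100882, q113621] ⟨c97875, c100882, c113621, trivial⟩ (nd (nat_lit 209) (nat_lit 0) (cs (rf (nat_lit 0)) (cs (rf (nat_lit 1)) (rf (nat_lit 2))))) q113676 (by decide +kernel)
def q113690 : Q := Q.p (nat_lit 0x200000800002000000000000000000000000000000000000000000000000000000000000000) (nat_lit 0x14000050000f78003de000f7c000580000e000038000040000000000000000000000000000000000000000000000) (nat_lit 11)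
theorem c113690 : QOK q113690 := cut [q90752, q94505, q109527, q113689] ⟨c90752, c94505, c109527, c113689, trivial⟩ (nd (nat_lit 296) (nat_lit 0) (cs (rf (nat_lit 0)) (cs (rf (nat_lit 1)) (cs (rf (nat_lit 2)) (rf (nat_lit 3)))))) q113690 (by decide +kernel)
def q113792 : Q := Q.p (nat_lit 0x600000800002000000000000000000000000000000000000000000000000000000000000000) (nat_lit 0x380000e8000fa00039e001f78001de000678001d0000740000400000000000000000000000000000000000000000) (nat_lit 14)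
theorem c113792 : QOK q113792 := cut [q88933, q94618, q113186, q113190, q13624, q86263, q1257, q108441, q16980, q25894, q97550, q108827, q99424, q109548, q109553, q79762, q100619, q22529] ⟨c88933, c94618, c113186, c113190, c13624, c86263, c1257, c108441, c16980, c25894, c97550, c108827, c99424, c109548, c109553, c79762, c100619, c22529, trivial⟩ (nd (nat_lit 252) (nat_lit 0) (cs (rf (nat_lit 0)) (cs (nd (nat_lit 319) (nat_lit 0) (cs (lf (nat_lit 47) (nat_lit 230)) (nd (nat_lit 342) (nat_lit 0) (cs (lf (nat_lit 28) (nat_lit 253)) (nd (nat_lit 341) (nat_lit 0) (cs (lf (nat_lit 29) (nat_lit 275)) (rf (nat_lit 1)))))))) (cs (nd (nat_lit 274) (nat_lit 0) (cs (rf (nat_lit 2)) (cs (rf (nat_lit 3)) (cs (nd (nat_lit 277) (nat_lit 0) (cs (rf (nat_lit 4)) (cs (nd (nat_lit 208) (nat_lit 0) (cs (lf (nat_lit 25) (nat_lit 208)) (nd (nat_lit 299) (nat_lit 0) (cs (lf (nat_lit 18) (nat_lit 274)) (nd (nat_lit 278) (nat_lit 0) (cs (lf (nat_lit 12) (nat_lit 274)) (nd (nat_lit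 279) (nat_lit 0) (cs (lf (nat_lit 6) (nat_lit 276)) (nd (nat_lit 255) (nat_lit 0) (cs (lf (nat_lit 2) (nat_lit 252)) (nd (nat_lit 233) (nat_lit 0) (cs (lf (nat_lit 41) (nat_lit 232)) (nd (nat_lit 212) (nat_lit 0) (cs (lf (nat_lit 34) (nat_lit 211)) (nd (nat_lit 211) (nat_lit 0) (cs (lf (nat_lit 35) (nat_lit 189)) (rf (nat_lit 5)))))))))))))))))) (nd (nat_lit 299) (nat_lit 0) (cs (lf (nat_lit 18) (nat_lit 274)) (nd (nat_lit 251) (nat_lit 0) (cs (lf (nat_lit 19) (nat_lit 251)) (nd (nat_lit 250) (nat_lit 0) (cs (lf (nat_lit 0) (nat_lit 249)) (nd (nat_lit 208) (nat_lit 0) (cs (lf (nat_lit 25) (nat_lit 208)) (nd (nat_lit 271) (nat_lit 0) (cs (lf (nat_lit 10) (nat_lit 249)) (nd (nat_lit 228) (nat_lit 0) (cs (lf (nat_lit 23) (nat_lit 227)) (nd (nat_lit 254) (nat_lit 0) (cs (lf (nat_lit 22) (nat_lit 228)) (nd (nat_lit 255) (nat_lit 0) (cs (lf (nat_lit 6) (nat_lit 252)) (nd (nat_lit 233) (nat_lit 0) (cs (lf (nat_lit 41) (nat_lit 232)) (lf (nat_lit 17) (nat_lit 230)))))))))))))))))))))))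 (cs (nd (nat_lit 299) (nat_lit 0) (cs (lf (nat_lit 18) (nat_lit 274)) (nd (nat_lit 273) (nat_lit 0) (cs (lf (nat_lit 21) (nat_lit 273)) (lf (nat_lit 3) (nat_lit 273)))))) (nd (nat_lit 276) (nat_lit 0) (cs (rf (nat_lit 6)) (cs (rf (nat_lit 7)) (nd (nat_lit 272) (nat_lit 0) (cs (lf (nat_lit 1) (nat_lit 272)) (nd (nat_lit 320) (nat_lit 0) (cs (lf (nat_lit 42) (nat_lit 253)) (nd (nat_lit 208) (nat_lit 0) (cs (lf (nat_lit 25) (nat_lit 208)) (nd (nat_lit 277) (nat_lit 0) (cs (lf (nat_lit 18) (nat_lit 252)) (nd (nat_lit 255) (nat_lit 0) (cs (lf (nat_lit 17) (nat_lit 252)) (nd (nat_lit 233) (nat_lit 0) (cs (lf (nat_lit 36) (nat_lit 210)) (lf (nat_lit 33) (nat_lit 232)))))))))))))))))))))) (nd (nat_lit 320) (nat_lit 0) (cs (rf (nat_lit 8)) (cs (rf (nat_lit 9)) (nd (nat_lit 276) (nat_lit 0) (cs (rf (nat_lit 10)) (cs (rf (nat_lit 11)) (cs (nd (nat_lit 273) (nat_lit 0) (cs (rf (nat_lit 12)) (cs (rf (nat_lit 13)) (nd (nat_lit 250) (nat_lit 0) (cs (lf (nat_lit 1) (nat_lit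 250)) (rf (nat_lit 14))))))) (nd (nat_lit 299) (nat_lit 0) (cs (rf (nat_lit 15)) (cs (nd (nat_lit 277) (nat_lit 0) (cs (lf (nat_lit 18) (nat_lit 252)) (nd (nat_lit 233) (nat_lit 0) (cs (lf (nat_lit 37) (nat_lit 232)) (nd (nat_lit 296) (nat_lit 0) (cs (lf (nat_lit 12) (nat_lit 273)) (nd (nat_lit 273) (nat_lit 0) (cs (lf (nat_lit 1) (nat_lit 273)) (rf (nat_lit 16)))))))))) (nd (nat_lit 277) (nat_lit 0) (cs (lf (nat_lit 18) (nat_lit 252)) (nd (nat_lit 233) (nat_lit 0) (cs (lf (nat_lit 37) (nat_lit 232)) (nd (nat_lit 296) (nat_lit 0) (cs (lf (nat_lit 12) (nat_lit 273)) (rf (nat_lit 17)))))))))))))))))))))) q113792 (by decide +kernel)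
def q113867 : Q := Q.p (nat_lit 0x800002000008000000000000000000000000000000000000000000000000000000000) (nat_lit 0x140000700001c0001fc00077000050000140000200001c0000700001400000000000000000000000000000000000) (nat_lit 11)
theorem c113867 : QOK q113867 := cut [q97681, q97689, q98131, q101906] ⟨c97681, c97689, c98131, c101906, trivial⟩ (nd (nat_lit 297) (nat_lit 0) (cs (rf (nat_lit 0)) (cs (rf (nat_lit 1)) (cs (rf (nat_lit 2)) (rf (nat_lit 3)))))) q113867 (by decide +kernel)
def q113909 : Q := Q.p (nat_lit 0x80000600000c000000000000000000000000000000000000000000000000000000000) (nat_lit 0xd00007e0001fe000778000170001380000f000000000000000000000000000000000000000000000000000) (nat_lit 13)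
theorem c113909 : QOK q113909 := cut [q96758, q96836, q84365, q101985, q109763] ⟨c96758, c96836, c84365, c101985, c109763, trivial⟩ (nd (nat_lit 229) (nat_lit 0) (cs (rf (nat_lit 0)) (cs (rf (nat_lit 1)) (nd (nat_lit 297) (nat_lit 0) (cs (rf (nat_lit 2)) (cs (rf (nat_lit 3)) (rf (nat_lit 4)))))))) q113909 (by decide +kernel)
def q113962 : Q := Q.p (nat_lit 0x200000800002000000000000000000000000000000000000000000000000000000000000000) (nat_lit 0x300000c000008000f7c003de000f7c00058000160000000000000000000000000000000000000000000000) (nat_lit 13)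
theorem c113962 : QOK q113962 := cut [q88933, q109858, q1999, q2091, q99373, q112994, q81192, q109859, q113960] ⟨c88933, c109858, c1999, c2091, c99373, c112994, c81192, c109859, c113960, trivial⟩ (nd (nat_lit 252) (nat_lit 0) (cs (rf (nat_lit 0)) (cs (rf (nat_lit 1)) (cs (nd (nat_lit 251) (nat_lit 0) (cs (rf (nat_lit 2)) (cs (rf (nat_lit 3)) (cs (rf (nat_lit 4)) (rf (nat_lit 5)))))) (nd (nat_lit 254) (nat_lit 0) (cs (rf (nat_lit 6)) (cs (rf (nat_lit 7)) (rf (nat_lit 8))))))))) q113962 (by decide +kernel)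
def q113966 : Q := Q.p (nat_lit 0x200000800002000000000000000000000000000000000000000000000000000000000000000) (nat_lit 0x2000008000050000140000580007e0001f00001c0000500000000000000000000000000000000000000000) (nat_lit 8)
theorem c113966 : QOK q113966 := cut [q99252, q107861, q108258, q112791, q113871] ⟨c99252, c107861, c108258, c112791, c113871, trivial⟩ (nd (nat_lit 231) (nat_lit 0) (cs (rf (nat_lit 0)) (cs (rf (nat_lit 1)) (cs (rf (nat_lit 2)) (cs (rf (nat_lit 3)) (rf (nat_lit 4))))))) q113966 (by decide +kernel)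
def q113986 : Q := Q.p (nat_lit 0x800002000000000000000000000000000000000000000000000000000000000000000) (nat_lit 0x140000700001c0001f0001f7c003de000ffc007fe000740000000000000000000000000000000000000000000000) (nat_lit 12)
theorem c113986 : QOK q113986 := cut [q113159, q113161, q113162, q113173, q81192, q94689, q113476, q113505, q113466, q113974, q94715, q88933, q113960, q113983] ⟨c113159, c113161, c113162, c113173, c81192, c94689, c113476, c113505, c113466, c113974, c94715, c88933, c113960, c113983, trivial⟩ (nd (nat_lit 297) (nat_lit 0) (cs (rf (nat_lit 0)) (cs (rf (nat_lit 1)) (cs (rf (nat_lit 2)) (cs (rf (nat_lit 3)) (nd (nat_lit 254) (nat_lit 0) (cs (rf (nat_lit 4)) (cs (nd (nat_lit 255) (nat_lit 0) (cs (rf (nat_lit 5)) (cs (rf (nat_lit 6)) (cs (rf (nat_lit 7)) (nd (nat_lit 252) (nat_lit 0) (cs (rf (nat_lit 8)) (rf (nat_lit 9)))))))) (cs (nd (nat_lit 319) (nat_lit 0) (cs (lf (nat_lit 35) (nat_lit 231)) (nd (nat_lit 320) (nat_lit 0) (cs (lf (nat_lit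 29) (nat_lit 253)) (nd (nat_lit 318) (nat_lit 0) (cs (lf (nat_lit 41) (nat_lit 252)) (nd (nat_lit 252) (nat_lit 0) (cs (lf (nat_lit 47) (nat_lit 230)) (nd (nat_lit 274) (nat_lit 0) (cs (lf (nat_lit 42) (nat_lit 252)) (rf (nat_lit 10)))))))))))) (nd (nat_lit 252) (nat_lit 0) (cs (rf (nat_lit 11)) (cs (rf (nat_lit 12)) (rf (nat_lit 13)))))))))))))) q113986 (by decide +kernel)
def q114038 : Q := Q.p (nat_lit 0x300000c000000000000000000000000000000000000000000000000000000000) (nat_lit 0x1c00007800078000000000700001fe0001f8000700000000000000000000000000000000000000000) (nat_lit 12)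
theorem c114038 : QOK q114038 := cut [q79078, q110082, q114037] ⟨c79078, c110082, c114037, trivial⟩ (nd (nat_lit 275) (nat_lit 0) (cs (rf (nat_lit 0)) (cs (rf (nat_lit 1)) (rf (nat_lit 2))))) q114038 (by decide +kernel)
def q114043 : Q := Q.p (nat_lit 0x300000c000000000000000000000000000000000000000000000000000000000) (nat_lit 0xe000038000078000000003200003e0000e0000380000000000000000000000000000000000000000) (nat_lit 9)
theorem c114043 : QOK q114043 := cut [q79097, q105883, q110162] ⟨c79097, c105883, c110162, trivial⟩ (nd (nat_lit 274) (nat_lit 0) (cs (rf (nat_lit 0)) (cs (rf (nat_lit 1)) (rf (nat_lit 2))))) q114043 (by decide +kernel)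
def q114055 : Q := Q.p (nat_lit 0x300000c000000000000000000000000000000000000000000000000000000000) (nat_lit 0x700001d0000760001c0000738001e0000380000e00000000000000000000000000000000000000000) (nat_lit 11)
theorem c114055 : QOK q114055 := cut [q57663, q107511, q79028, q104284, q114046, q114050, q79101, q94096, q84852] ⟨c57663, c107511, c79028, c104284, c114046, c114050, c79101, c94096, c84852, trivial⟩ (nd (nat_lit 232) (nat_lit 0) (cs (rf (nat_lit 0)) (cs (rf (nat_lit 1)) (cs (nd (nat_lit 254) (nat_lit 0) (cs (rf (nat_lit 2)) (cs (rf (nat_lit 3)) (rf (nat_lit 4))))) (cs (rf (nat_lit 5)) (cs (nd (nat_lit 254) (nat_lit 0) (cs (rf (nat_lit 6)) (cs (rf (nat_lit 7)) (rf (nat_lit 3))))) (nd (nat_lit 233) (nat_lit 0) (cs (lf (nat_lit 6) (nat_lit 230)) (nd (nat_lit 255) (nat_lit 0) (cs (lf (nat_lit 5) (nat_lit 230)) (nd (nat_lit 229) (nat_lit 0) (cs (lf (nat_lit 4) (nat_lit 229)) (rf (nat_lit 8)))))))))))))) q114055 (by decide +kernel)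
def q114083 : Q := Q.p (nat_lit 0x3000004000000000000000000000000000000000000000000000000000000000) (nat_lit 0x80000380001e000078000ff0001c00007b8001f8000160000000000000000000000000000000000000000000000) (nat_lit 10)
theorem c114083 : QOK q114083 := cut [q79028, q79077, q79078, q79112, q110281, q79080, q22351, q110269, q110276, q83707, q114061, q79045, q82037, q82288, q110230, q97710] ⟨c79028, c79077, c79078, c79112, c110281, c79080, c22351, c110269, c110276, c83707, c114061, c79045, c82037, c82288, c110230, c97710, trivial⟩ (nd (nat_lit 254) (nat_lit 0) (cs (rf (nat_lit 0)) (cs (rf (nat_lit 1)) (cs (nd (nat_lit 275) (nat_lit 0) (cs (rf (nat_lit 2)) (cs (rf (nat_lit 3)) (cs (rf (nat_lit 4)) (nd (nat_lit 274) (nat_lit 0) (cs (rf (nat_lit 5)) (cs (nd (nat_lit 296) (nat_lit 0) (cs (rf (nat_lit 6)) (rf (nat_lit 7)))) (nd (nat_lit 272) (nat_lit 0) (cs (lf (nat_lit 13) (nat_lit 250)) (rf (nat_lit 8))))))))))) (nd (nat_lit 274) (nat_lit 0) (cs (rf (nat_lit 9))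 (cs (rf (nat_lit 10)) (cs (nd (nat_lit 296) (nat_lit 0) (cs (rf (nat_lit 11)) (cs (rf (nat_lit 12)) (rf (nat_lit 13))))) (nd (nat_lit 296) (nat_lit 0) (cs (rf (nat_lit 11)) (cs (rf (nat_lit 12)) (cs (rf (nat_lit 14)) (nd (nat_lit 209) (nat_lit 0) (cs (lf (nat_lit 34) (nat_lit 208)) (nd (nat_lit 297) (nat_lit 0) (cs (lf (nat_lit 29) (nat_lit 230)) (nd (nat_lit 275) (nat_lit 0) (cs (lf (nat_lit 24) (nat_lit 208)) (nd (nat_lit 255) (nat_lit 0) (cs (lf (nat_lit 6) (nat_lit 252)) (rf (nat_lit 15)))))))))))))))))))))) q114083 (by decide +kernel)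
def q114093 : Q := Q.p (nat_lit 0x300000c000000000000000000000000000000000000000000000000000000000) (nat_lit 0x200002c00018e000738001ce000120000480000000000000000000000000000000000000000) (nat_lit 9)
theorem c114093 : QOK q114093 := cut [q57663, q87131, q93601] ⟨c57663, c87131, c93601, trivial⟩ (nd (nat_lit 232) (nat_lit 0) (cs (rf (nat_lit 0)) (cs (rf (nat_lit 1)) (rf (nat_lit 2))))) q114093 (by decide +kernel)
def q114164 : Q := Q.p (nat_lit 0x300000e000000000000000000000000000000000000000000000000000000000) (nat_lit 0x100002c0001b80000e0000180001e000070000040000000000000000000000000000000000000000) (nat_lit 7)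
theorem c114164 : QOK q114164 := cut [q87919, q87928, q93698] ⟨c87919, c87928, c93698, trivial⟩ (nd (nat_lit 251) (nat_lit 0) (cs (rf (nat_lit 0)) (cs (rf (nat_lit 1)) (rf (nat_lit 2))))) q114164 (by decide +kernel)
def q114172 : Q := Q.p (nat_lit 0x300000c000000000000000000000000000000000000000000000000000000000) (nat_lit 0x180000780000c0003000007e0007e0000780000a00000000000000000000000000000000000) (nat_lit 8)
theorem c114172 : QOK q114172 := cut [q11005, q92011, q92012, q110304] ⟨c11005, c92011, c92012, c110304, trivial⟩ (nd (nat_lit 208) (nat_lit 0) (cs (rf (nat_lit 0)) (cs (rf (nat_lit 1)) (cs (rf (nat_lit 2)) (rf (nat_lit 3)))))) q114172 (by decide +kernel)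
def q114208 : Q := Q.p (nat_lit 0x800003000004000000000000000000000000000000000000000000000000000000000) (nat_lit 0x1e00007e0003700000e0007b8000ee0001a0000680000000000000000000000000000000000000000) (nat_lit 9)
theorem c114208 : QOK q114208 := cut [q87815, q90300, q92007, q79097, q91970, q98731] ⟨c87815, c90300, c92007, c79097, c91970, c98731, trivial⟩ (nd (nat_lit 231) (nat_lit 0) (cs (rf (nat_lit 0)) (cs (rf (nat_lit 1)) (cs (rf (nat_lit 2)) (nd (nat_lit 274) (nat_lit 0) (cs (rf (nat_lit 3)) (cs (rf (nat_lit 4)) (rf (nat_lit 5))))))))) q114208 (by decide +kernel)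
def q114245 : Q := Q.p (nat_lit 0x3000004000010000000000000000000000000000000000000000000000000000) (nat_lit 0x200000e000038000060000080000a000008000060000180000200000000000000000000000000000000000) (nat_lit 7)
theorem c114245 : QOK q114245 := cut [q88116, q110187] ⟨c88116, c110187, trivial⟩ (nd (nat_lit 185) (nat_lit 0) (cs (rf (nat_lit 0)) (cs (rf (nat_lit 1)) (nd (nat_lit 163) (nat_lit 0) (cs (lf (nat_lit 45) (nat_lit 163)) (nd (nat_lit 207) (nat_lit 0) (cs (lf (nat_lit 42) (nat_lit 185)) (lf (nat_lit 24) (nat_lit 141))))))))) q114245 (by decide +kernel)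
def q114267 : Q := Q.p (nat_lit 0x3800000000000000000000000000000000000000000000000000000000000000) (nat_lit 0xe0000380000e00007f0000c00007b0000e0000380000e00002800000000000000000000000000000000000) (nat_lit 13)
theorem c114267 : QOK q114267 := cut [q79020, q110511, q105829, q114266] ⟨c79020, c110511, c105829, c114266, trivial⟩ (nd (nat_lit 254) (nat_lit 0) (cs (rf (nat_lit 0)) (cs (rf (nat_lit 1)) (cs (nd (nat_lit 228) (nat_lit 0) (cs (lf (nat_lit 22) (nat_lit 228)) (rf (nat_lit 2)))) (rf (nat_lit 3)))))) q114267 (by decide +kernel)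
def q114268 : Q := Q.p (nat_lit 0x3800000000000000000000000000000000000000000000000000000000000000) (nat_lit 0xf80003e0001fc000060001bc0000e0000380000e0000280000000000000000000000000000000000) (nat_lit 15)
theorem c114268 : QOK q114268 := cut [q2623, q3764, q40524, q92599] ⟨c2623, c3764, c40524, c92599, trivial⟩ (nd (nat_lit 250) (nat_lit 0) (cs (rf (nat_lit 0)) (cs (rf (nat_lit 1)) (cs (rf (nat_lit 2)) (rf (nat_lit 3)))))) q114268 (by decide +kernel)
def q114269 : Q := Q.p (nat_lit 0x3800000000000000000000000000000000000000000000000000000000000000) (nat_lit 0x40000378000c40007b800020000080000000000000000000000000000000000000000000000) (nat_lit 7)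
theorem c114269 : QOK q114269 := cut [q79020, q79201, q79204] ⟨c79020, c79201, c79204, trivial⟩ (nd (nat_lit 254) (nat_lit 0) (cs (rf (nat_lit 0)) (cs (rf (nat_lit 1)) (rf (nat_lit 2))))) q114269 (by decide +kernel)
def q114292 : Q := Q.p (nat_lit 0x3800000000000000000000000000000000000000000000000000000000000000) (nat_lit 0x100001c0000700001c000770000c000037c0001c0000700001c0000000000000000000000000000000000000000) (nat_lit 9)
theorem c114292 : QOK q114292 := cut [q89844, q114287, q98765, q98762] ⟨c89844, c114287, c98765, c98762, trivial⟩ (nd (nat_lit 273) (nat_lit 0) (cs (rf (nat_lit 0)) (cs (rf (nat_lit 1)) (cs (nd (nat_lit 254) (nat_lit 0) (cs (lf (nat_lit 11) (nat_lit 250)) (nd (nat_lit 232) (nat_lit 0) (cs (lf (nat_lit 17) (nat_lit 229)) (rf (nat_lit 2)))))) (nd (nat_lit 254) (nat_lit 0) (cs (lf (nat_lit 11) (nat_lit 250)) (nd (nat_lit 232) (nat_lit 0) (cs (lf (nat_lit 17) (nat_lit 229)) (rf (nat_lit 3)))))))))) q114292 (by decide +kernel)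
def q114313 : Q := Q.p (nat_lit 0x3000000000000000000000000000000000000000000000000000000000000000) (nat_lit 0xe00003b0000ec0007bc000ce0007fc000fe0003f8000fe0002800000000000000000000000000000000000) (nat_lit 16)
theorem c114313 : QOK q114313 := cut [q110543, q114270, q114293, q92326, q105829, q114266, q2623, q89826, q93508, q23543, q89927, q90457] ⟨c110543, c114270, c114293, c92326, c105829, c114266, c2623, c89826, c93508, c23543, c89927, c90457, trivial⟩ (nd (nat_lit 251) (nat_lit 0) (cs (rf (nat_lit 0)) (cs (rf (nat_lit 1)) (cs (rf (nat_lit 2)) (cs (nd (nat_lit 254) (nat_lit 0) (cs (rf (nat_lit 3)) (cs (rf (nat_lit 4)) (rf (nat_lit 5))))) (cs (nd (nat_lit 250) (nat_lit 0) (cs (rf (nat_lit 6)) (cs (rf (nat_lit 7)) (cs (rf (nat_lit 8)) (nd (nat_lit 275) (nat_lit 0) (cs (lf (nat_lit 5) (nat_lit 250)) (rf (nat_lit 9)))))))) (nd (nat_lit 250) (nat_lit 0) (cs (rf (nat_lit 6)) (cs (rf (nat_lit 10)) (nd (nat_lit 231) (nat_lit 0) (cs (lf (nat_lit 17) (nat_lit 228))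 (nd (nat_lit 230) (nat_lit 0) (cs (lf (nat_lit 12) (nat_lit 227)) (nd (nat_lit 228) (nat_lit 0) (cs (lf (nat_lit 23) (nat_lit 227)) (nd (nat_lit 229) (nat_lit 0) (cs (lf (nat_lit 18) (nat_lit 228)) (nd (nat_lit 205) (nat_lit 0) (cs (lf (nat_lit 22) (nat_lit 205)) (nd (nat_lit 209) (nat_lit 0) (cs (lf (nat_lit 17) (nat_lit 206)) (nd (nat_lit 187) (nat_lit 0) (cs (lf (nat_lit 36) (nat_lit 164)) (nd (nat_lit 166) (nat_lit 0) (cs (lf (nat_lit 34) (nat_lit 165)) (nd (nat_lit 186) (nat_lit 0) (cs (lf (nat_lit 47) (nat_lit 164)) (nd (nat_lit 208) (nat_lit 0) (cs (lf (nat_lit 41) (nat_lit 185)) (rf (nat_lit 11))))))))))))))))))))))))))))))) q114313 (by decide +kernel)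
def q114328 : Q := Q.p (nat_lit 0x3800000000000000000000000000000000000000000000000000000000000000) (nat_lit 0x800073e001c7000efe00010000040000000000000000000000000000000000000000000000) (nat_lit 10)
theorem c114328 : QOK q114328 := cut [q2623, q85540, q85549, q85555, q114318, q114325] ⟨c2623, c85540, c85549, c85555, c114318, c114325, trivial⟩ (nd (nat_lit 250) (nat_lit 0) (cs (rf (nat_lit 0)) (cs (rf (nat_lit 1)) (cs (rf (nat_lit 2)) (cs (rf (nat_lit 3)) (cs (nd (nat_lit 227) (nat_lit 0) (cs (lf (nat_lit 22) (nat_lit 227)) (nd (nat_lit 249) (nat_lit 0) (cs (lf (nat_lit 23) (nat_lit 226)) (rf (nat_lit 4)))))) (nd (nat_lit 272) (nat_lit 0) (cs (lf (nat_lit 11) (nat_lit 249)) (nd (nat_lit 227) (nat_lit 0) (cs (lf (nat_lit 22) (nat_lit 227)) (rf (nat_lit 5)))))))))))) q114328 (by decide +kernel)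
def q114345 : Q := Q.p (nat_lit 0x7000004000000000000000000000000000000000000000000000000000000000) (nat_lit 0xe00003e0000f8000ff0000080007b8000ec000390000e00000000000000000000000000000000000000000) (nat_lit 11)
theorem c114345 : QOK q114345 := cut [q106114, q79026, q81406, q114331, q114338, q80905, q87131, q107158, q114046] ⟨c106114, c79026, c81406, c114331, c114338, c80905, c87131, c107158, c114046, trivial⟩ (nd (nat_lit 276) (nat_lit 0) (cs (rf (nat_lit 0)) (cs (nd (nat_lit 229) (nat_lit 0) (cs (rf (nat_lit 1)) (cs (rf (nat_lit 2)) (nd (nat_lit 251) (nat_lit 0) (cs (lf (nat_lit 5) (nat_lit 251)) (rf (nat_lit 3))))))) (cs (rf (nat_lit 4)) (nd (nat_lit 231) (nat_lit 0) (cs (rf (nat_lit 5)) (cs (nd (nat_lit 232) (nat_lit 0) (cs (rf (nat_lit 6)) (nd (nat_lit 298) (nat_lit 0) (cs (lf (nat_lit 42) (nat_lit 231)) (nd (nat_lit 228) (nat_lit 0) (cs (lf (nat_lit 1) (nat_lit 228)) (rf (nat_lit 7)))))))) (nd (nat_lit 232) (nat_lit 0) (cs (rf (nat_lit 6)) (rf (nat_lit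 8))))))))))) q114345 (by decide +kernel)
def q114398 : Q := Q.p (nat_lit 0x400007000000000000000000000000000000000000000000000000000000000000000) (nat_lit 0xf80007f0001fe0007b8000000001c0000700000c0000200000000000000000000000000000000000000000) (nat_lit 11)
theorem c114398 : QOK q114398 := cut [q80649, q81820, q112575, q91386, q91797, q91799, q112561, q112563, q101980, q86717, q112567] ⟨c80649, c81820, c112575, c91386, c91797, c91799, c112561, c112563, c101980, c86717, c112567, trivial⟩ (nd (nat_lit 296) (nat_lit 0) (cs (rf (nat_lit 0)) (cs (rf (nat_lit 1)) (cs (rf (nat_lit 2)) (nd (nat_lit 297) (nat_lit 0) (cs (rf (nat_lit 3)) (cs (rf (nat_lit 4)) (cs (rf (nat_lit 5)) (cs (nd (nat_lit 275) (nat_lit 0) (cs (rf (nat_lit 6)) (cs (rf (nat_lit 7)) (nd (nat_lit 208) (nat_lit 0) (cs (lf (nat_lit 25) (nat_lit 208)) (nd (nat_lit 272) (nat_lit 0) (cs (lf (nat_lit 13) (nat_lit 250)) (nd (nat_lit 231) (nat_lit 0) (cs (lf (nat_lit 36) (nat_lit 208)) (nd (nat_lit 232)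 (nat_lit 0) (cs (lf (nat_lit 35) (nat_lit 209)) (rf (nat_lit 8))))))))))))) (nd (nat_lit 275) (nat_lit 0) (cs (rf (nat_lit 9)) (cs (rf (nat_lit 7)) (rf (nat_lit 10)))))))))))))) q114398 (by decide +kernel)
def q114430 : Q := Q.p (nat_lit 0x3800000000000000000000000000000000000000000000000000000000000000) (nat_lit 0x7fc001c7000eee00000000000000000000000000000000000000000000000000000000) (nat_lit 8)
theorem c114430 : QOK q114430 := cut [q91225, q106421, q114325] ⟨c91225, c106421, c114325, trivial⟩ (nd (nat_lit 272) (nat_lit 0) (cs (rf (nat_lit 0)) (cs (rf (nat_lit 1)) (rf (nat_lit 2))))) q114430 (by decide +kernel)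
def q114510 : Q := Q.p (nat_lit 0x7000000000000000000000000000000000000000000000000000000000000000) (nat_lit 0x800003c0001f80007c00018e0001f8000fc0007e0000780000a00000000000000000000000000000000000) (nat_lit 12)
theorem c114510 : QOK q114510 := cut [q79028, q81409, q110584, q79078, q79112, q81379, q81382, q110082, q81211] ⟨c79028, c81409, c110584, c79078, c79112, c81379, c81382, c110082, c81211, trivial⟩ (nd (nat_lit 230) (nat_lit 0) (cs (rf (nat_lit 0)) (cs (rf (nat_lit 1)) (cs (rf (nat_lit 2)) (nd (nat_lit 275) (nat_lit 0) (cs (rf (nat_lit 3)) (cs (rf (nat_lit 4)) (cs (rf (nat_lit 5)) (nd (nat_lit 231) (nat_lit 0) (cs (rf (nat_lit 6)) (cs (rf (nat_lit 7)) (nd (nat_lit 297) (nat_lit 0) (cs (lf (nat_lit 42) (nat_lit 230)) (rf (nat_lit 8))))))))))))))) q114510 (by decide +kernel)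
def q114524 : Q := Q.p (nat_lit 0x80000f000004000010000000000000000000000000000000000000000000000000000) (nat_lit 0x300000c000074000000000780001e8000720001880000200000000000000000000000000000000000) (nat_lit 12)
theorem c114524 : QOK q114524 := cut [q81028, q106606, q110793] ⟨c81028, c106606, c110793, trivial⟩ (nd (nat_lit 232) (nat_lit 0) (cs (rf (nat_lit 0)) (cs (rf (nat_lit 1)) (rf (nat_lit 2))))) q114524 (by decide +kernel)
def q114626 : Q := Q.p (nat_lit 0x3800000000000000000000000000000000000000000000000000000000000000) (nat_lit 0x700003c00007c0007dc000060007e0000700001c0000500000000000000000000000000000000000000000) (nat_lit 11)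
theorem c114626 : QOK q114626 := cut [q1999, q24207, q88933, q109625, q110081, q32035, q99488, q114616, q81218, q82275, q106743, q114624] ⟨c1999, c24207, c88933, c109625, c110081, c32035, c99488, c114616, c81218, c82275, c106743, c114624, trivial⟩ (nd (nat_lit 275) (nat_lit 0) (cs (rf (nat_lit 0)) (cs (rf (nat_lit 1)) (cs (nd (nat_lit 297) (nat_lit 0) (cs (rf (nat_lit 2)) (cs (nd (nat_lit 231) (nat_lit 0) (cs (rf (nat_lit 3)) (rf (nat_lit 4)))) (nd (nat_lit 318) (nat_lit 0) (cs (rf (nat_lit 5)) (cs (nd (nat_lit 319) (nat_lit 0) (cs (lf (nat_lit 41) (nat_lit 252)) (rf (nat_lit 6)))) (cs (rf (nat_lit 7)) (nd (nat_lit 319) (nat_lit 0) (cs (lf (nat_lit 41) (nat_lit 252)) (nd (nat_lit 274) (nat_lit 0) (cs (lf (nat_lit 42) (nat_lit 252)) (nd (nat_lit 276) (nat_lit 0) (cs (lf (nat_lit 18) (nat_lit 251)) (nd (nat_lit 320) (nat_lit 0) (cs (lf (nat_lit 29) (nat_lit 253)) (nd (nat_lit 296) (nat_lit 0) (cs (lf (nat_lit 47) (nat_lit 229)) (rf (nat_lit 8)))))))))))))))))))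 (nd (nat_lit 231) (nat_lit 0) (cs (rf (nat_lit 9)) (cs (rf (nat_lit 10)) (rf (nat_lit 11))))))))) q114626 (by decide +kernel)
def q114628 : Q := Q.p (nat_lit 0x80000200003800000000000000000000000000000000000000000000000000000000000000) (nat_lit 0x700003d0000f70003dc000000000e0000380000c0000000000000000000000000000000000000000000000) (nat_lit 10)
theorem c114628 : QOK q114628 := cut [q106758, q106759, q106771, q110814, q80649, q106762, q106767] ⟨c106758, c106759, c106771, c110814, c80649, c106762, c106767, trivial⟩ (nd (nat_lit 296) (nat_lit 0) (cs (rf (nat_lit 0)) (cs (rf (nat_lit 1)) (cs (rf (nat_lit 2)) (cs (rf (nat_lit 3)) (nd (nat_lit 274) (nat_lit 0) (cs (rf (nat_lit 4)) (cs (rf (nat_lit 5)) (rf (nat_lit 6)))))))))) q114628 (by decide +kernel)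
def q114663 : Q := Q.p (nat_lit 0x7000000000000000000000000000000000000000000000000000000000000000) (nat_lit 0x1c00007c0018e0001fc000380000e0000000000000000000000000000000000000000000000) (nat_lit 9)
theorem c114663 : QOK q114663 := cut [q79201, q81492, q86771, q86778, q92326, q114560] ⟨c79201, c81492, c86771, c86778, c92326, c114560, trivial⟩ (nd (nat_lit 251) (nat_lit 0) (cs (rf (nat_lit 0)) (cs (rf (nat_lit 1)) (cs (rf (nat_lit 2)) (cs (rf (nat_lit 3)) (cs (rf (nat_lit 4)) (rf (nat_lit 5)))))))) q114663 (by decide +kernel)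
def q114685 : Q := Q.p (nat_lit 0x3800000000000000000000000000000000000000000000000000000000000000) (nat_lit 0x100001c0000700003ee000070007fc0007e0001f8000780001400000000000000000000000000000000000) (nat_lit 12)
theorem c114685 : QOK q114685 := cut [q82275, q96402, q82300, q82301, q82309, q88895, q91430, q105164, q2091, q114431, q114624] ⟨c82275, c96402, c82300, c82301, c82309, c88895, c91430, c105164, c2091, c114431, c114624, trivial⟩ (nd (nat_lit 231) (nat_lit 0) (cs (rf (nat_lit 0)) (cs (rf (nat_lit 1)) (cs (nd (nat_lit 209) (nat_lit 0) (cs (rf (nat_lit 2)) (cs (rf (nat_lit 3)) (cs (rf (nat_lit 4)) (cs (rf (nat_lit 5)) (nd (nat_lit 275) (nat_lit 0) (cs (rf (nat_lit 6)) (nd (nat_lit 186) (nat_lit 0) (cs (lf (nat_lit 46) (nat_lit 186)) (rf (nat_lit 7))))))))))) (nd (nat_lit 275) (nat_lit 0) (cs (rf (nat_lit 8)) (cs (rf (nat_lit 9)) (rf (nat_lit 10))))))))) q114685 (by decide +kernel)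
def q114689 : Q := Q.p (nat_lit 0x3800002000000000000000000000000000000000000000000000000000000000) (nat_lit 0x80000f80003e0000000003dc000ff0007f00003c0000d00000000000000000000000000000000000) (nat_lit 12)
theorem c114689 : QOK q114689 := cut [q5482, q11484, q80450, q82226, q1832, q92647, q110972, q5353, q6259, q106852, q110299] ⟨c5482, c11484, c80450, c82226, c1832, c92647, c110972, c5353, c6259, c106852, c110299, trivial⟩ (nd (nat_lit 207) (nat_lit 0) (cs (rf (nat_lit 0)) (cs (rf (nat_lit 1)) (cs (rf (nat_lit 2)) (cs (rf (nat_lit 3)) (nd (nat_lit 208) (nat_lit 0) (cs (rf (nat_lit 4)) (cs (rf (nat_lit 5)) (cs (rf (nat_lit 6)) (nd (nat_lit 230) (nat_lit 0) (cs (rf (nat_lit 7)) (cs (rf (nat_lit 8)) (cs (rf (nat_lit 9)) (rf (nat_lit 10))))))))))))))) q114689 (by decide +kernel)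
def q114753 : Q := Q.p (nat_lit 0x800003000000000000000000000000000000000000000000000000000000000000000) (nat_lit 0x900002400073f000cf80077c0004a000128000000000000000000000000000000000000000000000) (nat_lit 11)
theorem c114753 : QOK q114753 := cut [q2066, q89735, q114744, q114746, q107141, q114752] ⟨c2066, c89735, c114744, c114746, c107141, c114752, trivial⟩ (nd (nat_lit 251) (nat_lit 0) (cs (rf (nat_lit 0)) (cs (rf (nat_lit 1)) (cs (nd (nat_lit 254) (nat_lit 0) (cs (rf (nat_lit 2)) (cs (rf (nat_lit 3)) (nd (nat_lit 272) (nat_lit 0) (cs (lf (nat_lit 10) (nat_lit 250)) (rf (nat_lit 4))))))) (rf (nat_lit 5)))))) q114753 (by decide +kernel)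
def q114758 : Q := Q.p (nat_lit 0xc00003000000000000000000000000000000000000000000000000000000000000000) (nat_lit 0x380000e00007e00003800040000070000f80000e0000000000000000000000000000000000000000000000) (nat_lit 9)
theorem c114758 : QOK q114758 := cut [q79068, q110353, q83734, q98862, q105303] ⟨c79068, c110353, c83734, c98862, c105303, trivial⟩ (nd (nat_lit 230) (nat_lit 0) (cs (rf (nat_lit 0)) (cs (rf (nat_lit 1)) (nd (nat_lit 296) (nat_lit 0) (cs (rf (nat_lit 2)) (cs (rf (nat_lit 3)) (rf (nat_lit 4)))))))) q114758 (by decide +kernel)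
def q114792 : Q := Q.p (nat_lit 0x800003000000000000000000000000000000000000000000000000000000000000000) (nat_lit 0x48000120000dc000f7c003ce000f7c0005c0001700001c0000500000000000000000000000000000000000) (nat_lit 14)
theorem c114792 : QOK q114792 := cut [q1999, q2066, q2091, q114741, q98529, q107141, q112949, q112985, q114746] ⟨c1999, c2066, c2091, c114741, c98529, c107141, c112949, c112985, c114746, trivial⟩ (nd (nat_lit 251) (nat_lit 0) (cs (rf (nat_lit 0)) (cs (rf (nat_lit 1)) (cs (rf (nat_lit 2)) (cs (rf (nat_lit 3)) (nd (nat_lit 254) (nat_lit 0) (cs (rf (nat_lit 4)) (cs (rf (nat_lit 5)) (cs (rf (nat_lit 6)) (cs (rf (nat_lit 7)) (rf (nat_lit 8)))))))))))) q114792 (by decide +kernel)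
def q114796 : Q := Q.p (nat_lit 0x200000800003000000000000000000000000000000000000000000000000000000000000000) (nat_lit 0xf5c001ce00077c00050000040000000000000000000000000000000000000000000000) (nat_lit 10)
theorem c114796 : QOK q114796 := cut [q1999, q2066, q114793, q85524, q114275, q95551, q108259] ⟨c1999, c2066, c114793, c85524, c114275, c95551, c108259, trivial⟩ (nd (nat_lit 251) (nat_lit 0) (cs (rf (nat_lit 0)) (cs (rf (nat_lit 1)) (cs (rf (nat_lit 2)) (nd (nat_lit 254) (nat_lit 0) (cs (rf (nat_lit 3)) (cs (rf (nat_lit 4)) (cs (nd (nat_lit 229) (nat_lit 0) (cs (lf (nat_lit 23) (nat_lit 228)) (nd (nat_lit 276) (nat_lit 0) (cs (lf (nat_lit 5) (nat_lit 251)) (rf (nat_lit 5)))))) (nd (nat_lit 228) (nat_lit 0) (cs (lf (nat_lit 22) (nat_lit 228)) (rf (nat_lit 6)))))))))))) q114796 (by decide +kernel)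
def q114837 : Q := Q.p (nat_lit 0x800003000000000000000000000000000000000000000000000000000000000000000) (nat_lit 0x9000024001d7f003cf800f7c0005a000168000000000000000000000000000000000000000000000) (nat_lit 11)
theorem c114837 : QOK q114837 := cut [q1999, q2091, q114752, q95976, q114744, q99497] ⟨c1999, c2091, c114752, c95976, c114744, c99497, trivial⟩ (nd (nat_lit 251) (nat_lit 0) (cs (rf (nat_lit 0)) (cs (rf (nat_lit 1)) (cs (rf (nat_lit 2)) (nd (nat_lit 254) (nat_lit 0) (cs (rf (nat_lit 3)) (cs (rf (nat_lit 4)) (nd (nat_lit 229) (nat_lit 0) (cs (lf (nat_lit 23) (nat_lit 228)) (nd (nat_lit 272) (nat_lit 0) (cs (lf (nat_lit 10) (nat_lit 250)) (nd (nat_lit 230) (nat_lit 0) (cs (lf (nat_lit 18) (nat_lit 229)) (rf (nat_lit 5))))))))))))))) q114837 (by decide +kernel)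
def q114878 : Q := Q.p (nat_lit 0x200000800003000000000000000000000000000000000000000000000000000000000000000) (nat_lit 0x8000010000770001c8000f3000048000120000000000000000000000000000000000000000000000) (nat_lit 8)
theorem c114878 : QOK q114878 := cut [q81192, q109859, q114877] ⟨c81192, c109859, c114877, trivial⟩ (nd (nat_lit 254) (nat_lit 0) (cs (rf (nat_lit 0)) (cs (rf (nat_lit 1)) (rf (nat_lit 2))))) q114878 (by decide +kernel)
def q114886 : Q := Q.p (nat_lit 0x800003000000000000000000000000000000000000000000000000000000000000000) (nat_lit 0x3f8000ff0003fc000760003cc000770000d0000240000000000000000000000000000000000000000000000) (nat_lit 13)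
theorem c114886 : QOK q114886 := cut [q88933, q108281, q114831, q88742, q104510, q108282, q114880, q95552, q14688, q113288, q114865] ⟨c88933, c108281, c114831, c88742, c104510, c108282, c114880, c95552, c14688, c113288, c114865, trivial⟩ (nd (nat_lit 297) (nat_lit 0) (cs (rf (nat_lit 0)) (cs (rf (nat_lit 1)) (cs (rf (nat_lit 2)) (nd (nat_lit 276) (nat_lit 0) (cs (rf (nat_lit 3)) (cs (rf (nat_lit 4)) (cs (nd (nat_lit 254) (nat_lit 0) (cs (rf (nat_lit 5)) (cs (rf (nat_lit 6)) (nd (nat_lit 251) (nat_lit 0) (cs (lf (nat_lit 0) (nat_lit 250)) (rf (nat_lit 7))))))) (nd (nat_lit 277) (nat_lit 0) (cs (lf (nat_lit 18) (nat_lit 252)) (nd (nat_lit 274) (nat_lit 0) (cs (rf (nat_lit 8)) (cs (rf (nat_lit 9)) (rf (nat_lit 10))))))))))))))) q114886 (by decide +kernel)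
def q114888 : Q := Q.p (nat_lit 0x800003000000000000000000000000000000000000000000000000000000000000000) (nat_lit 0x8000030000f7c001ce00073c00048000120000000000000000000000000000000000000000000000) (nat_lit 10)
theorem c114888 : QOK q114888 := cut [q1999, q2066, q2091, q114793, q96398, q114744] ⟨c1999, c2066, c2091, c114793, c96398, c114744, trivial⟩ (nd (nat_lit 251) (nat_lit 0) (cs (rf (nat_lit 0)) (cs (rf (nat_lit 1)) (cs (rf (nat_lit 2)) (cs (rf (nat_lit 3)) (nd (nat_lit 254) (nat_lit 0) (cs (rf (nat_lit 4)) (rf (nat_lit 5))))))))) q114888 (by decide +kernel)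
def q114908 : Q := Q.p (nat_lit 0x800003000000000000000000000000000000000000000000000000000000000000000) (nat_lit 0x3f8000ff0003fc000778003cc000f40000d0000240000000000000000000000000000000000000000000000) (nat_lit 13)
theorem c114908 : QOK q114908 := cut [q88933, q108281, q114831, q88742, q104510, q114867, q108282, q110639, q110655, q114880] ⟨c88933, c108281, c114831, c88742, c104510, c114867, c108282, c110639, c110655, c114880, trivial⟩ (nd (nat_lit 297) (nat_lit 0) (cs (rf (nat_lit 0)) (cs (rf (nat_lit 1)) (cs (rf (nat_lit 2)) (nd (nat_lit 276) (nat_lit 0) (cs (rf (nat_lit 3)) (cs (rf (nat_lit 4)) (cs (rf (nat_lit 5)) (nd (nat_lit 254) (nat_lit 0) (cs (rf (nat_lit 6)) (cs (rf (nat_lit 7)) (cs (rf (nat_lit 8)) (rf (nat_lit 9)))))))))))))) q114908 (by decide +kernel)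
def q114993 : Q := Q.p (nat_lit 0xc00002000000000000000000000000000000000000000000000000000000000000000) (nat_lit 0x380001e0000de000f1c001de0007fc000fe0003f0000400000000000000000000000000000000000000000) (nat_lit 14)
theorem c114993 : QOK q114993 := cut [q1999, q114941, q114950, q11506, q98392, q80993, q105261, q114948, q114793, q108372, q88741, q114954, q98738, q114947, q56839, q114201, q114972, q25707, q86391, q14954, q111615, q92276, q114984] ⟨c1999, c114941, c114950, c11506, c98392, c80993, c105261, c114948, c114793, c108372, c88741, c114954, c98738, c114947, c56839, c114201, c114972, c25707, c86391, c14954, c111615, c92276, c114984, trivial⟩ (nd (nat_lit 252) (nat_lit 0) (cs (nd (nat_lit 251) (nat_lit 0) (cs (rf (nat_lit 0)) (rf (nat_lit 1)))) (cs (rf (nat_lit 2)) (cs (nd (nat_lit 296) (nat_lit 0) (cs (rf (nat_lit 3)) (cs (rf (nat_lit 4)) (nd (nat_lit 230) (nat_lit 0) (cs (rf (nat_lit 5)) (cs (rf (nat_lit 6)) (rf (nat_lit 7)))))))) (cs (nd (nat_lit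 251) (nat_lit 0) (cs (rf (nat_lit 0)) (cs (rf (nat_lit 8)) (nd (nat_lit 254) (nat_lit 0) (cs (rf (nat_lit 9)) (cs (nd (nat_lit 276) (nat_lit 0) (cs (rf (nat_lit 10)) (nd (nat_lit 232) (nat_lit 0) (cs (lf (nat_lit 17) (nat_lit 229)) (nd (nat_lit 210) (nat_lit 0) (cs (lf (nat_lit 36) (nat_lit 187)) (nd (nat_lit 228) (nat_lit 0) (cs (lf (nat_lit 22) (nat_lit 228)) (rf (nat_lit 11)))))))))) (nd (nat_lit 255) (nat_lit 0) (cs (lf (nat_lit 6) (nat_lit 252)) (rf (nat_lit 12)))))))))) (cs (nd (nat_lit 296) (nat_lit 0) (cs (rf (nat_lit 3)) (cs (rf (nat_lit 13)) (nd (nat_lit 230) (nat_lit 0) (cs (rf (nat_lit 5)) (cs (rf (nat_lit 7)) (nd (nat_lit 231) (nat_lit 0) (cs (rf (nat_lit 14)) (rf (nat_lit 15)))))))))) (cs (nd (nat_lit 251) (nat_lit 0) (cs (rf (nat_lit 0)) (cs (rf (nat_lit 8)) (rf (nat_lit 16))))) (nd (nat_lit 296) (nat_lit 0) (cs (rf (nat_lit 3)) (cs (rf (nat_lit 17)) (nd (nat_lit 254) (nat_lit 0) (cs (rf (nat_lit 18)) (cs (nd (nat_lit 276) (nat_lit 0) (cs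 (rf (nat_lit 19)) (nd (nat_lit 209) (nat_lit 0) (cs (lf (nat_lit 37) (nat_lit 208)) (nd (nat_lit 251) (nat_lit 0) (cs (lf (nat_lit 0) (nat_lit 250)) (nd (nat_lit 232) (nat_lit 0) (cs (lf (nat_lit 17) (nat_lit 229)) (rf (nat_lit 20)))))))))) (cs (nd (nat_lit 209) (nat_lit 0) (cs (lf (nat_lit 37) (nat_lit 208)) (nd (nat_lit 255) (nat_lit 0) (cs (lf (nat_lit 6) (nat_lit 252)) (nd (nat_lit 233) (nat_lit 0) (cs (lf (nat_lit 17) (nat_lit 230)) (nd (nat_lit 232) (nat_lit 0) (cs (lf (nat_lit 12) (nat_lit 229)) (nd (nat_lit 210) (nat_lit 0) (cs (lf (nat_lit 36) (nat_lit 187)) (rf (nat_lit 21)))))))))))) (cs (nd (nat_lit 255) (nat_lit 0) (cs (lf (nat_lit 6) (nat_lit 252)) (nd (nat_lit 233) (nat_lit 0) (cs (lf (nat_lit 17) (nat_lit 230)) (nd (nat_lit 209) (nat_lit 0) (cs (lf (nat_lit 37) (nat_lit 208)) (rf (nat_lit 22)))))))) (nd (nat_lit 255) (nat_lit 0) (cs (lf (nat_lit 6) (nat_lit 252)) (nd (nat_lit 277) (nat_lit 0) (cs (lf (nat_lit 5) (nat_lit 252)) (nd (nat_lit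 276) (nat_lit 0) (cs (lf (nat_lit 23) (nat_lit 251)) (lf (nat_lit 11) (nat_lit 273))))))))))))))))))))))) q114993 (by decide +kernel)
def q115046 : Q := Q.p (nat_lit 0xc00002000000000000000000000000000000000000000000000000000000000000000) (nat_lit 0xc0000340003df000f38003d70007e0000fc0003e0000500000000000000000000000000000000000000000) (nat_lit 12)
theorem c115046 : QOK q115046 := cut [q98134, q97408, q114931, q12673, q13256, q54907, q107022, q54904, q107326, q112779, q115024, q115045] ⟨c98134, c97408, c114931, c12673, c13256, c54907, c107022, c54904, c107326, c112779, c115024, c115045, trivial⟩ (nd (nat_lit 231) (nat_lit 0) (cs (rf (nat_lit 0)) (cs (nd (nat_lit 273) (nat_lit 0) (cs (rf (nat_lit 1)) (cs (rf (nat_lit 2)) (cs (nd (nat_lit 272) (nat_lit 0) (cs (rf (nat_lit 3)) (cs (rf (nat_lit 4)) (cs (rf (nat_lit 5)) (rf (nat_lit 6)))))) (nd (nat_lit 276) (nat_lit 0) (cs (rf (nat_lit 7)) (cs (rf (nat_lit 8)) (cs (rf (nat_lit 9)) (rf (nat_lit 10)))))))))) (rf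 (nat_lit 11))))) q115046 (by decide +kernel)
def q115086 : Q := Q.p (nat_lit 0xc00002000000000000000000000000000000000000000000000000000000000000000) (nat_lit 0x340003dc000f20003dc000ff0000f80003e0000500000000000000000000000000000000000000000) (nat_lit 11)
theorem c115086 : QOK q115086 := cut [q98134, q99646, q108489, q115061, q115052, q115064, q109274, q700, q97534, q40801, q79289, q115049, q103858, q115081, q91107, q98356, q101724, q115084] ⟨c98134, c99646, c108489, c115061, c115052, c115064, c109274, c700, c97534, c40801, c79289, c115049, c103858, c115081, c91107, c98356, c101724, c115084, trivial⟩ (nd (nat_lit 231) (nat_lit 0) (cs (rf (nat_lit 0)) (cs (rf (nat_lit 1)) (cs (nd (nat_lit 254) (nat_lit 0) (cs (rf (nat_lit 2)) (cs (rf (nat_lit 3)) (cs (nd (nat_lit 276) (nat_lit 0) (cs (rf (nat_lit 4)) (cs (rf (nat_lit 5)) (cs (nd (nat_lit 298) (nat_lit 0) (cs (lf (nat_lit 42) (nat_lit 231)) (nd (nat_lit 299) (nat_lit 0) (cs (lf (nat_lit 0) (nat_lit 273))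 (nd (nat_lit 232) (nat_lit 0) (cs (lf (nat_lit 29) (nat_lit 232)) (nd (nat_lit 188) (nat_lit 0) (cs (lf (nat_lit 37) (nat_lit 187)) (rf (nat_lit 6)))))))))) (nd (nat_lit 252) (nat_lit 0) (cs (rf (nat_lit 7)) (cs (rf (nat_lit 8)) (nd (nat_lit 251) (nat_lit 0) (cs (lf (nat_lit 0) (nat_lit 250)) (nd (nat_lit 296) (nat_lit 0) (cs (lf (nat_lit 30) (nat_lit 230)) (nd (nat_lit 229) (nat_lit 0) (cs (rf (nat_lit 9)) (lf (nat_lit 23) (nat_lit 228))))))))))))))) (cs (nd (nat_lit 276) (nat_lit 0) (cs (rf (nat_lit 10)) (cs (rf (nat_lit 5)) (nd (nat_lit 277) (nat_lit 0) (cs (rf (nat_lit 11)) (nd (nat_lit 256) (nat_lit 0) (cs (lf (nat_lit 7) (nat_lit 252)) (rf (nat_lit 12))))))))) (rf (nat_lit 13))))))) (nd (nat_lit 276) (nat_lit 0) (cs (rf (nat_lit 14)) (cs (rf (nat_lit 15)) (cs (rf (nat_lit 16)) (rf (nat_lit 17)))))))))) q115086 (by decide +kernel)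
def q115166 : Q := Q.p (nat_lit 0x200000800002000000000000000000000000000000000000000000000000000000000000000) (nat_lit 0x140003fe0007f0001de0001000005000014000000000000000000000000000000000000000000000000000000000) (nat_lit 11)
theorem c115166 : QOK q115166 := cut [q98129, q99244, q113145, q113147] ⟨c98129, c99244, c113145, c113147, trivial⟩ (nd (nat_lit 319) (nat_lit 0) (cs (rf (nat_lit 0)) (cs (rf (nat_lit 1)) (cs (rf (nat_lit 2)) (nd (nat_lit 340) (nat_lit 0) (cs (lf (nat_lit 40) (nat_lit 252)) (nd (nat_lit 230) (nat_lit 0) (cs (lf (nat_lit 46) (nat_lit 230)) (rf (nat_lit 3)))))))))) q115166 (by decide +kernel)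
def q115169 : Q := Q.p (nat_lit 0x200000800002000000000000000000000000000000000000000000000000000000000000000) (nat_lit 0x300000c00005c000700000580001e0001f00001c0000500000000000000000000000000000000000000000) (nat_lit 11)
theorem c115169 : QOK q115169 := cut [q99253, q99269, q101581, q112791] ⟨c99253, c99269, c101581, c112791, trivial⟩ (nd (nat_lit 231) (nat_lit 0) (cs (rf (nat_lit 0)) (cs (rf (nat_lit 1)) (cs (rf (nat_lit 2)) (rf (nat_lit 3)))))) q115169 (by decide +kernel)
def q115273 : Q := Q.p (nat_lit 0xc00002000000000000000000000000000000000000000000000000000000000000000) (nat_lit 0x80001600007f000f38001df0003f0001f80001c0000500000000000000000000000000000000000000000) (nat_lit 12)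
theorem c115273 : QOK q115273 := cut [q56839, q99646, q112791, q97408, q97409, q115095, q103856, q115024, q98387, q99066, q99177] ⟨c56839, c99646, c112791, c97408, c97409, c115095, c103856, c115024, c98387, c99066, c99177, trivial⟩ (nd (nat_lit 231) (nat_lit 0) (cs (rf (nat_lit 0)) (cs (rf (nat_lit 1)) (cs (rf (nat_lit 2)) (nd (nat_lit 273) (nat_lit 0) (cs (rf (nat_lit 3)) (cs (rf (nat_lit 4)) (cs (rf (nat_lit 5)) (nd (nat_lit 276) (nat_lit 0) (cs (rf (nat_lit 6)) (cs (rf (nat_lit 7)) (cs (nd (nat_lit 250) (nat_lit 0) (cs (lf (nat_lit 22) (nat_lit 250)) (nd (nat_lit 255) (nat_lit 0) (cs (lf (nat_lit 16) (nat_lit 251)) (nd (nat_lit 277) (nat_lit 0) (cs (lf (nat_lit 17) (nat_lit 252)) (nd (nat_lit 278) (nat_lit 0) (cs (lf (nat_lit 23) (nat_lit 252)) (nd (nat_lit 297) (nat_lit 0) (cs (lf (nat_lit 11) (nat_lit 274)) (nd (nat_lit 298) (nat_lit 0) (cs (lf (nat_lit 29) (nat_lit 231)) (lf (nat_lit 6) (nat_lit 275)))))))))))))) (cs (nd (nat_lit 252) (nat_lit 0) (cs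 (rf (nat_lit 8)) (nd (nat_lit 251) (nat_lit 0) (cs (lf (nat_lit 23) (nat_lit 250)) (rf (nat_lit 9)))))) (nd (nat_lit 294) (nat_lit 0) (cs (lf (nat_lit 10) (nat_lit 272)) (nd (nat_lit 254) (nat_lit 0) (cs (lf (nat_lit 17) (nat_lit 251)) (nd (nat_lit 298) (nat_lit 0) (cs (lf (nat_lit 42) (nat_lit 231)) (rf (nat_lit 10))))))))))))))))))))) q115273 (by decide +kernel)
def q115361 : Q := Q.p (nat_lit 0x800002000000000000000000000000000000000000000000000000000000000000000) (nat_lit 0x40000700001c0001fc000ff8003fc001f7800fde000fb8001f80007c0000500000000000000000000000000000000000000000) (nat_lit 18)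
theorem c115361 : QOK q115361 := cut [q89613, q99681, q99750, q115278, q2579, q89529, q113156, q21967, q115292, q115330, q81192, q113461, q81180, q113476, q113504, q113505, q115331, q115333, q80720, q101882, q113373, q23438, q113515, q113519, q98838, q113525, q2541, q99749, q99765, q113176, q89625, q98129] ⟨c89613, c99681, c99750, c115278, c2579, c89529, c113156, c21967, c115292, c115330, c81192, c113461, c81180, c113476, c113504, c113505, c115331, c115333, c80720, c101882, c113373, c23438, c113515, c113519, c98838, c113525, c2541, c99749, c99765, c113176, c89625, c98129, trivial⟩ (nd (nat_lit 297) (nat_lit 0) (cs (rf (nat_lit 0)) (cs (rf (nat_lit 1)) (cs (rf (nat_lit 2)) (cs (rf (nat_lit 3)) (cs (nd (nat_lit 319) (nat_lit 0) (cs (rf (nat_lit 4)) (cs (rf (nat_lit 5)) (cs (rf (nat_lit 6)) (nd (nat_lit 318) (nat_lit 0) (cs (lf (nat_lit 41) (nat_lit 252)) (nd (nat_lit 232) (nat_lit 0) (cs (lf (nat_lit 34) (nat_lit 231)) (nd (nat_lit 231) (nat_lit 0) (cs (lf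 (nat_lit 35) (nat_lit 209)) (rf (nat_lit 7)))))))))))) (cs (rf (nat_lit 8)) (cs (rf (nat_lit 9)) (cs (nd (nat_lit 254) (nat_lit 0) (cs (rf (nat_lit 10)) (cs (rf (nat_lit 11)) (cs (nd (nat_lit 255) (nat_lit 0) (cs (rf (nat_lit 12)) (cs (rf (nat_lit 13)) (cs (rf (nat_lit 14)) (cs (rf (nat_lit 15)) (cs (rf (nat_lit 16)) (rf (nat_lit 17)))))))) (nd (nat_lit 274) (nat_lit 0) (cs (rf (nat_lit 18)) (cs (rf (nat_lit 19)) (cs (nd (nat_lit 255) (nat_lit 0) (cs (rf (nat_lit 12)) (cs (rf (nat_lit 15)) (nd (nat_lit 319) (nat_lit 0) (cs (rf (nat_lit 4)) (cs (rf (nat_lit 20)) (nd (nat_lit 298) (nat_lit 0) (cs (rf (nat_lit 21)) (cs (rf (nat_lit 22)) (rf (nat_lit 23))))))))))) (nd (nat_lit 273) (nat_lit 0) (cs (lf (nat_lit 12) (nat_lit 250)) (nd (nat_lit 276) (nat_lit 0) (cs (rf (nat_lit 24)) (cs (nd (nat_lit 250) (nat_lit 0) (cs (lf (nat_lit 22) (nat_lit 250)) (nd (nat_lit 298) (nat_lit 0) (cs (lf (nat_lit 5) (nat_lit 273)) (nd (nat_lit 320) (nat_lit 0) (cs (lf (nat_lit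 42) (nat_lit 253)) (nd (nat_lit 319) (nat_lit 0) (cs (lf (nat_lit 30) (nat_lit 253)) (nd (nat_lit 318) (nat_lit 0) (cs (lf (nat_lit 41) (nat_lit 252)) (nd (nat_lit 321) (nat_lit 0) (cs (lf (nat_lit 29) (nat_lit 254)) (nd (nat_lit 317) (nat_lit 0) (cs (lf (nat_lit 12) (nat_lit 294)) (nd (nat_lit 295) (nat_lit 0) (cs (lf (nat_lit 11) (nat_lit 272)) (nd (nat_lit 339) (nat_lit 0) (cs (lf (nat_lit 35) (nat_lit 251)) (lf (nat_lit 11) (nat_lit 316)))))))))))))))))))) (nd (nat_lit 319) (nat_lit 0) (cs (lf (nat_lit 30) (nat_lit 253)) (nd (nat_lit 320) (nat_lit 0) (cs (lf (nat_lit 29) (nat_lit 253)) (nd (nat_lit 318) (nat_lit 0) (cs (lf (nat_lit 41) (nat_lit 252)) (nd (nat_lit 250) (nat_lit 0) (cs (lf (nat_lit 22) (nat_lit 250)) (nd (nat_lit 298) (nat_lit 0) (cs (lf (nat_lit 5) (nat_lit 273)) (rf (nat_lit 25))))))))))))))))))))))))) (cs (nd (nat_lit 319) (nat_lit 0) (cs (rf (nat_lit 26)) (cs (rf (nat_lit 4)) (cs (rf (nat_lit 27)) (cs (rf (nat_lit 28)) (rf (nat_lit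 29))))))) (nd (nat_lit 319) (nat_lit 0) (cs (rf (nat_lit 30)) (cs (rf (nat_lit 31)) (cs (nd (nat_lit 254) (nat_lit 0) (cs (lf (nat_lit 35) (nat_lit 231)) (nd (nat_lit 318) (nat_lit 0) (cs (lf (nat_lit 41) (nat_lit 252)) (nd (nat_lit 341) (nat_lit 0) (cs (lf (nat_lit 34) (nat_lit 253)) (nd (nat_lit 364) (nat_lit 0) (cs (lf (nat_lit 28) (nat_lit 275)) (nd (nat_lit 363) (nat_lit 0) (cs (lf (nat_lit 29) (nat_lit 297)) (nd (nat_lit 385) (nat_lit 0) (cs (lf (nat_lit 47) (nat_lit 296)) (nd (nat_lit 384) (nat_lit 0) (cs (lf (nat_lit 41) (nat_lit 318)) (lf (nat_lit 40) (nat_lit 296)))))))))))))))) (nd (nat_lit 318) (nat_lit 0) (cs (lf (nat_lit 41) (nat_lit 252)) (nd (nat_lit 231) (nat_lit 0) (cs (lf (nat_lit 40) (nat_lit 230)) (nd (nat_lit 232) (nat_lit 0) (cs (rf (nat_lit 7)) (lf (nat_lit 34) (nat_lit 231)))))))))))))))))))))) q115361 (by decide +kernel)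
def q115366 : Q := Q.p (nat_lit 0x200000800002000000000000000000000000000000000000000000000000000000000000000) (nat_lit 0xe0000fa0001dc00077c003de000efc000b00002c0000000000000000000000000000000000000000000000) (nat_lit 14)
theorem c115366 : QOK q115366 := cut [q88933, q88941, q115206, q88742, q104510, q109557, q86433, q91098, q109567] ⟨c88933, c88941, c115206, c88742, c104510, c109557, c86433, c91098, c109567, trivial⟩ (nd (nat_lit 252) (nat_lit 0) (cs (rf (nat_lit 0)) (cs (rf (nat_lit 1)) (cs (rf (nat_lit 2)) (nd (nat_lit 276) (nat_lit 0) (cs (rf (nat_lit 3)) (cs (rf (nat_lit 4)) (cs (rf (nat_lit 5)) (nd (nat_lit 274) (nat_lit 0) (cs (rf (nat_lit 6)) (cs (rf (nat_lit 7)) (rf (nat_lit 8))))))))))))) q115366 (by decide +kernel)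
def q115384 : Q := Q.p (nat_lit 0x800002000008000000000000000000000000000000000000000000000000000000000) (nat_lit 0x18000060000400007de003f70003de000340000d00000000000000000000000000000000000000000) (nat_lit 9)
theorem c115384 : QOK q115384 := cut [q87016, q102397, q97307, q101804, q109042, q97369, q97448, q97451, q97482, q115380, q115383] ⟨c87016, c102397, c97307, c101804, c109042, c97369, c97448, c97451, c97482, c115380, c115383, trivial⟩ (nd (nat_lit 232) (nat_lit 0) (cs (rf (nat_lit 0)) (cs (rf (nat_lit 1)) (cs (nd (nat_lit 233) (nat_lit 0) (cs (rf (nat_lit 2)) (cs (rf (nat_lit 3)) (cs (rf (nat_lit 4)) (cs (nd (nat_lit 230) (nat_lit 0) (cs (rf (nat_lit 5)) (cs (rf (nat_lit 6)) (cs (rf (nat_lit 7)) (nd (nat_lit 255) (nat_lit 0) (cs (lf (nat_lit 5) (nat_lit 230)) (rf (nat_lit 8)))))))) (rf (nat_lit 9))))))) (rf (nat_lit 10)))))) q115384 (by decide +kernel)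
def q115405 : Q := Q.p (nat_lit 0x800002000008000000000000000000000000000000000000000000000000000000000) (nat_lit 0x380003e8000778007de000f78003bf0007e0001f80001000000000000000000000000000000000000) (nat_lit 15)
theorem c115405 : QOK q115405 := cut [q81896, q97957, q102009, q107016, q107808, q90300, q107817, q81354, q114478, q79020, q115387, q100321, q109712, q109714, q88742, q90494, q104510, q109396, q113569, q113557, q113578, q3983, q3985, q113587, q96769, q109740, q109744] ⟨c81896, c97957, c102009, c107016, c107808, c90300, c107817, c81354, c114478, c79020, c115387, c100321, c109712, c109714, c88742, c90494, c104510, c109396, c113569, c113557, c113578, c3983, c3985, c113587, c96769, c109740, c109744, trivial⟩ (nd (nat_lit 230) (nat_lit 0) (cs (rf (nat_lit 0)) (cs (rf (nat_lit 1)) (cs (nd (nat_lit 254) (nat_lit 0) (cs (rf (nat_lit 2)) (cs (rf (nat_lit 3)) (cs (rf (nat_lit 4)) (nd (nat_lit 252) (nat_lit 0) (cs (rf (nat_lit 5)) (cs (rf (nat_lit 6)) (cs (nd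 (nat_lit 277) (nat_lit 0) (cs (rf (nat_lit 7)) (cs (rf (nat_lit 8)) (nd (nat_lit 251) (nat_lit 0) (cs (rf (nat_lit 9)) (lf (nat_lit 4) (nat_lit 251))))))) (nd (nat_lit 297) (nat_lit 0) (cs (lf (nat_lit 42) (nat_lit 230)) (nd (nat_lit 298) (nat_lit 0) (cs (lf (nat_lit 29) (nat_lit 231)) (nd (nat_lit 209) (nat_lit 0) (cs (lf (nat_lit 28) (nat_lit 209)) (nd (nat_lit 165) (nat_lit 0) (cs (lf (nat_lit 37) (nat_lit 164)) (rf (nat_lit 10)))))))))))))))))) (nd (nat_lit 276) (nat_lit 0) (cs (rf (nat_lit 11)) (cs (rf (nat_lit 12)) (cs (rf (nat_lit 13)) (cs (nd (nat_lit 252) (nat_lit 0) (cs (rf (nat_lit 14)) (cs (rf (nat_lit 15)) (cs (rf (nat_lit 16)) (cs (nd (nat_lit 255) (nat_lit 0) (cs (rf (nat_lit 17)) (cs (rf (nat_lit 18)) (nd (nat_lit 186) (nat_lit 0) (cs (lf (nat_lit 25) (nat_lit 186)) (nd (nat_lit 277) (nat_lit 0) (cs (lf (nat_lit 18) (nat_lit 252)) (nd (nat_lit 256) (nat_lit 0) (cs (lf (nat_lit 12) (nat_lit 252)) (nd (nat_lit 257) (nat_lit 0) (cs (lf (nat_lit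 6) (nat_lit 254)) (rf (nat_lit 19))))))))))))) (nd (nat_lit 254) (nat_lit 0) (cs (rf (nat_lit 2)) (cs (rf (nat_lit 20)) (rf (nat_lit 10)))))))))) (nd (nat_lit 208) (nat_lit 0) (cs (rf (nat_lit 21)) (cs (rf (nat_lit 22)) (nd (nat_lit 252) (nat_lit 0) (cs (rf (nat_lit 14)) (cs (rf (nat_lit 15)) (cs (rf (nat_lit 16)) (cs (rf (nat_lit 23)) (nd (nat_lit 229) (nat_lit 0) (cs (rf (nat_lit 24)) (cs (rf (nat_lit 25)) (rf (nat_lit 26)))))))))))))))))))))) q115405 (by decide +kernel)
def q115627 : Q := Q.p (nat_lit 0x300000c000000000000000000000000000000000000000000000000000000000) (nat_lit 0x1c00007800078000000000700001fe0001f8000700000000000000000000000000000000000000000) (nat_lit 12)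
theorem c115627 : QOK q115627 := cut [q81477, q110082, q114037] ⟨c81477, c110082, c114037, trivial⟩ (nd (nat_lit 275) (nat_lit 0) (cs (rf (nat_lit 0)) (cs (rf (nat_lit 1)) (rf (nat_lit 2))))) q115627 (by decide +kernel)
def q115640 : Q := Q.p (nat_lit 0x7000004000000000000000000000000000000000000000000000000000000000) (nat_lit 0xc00003f8001fc000ff000180000780000d0000340000000000000000000000000000000000000000000000) (nat_lit 13)
theorem c115640 : QOK q115640 := cut [q79078, q79079, q79080, q108736, q110193, q99093, q14270, q87169, q102935, q110218] ⟨c79078, c79079, c79080, c108736, c110193, c99093, c14270, c87169, c102935, c110218, trivial⟩ (nd (nat_lit 275) (nat_lit 0) (cs (rf (nat_lit 0)) (cs (nd (nat_lit 274) (nat_lit 0) (cs (rf (nat_lit 1)) (cs (rf (nat_lit 2)) (nd (nat_lit 276) (nat_lit 0) (cs (rf (nat_lit 3)) (cs (rf (nat_lit 4)) (cs (nd (nat_lit 186) (nat_lit 0) (cs (lf (nat_lit 25) (nat_lit 186)) (rf (nat_lit 5)))) (nd (nat_lit 277) (nat_lit 0) (cs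 (lf (nat_lit 18) (nat_lit 252)) (nd (nat_lit 299) (nat_lit 0) (cs (lf (nat_lit 5) (nat_lit 274)) (nd (nat_lit 321) (nat_lit 0) (cs (lf (nat_lit 42) (nat_lit 254)) (nd (nat_lit 255) (nat_lit 0) (cs (lf (nat_lit 17) (nat_lit 252)) (nd (nat_lit 233) (nat_lit 0) (cs (rf (nat_lit 6)) (lf (nat_lit 17) (nat_lit 230))))))))))))))))))) (nd (nat_lit 255) (nat_lit 0) (cs (rf (nat_lit 7)) (cs (rf (nat_lit 8)) (rf (nat_lit 9)))))))) q115640 (by decide +kernel)
def q115655 : Q := Q.p (nat_lit 0x300000c000000000000000000000000000000000000000000000000000000000) (nat_lit 0x10000040000780000e000738000ee0001a0000680000000000000000000000000000000000000000) (nat_lit 8)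
theorem c115655 : QOK q115655 := cut [q84852, q84909, q105911] ⟨c84852, c84909, c105911, trivial⟩ (nd (nat_lit 229) (nat_lit 0) (cs (rf (nat_lit 0)) (cs (rf (nat_lit 1)) (rf (nat_lit 2))))) q115655 (by decide +kernel)
def q115738 : Q := Q.p (nat_lit 0x3000008000000000000000000000000000000000000000000000000000000000) (nat_lit 0x1c0001f00007e0003fc0004e00077c000dc000370000c80000000000000000000000000000000000000000) (nat_lit 14)
theorem c115738 : QOK q115738 := cut [q82275, q105202, q88302, q88785, q85505, q89866, q115717, q80583, q86851, q96603, q88619, q88800, q101146] ⟨c82275, c105202, c88302, c88785, c85505, c89866, c115717, c80583, c86851, c96603, c88619, c88800, c101146, trivial⟩ (nd (nat_lit 251) (nat_lit 0) (cs (rf (nat_lit 0)) (cs (rf (nat_lit 1)) (nd (nat_lit 273) (nat_lit 0) (cs (rf (nat_lit 2)) (cs (rf (nat_lit 3)) (cs (nd (nat_lit 230) (nat_lit 0) (cs (rf (nat_lit 4)) (cs (rf (nat_lit 5)) (rf (nat_lit 6))))) (nd (nat_lit 295) (nat_lit 0) (cs (rf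 (nat_lit 7)) (cs (rf (nat_lit 8)) (cs (rf (nat_lit 9)) (nd (nat_lit 229) (nat_lit 0) (cs (rf (nat_lit 10)) (cs (rf (nat_lit 11)) (rf (nat_lit 12)))))))))))))))) q115738 (by decide +kernel)
def q115794 : Q := Q.p (nat_lit 0x7000000000000000000000000000000000000000000000000000000000000000) (nat_lit 0x10000040001fdc0038e001fdc00000000000000000000000000000000000000000000000000000000) (nat_lit 10)
theorem c115794 : QOK q115794 := cut [q81348, q81724, q81867, q81872] ⟨c81348, c81724, c81867, c81872, trivial⟩ (nd (nat_lit 255) (nat_lit 0) (cs (rf (nat_lit 0)) (cs (rf (nat_lit 1)) (cs (rf (nat_lit 2)) (rf (nat_lit 3)))))) q115794 (by decide +kernel)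
def q115807 : Q := Q.p (nat_lit 0x3800000000000000000000000000000000000000000000000000000000000000) (nat_lit 0x100001c0000700001c00037c000c000007c0001c000070000140000000000000000000000000000000000000000) (nat_lit 9)
theorem c115807 : QOK q115807 := cut [q88302, q98766, q106413, q80583, q86851, q88619, q88800, q89845, q82544, q82632, q106409] ⟨c88302, c98766, c106413, c80583, c86851, c88619, c88800, c89845, c82544, c82632, c106409, trivial⟩ (nd (nat_lit 273) (nat_lit 0) (cs (rf (nat_lit 0)) (cs (rf (nat_lit 1)) (cs (rf (nat_lit 2)) (nd (nat_lit 295) (nat_lit 0) (cs (rf (nat_lit 3)) (cs (rf (nat_lit 4)) (cs (nd (nat_lit 229) (nat_lit 0) (cs (rf (nat_lit 5)) (cs (rf (nat_lit 6)) (rf (nat_lit 7))))) (nd (nat_lit 318) (nat_lit 0) (cs (rf (nat_lit 8)) (cs (rf (nat_lit 9)) (rf (nat_lit 10))))))))))))) q115807 (by decide +kernel)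
def q115861 : Q := Q.p (nat_lit 0x3800000000000000000000000000000000000000000000000000000000000000) (nat_lit 0x7c0001f00007e0000f8001c60007e0000fc0001f0000780001400000000000000000000000000000000000) (nat_lit 18)
theorem c115861 : QOK q115861 := cut [q82275, q82278, q115757, q81837, q82664, q91409, q106635, q82292, q82295, q89933] ⟨c82275, c82278, c115757, c81837, c82664, c91409, c106635, c82292, c82295, c89933, trivial⟩ (nd (nat_lit 231) (nat_lit 0) (cs (rf (nat_lit 0)) (cs (rf (nat_lit 1)) (cs (rf (nat_lit 2)) (nd (nat_lit 274) (nat_lit 0) (cs (rf (nat_lit 3)) (cs (rf (nat_lit 4)) (cs (rf (nat_lit 5)) (cs (rf (nat_lit 6)) (nd (nat_lit 230) (nat_lit 0) (cs (rf (nat_lit 7)) (cs (rf (nat_lit 8)) (rf (nat_lit 9)))))))))))))) q115861 (by decide +kernel)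
def q115912 : Q := Q.p (nat_lit 0x7000000000000000000000000000000000000000000000000000000000000000) (nat_lit 0x80000380000e000038001cf800780003ffe001ff0003fe000380000e00003000008000000000000000000000000) (nat_lit 13)
theorem c115912 : QOK q115912 := cut [q79028, q110051, q114060, q81657, q92260, q110266] ⟨c79028, c110051, c114060, c81657, c92260, c110266, trivial⟩ (nd (nat_lit 230) (nat_lit 0) (cs (rf (nat_lit 0)) (cs (rf (nat_lit 1)) (cs (rf (nat_lit 2)) (nd (nat_lit 274) (nat_lit 0) (cs (rf (nat_lit 3)) (cs (rf (nat_lit 4)) (rf (nat_lit 5))))))))) q115912 (by decide +kernel)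
def q115923 : Q := Q.p (nat_lit 0x3000000000000000000000000000000000000000000000000000000000000000) (nat_lit 0x80000380001f0000fe000ffc001ce000ff80003c0000f00003c0000500000000000000000000000000000000000) (nat_lit 16)
theorem c115923 : QOK q115923 := cut [q105825, q110532, q110533, q110534, q115693, q81318, q83707, q115887, q80649, q81014, q112575, q82288, q110269] ⟨c105825, c110532, c110533, c110534, c115693, c81318, c83707, c115887, c80649, c81014, c112575, c82288, c110269, trivial⟩ (nd (nat_lit 254) (nat_lit 0) (cs (rf (nat_lit 0)) (cs (rf (nat_lit 1)) (cs (rf (nat_lit 2)) (cs (rf (nat_lit 3)) (cs (rf (nat_lit 4)) (nd (nat_lit 274) (nat_lit 0) (cs (rf (nat_lit 5)) (cs (rf (nat_lit 6)) (cs (rf (nat_lit 7)) (nd (nat_lit 296) (nat_lit 0) (cs (rf (nat_lit 8)) (cs (rf (nat_lit 9)) (cs (rf (nat_lit 10)) (nd (nat_lit 230) (nat_lit 0) (cs (rf (nat_lit 11)) (rf (nat_lit 12)))))))))))))))))) q115923 (by decide +kernel)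

end Crest.Agent.H3.Snaky.CR
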