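import Crest.Agent.H3.Snaky.Cert
import Crest.Agent.H3.Snaky.CR.CR0
import Crest.Agent.H3.Snaky.CR.CR1
import Crest.Agent.H3.Snaky.CR.CR2
import Crest.Agent.H3.Snaky.CR.CR3
import Crest.Agent.H3.Snaky.CR.CR4
import Crest.Agent.H3.Snaky.CR.CR5
import Crest.Agent.H3.Snaky.CR.CR6
import Crest.Agent.H3.Snaky.CR.CR7
import Crest.Agent.H3.Snaky.CR.CR8
import Crest.Agent.H3.Snaky.CR.CR9
import Crest.Agent.H3.Snaky.CR.CR10
import Crest.Agent.H3.Snaky.CR.CR11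
import Crest.Agent.H3.Snaky.CR.CR12
import Crest.Agent.H3.Snaky.CR.CR13
import Crest.Agent.H3.Snaky.CR.CR14
import Crest.Agent.H3.Snaky.CR.CR15
import Crest.Agent.H3.Snaky.CR.CR16
import Crest.Agent.H3.Snaky.CR.CR17
import Crest.Agent.H3.Snaky.CR.CR20
import Crest.Agent.H3.Snaky.CR.CR21
import Crest.Agent.H3.Snaky.CR.CR22
import Crest.Agent.H3.Snaky.CR.CR23
import Crest.Agent.H3.Snaky.CR.CR24
import Crest.Agent.H3.Snaky.CR.CR25
import Crest.Agent.H3.Snaky.CR.CR26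
import Crest.Agent.H3.Snaky.CR.CR27
import Crest.Agent.H3.Snaky.CR.CR28
import Crest.Agent.H3.Snaky.CR.CR29
import Crest.Agent.H3.Snaky.CR.CR30
import Crest.Agent.H3.Snaky.CR.CR31
import Crest.Agent.H3.Snaky.CR.CR32
import Crest.Agent.H3.Snaky.CR.CR33
import Crest.Agent.H3.Snaky.CR.CR34
import Crest.Agent.H3.Snaky.CR.CR39
import Crest.Agent.H3.Snaky.CR.CR40
import Crest.Agent.H3.Snaky.CR.CR41
import Crest.Agent.H3.Snaky.CR.CR42
import Crest.Agent.H3.Snaky.CR.CR43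
import Crest.Agent.H3.Snaky.CR.CR44
import Crest.Agent.H3.Snaky.CR.CR45
import Crest.Agent.H3.Snaky.CR.CR46
import Crest.Agent.H3.Snaky.CR.CR47
import Crest.Agent.H3.Snaky.CR.CR48
import Crest.Agent.H3.Snaky.CR.CR49
import Crest.Agent.H3.Snaky.CR.CR54
import Crest.Agent.H3.Snaky.CR.CR55
import Crest.Agent.H3.Snaky.CR.CR56
import Crest.Agent.H3.Snaky.CR.CR57
import Crest.Agent.H3.Snaky.CR.CR58
import Crest.Agent.H3.Snaky.CR.CR59
import Crest.Agent.H3.Snaky.CR.CR60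
import Crest.Agent.H3.Snaky.CR.CR64
import Crest.Agent.H3.Snaky.CR.CR65
import Crest.Agent.H3.Snaky.CR.CR66
import Crest.Agent.H3.Snaky.CR.CR67
import Crest.Agent.H3.Snaky.CR.CR71
import Crest.Agent.H3.Snaky.CR.CR72
import Crest.Agent.H3.Snaky.CR.CR73

set_option autoImplicit false
set_option maxRecDepth 100000

namespace Crest.Agent.H3.Snaky.CR

open T

def q182 : Q := Q.p (nat_lit 0x2000000000030000040000000000000000000000000000000000000000000000) (nat_lit 0x80000080007be000cf00073e000500000400000000000000000000000000000000000) (nat_lit 10)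
theorem c182 : QOK q182 := cut [q119, q123, q133, q150, q117, q130, q157, q165, q171, q175, q181] ⟨c119, c123, c133, c150, c117, c130, c157, c165, c171, c175, c181, trivial⟩ (nd (nat_lit 207) (nat_lit 0) (cs (nd (nat_lit 231) (nat_lit 0) (cs (lf (nat_lit 42) (nat_lit 186)) (nd (nat_lit 142) (nat_lit 0) (cs (rf (nat_lit 0)) (lf (nat_lit 25) (nat_lit 142)))))) (cs (rf (nat_lit 1)) (cs (rf (nat_lit 2)) (cs (rf (nat_lit 3)) (cs (nd (nat_lit 206) (nat_lit 0) (cs (rf (nat_lit 4)) (cs (rf (nat_lit 5)) (cs (nd (nat_lit 231) (nat_lit 0) (cs (lf (nat_lit 42) (nat_lit 186)) (rf (nat_lit 6)))) (cs (nd (nat_lit 231) (nat_lit 0) (cs (lf (nat_lit 42) (nat_lit 186)) (rf (nat_lit 7)))) (cs (nd (nat_lit 231) (nat_lit 0) (cs (lf (nat_lit 42) (nat_lit 186)) (rf (nat_lit 8)))) (nd (nat_lit 228) (nat_lit 0) (cs (lf (nat_lit 11) (nat_lit 205)) (nd (nat_lit 231) (nat_lit 0) (cs (lf (nat_lit 42) (nat_lit 186)) (rf (nat_lit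 9)))))))))))) (rf (nat_lit 10)))))))) q182 (by decide +kernel)
def q553 : Q := Q.p (nat_lit 0x2000000000018000040000100000000000000000000000000000000000000000) (nat_lit 0x7be000e70007be0002c0000100000400000000000000000000000000000) (nat_lit 10)
theorem c553 : QOK q553 := cut [q527, q530, q547, q552] ⟨c527, c530, c547, c552, trivial⟩ (nd (nat_lit 206) (nat_lit 0) (cs (rf (nat_lit 0)) (cs (rf (nat_lit 1)) (cs (rf (nat_lit 2)) (rf (nat_lit 3)))))) q553 (by decide +kernel)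
def q1381 : Q := Q.p (nat_lit 0x2000004000030000000000000000000000000000000000000000000000000000) (nat_lit 0xb0001ff0007f80001f8000bc000cf80033c0001e0000780000a00000000000000000000000000000) (nat_lit 15)
theorem c1381 : QOK q1381 := cut [q1178, q1125, q1018, q1181, q1187, q1197, q1203, q1206, q1208, q1225, q1079, q1247, q1251, q1380] ⟨c1178, c1125, c1018, c1181, c1187, c1197, c1203, c1206, c1208, c1225, c1079, c1247, c1251, c1380, trivial⟩ (nd (nat_lit 229) (nat_lit 0) (cs (rf (nat_lit 0)) (cs (nd (nat_lit 207) (nat_lit 0) (cs (rf (nat_lit 1)) (cs (nd (nat_lit 275) (nat_lit 0) (cs (rf (nat_lit 2)) (cs (nd (nat_lit 274) (nat_lit 0) (cs (nd (nat_lit 252) (nat_lit 0) (cs (lf (nat_lit 29) (nat_lit 208)) (lf (nat_lit 42) (nat_lit 207)))) (cs (nd (nat_lit 210) (nat_lit 0) (cs (lf (nat_lit 6) (nat_lit 207)) (nd (nat_lit 188) (nat_lit 0) (cs (lf (nat_lit 17) (nat_lit 185)) (nd (nat_lit 252) (nat_lit 0)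 (cs (lf (nat_lit 29) (nat_lit 208)) (rf (nat_lit 3)))))))) (cs (nd (nat_lit 273) (nat_lit 0) (cs (nd (nat_lit 251) (nat_lit 0) (cs (lf (nat_lit 30) (nat_lit 207)) (lf (nat_lit 29) (nat_lit 207)))) (cs (nd (nat_lit 210) (nat_lit 0) (cs (lf (nat_lit 6) (nat_lit 207)) (nd (nat_lit 188) (nat_lit 0) (cs (lf (nat_lit 17) (nat_lit 185)) (nd (nat_lit 251) (nat_lit 0) (cs (lf (nat_lit 30) (nat_lit 207)) (rf (nat_lit 4)))))))) (cs (nd (nat_lit 272) (nat_lit 0) (cs (nd (nat_lit 210) (nat_lit 0) (cs (lf (nat_lit 6) (nat_lit 207)) (nd (nat_lit 188) (nat_lit 0) (cs (lf (nat_lit 17) (nat_lit 185)) (rf (nat_lit 5)))))) (cs (nd (nat_lit 297) (nat_lit 0) (cs (lf (nat_lit 5) (nat_lit 272)) (rf (nat_lit 6)))) (cs (rf (nat_lit 7)) (nd (nat_lit 298) (nat_lit 0) (cs (nd (nat_lit 249) (nat_lit 0) (cs (lf (nat_lit 22) (nat_lit 249)) (nd (nat_lit 276) (nat_lit 0) (cs (rf (nat_lit 8)) (lf (nat_lit 5) (nat_lit 273)))))) (lf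 (nat_lit 4) (nat_lit 272)))))))) (nd (nat_lit 210) (nat_lit 0) (cs (lf (nat_lit 6) (nat_lit 207)) (nd (nat_lit 188) (nat_lit 0) (cs (lf (nat_lit 17) (nat_lit 185)) (nd (nat_lit 251) (nat_lit 0) (cs (lf (nat_lit 29) (nat_lit 207)) (rf (nat_lit 4)))))))))))) (nd (nat_lit 210) (nat_lit 0) (cs (lf (nat_lit 6) (nat_lit 207)) (nd (nat_lit 188) (nat_lit 0) (cs (lf (nat_lit 17) (nat_lit 185)) (nd (nat_lit 252) (nat_lit 0) (cs (lf (nat_lit 42) (nat_lit 207)) (rf (nat_lit 3)))))))))))) (rf (nat_lit 9))))) (cs (nd (nat_lit 210) (nat_lit 0) (cs (lf (nat_lit 6) (nat_lit 207)) (nd (nat_lit 188) (nat_lit 0) (cs (lf (nat_lit 17) (nat_lit 185)) (nd (nat_lit 184) (nat_lit 0) (cs (lf (nat_lit 22) (nat_lit 184)) (nd (nat_lit 206) (nat_lit 0) (cs (lf (nat_lit 23) (nat_lit 183)) (rf (nat_lit 10)))))))))) (rf (nat_lit 11)))))) (cs (rf (nat_lit 12)) (rf (nat_lit 13)))))) q1381 (by decide +kernel)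
def q1551 : Q := Q.p (nat_lit 0x2000000000038000000000000000000000000000000000000000000000000000) (nat_lit 0xe0000380001e00003c000060001fc0000e0000380000a00000000000000000000000000000) (nat_lit 12)
theorem c1551 : QOK q1551 := cut [q117, q1464, q1547, q1550] ⟨c117, c1464, c1547, c1550, trivial⟩ (nd (nat_lit 206) (nat_lit 0) (cs (rf (nat_lit 0)) (cs (rf (nat_lit 1)) (cs (rf (nat_lit 2)) (rf (nat_lit 3)))))) q1551 (by decide +kernel)
def q1716 : Q := Q.p (nat_lit 0x2000000000030000000000000000000000000000000000000000000000000000) (nat_lit 0x700001c000efe003cf801fff000ff0007f8000fe00007800000000000000000000000) (nat_lit 16)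
theorem c1716 : QOK q1716 := cut [q685, q914, q1136, q1597, q1608, q1621, q1623, q1638, q1641, q1644, q1650, q1658, q1119, q1661, q90, q1667, q1668, q1673, q1695, q1715] ⟨c685, c914, c1136, c1597, c1608, c1621, c1623, c1638, c1641, c1644, c1650, c1658, c1119, c1661, c90, c1667, c1668, c1673, c1695, c1715, trivial⟩ (nd (nat_lit 207) (nat_lit 0) (cs (rf (nat_lit 0)) (cs (rf (nat_lit 1)) (cs (rf (nat_lit 2)) (cs (nd (nat_lit 185) (nat_lit 0) (cs (rf (nat_lit 3)) (cs (rf (nat_lit 4)) (cs (nd (nat_lit 163) (nat_lit 0) (cs (rf (nat_lit 5)) (cs (nd (nat_lit 229) (nat_lit 0) (cs (rf (nat_lit 6)) (nd (nat_lit 164) (nat_lit 0) (cs (lf (nat_lit 35) (nat_lit 141)) (nd (nat_lit 186) (nat_lit 0) (cs (lf (nat_lit 30) (nat_lit 163)) (nd (nat_lit 187) (nat_lit 0) (cs (lf (nat_lit 43) (nat_lit 164)) (nd (nat_lit 184) (nat_lit 0) (cs (lf (nat_lit 0) (nat_lit 183)) (nd (nat_lit 188) (nat_lit 0) (cs (lf (nat_lit 6)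 (nat_lit 185)) (nd (nat_lit 166) (nat_lit 0) (cs (lf (nat_lit 17) (nat_lit 163)) (lf (nat_lit 7) (nat_lit 162)))))))))))))))) (cs (nd (nat_lit 142) (nat_lit 0) (cs (rf (nat_lit 7)) (cs (rf (nat_lit 8)) (cs (rf (nat_lit 9)) (nd (nat_lit 164) (nat_lit 0) (cs (lf (nat_lit 30) (nat_lit 141)) (nd (nat_lit 186) (nat_lit 0) (cs (nd (nat_lit 183) (nat_lit 0) (cs (lf (nat_lit 1) (nat_lit 183)) (nd (nat_lit 119) (nat_lit 0) (cs (rf (nat_lit 10)) (lf (nat_lit 25) (nat_lit 119)))))) (lf (nat_lit 29) (nat_lit 142)))))))))) (rf (nat_lit 11)))))) (nd (nat_lit 229) (nat_lit 0) (cs (rf (nat_lit 12)) (cs (rf (nat_lit 13)) (nd (nat_lit 186) (nat_lit 0) (cs (rf (nat_lit 14)) (cs (rf (nat_lit 15)) (nd (nat_lit 164) (nat_lit 0) (cs (lf (nat_lit 36) (nat_lit 141)) (rf (nat_lit 16)))))))))))))) (cs (rf (nat_lit 17)) (cs (rf (nat_lit 18)) (rf (nat_lit 19))))))))) q1716 (by decide +kernel)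
def q2195 : Q := Q.p (nat_lit 0xc00003000000000030000000000000000000000000000000000000000000000000000) (nat_lit 0x1ce0007380000e000040000080000a0000000000000000000000000000000000000000000000) (nat_lit 10)
theorem c2195 : QOK q2195 := cut [q2192] ⟨c2192, trivial⟩ (nd (nat_lit 230) (nat_lit 0) (cs (lf (nat_lit 35) (nat_lit 186)) (nd (nat_lit 273) (nat_lit 0) (cs (lf (nat_lit 41) (nat_lit 207)) (nd (nat_lit 185) (nat_lit 0) (cs (lf (nat_lit 46) (nat_lit 185)) (rf (nat_lit 0)))))))) q2195 (by decide +kernel)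
def q2239 : Q := Q.p (nat_lit 0x2000000000030000000000000000000000000000000000000000000000000000) (nat_lit 0x900008c0006f8001cf0007f8000fe0001e00006800000000000000000000000000000) (nat_lit 10)
theorem c2239 : QOK q2239 := cut [q35, q39, q75, q87, q187, q690, q231, q2220, q1170, q2175, q1803, q1982, q2106, q2236, q2238] ⟨c35, c39, c75, c87, c187, c690, c231, c2220, c1170, c2175, c1803, c1982, c2106, c2236, c2238, trivial⟩ (nd (nat_lit 186) (nat_lit 0) (cs (rf (nat_lit 0)) (cs (nd (nat_lit 210) (nat_lit 0) (cs (rf (nat_lit 1)) (cs (rf (nat_lit 2)) (cs (nd (nat_lit 207) (nat_lit 0) (cs (rf (nat_lit 3)) (cs (rf (nat_lit 4)) (rf (nat_lit 5))))) (nd (nat_lit 211) (nat_lit 0) (cs (rf (nat_lit 6)) (rf (nat_lit 7)))))))) (cs (nd (nat_lit 185) (nat_lit 0) (cs (rf (nat_lit 8)) (cs (rf (nat_lit 9)) (cs (nd (nat_lit 207) (nat_lit 0) (cs (rf (nat_lit 10)) (cs (rf (nat_lit 11)) (rf (nat_lit 12))))) (rf (nat_lit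 13)))))) (rf (nat_lit 14)))))) q2239 (by decide +kernel)
def q2327 : Q := Q.p (nat_lit 0x2000000000030000000000000000000000000000000000000000000000000000) (nat_lit 0x280001fc0001e0000fc000cf8000f80007e0001f80003c0000f000000000000000000000000) (nat_lit 12)
theorem c2327 : QOK q2327 := cut [q35, q443, q641, q661, q1170, q2175, q2097, q2106, q2279, q2281, q2094, q2282, q1615, q1939, q1999, q2286, q2288, q2307, q2312, q2302, q2326] ⟨c35, c443, c641, c661, c1170, c2175, c2097, c2106, c2279, c2281, c2094, c2282, c1615, c1939, c1999, c2286, c2288, c2307, c2312, c2302, c2326, trivial⟩ (nd (nat_lit 186) (nat_lit 0) (cs (rf (nat_lit 0)) (cs (rf (nat_lit 1)) (cs (rf (nat_lit 2)) (cs (rf (nat_lit 3)) (cs (nd (nat_lit 275) (nat_lit 0) (cs (lf (nat_lit 44) (nat_lit 186)) (nd (nat_lit 185) (nat_lit 0) (cs (rf (nat_lit 4)) (cs (rf (nat_lit 5)) (cs (nd (nat_lit 207) (nat_lit 0) (cs (rf (nat_lit 6)) (cs (rf (nat_lit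 7)) (cs (nd (nat_lit 252) (nat_lit 0) (cs (lf (nat_lit 26) (nat_lit 186)) (nd (nat_lit 250) (nat_lit 0) (cs (nd (nat_lit 210) (nat_lit 0) (cs (lf (nat_lit 18) (nat_lit 185)) (rf (nat_lit 8)))) (cs (rf (nat_lit 9)) (nd (nat_lit 206) (nat_lit 0) (cs (rf (nat_lit 10)) (rf (nat_lit 11))))))))) (nd (nat_lit 211) (nat_lit 0) (cs (lf (nat_lit 19) (nat_lit 185)) (nd (nat_lit 163) (nat_lit 0) (cs (rf (nat_lit 12)) (cs (rf (nat_lit 13)) (nd (nat_lit 252) (nat_lit 0) (cs (lf (nat_lit 26) (nat_lit 186)) (nd (nat_lit 251) (nat_lit 0) (cs (rf (nat_lit 14)) (cs (nd (nat_lit 250) (nat_lit 0) (cs (lf (nat_lit 5) (nat_lit 250)) (rf (nat_lit 15)))) (rf (nat_lit 16)))))))))))))))) (nd (nat_lit 184) (nat_lit 0) (cs (lf (nat_lit 0) (nat_lit 183)) (nd (nat_lit 206) (nat_lit 0) (cs (rf (nat_lit 17)) (cs (rf (nat_lit 18)) (nd (nat_lit 228) (nat_lit 0) (cs (nd (nat_lit 230) (nat_lit 0) (cs (lf (nat_lit 27) (nat_lit 186))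 (nd (nat_lit 227) (nat_lit 0) (cs (lf (nat_lit 8) (nat_lit 205)) (lf (nat_lit 14) (nat_lit 205)))))) (cs (rf (nat_lit 19)) (cs (nd (nat_lit 230) (nat_lit 0) (cs (lf (nat_lit 27) (nat_lit 186)) (nd (nat_lit 163) (nat_lit 0) (cs (lf (nat_lit 30) (nat_lit 162)) (nd (nat_lit 141) (nat_lit 0) (cs (lf (nat_lit 36) (nat_lit 118)) (lf (nat_lit 27) (nat_lit 141)))))))) (nd (nat_lit 230) (nat_lit 0) (cs (lf (nat_lit 27) (nat_lit 186)) (nd (nat_lit 227) (nat_lit 0) (cs (lf (nat_lit 14) (nat_lit 205)) (nd (nat_lit 163) (nat_lit 0) (cs (lf (nat_lit 30) (nat_lit 162)) (nd (nat_lit 162) (nat_lit 0) (cs (lf (nat_lit 35) (nat_lit 140)) (lf (nat_lit 41) (nat_lit 161))))))))))))))))))))))))) (rf (nat_lit 20)))))))) q2327 (by decide +kernel)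
def q2745 : Q := Q.p (nat_lit 0x2000000000010000040000000000000000000000000000000000000000000000) (nat_lit 0xb00000c0001bc000ef0007be000fe0001f80007c00000000000000000000000000000) (nat_lit 15)
theorem c2745 : QOK q2745 := cut [q35, q2680, q133, q181, q344, q1504, q39, q2684, q1170, q2175, q1982, q2106, q2128, q2235, q419, q2691, q2164, q2703, q2714, q2725, q2712, q2733, q2739, q2132] ⟨c35, c2680, c133, c181, c344, c1504, c39, c2684, c1170, c2175, c1982, c2106, c2128, c2235, c419, c2691, c2164, c2703, c2714, c2725, c2712, c2733, c2739, c2132, trivial⟩ (nd (nat_lit 209) (nat_lit 0) (cs (rf (nat_lit 0)) (cs (rf (nat_lit 1)) (cs (nd (nat_lit 207) (nat_lit 0) (cs (rf (nat_lit 2)) (cs (rf (nat_lit 3)) (cs (rf (nat_lit 4)) (cs (rf (nat_lit 5)) (nd (nat_lit 210) (nat_lit 0) (cs (rf (nat_lit 6)) (nd (nat_lit 231) (nat_lit 0) (cs (lf (nat_lit 42) (nat_lit 186)) (rf (nat_lit 7))))))))))) (nd (nat_lit 185)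 (nat_lit 0) (cs (rf (nat_lit 8)) (cs (rf (nat_lit 9)) (cs (nd (nat_lit 207) (nat_lit 0) (cs (rf (nat_lit 10)) (cs (rf (nat_lit 11)) (rf (nat_lit 12))))) (nd (nat_lit 187) (nat_lit 0) (cs (rf (nat_lit 13)) (cs (nd (nat_lit 207) (nat_lit 0) (cs (rf (nat_lit 14)) (cs (rf (nat_lit 11)) (nd (nat_lit 188) (nat_lit 0) (cs (lf (nat_lit 6) (nat_lit 185)) (nd (nat_lit 166) (nat_lit 0) (cs (lf (nat_lit 17) (nat_lit 163)) (nd (nat_lit 122) (nat_lit 0) (cs (lf (nat_lit 37) (nat_lit 121)) (nd (nat_lit 163) (nat_lit 0) (cs (lf (nat_lit 23) (nat_lit 162)) (nd (nat_lit 141) (nat_lit 0) (cs (lf (nat_lit 24) (nat_lit 119)) (nd (nat_lit 118) (nat_lit 0) (cs (lf (nat_lit 46) (nat_lit 118)) (nd (nat_lit 142) (nat_lit 0) (cs (lf (nat_lit 35) (nat_lit 119)) (rf (nat_lit 15))))))))))))))))))) (cs (nd (nat_lit 184) (nat_lit 0) (cs (lf (nat_lit 0) (nat_lit 183)) (rf (nat_lit 16)))) (cs (nd (nat_lit 164) (nat_lit 0) (cs (nd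 (nat_lit 142) (nat_lit 0) (cs (lf (nat_lit 24) (nat_lit 120)) (nd (nat_lit 207) (nat_lit 0) (cs (lf (nat_lit 41) (nat_lit 141)) (nd (nat_lit 206) (nat_lit 0) (cs (lf (nat_lit 12) (nat_lit 183)) (nd (nat_lit 121) (nat_lit 0) (cs (lf (nat_lit 34) (nat_lit 120)) (rf (nat_lit 17)))))))))) (cs (rf (nat_lit 18)) (cs (nd (nat_lit 142) (nat_lit 0) (cs (lf (nat_lit 24) (nat_lit 120)) (nd (nat_lit 184) (nat_lit 0) (cs (lf (nat_lit 0) (nat_lit 183)) (nd (nat_lit 121) (nat_lit 0) (cs (lf (nat_lit 34) (nat_lit 120)) (nd (nat_lit 165) (nat_lit 0) (cs (lf (nat_lit 17) (nat_lit 162)) (nd (nat_lit 141) (nat_lit 0) (cs (lf (nat_lit 47) (nat_lit 119)) (nd (nat_lit 206) (nat_lit 0) (cs (lf (nat_lit 11) (nat_lit 183)) (nd (nat_lit 140) (nat_lit 0) (cs (lf (nat_lit 0) (nat_lit 139)) (nd (nat_lit 162) (nat_lit 0) (cs (lf (nat_lit 23) (nat_lit 161)) (nd (nat_lit 207) (nat_lit 0) (cs (lf (nat_lit 24) (nat_lit 118)) (lf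 (nat_lit 41) (nat_lit 141)))))))))))))))))))) (cs (nd (nat_lit 142) (nat_lit 0) (cs (lf (nat_lit 24) (nat_lit 120)) (nd (nat_lit 183) (nat_lit 0) (cs (lf (nat_lit 1) (nat_lit 183)) (nd (nat_lit 141) (nat_lit 0) (cs (lf (nat_lit 47) (nat_lit 119)) (nd (nat_lit 207) (nat_lit 0) (cs (lf (nat_lit 41) (nat_lit 141)) (rf (nat_lit 19)))))))))) (nd (nat_lit 120) (nat_lit 0) (cs (lf (nat_lit 25) (nat_lit 120)) (nd (nat_lit 184) (nat_lit 0) (cs (lf (nat_lit 0) (nat_lit 183)) (rf (nat_lit 20))))))))))) (cs (rf (nat_lit 21)) (cs (rf (nat_lit 22)) (nd (nat_lit 184) (nat_lit 0) (cs (lf (nat_lit 0) (nat_lit 183)) (nd (nat_lit 165) (nat_lit 0) (cs (lf (nat_lit 17) (nat_lit 162)) (nd (nat_lit 121) (nat_lit 0) (cs (lf (nat_lit 37) (nat_lit 120)) (rf (nat_lit 23))))))))))))))))))))))) q2745 (by decide +kernel)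
def q2959 : Q := Q.p (nat_lit 0x2000008000030000000000000000000000000000000000000000000000000000) (nat_lit 0x100000780003f80001c0001400000e0000a0000000000000000000000000000000000000000000000) (nat_lit 9)
theorem c2959 : QOK q2959 := cut [q732, q2359, q2958] ⟨c732, c2359, c2958, trivial⟩ (nd (nat_lit 275) (nat_lit 0) (cs (rf (nat_lit 0)) (cs (rf (nat_lit 1)) (rf (nat_lit 2))))) q2959 (by decide +kernel)
def q3021 : Q := Q.p (nat_lit 0x2000000000030000000000000000000000000000000000000000000000000000) (nat_lit 0x140000700001c0000180007bc000ce0007fc000500000400000000000000000000000000000000000) (nat_lit 8)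
theorem c3021 : QOK q3021 := cut [q1595, q2932, q2990, q3020] ⟨c1595, c2932, c2990, c3020, trivial⟩ (nd (nat_lit 231) (nat_lit 0) (cs (rf (nat_lit 0)) (cs (rf (nat_lit 1)) (cs (rf (nat_lit 2)) (rf (nat_lit 3)))))) q3021 (by decide +kernel)
def q3022 : Q := Q.p (nat_lit 0x2000000000030000000000000000000000000000000000000000000000000000) (nat_lit 0x8000008000ffc001ce000ffc000500000400000000000000000000000000000000000) (nat_lit 9)
theorem c3022 : QOK q3022 := cut [q1563, q2966, q3020] ⟨c1563, c2966, c3020, trivial⟩ (nd (nat_lit 231) (nat_lit 0) (cs (rf (nat_lit 0)) (cs (rf (nat_lit 1)) (rf (nat_lit 2))))) q3022 (by decide +kernel)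
def q3116 : Q := Q.p (nat_lit 0x2000000000010000040000100000000000000000000000000000000000000000) (nat_lit 0x40007be000ef0007be000080000e0000380000a000000000000000000000000) (nat_lit 11)
theorem c3116 : QOK q3116 := cut [q559, q527, q530, q552, q2451, q2867] ⟨c559, c527, c530, c552, c2451, c2867, trivial⟩ (nd (nat_lit 207) (nat_lit 0) (cs (rf (nat_lit 0)) (cs (nd (nat_lit 206) (nat_lit 0) (cs (rf (nat_lit 1)) (cs (rf (nat_lit 2)) (cs (rf (nat_lit 3)) (rf (nat_lit 4)))))) (rf (nat_lit 5))))) q3116 (by decide +kernel)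
def q3469 : Q := Q.p (nat_lit 0x2000000000018000000000000000000000000000000000000000000000000000) (nat_lit 0x140000740001f80001f0003ff00067c001bf0007f0001fc0004f00000000000000000000000000000) (nat_lit 14)
theorem c3469 : QOK q3469 := cut [q3294, q3422, q3441, q3448, q3369, q3446, q3445, q3464] ⟨c3294, c3422, c3441, c3448, c3369, c3446, c3445, c3464, trivial⟩ (nd (nat_lit 206) (nat_lit 0) (cs (rf (nat_lit 0)) (cs (rf (nat_lit 1)) (cs (rf (nat_lit 2)) (cs (rf (nat_lit 3)) (cs (nd (nat_lit 231) (nat_lit 0) (cs (rf (nat_lit 4)) (cs (rf (nat_lit 5)) (nd (nat_lit 205) (nat_lit 0) (cs (lf (nat_lit 4) (nat_lit 205)) (nd (nat_lit 183) (nat_lit 0) (cs (lf (nat_lit 23) (nat_lit 182)) (nd (nat_lit 209) (nat_lit 0) (cs (lf (nat_lit 22) (nat_lit 183)) (rf (nat_lit 6))))))))))) (cs (rf (nat_lit 7)) (nd (nat_lit 231) (nat_lit 0) (cs (rf (nat_lit 4)) (cs (rf (nat_lit 5)) (nd (nat_lit 205) (nat_lit 0) (cs (lf (nat_lit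 4) (nat_lit 205)) (nd (nat_lit 227) (nat_lit 0) (cs (lf (nat_lit 11) (nat_lit 204)) (nd (nat_lit 209) (nat_lit 0) (cs (lf (nat_lit 10) (nat_lit 205)) (rf (nat_lit 6)))))))))))))))))) q3469 (by decide +kernel)
def q3700 : Q := Q.p (nat_lit 0x2000000000018000060000000000000000000000000000000000000000000000) (nat_lit 0x380001e00003c0000780019c0007f0000e00003800000000000000000000000000000) (nat_lit 11)
theorem c3700 : QOK q3700 := cut [q3500, q3536, q2312, q2409, q3688, q1132] ⟨c3500, c3536, c2312, c2409, c3688, c1132, trivial⟩ (nd (nat_lit 184) (nat_lit 0) (cs (rf (nat_lit 0)) (cs (rf (nat_lit 1)) (nd (nat_lit 206) (nat_lit 0) (cs (rf (nat_lit 2)) (cs (nd (nat_lit 163) (nat_lit 0) (cs (rf (nat_lit 3)) (cs (nd (nat_lit 187) (nat_lit 0) (cs (lf (nat_lit 6) (nat_lit 184)) (nd (nat_lit 165) (nat_lit 0) (cs (lf (nat_lit 17) (nat_lit 162)) (nd (nat_lit 121) (nat_lit 0) (cs (lf (nat_lit 37) (nat_lit 120))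 (nd (nat_lit 162) (nat_lit 0) (cs (lf (nat_lit 23) (nat_lit 161)) (nd (nat_lit 141) (nat_lit 0) (cs (lf (nat_lit 24) (nat_lit 119)) (nd (nat_lit 229) (nat_lit 0) (cs (lf (nat_lit 42) (nat_lit 162)) (nd (nat_lit 142) (nat_lit 0) (cs (lf (nat_lit 35) (nat_lit 119)) (lf (nat_lit 37) (nat_lit 141)))))))))))))))) (nd (nat_lit 187) (nat_lit 0) (cs (lf (nat_lit 6) (nat_lit 184)) (nd (nat_lit 165) (nat_lit 0) (cs (lf (nat_lit 17) (nat_lit 162)) (nd (nat_lit 121) (nat_lit 0) (cs (lf (nat_lit 37) (nat_lit 120)) (nd (nat_lit 162) (nat_lit 0) (cs (lf (nat_lit 23) (nat_lit 161)) (nd (nat_lit 228) (nat_lit 0) (cs (lf (nat_lit 30) (nat_lit 162)) (rf (nat_lit 4))))))))))))))) (nd (nat_lit 205) (nat_lit 0) (cs (lf (nat_lit 12) (nat_lit 182)) (nd (nat_lit 227) (nat_lit 0) (cs (lf (nat_lit 11) (nat_lit 204)) (nd (nat_lit 249) (nat_lit 0) (cs (lf (nat_lit 30) (nat_lit 183)) (nd (nat_lit 228) (nat_lit 0) (cs (rf (nat_lit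 5)) (lf (nat_lit 36) (nat_lit 161)))))))))))))))) q3700 (by decide +kernel)
def q4056 : Q := Q.p (nat_lit 0x2000004000018000000000000000000000000000000000000000000000000000) (nat_lit 0x300000f0001fe0007f80001e0003be000270001ae000280000200000000000000000000000000000000000) (nat_lit 14)
theorem c4056 : QOK q4056 := cut [q1411, q4006, q4007, q4031, q4032, q4040, q4055] ⟨c1411, c4006, c4007, c4031, c4032, c4040, c4055, trivial⟩ (nd (nat_lit 252) (nat_lit 0) (cs (rf (nat_lit 0)) (cs (nd (nat_lit 206) (nat_lit 0) (cs (rf (nat_lit 1)) (cs (rf (nat_lit 2)) (cs (rf (nat_lit 3)) (rf (nat_lit 4)))))) (cs (rf (nat_lit 5)) (rf (nat_lit 6)))))) q4056 (by decide +kernel)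
def q4079 : Q := Q.p (nat_lit 0x2000000000018000040000000000000000000000000000000000000000000000) (nat_lit 0x800000000078e001e70001bc000100000400000000000000000000000000000000000) (nat_lit 8)
theorem c4079 : QOK q4079 := cut [q35, q2632, q4078] ⟨c35, c2632, c4078, trivial⟩ (nd (nat_lit 209) (nat_lit 0) (cs (rf (nat_lit 0)) (cs (rf (nat_lit 1)) (rf (nat_lit 2))))) q4079 (by decide +kernel)
def q4176 : Q := Q.p (nat_lit 0x2000000000018000000000000000000000000000000000000000000000000000) (nat_lit 0x360000f8001fe0007ff0001f8003ff000270001f00003e0000b80000e00002000000000000000000000000) (nat_lit 16)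
theorem c4176 : QOK q4176 := cut [q3989, q3992, q3996, q4069, q1411, q4040, q4055, q1156, q4031, q4165, q4167, q4173] ⟨c3989, c3992, c3996, c4069, c1411, c4040, c4055, c1156, c4031, c4165, c4167, c4173, trivial⟩ (nd (nat_lit 230) (nat_lit 0) (cs (rf (nat_lit 0)) (cs (rf (nat_lit 1)) (cs (rf (nat_lit 2)) (cs (rf (nat_lit 3)) (nd (nat_lit 252) (nat_lit 0) (cs (rf (nat_lit 4)) (cs (rf (nat_lit 5)) (cs (rf (nat_lit 6)) (nd (nat_lit 206) (nat_lit 0) (cs (rf (nat_lit 7)) (cs (rf (nat_lit 8)) (cs (rf (nat_lit 9)) (cs (rf (nat_lit 10)) (rf (nat_lit 11)))))))))))))))) q4176 (by decide +kernel)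
def q4281 : Q := Q.p (nat_lit 0x2000000000018000000000000000000000000000000000000000000000000000) (nat_lit 0x300000e8001fe0007f80001f0003ff00067c000ff0003e0000b80000a00000000000000000000000000000) (nat_lit 17)
theorem c4281 : QOK q4281 := cut [q3989, q3992, q3996, q4069, q1411, q4040, q4055, q1156, q3464, q4007, q4032, q3398, q3421, q4030, q4272] ⟨c3989, c3992, c3996, c4069, c1411, c4040, c4055, c1156, c3464, c4007, c4032, c3398, c3421, c4030, c4272, trivial⟩ (nd (nat_lit 230) (nat_lit 0) (cs (rf (nat_lit 0)) (cs (rf (nat_lit 1)) (cs (rf (nat_lit 2)) (cs (rf (nat_lit 3)) (nd (nat_lit 252) (nat_lit 0) (cs (rf (nat_lit 4)) (cs (rf (nat_lit 5)) (cs (rf (nat_lit 6)) (nd (nat_lit 206) (nat_lit 0) (cs (rf (nat_lit 7)) (cs (rf (nat_lit 8)) (cs (rf (nat_lit 9)) (cs (rf (nat_lit 10)) (nd (nat_lit 228) (nat_lit 0) (cs (rf (nat_lit 11)) (cs (rf (nat_lit 12)) (cs (rf (nat_lit 13)) (nd (nat_lit 209) (nat_lit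 0) (cs (lf (nat_lit 11) (nat_lit 205)) (nd (nat_lit 183) (nat_lit 0) (cs (lf (nat_lit 22) (nat_lit 183)) (nd (nat_lit 231) (nat_lit 0) (cs (lf (nat_lit 5) (nat_lit 206)) (nd (nat_lit 165) (nat_lit 0) (cs (rf (nat_lit 14)) (lf (nat_lit 37) (nat_lit 164)))))))))))))))))))))))))))) q4281 (by decide +kernel)
def q5043 : Q := Q.p (nat_lit 0x2000000000018000000000000000000000000000000000000000000000000000) (nat_lit 0x700001c0003fe0007f0001fe0001fc0001e0007fc001e0000ffc0005f0000f00003c0000e000000000000000000000000) (nat_lit 15)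
theorem c5043 : QOK q5043 := cut [q516, q3195, q3819, q35, q123, q3138, q2398, q2618, q39, q2404, q2456, q2066, q3178, q5034, q5042] ⟨c516, c3195, c3819, c35, c123, c3138, c2398, c2618, c39, c2404, c2456, c2066, c3178, c5034, c5042, trivial⟩ (nd (nat_lit 186) (nat_lit 0) (cs (rf (nat_lit 0)) (cs (rf (nat_lit 1)) (cs (rf (nat_lit 2)) (cs (nd (nat_lit 209) (nat_lit 0) (cs (rf (nat_lit 3)) (cs (rf (nat_lit 4)) (rf (nat_lit 5))))) (cs (nd (nat_lit 275) (nat_lit 0) (cs (rf (nat_lit 6)) (cs (rf (nat_lit 7)) (cs (nd (nat_lit 209) (nat_lit 0) (cs (lf (nat_lit 44) (nat_lit 186)) (nd (nat_lit 210) (nat_lit 0) (cs (rf (nat_lit 8)) (cs (rf (nat_lit 9)) (rf (nat_lit 10))))))) (nd (nat_lit 252) (nat_lit 0) (cs (lf (nat_lit 26) (nat_lit 186)) (nd (nat_lit 251) (nat_lit 0) (cs (rf (nat_lit 11)) (rf (nat_lit 12)))))))))) (cs (rf (nat_lit 13)) (rf (nat_lit 14))))))))) q5043 (by decide +kernel)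
def q5364 : Q := Q.p (nat_lit 0x2000000000018000000000000000000000000000000000000000000000000000) (nat_lit 0x20000380000e0000fe0001fc0001f8003fc000070001fe0001fc000fc0003f0000c000000000000000000000000) (nat_lit 15)
theorem c5364 : QOK q5364 := cut [q5055, q5240, q5241, q5352, q5354, q5362, q5363] ⟨c5055, c5240, c5241, c5352, c5354, c5362, c5363, trivial⟩ (nd (nat_lit 230) (nat_lit 0) (cs (rf (nat_lit 0)) (cs (rf (nat_lit 1)) (cs (rf (nat_lit 2)) (cs (rf (nat_lit 3)) (cs (rf (nat_lit 4)) (cs (rf (nat_lit 5)) (rf (nat_lit 6))))))))) q5364 (by decide +kernel)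
def q5532 : Q := Q.p (nat_lit 0x2000000000018000000000000000000000000000000000000000000000000000) (nat_lit 0x3f8001fc0001f800f7e001e7800ffe0001f0000780001c00004000000000000000000000000) (nat_lit 13)
theorem c5532 : QOK q5532 := cut [q5376, q5389, q5398, q5403, q5406, q5413, q1119, q2926, q117, q1464, q1550, q1490, q5419, q1832, q1857, q5432, q1845, q5435, q5439, q5445, q5460, q5475, q5483, q1850, q5023, q5492, q5495, q5498, q5520, q5473, q5525] ⟨c5376, c5389, c5398, c5403, c5406, c5413, c1119, c2926, c117, c1464, c1550, c1490, c5419, c1832, c1857, c5432, c1845, c5435, c5439, c5445, c5460, c5475, c5483, c1850, c5023, c5492, c5495, c5498, c5520, c5473, c5525, trivial⟩ (nd (nat_lit 229) (nat_lit 0) (cs (nd (nat_lit 228) (nat_lit 0) (cs (rf (nat_lit 0)) (cs (rf (nat_lit 1)) (cs (nd (nat_lit 206) (nat_lit 0) (cs (nd (nat_lit 209) (nat_lit 0) (cs (lf (nat_lit 6) (nat_lit 206)) (nd (nat_lit 187) (nat_lit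 0) (cs (lf (nat_lit 17) (nat_lit 184)) (nd (nat_lit 186) (nat_lit 0) (cs (lf (nat_lit 12) (nat_lit 183)) (rf (nat_lit 2)))))))) (cs (rf (nat_lit 3)) (rf (nat_lit 4))))) (rf (nat_lit 5)))))) (cs (nd (nat_lit 209) (nat_lit 0) (cs (rf (nat_lit 6)) (cs (rf (nat_lit 7)) (nd (nat_lit 206) (nat_lit 0) (cs (rf (nat_lit 8)) (cs (rf (nat_lit 9)) (cs (rf (nat_lit 10)) (nd (nat_lit 228) (nat_lit 0) (cs (rf (nat_lit 11)) (nd (nat_lit 184) (nat_lit 0) (cs (lf (nat_lit 23) (nat_lit 183)) (nd (nat_lit 187) (nat_lit 0) (cs (lf (nat_lit 17) (nat_lit 184)) (nd (nat_lit 162) (nat_lit 0) (cs (lf (nat_lit 24) (nat_lit 140)) (nd (nat_lit 139) (nat_lit 0) (cs (lf (nat_lit 46) (nat_lit 139)) (rf (nat_lit 12))))))))))))))))))) (cs (nd (nat_lit 251) (nat_lit 0) (cs (rf (nat_lit 13)) (cs (rf (nat_lit 14)) (cs (rf (nat_lit 15)) (nd (nat_lit 273) (nat_lit 0) (cs (rf (nat_lit 16)) (cs (rf (nat_lit 17)) (cs (nd (nat_lit 274) (nat_lit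 0) (cs (lf (nat_lit 29) (nat_lit 207)) (rf (nat_lit 18)))) (nd (nat_lit 184) (nat_lit 0) (cs (lf (nat_lit 46) (nat_lit 184)) (rf (nat_lit 19)))))))))))) (cs (rf (nat_lit 20)) (cs (rf (nat_lit 21)) (cs (nd (nat_lit 251) (nat_lit 0) (cs (rf (nat_lit 13)) (cs (rf (nat_lit 22)) (cs (nd (nat_lit 273) (nat_lit 0) (cs (rf (nat_lit 23)) (cs (rf (nat_lit 19)) (cs (nd (nat_lit 230) (nat_lit 0) (cs (lf (nat_lit 30) (nat_lit 207)) (nd (nat_lit 274) (nat_lit 0) (cs (lf (nat_lit 29) (nat_lit 207)) (nd (nat_lit 185) (nat_lit 0) (cs (lf (nat_lit 43) (nat_lit 185)) (nd (nat_lit 163) (nat_lit 0) (cs (lf (nat_lit 24) (nat_lit 141)) (nd (nat_lit 140) (nat_lit 0) (cs (lf (nat_lit 46) (nat_lit 140)) (nd (nat_lit 142) (nat_lit 0) (cs (lf (nat_lit 34) (nat_lit 141)) (rf (nat_lit 24)))))))))))))) (cs (rf (nat_lit 25)) (rf (nat_lit 26))))))) (rf (nat_lit 27)))))) (cs (rf (nat_lit 28)) (cs (nd (nat_lit 251) (nat_lit 0) (cs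 (rf (nat_lit 13)) (cs (rf (nat_lit 14)) (cs (rf (nat_lit 22)) (nd (nat_lit 273) (nat_lit 0) (cs (rf (nat_lit 16)) (cs (rf (nat_lit 17)) (cs (rf (nat_lit 18)) (rf (nat_lit 29)))))))))) (nd (nat_lit 251) (nat_lit 0) (cs (rf (nat_lit 13)) (cs (rf (nat_lit 14)) (cs (rf (nat_lit 22)) (nd (nat_lit 273) (nat_lit 0) (cs (rf (nat_lit 23)) (cs (rf (nat_lit 29)) (cs (rf (nat_lit 26)) (nd (nat_lit 184) (nat_lit 0) (cs (lf (nat_lit 46) (nat_lit 184)) (nd (nat_lit 274) (nat_lit 0) (cs (lf (nat_lit 29) (nat_lit 207)) (nd (nat_lit 185) (nat_lit 0) (cs (lf (nat_lit 28) (nat_lit 185)) (nd (nat_lit 209) (nat_lit 0) (cs (lf (nat_lit 18) (nat_lit 184)) (rf (nat_lit 30))))))))))))))))))))))))))) q5532 (by decide +kernel)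
def q5666 : Q := Q.p (nat_lit 0x2000000000010000040000000000000000000000000000000000000000000000) (nat_lit 0x700001c0003fe0007f0001fe0007fc0009e0007fe001ef000fbe0000f8000780000e00002800000000000000000000000) (nat_lit 15)
theorem c5666 : QOK q5666 := cut [q510, q2398, q72, q75, q104, q82, q87, q98, q2404, q2618, q1999, q2066, q2091, q1998, q2068, q2074, q2081, q2086, q2514, q2040, q2054, q2056, q2059, q527, q530, q2451, q2020, q2412, q2415, q2458, q2468, q5640, q529, q2477, q2500, q2479, q5648, q2486, q5653] ⟨c510, c2398, c72, c75, c104, c82, c87, c98, c2404, c2618, c1999, c2066, c2091, c1998, c2068, c2074, c2081, c2086, c2514, c2040, c2054, c2056, c2059, c527, c530, c2451, c2020, c2412, c2415, c2458, c2468, c5640, c529, c2477, c2500, c2479, c5648, c2486, c5653, trivial⟩ (nd (nat_lit 275) (nat_lit 0) (cs (nd (nat_lit 231) (nat_lit 0) (cs (rf (nat_lit 0)) (lf (nat_lit 45) (nat_lit 186)))) (cs (rf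 (nat_lit 1)) (cs (nd (nat_lit 209) (nat_lit 0) (cs (lf (nat_lit 44) (nat_lit 186)) (nd (nat_lit 210) (nat_lit 0) (cs (rf (nat_lit 2)) (cs (rf (nat_lit 3)) (cs (rf (nat_lit 4)) (nd (nat_lit 207) (nat_lit 0) (cs (rf (nat_lit 5)) (cs (rf (nat_lit 6)) (cs (rf (nat_lit 7)) (rf (nat_lit 8)))))))))))) (cs (rf (nat_lit 9)) (nd (nat_lit 252) (nat_lit 0) (cs (lf (nat_lit 26) (nat_lit 186)) (nd (nat_lit 251) (nat_lit 0) (cs (rf (nat_lit 10)) (cs (rf (nat_lit 11)) (cs (rf (nat_lit 12)) (cs (nd (nat_lit 250) (nat_lit 0) (cs (rf (nat_lit 13)) (cs (rf (nat_lit 14)) (nd (nat_lit 228) (nat_lit 0) (cs (lf (nat_lit 23) (nat_lit 227)) (nd (nat_lit 206) (nat_lit 0) (cs (rf (nat_lit 15)) (cs (rf (nat_lit 16)) (cs (rf (nat_lit 17)) (rf (nat_lit 18))))))))))) (nd (nat_lit 207) (nat_lit 0) (cs (nd (nat_lit 273) (nat_lit 0) (cs (lf (nat_lit 32) (nat_lit 185)) (nd (nat_lit 274) (nat_lit 0) (cs (rf (nat_lit 19)) (cs (rf (nat_lit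 20)) (cs (rf (nat_lit 21)) (rf (nat_lit 22)))))))) (cs (nd (nat_lit 206) (nat_lit 0) (cs (rf (nat_lit 23)) (cs (rf (nat_lit 24)) (cs (rf (nat_lit 25)) (nd (nat_lit 184) (nat_lit 0) (cs (rf (nat_lit 26)) (cs (rf (nat_lit 27)) (nd (nat_lit 209) (nat_lit 0) (cs (lf (nat_lit 23) (nat_lit 183)) (nd (nat_lit 187) (nat_lit 0) (cs (lf (nat_lit 17) (nat_lit 184)) (rf (nat_lit 28))))))))))))) (nd (nat_lit 206) (nat_lit 0) (cs (rf (nat_lit 23)) (cs (rf (nat_lit 24)) (cs (rf (nat_lit 25)) (nd (nat_lit 209) (nat_lit 0) (cs (rf (nat_lit 29)) (cs (nd (nat_lit 188) (nat_lit 0) (cs (lf (nat_lit 16) (nat_lit 184)) (nd (nat_lit 227) (nat_lit 0) (cs (lf (nat_lit 10) (nat_lit 205)) (nd (nat_lit 210) (nat_lit 0) (cs (lf (nat_lit 17) (nat_lit 185)) (rf (nat_lit 30)))))))) (cs (nd (nat_lit 227) (nat_lit 0) (cs (lf (nat_lit 10) (nat_lit 205)) (nd (nat_lit 184) (nat_lit 0) (cs (lf (nat_lit 23) (nat_lit 183)) (nd (nat_lit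 210) (nat_lit 0) (cs (lf (nat_lit 22) (nat_lit 184)) (nd (nat_lit 188) (nat_lit 0) (cs (lf (nat_lit 17) (nat_lit 185)) (rf (nat_lit 31)))))))))) (cs (nd (nat_lit 187) (nat_lit 0) (cs (rf (nat_lit 32)) (nd (nat_lit 184) (nat_lit 0) (cs (lf (nat_lit 23) (nat_lit 183)) (nd (nat_lit 162) (nat_lit 0) (cs (rf (nat_lit 33)) (cs (rf (nat_lit 34)) (cs (nd (nat_lit 228) (nat_lit 0) (cs (lf (nat_lit 11) (nat_lit 205)) (nd (nat_lit 185) (nat_lit 0) (cs (lf (nat_lit 23) (nat_lit 161)) (rf (nat_lit 35)))))) (cs (rf (nat_lit 36)) (nd (nat_lit 228) (nat_lit 0) (cs (lf (nat_lit 11) (nat_lit 205)) (rf (nat_lit 37))))))))))))) (cs (nd (nat_lit 227) (nat_lit 0) (cs (lf (nat_lit 10) (nat_lit 205)) (nd (nat_lit 184) (nat_lit 0) (cs (lf (nat_lit 23) (nat_lit 183)) (nd (nat_lit 210) (nat_lit 0) (cs (lf (nat_lit 22) (nat_lit 184)) (rf (nat_lit 38)))))))) (nd (nat_lit 183) (nat_lit 0) (cs (lf (nat_lit 22) (nat_lit 183))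 (nd (nat_lit 227) (nat_lit 0) (cs (lf (nat_lit 10) (nat_lit 205)) (nd (nat_lit 188) (nat_lit 0) (cs (lf (nat_lit 16) (nat_lit 184)) (nd (nat_lit 210) (nat_lit 0) (cs (lf (nat_lit 17) (nat_lit 185)) (rf (nat_lit 31))))))))))))))))))))))))))))))))))) q5666 (by decide +kernel)
def q5700 : Q := Q.p (nat_lit 0x2000000000030000040000000000000000000000000000000000000000000000) (nat_lit 0x1f00001c0007be001cf000ebe000080000200000000000000000000000000000000000) (nat_lit 10)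
theorem c5700 : QOK q5700 := cut [q344, q2629, q2630, q2632, q2677, q5699] ⟨c344, c2629, c2630, c2632, c2677, c5699, trivial⟩ (nd (nat_lit 207) (nat_lit 0) (cs (rf (nat_lit 0)) (cs (rf (nat_lit 1)) (cs (rf (nat_lit 2)) (cs (rf (nat_lit 3)) (cs (rf (nat_lit 4)) (rf (nat_lit 5)))))))) q5700 (by decide +kernel)
def q5810 : Q := Q.p (nat_lit 0x38000060000000000000000000000000000000000000000000000) (nat_lit 0x31c000c700028e001ff0003f8001ff0003f0000f8000060000000000000) (nat_lit 15)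
theorem c5810 : QOK q5810 := cut [q130, q2094, q2724, q5701, q5702, q5718, q5728, q5749, q5770, q5780, q5713, q5803, q5808] ⟨c130, c2094, c2724, c5701, c5702, c5718, c5728, c5749, c5770, c5780, c5713, c5803, c5808, trivial⟩ (nd (nat_lit 206) (nat_lit 0) (cs (rf (nat_lit 0)) (cs (rf (nat_lit 1)) (nd (nat_lit 141) (nat_lit 0) (cs (rf (nat_lit 2)) (cs (nd (nat_lit 142) (nat_lit 0) (cs (rf (nat_lit 3)) (cs (nd (nat_lit 143) (nat_lit 0) (cs (rf (nat_lit 4)) (nd (nat_lit 227) (nat_lit 0) (cs (lf (nat_lit 10) (nat_lit 205)) (rf (nat_lit 5)))))) (cs (nd (nat_lit 143) (nat_lit 0) (cs (rf (nat_lit 5)) (cs (nd (nat_lit 144) (nat_lit 0) (cs (rf (nat_lit 6)) (cs (nd (nat_lit 122) (nat_lit 0) (cs (lf (nat_lit 17) (nat_lit 119)) (nd (nat_lit 100) (nat_lit 0) (cs (nd (nat_lit 165) (nat_lit 0) (cs (lf (nat_lit 36) (nat_lit 77)) (lf (nat_lit 31) (nat_lit 121)))) (nd (nat_lit 119) (nat_lit 0) (cs (lf (nat_lit 23)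 (nat_lit 118)) (nd (nat_lit 227) (nat_lit 0) (cs (lf (nat_lit 10) (nat_lit 205)) (nd (nat_lit 210) (nat_lit 0) (cs (lf (nat_lit 18) (nat_lit 185)) (nd (nat_lit 166) (nat_lit 0) (cs (nd (nat_lit 99) (nat_lit 0) (cs (lf (nat_lit 47) (nat_lit 77)) (nd (nat_lit 101) (nat_lit 0) (cs (lf (nat_lit 35) (nat_lit 78)) (nd (nat_lit 120) (nat_lit 0) (cs (lf (nat_lit 14) (nat_lit 97)) (lf (nat_lit 9) (nat_lit 97)))))))) (lf (nat_lit 5) (nat_lit 141)))))))))))))) (cs (rf (nat_lit 7)) (nd (nat_lit 119) (nat_lit 0) (cs (lf (nat_lit 23) (nat_lit 118)) (nd (nat_lit 120) (nat_lit 0) (cs (nd (nat_lit 122) (nat_lit 0) (cs (lf (nat_lit 17) (nat_lit 119)) (nd (nat_lit 165) (nat_lit 0) (cs (lf (nat_lit 31) (nat_lit 121)) (nd (nat_lit 76) (nat_lit 0) (cs (nd (nat_lit 100) (nat_lit 0) (cs (lf (nat_lit 36) (nat_lit 77)) (nd (nat_lit 121) (nat_lit 0) (cs (nd (nat_lit 97) (nat_lit 0) (cs (nd (nat_lit 75) (nat_lit 0) (cs (lf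 (nat_lit 24) (nat_lit 53)) (lf (nat_lit 35) (nat_lit 53)))) (lf (nat_lit 23) (nat_lit 96)))) (lf (nat_lit 17) (nat_lit 97)))))) (lf (nat_lit 25) (nat_lit 76)))))))) (lf (nat_lit 18) (nat_lit 119)))))))))) (cs (nd (nat_lit 227) (nat_lit 0) (cs (lf (nat_lit 10) (nat_lit 205)) (nd (nat_lit 210) (nat_lit 0) (cs (lf (nat_lit 18) (nat_lit 185)) (nd (nat_lit 232) (nat_lit 0) (cs (lf (nat_lit 5) (nat_lit 207)) (nd (nat_lit 165) (nat_lit 0) (cs (lf (nat_lit 26) (nat_lit 143)) (nd (nat_lit 140) (nat_lit 0) (cs (lf (nat_lit 5) (nat_lit 140)) (rf (nat_lit 8)))))))))))) (cs (nd (nat_lit 144) (nat_lit 0) (cs (rf (nat_lit 6)) (cs (rf (nat_lit 7)) (nd (nat_lit 227) (nat_lit 0) (cs (lf (nat_lit 10) (nat_lit 205)) (rf (nat_lit 9))))))) (nd (nat_lit 122) (nat_lit 0) (cs (nd (nat_lit 227) (nat_lit 0) (cs (lf (nat_lit 10) (nat_lit 205)) (nd (nat_lit 123) (nat_lit 0) (cs (nd (nat_lit 121) (nat_lit 0) (cs (lf (nat_lit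 12) (nat_lit 118)) (lf (nat_lit 6) (nat_lit 120)))) (lf (nat_lit 15) (nat_lit 119)))))) (cs (nd (nat_lit 144) (nat_lit 0) (cs (lf (nat_lit 17) (nat_lit 119)) (nd (nat_lit 227) (nat_lit 0) (cs (lf (nat_lit 10) (nat_lit 205)) (nd (nat_lit 211) (nat_lit 0) (cs (lf (nat_lit 19) (nat_lit 185)) (nd (nat_lit 165) (nat_lit 0) (cs (lf (nat_lit 31) (nat_lit 121)) (nd (nat_lit 78) (nat_lit 0) (cs (lf (nat_lit 37) (nat_lit 77)) (nd (nat_lit 119) (nat_lit 0) (cs (lf (nat_lit 23) (nat_lit 118)) (nd (nat_lit 145) (nat_lit 0) (cs (lf (nat_lit 22) (nat_lit 119)) (nd (nat_lit 167) (nat_lit 0) (cs (lf (nat_lit 5) (nat_lit 142)) (lf (nat_lit 43) (nat_lit 122)))))))))))))))))) (nd (nat_lit 140) (nat_lit 0) (cs (lf (nat_lit 16) (nat_lit 118)) (nd (nat_lit 210) (nat_lit 0) (cs (lf (nat_lit 18) (nat_lit 185)) (rf (nat_lit 10)))))))))))))) (rf (nat_lit 11)))))) (rf (nat_lit 12)))))))) q5810 (by decide +kernel)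
def q6041 : Q := Q.p (nat_lit 0x2000000000018000040000000000000000000000000000000000000000000000) (nat_lit 0x200000fc0001f0001fc000078000bc0002f8001fc0003f00005800000000000000000000000) (nat_lit 15)
theorem c6041 : QOK q6041 := cut [q1615, q1939, q2690, q5518, q3527, q3536, q3543, q3565, q3735, q5963, q5982, q5999, q3507, q3560, q3564, q6007, q6030] ⟨c1615, c1939, c2690, c5518, c3527, c3536, c3543, c3565, c3735, c5963, c5982, c5999, c3507, c3560, c3564, c6007, c6030, trivial⟩ (nd (nat_lit 185) (nat_lit 0) (cs (nd (nat_lit 163) (nat_lit 0) (cs (rf (nat_lit 0)) (cs (rf (nat_lit 1)) (nd (nat_lit 229) (nat_lit 0) (cs (rf (nat_lit 2)) (cs (rf (nat_lit 3)) (nd (nat_lit 230) (nat_lit 0) (cs (lf (nat_lit 42) (nat_lit 163)) (nd (nat_lit 228) (nat_lit 0) (cs (lf (nat_lit 41) (nat_lit 162)) (nd (nat_lit 162) (nat_lit 0) (cs (lf (nat_lit 47) (nat_lit 140)) (nd (nat_lit 227) (nat_lit 0) (cs (lf (nat_lit 12)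 (nat_lit 204)) (nd (nat_lit 249) (nat_lit 0) (cs (lf (nat_lit 11) (nat_lit 226)) (nd (nat_lit 205) (nat_lit 0) (cs (lf (nat_lit 23) (nat_lit 204)) (nd (nat_lit 183) (nat_lit 0) (cs (lf (nat_lit 34) (nat_lit 161)) (nd (nat_lit 160) (nat_lit 0) (cs (lf (nat_lit 46) (nat_lit 160)) (lf (nat_lit 1) (nat_lit 160)))))))))))))))))))))))) (cs (nd (nat_lit 184) (nat_lit 0) (cs (rf (nat_lit 4)) (cs (rf (nat_lit 5)) (cs (rf (nat_lit 6)) (cs (rf (nat_lit 7)) (rf (nat_lit 8))))))) (cs (nd (nat_lit 163) (nat_lit 0) (cs (rf (nat_lit 0)) (cs (rf (nat_lit 1)) (nd (nat_lit 229) (nat_lit 0) (cs (rf (nat_lit 2)) (cs (rf (nat_lit 3)) (nd (nat_lit 230) (nat_lit 0) (cs (lf (nat_lit 42) (nat_lit 163)) (nd (nat_lit 228) (nat_lit 0) (cs (lf (nat_lit 41) (nat_lit 162)) (nd (nat_lit 227) (nat_lit 0) (cs (lf (nat_lit 12) (nat_lit 204)) (nd (nat_lit 249) (nat_lit 0) (cs (lf (nat_lit 11) (nat_lit 226)) (nd (nat_lit 162) (nat_lit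 0) (cs (lf (nat_lit 47) (nat_lit 140)) (nd (nat_lit 161) (nat_lit 0) (cs (lf (nat_lit 0) (nat_lit 160)) (nd (nat_lit 184) (nat_lit 0) (cs (lf (nat_lit 18) (nat_lit 161)) (lf (nat_lit 38) (nat_lit 161)))))))))))))))))))))) (cs (rf (nat_lit 9)) (cs (rf (nat_lit 10)) (cs (rf (nat_lit 11)) (cs (nd (nat_lit 184) (nat_lit 0) (cs (rf (nat_lit 4)) (cs (rf (nat_lit 6)) (cs (rf (nat_lit 8)) (cs (nd (nat_lit 206) (nat_lit 0) (cs (rf (nat_lit 12)) (cs (rf (nat_lit 13)) (cs (rf (nat_lit 14)) (nd (nat_lit 183) (nat_lit 0) (cs (lf (nat_lit 0) (nat_lit 182)) (nd (nat_lit 205) (nat_lit 0) (cs (lf (nat_lit 12) (nat_lit 182)) (nd (nat_lit 160) (nat_lit 0) (cs (lf (nat_lit 22) (nat_lit 160)) (rf (nat_lit 15)))))))))))) (nd (nat_lit 183) (nat_lit 0) (cs (lf (nat_lit 0) (nat_lit 182)) (nd (nat_lit 160) (nat_lit 0) (cs (lf (nat_lit 22) (nat_lit 160)) (nd (nat_lit 205) (nat_lit 0) (cs (lf (nat_lit 11) (nat_lit 182)) (nd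 (nat_lit 206) (nat_lit 0) (cs (lf (nat_lit 17) (nat_lit 183)) (rf (nat_lit 15))))))))))))))) (cs (rf (nat_lit 16)) (nd (nat_lit 163) (nat_lit 0) (cs (rf (nat_lit 0)) (cs (rf (nat_lit 1)) (nd (nat_lit 229) (nat_lit 0) (cs (rf (nat_lit 2)) (cs (rf (nat_lit 3)) (nd (nat_lit 230) (nat_lit 0) (cs (lf (nat_lit 42) (nat_lit 163)) (nd (nat_lit 228) (nat_lit 0) (cs (lf (nat_lit 41) (nat_lit 162)) (nd (nat_lit 162) (nat_lit 0) (cs (lf (nat_lit 47) (nat_lit 140)) (nd (nat_lit 161) (nat_lit 0) (cs (lf (nat_lit 0) (nat_lit 160)) (nd (nat_lit 184) (nat_lit 0) (cs (lf (nat_lit 18) (nat_lit 161)) (nd (nat_lit 182) (nat_lit 0) (cs (lf (nat_lit 1) (nat_lit 182)) (nd (nat_lit 206) (nat_lit 0) (cs (lf (nat_lit 47) (nat_lit 139)) (nd (nat_lit 205) (nat_lit 0) (cs (lf (nat_lit 12) (nat_lit 182)) (lf (nat_lit 5) (nat_lit 205))))))))))))))))))))))))))))))))) q6041 (by decide +kernel)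
def q6589 : Q := Q.p (nat_lit 0x2000000000018000000000000000000000000000000000000000000000000000) (nat_lit 0x800003c0001fe0001f0001fc00023800fff003ffc00fff003ffc001f000078000040000000000000) (nat_lit 17)
theorem c6589 : QOK q6589 := cut [q6203, q6279, q6496, q1615, q1621, q1658, q1939, q6176, q6185, q6307, q6498, q6510, q6548, q6550, q8, q639, q3175, q3527, q2147, q6514, q1246, q5247, q4265, q6556, q6559, q6562, q6563, q6566, q905, q4240, q4266, q6572, q1723, q6173, q6580, q1745, q6182, q6383, q6180, q3194, q5835, q3744, q3813] ⟨c6203, c6279, c6496, c1615, c1621, c1658, c1939, c6176, c6185, c6307, c6498, c6510, c6548, c6550, c8, c639, c3175, c3527, c2147, c6514, c1246, c5247, c4265, c6556, c6559, c6562, c6563, c6566, c905, c4240, c4266, c6572, c1723, c6173, c6580, c1745, c6182, c6383, c6180, c3194, c5835, c3744, c3813, trivial⟩ (nd (nat_lit 185) (nat_lit 0) (cs (rf (nat_lit 0)) (cs (rf (nat_lit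 1)) (cs (rf (nat_lit 2)) (cs (nd (nat_lit 163) (nat_lit 0) (cs (rf (nat_lit 3)) (cs (rf (nat_lit 4)) (cs (rf (nat_lit 5)) (cs (rf (nat_lit 6)) (nd (nat_lit 229) (nat_lit 0) (cs (nd (nat_lit 164) (nat_lit 0) (cs (lf (nat_lit 35) (nat_lit 141)) (nd (nat_lit 186) (nat_lit 0) (cs (lf (nat_lit 30) (nat_lit 163)) (rf (nat_lit 7)))))) (cs (rf (nat_lit 8)) (cs (rf (nat_lit 9)) (nd (nat_lit 140) (nat_lit 0) (cs (lf (nat_lit 46) (nat_lit 140)) (nd (nat_lit 228) (nat_lit 0) (cs (lf (nat_lit 41) (nat_lit 162)) (nd (nat_lit 226) (nat_lit 0) (cs (lf (nat_lit 13) (nat_lit 204)) (rf (nat_lit 10))))))))))))))))) (cs (rf (nat_lit 11)) (cs (rf (nat_lit 12)) (cs (nd (nat_lit 230) (nat_lit 0) (cs (rf (nat_lit 13)) (cs (nd (nat_lit 186) (nat_lit 0) (cs (rf (nat_lit 14)) (cs (rf (nat_lit 15)) (nd (nat_lit 184) (nat_lit 0) (cs (rf (nat_lit 16)) (cs (rf (nat_lit 17)) (nd (nat_lit 187) (nat_lit 0) (cs (rf (nat_lit 18)) (rf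 (nat_lit 19)))))))))) (cs (nd (nat_lit 229) (nat_lit 0) (cs (rf (nat_lit 20)) (cs (nd (nat_lit 250) (nat_lit 0) (cs (rf (nat_lit 21)) (nd (nat_lit 228) (nat_lit 0) (cs (lf (nat_lit 36) (nat_lit 162)) (rf (nat_lit 22)))))) (cs (nd (nat_lit 163) (nat_lit 0) (cs (lf (nat_lit 29) (nat_lit 163)) (nd (nat_lit 142) (nat_lit 0) (cs (lf (nat_lit 34) (nat_lit 141)) (rf (nat_lit 23)))))) (rf (nat_lit 24)))))) (cs (rf (nat_lit 25)) (nd (nat_lit 252) (nat_lit 0) (cs (lf (nat_lit 42) (nat_lit 185)) (rf (nat_lit 26))))))))) (cs (rf (nat_lit 27)) (cs (nd (nat_lit 230) (nat_lit 0) (cs (rf (nat_lit 28)) (cs (rf (nat_lit 29)) (cs (rf (nat_lit 25)) (nd (nat_lit 164) (nat_lit 0) (cs (nd (nat_lit 141) (nat_lit 0) (cs (lf (nat_lit 25) (nat_lit 141)) (nd (nat_lit 186) (nat_lit 0) (cs (lf (nat_lit 28) (nat_lit 164)) (nd (nat_lit 142) (nat_lit 0) (cs (lf (nat_lit 47) (nat_lit 119)) (lf (nat_lit 36) (nat_lit 119)))))))) (cs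 (nd (nat_lit 163) (nat_lit 0) (cs (lf (nat_lit 24) (nat_lit 141)) (nd (nat_lit 229) (nat_lit 0) (cs (lf (nat_lit 35) (nat_lit 141)) (rf (nat_lit 30)))))) (nd (nat_lit 186) (nat_lit 0) (cs (lf (nat_lit 28) (nat_lit 164)) (nd (nat_lit 229) (nat_lit 0) (cs (lf (nat_lit 41) (nat_lit 163)) (nd (nat_lit 165) (nat_lit 0) (cs (lf (nat_lit 35) (nat_lit 142)) (rf (nat_lit 31))))))))))))))) (cs (nd (nat_lit 163) (nat_lit 0) (cs (rf (nat_lit 4)) (cs (rf (nat_lit 5)) (cs (rf (nat_lit 6)) (nd (nat_lit 229) (nat_lit 0) (cs (rf (nat_lit 32)) (cs (rf (nat_lit 33)) (rf (nat_lit 10))))))))) (cs (rf (nat_lit 34)) (cs (nd (nat_lit 163) (nat_lit 0) (cs (rf (nat_lit 3)) (cs (rf (nat_lit 5)) (cs (rf (nat_lit 35)) (rf (nat_lit 36)))))) (nd (nat_lit 163) (nat_lit 0) (cs (rf (nat_lit 3)) (cs (rf (nat_lit 4)) (cs (rf (nat_lit 5)) (cs (rf (nat_lit 35)) (nd (nat_lit 164) (nat_lit 0) (cs (rf (nat_lit 37)) (cs (nd (nat_lit 229)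 (nat_lit 0) (cs (lf (nat_lit 35) (nat_lit 141)) (nd (nat_lit 230) (nat_lit 0) (cs (lf (nat_lit 29) (nat_lit 163)) (nd (nat_lit 228) (nat_lit 0) (cs (lf (nat_lit 41) (nat_lit 162)) (rf (nat_lit 38)))))))) (cs (nd (nat_lit 186) (nat_lit 0) (cs (rf (nat_lit 39)) (rf (nat_lit 40)))) (nd (nat_lit 186) (nat_lit 0) (cs (rf (nat_lit 41)) (cs (rf (nat_lit 42)) (rf (nat_lit 7))))))))))))))))))))))))))) q6589 (by decide +kernel)
def q6704 : Q := Q.p (nat_lit 0x2000000000018000000000000000000000000000000000000000000000000000) (nat_lit 0x360001f8001ff0007ff0001f8003ff000278001bf0007f0001fc0001f00002800000000000000000000000) (nat_lit 16)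
theorem c6704 : QOK q6704 := cut [q3441, q6597, q6601, q2412, q805, q864, q3851, q5883, q4170, q6607, q6611, q6622, q6628, q6635, q1989, q6657, q6664, q1156, q1411, q4165, q6673, q1339, q6671, q6674, q4031, q4055, q6682, q3903, q6688, q6696, q6698] ⟨c3441, c6597, c6601, c2412, c805, c864, c3851, c5883, c4170, c6607, c6611, c6622, c6628, c6635, c1989, c6657, c6664, c1156, c1411, c4165, c6673, c1339, c6671, c6674, c4031, c4055, c6682, c3903, c6688, c6696, c6698, trivial⟩ (nd (nat_lit 206) (nat_lit 0) (cs (rf (nat_lit 0)) (cs (rf (nat_lit 1)) (cs (rf (nat_lit 2)) (cs (nd (nat_lit 184) (nat_lit 0) (cs (rf (nat_lit 3)) (cs (nd (nat_lit 162) (nat_lit 0) (cs (rf (nat_lit 4)) (cs (rf (nat_lit 5)) (cs (rf (nat_lit 6)) (cs (nd (nat_lit 228) (nat_lit 0) (cs (rf (nat_lit 7)) (cs (nd (nat_lit 230) (nat_lit 0) (cs (nd (nat_lit 205) (nat_lit 0) (cs (lf (nat_lit 5) (nat_lit 205)) (rf (nat_lit 8)))) (cs (nd (nat_lit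 139) (nat_lit 0) (cs (lf (nat_lit 46) (nat_lit 139)) (nd (nat_lit 229) (nat_lit 0) (cs (lf (nat_lit 29) (nat_lit 162)) (nd (nat_lit 204) (nat_lit 0) (cs (lf (nat_lit 1) (nat_lit 204)) (rf (nat_lit 9)))))))) (cs (nd (nat_lit 141) (nat_lit 0) (cs (lf (nat_lit 34) (nat_lit 140)) (nd (nat_lit 139) (nat_lit 0) (cs (lf (nat_lit 46) (nat_lit 139)) (rf (nat_lit 10)))))) (nd (nat_lit 229) (nat_lit 0) (cs (lf (nat_lit 29) (nat_lit 162)) (nd (nat_lit 231) (nat_lit 0) (cs (lf (nat_lit 18) (nat_lit 206)) (nd (nat_lit 275) (nat_lit 0) (cs (lf (nat_lit 42) (nat_lit 208)) (nd (nat_lit 139) (nat_lit 0) (cs (lf (nat_lit 46) (nat_lit 139)) (rf (nat_lit 9)))))))))))))) (cs (rf (nat_lit 11)) (nd (nat_lit 139) (nat_lit 0) (cs (lf (nat_lit 46) (nat_lit 139)) (rf (nat_lit 12)))))))) (rf (nat_lit 13))))))) (cs (nd (nat_lit 209) (nat_lit 0) (cs (lf (nat_lit 23) (nat_lit 183)) (nd (nat_lit 187) (nat_lit 0) (cs (lf (nat_lit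 17) (nat_lit 184)) (nd (nat_lit 231) (nat_lit 0) (cs (lf (nat_lit 5) (nat_lit 206)) (nd (nat_lit 230) (nat_lit 0) (cs (lf (nat_lit 0) (nat_lit 205)) (rf (nat_lit 14)))))))))) (rf (nat_lit 15)))))) (cs (rf (nat_lit 16)) (cs (nd (nat_lit 230) (nat_lit 0) (cs (rf (nat_lit 17)) (cs (rf (nat_lit 10)) (cs (nd (nat_lit 252) (nat_lit 0) (cs (rf (nat_lit 18)) (cs (rf (nat_lit 19)) (cs (rf (nat_lit 20)) (nd (nat_lit 274) (nat_lit 0) (cs (rf (nat_lit 21)) (cs (rf (nat_lit 22)) (nd (nat_lit 229) (nat_lit 0) (cs (lf (nat_lit 42) (nat_lit 207)) (rf (nat_lit 23))))))))))) (nd (nat_lit 252) (nat_lit 0) (cs (rf (nat_lit 18)) (cs (rf (nat_lit 24)) (cs (rf (nat_lit 25)) (rf (nat_lit 20)))))))))) (cs (rf (nat_lit 26)) (nd (nat_lit 183) (nat_lit 0) (cs (rf (nat_lit 27)) (cs (nd (nat_lit 209) (nat_lit 0) (cs (lf (nat_lit 22) (nat_lit 183)) (nd (nat_lit 187) (nat_lit 0) (cs (lf (nat_lit 17) (nat_lit 184)) (nd (nat_lit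 231) (nat_lit 0) (cs (lf (nat_lit 5) (nat_lit 206)) (nd (nat_lit 205) (nat_lit 0) (cs (lf (nat_lit 4) (nat_lit 205)) (nd (nat_lit 274) (nat_lit 0) (cs (lf (nat_lit 40) (nat_lit 186)) (nd (nat_lit 227) (nat_lit 0) (cs (lf (nat_lit 10) (nat_lit 205)) (rf (nat_lit 28)))))))))))))) (cs (rf (nat_lit 29)) (nd (nat_lit 205) (nat_lit 0) (cs (lf (nat_lit 23) (nat_lit 182)) (nd (nat_lit 231) (nat_lit 0) (cs (lf (nat_lit 4) (nat_lit 205)) (nd (nat_lit 209) (nat_lit 0) (cs (lf (nat_lit 5) (nat_lit 206)) (nd (nat_lit 227) (nat_lit 0) (cs (lf (nat_lit 10) (nat_lit 205)) (rf (nat_lit 30)))))))))))))))))))))) q6704 (by decide +kernel)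
def q6879 : Q := Q.p (nat_lit 0xc00003000004000010000000000000000000000000000000000000000000000000000) (nat_lit 0x1ce0007380000e00000000000000000000000000000000000000000000000000000000000000) (nat_lit 8)
theorem c6879 : QOK q6879 := cut [q2192] ⟨c2192, trivial⟩ (nd (nat_lit 273) (nat_lit 0) (cs (lf (nat_lit 41) (nat_lit 207)) (rf (nat_lit 0)))) q6879 (by decide +kernel)
def q6951 : Q := Q.p (nat_lit 0x2000004000018000000000000000000000000000000000000000000000000000) (nat_lit 0x280000e0000380001f0000be000270000fe0000e0000380000a00000000000000000000000000000) (nat_lit 10)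
theorem c6951 : QOK q6951 := cut [q1156, q3208, q4032, q6597] ⟨c1156, c3208, c4032, c6597, trivial⟩ (nd (nat_lit 206) (nat_lit 0) (cs (rf (nat_lit 0)) (cs (rf (nat_lit 1)) (cs (rf (nat_lit 2)) (rf (nat_lit 3)))))) q6951 (by decide +kernel)
def q7302 : Q := Q.p (nat_lit 0x2000000000018000000000000000000000000000000000000000000000000000) (nat_lit 0x100001fc0001f00007e00027800fff003ffc00fff001ffc001f800078000040000000000000) (nat_lit 17)
theorem c7302 : QOK q7302 := cut [q6203, q6510, q6566, q6580, q7116, q1615, q1621, q1658, q1939, q1723, q6173, q7120, q6495, q7082, q7199, q7200, q7209, q3534, q7214, q7243, q7247, q7252, q6383, q6418, q6422, q6430, q7156, q7254, q7259, q6180, q3744, q4850, q4854, q2254, q2762, q3493, q6175, q7298, q6181, q6185, q6202, q6465] ⟨c6203, c6510, c6566, c6580, c7116, c1615, c1621, c1658, c1939, c1723, c6173, c7120, c6495, c7082, c7199, c7200, c7209, c3534, c7214, c7243,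 c7247, c7252, c6383, c6418, c6422, c6430, c7156, c7254, c7259, c6180, c3744, c4850, c4854, c2254, c2762, c3493, c6175, c7298, c6181, c6185, c6202, c6465, trivial⟩ (nd (nat_lit 185) (nat_lit 0) (cs (rf (nat_lit 0)) (cs (rf (nat_lit 1)) (cs (rf (nat_lit 2)) (cs (rf (nat_lit 3)) (cs (rf (nat_lit 4)) (cs (nd (nat_lit 163) (nat_lit 0) (cs (rf (nat_lit 5)) (cs (rf (nat_lit 6)) (cs (rf (nat_lit 7)) (cs (rf (nat_lit 8)) (nd (nat_lit 229) (nat_lit 0) (cs (rf (nat_lit 9)) (cs (rf (nat_lit 10)) (cs (nd (nat_lit 140) (nat_lit 0) (cs (lf (nat_lit 46) (nat_lit 140)) (rf (nat_lit 11)))) (nd (nat_lit 230) (nat_lit 0) (cs (lf (nat_lit 29) (nat_lit 163)) (nd (nat_lit 162) (nat_lit 0) (cs (lf (nat_lit 47) (nat_lit 140)) (nd (nat_lit 164) (nat_lit 0) (cs (lf (nat_lit 35) (nat_lit 141)) (nd (nat_lit 186) (nat_lit 0) (cs (lf (nat_lit 41) (nat_lit 163)) (nd (nat_lit 187) (nat_lit 0) (cs (lf (nat_lit 0) (nat_lit 161))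 (lf (nat_lit 18) (nat_lit 162))))))))))))))))))))) (cs (nd (nat_lit 163) (nat_lit 0) (cs (rf (nat_lit 5)) (cs (rf (nat_lit 6)) (cs (rf (nat_lit 7)) (cs (rf (nat_lit 12)) (nd (nat_lit 184) (nat_lit 0) (cs (rf (nat_lit 13)) (cs (rf (nat_lit 14)) (cs (rf (nat_lit 15)) (cs (nd (nat_lit 183) (nat_lit 0) (cs (lf (nat_lit 0) (nat_lit 182)) (nd (nat_lit 186) (nat_lit 0) (cs (lf (nat_lit 5) (nat_lit 183)) (nd (nat_lit 204) (nat_lit 0) (cs (lf (nat_lit 10) (nat_lit 182)) (rf (nat_lit 16)))))))) (nd (nat_lit 183) (nat_lit 0) (cs (lf (nat_lit 0) (nat_lit 182)) (nd (nat_lit 186) (nat_lit 0) (cs (rf (nat_lit 17)) (cs (rf (nat_lit 16)) (nd (nat_lit 161) (nat_lit 0) (cs (lf (nat_lit 23) (nat_lit 160)) (nd (nat_lit 204) (nat_lit 0) (cs (lf (nat_lit 10) (nat_lit 182)) (nd (nat_lit 164) (nat_lit 0) (cs (lf (nat_lit 17) (nat_lit 161)) (nd (nat_lit 142) (nat_lit 0) (cs (lf (nat_lit 36) (nat_lit 119)) (rf (nat_lit 18)))))))))))))))))))))))))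 (cs (rf (nat_lit 19)) (cs (nd (nat_lit 163) (nat_lit 0) (cs (rf (nat_lit 6)) (cs (rf (nat_lit 7)) (cs (rf (nat_lit 20)) (rf (nat_lit 21)))))) (cs (nd (nat_lit 163) (nat_lit 0) (cs (rf (nat_lit 5)) (cs (rf (nat_lit 6)) (cs (rf (nat_lit 7)) (cs (rf (nat_lit 8)) (nd (nat_lit 164) (nat_lit 0) (cs (rf (nat_lit 22)) (cs (nd (nat_lit 184) (nat_lit 0) (cs (rf (nat_lit 13)) (cs (nd (nat_lit 165) (nat_lit 0) (cs (rf (nat_lit 23)) (cs (rf (nat_lit 24)) (cs (rf (nat_lit 25)) (nd (nat_lit 162) (nat_lit 0) (cs (rf (nat_lit 26)) (rf (nat_lit 27)))))))) (rf (nat_lit 28))))) (cs (nd (nat_lit 229) (nat_lit 0) (cs (lf (nat_lit 35) (nat_lit 141)) (nd (nat_lit 230) (nat_lit 0) (cs (lf (nat_lit 29) (nat_lit 163)) (rf (nat_lit 29)))))) (nd (nat_lit 186) (nat_lit 0) (cs (rf (nat_lit 30)) (cs (nd (nat_lit 165) (nat_lit 0) (cs (rf (nat_lit 31)) (cs (rf (nat_lit 32)) (nd (nat_lit 162) (nat_lit 0) (cs (rf (nat_lit 33)) (rf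 (nat_lit 34))))))) (cs (nd (nat_lit 230) (nat_lit 0) (cs (lf (nat_lit 42) (nat_lit 163)) (nd (nat_lit 229) (nat_lit 0) (cs (lf (nat_lit 41) (nat_lit 163)) (nd (nat_lit 143) (nat_lit 0) (cs (lf (nat_lit 34) (nat_lit 142)) (rf (nat_lit 35)))))))) (nd (nat_lit 230) (nat_lit 0) (cs (lf (nat_lit 42) (nat_lit 163)) (nd (nat_lit 229) (nat_lit 0) (cs (lf (nat_lit 41) (nat_lit 163)) (rf (nat_lit 36))))))))))))))))))) (cs (rf (nat_lit 37)) (cs (nd (nat_lit 163) (nat_lit 0) (cs (rf (nat_lit 5)) (cs (rf (nat_lit 7)) (cs (rf (nat_lit 8)) (nd (nat_lit 229) (nat_lit 0) (cs (rf (nat_lit 38)) (cs (rf (nat_lit 39)) (rf (nat_lit 11))))))))) (nd (nat_lit 163) (nat_lit 0) (cs (rf (nat_lit 5)) (cs (rf (nat_lit 40)) (cs (rf (nat_lit 41)) (rf (nat_lit 20))))))))))))))))))) q7302 (by decide +kernel)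
def q7469 : Q := Q.p (nat_lit 0x2000000000030000000000000000000000000000000000000000000000000000) (nat_lit 0x700001c000008000ffe001cf000f7c000500001400000000000000000000000000000000000) (nat_lit 9)
theorem c7469 : QOK q7469 := cut [q1563, q2990, q7465, q2935, q2938, q3018, q7467] ⟨c1563, c2990, c7465, c2935, c2938, c3018, c7467, trivial⟩ (nd (nat_lit 231) (nat_lit 0) (cs (rf (nat_lit 0)) (cs (rf (nat_lit 1)) (cs (rf (nat_lit 2)) (nd (nat_lit 207) (nat_lit 0) (cs (rf (nat_lit 3)) (cs (rf (nat_lit 4)) (cs (rf (nat_lit 5)) (rf (nat_lit 6)))))))))) q7469 (by decide +kernel)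
def q7656 : Q := Q.p (nat_lit 0x2000000000030000000000000000000000000000000000000000000000000000) (nat_lit 0x600009e003ff8007cc001ff8001fe001fa0007e000028000000000000000000000000) (nat_lit 15)
theorem c7656 : QOK q7656 := cut [q7437, q7440, q7451, q7452, q7555, q75, q5683, q7479, q7622, q7629, q7507, q7509, q7632, q7495, q7637, q7649, q7653] ⟨c7437, c7440, c7451, c7452, c7555, c75, c5683, c7479, c7622, c7629, c7507, c7509, c7632, c7495, c7637, c7649, c7653, trivial⟩ (nd (nat_lit 210) (nat_lit 0) (cs (rf (nat_lit 0)) (cs (rf (nat_lit 1)) (cs (rf (nat_lit 2)) (cs (rf (nat_lit 3)) (cs (rf (nat_lit 4)) (nd (nat_lit 186) (nat_lit 0) (cs (rf (nat_lit 5)) (cs (rf (nat_lit 6)) (cs (nd (nat_lit 187) (nat_lit 0) (cs (rf (nat_lit 7)) (cs (nd (nat_lit 184) (nat_lit 0) (cs (lf (nat_lit 1) (nat_lit 184)) (nd (nat_lit 231) (nat_lit 0) (cs (lf (nat_lit 47) (nat_lit 164)) (nd (nat_lit 166) (nat_lit 0) (cs (lf (nat_lit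 34) (nat_lit 165)) (nd (nat_lit 165) (nat_lit 0) (cs (lf (nat_lit 35) (nat_lit 143)) (rf (nat_lit 8)))))))))) (cs (nd (nat_lit 184) (nat_lit 0) (cs (lf (nat_lit 1) (nat_lit 184)) (rf (nat_lit 9)))) (cs (nd (nat_lit 188) (nat_lit 0) (cs (rf (nat_lit 10)) (cs (rf (nat_lit 11)) (cs (nd (nat_lit 185) (nat_lit 0) (cs (lf (nat_lit 0) (nat_lit 184)) (rf (nat_lit 12)))) (nd (nat_lit 189) (nat_lit 0) (cs (lf (nat_lit 6) (nat_lit 186)) (nd (nat_lit 164) (nat_lit 0) (cs (rf (nat_lit 13)) (lf (nat_lit 23) (nat_lit 163)))))))))) (rf (nat_lit 14))))))) (nd (nat_lit 230) (nat_lit 0) (cs (nd (nat_lit 164) (nat_lit 0) (cs (lf (nat_lit 28) (nat_lit 164)) (nd (nat_lit 229) (nat_lit 0) (cs (lf (nat_lit 41) (nat_lit 163)) (lf (nat_lit 6) (nat_lit 207)))))) (cs (rf (nat_lit 15)) (rf (nat_lit 16))))))))))))))) q7656 (by decide +kernel)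
def q7657 : Q := Q.p (nat_lit 0x2000000000030000000000000000000000000000000000000000000000000000) (nat_lit 0x140000700001c0000140003fe000cf00037e000480000200000000000000000000000000000000000) (nat_lit 11)
theorem c7657 : QOK q7657 := cut [q2950, q6705] ⟨c2950, c6705, trivial⟩ (nd (nat_lit 231) (nat_lit 0) (cs (rf (nat_lit 0)) (rf (nat_lit 1)))) q7657 (by decide +kernel)
def q8167 : Q := Q.p (nat_lit 0x2000000000010000040000000000000000000000000000000000000000000000) (nat_lit 0x140000780007e00039c001fee00fef003fbc007ee0007f0001f800028000000000000000000000000) (nat_lit 13)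
theorem c8167 : QOK q8167 := cut [q409, q4699, q4706, q4723, q4727, q7982, q7990, q7995, q8020, q8021, q8026, q8029, q8093, q8129, q4412, q4621, q5683, q2978, q2973, q8077, q8140, q11, q2226, q8097, q8144, q8065, q8067, q8148, q8087, q8161, q8092, q8160, q4083] ⟨c409, c4699, c4706, c4723, c4727, c7982, c7990, c7995, c8020, c8021, c8026, c8029, c8093, c8129, c4412, c4621, c5683, c2978, c2973, c8077, c8140, c11, c2226, c8097, c8144, c8065, c8067, c8148, c8087, c8161, c8092, c8160, c4083, trivial⟩ (nd (nat_lit 188) (nat_lit 0) (cs (nd (nat_lit 187) (nat_lit 0) (cs (rf (nat_lit 0)) (cs (rf (nat_lit 1)) (cs (rf (nat_lit 2)) (cs (rf (nat_lit 3)) (rf (nat_lit 4))))))) (cs (rf (nat_lit 5)) (cs (nd (nat_lit 187) (nat_lit 0) (cs (rf (nat_lit 6)) (cs (rf (nat_lit 7)) (cs (rf (nat_lit 8)) (rf (nat_lit 9)))))) (cs (nd (nat_lit 187) (nat_lit 0) (cs (rf (nat_lit 6)) (cs (rf (nat_lit 9)) (cs (rf (nat_lit 10)) (rf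 (nat_lit 11)))))) (cs (rf (nat_lit 12)) (cs (rf (nat_lit 13)) (cs (nd (nat_lit 209) (nat_lit 0) (cs (rf (nat_lit 14)) (cs (nd (nat_lit 210) (nat_lit 0) (cs (rf (nat_lit 15)) (rf (nat_lit 16)))) (cs (nd (nat_lit 231) (nat_lit 0) (cs (lf (nat_lit 42) (nat_lit 186)) (nd (nat_lit 187) (nat_lit 0) (cs (lf (nat_lit 35) (nat_lit 165)) (nd (nat_lit 189) (nat_lit 0) (cs (lf (nat_lit 6) (nat_lit 186)) (nd (nat_lit 211) (nat_lit 0) (cs (lf (nat_lit 5) (nat_lit 186)) (nd (nat_lit 167) (nat_lit 0) (cs (lf (nat_lit 17) (nat_lit 164)) (rf (nat_lit 17)))))))))))) (cs (nd (nat_lit 187) (nat_lit 0) (cs (rf (nat_lit 18)) (cs (rf (nat_lit 19)) (cs (rf (nat_lit 20)) (cs (nd (nat_lit 185) (nat_lit 0) (cs (rf (nat_lit 21)) (cs (rf (nat_lit 22)) (rf (nat_lit 23))))) (rf (nat_lit 24))))))) (cs (nd (nat_lit 187) (nat_lit 0) (cs (rf (nat_lit 18)) (rf (nat_lit 25)))) (cs (nd (nat_lit 187) (nat_lit 0) (cs (rf (nat_lit 18))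 (rf (nat_lit 26)))) (nd (nat_lit 231) (nat_lit 0) (cs (lf (nat_lit 42) (nat_lit 186)) (nd (nat_lit 166) (nat_lit 0) (cs (lf (nat_lit 33) (nat_lit 165)) (nd (nat_lit 210) (nat_lit 0) (cs (lf (nat_lit 36) (nat_lit 143)) (nd (nat_lit 211) (nat_lit 0) (cs (lf (nat_lit 23) (nat_lit 185)) (rf (nat_lit 27))))))))))))))))) (cs (nd (nat_lit 187) (nat_lit 0) (cs (rf (nat_lit 9)) (cs (rf (nat_lit 10)) (cs (rf (nat_lit 28)) (rf (nat_lit 29)))))) (cs (nd (nat_lit 187) (nat_lit 0) (cs (rf (nat_lit 1)) (cs (rf (nat_lit 9)) (cs (rf (nat_lit 30)) (rf (nat_lit 29)))))) (cs (nd (nat_lit 187) (nat_lit 0) (cs (rf (nat_lit 0)) (cs (rf (nat_lit 9)) (cs (nd (nat_lit 209) (nat_lit 0) (cs (rf (nat_lit 18)) (rf (nat_lit 26)))) (rf (nat_lit 31)))))) (nd (nat_lit 187) (nat_lit 0) (cs (rf (nat_lit 1)) (cs (rf (nat_lit 4)) (cs (rf (nat_lit 6)) (nd (nat_lit 209) (nat_lit 0) (cs (rf (nat_lit 18)) (rf (nat_lit 32)))))))))))))))))))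 q8167 (by decide +kernel)
def q8505 : Q := Q.p (nat_lit 0x30000040000000000000000000000000000000000000000000000) (nat_lit 0x20000088000f20001ce000fbc003ff001ffc007fe0001d000000000000000000000000) (nat_lit 15)
theorem c8505 : QOK q8505 := cut [q8341, q8389, q8410, q8437, q356, q2973, q39, q8062, q8448, q561, q8460, q11, q7388, q8461, q4073, q5848, q7017, q326, q7894, q7499, q8476, q8427, q7508, q7632, q1918, q8495, q2739, q8446] ⟨c8341, c8389, c8410, c8437, c356, c2973, c39, c8062, c8448, c561, c8460, c11, c7388, c8461, c4073, c5848, c7017, c326, c7894, c7499, c8476, c8427, c7508, c7632, c1918, c8495, c2739, c8446, trivial⟩ (nd (nat_lit 187) (nat_lit 0) (cs (rf (nat_lit 0)) (cs (rf (nat_lit 1)) (cs (rf (nat_lit 2)) (cs (rf (nat_lit 3)) (cs (nd (nat_lit 188) (nat_lit 0) (cs (rf (nat_lit 4)) (cs (rf (nat_lit 5)) (nd (nat_lit 210) (nat_lit 0) (cs (rf (nat_lit 6)) (cs (rf (nat_lit 7)) (nd (nat_lit 207)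 (nat_lit 0) (cs (lf (nat_lit 12) (nat_lit 184)) (nd (nat_lit 185) (nat_lit 0) (cs (lf (nat_lit 0) (nat_lit 184)) (nd (nat_lit 232) (nat_lit 0) (cs (lf (nat_lit 5) (nat_lit 207)) (nd (nat_lit 166) (nat_lit 0) (cs (lf (nat_lit 17) (nat_lit 163)) (nd (nat_lit 144) (nat_lit 0) (cs (lf (nat_lit 36) (nat_lit 121)) (nd (nat_lit 163) (nat_lit 0) (cs (lf (nat_lit 23) (nat_lit 162)) (nd (nat_lit 145) (nat_lit 0) (cs (lf (nat_lit 35) (nat_lit 122)) (nd (nat_lit 119) (nat_lit 0) (cs (lf (nat_lit 25) (nat_lit 119)) (nd (nat_lit 143) (nat_lit 0) (cs (lf (nat_lit 47) (nat_lit 121)) (rf (nat_lit 8)))))))))))))))))))))))))) (cs (nd (nat_lit 207) (nat_lit 0) (cs (rf (nat_lit 9)) (cs (rf (nat_lit 10)) (nd (nat_lit 185) (nat_lit 0) (cs (rf (nat_lit 11)) (cs (rf (nat_lit 12)) (nd (nat_lit 188) (nat_lit 0) (cs (lf (nat_lit 6) (nat_lit 185)) (nd (nat_lit 210) (nat_lit 0) (cs (lf (nat_lit 5) (nat_lit 185)) (nd (nat_lit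 163) (nat_lit 0) (cs (lf (nat_lit 23) (nat_lit 162)) (nd (nat_lit 232) (nat_lit 0) (cs (lf (nat_lit 5) (nat_lit 207)) (nd (nat_lit 143) (nat_lit 0) (cs (lf (nat_lit 25) (nat_lit 143)) (nd (nat_lit 141) (nat_lit 0) (cs (lf (nat_lit 24) (nat_lit 119)) (nd (nat_lit 118) (nat_lit 0) (cs (lf (nat_lit 46) (nat_lit 118)) (nd (nat_lit 142) (nat_lit 0) (cs (lf (nat_lit 35) (nat_lit 119)) (rf (nat_lit 13)))))))))))))))))))))))) (cs (nd (nat_lit 207) (nat_lit 0) (cs (rf (nat_lit 14)) (nd (nat_lit 185) (nat_lit 0) (cs (rf (nat_lit 11)) (cs (rf (nat_lit 15)) (rf (nat_lit 16))))))) (cs (nd (nat_lit 210) (nat_lit 0) (cs (rf (nat_lit 17)) (cs (rf (nat_lit 18)) (nd (nat_lit 188) (nat_lit 0) (cs (rf (nat_lit 4)) (cs (rf (nat_lit 19)) (rf (nat_lit 20)))))))) (cs (nd (nat_lit 185) (nat_lit 0) (cs (rf (nat_lit 11)) (cs (nd (nat_lit 184) (nat_lit 0) (cs (lf (nat_lit 0) (nat_lit 183)) (nd (nat_lit 161) (nat_lit 0) (cs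 (lf (nat_lit 22) (nat_lit 161)) (rf (nat_lit 21)))))) (nd (nat_lit 210) (nat_lit 0) (cs (rf (nat_lit 17)) (nd (nat_lit 188) (nat_lit 0) (cs (rf (nat_lit 22)) (cs (rf (nat_lit 23)) (nd (nat_lit 163) (nat_lit 0) (cs (lf (nat_lit 23) (nat_lit 162)) (nd (nat_lit 207) (nat_lit 0) (cs (lf (nat_lit 12) (nat_lit 184)) (nd (nat_lit 119) (nat_lit 0) (cs (lf (nat_lit 25) (nat_lit 119)) (nd (nat_lit 232) (nat_lit 0) (cs (lf (nat_lit 5) (nat_lit 207)) (nd (nat_lit 166) (nat_lit 0) (cs (lf (nat_lit 17) (nat_lit 163)) (nd (nat_lit 144) (nat_lit 0) (cs (lf (nat_lit 36) (nat_lit 121)) (rf (nat_lit 24)))))))))))))))))))))) (cs (nd (nat_lit 188) (nat_lit 0) (cs (rf (nat_lit 4)) (cs (rf (nat_lit 5)) (nd (nat_lit 210) (nat_lit 0) (cs (rf (nat_lit 6)) (cs (rf (nat_lit 7)) (nd (nat_lit 206) (nat_lit 0) (cs (lf (nat_lit 13) (nat_lit 184)) (nd (nat_lit 185) (nat_lit 0) (cs (lf (nat_lit 0) (nat_lit 184)) (rf (nat_lit 25))))))))))))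 (cs (nd (nat_lit 185) (nat_lit 0) (cs (rf (nat_lit 11)) (cs (rf (nat_lit 26)) (nd (nat_lit 210) (nat_lit 0) (cs (rf (nat_lit 17)) (nd (nat_lit 188) (nat_lit 0) (cs (rf (nat_lit 4)) (cs (rf (nat_lit 22)) (rf (nat_lit 20)))))))))) (nd (nat_lit 188) (nat_lit 0) (cs (rf (nat_lit 4)) (cs (rf (nat_lit 5)) (nd (nat_lit 210) (nat_lit 0) (cs (rf (nat_lit 6)) (cs (rf (nat_lit 7)) (rf (nat_lit 27)))))))))))))))))))) q8505 (by decide +kernel)
def q8556 : Q := Q.p (nat_lit 0x2000000000030000040000000000000000000000000000000000000000000000) (nat_lit 0xc0000100001c0001c00007b8001ec0003c0000f000000000000000000000000000000) (nat_lit 11)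
theorem c8556 : QOK q8556 := cut [q4083, q8547, q277, q8384, q1576] ⟨c4083, c8547, c277, c8384, c1576, trivial⟩ (nd (nat_lit 187) (nat_lit 0) (cs (rf (nat_lit 0)) (cs (rf (nat_lit 1)) (cs (nd (nat_lit 231) (nat_lit 0) (cs (lf (nat_lit 42) (nat_lit 186)) (nd (nat_lit 252) (nat_lit 0) (cs (rf (nat_lit 2)) (lf (nat_lit 41) (nat_lit 186)))))) (cs (nd (nat_lit 231) (nat_lit 0) (cs (lf (nat_lit 42) (nat_lit 186)) (nd (nat_lit 252) (nat_lit 0) (cs (lf (nat_lit 41) (nat_lit 186)) (nd (nat_lit 165) (nat_lit 0) (cs (lf (nat_lit 31) (nat_lit 164)) (nd (nat_lit 143) (nat_lit 0) (cs (lf (nat_lit 36) (nat_lit 120)) (nd (nat_lit 120) (nat_lit 0) (cs (lf (nat_lit 46) (nat_lit 120)) (rf (nat_lit 3)))))))))))) (nd (nat_lit 231) (nat_lit 0) (cs (lf (nat_lit 42) (nat_lit 186)) (rf (nat_lit 4))))))))) q8556 (by decide +kernel)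
def q8815 : Q := Q.p (nat_lit 0x2000000000010000040000000000000000000000000000000000000000000000) (nat_lit 0x10000dc0001700007c001ef8007bc001ff8003fc0007f0000fc0000a000000000000000000) (nat_lit 18)
theorem c8815 : QOK q8815 := cut [q4753, q4772, q4774, q2736, q7195, q1174, q8577, q8628, q1173, q8633, q8636, q8638, q8746, q2162, q8751, q4768, q8755, q3734, q5859, q5875, q5879, q5888, q5857, q8760, q8777, q4752, q4767, q8778, q8765, q8792, q2135, q8800, q4850, q8811] ⟨c4753, c4772, c4774, c2736, c7195, c1174, c8577, c8628, c1173, c8633, c8636, c8638, c8746, c2162, c8751, c4768, c8755, c3734, c5859, c5875, c5879, c5888, c5857, c8760, c8777, c4752, c4767, c8778, c8765, c8792, c2135, c8800, c4850, c8811, trivial⟩ (nd (nat_lit 185) (nat_lit 0) (cs (nd (nat_lit 184) (nat_lit 0) (cs (rf (nat_lit 0)) (cs (rf (nat_lit 1)) (cs (rf (nat_lit 2)) (nd (nat_lit 187) (nat_lit 0) (cs (rf (nat_lit 3)) (rf (nat_lit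 4)))))))) (cs (nd (nat_lit 230) (nat_lit 0) (cs (rf (nat_lit 5)) (cs (rf (nat_lit 6)) (cs (rf (nat_lit 7)) (nd (nat_lit 164) (nat_lit 0) (cs (nd (nat_lit 163) (nat_lit 0) (cs (rf (nat_lit 8)) (rf (nat_lit 9)))) (cs (rf (nat_lit 10)) (rf (nat_lit 11))))))))) (cs (rf (nat_lit 12)) (cs (nd (nat_lit 184) (nat_lit 0) (cs (rf (nat_lit 1)) (cs (nd (nat_lit 187) (nat_lit 0) (cs (rf (nat_lit 13)) (rf (nat_lit 4)))) (rf (nat_lit 14))))) (cs (nd (nat_lit 184) (nat_lit 0) (cs (rf (nat_lit 0)) (cs (rf (nat_lit 15)) (cs (rf (nat_lit 2)) (nd (nat_lit 187) (nat_lit 0) (cs (rf (nat_lit 13)) (rf (nat_lit 16)))))))) (cs (nd (nat_lit 184) (nat_lit 0) (cs (rf (nat_lit 0)) (cs (rf (nat_lit 1)) (cs (rf (nat_lit 2)) (nd (nat_lit 162) (nat_lit 0) (cs (rf (nat_lit 17)) (cs (rf (nat_lit 18)) (nd (nat_lit 140) (nat_lit 0) (cs (rf (nat_lit 19)) (cs (rf (nat_lit 20)) (cs (rf (nat_lit 21)) (nd (nat_lit 206) (nat_lit 0) (cs (rf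 (nat_lit 22)) (rf (nat_lit 23))))))))))))))) (cs (nd (nat_lit 184) (nat_lit 0) (cs (rf (nat_lit 1)) (cs (rf (nat_lit 2)) (cs (rf (nat_lit 24)) (nd (nat_lit 183) (nat_lit 0) (cs (rf (nat_lit 25)) (cs (rf (nat_lit 26)) (nd (nat_lit 160) (nat_lit 0) (cs (lf (nat_lit 22) (nat_lit 160)) (nd (nat_lit 165) (nat_lit 0) (cs (nd (nat_lit 205) (nat_lit 0) (cs (lf (nat_lit 11) (nat_lit 182)) (rf (nat_lit 27)))) (lf (nat_lit 16) (nat_lit 161))))))))))))) (cs (nd (nat_lit 184) (nat_lit 0) (cs (rf (nat_lit 0)) (cs (rf (nat_lit 15)) (cs (rf (nat_lit 1)) (cs (rf (nat_lit 2)) (nd (nat_lit 187) (nat_lit 0) (cs (rf (nat_lit 13)) (cs (rf (nat_lit 28)) (cs (nd (nat_lit 162) (nat_lit 0) (cs (rf (nat_lit 17)) (cs (rf (nat_lit 18)) (nd (nat_lit 140) (nat_lit 0) (cs (rf (nat_lit 20)) (rf (nat_lit 29))))))) (nd (nat_lit 165) (nat_lit 0) (cs (lf (nat_lit 17) (nat_lit 162)) (nd (nat_lit 121) (nat_lit 0) (cs (lf (nat_lit 37)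 (nat_lit 120)) (nd (nat_lit 209) (nat_lit 0) (cs (lf (nat_lit 5) (nat_lit 184)) (rf (nat_lit 30))))))))))))))))) (nd (nat_lit 184) (nat_lit 0) (cs (rf (nat_lit 0)) (cs (rf (nat_lit 14)) (cs (rf (nat_lit 24)) (nd (nat_lit 165) (nat_lit 0) (cs (nd (nat_lit 187) (nat_lit 0) (cs (lf (nat_lit 17) (nat_lit 162)) (nd (nat_lit 121) (nat_lit 0) (cs (lf (nat_lit 37) (nat_lit 120)) (nd (nat_lit 230) (nat_lit 0) (cs (lf (nat_lit 30) (nat_lit 164)) (nd (nat_lit 205) (nat_lit 0) (cs (lf (nat_lit 10) (nat_lit 183)) (nd (nat_lit 183) (nat_lit 0) (cs (lf (nat_lit 11) (nat_lit 182)) (nd (nat_lit 207) (nat_lit 0) (cs (lf (nat_lit 0) (nat_lit 182)) (rf (nat_lit 31)))))))))))))) (cs (nd (nat_lit 164) (nat_lit 0) (cs (lf (nat_lit 12) (nat_lit 161)) (rf (nat_lit 32)))) (cs (nd (nat_lit 166) (nat_lit 0) (cs (lf (nat_lit 15) (nat_lit 162)) (nd (nat_lit 164) (nat_lit 0) (cs (lf (nat_lit 6) (nat_lit 163)) (lf (nat_lit 9)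 (nat_lit 162)))))) (nd (nat_lit 164) (nat_lit 0) (cs (lf (nat_lit 12) (nat_lit 161)) (rf (nat_lit 33))))))))))))))))))))) q8815 (by decide +kernel)
def q9324 : Q := Q.p (nat_lit 0x2000000000010000040000000000000000000000000000000000000000000000) (nat_lit 0x80002e00009800075000fef801fbc007ff800ffc007ff8003f0000b80000a0000000000000) (nat_lit 17)
theorem c9324 : QOK q9324 := cut [q9087, q9084, q9085, q8950, q8993, q9169, q9173, q5709, q8958, q8959, q9181, q438, q9184, q8949, q9172, q6148, q6151, q6166, q9190, q9195, q9197, q9241, q409, q8021, q9200, q2647, q9226, q9208, q9217, q9222, q9225, q9245, q9249, q9252, q7990, q8160, q9055, q9255, q9270, q9305, q8020, q584, q4698, q8087, q7997, q8621, q7995, q9047] ⟨c9087, c9084, c9085, c8950, c8993, c9169, c9173, c5709, c8958, c8959, c9181, c438, c9184, c8949, c9172, c6148, c6151, c6166, c9190, c9195, c9197, c9241, c409, c8021, c9200, c2647, c9226, c9208,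 c9217, c9222, c9225, c9245, c9249, c9252, c7990, c8160, c9055, c9255, c9270, c9305, c8020, c584, c4698, c8087, c7997, c8621, c7995, c9047, trivial⟩ (nd (nat_lit 187) (nat_lit 0) (cs (rf (nat_lit 0)) (cs (nd (nat_lit 143) (nat_lit 0) (cs (rf (nat_lit 1)) (cs (rf (nat_lit 2)) (cs (nd (nat_lit 142) (nat_lit 0) (cs (rf (nat_lit 3)) (cs (rf (nat_lit 4)) (cs (rf (nat_lit 5)) (cs (rf (nat_lit 6)) (nd (nat_lit 141) (nat_lit 0) (cs (rf (nat_lit 7)) (cs (rf (nat_lit 8)) (cs (rf (nat_lit 9)) (rf (nat_lit 10))))))))))) (cs (nd (nat_lit 230) (nat_lit 0) (cs (rf (nat_lit 11)) (rf (nat_lit 12)))) (nd (nat_lit 142) (nat_lit 0) (cs (rf (nat_lit 5)) (cs (nd (nat_lit 164) (nat_lit 0) (cs (rf (nat_lit 13)) (cs (rf (nat_lit 14)) (cs (nd (nat_lit 162) (nat_lit 0) (cs (rf (nat_lit 15)) (cs (rf (nat_lit 16)) (cs (rf (nat_lit 17)) (rf (nat_lit 18)))))) (rf (nat_lit 19)))))) (rf (nat_lit 20)))))))))) (cs (rf (nat_lit 21))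 (cs (nd (nat_lit 188) (nat_lit 0) (cs (rf (nat_lit 22)) (cs (rf (nat_lit 23)) (cs (rf (nat_lit 24)) (nd (nat_lit 166) (nat_lit 0) (cs (rf (nat_lit 25)) (cs (rf (nat_lit 26)) (cs (nd (nat_lit 144) (nat_lit 0) (cs (rf (nat_lit 27)) (cs (rf (nat_lit 28)) (cs (rf (nat_lit 29)) (cs (rf (nat_lit 30)) (rf (nat_lit 31))))))) (rf (nat_lit 32)))))))))) (cs (rf (nat_lit 33)) (cs (nd (nat_lit 188) (nat_lit 0) (cs (rf (nat_lit 34)) (cs (rf (nat_lit 23)) (cs (rf (nat_lit 35)) (nd (nat_lit 189) (nat_lit 0) (cs (rf (nat_lit 36)) (rf (nat_lit 37)))))))) (cs (nd (nat_lit 188) (nat_lit 0) (cs (rf (nat_lit 22)) (cs (rf (nat_lit 23)) (cs (rf (nat_lit 35)) (rf (nat_lit 38)))))) (cs (rf (nat_lit 39)) (cs (nd (nat_lit 188) (nat_lit 0) (cs (rf (nat_lit 22)) (cs (rf (nat_lit 40)) (cs (rf (nat_lit 23)) (nd (nat_lit 185) (nat_lit 0) (cs (rf (nat_lit 41)) (cs (rf (nat_lit 42)) (nd (nat_lit 166) (nat_lit 0) (cs (lf (nat_lit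 17) (nat_lit 163)) (nd (nat_lit 144) (nat_lit 0) (cs (rf (nat_lit 27)) (cs (rf (nat_lit 28)) (cs (rf (nat_lit 29)) (cs (rf (nat_lit 30)) (nd (nat_lit 162) (nat_lit 0) (cs (lf (nat_lit 22) (nat_lit 162)) (nd (nat_lit 207) (nat_lit 0) (cs (lf (nat_lit 11) (nat_lit 184)) (nd (nat_lit 210) (nat_lit 0) (cs (lf (nat_lit 5) (nat_lit 185)) (nd (nat_lit 123) (nat_lit 0) (cs (lf (nat_lit 34) (nat_lit 122)) (nd (nat_lit 143) (nat_lit 0) (cs (lf (nat_lit 47) (nat_lit 121)) (nd (nat_lit 232) (nat_lit 0) (cs (lf (nat_lit 46) (nat_lit 143)) (nd (nat_lit 233) (nat_lit 0) (cs (lf (nat_lit 29) (nat_lit 166)) (lf (nat_lit 2) (nat_lit 207)))))))))))))))))))))))))))))) (cs (nd (nat_lit 188) (nat_lit 0) (cs (rf (nat_lit 22)) (cs (rf (nat_lit 40)) (cs (rf (nat_lit 43)) (nd (nat_lit 185) (nat_lit 0) (cs (rf (nat_lit 41)) (cs (rf (nat_lit 44)) (nd (nat_lit 163) (nat_lit 0) (cs (lf (nat_lit 23) (nat_lit 162)) (nd (nat_lit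 210) (nat_lit 0) (cs (lf (nat_lit 5) (nat_lit 185)) (rf (nat_lit 45))))))))))))) (nd (nat_lit 188) (nat_lit 0) (cs (rf (nat_lit 46)) (cs (rf (nat_lit 23)) (cs (rf (nat_lit 47)) (rf (nat_lit 38))))))))))))))))) q9324 (by decide +kernel)
def q9642 : Q := Q.p (nat_lit 0x2000000000030000040000000000000000000000000000000000000000000000) (nat_lit 0x80000180002780018e0007b8003ff0007fc003fe0003f000088000000000000000000) (nat_lit 14)
theorem c9642 : QOK q9642 := cut [q8437, q9553, q9555, q9576, q628, q558, q617, q619, q611, q9575, q2806, q8360, q9578, q9583, q561, q9591, q356, q8140, q9084, q9612, q9613, q9616, q8338, q7417, q8251, q9626, q1703, q4867, q8302, q8380, q4986, q9641] ⟨c8437, c9553, c9555, c9576, c628, c558, c617, c619, c611, c9575, c2806, c8360, c9578, c9583, c561, c9591, c356, c8140, c9084, c9612, c9613, c9616, c8338, c7417, c8251, c9626, c1703, c4867, c8302, c8380, c4986, c9641, trivial⟩ (nd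 (nat_lit 187) (nat_lit 0) (cs (rf (nat_lit 0)) (cs (rf (nat_lit 1)) (cs (rf (nat_lit 2)) (cs (rf (nat_lit 3)) (cs (nd (nat_lit 164) (nat_lit 0) (cs (rf (nat_lit 4)) (cs (nd (nat_lit 142) (nat_lit 0) (cs (rf (nat_lit 5)) (cs (rf (nat_lit 6)) (cs (rf (nat_lit 7)) (nd (nat_lit 229) (nat_lit 0) (cs (lf (nat_lit 40) (nat_lit 141)) (nd (nat_lit 121) (nat_lit 0) (cs (lf (nat_lit 34) (nat_lit 120)) (nd (nat_lit 230) (nat_lit 0) (cs (lf (nat_lit 41) (nat_lit 163)) (rf (nat_lit 8)))))))))))) (cs (rf (nat_lit 9)) (cs (nd (nat_lit 165) (nat_lit 0) (cs (rf (nat_lit 10)) (rf (nat_lit 11)))) (cs (rf (nat_lit 12)) (rf (nat_lit 13)))))))) (cs (nd (nat_lit 142) (nat_lit 0) (cs (nd (nat_lit 207) (nat_lit 0) (cs (rf (nat_lit 14)) (cs (nd (nat_lit 164) (nat_lit 0) (cs (lf (nat_lit 41) (nat_lit 141)) (nd (nat_lit 119) (nat_lit 0) (cs (lf (nat_lit 46) (nat_lit 119)) (nd (nat_lit 188) (nat_lit 0) (cs (lf (nat_lit 6) (nat_lit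 185)) (rf (nat_lit 15)))))))) (nd (nat_lit 164) (nat_lit 0) (cs (lf (nat_lit 41) (nat_lit 141)) (nd (nat_lit 141) (nat_lit 0) (cs (lf (nat_lit 47) (nat_lit 119)) (nd (nat_lit 205) (nat_lit 0) (cs (lf (nat_lit 13) (nat_lit 183)) (nd (nat_lit 143) (nat_lit 0) (cs (lf (nat_lit 35) (nat_lit 120)) (nd (nat_lit 165) (nat_lit 0) (cs (lf (nat_lit 41) (nat_lit 142)) (nd (nat_lit 166) (nat_lit 0) (cs (lf (nat_lit 0) (nat_lit 140)) (lf (nat_lit 18) (nat_lit 141))))))))))))))))) (cs (nd (nat_lit 188) (nat_lit 0) (cs (rf (nat_lit 16)) (cs (rf (nat_lit 17)) (nd (nat_lit 143) (nat_lit 0) (cs (rf (nat_lit 18)) (cs (rf (nat_lit 19)) (rf (nat_lit 20)))))))) (cs (rf (nat_lit 21)) (cs (nd (nat_lit 164) (nat_lit 0) (cs (lf (nat_lit 24) (nat_lit 120)) (rf (nat_lit 22)))) (cs (nd (nat_lit 164) (nat_lit 0) (cs (lf (nat_lit 24) (nat_lit 120)) (nd (nat_lit 119) (nat_lit 0) (cs (lf (nat_lit 46) (nat_lit 119)) (nd (nat_lit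 229) (nat_lit 0) (cs (lf (nat_lit 40) (nat_lit 141)) (nd (nat_lit 121) (nat_lit 0) (cs (lf (nat_lit 34) (nat_lit 120)) (nd (nat_lit 230) (nat_lit 0) (cs (lf (nat_lit 41) (nat_lit 163)) (rf (nat_lit 23)))))))))))) (nd (nat_lit 164) (nat_lit 0) (cs (lf (nat_lit 24) (nat_lit 120)) (rf (nat_lit 24)))))))))) (cs (rf (nat_lit 25)) (cs (nd (nat_lit 164) (nat_lit 0) (cs (rf (nat_lit 26)) (cs (rf (nat_lit 27)) (cs (rf (nat_lit 28)) (cs (rf (nat_lit 13)) (nd (nat_lit 165) (nat_lit 0) (cs (rf (nat_lit 10)) (cs (rf (nat_lit 29)) (nd (nat_lit 230) (nat_lit 0) (cs (lf (nat_lit 30) (nat_lit 164)) (nd (nat_lit 229) (nat_lit 0) (cs (lf (nat_lit 41) (nat_lit 163)) (nd (nat_lit 227) (nat_lit 0) (cs (lf (nat_lit 13) (nat_lit 205)) (rf (nat_lit 30)))))))))))))))) (rf (nat_lit 31))))))))))) q9642 (by decide +kernel)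
def q9648 : Q := Q.p (nat_lit 0x2000000000030000000000000000000000000000000000000000000000000000) (nat_lit 0x1000006000018000000000ffc001ce000ffc000400000000000000000000000000000000000000000) (nat_lit 9)
theorem c9648 : QOK q9648 := cut [q2966, q7612, q9647] ⟨c2966, c7612, c9647, trivial⟩ (nd (nat_lit 231) (nat_lit 0) (cs (rf (nat_lit 0)) (cs (rf (nat_lit 1)) (rf (nat_lit 2))))) q9648 (by decide +kernel)
def q9656 : Q := Q.p (nat_lit 0x2000000000030000000000000000000000000000000000000000000000000000) (nat_lit 0xb00000c0003ff0004f8003fe000ff8003fc000fe0000f800000000000000000000000) (nat_lit 15)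
theorem c9656 : QOK q9656 := cut [q2238, q2277, q4591, q2236, q4572, q2106, q4448, q130, q2094, q4450, q2409, q4471, q4473, q4481, q4508, q4513, q4519, q419, q4557, q4565, q4613, q1412, q156, q2104, q3904, q4583] ⟨c2238, c2277, c4591, c2236, c4572, c2106, c4448, c130, c2094, c4450, c2409, c4471, c4473, c4481, c4508, c4513, c4519, c419, c4557, c4565, c4613, c1412, c156, c2104, c3904, c4583, trivial⟩ (nd (nat_lit 186) (nat_lit 0) (cs (rf (nat_lit 0)) (cs (rf (nat_lit 1)) (cs (rf (nat_lit 2)) (nd (nat_lit 185) (nat_lit 0) (cs (rf (nat_lit 3)) (cs (nd (nat_lit 184) (nat_lit 0) (cs (lf (nat_lit 0) (nat_lit 183)) (nd (nat_lit 210) (nat_lit 0) (cs (lf (nat_lit 21) (nat_lit 184)) (lf (nat_lit 3) (nat_lit 184)))))) (cs (nd (nat_lit 184) (nat_lit 0) (cs (lf (nat_lit 0) (nat_lit 183)) (nd (nat_lit 187) (nat_lit 0) (cs (lf (nat_lit 5) (nat_lit 184)) (nd (nat_lit 205) (nat_lit 0) (cs (lf (nat_lit 10) (nat_lit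 183)) (nd (nat_lit 162) (nat_lit 0) (cs (lf (nat_lit 23) (nat_lit 161)) (nd (nat_lit 165) (nat_lit 0) (cs (lf (nat_lit 17) (nat_lit 162)) (nd (nat_lit 143) (nat_lit 0) (cs (lf (nat_lit 36) (nat_lit 120)) (nd (nat_lit 163) (nat_lit 0) (cs (lf (nat_lit 18) (nat_lit 162)) (rf (nat_lit 4)))))))))))))))) (cs (nd (nat_lit 207) (nat_lit 0) (cs (rf (nat_lit 5)) (cs (rf (nat_lit 6)) (cs (nd (nat_lit 206) (nat_lit 0) (cs (rf (nat_lit 7)) (cs (rf (nat_lit 8)) (nd (nat_lit 164) (nat_lit 0) (cs (nd (nat_lit 228) (nat_lit 0) (cs (lf (nat_lit 11) (nat_lit 205)) (rf (nat_lit 9)))) (cs (nd (nat_lit 163) (nat_lit 0) (cs (rf (nat_lit 10)) (rf (nat_lit 11)))) (cs (nd (nat_lit 143) (nat_lit 0) (cs (rf (nat_lit 12)) (cs (nd (nat_lit 227) (nat_lit 0) (cs (lf (nat_lit 10) (nat_lit 205)) (rf (nat_lit 13)))) (nd (nat_lit 227) (nat_lit 0) (cs (lf (nat_lit 10) (nat_lit 205)) (nd (nat_lit 142) (nat_lit 0) (cs (lf (nat_lit 36)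 (nat_lit 119)) (nd (nat_lit 141) (nat_lit 0) (cs (lf (nat_lit 47) (nat_lit 119)) (nd (nat_lit 188) (nat_lit 0) (cs (lf (nat_lit 16) (nat_lit 184)) (nd (nat_lit 210) (nat_lit 0) (cs (lf (nat_lit 17) (nat_lit 185)) (nd (nat_lit 232) (nat_lit 0) (cs (lf (nat_lit 5) (nat_lit 207)) (nd (nat_lit 166) (nat_lit 0) (cs (lf (nat_lit 46) (nat_lit 143)) (nd (nat_lit 167) (nat_lit 0) (cs (lf (nat_lit 3) (nat_lit 141)) (lf (nat_lit 35) (nat_lit 144))))))))))))))))))))) (cs (nd (nat_lit 143) (nat_lit 0) (cs (rf (nat_lit 12)) (cs (rf (nat_lit 13)) (nd (nat_lit 227) (nat_lit 0) (cs (lf (nat_lit 10) (nat_lit 205)) (nd (nat_lit 142) (nat_lit 0) (cs (lf (nat_lit 36) (nat_lit 119)) (nd (nat_lit 188) (nat_lit 0) (cs (lf (nat_lit 16) (nat_lit 184)) (nd (nat_lit 210) (nat_lit 0) (cs (lf (nat_lit 17) (nat_lit 185)) (nd (nat_lit 232) (nat_lit 0) (cs (lf (nat_lit 5) (nat_lit 207)) (nd (nat_lit 166) (nat_lit 0) (cs (lf (nat_lit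 46) (nat_lit 143)) (nd (nat_lit 145) (nat_lit 0) (cs (lf (nat_lit 34) (nat_lit 144)) (nd (nat_lit 144) (nat_lit 0) (cs (lf (nat_lit 11) (nat_lit 141)) (lf (nat_lit 35) (nat_lit 122))))))))))))))))))))) (nd (nat_lit 163) (nat_lit 0) (cs (rf (nat_lit 11)) (cs (rf (nat_lit 14)) (cs (nd (nat_lit 142) (nat_lit 0) (cs (lf (nat_lit 36) (nat_lit 119)) (nd (nat_lit 187) (nat_lit 0) (cs (lf (nat_lit 6) (nat_lit 184)) (nd (nat_lit 161) (nat_lit 0) (cs (lf (nat_lit 1) (nat_lit 161)) (rf (nat_lit 15)))))))) (nd (nat_lit 120) (nat_lit 0) (cs (lf (nat_lit 37) (nat_lit 119)) (nd (nat_lit 187) (nat_lit 0) (cs (lf (nat_lit 6) (nat_lit 184)) (rf (nat_lit 16)))))))))))))))))) (cs (nd (nat_lit 187) (nat_lit 0) (cs (rf (nat_lit 17)) (cs (rf (nat_lit 18)) (rf (nat_lit 19))))) (rf (nat_lit 20))))))) (cs (nd (nat_lit 207) (nat_lit 0) (cs (rf (nat_lit 21)) (cs (rf (nat_lit 20)) (nd (nat_lit 206) (nat_lit 0) (cs (rf (nat_lit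 22)) (cs (rf (nat_lit 23)) (rf (nat_lit 24)))))))) (nd (nat_lit 207) (nat_lit 0) (cs (rf (nat_lit 5)) (cs (rf (nat_lit 6)) (cs (nd (nat_lit 210) (nat_lit 0) (cs (lf (nat_lit 23) (nat_lit 184)) (nd (nat_lit 232) (nat_lit 0) (cs (lf (nat_lit 5) (nat_lit 207)) (rf (nat_lit 25)))))) (rf (nat_lit 20)))))))))))))))) q9656 (by decide +kernel)
def q10207 : Q := Q.p (nat_lit 0x30000000000000000000000000000000000000000000000000000) (nat_lit 0x100001dc0007700018c003f78007cc001ff8001fc0007f00018400000000000000000000000000000) (nat_lit 17)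
theorem c10207 : QOK q10207 := cut [q7437, q7440, q7451, q7452, q10184, q82, q87, q98, q9365, q9377, q10186, q10194] ⟨c7437, c7440, c7451, c7452, c10184, c82, c87, c98, c9365, c9377, c10186, c10194, trivial⟩ (nd (nat_lit 210) (nat_lit 0) (cs (rf (nat_lit 0)) (cs (rf (nat_lit 1)) (cs (rf (nat_lit 2)) (cs (rf (nat_lit 3)) (cs (rf (nat_lit 4)) (nd (nat_lit 207) (nat_lit 0) (cs (rf (nat_lit 5)) (cs (rf (nat_lit 6)) (cs (rf (nat_lit 7)) (nd (nat_lit 229) (nat_lit 0) (cs (lf (nat_lit 11) (nat_lit 206)) (nd (nat_lit 164) (nat_lit 0) (cs (rf (nat_lit 8)) (cs (rf (nat_lit 9)) (cs (nd (nat_lit 185) (nat_lit 0) (cs (lf (nat_lit 23) (nat_lit 184)) (nd (nat_lit 232) (nat_lit 0) (cs (lf (nat_lit 5) (nat_lit 207)) (nd (nat_lit 163) (nat_lit 0) (cs (lf (nat_lit 35) (nat_lit 141)) (nd (nat_lit 188) (nat_lit 0) (cs (lf (nat_lit 17) (nat_lit 185)) (rf (nat_lit 10)))))))))) (nd (nat_lit 188) (nat_lit 0) (cs (lf (nat_lit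 17) (nat_lit 185)) (nd (nat_lit 232) (nat_lit 0) (cs (lf (nat_lit 5) (nat_lit 207)) (nd (nat_lit 185) (nat_lit 0) (cs (lf (nat_lit 23) (nat_lit 184)) (nd (nat_lit 251) (nat_lit 0) (cs (lf (nat_lit 34) (nat_lit 163)) (nd (nat_lit 272) (nat_lit 0) (cs (lf (nat_lit 40) (nat_lit 184)) (nd (nat_lit 273) (nat_lit 0) (cs (lf (nat_lit 41) (nat_lit 206)) (nd (nat_lit 274) (nat_lit 0) (cs (lf (nat_lit 29) (nat_lit 207)) (nd (nat_lit 230) (nat_lit 0) (cs (lf (nat_lit 30) (nat_lit 207)) (nd (nat_lit 163) (nat_lit 0) (cs (lf (nat_lit 24) (nat_lit 141)) (rf (nat_lit 11)))))))))))))))))))))))))))))))))))) q10207 (by decide +kernel)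
def q10340 : Q := Q.p (nat_lit 0x2000000000030000000000000000000000000000000000000000000000000000) (nat_lit 0x1400007a0001ff0000f8003ff0018fc007ff003ff8007fc003fe0003f8000b80000a0000000000000) (nat_lit 17)
theorem c10340 : QOK q10340 := cut [q35, q2238, q2277, q2649, q4083, q10274, q356, q8140, q2226, q2231, q8158, q9539, q10277, q419, q2106, q10284, q9550, q8871, q2104, q8520, q8437, q9557, q9567, q9572, q9575, q10296, q1703, q8339, q8340, q4850, q8266, q2969, q9551, q10310, q10319, q6572, q10320, q8250, q4867, q4930, q8253, q10338] ⟨c35, c2238, c2277, c2649, c4083, c10274, c356, c8140, c2226, c2231, c8158, c9539, c10277, c419, c2106, c10284, c9550, c8871, c2104, c8520, c8437, c9557, c9567, c9572, c9575, c10296, c1703, c8339, c8340, c4850, c8266, c2969, c9551, c10310, c10319, c6572, c10320, c8250, c4867, c4930, c8253, c10338, trivial⟩ (nd (nat_lit 186) (nat_lit 0) (cs (rf (nat_lit 0)) (cs (rf (nat_lit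 1)) (cs (rf (nat_lit 2)) (cs (nd (nat_lit 187) (nat_lit 0) (cs (rf (nat_lit 3)) (cs (rf (nat_lit 4)) (cs (rf (nat_lit 5)) (cs (nd (nat_lit 188) (nat_lit 0) (cs (rf (nat_lit 6)) (cs (rf (nat_lit 7)) (nd (nat_lit 185) (nat_lit 0) (cs (rf (nat_lit 8)) (cs (nd (nat_lit 184) (nat_lit 0) (cs (lf (nat_lit 0) (nat_lit 183)) (nd (nat_lit 165) (nat_lit 0) (cs (lf (nat_lit 17) (nat_lit 162)) (nd (nat_lit 121) (nat_lit 0) (cs (lf (nat_lit 37) (nat_lit 120)) (rf (nat_lit 9)))))))) (rf (nat_lit 10)))))))) (nd (nat_lit 185) (nat_lit 0) (cs (rf (nat_lit 11)) (cs (nd (nat_lit 231) (nat_lit 0) (cs (lf (nat_lit 42) (nat_lit 186)) (nd (nat_lit 184) (nat_lit 0) (cs (lf (nat_lit 0) (nat_lit 183)) (nd (nat_lit 162) (nat_lit 0) (cs (lf (nat_lit 23) (nat_lit 161)) (nd (nat_lit 163) (nat_lit 0) (cs (lf (nat_lit 18) (nat_lit 162)) (nd (nat_lit 141) (nat_lit 0) (cs (lf (nat_lit 24) (nat_lit 119)) (nd (nat_lit 207) (nat_lit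 0) (cs (lf (nat_lit 29) (nat_lit 141)) (rf (nat_lit 12)))))))))))))) (cs (nd (nat_lit 207) (nat_lit 0) (cs (rf (nat_lit 13)) (cs (rf (nat_lit 14)) (nd (nat_lit 231) (nat_lit 0) (cs (lf (nat_lit 42) (nat_lit 186)) (rf (nat_lit 15))))))) (cs (nd (nat_lit 206) (nat_lit 0) (cs (rf (nat_lit 16)) (cs (nd (nat_lit 231) (nat_lit 0) (cs (lf (nat_lit 42) (nat_lit 186)) (rf (nat_lit 17)))) (nd (nat_lit 183) (nat_lit 0) (cs (lf (nat_lit 1) (nat_lit 183)) (nd (nat_lit 231) (nat_lit 0) (cs (lf (nat_lit 42) (nat_lit 186)) (nd (nat_lit 207) (nat_lit 0) (cs (lf (nat_lit 5) (nat_lit 206)) (rf (nat_lit 18))))))))))) (nd (nat_lit 231) (nat_lit 0) (cs (lf (nat_lit 42) (nat_lit 186)) (rf (nat_lit 19)))))))))))))) (nd (nat_lit 187) (nat_lit 0) (cs (rf (nat_lit 20)) (cs (nd (nat_lit 164) (nat_lit 0) (cs (nd (nat_lit 142) (nat_lit 0) (cs (lf (nat_lit 24) (nat_lit 120)) (nd (nat_lit 121) (nat_lit 0) (cs (lf (nat_lit 34)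 (nat_lit 120)) (rf (nat_lit 21)))))) (cs (rf (nat_lit 22)) (cs (rf (nat_lit 23)) (cs (rf (nat_lit 24)) (rf (nat_lit 25))))))) (cs (nd (nat_lit 164) (nat_lit 0) (cs (rf (nat_lit 26)) (cs (rf (nat_lit 27)) (cs (rf (nat_lit 28)) (nd (nat_lit 165) (nat_lit 0) (cs (rf (nat_lit 29)) (rf (nat_lit 30)))))))) (cs (nd (nat_lit 188) (nat_lit 0) (cs (rf (nat_lit 6)) (cs (rf (nat_lit 7)) (nd (nat_lit 185) (nat_lit 0) (cs (rf (nat_lit 31)) (cs (rf (nat_lit 10)) (rf (nat_lit 32)))))))) (cs (rf (nat_lit 33)) (cs (rf (nat_lit 34)) (cs (nd (nat_lit 164) (nat_lit 0) (cs (rf (nat_lit 24)) (cs (nd (nat_lit 165) (nat_lit 0) (cs (rf (nat_lit 29)) (nd (nat_lit 188) (nat_lit 0) (cs (rf (nat_lit 6)) (nd (nat_lit 185) (nat_lit 0) (cs (rf (nat_lit 31)) (cs (rf (nat_lit 35)) (nd (nat_lit 166) (nat_lit 0) (cs (lf (nat_lit 6) (nat_lit 163)) (nd (nat_lit 144) (nat_lit 0) (cs (lf (nat_lit 36) (nat_lit 121)) (rf (nat_lit 36)))))))))))))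 (nd (nat_lit 142) (nat_lit 0) (cs (lf (nat_lit 24) (nat_lit 120)) (rf (nat_lit 37))))))) (cs (nd (nat_lit 164) (nat_lit 0) (cs (rf (nat_lit 38)) (cs (rf (nat_lit 39)) (cs (rf (nat_lit 40)) (rf (nat_lit 25)))))) (rf (nat_lit 41)))))))))))))))) q10340 (by decide +kernel)
def q10475 : Q := Q.p (nat_lit 0x30000080000000000000000000000000000000000000000000000) (nat_lit 0x6600019c000778001c6000f7c001fe0007fc001fc00034000080000000000000000000) (nat_lit 15)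
theorem c10475 : QOK q10475 := cut [q8410, q8547, q10415, q6912, q10424, q6130, q10426, q10428, q10451, q10453, q8324, q9554, q9575, q10420, q10455, q459, q2762, q9567] ⟨c8410, c8547, c10415, c6912, c10424, c6130, c10426, c10428, c10451, c10453, c8324, c9554, c9575, c10420, c10455, c459, c2762, c9567, trivial⟩ (nd (nat_lit 186) (nat_lit 0) (cs (rf (nat_lit 0)) (cs (rf (nat_lit 1)) (cs (rf (nat_lit 2)) (cs (nd (nat_lit 230) (nat_lit 0) (cs (rf (nat_lit 3)) (cs (rf (nat_lit 4)) (nd (nat_lit 164) (nat_lit 0) (cs (rf (nat_lit 5)) (cs (rf (nat_lit 6)) (rf (nat_lit 7)))))))) (cs (rf (nat_lit 8)) (cs (rf (nat_lit 9)) (cs (nd (nat_lit 164) (nat_lit 0) (cs (rf (nat_lit 10)) (cs (rf (nat_lit 11)) (cs (rf (nat_lit 12)) (cs (rf (nat_lit 13)) (cs (nd (nat_lit 142) (nat_lit 0) (cs (lf (nat_lit 24) (nat_lit 120)) (nd (nat_lit 141) (nat_lit 0) (cs (lf (nat_lit 47) (nat_lit 119)) (nd (nat_lit 163) (nat_lit 0) (cs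 (lf (nat_lit 42) (nat_lit 141)) (rf (nat_lit 14)))))))) (nd (nat_lit 142) (nat_lit 0) (cs (lf (nat_lit 24) (nat_lit 120)) (nd (nat_lit 119) (nat_lit 0) (cs (lf (nat_lit 46) (nat_lit 119)) (nd (nat_lit 143) (nat_lit 0) (cs (lf (nat_lit 35) (nat_lit 120)) (nd (nat_lit 165) (nat_lit 0) (cs (lf (nat_lit 30) (nat_lit 142)) (nd (nat_lit 210) (nat_lit 0) (cs (lf (nat_lit 29) (nat_lit 143)) (nd (nat_lit 144) (nat_lit 0) (cs (lf (nat_lit 35) (nat_lit 121)) (nd (nat_lit 211) (nat_lit 0) (cs (lf (nat_lit 18) (nat_lit 186)) (nd (nat_lit 145) (nat_lit 0) (cs (lf (nat_lit 6) (nat_lit 142)) (nd (nat_lit 167) (nat_lit 0) (cs (lf (nat_lit 5) (nat_lit 142)) (nd (nat_lit 123) (nat_lit 0) (cs (lf (nat_lit 17) (nat_lit 120)) (nd (nat_lit 188) (nat_lit 0) (cs (lf (nat_lit 39) (nat_lit 122)) (lf (nat_lit 32) (nat_lit 122)))))))))))))))))))))))))))))) (nd (nat_lit 230) (nat_lit 0) (cs (rf (nat_lit 3)) (cs (rf (nat_lit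 4)) (nd (nat_lit 164) (nat_lit 0) (cs (nd (nat_lit 165) (nat_lit 0) (cs (lf (nat_lit 35) (nat_lit 142)) (nd (nat_lit 163) (nat_lit 0) (cs (lf (nat_lit 47) (nat_lit 141)) (nd (nat_lit 162) (nat_lit 0) (cs (rf (nat_lit 15)) (cs (nd (nat_lit 229) (nat_lit 0) (cs (lf (nat_lit 41) (nat_lit 163)) (nd (nat_lit 187) (nat_lit 0) (cs (lf (nat_lit 5) (nat_lit 162)) (nd (nat_lit 139) (nat_lit 0) (cs (lf (nat_lit 22) (nat_lit 139)) (nd (nat_lit 184) (nat_lit 0) (cs (lf (nat_lit 11) (nat_lit 161)) (nd (nat_lit 185) (nat_lit 0) (cs (lf (nat_lit 17) (nat_lit 162)) (nd (nat_lit 206) (nat_lit 0) (cs (lf (nat_lit 11) (nat_lit 183)) (nd (nat_lit 209) (nat_lit 0) (cs (lf (nat_lit 5) (nat_lit 184)) (nd (nat_lit 228) (nat_lit 0) (cs (lf (nat_lit 12) (nat_lit 205)) (lf (nat_lit 30) (nat_lit 162)))))))))))))))))) (nd (nat_lit 229) (nat_lit 0) (cs (lf (nat_lit 41) (nat_lit 163)) (rf (nat_lit 16))))))))))) (cs (rf (nat_lit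 17)) (cs (rf (nat_lit 12)) (rf (nat_lit 6))))))))))))))))) q10475 (by decide +kernel)
def q10637 : Q := Q.p (nat_lit 0x2000000000030000000000000000000000000000000000000000000000000000) (nat_lit 0x200000a00007c0001e0003fc0018f8007fc003ff8007fc003fe0003f8000ba000040000000000000) (nat_lit 17)
theorem c10637 : QOK q10637 := cut [q10527, q10587, q9553, q10421, q10589, q10593, q10081, q10596, q10062, q2065, q3187, q3768, q10611, q8437, q9555, q9576, q9626, q9641, q10310, q10319, q10338, q1704, q10453, q5891, q9539, q9724, q419, q2106, q10284, q2282, q2649, q10494, q10588, q9578, q10636] ⟨c10527, c10587, c9553, c10421, c10589, c10593, c10081, c10596, c10062, c2065, c3187, c3768, c10611, c8437, c9555, c9576, c9626, c9641, c10310, c10319, c10338, c1704, c10453, c5891, c9539, c9724, c419, c2106, c10284, c2282, c2649, c10494, c10588, c9578, c10636, trivial⟩ (nd (nat_lit 187) (nat_lit 0) (cs (rf (nat_lit 0))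 (cs (rf (nat_lit 1)) (cs (nd (nat_lit 186) (nat_lit 0) (cs (rf (nat_lit 2)) (cs (rf (nat_lit 3)) (rf (nat_lit 4))))) (cs (nd (nat_lit 252) (nat_lit 0) (cs (rf (nat_lit 5)) (cs (nd (nat_lit 231) (nat_lit 0) (cs (lf (nat_lit 41) (nat_lit 186)) (rf (nat_lit 6)))) (cs (nd (nat_lit 230) (nat_lit 0) (cs (rf (nat_lit 7)) (cs (nd (nat_lit 251) (nat_lit 0) (cs (rf (nat_lit 8)) (cs (nd (nat_lit 250) (nat_lit 0) (cs (rf (nat_lit 9)) (cs (rf (nat_lit 10)) (nd (nat_lit 227) (nat_lit 0) (cs (lf (nat_lit 22) (nat_lit 227)) (nd (nat_lit 271) (nat_lit 0) (cs (lf (nat_lit 10) (nat_lit 249)) (nd (nat_lit 231) (nat_lit 0) (cs (lf (nat_lit 17) (nat_lit 228)) (rf (nat_lit 6))))))))))) (nd (nat_lit 250) (nat_lit 0) (cs (rf (nat_lit 9)) (cs (rf (nat_lit 10)) (nd (nat_lit 228) (nat_lit 0) (cs (lf (nat_lit 23) (nat_lit 227)) (nd (nat_lit 271) (nat_lit 0) (cs (lf (nat_lit 10) (nat_lit 249)) (nd (nat_lit 231) (nat_lit 0) (cs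 (lf (nat_lit 17) (nat_lit 228)) (nd (nat_lit 188) (nat_lit 0) (cs (lf (nat_lit 35) (nat_lit 165)) (nd (nat_lit 189) (nat_lit 0) (cs (lf (nat_lit 6) (nat_lit 186)) (nd (nat_lit 206) (nat_lit 0) (cs (lf (nat_lit 13) (nat_lit 184)) (nd (nat_lit 205) (nat_lit 0) (cs (rf (nat_lit 11)) (lf (nat_lit 20) (nat_lit 205)))))))))))))))))))))) (rf (nat_lit 12))))) (nd (nat_lit 230) (nat_lit 0) (cs (lf (nat_lit 30) (nat_lit 186)) (rf (nat_lit 7)))))))) (cs (nd (nat_lit 186) (nat_lit 0) (cs (rf (nat_lit 13)) (cs (rf (nat_lit 2)) (cs (rf (nat_lit 14)) (cs (rf (nat_lit 15)) (cs (rf (nat_lit 16)) (cs (rf (nat_lit 17)) (cs (rf (nat_lit 18)) (cs (rf (nat_lit 19)) (rf (nat_lit 20))))))))))) (cs (nd (nat_lit 186) (nat_lit 0) (cs (rf (nat_lit 21)) (cs (rf (nat_lit 22)) (cs (rf (nat_lit 4)) (nd (nat_lit 185) (nat_lit 0) (cs (rf (nat_lit 23)) (cs (rf (nat_lit 24)) (cs (rf (nat_lit 25)) (cs (nd (nat_lit 207) (nat_lit 0)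 (cs (rf (nat_lit 26)) (cs (rf (nat_lit 27)) (rf (nat_lit 28))))) (cs (nd (nat_lit 184) (nat_lit 0) (cs (lf (nat_lit 0) (nat_lit 183)) (nd (nat_lit 206) (nat_lit 0) (cs (lf (nat_lit 11) (nat_lit 183)) (nd (nat_lit 207) (nat_lit 0) (cs (lf (nat_lit 17) (nat_lit 184)) (nd (nat_lit 231) (nat_lit 0) (cs (lf (nat_lit 5) (nat_lit 206)) (nd (nat_lit 252) (nat_lit 0) (cs (lf (nat_lit 41) (nat_lit 186)) (nd (nat_lit 230) (nat_lit 0) (cs (lf (nat_lit 47) (nat_lit 163)) (lf (nat_lit 36) (nat_lit 164)))))))))))))) (nd (nat_lit 184) (nat_lit 0) (cs (lf (nat_lit 0) (nat_lit 183)) (nd (nat_lit 161) (nat_lit 0) (cs (lf (nat_lit 22) (nat_lit 161)) (nd (nat_lit 206) (nat_lit 0) (cs (lf (nat_lit 11) (nat_lit 183)) (nd (nat_lit 207) (nat_lit 0) (cs (lf (nat_lit 17) (nat_lit 184)) (nd (nat_lit 231) (nat_lit 0) (cs (lf (nat_lit 5) (nat_lit 206)) (nd (nat_lit 252) (nat_lit 0) (cs (lf (nat_lit 41) (nat_lit 186)) (nd (nat_lit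 230) (nat_lit 0) (cs (lf (nat_lit 36) (nat_lit 164)) (nd (nat_lit 251) (nat_lit 0) (cs (lf (nat_lit 41) (nat_lit 185)) (nd (nat_lit 250) (nat_lit 0) (cs (rf (nat_lit 29)) (lf (nat_lit 12) (nat_lit 227)))))))))))))))))))))))))))))) (cs (nd (nat_lit 186) (nat_lit 0) (cs (rf (nat_lit 30)) (cs (rf (nat_lit 13)) (cs (rf (nat_lit 31)) (cs (rf (nat_lit 32)) (nd (nat_lit 164) (nat_lit 0) (cs (lf (nat_lit 43) (nat_lit 164)) (rf (nat_lit 33))))))))) (rf (nat_lit 34)))))))))) q10637 (by decide +kernel)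
def q10656 : Q := Q.p (nat_lit 0x2000000000030000040000000000000000000000000000000000000000000000) (nat_lit 0x640001900007e0003c00007b8001fe0007e0000f800000000000000000000000000000) (nat_lit 14)
theorem c10656 : QOK q10656 := cut [q1704, q8547, q10409, q10422] ⟨c1704, c8547, c10409, c10422, trivial⟩ (nd (nat_lit 187) (nat_lit 0) (cs (rf (nat_lit 0)) (cs (rf (nat_lit 1)) (cs (rf (nat_lit 2)) (rf (nat_lit 3)))))) q10656 (by decide +kernel)
def q11056 : Q := Q.p (nat_lit 0x2000000000030000000000000000000000000000000000000000000000000000) (nat_lit 0x300000f00003e00007c0001f800ffc001cf800efc0003e0007f0000780000e000000000000000000000000) (nat_lit 17)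
theorem c11056 : QOK q11056 := cut [q10789, q1178, q1251, q1125, q1247, q10794, q1333, q10803, q10823, q10824, q3797, q7644, q75, q1167, q7649, q17, q367, q426, q10831, q448, q7643, q10845, q10849, q10851, q10852, q10913, q7437, q186, q4294, q7864, q4607, q5149, q10920, q10923, q10925, q10976, q11009, q10885, q11008, q11013, q11039, q11052, q11025, q11001, q11004, q11007, q11053] ⟨c10789, c1178, c1251, c1125, c1247, c10794, c1333, c10803, c10823, c10824, c3797, c7644, c75, c1167, c7649, c17, c367, c426, c10831, c448, c7643, c10845, c10849, c10851, c10852, c10913, c7437, c186, c4294, c7864, c4607, c5149, c10920, c10923, c10925, c10976, c11009, c10885, c11008, c11013, c11039, c11052, c11025, c11001, c11004, c11007, c11053, trivial⟩ (nd (nat_lit 230) (nat_lit 0) (cs (rf (nat_lit 0)) (cs (nd (nat_lit 229) (nat_lit 0) (cs (rf (nat_lit 1)) (cs (rf (nat_lit 2)) (cs (nd (nat_lit 207) (nat_lit 0) (cs (rf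 (nat_lit 3)) (cs (rf (nat_lit 4)) (cs (rf (nat_lit 5)) (nd (nat_lit 210) (nat_lit 0) (cs (lf (nat_lit 6) (nat_lit 207)) (nd (nat_lit 232) (nat_lit 0) (cs (lf (nat_lit 5) (nat_lit 207)) (nd (nat_lit 231) (nat_lit 0) (cs (lf (nat_lit 0) (nat_lit 206)) (nd (nat_lit 251) (nat_lit 0) (cs (lf (nat_lit 11) (nat_lit 228)) (nd (nat_lit 273) (nat_lit 0) (cs (lf (nat_lit 30) (nat_lit 207)) (nd (nat_lit 274) (nat_lit 0) (cs (lf (nat_lit 29) (nat_lit 207)) (nd (nat_lit 252) (nat_lit 0) (cs (lf (nat_lit 36) (nat_lit 186)) (lf (nat_lit 47) (nat_lit 185)))))))))))))))))))) (nd (nat_lit 252) (nat_lit 0) (cs (rf (nat_lit 6)) (cs (rf (nat_lit 7)) (cs (rf (nat_lit 8)) (rf (nat_lit 9)))))))))) (cs (nd (nat_lit 186) (nat_lit 0) (cs (rf (nat_lit 10)) (cs (rf (nat_lit 11)) (cs (nd (nat_lit 210) (nat_lit 0) (cs (rf (nat_lit 12)) (cs (rf (nat_lit 13)) (cs (rf (nat_lit 14)) (nd (nat_lit 252) (nat_lit 0) (cs (rf (nat_lit 15))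 (cs (rf (nat_lit 16)) (nd (nat_lit 228) (nat_lit 0) (cs (nd (nat_lit 229) (nat_lit 0) (cs (lf (nat_lit 12) (nat_lit 205)) (lf (nat_lit 15) (nat_lit 206)))) (cs (nd (nat_lit 163) (nat_lit 0) (cs (lf (nat_lit 46) (nat_lit 163)) (nd (nat_lit 251) (nat_lit 0) (cs (lf (nat_lit 41) (nat_lit 185)) (nd (nat_lit 231) (nat_lit 0) (cs (rf (nat_lit 17)) (lf (nat_lit 13) (nat_lit 206)))))))) (cs (nd (nat_lit 163) (nat_lit 0) (cs (lf (nat_lit 46) (nat_lit 163)) (nd (nat_lit 251) (nat_lit 0) (cs (lf (nat_lit 41) (nat_lit 185)) (rf (nat_lit 18)))))) (nd (nat_lit 251) (nat_lit 0) (cs (lf (nat_lit 41) (nat_lit 185)) (nd (nat_lit 227) (nat_lit 0) (cs (lf (nat_lit 14) (nat_lit 205)) (lf (nat_lit 21) (nat_lit 227))))))))))))))))) (cs (nd (nat_lit 164) (nat_lit 0) (cs (rf (nat_lit 19)) (cs (rf (nat_lit 20)) (cs (rf (nat_lit 21)) (rf (nat_lit 22)))))) (cs (rf (nat_lit 23)) (rf (nat_lit 24)))))))) (cs (rf (nat_lit 25))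 (cs (nd (nat_lit 210) (nat_lit 0) (cs (rf (nat_lit 26)) (cs (nd (nat_lit 207) (nat_lit 0) (cs (rf (nat_lit 27)) (cs (rf (nat_lit 28)) (cs (rf (nat_lit 29)) (nd (nat_lit 229) (nat_lit 0) (cs (rf (nat_lit 30)) (nd (nat_lit 185) (nat_lit 0) (cs (lf (nat_lit 23) (nat_lit 184)) (nd (nat_lit 232) (nat_lit 0) (cs (lf (nat_lit 5) (nat_lit 207)) (nd (nat_lit 163) (nat_lit 0) (cs (lf (nat_lit 24) (nat_lit 141)) (nd (nat_lit 140) (nat_lit 0) (cs (lf (nat_lit 46) (nat_lit 140)) (rf (nat_lit 31)))))))))))))))) (cs (rf (nat_lit 32)) (cs (rf (nat_lit 33)) (rf (nat_lit 34))))))) (cs (rf (nat_lit 35)) (cs (rf (nat_lit 36)) (cs (nd (nat_lit 252) (nat_lit 0) (cs (rf (nat_lit 7)) (cs (rf (nat_lit 37)) (cs (rf (nat_lit 38)) (rf (nat_lit 39)))))) (cs (rf (nat_lit 40)) (cs (rf (nat_lit 41)) (nd (nat_lit 252) (nat_lit 0) (cs (rf (nat_lit 7)) (cs (rf (nat_lit 37)) (cs (rf (nat_lit 42)) (nd (nat_lit 231) (nat_lit 0) (cs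 (rf (nat_lit 43)) (cs (rf (nat_lit 44)) (cs (rf (nat_lit 45)) (rf (nat_lit 46))))))))))))))))))))) q11056 (by decide +kernel)
def q11139 : Q := Q.p (nat_lit 0x2000000000030000000000000000000000000000000000000000000000000000) (nat_lit 0x24000090001fdc003ce001ffc001f8001ff8007f80002a000000000000000000000000) (nat_lit 16)
theorem c11139 : QOK q11139 := cut [q10096, q10539, q10920, q5683, q7784, q7629, q7637, q228, q7499, q8062, q9483, q1550, q1710, q11120, q102, q11118, q1600, q11133, q231, q694] ⟨c10096, c10539, c10920, c5683, c7784, c7629, c7637, c228, c7499, c8062, c9483, c1550, c1710, c11120, c102, c11118, c1600, c11133, c231, c694, trivial⟩ (nd (nat_lit 210) (nat_lit 0) (cs (rf (nat_lit 0)) (cs (rf (nat_lit 1)) (cs (rf (nat_lit 2)) (cs (nd (nat_lit 186) (nat_lit 0) (cs (rf (nat_lit 3)) (cs (rf (nat_lit 4)) (nd (nat_lit 187) (nat_lit 0) (cs (rf (nat_lit 5)) (cs (rf (nat_lit 6)) (cs (nd (nat_lit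 164) (nat_lit 0) (cs (lf (nat_lit 43) (nat_lit 164)) (nd (nat_lit 120) (nat_lit 0) (cs (lf (nat_lit 25) (nat_lit 120)) (nd (nat_lit 211) (nat_lit 0) (cs (lf (nat_lit 18) (nat_lit 186)) (nd (nat_lit 233) (nat_lit 0) (cs (lf (nat_lit 5) (nat_lit 208)) (nd (nat_lit 189) (nat_lit 0) (cs (lf (nat_lit 17) (nat_lit 186)) (nd (nat_lit 188) (nat_lit 0) (cs (rf (nat_lit 7)) (lf (nat_lit 23) (nat_lit 163)))))))))))))) (nd (nat_lit 188) (nat_lit 0) (cs (rf (nat_lit 8)) (cs (rf (nat_lit 9)) (cs (nd (nat_lit 211) (nat_lit 0) (cs (lf (nat_lit 18) (nat_lit 186)) (rf (nat_lit 10)))) (nd (nat_lit 211) (nat_lit 0) (cs (lf (nat_lit 18) (nat_lit 186)) (nd (nat_lit 233) (nat_lit 0) (cs (lf (nat_lit 5) (nat_lit 208)) (nd (nat_lit 255) (nat_lit 0) (cs (lf (nat_lit 42) (nat_lit 188)) (nd (nat_lit 189) (nat_lit 0) (cs (lf (nat_lit 6) (nat_lit 186)) (lf (nat_lit 47) (nat_lit 166))))))))))))))))))))) (cs (nd (nat_lit 233)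 (nat_lit 0) (cs (nd (nat_lit 207) (nat_lit 0) (cs (lf (nat_lit 4) (nat_lit 207)) (nd (nat_lit 184) (nat_lit 0) (cs (lf (nat_lit 22) (nat_lit 184)) (nd (nat_lit 206) (nat_lit 0) (cs (lf (nat_lit 23) (nat_lit 183)) (rf (nat_lit 11)))))))) (cs (nd (nat_lit 211) (nat_lit 0) (cs (lf (nat_lit 5) (nat_lit 208)) (rf (nat_lit 12)))) (nd (nat_lit 232) (nat_lit 0) (cs (lf (nat_lit 0) (nat_lit 207)) (nd (nat_lit 234) (nat_lit 0) (cs (lf (nat_lit 21) (nat_lit 208)) (lf (nat_lit 3) (nat_lit 208))))))))) (cs (rf (nat_lit 13)) (cs (nd (nat_lit 211) (nat_lit 0) (cs (rf (nat_lit 14)) (cs (rf (nat_lit 15)) (cs (nd (nat_lit 234) (nat_lit 0) (cs (lf (nat_lit 4) (nat_lit 208)) (nd (nat_lit 212) (nat_lit 0) (cs (lf (nat_lit 5) (nat_lit 209)) (nd (nat_lit 230) (nat_lit 0) (cs (lf (nat_lit 10) (nat_lit 208)) (nd (nat_lit 187) (nat_lit 0) (cs (lf (nat_lit 23) (nat_lit 186)) (nd (nat_lit 252) (nat_lit 0) (cs (lf (nat_lit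 30) (nat_lit 186)) (nd (nat_lit 213) (nat_lit 0) (cs (rf (nat_lit 16)) (lf (nat_lit 22) (nat_lit 187)))))))))))))) (cs (nd (nat_lit 233) (nat_lit 0) (cs (lf (nat_lit 5) (nat_lit 208)) (nd (nat_lit 207) (nat_lit 0) (cs (lf (nat_lit 4) (nat_lit 207)) (nd (nat_lit 188) (nat_lit 0) (cs (lf (nat_lit 17) (nat_lit 185)) (nd (nat_lit 187) (nat_lit 0) (cs (lf (nat_lit 12) (nat_lit 184)) (nd (nat_lit 166) (nat_lit 0) (cs (lf (nat_lit 24) (nat_lit 144)) (lf (nat_lit 31) (nat_lit 165)))))))))))) (nd (nat_lit 189) (nat_lit 0) (cs (lf (nat_lit 17) (nat_lit 186)) (nd (nat_lit 207) (nat_lit 0) (cs (lf (nat_lit 16) (nat_lit 185)) (nd (nat_lit 232) (nat_lit 0) (cs (lf (nat_lit 5) (nat_lit 207)) (rf (nat_lit 17))))))))))))) (nd (nat_lit 211) (nat_lit 0) (cs (rf (nat_lit 18)) (cs (rf (nat_lit 19)) (rf (nat_lit 12))))))))))))) q11139 (by decide +kernel)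
def q11188 : Q := Q.p (nat_lit 0x2000000000030000000000000000000000000000000000000000000000000000) (nat_lit 0x600001e00007e0001f801ffe003cf000fe40007e0007f00007c00015000000000000000000000000) (nat_lit 17)
theorem c11188 : QOK q11188 := cut [q1585, q2348, q7462, q7620, q10131, q10767, q3019, q4100, q11075, q1475, q10661, q2938, q10669, q1119, q4446, q1832, q1857, q5429, q11144, q11149, q1749, q1939, q5427, q7236, q11157, q11161, q1490, q1726, q2352, q11164, q11170, q11179, q1715, q139, q697, q4286, q10386, q1568, q7685, q7693, q9490, q10593, q10772] ⟨c1585, c2348, c7462, c7620, c10131, c10767, c3019, c4100, c11075, c1475, c10661, c2938, c10669, c1119, c4446, c1832, c1857, c5429, c11144, c11149, c1749, c1939, c5427, c7236, c11157, c11161, c1490, c1726, c2352, c11164, c11170, c11179, c1715, c139, c697, c4286, c10386, c1568, c7685, c7693, c9490, c10593, c10772, trivial⟩ (nd (nat_lit 231) (nat_lit 0)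 (cs (rf (nat_lit 0)) (cs (rf (nat_lit 1)) (cs (rf (nat_lit 2)) (cs (rf (nat_lit 3)) (cs (rf (nat_lit 4)) (cs (rf (nat_lit 5)) (cs (nd (nat_lit 207) (nat_lit 0) (cs (rf (nat_lit 6)) (cs (rf (nat_lit 7)) (cs (rf (nat_lit 8)) (nd (nat_lit 187) (nat_lit 0) (cs (rf (nat_lit 9)) (rf (nat_lit 10)))))))) (cs (nd (nat_lit 207) (nat_lit 0) (cs (rf (nat_lit 11)) (cs (rf (nat_lit 7)) (cs (rf (nat_lit 12)) (nd (nat_lit 229) (nat_lit 0) (cs (rf (nat_lit 13)) (cs (rf (nat_lit 14)) (cs (nd (nat_lit 251) (nat_lit 0) (cs (rf (nat_lit 15)) (cs (rf (nat_lit 16)) (cs (nd (nat_lit 185) (nat_lit 0) (cs (rf (nat_lit 17)) (cs (nd (nat_lit 252) (nat_lit 0) (cs (lf (nat_lit 29) (nat_lit 185)) (nd (nat_lit 164) (nat_lit 0) (cs (lf (nat_lit 34) (nat_lit 163)) (nd (nat_lit 250) (nat_lit 0) (cs (lf (nat_lit 41) (nat_lit 184)) (rf (nat_lit 18)))))))) (cs (nd (nat_lit 250) (nat_lit 0) (cs (lf (nat_lit 41) (nat_lit 184)) (rf (nat_lit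 19)))) (cs (nd (nat_lit 163) (nat_lit 0) (cs (rf (nat_lit 20)) (cs (rf (nat_lit 21)) (cs (rf (nat_lit 22)) (nd (nat_lit 252) (nat_lit 0) (cs (lf (nat_lit 29) (nat_lit 185)) (nd (nat_lit 186) (nat_lit 0) (cs (lf (nat_lit 35) (nat_lit 163)) (nd (nat_lit 250) (nat_lit 0) (cs (lf (nat_lit 41) (nat_lit 184)) (nd (nat_lit 210) (nat_lit 0) (cs (lf (nat_lit 18) (nat_lit 185)) (nd (nat_lit 141) (nat_lit 0) (cs (lf (nat_lit 24) (nat_lit 119)) (rf (nat_lit 23)))))))))))))))) (nd (nat_lit 250) (nat_lit 0) (cs (lf (nat_lit 41) (nat_lit 184)) (nd (nat_lit 252) (nat_lit 0) (cs (lf (nat_lit 29) (nat_lit 185)) (rf (nat_lit 24))))))))))) (rf (nat_lit 25)))))) (nd (nat_lit 251) (nat_lit 0) (cs (rf (nat_lit 15)) (cs (rf (nat_lit 16)) (cs (rf (nat_lit 25)) (nd (nat_lit 228) (nat_lit 0) (cs (rf (nat_lit 26)) (cs (rf (nat_lit 27)) (cs (nd (nat_lit 250) (nat_lit 0) (cs (rf (nat_lit 28)) (cs (nd (nat_lit 230) (nat_lit 0)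 (cs (lf (nat_lit 11) (nat_lit 227)) (nd (nat_lit 206) (nat_lit 0) (cs (lf (nat_lit 23) (nat_lit 205)) (nd (nat_lit 164) (nat_lit 0) (cs (lf (nat_lit 37) (nat_lit 163)) (rf (nat_lit 29)))))))) (nd (nat_lit 249) (nat_lit 0) (cs (lf (nat_lit 7) (nat_lit 227)) (nd (nat_lit 163) (nat_lit 0) (cs (lf (nat_lit 37) (nat_lit 162)) (nd (nat_lit 248) (nat_lit 0) (cs (lf (nat_lit 12) (nat_lit 225)) (nd (nat_lit 226) (nat_lit 0) (cs (lf (nat_lit 23) (nat_lit 225)) (nd (nat_lit 270) (nat_lit 0) (cs (lf (nat_lit 11) (nat_lit 247)) (nd (nat_lit 271) (nat_lit 0) (cs (rf (nat_lit 30)) (lf (nat_lit 6) (nat_lit 248))))))))))))))))) (rf (nat_lit 31)))))))))))))))))) (nd (nat_lit 207) (nat_lit 0) (cs (rf (nat_lit 32)) (cs (rf (nat_lit 11)) (cs (rf (nat_lit 7)) (nd (nat_lit 210) (nat_lit 0) (cs (rf (nat_lit 33)) (cs (rf (nat_lit 34)) (cs (rf (nat_lit 35)) (cs (rf (nat_lit 36)) (nd (nat_lit 187) (nat_lit 0) (cs (rf (nat_lit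 37)) (cs (rf (nat_lit 38)) (cs (rf (nat_lit 39)) (cs (rf (nat_lit 40)) (nd (nat_lit 252) (nat_lit 0) (cs (rf (nat_lit 41)) (rf (nat_lit 42))))))))))))))))))))))))))) q11188 (by decide +kernel)
def q11257 : Q := Q.p (nat_lit 0x2000000000030000000000000000000000000000000000000000000000000000) (nat_lit 0x20000780001e0003f8000cf8001fc001ff8007fc003ff0000f80003a000000000000000000) (nat_lit 17)
theorem c11257 : QOK q11257 := cut [q10652, q10654, q1170, q2175, q5891, q2106, q3745, q1982, q5848, q7086, q8622, q2725, q5808, q5701, q5803, q5707, q5718, q5713, q5770, q8228, q9093, q9613, q449, q636, q660, q9338, q1704, q10487, q11247, q11, q8621, q2226, q8299, q10519] ⟨c10652, c10654, c1170, c2175, c5891, c2106, c3745, c1982, c5848, c7086, c8622, c2725, c5808, c5701, c5803, c5707, c5718, c5713, c5770, c8228, c9093, c9613, c449, c636, c660, c9338, c1704, c10487, c11247, c11, c8621, c2226, c8299, c10519, trivial⟩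 (nd (nat_lit 186) (nat_lit 0) (cs (rf (nat_lit 0)) (cs (rf (nat_lit 1)) (cs (nd (nat_lit 185) (nat_lit 0) (cs (rf (nat_lit 2)) (cs (rf (nat_lit 3)) (cs (rf (nat_lit 4)) (nd (nat_lit 207) (nat_lit 0) (cs (rf (nat_lit 5)) (cs (nd (nat_lit 210) (nat_lit 0) (cs (lf (nat_lit 18) (nat_lit 185)) (nd (nat_lit 229) (nat_lit 0) (cs (lf (nat_lit 11) (nat_lit 206)) (nd (nat_lit 232) (nat_lit 0) (cs (lf (nat_lit 5) (nat_lit 207)) (nd (nat_lit 251) (nat_lit 0) (cs (lf (nat_lit 30) (nat_lit 185)) (nd (nat_lit 252) (nat_lit 0) (cs (lf (nat_lit 29) (nat_lit 185)) (nd (nat_lit 250) (nat_lit 0) (cs (lf (nat_lit 41) (nat_lit 184)) (lf (nat_lit 16) (nat_lit 228)))))))))))))) (nd (nat_lit 210) (nat_lit 0) (cs (lf (nat_lit 18) (nat_lit 185)) (nd (nat_lit 232) (nat_lit 0) (cs (lf (nat_lit 5) (nat_lit 207)) (nd (nat_lit 206) (nat_lit 0) (cs (lf (nat_lit 4) (nat_lit 206)) (rf (nat_lit 6))))))))))))))) (cs (nd (nat_lit 185)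 (nat_lit 0) (cs (rf (nat_lit 2)) (cs (rf (nat_lit 3)) (cs (rf (nat_lit 4)) (nd (nat_lit 207) (nat_lit 0) (cs (rf (nat_lit 7)) (cs (rf (nat_lit 5)) (cs (rf (nat_lit 8)) (nd (nat_lit 187) (nat_lit 0) (cs (rf (nat_lit 9)) (cs (nd (nat_lit 210) (nat_lit 0) (cs (lf (nat_lit 18) (nat_lit 185)) (nd (nat_lit 232) (nat_lit 0) (cs (lf (nat_lit 5) (nat_lit 207)) (nd (nat_lit 165) (nat_lit 0) (cs (lf (nat_lit 24) (nat_lit 143)) (nd (nat_lit 230) (nat_lit 0) (cs (lf (nat_lit 30) (nat_lit 164)) (nd (nat_lit 163) (nat_lit 0) (cs (lf (nat_lit 24) (nat_lit 141)) (rf (nat_lit 10)))))))))))) (nd (nat_lit 141) (nat_lit 0) (cs (rf (nat_lit 11)) (cs (rf (nat_lit 12)) (nd (nat_lit 142) (nat_lit 0) (cs (rf (nat_lit 13)) (cs (rf (nat_lit 14)) (cs (nd (nat_lit 119) (nat_lit 0) (cs (lf (nat_lit 44) (nat_lit 119)) (nd (nat_lit 205) (nat_lit 0) (cs (lf (nat_lit 13) (nat_lit 183)) (nd (nat_lit 210) (nat_lit 0) (cs (lf (nat_lit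 18) (nat_lit 185)) (nd (nat_lit 232) (nat_lit 0) (cs (lf (nat_lit 5) (nat_lit 207)) (nd (nat_lit 143) (nat_lit 0) (cs (lf (nat_lit 25) (nat_lit 143)) (rf (nat_lit 15)))))))))))) (nd (nat_lit 143) (nat_lit 0) (cs (rf (nat_lit 16)) (cs (nd (nat_lit 140) (nat_lit 0) (cs (rf (nat_lit 17)) (cs (rf (nat_lit 18)) (cs (rf (nat_lit 19)) (nd (nat_lit 161) (nat_lit 0) (cs (lf (nat_lit 10) (nat_lit 139)) (nd (nat_lit 118) (nat_lit 0) (cs (lf (nat_lit 23) (nat_lit 117)) (nd (nat_lit 121) (nat_lit 0) (cs (lf (nat_lit 17) (nat_lit 118)) (nd (nat_lit 144) (nat_lit 0) (cs (lf (nat_lit 22) (nat_lit 118)) (rf (nat_lit 20)))))))))))))) (rf (nat_lit 21))))))))))))))))))))))) (cs (nd (nat_lit 164) (nat_lit 0) (cs (nd (nat_lit 230) (nat_lit 0) (cs (lf (nat_lit 28) (nat_lit 164)) (rf (nat_lit 22)))) (cs (rf (nat_lit 23)) (cs (rf (nat_lit 24)) (rf (nat_lit 25)))))) (cs (nd (nat_lit 187) (nat_lit 0) (cs (rf (nat_lit 26))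 (cs (rf (nat_lit 27)) (cs (rf (nat_lit 28)) (nd (nat_lit 185) (nat_lit 0) (cs (rf (nat_lit 29)) (nd (nat_lit 163) (nat_lit 0) (cs (rf (nat_lit 30)) (rf (nat_lit 10)))))))))) (nd (nat_lit 187) (nat_lit 0) (cs (rf (nat_lit 27)) (cs (rf (nat_lit 28)) (cs (nd (nat_lit 185) (nat_lit 0) (cs (rf (nat_lit 31)) (nd (nat_lit 207) (nat_lit 0) (cs (rf (nat_lit 7)) (rf (nat_lit 9)))))) (cs (nd (nat_lit 164) (nat_lit 0) (cs (lf (nat_lit 43) (nat_lit 164)) (nd (nat_lit 142) (nat_lit 0) (cs (lf (nat_lit 24) (nat_lit 120)) (rf (nat_lit 32)))))) (nd (nat_lit 231) (nat_lit 0) (cs (lf (nat_lit 47) (nat_lit 164)) (rf (nat_lit 33)))))))))))))))) q11257 (by decide +kernel)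
def q11340 : Q := Q.p (nat_lit 0x2000000000030000000000000000000000000000000000000000000000000000) (nat_lit 0x200000f00003e00007c0001f801dfe007cf801ffe001ff0007fe000fa0000e000028000000000000000000) (nat_lit 16)
theorem c11340 : QOK q11340 := cut [q10789, q10913, q11039, q1175, q8578, q10852, q11202, q11210, q11271, q8, q450, q39, q1160, q1167, q11278, q3797, q7644, q10851, q6912, q8547, q13, q11296, q11309, q11325, q10655, q367, q356, q10407, q1178, q10877, q10803, q10885, q11013, q1322, q1431, q11336] ⟨c10789, c10913, c11039, c1175, c8578, c10852, c11202, c11210, c11271, c8, c450, c39, c1160, c1167, c11278, c3797, c7644, c10851, c6912, c8547, c13, c11296, c11309, c11325, c10655, c367, c356, c10407, c1178, c10877, c10803, c10885, c11013, c1322, c1431, c11336, trivial⟩ (nd (nat_lit 230) (nat_lit 0) (cs (rf (nat_lit 0)) (cs (rf (nat_lit 1)) (cs (rf (nat_lit 2)) (cs (nd (nat_lit 186) (nat_lit 0) (cs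 (rf (nat_lit 3)) (cs (rf (nat_lit 4)) (cs (rf (nat_lit 5)) (cs (nd (nat_lit 164) (nat_lit 0) (cs (lf (nat_lit 28) (nat_lit 164)) (nd (nat_lit 229) (nat_lit 0) (cs (lf (nat_lit 41) (nat_lit 163)) (nd (nat_lit 227) (nat_lit 0) (cs (lf (nat_lit 13) (nat_lit 205)) (nd (nat_lit 210) (nat_lit 0) (cs (lf (nat_lit 6) (nat_lit 207)) (nd (nat_lit 142) (nat_lit 0) (cs (lf (nat_lit 40) (nat_lit 141)) (nd (nat_lit 120) (nat_lit 0) (cs (lf (nat_lit 28) (nat_lit 120)) (rf (nat_lit 6)))))))))))))) (nd (nat_lit 164) (nat_lit 0) (cs (lf (nat_lit 28) (nat_lit 164)) (nd (nat_lit 229) (nat_lit 0) (cs (lf (nat_lit 41) (nat_lit 163)) (nd (nat_lit 227) (nat_lit 0) (cs (lf (nat_lit 13) (nat_lit 205)) (nd (nat_lit 142) (nat_lit 0) (cs (lf (nat_lit 40) (nat_lit 141)) (nd (nat_lit 141) (nat_lit 0) (cs (lf (nat_lit 46) (nat_lit 141)) (nd (nat_lit 210) (nat_lit 0) (cs (lf (nat_lit 6) (nat_lit 207)) (rf (nat_lit 7)))))))))))))))))))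 (cs (rf (nat_lit 8)) (cs (nd (nat_lit 186) (nat_lit 0) (cs (rf (nat_lit 9)) (cs (rf (nat_lit 10)) (cs (rf (nat_lit 3)) (nd (nat_lit 210) (nat_lit 0) (cs (rf (nat_lit 11)) (cs (rf (nat_lit 12)) (cs (rf (nat_lit 13)) (rf (nat_lit 14)))))))))) (cs (nd (nat_lit 186) (nat_lit 0) (cs (rf (nat_lit 15)) (cs (rf (nat_lit 16)) (cs (rf (nat_lit 17)) (cs (rf (nat_lit 5)) (nd (nat_lit 187) (nat_lit 0) (cs (rf (nat_lit 18)) (cs (rf (nat_lit 19)) (nd (nat_lit 252) (nat_lit 0) (cs (lf (nat_lit 30) (nat_lit 186)) (nd (nat_lit 251) (nat_lit 0) (cs (rf (nat_lit 20)) (lf (nat_lit 41) (nat_lit 185)))))))))))))) (cs (rf (nat_lit 21)) (cs (rf (nat_lit 22)) (cs (rf (nat_lit 23)) (cs (nd (nat_lit 186) (nat_lit 0) (cs (rf (nat_lit 9)) (cs (rf (nat_lit 16)) (cs (rf (nat_lit 24)) (cs (nd (nat_lit 252) (nat_lit 0) (cs (rf (nat_lit 25)) (cs (nd (nat_lit 273) (nat_lit 0) (cs (lf (nat_lit 40) (nat_lit 185)) (nd (nat_lit 274) (nat_lit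 0) (cs (lf (nat_lit 41) (nat_lit 207)) (nd (nat_lit 207) (nat_lit 0) (cs (lf (nat_lit 47) (nat_lit 185)) (nd (nat_lit 296) (nat_lit 0) (cs (lf (nat_lit 34) (nat_lit 208)) (lf (nat_lit 46) (nat_lit 207)))))))))) (nd (nat_lit 187) (nat_lit 0) (cs (rf (nat_lit 18)) (nd (nat_lit 188) (nat_lit 0) (cs (rf (nat_lit 26)) (rf (nat_lit 27))))))))) (nd (nat_lit 229) (nat_lit 0) (cs (rf (nat_lit 28)) (rf (nat_lit 29))))))))) (nd (nat_lit 252) (nat_lit 0) (cs (rf (nat_lit 30)) (cs (rf (nat_lit 31)) (cs (rf (nat_lit 32)) (nd (nat_lit 274) (nat_lit 0) (cs (rf (nat_lit 33)) (cs (rf (nat_lit 34)) (nd (nat_lit 185) (nat_lit 0) (cs (lf (nat_lit 46) (nat_lit 185)) (rf (nat_lit 35))))))))))))))))))))))) q11340 (by decide +kernel)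
def q11470 : Q := Q.p (nat_lit 0x2000000000018000000000000000000000000000000000000000000000000000) (nat_lit 0x150000770001fc0001f8001df000e780017f8001fc0007f8001f00005400000000000000000000000) (nat_lit 17)
theorem c11470 : QOK q11470 := cut [q3318, q1135, q3325, q3275, q3300, q2937, q1563, q3273, q3211, q3307, q3440, q153, q11356, q3505, q3529, q11360, q11374, q7139, q11454, q11460, q11464, q3903, q6696, q11459, q11457] ⟨c3318, c1135, c3325, c3275, c3300, c2937, c1563, c3273, c3211, c3307, c3440, c153, c11356, c3505, c3529, c11360, c11374, c7139, c11454, c11460, c11464, c3903, c6696, c11459, c11457, trivial⟩ (nd (nat_lit 206) (nat_lit 0) (cs (rf (nat_lit 0)) (cs (nd (nat_lit 209) (nat_lit 0) (cs (rf (nat_lit 1)) (rf (nat_lit 2)))) (cs (nd (nat_lit 231) (nat_lit 0) (cs (nd (nat_lit 209) (nat_lit 0) (cs (lf (nat_lit 5) (nat_lit 206)) (rf (nat_lit 3)))) (cs (nd (nat_lit 205) (nat_lit 0) (cs (lf (nat_lit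 4) (nat_lit 205)) (rf (nat_lit 4)))) (cs (nd (nat_lit 209) (nat_lit 0) (cs (lf (nat_lit 5) (nat_lit 206)) (rf (nat_lit 5)))) (cs (nd (nat_lit 209) (nat_lit 0) (cs (lf (nat_lit 5) (nat_lit 206)) (nd (nat_lit 227) (nat_lit 0) (cs (lf (nat_lit 10) (nat_lit 205)) (rf (nat_lit 6)))))) (nd (nat_lit 209) (nat_lit 0) (cs (lf (nat_lit 5) (nat_lit 206)) (nd (nat_lit 205) (nat_lit 0) (cs (lf (nat_lit 4) (nat_lit 205)) (rf (nat_lit 7))))))))))) (cs (nd (nat_lit 205) (nat_lit 0) (cs (rf (nat_lit 8)) (cs (rf (nat_lit 4)) (cs (rf (nat_lit 9)) (cs (rf (nat_lit 10)) (cs (nd (nat_lit 185) (nat_lit 0) (cs (nd (nat_lit 230) (nat_lit 0) (cs (lf (nat_lit 5) (nat_lit 205)) (nd (nat_lit 252) (nat_lit 0) (cs (lf (nat_lit 42) (nat_lit 185)) (nd (nat_lit 186) (nat_lit 0) (cs (lf (nat_lit 47) (nat_lit 163)) (lf (nat_lit 12) (nat_lit 182)))))))) (cs (nd (nat_lit 204) (nat_lit 0) (cs (rf (nat_lit 11)) (lf (nat_lit 17) (nat_lit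 182)))) (cs (nd (nat_lit 226) (nat_lit 0) (cs (lf (nat_lit 10) (nat_lit 204)) (rf (nat_lit 12)))) (nd (nat_lit 227) (nat_lit 0) (cs (lf (nat_lit 11) (nat_lit 204)) (nd (nat_lit 184) (nat_lit 0) (cs (rf (nat_lit 13)) (cs (nd (nat_lit 250) (nat_lit 0) (cs (rf (nat_lit 14)) (cs (nd (nat_lit 230) (nat_lit 0) (cs (lf (nat_lit 5) (nat_lit 205)) (nd (nat_lit 274) (nat_lit 0) (cs (lf (nat_lit 43) (nat_lit 185)) (nd (nat_lit 203) (nat_lit 0) (cs (lf (nat_lit 13) (nat_lit 181)) (nd (nat_lit 141) (nat_lit 0) (cs (lf (nat_lit 25) (nat_lit 141)) (nd (nat_lit 249) (nat_lit 0) (cs (lf (nat_lit 30) (nat_lit 183)) (nd (nat_lit 272) (nat_lit 0) (cs (nd (nat_lit 294) (nat_lit 0) (cs (lf (nat_lit 42) (nat_lit 227)) (nd (nat_lit 273) (nat_lit 0) (cs (lf (nat_lit 18) (nat_lit 249)) (rf (nat_lit 15)))))) (lf (nat_lit 24) (nat_lit 183)))))))))))))) (nd (nat_lit 249) (nat_lit 0) (cs (lf (nat_lit 30) (nat_lit 183)) (nd (nat_lit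 272) (nat_lit 0) (cs (lf (nat_lit 32) (nat_lit 184)) (lf (nat_lit 24) (nat_lit 183))))))))) (cs (nd (nat_lit 249) (nat_lit 0) (cs (lf (nat_lit 30) (nat_lit 183)) (rf (nat_lit 16)))) (nd (nat_lit 162) (nat_lit 0) (cs (rf (nat_lit 17)) (nd (nat_lit 203) (nat_lit 0) (cs (lf (nat_lit 13) (nat_lit 181)) (nd (nat_lit 230) (nat_lit 0) (cs (lf (nat_lit 5) (nat_lit 205)) (nd (nat_lit 252) (nat_lit 0) (cs (lf (nat_lit 42) (nat_lit 185)) (nd (nat_lit 163) (nat_lit 0) (cs (lf (nat_lit 24) (nat_lit 141)) (nd (nat_lit 228) (nat_lit 0) (cs (lf (nat_lit 30) (nat_lit 162)) (nd (nat_lit 161) (nat_lit 0) (cs (lf (nat_lit 47) (nat_lit 139)) (nd (nat_lit 160) (nat_lit 0) (cs (lf (nat_lit 0) (nat_lit 159)) (nd (nat_lit 138) (nat_lit 0) (cs (lf (nat_lit 23) (nat_lit 137)) (lf (nat_lit 44) (nat_lit 138)))))))))))))))))))))))))))))) (rf (nat_lit 18)))))))) (cs (rf (nat_lit 19)) (cs (rf (nat_lit 20)) (nd (nat_lit 183) (nat_lit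 0) (cs (rf (nat_lit 21)) (cs (rf (nat_lit 22)) (cs (nd (nat_lit 205) (nat_lit 0) (cs (lf (nat_lit 23) (nat_lit 182)) (rf (nat_lit 23)))) (nd (nat_lit 209) (nat_lit 0) (cs (lf (nat_lit 22) (nat_lit 183)) (nd (nat_lit 231) (nat_lit 0) (cs (lf (nat_lit 5) (nat_lit 206)) (nd (nat_lit 205) (nat_lit 0) (cs (lf (nat_lit 4) (nat_lit 205)) (rf (nat_lit 24))))))))))))))))))) q11470 (by decide +kernel)
def q11851 : Q := Q.p (nat_lit 0x800002000000000018000000000000000000000000000000000000000000000000000) (nat_lit 0x100001700007e0003f8001ffc003fe001f7c0039f0007bc001e0000770000fe0003f0000bc00005000000000000000000000000) (nat_lit 17)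
theorem c11851 : QOK q11851 := cut [q2576, q11602, q2532, q2579, q11607, q11609, q11586, q11627, q10638, q11539, q11581, q11582, q11637, q11531, q11617, q11632, q11641, q11659, q11752, q11585, q11666, q11728, q11708, q11758, q11761, q11768, q11779, q11785, q11843, q11848] ⟨c2576, c11602, c2532, c2579, c11607, c11609, c11586, c11627, c10638, c11539, c11581, c11582, c11637, c11531, c11617, c11632, c11641, c11659, c11752, c11585, c11666, c11728, c11708, c11758, c11761, c11768, c11779, c11785, c11843, c11848, trivial⟩ (nd (nat_lit 297) (nat_lit 0) (cs (rf (nat_lit 0)) (cs (rf (nat_lit 1)) (cs (nd (nat_lit 319) (nat_lit 0) (cs (rf (nat_lit 2)) (cs (rf (nat_lit 3)) (cs (rf (nat_lit 4)) (rf (nat_lit 5)))))) (cs (nd (nat_lit 298) (nat_lit 0) (cs (rf (nat_lit 6)) (cs (nd (nat_lit 299) (nat_lit 0) (cs (rf (nat_lit 7)) (cs (nd (nat_lit 209) (nat_lit 0) (cs (rf (nat_lit 8)) (cs (rf (nat_lit 9)) (cs (rf (nat_lit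 10)) (rf (nat_lit 11)))))) (rf (nat_lit 12))))) (nd (nat_lit 299) (nat_lit 0) (cs (rf (nat_lit 13)) (cs (rf (nat_lit 7)) (cs (rf (nat_lit 12)) (nd (nat_lit 296) (nat_lit 0) (cs (rf (nat_lit 14)) (cs (rf (nat_lit 15)) (cs (nd (nat_lit 277) (nat_lit 0) (cs (lf (nat_lit 17) (nat_lit 274)) (nd (nat_lit 342) (nat_lit 0) (cs (rf (nat_lit 16)) (cs (nd (nat_lit 273) (nat_lit 0) (cs (lf (nat_lit 22) (nat_lit 273)) (nd (nat_lit 321) (nat_lit 0) (cs (lf (nat_lit 5) (nat_lit 296)) (nd (nat_lit 343) (nat_lit 0) (cs (nd (nat_lit 366) (nat_lit 0) (cs (nd (nat_lit 365) (nat_lit 0) (cs (lf (nat_lit 29) (nat_lit 299)) (lf (nat_lit 47) (nat_lit 276)))) (lf (nat_lit 28) (nat_lit 277)))) (lf (nat_lit 41) (nat_lit 276)))))))) (nd (nat_lit 320) (nat_lit 0) (cs (lf (nat_lit 27) (nat_lit 253)) (lf (nat_lit 30) (nat_lit 276))))))))) (rf (nat_lit 17))))))))))))) (cs (nd (nat_lit 296) (nat_lit 0) (cs (rf (nat_lit 18)) (cs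 (nd (nat_lit 231) (nat_lit 0) (cs (lf (nat_lit 41) (nat_lit 230)) (rf (nat_lit 19)))) (nd (nat_lit 295) (nat_lit 0) (cs (rf (nat_lit 20)) (cs (rf (nat_lit 21)) (cs (nd (nat_lit 298) (nat_lit 0) (cs (rf (nat_lit 22)) (cs (nd (nat_lit 272) (nat_lit 0) (cs (lf (nat_lit 22) (nat_lit 272)) (rf (nat_lit 23)))) (cs (nd (nat_lit 274) (nat_lit 0) (cs (nd (nat_lit 273) (nat_lit 0) (cs (lf (nat_lit 23) (nat_lit 272)) (nd (nat_lit 276) (nat_lit 0) (cs (nd (nat_lit 251) (nat_lit 0) (cs (lf (nat_lit 25) (nat_lit 207)) (lf (nat_lit 23) (nat_lit 250)))) (lf (nat_lit 6) (nat_lit 273)))))) (nd (nat_lit 318) (nat_lit 0) (cs (lf (nat_lit 30) (nat_lit 252)) (nd (nat_lit 317) (nat_lit 0) (cs (lf (nat_lit 11) (nat_lit 294)) (rf (nat_lit 24)))))))) (cs (nd (nat_lit 316) (nat_lit 0) (cs (lf (nat_lit 10) (nat_lit 294)) (nd (nat_lit 273) (nat_lit 0) (cs (lf (nat_lit 23) (nat_lit 272)) (nd (nat_lit 274) (nat_lit 0) (cs (lf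 (nat_lit 18) (nat_lit 273)) (nd (nat_lit 318) (nat_lit 0) (cs (lf (nat_lit 30) (nat_lit 252)) (nd (nat_lit 251) (nat_lit 0) (cs (lf (nat_lit 25) (nat_lit 207)) (rf (nat_lit 25)))))))))))) (rf (nat_lit 26))))))) (rf (nat_lit 27))))))))) (cs (rf (nat_lit 28)) (nd (nat_lit 320) (nat_lit 0) (cs (nd (nat_lit 231) (nat_lit 0) (cs (lf (nat_lit 28) (nat_lit 231)) (nd (nat_lit 296) (nat_lit 0) (cs (lf (nat_lit 41) (nat_lit 230)) (rf (nat_lit 19)))))) (cs (nd (nat_lit 319) (nat_lit 0) (cs (lf (nat_lit 29) (nat_lit 253)) (rf (nat_lit 5)))) (nd (nat_lit 342) (nat_lit 0) (cs (lf (nat_lit 27) (nat_lit 253)) (rf (nat_lit 29)))))))))))))) q11851 (by decide +kernel)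
def q11910 : Q := Q.p (nat_lit 0x2000000000018000000000000000000000000000000000000000000000000000) (nat_lit 0x140000700005d80010e000fff001e780075f0009700025c0000500000000000000000000000000000) (nat_lit 17)
theorem c11910 : QOK q11910 := cut [q3441, q11460, q141, q3325, q11877, q2450, q3211, q3341, q3353, q3463, q11891, q3282, q3293, q7319, q11457, q3369, q11458] ⟨c3441, c11460, c141, c3325, c11877, c2450, c3211, c3341, c3353, c3463, c11891, c3282, c3293, c7319, c11457, c3369, c11458, trivial⟩ (nd (nat_lit 206) (nat_lit 0) (cs (rf (nat_lit 0)) (cs (rf (nat_lit 1)) (cs (nd (nat_lit 209) (nat_lit 0) (cs (rf (nat_lit 2)) (cs (rf (nat_lit 3)) (nd (nat_lit 183) (nat_lit 0) (cs (lf (nat_lit 22) (nat_lit 183)) (nd (nat_lit 228) (nat_lit 0) (cs (lf (nat_lit 11) (nat_lit 205)) (nd (nat_lit 210) (nat_lit 0) (cs (lf (nat_lit 10) (nat_lit 206)) (nd (nat_lit 189) (nat_lit 0) (cs (lf (nat_lit 16) (nat_lit 185))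 (nd (nat_lit 211) (nat_lit 0) (cs (lf (nat_lit 17) (nat_lit 186)) (nd (nat_lit 234) (nat_lit 0) (cs (lf (nat_lit 4) (nat_lit 208)) (nd (nat_lit 212) (nat_lit 0) (cs (lf (nat_lit 5) (nat_lit 209)) (nd (nat_lit 256) (nat_lit 0) (cs (lf (nat_lit 42) (nat_lit 189)) (nd (nat_lit 145) (nat_lit 0) (cs (lf (nat_lit 25) (nat_lit 145)) (nd (nat_lit 231) (nat_lit 0) (cs (lf (nat_lit 11) (nat_lit 208)) (nd (nat_lit 275) (nat_lit 0) (cs (lf (nat_lit 47) (nat_lit 186)) (nd (nat_lit 296) (nat_lit 0) (cs (lf (nat_lit 40) (nat_lit 208)) (rf (nat_lit 4))))))))))))))))))))))))))))) (cs (nd (nat_lit 205) (nat_lit 0) (cs (rf (nat_lit 5)) (cs (rf (nat_lit 6)) (cs (rf (nat_lit 7)) (cs (rf (nat_lit 8)) (cs (rf (nat_lit 9)) (nd (nat_lit 226) (nat_lit 0) (cs (lf (nat_lit 10) (nat_lit 204)) (nd (nat_lit 204) (nat_lit 0) (cs (lf (nat_lit 11) (nat_lit 203)) (nd (nat_lit 229) (nat_lit 0) (cs (lf (nat_lit 5) (nat_lit 204)) (nd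 (nat_lit 228) (nat_lit 0) (cs (lf (nat_lit 0) (nat_lit 203)) (rf (nat_lit 10)))))))))))))))) (cs (nd (nat_lit 227) (nat_lit 0) (cs (rf (nat_lit 11)) (cs (rf (nat_lit 12)) (cs (rf (nat_lit 13)) (nd (nat_lit 209) (nat_lit 0) (cs (lf (nat_lit 10) (nat_lit 205)) (nd (nat_lit 183) (nat_lit 0) (cs (lf (nat_lit 22) (nat_lit 183)) (nd (nat_lit 182) (nat_lit 0) (cs (lf (nat_lit 21) (nat_lit 182)) (nd (nat_lit 231) (nat_lit 0) (cs (lf (nat_lit 5) (nat_lit 206)) (rf (nat_lit 14)))))))))))))) (cs (nd (nat_lit 231) (nat_lit 0) (cs (rf (nat_lit 15)) (cs (rf (nat_lit 16)) (nd (nat_lit 205) (nat_lit 0) (cs (lf (nat_lit 4) (nat_lit 205)) (nd (nat_lit 183) (nat_lit 0) (cs (lf (nat_lit 23) (nat_lit 182)) (nd (nat_lit 209) (nat_lit 0) (cs (lf (nat_lit 22) (nat_lit 183)) (rf (nat_lit 14))))))))))) (nd (nat_lit 231) (nat_lit 0) (cs (rf (nat_lit 15)) (cs (rf (nat_lit 16)) (nd (nat_lit 205) (nat_lit 0) (cs (lf (nat_lit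 4) (nat_lit 205)) (nd (nat_lit 227) (nat_lit 0) (cs (lf (nat_lit 11) (nat_lit 204)) (nd (nat_lit 209) (nat_lit 0) (cs (lf (nat_lit 10) (nat_lit 205)) (rf (nat_lit 14)))))))))))))))))) q11910 (by decide +kernel)
def q12192 : Q := Q.p (nat_lit 0x2000000000018000000000000000000000000000000000000000000000000000) (nat_lit 0x4c0007fc001fe0001fc0007f0006780007f0003f8001fc0001700001400000000000000000000000) (nat_lit 16)
theorem c12192 : QOK q12192 := cut [q5460, q5475, q5376, q5389, q5413, q5403, q11891, q11965, q11911, q11981, q11983, q1533, q11179, q12168, q1832, q1857, q5483, q11161, q12171, q12179, q12181, q12191] ⟨c5460, c5475, c5376, c5389, c5413, c5403, c11891, c11965, c11911, c11981, c11983, c1533, c11179, c12168, c1832, c1857, c5483, c11161, c12171, c12179, c12181, c12191, trivial⟩ (nd (nat_lit 229) (nat_lit 0) (cs (rf (nat_lit 0)) (cs (rf (nat_lit 1)) (cs (nd (nat_lit 228) (nat_lit 0) (cs (rf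 (nat_lit 2)) (cs (rf (nat_lit 3)) (cs (rf (nat_lit 4)) (cs (nd (nat_lit 206) (nat_lit 0) (cs (rf (nat_lit 5)) (cs (rf (nat_lit 6)) (cs (nd (nat_lit 272) (nat_lit 0) (cs (rf (nat_lit 7)) (cs (nd (nat_lit 273) (nat_lit 0) (cs (rf (nat_lit 8)) (cs (nd (nat_lit 209) (nat_lit 0) (cs (lf (nat_lit 6) (nat_lit 206)) (nd (nat_lit 250) (nat_lit 0) (cs (lf (nat_lit 29) (nat_lit 206)) (nd (nat_lit 271) (nat_lit 0) (cs (lf (nat_lit 41) (nat_lit 205)) (nd (nat_lit 183) (nat_lit 0) (cs (lf (nat_lit 46) (nat_lit 183)) (nd (nat_lit 274) (nat_lit 0) (cs (lf (nat_lit 16) (nat_lit 249)) (nd (nat_lit 249) (nat_lit 0) (cs (lf (nat_lit 18) (nat_lit 249)) (lf (nat_lit 23) (nat_lit 248)))))))))))))) (nd (nat_lit 209) (nat_lit 0) (cs (lf (nat_lit 6) (nat_lit 206)) (nd (nat_lit 251) (nat_lit 0) (cs (lf (nat_lit 35) (nat_lit 185)) (nd (nat_lit 274) (nat_lit 0) (cs (lf (nat_lit 29) (nat_lit 207)) (nd (nat_lit 271) (nat_lit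 0) (cs (lf (nat_lit 16) (nat_lit 249)) (nd (nat_lit 293) (nat_lit 0) (cs (lf (nat_lit 11) (nat_lit 270)) (lf (nat_lit 38) (nat_lit 205))))))))))))))) (cs (nd (nat_lit 250) (nat_lit 0) (cs (lf (nat_lit 30) (nat_lit 206)) (rf (nat_lit 9)))) (cs (nd (nat_lit 250) (nat_lit 0) (cs (lf (nat_lit 30) (nat_lit 206)) (nd (nat_lit 271) (nat_lit 0) (cs (lf (nat_lit 41) (nat_lit 205)) (rf (nat_lit 10)))))) (nd (nat_lit 209) (nat_lit 0) (cs (lf (nat_lit 6) (nat_lit 206)) (nd (nat_lit 250) (nat_lit 0) (cs (lf (nat_lit 30) (nat_lit 206)) (nd (nat_lit 273) (nat_lit 0) (cs (lf (nat_lit 29) (nat_lit 206)) (nd (nat_lit 186) (nat_lit 0) (cs (lf (nat_lit 31) (nat_lit 185)) (nd (nat_lit 142) (nat_lit 0) (cs (lf (nat_lit 37) (nat_lit 141)) (rf (nat_lit 10))))))))))))))))) (nd (nat_lit 250) (nat_lit 0) (cs (nd (nat_lit 209) (nat_lit 0) (cs (lf (nat_lit 6) (nat_lit 206)) (nd (nat_lit 272) (nat_lit 0) (cs (lf (nat_lit 30)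 (nat_lit 206)) (nd (nat_lit 273) (nat_lit 0) (cs (lf (nat_lit 29) (nat_lit 206)) (nd (nat_lit 251) (nat_lit 0) (cs (lf (nat_lit 47) (nat_lit 184)) (lf (nat_lit 35) (nat_lit 185)))))))))) (cs (nd (nat_lit 272) (nat_lit 0) (cs (lf (nat_lit 30) (nat_lit 206)) (nd (nat_lit 271) (nat_lit 0) (cs (lf (nat_lit 41) (nat_lit 205)) (nd (nat_lit 249) (nat_lit 0) (cs (nd (nat_lit 247) (nat_lit 0) (cs (nd (nat_lit 209) (nat_lit 0) (cs (lf (nat_lit 6) (nat_lit 206)) (nd (nat_lit 273) (nat_lit 0) (cs (lf (nat_lit 29) (nat_lit 206)) (nd (nat_lit 274) (nat_lit 0) (cs (lf (nat_lit 18) (nat_lit 249)) (lf (nat_lit 16) (nat_lit 249)))))))) (lf (nat_lit 13) (nat_lit 225)))) (lf (nat_lit 36) (nat_lit 183)))))))) (cs (nd (nat_lit 272) (nat_lit 0) (cs (lf (nat_lit 30) (nat_lit 206)) (nd (nat_lit 271) (nat_lit 0) (cs (lf (nat_lit 41) (nat_lit 205)) (nd (nat_lit 184) (nat_lit 0) (cs (lf (nat_lit 40) (nat_lit 183)) (nd (nat_lit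 251) (nat_lit 0) (cs (lf (nat_lit 7) (nat_lit 249)) (lf (nat_lit 24) (nat_lit 162)))))))))) (cs (nd (nat_lit 251) (nat_lit 0) (cs (rf (nat_lit 11)) (nd (nat_lit 209) (nat_lit 0) (cs (lf (nat_lit 6) (nat_lit 206)) (nd (nat_lit 184) (nat_lit 0) (cs (lf (nat_lit 24) (nat_lit 162)) (nd (nat_lit 249) (nat_lit 0) (cs (lf (nat_lit 41) (nat_lit 183)) (nd (nat_lit 248) (nat_lit 0) (cs (lf (nat_lit 12) (nat_lit 225)) (lf (nat_lit 17) (nat_lit 226)))))))))))) (nd (nat_lit 209) (nat_lit 0) (cs (lf (nat_lit 6) (nat_lit 206)) (nd (nat_lit 272) (nat_lit 0) (cs (lf (nat_lit 30) (nat_lit 206)) (rf (nat_lit 9))))))))))))))) (nd (nat_lit 209) (nat_lit 0) (cs (lf (nat_lit 6) (nat_lit 206)) (rf (nat_lit 12))))))))) (cs (rf (nat_lit 13)) (cs (nd (nat_lit 251) (nat_lit 0) (cs (rf (nat_lit 14)) (cs (rf (nat_lit 15)) (cs (rf (nat_lit 16)) (rf (nat_lit 17)))))) (cs (rf (nat_lit 18)) (cs (rf (nat_lit 19)) (cs (rf (nat_lit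 20)) (rf (nat_lit 21))))))))))) q12192 (by decide +kernel)
def q12281 : Q := Q.p (nat_lit 0x2000000000018000000000000000000000000000000000000000000000000000) (nat_lit 0x4c0001f80007e0001f8001ff0006780007f0003f0001fc0001700001400000000000000000000000) (nat_lit 15)
theorem c12281 : QOK q12281 := cut [q5460, q5475, q12168, q12171, q12179, q12181, q12191, q1832, q5474, q5376, q3356, q5403, q12231, q11164, q12240, q12242, q1857, q11161, q3125, q11149, q12247, q11144, q3390] ⟨c5460, c5475, c12168, c12171, c12179, c12181, c12191, c1832, c5474, c5376, c3356, c5403, c12231, c11164, c12240, c12242, c1857, c11161, c3125, c11149, c12247, c11144, c3390, trivial⟩ (nd (nat_lit 229) (nat_lit 0) (cs (rf (nat_lit 0)) (cs (rf (nat_lit 1)) (cs (rf (nat_lit 2)) (cs (rf (nat_lit 3)) (cs (rf (nat_lit 4)) (cs (rf (nat_lit 5)) (cs (rf (nat_lit 6)) (cs (nd (nat_lit 251) (nat_lit 0) (cs (rf (nat_lit 7)) (cs (rf (nat_lit 8))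 (cs (nd (nat_lit 228) (nat_lit 0) (cs (rf (nat_lit 9)) (cs (nd (nat_lit 206) (nat_lit 0) (cs (rf (nat_lit 10)) (cs (rf (nat_lit 11)) (cs (rf (nat_lit 12)) (nd (nat_lit 162) (nat_lit 0) (cs (lf (nat_lit 25) (nat_lit 162)) (nd (nat_lit 209) (nat_lit 0) (cs (lf (nat_lit 6) (nat_lit 206)) (nd (nat_lit 231) (nat_lit 0) (cs (lf (nat_lit 5) (nat_lit 206)) (nd (nat_lit 230) (nat_lit 0) (cs (lf (nat_lit 23) (nat_lit 205)) (nd (nat_lit 164) (nat_lit 0) (cs (lf (nat_lit 25) (nat_lit 164)) (nd (nat_lit 250) (nat_lit 0) (cs (lf (nat_lit 11) (nat_lit 227)) (rf (nat_lit 13)))))))))))))))))) (rf (nat_lit 14))))) (nd (nat_lit 228) (nat_lit 0) (cs (rf (nat_lit 9)) (cs (rf (nat_lit 14)) (nd (nat_lit 206) (nat_lit 0) (cs (rf (nat_lit 12)) (rf (nat_lit 15))))))))))) (cs (nd (nat_lit 251) (nat_lit 0) (cs (rf (nat_lit 7)) (cs (rf (nat_lit 16)) (cs (rf (nat_lit 17)) (nd (nat_lit 185) (nat_lit 0) (cs (rf (nat_lit 18)) (cs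 (rf (nat_lit 19)) (nd (nat_lit 252) (nat_lit 0) (cs (lf (nat_lit 29) (nat_lit 185)) (nd (nat_lit 162) (nat_lit 0) (cs (lf (nat_lit 46) (nat_lit 162)) (nd (nat_lit 164) (nat_lit 0) (cs (lf (nat_lit 34) (nat_lit 163)) (nd (nat_lit 250) (nat_lit 0) (cs (lf (nat_lit 41) (nat_lit 184)) (rf (nat_lit 20))))))))))))))))) (nd (nat_lit 251) (nat_lit 0) (cs (rf (nat_lit 7)) (cs (rf (nat_lit 16)) (cs (rf (nat_lit 17)) (nd (nat_lit 250) (nat_lit 0) (cs (nd (nat_lit 185) (nat_lit 0) (cs (lf (nat_lit 41) (nat_lit 184)) (nd (nat_lit 164) (nat_lit 0) (cs (lf (nat_lit 34) (nat_lit 163)) (nd (nat_lit 163) (nat_lit 0) (cs (lf (nat_lit 35) (nat_lit 141)) (lf (nat_lit 40) (nat_lit 162)))))))) (cs (nd (nat_lit 185) (nat_lit 0) (cs (lf (nat_lit 41) (nat_lit 184)) (nd (nat_lit 164) (nat_lit 0) (cs (lf (nat_lit 34) (nat_lit 163)) (nd (nat_lit 142) (nat_lit 0) (cs (nd (nat_lit 252) (nat_lit 0) (cs (lf (nat_lit 29) (nat_lit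 185)) (nd (nat_lit 231) (nat_lit 0) (cs (lf (nat_lit 17) (nat_lit 228)) (rf (nat_lit 21)))))) (lf (nat_lit 33) (nat_lit 141)))))))) (cs (nd (nat_lit 228) (nat_lit 0) (cs (rf (nat_lit 22)) (cs (rf (nat_lit 9)) (nd (nat_lit 209) (nat_lit 0) (cs (lf (nat_lit 6) (nat_lit 206)) (nd (nat_lit 272) (nat_lit 0) (cs (lf (nat_lit 30) (nat_lit 206)) (nd (nat_lit 271) (nat_lit 0) (cs (lf (nat_lit 7) (nat_lit 249)) (nd (nat_lit 206) (nat_lit 0) (cs (lf (nat_lit 41) (nat_lit 205)) (nd (nat_lit 231) (nat_lit 0) (cs (lf (nat_lit 5) (nat_lit 206)) (nd (nat_lit 205) (nat_lit 0) (cs (lf (nat_lit 47) (nat_lit 183)) (lf (nat_lit 19) (nat_lit 205))))))))))))))))) (nd (nat_lit 228) (nat_lit 0) (cs (rf (nat_lit 22)) (cs (rf (nat_lit 9)) (nd (nat_lit 209) (nat_lit 0) (cs (lf (nat_lit 6) (nat_lit 206)) (nd (nat_lit 185) (nat_lit 0) (cs (lf (nat_lit 36) (nat_lit 162)) (nd (nat_lit 164) (nat_lit 0) (cs (lf (nat_lit 34) (nat_lit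 163)) (nd (nat_lit 252) (nat_lit 0) (cs (lf (nat_lit 29) (nat_lit 185)) (nd (nat_lit 231) (nat_lit 0) (cs (lf (nat_lit 17) (nat_lit 228)) (nd (nat_lit 249) (nat_lit 0) (cs (lf (nat_lit 16) (nat_lit 227)) (nd (nat_lit 270) (nat_lit 0) (cs (lf (nat_lit 10) (nat_lit 248)) (nd (nat_lit 248) (nat_lit 0) (cs (lf (nat_lit 12) (nat_lit 225)) (lf (nat_lit 11) (nat_lit 247))))))))))))))))))))))))))))))))))))))) q12281 (by decide +kernel)
def q12435 : Q := Q.p (nat_lit 0x2000000000018000000000000000000000000000000000000000000000000000) (nat_lit 0x20000380000e0000fe0001fc0001f8003fe0000700077e000ffc003ff0003f0000a800000000000000000000000) (nat_lit 17)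
theorem c12435 : QOK q12435 := cut [q4183, q5055, q5241, q5352, q5362, q4007, q12403, q1155, q1417, q3224, q3252, q3229, q809, q3368, q630, q3988, q9365, q12346, q5313, q3817] ⟨c4183, c5055, c5241, c5352, c5362, c4007, c12403, c1155, c1417, c3224, c3252, c3229, c809, c3368, c630, c3988, c9365, c12346, c5313, c3817, trivial⟩ (nd (nat_lit 230) (nat_lit 0) (cs (rf (nat_lit 0)) (cs (rf (nat_lit 1)) (cs (rf (nat_lit 2)) (cs (rf (nat_lit 3)) (cs (rf (nat_lit 4)) (nd (nat_lit 164) (nat_lit 0) (cs (nd (nat_lit 206) (nat_lit 0) (cs (rf (nat_lit 5)) (cs (rf (nat_lit 6)) (cs (nd (nat_lit 205) (nat_lit 0) (cs (rf (nat_lit 7)) (cs (rf (nat_lit 8)) (nd (nat_lit 227) (nat_lit 0) (cs (lf (nat_lit 11) (nat_lit 204)) (nd (nat_lit 162) (nat_lit 0) (cs (rf (nat_lit 9)) (cs (rf (nat_lit 10)) (cs (nd (nat_lit 183) (nat_lit 0) (cs (lf (nat_lit 23) (nat_lit 182)) (rf (nat_lit 11)))) (nd (nat_lit 183) (nat_lit 0) (cs (lf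 (nat_lit 23) (nat_lit 182)) (nd (nat_lit 184) (nat_lit 0) (cs (lf (nat_lit 30) (nat_lit 161)) (nd (nat_lit 163) (nat_lit 0) (cs (rf (nat_lit 12)) (lf (nat_lit 6) (nat_lit 161))))))))))))))))) (nd (nat_lit 231) (nat_lit 0) (cs (lf (nat_lit 0) (nat_lit 205)) (rf (nat_lit 13)))))))) (cs (nd (nat_lit 186) (nat_lit 0) (cs (lf (nat_lit 28) (nat_lit 164)) (rf (nat_lit 14)))) (cs (nd (nat_lit 231) (nat_lit 0) (cs (lf (nat_lit 25) (nat_lit 164)) (nd (nat_lit 275) (nat_lit 0) (cs (lf (nat_lit 42) (nat_lit 208)) (rf (nat_lit 15)))))) (nd (nat_lit 163) (nat_lit 0) (cs (nd (nat_lit 141) (nat_lit 0) (cs (lf (nat_lit 26) (nat_lit 141)) (lf (nat_lit 44) (nat_lit 141)))) (cs (nd (nat_lit 229) (nat_lit 0) (cs (rf (nat_lit 16)) (cs (rf (nat_lit 17)) (cs (nd (nat_lit 251) (nat_lit 0) (cs (lf (nat_lit 37) (nat_lit 163)) (nd (nat_lit 273) (nat_lit 0) (cs (lf (nat_lit 30) (nat_lit 207)) (nd (nat_lit 274) (nat_lit 0) (cs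 (lf (nat_lit 29) (nat_lit 207)) (nd (nat_lit 272) (nat_lit 0) (cs (lf (nat_lit 41) (nat_lit 206)) (nd (nat_lit 185) (nat_lit 0) (cs (lf (nat_lit 40) (nat_lit 184)) (rf (nat_lit 18)))))))))))) (nd (nat_lit 142) (nat_lit 0) (cs (lf (nat_lit 38) (nat_lit 141)) (lf (nat_lit 32) (nat_lit 141)))))))) (cs (nd (nat_lit 186) (nat_lit 0) (cs (lf (nat_lit 47) (nat_lit 141)) (rf (nat_lit 19)))) (nd (nat_lit 185) (nat_lit 0) (cs (lf (nat_lit 24) (nat_lit 141)) (nd (nat_lit 229) (nat_lit 0) (cs (lf (nat_lit 35) (nat_lit 141)) (nd (nat_lit 228) (nat_lit 0) (cs (lf (nat_lit 41) (nat_lit 162)) (nd (nat_lit 162) (nat_lit 0) (cs (lf (nat_lit 47) (nat_lit 140)) (nd (nat_lit 226) (nat_lit 0) (cs (lf (nat_lit 13) (nat_lit 204)) (nd (nat_lit 184) (nat_lit 0) (cs (lf (nat_lit 42) (nat_lit 162)) (nd (nat_lit 183) (nat_lit 0) (cs (lf (nat_lit 0) (nat_lit 182)) (lf (nat_lit 6) (nat_lit 161)))))))))))))))))))))))))))))) q12435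 (by decide +kernel)
def q12471 : Q := Q.p (nat_lit 0x2000000000018000000000000000000000000000000000000000000000000000) (nat_lit 0x200000e8001fe0007f80001e0003f8000e6000160000780000e00003800008000000000000000000000000) (nat_lit 16)
theorem c12471 : QOK q12471 := cut [q3989, q3996, q4183, q5362, q1411, q4207, q3988, q3995, q4190, q4013, q1066, q12442, q4030, q4210, q4213, q12454, q12458, q12469] ⟨c3989, c3996, c4183, c5362, c1411, c4207, c3988, c3995, c4190, c4013, c1066, c12442, c4030, c4210, c4213, c12454, c12458, c12469, trivial⟩ (nd (nat_lit 230) (nat_lit 0) (cs (rf (nat_lit 0)) (cs (rf (nat_lit 1)) (cs (rf (nat_lit 2)) (cs (rf (nat_lit 3)) (nd (nat_lit 252) (nat_lit 0) (cs (rf (nat_lit 4)) (cs (rf (nat_lit 5)) (cs (nd (nat_lit 231) (nat_lit 0) (cs (rf (nat_lit 6)) (cs (rf (nat_lit 7)) (cs (nd (nat_lit 228) (nat_lit 0) (cs (nd (nat_lit 275) (nat_lit 0) (cs (lf (nat_lit 42) (nat_lit 208)) (nd (nat_lit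 206) (nat_lit 0) (cs (lf (nat_lit 0) (nat_lit 205)) (nd (nat_lit 209) (nat_lit 0) (cs (lf (nat_lit 11) (nat_lit 205)) (rf (nat_lit 8)))))))) (cs (nd (nat_lit 250) (nat_lit 0) (cs (rf (nat_lit 9)) (cs (nd (nat_lit 206) (nat_lit 0) (cs (lf (nat_lit 0) (nat_lit 205)) (nd (nat_lit 229) (nat_lit 0) (cs (rf (nat_lit 10)) (lf (nat_lit 11) (nat_lit 227)))))) (nd (nat_lit 275) (nat_lit 0) (cs (lf (nat_lit 42) (nat_lit 208)) (nd (nat_lit 205) (nat_lit 0) (cs (lf (nat_lit 1) (nat_lit 205)) (nd (nat_lit 251) (nat_lit 0) (cs (lf (nat_lit 5) (nat_lit 250)) (nd (nat_lit 272) (nat_lit 0) (cs (lf (nat_lit 11) (nat_lit 249)) (rf (nat_lit 11))))))))))))) (cs (nd (nat_lit 206) (nat_lit 0) (cs (lf (nat_lit 0) (nat_lit 205)) (rf (nat_lit 12)))) (nd (nat_lit 229) (nat_lit 0) (cs (lf (nat_lit 0) (nat_lit 227)) (nd (nat_lit 209) (nat_lit 0) (cs (lf (nat_lit 17) (nat_lit 206)) (nd (nat_lit 250) (nat_lit 0) (cs (lf (nat_lit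 11) (nat_lit 227)) (nd (nat_lit 163) (nat_lit 0) (cs (lf (nat_lit 25) (nat_lit 163)) (rf (nat_lit 13)))))))))))))) (nd (nat_lit 229) (nat_lit 0) (cs (rf (nat_lit 14)) (cs (nd (nat_lit 275) (nat_lit 0) (cs (lf (nat_lit 42) (nat_lit 208)) (nd (nat_lit 163) (nat_lit 0) (cs (lf (nat_lit 25) (nat_lit 163)) (nd (nat_lit 232) (nat_lit 0) (cs (lf (nat_lit 18) (nat_lit 207)) (rf (nat_lit 15)))))))) (cs (nd (nat_lit 228) (nat_lit 0) (cs (lf (nat_lit 0) (nat_lit 227)) (nd (nat_lit 275) (nat_lit 0) (cs (lf (nat_lit 42) (nat_lit 208)) (nd (nat_lit 250) (nat_lit 0) (cs (lf (nat_lit 11) (nat_lit 227)) (rf (nat_lit 16)))))))) (nd (nat_lit 228) (nat_lit 0) (cs (lf (nat_lit 0) (nat_lit 227)) (nd (nat_lit 163) (nat_lit 0) (cs (lf (nat_lit 25) (nat_lit 163)) (nd (nat_lit 249) (nat_lit 0) (cs (lf (nat_lit 10) (nat_lit 227)) (nd (nat_lit 210) (nat_lit 0) (cs (lf (nat_lit 16) (nat_lit 206)) (nd (nat_lit 232) (nat_lit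 0) (cs (lf (nat_lit 18) (nat_lit 207)) (lf (nat_lit 17) (nat_lit 207)))))))))))))))))))) (rf (nat_lit 17))))))))))) q12471 (by decide +kernel)
def q12534 : Q := Q.p (nat_lit 0x2000000000018000000000000000000000000000000000000000000000000000) (nat_lit 0x28001fe0007f80001f0003ff001e780033e0003f0001fc0001f00002800000000000000000000000) (nat_lit 18)
theorem c12534 : QOK q12534 := cut [q3441, q6597, q6601, q6664, q6682, q11464, q12507, q4164, q6595, q6769, q12509, q6766, q1496, q3392, q671, q3463, q11463, q12526] ⟨c3441, c6597, c6601, c6664, c6682, c11464, c12507, c4164, c6595, c6769, c12509, c6766, c1496, c3392, c671, c3463, c11463, c12526, trivial⟩ (nd (nat_lit 206) (nat_lit 0) (cs (rf (nat_lit 0)) (cs (rf (nat_lit 1)) (cs (rf (nat_lit 2)) (cs (rf (nat_lit 3)) (cs (rf (nat_lit 4)) (cs (rf (nat_lit 5)) (cs (rf (nat_lit 6)) (cs (nd (nat_lit 228) (nat_lit 0) (cs (rf (nat_lit 7)) (cs (rf (nat_lit 8)) (cs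 (rf (nat_lit 9)) (nd (nat_lit 231) (nat_lit 0) (cs (nd (nat_lit 209) (nat_lit 0) (cs (lf (nat_lit 5) (nat_lit 206)) (rf (nat_lit 10)))) (cs (nd (nat_lit 209) (nat_lit 0) (cs (lf (nat_lit 5) (nat_lit 206)) (nd (nat_lit 230) (nat_lit 0) (cs (lf (nat_lit 0) (nat_lit 205)) (nd (nat_lit 275) (nat_lit 0) (cs (lf (nat_lit 42) (nat_lit 208)) (nd (nat_lit 188) (nat_lit 0) (cs (lf (nat_lit 34) (nat_lit 187)) (nd (nat_lit 276) (nat_lit 0) (cs (lf (nat_lit 29) (nat_lit 209)) (nd (nat_lit 274) (nat_lit 0) (cs (lf (nat_lit 41) (nat_lit 208)) (nd (nat_lit 185) (nat_lit 0) (cs (lf (nat_lit 43) (nat_lit 185)) (rf (nat_lit 11)))))))))))))))) (nd (nat_lit 250) (nat_lit 0) (cs (rf (nat_lit 12)) (cs (rf (nat_lit 13)) (nd (nat_lit 230) (nat_lit 0) (cs (lf (nat_lit 0) (nat_lit 205)) (nd (nat_lit 249) (nat_lit 0) (cs (lf (nat_lit 8) (nat_lit 227)) (nd (nat_lit 184) (nat_lit 0) (cs (lf (nat_lit 41) (nat_lit 183)) (nd (nat_lit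 251) (nat_lit 0) (cs (lf (nat_lit 29) (nat_lit 184)) (lf (nat_lit 15) (nat_lit 227)))))))))))))))))))) (nd (nat_lit 205) (nat_lit 0) (cs (rf (nat_lit 14)) (cs (rf (nat_lit 15)) (cs (rf (nat_lit 16)) (cs (nd (nat_lit 231) (nat_lit 0) (cs (lf (nat_lit 4) (nat_lit 205)) (nd (nat_lit 209) (nat_lit 0) (cs (lf (nat_lit 5) (nat_lit 206)) (rf (nat_lit 17)))))) (nd (nat_lit 183) (nat_lit 0) (cs (lf (nat_lit 23) (nat_lit 182)) (nd (nat_lit 209) (nat_lit 0) (cs (lf (nat_lit 22) (nat_lit 183)) (nd (nat_lit 228) (nat_lit 0) (cs (lf (nat_lit 11) (nat_lit 205)) (nd (nat_lit 231) (nat_lit 0) (cs (lf (nat_lit 5) (nat_lit 206)) (rf (nat_lit 10)))))))))))))))))))))))) q12534 (by decide +kernel)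
def q12587 : Q := Q.p (nat_lit 0x2000000000018000000000000000000000000000000000000000000000000000) (nat_lit 0x280002e0000b80001f0003ff00067c0007f0003f0000fc0003a00002000000000000000000000000) (nat_lit 15)
theorem c12587 : QOK q12587 := cut [q3989, q3996, q5241, q3329, q448, q6894, q8581, q12550, q1158, q3175, q5949, q4260, q4267, q5142, q2, q6, q495, q5397, q4265, q3140, q1156, q3464, q4007, q4032, q6597, q8, q4791] ⟨c3989, c3996, c5241, c3329, c448, c6894, c8581, c12550, c1158, c3175, c5949, c4260, c4267, c5142, c2, c6, c495, c5397, c4265, c3140, c1156, c3464, c4007, c4032, c6597, c8, c4791, trivial⟩ (nd (nat_lit 230) (nat_lit 0) (cs (rf (nat_lit 0)) (cs (rf (nat_lit 1)) (cs (rf (nat_lit 2)) (cs (nd (nat_lit 186) (nat_lit 0) (cs (rf (nat_lit 3)) (cs (nd (nat_lit 164) (nat_lit 0) (cs (rf (nat_lit 4)) (cs (rf (nat_lit 5)) (cs (rf (nat_lit 6)) (nd (nat_lit 252) (nat_lit 0) (cs (lf (nat_lit 29) (nat_lit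 186)) (nd (nat_lit 251) (nat_lit 0) (cs (lf (nat_lit 41) (nat_lit 185)) (rf (nat_lit 7)))))))))) (cs (nd (nat_lit 185) (nat_lit 0) (cs (rf (nat_lit 8)) (cs (nd (nat_lit 184) (nat_lit 0) (cs (rf (nat_lit 9)) (nd (nat_lit 252) (nat_lit 0) (cs (lf (nat_lit 29) (nat_lit 186)) (rf (nat_lit 10)))))) (nd (nat_lit 229) (nat_lit 0) (cs (rf (nat_lit 11)) (cs (rf (nat_lit 12)) (rf (nat_lit 13)))))))) (cs (nd (nat_lit 252) (nat_lit 0) (cs (lf (nat_lit 29) (nat_lit 186)) (nd (nat_lit 251) (nat_lit 0) (cs (lf (nat_lit 41) (nat_lit 185)) (nd (nat_lit 164) (nat_lit 0) (cs (lf (nat_lit 40) (nat_lit 163)) (rf (nat_lit 5)))))))) (cs (nd (nat_lit 252) (nat_lit 0) (cs (lf (nat_lit 29) (nat_lit 186)) (nd (nat_lit 163) (nat_lit 0) (cs (lf (nat_lit 46) (nat_lit 163)) (nd (nat_lit 164) (nat_lit 0) (cs (lf (nat_lit 47) (nat_lit 141)) (nd (nat_lit 142) (nat_lit 0) (cs (rf (nat_lit 14)) (lf (nat_lit 41) (nat_lit 141))))))))))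 (cs (nd (nat_lit 164) (nat_lit 0) (cs (rf (nat_lit 15)) (cs (rf (nat_lit 4)) (cs (rf (nat_lit 16)) (nd (nat_lit 229) (nat_lit 0) (cs (rf (nat_lit 17)) (nd (nat_lit 228) (nat_lit 0) (cs (rf (nat_lit 18)) (cs (nd (nat_lit 209) (nat_lit 0) (cs (lf (nat_lit 6) (nat_lit 206)) (nd (nat_lit 143) (nat_lit 0) (cs (lf (nat_lit 34) (nat_lit 142)) (nd (nat_lit 163) (nat_lit 0) (cs (lf (nat_lit 47) (nat_lit 141)) (nd (nat_lit 185) (nat_lit 0) (cs (lf (nat_lit 41) (nat_lit 162)) (nd (nat_lit 183) (nat_lit 0) (cs (lf (nat_lit 1) (nat_lit 183)) (rf (nat_lit 19)))))))))))) (nd (nat_lit 226) (nat_lit 0) (cs (lf (nat_lit 13) (nat_lit 204)) (nd (nat_lit 143) (nat_lit 0) (cs (lf (nat_lit 34) (nat_lit 142)) (nd (nat_lit 163) (nat_lit 0) (cs (lf (nat_lit 47) (nat_lit 141)) (nd (nat_lit 185) (nat_lit 0) (cs (lf (nat_lit 41) (nat_lit 162)) (nd (nat_lit 162) (nat_lit 0) (cs (lf (nat_lit 47) (nat_lit 140)) (nd (nat_lit 161)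 (nat_lit 0) (cs (lf (nat_lit 0) (nat_lit 160)) (nd (nat_lit 183) (nat_lit 0) (cs (lf (nat_lit 11) (nat_lit 160)) (nd (nat_lit 139) (nat_lit 0) (cs (lf (nat_lit 23) (nat_lit 138)) (nd (nat_lit 205) (nat_lit 0) (cs (lf (nat_lit 40) (nat_lit 138)) (lf (nat_lit 28) (nat_lit 139))))))))))))))))))))))))))))) (nd (nat_lit 252) (nat_lit 0) (cs (lf (nat_lit 29) (nat_lit 186)) (nd (nat_lit 251) (nat_lit 0) (cs (lf (nat_lit 41) (nat_lit 185)) (nd (nat_lit 164) (nat_lit 0) (cs (lf (nat_lit 40) (nat_lit 163)) (rf (nat_lit 7))))))))))))))) (cs (nd (nat_lit 206) (nat_lit 0) (cs (rf (nat_lit 20)) (cs (rf (nat_lit 21)) (cs (rf (nat_lit 22)) (cs (rf (nat_lit 23)) (rf (nat_lit 24))))))) (nd (nat_lit 186) (nat_lit 0) (cs (rf (nat_lit 25)) (cs (rf (nat_lit 3)) (rf (nat_lit 26))))))))))) q12587 (by decide +kernel)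
def q13155 : Q := Q.p (nat_lit 0xc0000200000c00002000000000010000000000000000000000000000000000000000000000000000) (nat_lit 0x3cf000f38007cf0000000001000004000000000040000000000000000000000000000000000000000000000) (nat_lit 11)
theorem c13155 : QOK q13155 := cut [q12652, q13154] ⟨c12652, c13154, trivial⟩ (nd (nat_lit 252) (nat_lit 0) (cs (rf (nat_lit 0)) (rf (nat_lit 1)))) q13155 (by decide +kernel)
def q13171 : Q := Q.p (nat_lit 0xc0000000000c00003000000000000000000000000000000000000000000000000000000000000000) (nat_lit 0x3ef000f38007ef0000000000000000000000000000000000000000000000000000000000000000000000000) (nat_lit 11)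
theorem c13171 : QOK q13171 := cut [q13154] ⟨c13154, trivial⟩ (nd (nat_lit 297) (nat_lit 0) (cs (lf (nat_lit 42) (nat_lit 252)) (rf (nat_lit 0)))) q13171 (by decide +kernel)
def q13435 : Q := Q.p (nat_lit 0xc00002000000000010000000000000000000000000000000000000000000000000000) (nat_lit 0x700003c0007f8001fc000ff8003df80073c0039f80077e003ef0003dc0003e0000f80000000000000000000000000000000000) (nat_lit 17)
theorem c13435 : QOK q13435 := cut [q13005, q13254, q13413, q12687, q2187, q13426, q700, q13432] ⟨c13005, c13254, c13413, c12687, c2187, c13426, c700, c13432, trivial⟩ (nd (nat_lit 276) (nat_lit 0) (cs (nd (nat_lit 277) (nat_lit 0) (cs (rf (nat_lit 0)) (cs (nd (nat_lit 255) (nat_lit 0) (cs (lf (nat_lit 17) (nat_lit 252)) (nd (nat_lit 252) (nat_lit 0) (cs (lf (nat_lit 23) (nat_lit 251)) (nd (nat_lit 296) (nat_lit 0) (cs (nd (nat_lit 299) (nat_lit 0) (cs (lf (nat_lit 5) (nat_lit 274)) (nd (nat_lit 318)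 (nat_lit 0) (cs (lf (nat_lit 30) (nat_lit 252)) (nd (nat_lit 319) (nat_lit 0) (cs (lf (nat_lit 29) (nat_lit 252)) (nd (nat_lit 317) (nat_lit 0) (cs (lf (nat_lit 41) (nat_lit 251)) (nd (nat_lit 186) (nat_lit 0) (cs (lf (nat_lit 26) (nat_lit 186)) (nd (nat_lit 320) (nat_lit 0) (cs (lf (nat_lit 16) (nat_lit 295)) (nd (nat_lit 342) (nat_lit 0) (cs (lf (nat_lit 5) (nat_lit 317)) (lf (nat_lit 39) (nat_lit 254)))))))))))))))) (lf (nat_lit 11) (nat_lit 273)))))))) (rf (nat_lit 1))))) (cs (rf (nat_lit 2)) (cs (nd (nat_lit 277) (nat_lit 0) (cs (rf (nat_lit 0)) (nd (nat_lit 295) (nat_lit 0) (cs (lf (nat_lit 10) (nat_lit 273)) (nd (nat_lit 273) (nat_lit 0) (cs (lf (nat_lit 11) (nat_lit 272)) (nd (nat_lit 251) (nat_lit 0) (cs (lf (nat_lit 23) (nat_lit 250)) (rf (nat_lit 3)))))))))) (cs (nd (nat_lit 277) (nat_lit 0) (cs (rf (nat_lit 4)) (cs (rf (nat_lit 0)) (nd (nat_lit 295) (nat_lit 0) (cs (lf (nat_lit 10) (nat_lit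 273)) (nd (nat_lit 273) (nat_lit 0) (cs (lf (nat_lit 11) (nat_lit 272)) (nd (nat_lit 252) (nat_lit 0) (cs (lf (nat_lit 18) (nat_lit 252)) (lf (nat_lit 37) (nat_lit 207))))))))))) (cs (rf (nat_lit 5)) (nd (nat_lit 252) (nat_lit 0) (cs (rf (nat_lit 6)) (cs (nd (nat_lit 277) (nat_lit 0) (cs (lf (nat_lit 18) (nat_lit 252)) (nd (nat_lit 230) (nat_lit 0) (cs (lf (nat_lit 24) (nat_lit 186)) (nd (nat_lit 295) (nat_lit 0) (cs (lf (nat_lit 40) (nat_lit 207)) (lf (nat_lit 10) (nat_lit 273)))))))) (nd (nat_lit 250) (nat_lit 0) (cs (lf (nat_lit 1) (nat_lit 250)) (rf (nat_lit 7))))))))))))) q13435 (by decide +kernel)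
def q14313 : Q := Q.p (nat_lit 0x80000200000c00002000000000000000000000000000000000000000000000000000000000000000) (nat_lit 0x3df000f78007df0000000000000000000000000000000000000000000000000000000000000000000000000) (nat_lit 11)
theorem c14313 : QOK q14313 := cut [q13154, q13229] ⟨c13154, c13229, trivial⟩ (nd (nat_lit 318) (nat_lit 0) (cs (rf (nat_lit 0)) (rf (nat_lit 1)))) q14313 (by decide +kernel)
def q14454 : Q := Q.p (nat_lit 0x80000200000800002000000000000000000000000000000000000000000000000000000000000000) (nat_lit 0x3df000f78007cf0000000000000000000000000000000000000000000000000000000000000000000000000) (nat_lit 11)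
theorem c14454 : QOK q14454 := cut [q13154] ⟨c13154, trivial⟩ (nd (nat_lit 318) (nat_lit 0) (cs (lf (nat_lit 41) (nat_lit 252)) (rf (nat_lit 0)))) q14454 (by decide +kernel)
def q14663 : Q := Q.p (nat_lit 0xc00002000000000010000000000000000000000000000000000000000000000000000) (nat_lit 0x1700007c0007f8003fc000ff8003ff000f380039f0002300008c000050000000000000000000000000000000000000000000000) (nat_lit 16)
theorem c14663 : QOK q14663 := cut [q13426, q13042, q13258, q14622, q14624, q14626, q14633, q14640, q14641, q13005, q13423, q14660, q14661, q14662] ⟨c13426, c13042, c13258, c14622, c14624, c14626, c14633, c14640, c14641, c13005, c13423, c14660, c14661, c14662, trivial⟩ (nd (nat_lit 276) (nat_lit 0) (cs (rf (nat_lit 0)) (cs (nd (nat_lit 273) (nat_lit 0) (cs (rf (nat_lit 1)) (cs (rf (nat_lit 2)) (cs (rf (nat_lit 3)) (rf (nat_lit 4)))))) (cs (nd (nat_lit 296) (nat_lit 0) (cs (rf (nat_lit 5)) (cs (rf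 (nat_lit 6)) (cs (rf (nat_lit 7)) (nd (nat_lit 318) (nat_lit 0) (cs (lf (nat_lit 30) (nat_lit 252)) (nd (nat_lit 277) (nat_lit 0) (cs (lf (nat_lit 11) (nat_lit 273)) (nd (nat_lit 255) (nat_lit 0) (cs (lf (nat_lit 17) (nat_lit 252)) (nd (nat_lit 299) (nat_lit 0) (cs (lf (nat_lit 5) (nat_lit 274)) (nd (nat_lit 297) (nat_lit 0) (cs (lf (nat_lit 6) (nat_lit 274)) (nd (nat_lit 298) (nat_lit 0) (cs (lf (nat_lit 11) (nat_lit 295)) (rf (nat_lit 8)))))))))))))))))) (cs (nd (nat_lit 277) (nat_lit 0) (cs (rf (nat_lit 9)) (nd (nat_lit 295) (nat_lit 0) (cs (lf (nat_lit 10) (nat_lit 273)) (nd (nat_lit 273) (nat_lit 0) (cs (lf (nat_lit 11) (nat_lit 272)) (rf (nat_lit 10)))))))) (cs (rf (nat_lit 11)) (cs (rf (nat_lit 12)) (rf (nat_lit 13))))))))) q14663 (by decide +kernel)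
def q14693 : Q := Q.p (nat_lit 0xc00003000004000010000000000000000000000000000000000000000000000000000) (nat_lit 0x1c80007380000e00000000020000080000000000000000000000000000000000000000000000) (nat_lit 8)
theorem c14693 : QOK q14693 := cut [q14692] ⟨c14692, trivial⟩ (nd (nat_lit 187) (nat_lit 0) (cs (lf (nat_lit 34) (nat_lit 186)) (rf (nat_lit 0)))) q14693 (by decide +kernel)
def q14895 : Q := Q.p (nat_lit 0xc00002000000000010000000000000000000000000000000000000000000000000000) (nat_lit 0x500005c0003f0003ff000ff8007ff000f38003980000700002c0000d0000000000000000000000000000000000000000000000) (nat_lit 17)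
theorem c14895 : QOK q14895 := cut [q12652, q12832, q14824, q12686, q12769, q13163, q14835, q14837, q14842, q14849, q14853, q1257, q14866, q14432, q14470, q12906, q14789, q14879, q14882, q14893, q14892] ⟨c12652, c12832, c14824, c12686, c12769, c13163, c14835, c14837, c14842, c14849, c14853, c1257, c14866, c14432, c14470, c12906, c14789, c14879, c14882, c14893, c14892, trivial⟩ (nd (nat_lit 252) (nat_lit 0) (cs (rf (nat_lit 0)) (cs (nd (nat_lit 273) (nat_lit 0) (cs (nd (nat_lit 295) (nat_lit 0) (cs (rf (nat_lit 1)) (cs (nd (nat_lit 317) (nat_lit 0) (cs (lf (nat_lit 30) (nat_lit 251)) (nd (nat_lit 318) (nat_lit 0) (cs (rf (nat_lit 2)) (cs (nd (nat_lit 251) (nat_lit 0) (cs (lf (nat_lit 29) (nat_lit 251)) (nd (nat_lit 316) (nat_lit 0) (cs (lf (nat_lit 41) (nat_lit 250)) (nd (nat_lit 229) (nat_lit 0) (cs (rf (nat_lit 3)) (lf (nat_lit 40) (nat_lit 228)))))))) (nd (nat_lit 319) (nat_lit 0) (cs (rf (nat_lit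 4)) (rf (nat_lit 5))))))))) (cs (nd (nat_lit 296) (nat_lit 0) (cs (nd (nat_lit 317) (nat_lit 0) (cs (lf (nat_lit 30) (nat_lit 251)) (rf (nat_lit 6)))) (cs (nd (nat_lit 276) (nat_lit 0) (cs (lf (nat_lit 6) (nat_lit 273)) (nd (nat_lit 298) (nat_lit 0) (cs (lf (nat_lit 5) (nat_lit 273)) (nd (nat_lit 320) (nat_lit 0) (cs (lf (nat_lit 42) (nat_lit 253)) (nd (nat_lit 318) (nat_lit 0) (cs (lf (nat_lit 30) (nat_lit 252)) (rf (nat_lit 7)))))))))) (cs (nd (nat_lit 318) (nat_lit 0) (cs (lf (nat_lit 30) (nat_lit 252)) (nd (nat_lit 319) (nat_lit 0) (cs (lf (nat_lit 29) (nat_lit 252)) (nd (nat_lit 320) (nat_lit 0) (cs (lf (nat_lit 18) (nat_lit 295)) (nd (nat_lit 297) (nat_lit 0) (cs (lf (nat_lit 29) (nat_lit 253)) (nd (nat_lit 298) (nat_lit 0) (cs (lf (nat_lit 18) (nat_lit 273)) (rf (nat_lit 8)))))))))))) (cs (nd (nat_lit 317) (nat_lit 0) (cs (lf (nat_lit 30) (nat_lit 251)) (nd (nat_lit 276) (nat_lit 0) (cs (lf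 (nat_lit 6) (nat_lit 273)) (nd (nat_lit 318) (nat_lit 0) (cs (lf (nat_lit 30) (nat_lit 252)) (rf (nat_lit 9)))))))) (nd (nat_lit 318) (nat_lit 0) (cs (lf (nat_lit 30) (nat_lit 252)) (nd (nat_lit 319) (nat_lit 0) (cs (lf (nat_lit 29) (nat_lit 252)) (nd (nat_lit 251) (nat_lit 0) (cs (lf (nat_lit 47) (nat_lit 229)) (nd (nat_lit 276) (nat_lit 0) (cs (lf (nat_lit 6) (nat_lit 273)) (nd (nat_lit 298) (nat_lit 0) (cs (lf (nat_lit 5) (nat_lit 273)) (nd (nat_lit 317) (nat_lit 0) (cs (lf (nat_lit 30) (nat_lit 251)) (rf (nat_lit 10))))))))))))))))))) (nd (nat_lit 317) (nat_lit 0) (cs (lf (nat_lit 30) (nat_lit 251)) (nd (nat_lit 276) (nat_lit 0) (cs (rf (nat_lit 11)) (lf (nat_lit 11) (nat_lit 272)))))))))) (cs (rf (nat_lit 12)) (cs (nd (nat_lit 297) (nat_lit 0) (cs (rf (nat_lit 13)) (cs (rf (nat_lit 14)) (nd (nat_lit 296) (nat_lit 0) (cs (rf (nat_lit 15)) (cs (nd (nat_lit 319) (nat_lit 0) (cs (lf (nat_lit 42)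 (nat_lit 252)) (nd (nat_lit 272) (nat_lit 0) (cs (lf (nat_lit 12) (nat_lit 249)) (nd (nat_lit 294) (nat_lit 0) (cs (lf (nat_lit 11) (nat_lit 271)) (rf (nat_lit 16)))))))) (nd (nat_lit 318) (nat_lit 0) (cs (lf (nat_lit 30) (nat_lit 252)) (nd (nat_lit 251) (nat_lit 0) (cs (lf (nat_lit 47) (nat_lit 229)) (nd (nat_lit 272) (nat_lit 0) (cs (lf (nat_lit 12) (nat_lit 249)) (nd (nat_lit 294) (nat_lit 0) (cs (lf (nat_lit 11) (nat_lit 271)) (nd (nat_lit 316) (nat_lit 0) (cs (lf (nat_lit 30) (nat_lit 250)) (nd (nat_lit 317) (nat_lit 0) (cs (lf (nat_lit 12) (nat_lit 293)) (lf (nat_lit 41) (nat_lit 251)))))))))))))))))))) (cs (nd (nat_lit 272) (nat_lit 0) (cs (lf (nat_lit 12) (nat_lit 249)) (rf (nat_lit 17)))) (nd (nat_lit 272) (nat_lit 0) (cs (lf (nat_lit 12) (nat_lit 249)) (nd (nat_lit 294) (nat_lit 0) (cs (lf (nat_lit 11) (nat_lit 271)) (nd (nat_lit 297) (nat_lit 0) (cs (lf (nat_lit 5) (nat_lit 272)) (nd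 (nat_lit 295) (nat_lit 0) (cs (lf (nat_lit 6) (nat_lit 272)) (nd (nat_lit 317) (nat_lit 0) (cs (lf (nat_lit 30) (nat_lit 251)) (rf (nat_lit 18))))))))))))))))) (cs (rf (nat_lit 19)) (nd (nat_lit 230) (nat_lit 0) (cs (lf (nat_lit 29) (nat_lit 208)) (rf (nat_lit 20)))))))) q14895 (by decide +kernel)
def q15404 : Q := Q.p (nat_lit 0x800002000000000070000000000000000000000000000000000000000000000000000) (nat_lit 0x8000778003fe000df80077f8001f80037f0000f8003de003f30003fc000f000000000000000000000000000000) (nat_lit 16)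
theorem c15404 : QOK q15404 := cut [q15141, q1832, q15142, q1061, q15146, q15151, q15153, q4628, q15168, q10575, q15183, q117, q7862, q15403] ⟨c15141, c1832, c15142, c1061, c15146, c15151, c15153, c4628, c15168, c10575, c15183, c117, c7862, c15403, trivial⟩ (nd (nat_lit 207) (nat_lit 0) (cs (rf (nat_lit 0)) (cs (nd (nat_lit 229) (nat_lit 0) (cs (lf (nat_lit 11) (nat_lit 206)) (nd (nat_lit 188) (nat_lit 0) (cs (lf (nat_lit 17) (nat_lit 185)) (nd (nat_lit 251) (nat_lit 0) (cs (rf (nat_lit 1)) (cs (nd (nat_lit 252) (nat_lit 0) (cs (rf (nat_lit 2)) (cs (nd (nat_lit 232) (nat_lit 0) (cs (lf (nat_lit 5) (nat_lit 207)) (nd (nat_lit 230) (nat_lit 0) (cs (rf (nat_lit 3)) (lf (nat_lit 24) (nat_lit 186)))))) (nd (nat_lit 230) (nat_lit 0) (cs (lf (nat_lit 24) (nat_lit 186)) (nd (nat_lit 250) (nat_lit 0) (cs (lf (nat_lit 5) (nat_lit 250)) (rf (nat_lit 4))))))))) (cs (nd (nat_lit 273) (nat_lit 0) (cs (nd (nat_lit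 232) (nat_lit 0) (cs (lf (nat_lit 5) (nat_lit 207)) (rf (nat_lit 5)))) (cs (nd (nat_lit 274) (nat_lit 0) (cs (lf (nat_lit 29) (nat_lit 207)) (nd (nat_lit 230) (nat_lit 0) (cs (lf (nat_lit 30) (nat_lit 207)) (nd (nat_lit 252) (nat_lit 0) (cs (lf (nat_lit 35) (nat_lit 186)) (rf (nat_lit 6)))))))) (nd (nat_lit 294) (nat_lit 0) (cs (nd (nat_lit 295) (nat_lit 0) (cs (lf (nat_lit 34) (nat_lit 207)) (lf (nat_lit 41) (nat_lit 228)))) (lf (nat_lit 40) (nat_lit 206))))))) (nd (nat_lit 232) (nat_lit 0) (cs (lf (nat_lit 5) (nat_lit 207)) (nd (nat_lit 273) (nat_lit 0) (cs (lf (nat_lit 35) (nat_lit 185)) (rf (nat_lit 5)))))))))))))) (cs (nd (nat_lit 188) (nat_lit 0) (cs (lf (nat_lit 17) (nat_lit 185)) (nd (nat_lit 166) (nat_lit 0) (cs (rf (nat_lit 7)) (cs (rf (nat_lit 8)) (cs (nd (nat_lit 187) (nat_lit 0) (cs (lf (nat_lit 12) (nat_lit 184)) (nd (nat_lit 232) (nat_lit 0) (cs (lf (nat_lit 5) (nat_lit 207)) (nd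 (nat_lit 165) (nat_lit 0) (cs (lf (nat_lit 24) (nat_lit 143)) (nd (nat_lit 167) (nat_lit 0) (cs (lf (nat_lit 35) (nat_lit 144)) (nd (nat_lit 168) (nat_lit 0) (cs (lf (nat_lit 6) (nat_lit 165)) (lf (nat_lit 11) (nat_lit 164)))))))))))) (cs (nd (nat_lit 187) (nat_lit 0) (cs (lf (nat_lit 12) (nat_lit 184)) (nd (nat_lit 144) (nat_lit 0) (cs (lf (nat_lit 36) (nat_lit 121)) (nd (nat_lit 123) (nat_lit 0) (cs (lf (nat_lit 34) (nat_lit 122)) (nd (nat_lit 143) (nat_lit 0) (cs (lf (nat_lit 47) (nat_lit 121)) (nd (nat_lit 165) (nat_lit 0) (cs (lf (nat_lit 41) (nat_lit 142)) (nd (nat_lit 142) (nat_lit 0) (cs (lf (nat_lit 47) (nat_lit 120)) (rf (nat_lit 9)))))))))))))) (nd (nat_lit 187) (nat_lit 0) (cs (lf (nat_lit 12) (nat_lit 184)) (rf (nat_lit 10))))))))))) (cs (nd (nat_lit 206) (nat_lit 0) (cs (rf (nat_lit 11)) (cs (rf (nat_lit 12)) (cs (nd (nat_lit 232) (nat_lit 0) (cs (lf (nat_lit 5) (nat_lit 207)) (nd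 (nat_lit 183) (nat_lit 0) (cs (lf (nat_lit 22) (nat_lit 183)) (nd (nat_lit 205) (nat_lit 0) (cs (lf (nat_lit 23) (nat_lit 182)) (nd (nat_lit 186) (nat_lit 0) (cs (lf (nat_lit 17) (nat_lit 183)) (nd (nat_lit 226) (nat_lit 0) (cs (lf (nat_lit 10) (nat_lit 204)) (nd (nat_lit 204) (nat_lit 0) (cs (lf (nat_lit 11) (nat_lit 203)) (nd (nat_lit 230) (nat_lit 0) (cs (lf (nat_lit 27) (nat_lit 186)) (lf (nat_lit 4) (nat_lit 204)))))))))))))))) (nd (nat_lit 229) (nat_lit 0) (cs (lf (nat_lit 11) (nat_lit 206)) (nd (nat_lit 232) (nat_lit 0) (cs (lf (nat_lit 5) (nat_lit 207)) (nd (nat_lit 183) (nat_lit 0) (cs (lf (nat_lit 22) (nat_lit 183)) (nd (nat_lit 205) (nat_lit 0) (cs (lf (nat_lit 23) (nat_lit 182)) (nd (nat_lit 186) (nat_lit 0) (cs (lf (nat_lit 17) (nat_lit 183)) (nd (nat_lit 230) (nat_lit 0) (cs (lf (nat_lit 27) (nat_lit 186)) (lf (nat_lit 0) (nat_lit 204)))))))))))))))))) (rf (nat_lit 13))))))) q15404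 (by decide +kernel)
def q16219 : Q := Q.p (nat_lit 0x2000000000038000000000000000000000000000000000000000000000000000) (nat_lit 0xe0000380001e00003c000060001fc0000e0000380000a00000000000000000000000000000) (nat_lit 12)
theorem c16219 : QOK q16219 := cut [q117, q1547, q1550, q13340] ⟨c117, c1547, c1550, c13340, trivial⟩ (nd (nat_lit 206) (nat_lit 0) (cs (rf (nat_lit 0)) (cs (rf (nat_lit 1)) (cs (rf (nat_lit 2)) (rf (nat_lit 3)))))) q16219 (by decide +kernel)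
def q16691 : Q := Q.p (nat_lit 0x2000000000070000000000000000000000000000000000000000000000000000) (nat_lit 0x140000700007c000780007f8000f80003f60007ff003ff8007fe001f00007c0000000000000000000) (nat_lit 17)
theorem c16691 : QOK q16691 := cut [q6705, q7464, q9412, q16623, q694, q16446, q16624, q16632, q5780, q16668, q16673, q9907, q16680, q16685] ⟨c6705, c7464, c9412, c16623, c694, c16446, c16624, c16632, c5780, c16668, c16673, c9907, c16680, c16685, trivial⟩ (nd (nat_lit 231) (nat_lit 0) (cs (rf (nat_lit 0)) (cs (rf (nat_lit 1)) (nd (nat_lit 166) (nat_lit 0) (cs (rf (nat_lit 2)) (cs (rf (nat_lit 3)) (cs (nd (nat_lit 211) (nat_lit 0) (cs (rf (nat_lit 4)) (cs (rf (nat_lit 5)) (cs (nd (nat_lit 232) (nat_lit 0) (cs (lf (nat_lit 37) (nat_lit 165)) (rf (nat_lit 6)))) (nd (nat_lit 233) (nat_lit 0) (cs (lf (nat_lit 5) (nat_lit 208)) (nd (nat_lit 188) (nat_lit 0) (cs (lf (nat_lit 39) (nat_lit 165)) (nd (nat_lit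 255) (nat_lit 0) (cs (lf (nat_lit 42) (nat_lit 188)) (lf (nat_lit 45) (nat_lit 166)))))))))))) (nd (nat_lit 144) (nat_lit 0) (cs (lf (nat_lit 38) (nat_lit 143)) (nd (nat_lit 142) (nat_lit 0) (cs (nd (nat_lit 143) (nat_lit 0) (cs (nd (nat_lit 141) (nat_lit 0) (cs (lf (nat_lit 5) (nat_lit 141)) (rf (nat_lit 7)))) (cs (nd (nat_lit 145) (nat_lit 0) (cs (nd (nat_lit 167) (nat_lit 0) (cs (lf (nat_lit 5) (nat_lit 142)) (nd (nat_lit 119) (nat_lit 0) (cs (lf (nat_lit 22) (nat_lit 119)) (nd (nat_lit 123) (nat_lit 0) (cs (lf (nat_lit 17) (nat_lit 120)) (nd (nat_lit 101) (nat_lit 0) (cs (lf (nat_lit 36) (nat_lit 78)) (nd (nat_lit 80) (nat_lit 0) (cs (nd (nat_lit 100) (nat_lit 0) (cs (nd (nat_lit 189) (nat_lit 0) (cs (lf (nat_lit 25) (nat_lit 100)) (nd (nat_lit 190) (nat_lit 0) (cs (lf (nat_lit 15) (nat_lit 186)) (lf (nat_lit 29) (nat_lit 123)))))) (lf (nat_lit 47) (nat_lit 78)))) (lf (nat_lit 34) (nat_lit 79))))))))))))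 (cs (nd (nat_lit 120) (nat_lit 0) (cs (lf (nat_lit 23) (nat_lit 119)) (nd (nat_lit 146) (nat_lit 0) (cs (lf (nat_lit 22) (nat_lit 120)) (nd (nat_lit 147) (nat_lit 0) (cs (lf (nat_lit 11) (nat_lit 143)) (nd (nat_lit 169) (nat_lit 0) (cs (lf (nat_lit 5) (nat_lit 144)) (lf (nat_lit 4) (nat_lit 143)))))))))) (cs (nd (nat_lit 123) (nat_lit 0) (cs (lf (nat_lit 17) (nat_lit 120)) (nd (nat_lit 79) (nat_lit 0) (cs (lf (nat_lit 37) (nat_lit 78)) (nd (nat_lit 168) (nat_lit 0) (cs (lf (nat_lit 4) (nat_lit 142)) (nd (nat_lit 146) (nat_lit 0) (cs (lf (nat_lit 5) (nat_lit 143)) (nd (nat_lit 190) (nat_lit 0) (cs (nd (nat_lit 147) (nat_lit 0) (cs (lf (nat_lit 11) (nat_lit 143)) (nd (nat_lit 122) (nat_lit 0) (cs (lf (nat_lit 23) (nat_lit 121)) (lf (nat_lit 18) (nat_lit 122)))))) (lf (nat_lit 42) (nat_lit 123)))))))))))) (nd (nat_lit 123) (nat_lit 0) (cs (lf (nat_lit 17) (nat_lit 120)) (nd (nat_lit 79) (nat_lit 0)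 (cs (lf (nat_lit 37) (nat_lit 78)) (nd (nat_lit 120) (nat_lit 0) (cs (lf (nat_lit 23) (nat_lit 119)) (nd (nat_lit 146) (nat_lit 0) (cs (lf (nat_lit 22) (nat_lit 120)) (nd (nat_lit 147) (nat_lit 0) (cs (lf (nat_lit 11) (nat_lit 143)) (nd (nat_lit 148) (nat_lit 0) (cs (lf (nat_lit 23) (nat_lit 122)) (lf (nat_lit 10) (nat_lit 144)))))))))))))))))) (cs (nd (nat_lit 141) (nat_lit 0) (cs (rf (nat_lit 8)) (cs (rf (nat_lit 7)) (nd (nat_lit 162) (nat_lit 0) (cs (lf (nat_lit 10) (nat_lit 140)) (rf (nat_lit 9))))))) (rf (nat_lit 10)))))) (cs (nd (nat_lit 143) (nat_lit 0) (cs (rf (nat_lit 10)) (cs (nd (nat_lit 164) (nat_lit 0) (cs (lf (nat_lit 26) (nat_lit 142)) (nd (nat_lit 145) (nat_lit 0) (cs (lf (nat_lit 11) (nat_lit 141)) (nd (nat_lit 123) (nat_lit 0) (cs (lf (nat_lit 17) (nat_lit 120)) (nd (nat_lit 79) (nat_lit 0) (cs (lf (nat_lit 37) (nat_lit 78)) (nd (nat_lit 146) (nat_lit 0) (cs (lf (nat_lit 10) (nat_lit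 142)) (rf (nat_lit 11)))))))))))) (nd (nat_lit 164) (nat_lit 0) (cs (lf (nat_lit 26) (nat_lit 142)) (nd (nat_lit 141) (nat_lit 0) (cs (lf (nat_lit 5) (nat_lit 141)) (rf (nat_lit 12))))))))) (nd (nat_lit 186) (nat_lit 0) (cs (lf (nat_lit 25) (nat_lit 142)) (nd (nat_lit 211) (nat_lit 0) (cs (lf (nat_lit 23) (nat_lit 185)) (rf (nat_lit 13)))))))))))))))))) q16691 (by decide +kernel)
def q17428 : Q := Q.p (nat_lit 0x2400010000064000000000000000000000000000000000000000000000000000) (nat_lit 0xa0001fc0007f8001ff80013c000bf00003e001bf0007fe001ff0000a00000000000000000000000000000) (nat_lit 14)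
theorem c17428 : QOK q17428 := cut [q17312, q17355, q9673, q17376, q7464, q17152, q17369, q17370, q17378, q17375, q17394, q17155, q17406, q17410, q17426] ⟨c17312, c17355, c9673, c17376, c7464, c17152, c17369, c17370, c17378, c17375, c17394, c17155, c17406, c17410, c17426, trivial⟩ (nd (nat_lit 228) (nat_lit 0) (cs (rf (nat_lit 0)) (cs (rf (nat_lit 1)) (cs (nd (nat_lit 231) (nat_lit 0) (cs (rf (nat_lit 2)) (rf (nat_lit 3)))) (cs (nd (nat_lit 231) (nat_lit 0) (cs (rf (nat_lit 4)) (cs (nd (nat_lit 272) (nat_lit 0) (cs (rf (nat_lit 5)) (cs (rf (nat_lit 6)) (cs (nd (nat_lit 293) (nat_lit 0) (cs (lf (nat_lit 40) (nat_lit 205)) (nd (nat_lit 166) (nat_lit 0) (cs (lf (nat_lit 37) (nat_lit 165)) (rf (nat_lit 7)))))) (nd (nat_lit 166) (nat_lit 0) (cs (lf (nat_lit 37) (nat_lit 165)) (nd (nat_lit 271) (nat_lit 0) (cs (lf (nat_lit 41) (nat_lit 205)) (nd (nat_lit 183) (nat_lit 0) (cs (lf (nat_lit 46) (nat_lit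 183)) (nd (nat_lit 273) (nat_lit 0) (cs (lf (nat_lit 29) (nat_lit 206)) (nd (nat_lit 252) (nat_lit 0) (cs (lf (nat_lit 15) (nat_lit 249)) (nd (nat_lit 184) (nat_lit 0) (cs (lf (nat_lit 47) (nat_lit 161)) (nd (nat_lit 163) (nat_lit 0) (cs (lf (nat_lit 34) (nat_lit 162)) (nd (nat_lit 162) (nat_lit 0) (cs (lf (nat_lit 35) (nat_lit 140)) (nd (nat_lit 165) (nat_lit 0) (cs (rf (nat_lit 8)) (lf (nat_lit 7) (nat_lit 161)))))))))))))))))))))))) (nd (nat_lit 272) (nat_lit 0) (cs (rf (nat_lit 5)) (cs (rf (nat_lit 9)) (rf (nat_lit 10)))))))) (cs (nd (nat_lit 271) (nat_lit 0) (cs (rf (nat_lit 11)) (nd (nat_lit 272) (nat_lit 0) (cs (lf (nat_lit 41) (nat_lit 205)) (nd (nat_lit 273) (nat_lit 0) (cs (lf (nat_lit 29) (nat_lit 206)) (nd (nat_lit 274) (nat_lit 0) (cs (lf (nat_lit 16) (nat_lit 249)) (nd (nat_lit 297) (nat_lit 0) (cs (lf (nat_lit 4) (nat_lit 271)) (nd (nat_lit 275) (nat_lit 0) (cs (lf (nat_lit 5) (nat_lit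 272)) (lf (nat_lit 33) (nat_lit 209)))))))))))))) (nd (nat_lit 272) (nat_lit 0) (cs (rf (nat_lit 6)) (cs (rf (nat_lit 12)) (cs (rf (nat_lit 13)) (cs (nd (nat_lit 231) (nat_lit 0) (cs (rf (nat_lit 4)) (cs (rf (nat_lit 10)) (nd (nat_lit 166) (nat_lit 0) (cs (lf (nat_lit 37) (nat_lit 165)) (nd (nat_lit 271) (nat_lit 0) (cs (lf (nat_lit 41) (nat_lit 205)) (nd (nat_lit 184) (nat_lit 0) (cs (lf (nat_lit 40) (nat_lit 183)) (nd (nat_lit 163) (nat_lit 0) (cs (lf (nat_lit 34) (nat_lit 162)) (nd (nat_lit 162) (nat_lit 0) (cs (lf (nat_lit 35) (nat_lit 140)) (nd (nat_lit 139) (nat_lit 0) (cs (lf (nat_lit 46) (nat_lit 139)) (nd (nat_lit 140) (nat_lit 0) (cs (lf (nat_lit 47) (nat_lit 117)) (nd (nat_lit 137) (nat_lit 0) (cs (nd (nat_lit 165) (nat_lit 0) (cs (lf (nat_lit 19) (nat_lit 139)) (rf (nat_lit 8)))) (lf (nat_lit 1) (nat_lit 137))))))))))))))))))))) (rf (nat_lit 14))))))))))))) q17428 (by decide +kernel)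
def q17480 : Q := Q.p (nat_lit 0x2400010000064000000000000000000000000000000000000000000000000000) (nat_lit 0xa00003c0007f0000ff8000bc000bf00003e0013f0000fe000390000a00000000000000000000000000000) (nat_lit 14)
theorem c17480 : QOK q17480 := cut [q17312, q17152, q17369, q17375, q17322, q17457, q3767, q10250, q17204, q1527, q17131, q17167, q17406, q17410, q17426, q17478] ⟨c17312, c17152, c17369, c17375, c17322, c17457, c3767, c10250, c17204, c1527, c17131, c17167, c17406, c17410, c17426, c17478, trivial⟩ (nd (nat_lit 228) (nat_lit 0) (cs (rf (nat_lit 0)) (cs (nd (nat_lit 272) (nat_lit 0) (cs (rf (nat_lit 1)) (cs (rf (nat_lit 2)) (cs (rf (nat_lit 3)) (nd (nat_lit 275) (nat_lit 0) (cs (rf (nat_lit 4)) (cs (nd (nat_lit 183) (nat_lit 0) (cs (lf (nat_lit 46) (nat_lit 183)) (nd (nat_lit 271) (nat_lit 0) (cs (lf (nat_lit 41) (nat_lit 205)) (nd (nat_lit 273) (nat_lit 0) (cs (lf (nat_lit 29) (nat_lit 206))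 (nd (nat_lit 274) (nat_lit 0) (cs (lf (nat_lit 23) (nat_lit 249)) (rf (nat_lit 5)))))))))) (nd (nat_lit 273) (nat_lit 0) (cs (lf (nat_lit 29) (nat_lit 206)) (nd (nat_lit 231) (nat_lit 0) (cs (lf (nat_lit 35) (nat_lit 187)) (nd (nat_lit 274) (nat_lit 0) (cs (lf (nat_lit 41) (nat_lit 208)) (lf (nat_lit 23) (nat_lit 249))))))))))))))) (cs (nd (nat_lit 184) (nat_lit 0) (cs (rf (nat_lit 6)) (cs (rf (nat_lit 7)) (rf (nat_lit 8))))) (cs (nd (nat_lit 184) (nat_lit 0) (cs (rf (nat_lit 9)) (cs (rf (nat_lit 10)) (cs (rf (nat_lit 11)) (nd (nat_lit 161) (nat_lit 0) (cs (lf (nat_lit 46) (nat_lit 161)) (nd (nat_lit 249) (nat_lit 0) (cs (lf (nat_lit 41) (nat_lit 183)) (nd (nat_lit 163) (nat_lit 0) (cs (lf (nat_lit 34) (nat_lit 162)) (nd (nat_lit 273) (nat_lit 0) (cs (lf (nat_lit 28) (nat_lit 184)) (nd (nat_lit 272) (nat_lit 0) (cs (lf (nat_lit 29) (nat_lit 206)) (nd (nat_lit 247) (nat_lit 0) (cs (nd (nat_lit 275)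 (nat_lit 0) (cs (rf (nat_lit 4)) (lf (nat_lit 19) (nat_lit 249)))) (lf (nat_lit 1) (nat_lit 247)))))))))))))))))) (nd (nat_lit 272) (nat_lit 0) (cs (rf (nat_lit 2)) (cs (rf (nat_lit 12)) (cs (rf (nat_lit 13)) (cs (rf (nat_lit 14)) (rf (nat_lit 15)))))))))))) q17480 (by decide +kernel)
def q18062 : Q := Q.p (nat_lit 0x2000000000034000000000000000000000000000000000000000000000000000) (nat_lit 0xa00017c0007f8001ff8001fe007bf00003e003ff8007fe001ff8007fe0003f0000b400000000000000000) (nat_lit 15)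
theorem c18062 : QOK q18062 := cut [q17550, q17523, q17553, q17561, q17565, q17567, q10250, q17311, q17579, q17582, q17584, q17647, q17693, q17747, q17849, q17634, q17641, q17645, q17646, q17771, q17775, q1273, q17314, q17344, q17608, q17621, q17623, q17877, q18019, q18037, q18058, q35, q17697, q17746, q17524] ⟨c17550, c17523, c17553, c17561, c17565, c17567, c10250, c17311, c17579, c17582, c17584, c17647, c17693, c17747, c17849, c17634, c17641, c17645, c17646, c17771, c17775, c1273, c17314, c17344, c17608, c17621, c17623, c17877, c18019, c18037, c18058, c35, c17697, c17746, c17524, trivial⟩ (nd (nat_lit 184) (nat_lit 0) (cs (nd (nat_lit 250) (nat_lit 0) (cs (rf (nat_lit 0)) (cs (nd (nat_lit 183) (nat_lit 0) (cs (rf (nat_lit 1)) (cs (nd (nat_lit 228) (nat_lit 0) (cs (lf (nat_lit 47) (nat_lit 161)) (nd (nat_lit 251) (nat_lit 0) (cs (lf (nat_lit 29) (nat_lit 184)) (nd (nat_lit 205) (nat_lit 0) (cs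 (lf (nat_lit 42) (nat_lit 183)) (rf (nat_lit 2)))))))) (cs (nd (nat_lit 228) (nat_lit 0) (cs (lf (nat_lit 47) (nat_lit 161)) (nd (nat_lit 163) (nat_lit 0) (cs (lf (nat_lit 34) (nat_lit 162)) (rf (nat_lit 3)))))) (rf (nat_lit 4)))))) (cs (nd (nat_lit 183) (nat_lit 0) (cs (rf (nat_lit 1)) (cs (rf (nat_lit 4)) (nd (nat_lit 228) (nat_lit 0) (cs (lf (nat_lit 47) (nat_lit 161)) (rf (nat_lit 5))))))) (cs (nd (nat_lit 228) (nat_lit 0) (cs (rf (nat_lit 6)) (cs (rf (nat_lit 7)) (cs (rf (nat_lit 8)) (rf (nat_lit 9)))))) (nd (nat_lit 183) (nat_lit 0) (cs (rf (nat_lit 1)) (nd (nat_lit 228) (nat_lit 0) (cs (lf (nat_lit 47) (nat_lit 161)) (rf (nat_lit 10))))))))))) (cs (rf (nat_lit 11)) (cs (rf (nat_lit 12)) (cs (rf (nat_lit 13)) (cs (rf (nat_lit 14)) (cs (nd (nat_lit 228) (nat_lit 0) (cs (rf (nat_lit 15)) (cs (rf (nat_lit 16)) (cs (rf (nat_lit 17)) (cs (rf (nat_lit 18)) (cs (rf (nat_lit 19)) (cs (rf (nat_lit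 20)) (nd (nat_lit 162) (nat_lit 0) (cs (rf (nat_lit 21)) (cs (rf (nat_lit 22)) (cs (rf (nat_lit 23)) (nd (nat_lit 161) (nat_lit 0) (cs (lf (nat_lit 47) (nat_lit 139)) (nd (nat_lit 160) (nat_lit 0) (cs (rf (nat_lit 24)) (cs (rf (nat_lit 25)) (cs (rf (nat_lit 26)) (nd (nat_lit 227) (nat_lit 0) (cs (lf (nat_lit 41) (nat_lit 161)) (nd (nat_lit 229) (nat_lit 0) (cs (lf (nat_lit 29) (nat_lit 162)) (nd (nat_lit 163) (nat_lit 0) (cs (lf (nat_lit 35) (nat_lit 140)) (nd (nat_lit 185) (nat_lit 0) (cs (lf (nat_lit 5) (nat_lit 160)) (nd (nat_lit 182) (nat_lit 0) (cs (lf (nat_lit 11) (nat_lit 159)) (nd (nat_lit 138) (nat_lit 0) (cs (lf (nat_lit 23) (nat_lit 137)) (nd (nat_lit 205) (nat_lit 0) (cs (lf (nat_lit 27) (nat_lit 138)) (lf (nat_lit 44) (nat_lit 138))))))))))))))))))))))))))))))))) (cs (rf (nat_lit 27)) (cs (rf (nat_lit 28)) (cs (rf (nat_lit 29)) (cs (rf (nat_lit 30)) (nd (nat_lit 186) (nat_lit 0) (cs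 (rf (nat_lit 31)) (cs (rf (nat_lit 32)) (cs (rf (nat_lit 33)) (nd (nat_lit 228) (nat_lit 0) (cs (rf (nat_lit 15)) (cs (rf (nat_lit 16)) (cs (rf (nat_lit 17)) (cs (rf (nat_lit 18)) (cs (rf (nat_lit 19)) (cs (rf (nat_lit 20)) (nd (nat_lit 183) (nat_lit 0) (cs (lf (nat_lit 2) (nat_lit 183)) (nd (nat_lit 162) (nat_lit 0) (cs (rf (nat_lit 21)) (cs (rf (nat_lit 22)) (cs (rf (nat_lit 23)) (nd (nat_lit 229) (nat_lit 0) (cs (lf (nat_lit 29) (nat_lit 162)) (nd (nat_lit 227) (nat_lit 0) (cs (lf (nat_lit 41) (nat_lit 161)) (nd (nat_lit 161) (nat_lit 0) (cs (lf (nat_lit 47) (nat_lit 139)) (nd (nat_lit 163) (nat_lit 0) (cs (lf (nat_lit 35) (nat_lit 140)) (rf (nat_lit 34)))))))))))))))))))))))))))))))))))))) q18062 (by decide +kernel)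
def q18461 : Q := Q.p (nat_lit 0x2000000000010000040000000000000000000000000000000000000000000000) (nat_lit 0x280007e0001fe0007f8001ff0001f80077e001ef00079e003ff801ffe007ff8003e8000fa0002a0000000000000) (nat_lit 17)
theorem c18461 : QOK q18461 := cut [q4807, q5534, q18179, q18188, q18189, q18284, q559, q18306, q530, q18163, q18308, q18313, q18327, q3282, q2449, q18337, q18355, q18446, q18447, q18451, q6854, q18388, q4986, q18457] ⟨c4807, c5534, c18179, c18188, c18189, c18284, c559, c18306, c530, c18163, c18308, c18313, c18327, c3282, c2449, c18337, c18355, c18446, c18447, c18451, c6854, c18388, c4986, c18457, trivial⟩ (nd (nat_lit 164) (nat_lit 0) (cs (nd (nat_lit 230) (nat_lit 0) (cs (rf (nat_lit 0)) (cs (rf (nat_lit 1)) (nd (nat_lit 163) (nat_lit 0) (cs (lf (nat_lit 47) (nat_lit 141)) (rf (nat_lit 2))))))) (cs (rf (nat_lit 3)) (cs (nd (nat_lit 251) (nat_lit 0) (cs (nd (nat_lit 229) (nat_lit 0)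 (cs (lf (nat_lit 39) (nat_lit 163)) (rf (nat_lit 4)))) (cs (rf (nat_lit 5)) (nd (nat_lit 207) (nat_lit 0) (cs (rf (nat_lit 6)) (cs (rf (nat_lit 7)) (nd (nat_lit 206) (nat_lit 0) (cs (rf (nat_lit 8)) (cs (nd (nat_lit 142) (nat_lit 0) (cs (rf (nat_lit 9)) (cs (nd (nat_lit 121) (nat_lit 0) (cs (lf (nat_lit 34) (nat_lit 120)) (nd (nat_lit 120) (nat_lit 0) (cs (lf (nat_lit 35) (nat_lit 98)) (rf (nat_lit 10)))))) (cs (nd (nat_lit 143) (nat_lit 0) (cs (lf (nat_lit 35) (nat_lit 120)) (nd (nat_lit 144) (nat_lit 0) (cs (nd (nat_lit 145) (nat_lit 0) (cs (lf (nat_lit 11) (nat_lit 141)) (rf (nat_lit 11)))) (cs (nd (nat_lit 141) (nat_lit 0) (cs (lf (nat_lit 47) (nat_lit 119)) (nd (nat_lit 166) (nat_lit 0) (cs (lf (nat_lit 5) (nat_lit 141)) (nd (nat_lit 162) (nat_lit 0) (cs (lf (nat_lit 10) (nat_lit 140)) (nd (nat_lit 140) (nat_lit 0) (cs (lf (nat_lit 11) (nat_lit 139)) (nd (nat_lit 117) (nat_lit 0) (cs (lf (nat_lit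 22) (nat_lit 117)) (nd (nat_lit 139) (nat_lit 0) (cs (lf (nat_lit 23) (nat_lit 116)) (lf (nat_lit 43) (nat_lit 117)))))))))))))) (cs (nd (nat_lit 141) (nat_lit 0) (cs (lf (nat_lit 47) (nat_lit 119)) (rf (nat_lit 12)))) (nd (nat_lit 141) (nat_lit 0) (cs (lf (nat_lit 47) (nat_lit 119)) (nd (nat_lit 163) (nat_lit 0) (cs (lf (nat_lit 6) (nat_lit 141)) (lf (nat_lit 11) (nat_lit 140)))))))))))) (nd (nat_lit 119) (nat_lit 0) (cs (lf (nat_lit 46) (nat_lit 119)) (nd (nat_lit 120) (nat_lit 0) (cs (lf (nat_lit 47) (nat_lit 97)) (rf (nat_lit 10)))))))))) (cs (nd (nat_lit 227) (nat_lit 0) (cs (rf (nat_lit 13)) (cs (nd (nat_lit 205) (nat_lit 0) (cs (lf (nat_lit 11) (nat_lit 204)) (rf (nat_lit 14)))) (cs (nd (nat_lit 226) (nat_lit 0) (cs (lf (nat_lit 9) (nat_lit 204)) (nd (nat_lit 228) (nat_lit 0) (cs (lf (nat_lit 12) (nat_lit 203)) (rf (nat_lit 15)))))) (cs (nd (nat_lit 228) (nat_lit 0) (cs (lf (nat_lit 6) (nat_lit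 205)) (rf (nat_lit 15)))) (nd (nat_lit 205) (nat_lit 0) (cs (lf (nat_lit 11) (nat_lit 204)) (nd (nat_lit 182) (nat_lit 0) (cs (lf (nat_lit 22) (nat_lit 182)) (nd (nat_lit 181) (nat_lit 0) (cs (lf (nat_lit 21) (nat_lit 181)) (nd (nat_lit 228) (nat_lit 0) (cs (lf (nat_lit 6) (nat_lit 205)) (nd (nat_lit 250) (nat_lit 0) (cs (lf (nat_lit 19) (nat_lit 227)) (nd (nat_lit 272) (nat_lit 0) (cs (lf (nat_lit 42) (nat_lit 205)) (nd (nat_lit 271) (nat_lit 0) (cs (lf (nat_lit 41) (nat_lit 205)) (nd (nat_lit 270) (nat_lit 0) (cs (lf (nat_lit 12) (nat_lit 247)) (nd (nat_lit 249) (nat_lit 0) (cs (lf (nat_lit 41) (nat_lit 204)) (nd (nat_lit 273) (nat_lit 0) (cs (lf (nat_lit 29) (nat_lit 206)) (nd (nat_lit 248) (nat_lit 0) (cs (lf (nat_lit 0) (nat_lit 247)) (lf (nat_lit 5) (nat_lit 248))))))))))))))))))))))))))))) (rf (nat_lit 16)))))))))))) (cs (rf (nat_lit 17)) (cs (rf (nat_lit 18)) (cs (rf (nat_lit 19)) (nd (nat_lit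 142) (nat_lit 0) (cs (rf (nat_lit 20)) (cs (rf (nat_lit 9)) (cs (rf (nat_lit 21)) (cs (nd (nat_lit 121) (nat_lit 0) (cs (lf (nat_lit 34) (nat_lit 120)) (nd (nat_lit 120) (nat_lit 0) (cs (lf (nat_lit 35) (nat_lit 98)) (nd (nat_lit 187) (nat_lit 0) (cs (lf (nat_lit 29) (nat_lit 120)) (nd (nat_lit 165) (nat_lit 0) (cs (lf (nat_lit 24) (nat_lit 98)) (nd (nat_lit 230) (nat_lit 0) (cs (lf (nat_lit 30) (nat_lit 164)) (rf (nat_lit 22)))))))))))) (nd (nat_lit 141) (nat_lit 0) (cs (lf (nat_lit 47) (nat_lit 119)) (nd (nat_lit 121) (nat_lit 0) (cs (lf (nat_lit 34) (nat_lit 120)) (rf (nat_lit 23)))))))))))))))))) q18461 (by decide +kernel)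
def q18898 : Q := Q.p (nat_lit 0x2000000000010000050000000000000000000000000000000000000000000000) (nat_lit 0x280007e0001fe0007f8001ff0001f80077e001ef8007a7001ef8001fe0007f80002800000000000000000000000) (nat_lit 16)
theorem c18898 : QOK q18898 := cut [q530, q18661, q18663, q18777, q18795, q6859, q7339, q8755, q18800, q3313, q9723, q18722, q4370, q18654, q18662, q889, q1497, q5419, q18589, q18625, q3688, q2147, q527, q18832, q18852, q18853, q18858, q18297, q2225, q5882, q18865, q18896] ⟨c530, c18661, c18663, c18777, c18795, c6859, c7339, c8755, c18800, c3313, c9723, c18722, c4370, c18654, c18662, c889, c1497, c5419, c18589, c18625, c3688, c2147, c527, c18832, c18852, c18853, c18858, c18297, c2225, c5882, c18865, c18896, trivial⟩ (nd (nat_lit 207) (nat_lit 0) (cs (nd (nat_lit 206) (nat_lit 0) (cs (rf (nat_lit 0)) (cs (rf (nat_lit 1)) (rf (nat_lit 2))))) (cs (rf (nat_lit 3)) (cs (rf (nat_lit 4)) (cs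 (nd (nat_lit 187) (nat_lit 0) (cs (rf (nat_lit 5)) (cs (rf (nat_lit 6)) (cs (nd (nat_lit 185) (nat_lit 0) (cs (rf (nat_lit 7)) (cs (nd (nat_lit 206) (nat_lit 0) (cs (lf (nat_lit 11) (nat_lit 183)) (rf (nat_lit 8)))) (nd (nat_lit 206) (nat_lit 0) (cs (lf (nat_lit 11) (nat_lit 183)) (nd (nat_lit 161) (nat_lit 0) (cs (lf (nat_lit 22) (nat_lit 161)) (rf (nat_lit 9))))))))) (nd (nat_lit 185) (nat_lit 0) (cs (rf (nat_lit 7)) (cs (rf (nat_lit 10)) (rf (nat_lit 11))))))))) (cs (nd (nat_lit 206) (nat_lit 0) (cs (rf (nat_lit 0)) (cs (rf (nat_lit 12)) (cs (rf (nat_lit 1)) (nd (nat_lit 228) (nat_lit 0) (cs (rf (nat_lit 13)) (cs (rf (nat_lit 14)) (cs (nd (nat_lit 162) (nat_lit 0) (cs (rf (nat_lit 15)) (cs (rf (nat_lit 16)) (nd (nat_lit 139) (nat_lit 0) (cs (lf (nat_lit 46) (nat_lit 139)) (nd (nat_lit 229) (nat_lit 0) (cs (lf (nat_lit 29) (nat_lit 162)) (nd (nat_lit 209) (nat_lit 0) (cs (lf (nat_lit 6) (nat_lit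 206)) (rf (nat_lit 17))))))))))) (nd (nat_lit 162) (nat_lit 0) (cs (rf (nat_lit 18)) (cs (rf (nat_lit 19)) (nd (nat_lit 139) (nat_lit 0) (cs (lf (nat_lit 46) (nat_lit 139)) (nd (nat_lit 141) (nat_lit 0) (cs (lf (nat_lit 34) (nat_lit 140)) (rf (nat_lit 20))))))))))))))))) (cs (nd (nat_lit 187) (nat_lit 0) (cs (rf (nat_lit 5)) (cs (rf (nat_lit 6)) (nd (nat_lit 185) (nat_lit 0) (cs (rf (nat_lit 21)) (rf (nat_lit 7))))))) (cs (nd (nat_lit 206) (nat_lit 0) (cs (rf (nat_lit 22)) (cs (rf (nat_lit 0)) (cs (rf (nat_lit 23)) (cs (nd (nat_lit 185) (nat_lit 0) (cs (rf (nat_lit 9)) (cs (rf (nat_lit 24)) (nd (nat_lit 187) (nat_lit 0) (cs (lf (nat_lit 6) (nat_lit 184)) (rf (nat_lit 25))))))) (rf (nat_lit 26))))))) (cs (nd (nat_lit 206) (nat_lit 0) (cs (rf (nat_lit 0)) (cs (rf (nat_lit 1)) (cs (rf (nat_lit 23)) (nd (nat_lit 228) (nat_lit 0) (cs (rf (nat_lit 27)) (cs (nd (nat_lit 209) (nat_lit 0) (cs (lf (nat_lit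 11) (nat_lit 205)) (nd (nat_lit 187) (nat_lit 0) (cs (lf (nat_lit 17) (nat_lit 184)) (nd (nat_lit 185) (nat_lit 0) (cs (lf (nat_lit 5) (nat_lit 184)) (rf (nat_lit 28)))))))) (nd (nat_lit 251) (nat_lit 0) (cs (rf (nat_lit 29)) (rf (nat_lit 30))))))))))) (cs (rf (nat_lit 31)) (nd (nat_lit 206) (nat_lit 0) (cs (rf (nat_lit 22)) (cs (rf (nat_lit 2)) (rf (nat_lit 26))))))))))))))) q18898 (by decide +kernel)
def q19130 : Q := Q.p (nat_lit 0x2000000000010000070000000000000000000000000000000000000000000000) (nat_lit 0xe0001f80001fc0007e0000fc00188000ec0000380000e00003800008000000000000000000) (nat_lit 12)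
theorem c19130 : QOK q19130 := cut [q19094, q2663, q19097, q19120, q5882, q18617, q18846, q18646, q18919] ⟨c19094, c2663, c19097, c19120, c5882, c18617, c18846, c18646, c18919, trivial⟩ (nd (nat_lit 206) (nat_lit 0) (cs (rf (nat_lit 0)) (cs (nd (nat_lit 228) (nat_lit 0) (cs (rf (nat_lit 1)) (cs (rf (nat_lit 2)) (cs (rf (nat_lit 3)) (nd (nat_lit 251) (nat_lit 0) (cs (rf (nat_lit 4)) (cs (rf (nat_lit 5)) (nd (nat_lit 162) (nat_lit 0) (cs (lf (nat_lit 28) (nat_lit 162)) (nd (nat_lit 227) (nat_lit 0) (cs (lf (nat_lit 41) (nat_lit 161)) (nd (nat_lit 252) (nat_lit 0) (cs (lf (nat_lit 21) (nat_lit 227)) (nd (nat_lit 230) (nat_lit 0) (cs (lf (nat_lit 29) (nat_lit 186)) (nd (nat_lit 207) (nat_lit 0) (cs (lf (nat_lit 42) (nat_lit 185)) (rf (nat_lit 6))))))))))))))))))) (cs (nd (nat_lit 228) (nat_lit 0) (cs (rf (nat_lit 7)) (cs (rf (nat_lit 2)) (rf (nat_lit 3))))) (nd (nat_lit 205) (nat_lit 0) (cs (lf (nat_lit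 6) (nat_lit 183)) (rf (nat_lit 8)))))))) q19130 (by decide +kernel)
def q19274 : Q := Q.p (nat_lit 0x20000000000100000c0000000000000000000000000000000000000000000000) (nat_lit 0x8000014000050003e700073c001df8003fc000ff0007f800008000000000000000000) (nat_lit 17)
theorem c19274 : QOK q19274 := cut [q19165, q19161, q19168, q19170, q19172, q19178, q19180, q19184, q19265, q4748, q19269, q19273] ⟨c19165, c19161, c19168, c19170, c19172, c19178, c19180, c19184, c19265, c4748, c19269, c19273, trivial⟩ (nd (nat_lit 185) (nat_lit 0) (cs (rf (nat_lit 0)) (cs (nd (nat_lit 188) (nat_lit 0) (cs (rf (nat_lit 1)) (cs (rf (nat_lit 2)) (cs (rf (nat_lit 3)) (rf (nat_lit 4)))))) (cs (rf (nat_lit 5)) (cs (nd (nat_lit 188) (nat_lit 0) (cs (rf (nat_lit 1)) (cs (rf (nat_lit 2)) (cs (rf (nat_lit 4)) (cs (nd (nat_lit 210) (nat_lit 0) (cs (lf (nat_lit 5) (nat_lit 185)) (nd (nat_lit 166) (nat_lit 0) (cs (lf (nat_lit 17) (nat_lit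 163)) (nd (nat_lit 121) (nat_lit 0) (cs (nd (nat_lit 144) (nat_lit 0) (cs (lf (nat_lit 46) (nat_lit 121)) (rf (nat_lit 6)))) (cs (nd (nat_lit 184) (nat_lit 0) (cs (lf (nat_lit 4) (nat_lit 184)) (nd (nat_lit 205) (nat_lit 0) (cs (lf (nat_lit 10) (nat_lit 183)) (nd (nat_lit 183) (nat_lit 0) (cs (lf (nat_lit 11) (nat_lit 182)) (nd (nat_lit 160) (nat_lit 0) (cs (lf (nat_lit 22) (nat_lit 160)) (nd (nat_lit 182) (nat_lit 0) (cs (lf (nat_lit 23) (nat_lit 159)) (nd (nat_lit 116) (nat_lit 0) (cs (nd (nat_lit 164) (nat_lit 0) (cs (rf (nat_lit 7)) (lf (nat_lit 16) (nat_lit 160)))) (lf (nat_lit 25) (nat_lit 116)))))))))))))) (cs (nd (nat_lit 184) (nat_lit 0) (cs (lf (nat_lit 4) (nat_lit 184)) (nd (nat_lit 205) (nat_lit 0) (cs (lf (nat_lit 10) (nat_lit 183)) (nd (nat_lit 183) (nat_lit 0) (cs (lf (nat_lit 11) (nat_lit 182)) (nd (nat_lit 160) (nat_lit 0) (cs (lf (nat_lit 22) (nat_lit 160)) (nd (nat_lit 182) (nat_lit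 0) (cs (lf (nat_lit 23) (nat_lit 159)) (nd (nat_lit 164) (nat_lit 0) (cs (lf (nat_lit 16) (nat_lit 160)) (nd (nat_lit 143) (nat_lit 0) (cs (lf (nat_lit 33) (nat_lit 120)) (lf (nat_lit 45) (nat_lit 121)))))))))))))))) (rf (nat_lit 8)))))))))) (nd (nat_lit 252) (nat_lit 0) (cs (rf (nat_lit 9)) (rf (nat_lit 10))))))))) (rf (nat_lit 11))))))) q19274 (by decide +kernel)
def q19730 : Q := Q.p (nat_lit 0x100000c0000000000000000000000000000000000000000000000) (nat_lit 0x14000050001e7000738001ff0000380000e00003800008000000000000000000) (nat_lit 11)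
theorem c19730 : QOK q19730 := cut [q18900, q18911, q19155, q19165, q19178, q19273, q19729] ⟨c18900, c18911, c19155, c19165, c19178, c19273, c19729, trivial⟩ (nd (nat_lit 185) (nat_lit 0) (cs (nd (nat_lit 184) (nat_lit 0) (cs (nd (nat_lit 162) (nat_lit 0) (cs (lf (nat_lit 23) (nat_lit 161)) (rf (nat_lit 0)))) (cs (rf (nat_lit 1)) (rf (nat_lit 2))))) (cs (rf (nat_lit 3)) (cs (rf (nat_lit 4)) (cs (rf (nat_lit 5)) (rf (nat_lit 6))))))) q19730 (by decide +kernel)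
def q20184 : Q := Q.p (nat_lit 0x2000000000010000040000000000000000000000000000000000000000000000) (nat_lit 0x80000e00001c00017c000ee000f3c001ff800ffc001ff8002e800028000000000000000000) (nat_lit 17)
theorem c20184 : QOK q20184 := cut [q18451, q5534, q8581, q20094, q20098, q20101, q20108, q20113, q3044, q20118, q8616, q18159, q438, q20128, q20132, q18163, q20137, q20142, q8724, q20152, q20157, q493, q20161, q4806, q20056, q20164, q20165, q20178, q2868, q20183] ⟨c18451, c5534, c8581, c20094, c20098, c20101, c20108, c20113, c3044, c20118, c8616, c18159, c438, c20128, c20132, c18163, c20137, c20142, c8724, c20152, c20157, c493, c20161, c4806, c20056, c20164, c20165, c20178, c2868, c20183, trivial⟩ (nd (nat_lit 164) (nat_lit 0) (cs (rf (nat_lit 0)) (cs (nd (nat_lit 230) (nat_lit 0) (cs (rf (nat_lit 1)) (cs (rf (nat_lit 2)) (nd (nat_lit 165) (nat_lit 0) (cs (lf (nat_lit 35) (nat_lit 142)) (nd (nat_lit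 166) (nat_lit 0) (cs (rf (nat_lit 3)) (cs (rf (nat_lit 4)) (cs (nd (nat_lit 229) (nat_lit 0) (cs (lf (nat_lit 41) (nat_lit 163)) (nd (nat_lit 163) (nat_lit 0) (cs (lf (nat_lit 47) (nat_lit 141)) (nd (nat_lit 188) (nat_lit 0) (cs (lf (nat_lit 5) (nat_lit 163)) (nd (nat_lit 184) (nat_lit 0) (cs (lf (nat_lit 10) (nat_lit 162)) (nd (nat_lit 162) (nat_lit 0) (cs (lf (nat_lit 11) (nat_lit 161)) (rf (nat_lit 5)))))))))))) (cs (nd (nat_lit 141) (nat_lit 0) (cs (lf (nat_lit 46) (nat_lit 141)) (rf (nat_lit 6)))) (cs (rf (nat_lit 7)) (nd (nat_lit 229) (nat_lit 0) (cs (lf (nat_lit 41) (nat_lit 163)) (rf (nat_lit 8))))))))))))))) (cs (rf (nat_lit 9)) (cs (nd (nat_lit 230) (nat_lit 0) (cs (rf (nat_lit 1)) (cs (rf (nat_lit 10)) (cs (rf (nat_lit 11)) (nd (nat_lit 143) (nat_lit 0) (cs (lf (nat_lit 34) (nat_lit 142)) (nd (nat_lit 121) (nat_lit 0) (cs (rf (nat_lit 12)) (lf (nat_lit 33) (nat_lit 120)))))))))) (cs (rf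 (nat_lit 13)) (cs (rf (nat_lit 14)) (cs (nd (nat_lit 142) (nat_lit 0) (cs (rf (nat_lit 15)) (cs (rf (nat_lit 16)) (cs (rf (nat_lit 17)) (cs (nd (nat_lit 119) (nat_lit 0) (cs (lf (nat_lit 46) (nat_lit 119)) (nd (nat_lit 120) (nat_lit 0) (cs (lf (nat_lit 47) (nat_lit 97)) (nd (nat_lit 185) (nat_lit 0) (cs (lf (nat_lit 41) (nat_lit 119)) (nd (nat_lit 163) (nat_lit 0) (cs (lf (nat_lit 36) (nat_lit 97)) (rf (nat_lit 18)))))))))) (cs (rf (nat_lit 19)) (rf (nat_lit 20)))))))) (cs (nd (nat_lit 229) (nat_lit 0) (cs (nd (nat_lit 230) (nat_lit 0) (cs (lf (nat_lit 41) (nat_lit 163)) (nd (nat_lit 141) (nat_lit 0) (cs (lf (nat_lit 46) (nat_lit 141)) (rf (nat_lit 21)))))) (cs (nd (nat_lit 230) (nat_lit 0) (cs (lf (nat_lit 41) (nat_lit 163)) (nd (nat_lit 163) (nat_lit 0) (cs (lf (nat_lit 47) (nat_lit 141)) (rf (nat_lit 22)))))) (cs (nd (nat_lit 163) (nat_lit 0) (cs (rf (nat_lit 23)) (cs (rf (nat_lit 24)) (cs (nd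 (nat_lit 207) (nat_lit 0) (cs (lf (nat_lit 36) (nat_lit 141)) (nd (nat_lit 185) (nat_lit 0) (cs (rf (nat_lit 25)) (cs (rf (nat_lit 26)) (nd (nat_lit 228) (nat_lit 0) (cs (lf (nat_lit 41) (nat_lit 162)) (nd (nat_lit 226) (nat_lit 0) (cs (lf (nat_lit 13) (nat_lit 204)) (nd (nat_lit 230) (nat_lit 0) (cs (lf (nat_lit 42) (nat_lit 163)) (nd (nat_lit 162) (nat_lit 0) (cs (lf (nat_lit 47) (nat_lit 140)) (nd (nat_lit 161) (nat_lit 0) (cs (lf (nat_lit 0) (nat_lit 160)) (nd (nat_lit 139) (nat_lit 0) (cs (lf (nat_lit 23) (nat_lit 138)) (nd (nat_lit 183) (nat_lit 0) (cs (lf (nat_lit 11) (nat_lit 160)) (nd (nat_lit 206) (nat_lit 0) (cs (lf (nat_lit 27) (nat_lit 139)) (lf (nat_lit 44) (nat_lit 139))))))))))))))))))))))) (nd (nat_lit 142) (nat_lit 0) (cs (lf (nat_lit 40) (nat_lit 141)) (rf (nat_lit 27)))))))) (nd (nat_lit 207) (nat_lit 0) (cs (lf (nat_lit 36) (nat_lit 141)) (rf (nat_lit 28)))))))) (rf (nat_lit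 29))))))))))) q20184 (by decide +kernel)
def q20312 : Q := Q.p (nat_lit 0x2000000000010000040000000000000000000000000000000000000000000000) (nat_lit 0x280007e0001fe0007f8001ff0001f80077e001ef800fbe000f78000f80003e0000a000000000000000000000000) (nat_lit 15)
theorem c20312 : QOK q20312 := cut [q18284, q18253, q2623, q3764, q18255, q14184, q20189, q20194, q13606, q20253, q433, q20291, q11490, q18306, q530, q18355, q20282, q18307, q20260, q2412, q18710, q3503, q20296, q20297, q18297, q18865, q62, q20307, q1827] ⟨c18284, c18253, c2623, c3764, c18255, c14184, c20189, c20194, c13606, c20253, c433, c20291, c11490, c18306, c530, c18355, c20282, c18307, c20260, c2412, c18710, c3503, c20296, c20297, c18297, c18865, c62, c20307, c1827, trivial⟩ (nd (nat_lit 251) (nat_lit 0) (cs (rf (nat_lit 0)) (cs (nd (nat_lit 252) (nat_lit 0) (cs (rf (nat_lit 1)) (cs (nd (nat_lit 250) (nat_lit 0) (cs (rf (nat_lit 2)) (cs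 (rf (nat_lit 3)) (cs (rf (nat_lit 4)) (nd (nat_lit 272) (nat_lit 0) (cs (lf (nat_lit 11) (nat_lit 249)) (nd (nat_lit 294) (nat_lit 0) (cs (nd (nat_lit 275) (nat_lit 0) (cs (lf (nat_lit 5) (nat_lit 250)) (nd (nat_lit 316) (nat_lit 0) (cs (lf (nat_lit 35) (nat_lit 228)) (rf (nat_lit 5)))))) (cs (nd (nat_lit 228) (nat_lit 0) (cs (lf (nat_lit 23) (nat_lit 227)) (nd (nat_lit 275) (nat_lit 0) (cs (lf (nat_lit 5) (nat_lit 250)) (nd (nat_lit 293) (nat_lit 0) (cs (lf (nat_lit 41) (nat_lit 227)) (nd (nat_lit 295) (nat_lit 0) (cs (lf (nat_lit 29) (nat_lit 228)) (rf (nat_lit 6)))))))))) (cs (nd (nat_lit 228) (nat_lit 0) (cs (lf (nat_lit 23) (nat_lit 227)) (nd (nat_lit 275) (nat_lit 0) (cs (lf (nat_lit 5) (nat_lit 250)) (rf (nat_lit 7)))))) (nd (nat_lit 228) (nat_lit 0) (cs (lf (nat_lit 23) (nat_lit 227)) (rf (nat_lit 8)))))))))))))) (cs (rf (nat_lit 9)) (nd (nat_lit 230) (nat_lit 0) (cs (lf (nat_lit 29) (nat_lit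 186)) (rf (nat_lit 10)))))))) (cs (rf (nat_lit 11)) (cs (nd (nat_lit 207) (nat_lit 0) (cs (rf (nat_lit 12)) (cs (rf (nat_lit 13)) (cs (nd (nat_lit 206) (nat_lit 0) (cs (rf (nat_lit 14)) (cs (rf (nat_lit 15)) (cs (rf (nat_lit 16)) (nd (nat_lit 209) (nat_lit 0) (cs (rf (nat_lit 17)) (rf (nat_lit 18)))))))) (nd (nat_lit 206) (nat_lit 0) (cs (rf (nat_lit 14)) (cs (rf (nat_lit 15)) (cs (rf (nat_lit 16)) (nd (nat_lit 184) (nat_lit 0) (cs (rf (nat_lit 19)) (cs (rf (nat_lit 20)) (cs (nd (nat_lit 185) (nat_lit 0) (cs (rf (nat_lit 21)) (cs (rf (nat_lit 22)) (rf (nat_lit 23))))) (nd (nat_lit 228) (nat_lit 0) (cs (rf (nat_lit 24)) (cs (rf (nat_lit 25)) (nd (nat_lit 209) (nat_lit 0) (cs (lf (nat_lit 11) (nat_lit 205)) (nd (nat_lit 187) (nat_lit 0) (cs (lf (nat_lit 17) (nat_lit 184)) (nd (nat_lit 210) (nat_lit 0) (cs (rf (nat_lit 26)) (lf (nat_lit 22) (nat_lit 184))))))))))))))))))))))) (nd (nat_lit 229) (nat_lit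 0) (cs (nd (nat_lit 164) (nat_lit 0) (cs (lf (nat_lit 39) (nat_lit 163)) (nd (nat_lit 207) (nat_lit 0) (cs (lf (nat_lit 36) (nat_lit 141)) (lf (nat_lit 33) (nat_lit 163)))))) (cs (rf (nat_lit 27)) (cs (nd (nat_lit 207) (nat_lit 0) (cs (lf (nat_lit 30) (nat_lit 185)) (rf (nat_lit 28)))) (nd (nat_lit 273) (nat_lit 0) (cs (lf (nat_lit 33) (nat_lit 185)) (nd (nat_lit 230) (nat_lit 0) (cs (lf (nat_lit 30) (nat_lit 207)) (lf (nat_lit 39) (nat_lit 185))))))))))))))) q20312 (by decide +kernel)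
def q20541 : Q := Q.p (nat_lit 0x2000000000010000060000000000000000000000000000000000000000000000) (nat_lit 0x1f80001e00003c000ef80001c000ff8003fc0003f00001000000000000000000000000) (nat_lit 17)
theorem c20541 : QOK q20541 := cut [q20316, q20475, q3927, q20387, q3313, q4774, q20478, q3507, q3606, q20497, q5818, q20442, q20449, q20455, q5835, q16253, q20515, q20517, q20521, q3565, q4753, q3126, q5938, q5376, q11077, q20537, q20528, q20539] ⟨c20316, c20475, c3927, c20387, c3313, c4774, c20478, c3507, c3606, c20497, c5818, c20442, c20449, c20455, c5835, c16253, c20515, c20517, c20521, c3565, c4753, c3126, c5938, c5376, c11077, c20537, c20528, c20539, trivial⟩ (nd (nat_lit 207) (nat_lit 0) (cs (rf (nat_lit 0)) (cs (rf (nat_lit 1)) (cs (nd (nat_lit 206) (nat_lit 0) (cs (rf (nat_lit 2)) (cs (rf (nat_lit 3)) (cs (nd (nat_lit 184) (nat_lit 0) (cs (rf (nat_lit 4)) (cs (rf (nat_lit 5)) (rf (nat_lit 6)))))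 (cs (nd (nat_lit 205) (nat_lit 0) (cs (lf (nat_lit 12) (nat_lit 182)) (nd (nat_lit 183) (nat_lit 0) (cs (lf (nat_lit 23) (nat_lit 182)) (nd (nat_lit 184) (nat_lit 0) (cs (lf (nat_lit 18) (nat_lit 183)) (nd (nat_lit 160) (nat_lit 0) (cs (lf (nat_lit 22) (nat_lit 160)) (nd (nat_lit 164) (nat_lit 0) (cs (lf (nat_lit 17) (nat_lit 161)) (nd (nat_lit 142) (nat_lit 0) (cs (lf (nat_lit 36) (nat_lit 119)) (nd (nat_lit 121) (nat_lit 0) (cs (lf (nat_lit 34) (nat_lit 120)) (nd (nat_lit 141) (nat_lit 0) (cs (lf (nat_lit 47) (nat_lit 119)) (nd (nat_lit 163) (nat_lit 0) (cs (lf (nat_lit 41) (nat_lit 140)) (nd (nat_lit 140) (nat_lit 0) (cs (lf (nat_lit 47) (nat_lit 118)) (nd (nat_lit 139) (nat_lit 0) (cs (lf (nat_lit 0) (nat_lit 138)) (nd (nat_lit 117) (nat_lit 0) (cs (lf (nat_lit 23) (nat_lit 116)) (lf (nat_lit 44) (nat_lit 117)))))))))))))))))))))))))) (cs (nd (nat_lit 184) (nat_lit 0) (cs (rf (nat_lit 7)) (cs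 (rf (nat_lit 8)) (cs (rf (nat_lit 6)) (nd (nat_lit 183) (nat_lit 0) (cs (lf (nat_lit 0) (nat_lit 182)) (nd (nat_lit 204) (nat_lit 0) (cs (lf (nat_lit 13) (nat_lit 182)) (nd (nat_lit 160) (nat_lit 0) (cs (lf (nat_lit 22) (nat_lit 160)) (nd (nat_lit 164) (nat_lit 0) (cs (lf (nat_lit 17) (nat_lit 161)) (rf (nat_lit 9)))))))))))))) (nd (nat_lit 205) (nat_lit 0) (cs (lf (nat_lit 12) (nat_lit 182)) (nd (nat_lit 183) (nat_lit 0) (cs (lf (nat_lit 23) (nat_lit 182)) (nd (nat_lit 226) (nat_lit 0) (cs (lf (nat_lit 10) (nat_lit 204)) (nd (nat_lit 184) (nat_lit 0) (cs (lf (nat_lit 5) (nat_lit 183)) (nd (nat_lit 164) (nat_lit 0) (cs (lf (nat_lit 17) (nat_lit 161)) (nd (nat_lit 120) (nat_lit 0) (cs (lf (nat_lit 37) (nat_lit 119)) (nd (nat_lit 161) (nat_lit 0) (cs (lf (nat_lit 23) (nat_lit 160)) (nd (nat_lit 139) (nat_lit 0) (cs (lf (nat_lit 24) (nat_lit 117)) (nd (nat_lit 140) (nat_lit 0) (cs (lf (nat_lit 35)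 (nat_lit 117)) (nd (nat_lit 138) (nat_lit 0) (cs (lf (nat_lit 47) (nat_lit 116)) (nd (nat_lit 141) (nat_lit 0) (cs (lf (nat_lit 16) (nat_lit 116)) (lf (nat_lit 4) (nat_lit 138)))))))))))))))))))))))))))))) (cs (nd (nat_lit 163) (nat_lit 0) (cs (rf (nat_lit 10)) (cs (rf (nat_lit 11)) (cs (rf (nat_lit 12)) (cs (rf (nat_lit 13)) (cs (nd (nat_lit 164) (nat_lit 0) (cs (rf (nat_lit 14)) (cs (rf (nat_lit 15)) (rf (nat_lit 16))))) (rf (nat_lit 17)))))))) (cs (rf (nat_lit 18)) (cs (nd (nat_lit 184) (nat_lit 0) (cs (rf (nat_lit 19)) (cs (rf (nat_lit 20)) (nd (nat_lit 229) (nat_lit 0) (cs (rf (nat_lit 21)) (cs (rf (nat_lit 22)) (nd (nat_lit 228) (nat_lit 0) (cs (rf (nat_lit 23)) (rf (nat_lit 24)))))))))) (cs (rf (nat_lit 25)) (nd (nat_lit 163) (nat_lit 0) (cs (rf (nat_lit 10)) (cs (rf (nat_lit 11)) (cs (rf (nat_lit 12)) (cs (rf (nat_lit 26)) (rf (nat_lit 27))))))))))))))) q20541 (by decide +kernel)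
def q20718 : Q := Q.p (nat_lit 0x2000000000010000060000000000000000000000000000000000000000000000) (nat_lit 0x1f80001e00013c000cf80039c001ff800ffc001fe000380000e0000280000000000000) (nat_lit 15)
theorem c20718 : QOK q20718 := cut [q20456, q20521, q3500, q20671, q3503, q3507, q19094, q419, q585, q2147, q20676, q19155, q20295, q3575, q90, q3126, q5805, q20683, q20424, q16668, q18416, q20402, q20416, q20686, q20690, q1916, q18875, q20497, q3129, q3486] ⟨c20456, c20521, c3500, c20671, c3503, c3507, c19094, c419, c585, c2147, c20676, c19155, c20295, c3575, c90, c3126, c5805, c20683, c20424, c16668, c18416, c20402, c20416, c20686, c20690, c1916, c18875, c20497, c3129, c3486, trivial⟩ (nd (nat_lit 207) (nat_lit 0) (cs (rf (nat_lit 0)) (cs (rf (nat_lit 1)) (cs (nd (nat_lit 184) (nat_lit 0) (cs (rf (nat_lit 2)) (cs (rf (nat_lit 3)) (nd (nat_lit 206) (nat_lit 0) (cs (rf (nat_lit 4)) (cs (rf (nat_lit 5)) (rf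 (nat_lit 6)))))))) (cs (nd (nat_lit 187) (nat_lit 0) (cs (rf (nat_lit 7)) (cs (rf (nat_lit 8)) (nd (nat_lit 184) (nat_lit 0) (cs (rf (nat_lit 9)) (rf (nat_lit 10))))))) (cs (nd (nat_lit 187) (nat_lit 0) (cs (rf (nat_lit 7)) (cs (rf (nat_lit 8)) (nd (nat_lit 184) (nat_lit 0) (cs (rf (nat_lit 11)) (cs (rf (nat_lit 12)) (nd (nat_lit 206) (nat_lit 0) (cs (lf (nat_lit 12) (nat_lit 183)) (rf (nat_lit 13)))))))))) (cs (nd (nat_lit 229) (nat_lit 0) (cs (rf (nat_lit 14)) (cs (rf (nat_lit 15)) (nd (nat_lit 141) (nat_lit 0) (cs (nd (nat_lit 142) (nat_lit 0) (cs (lf (nat_lit 37) (nat_lit 141)) (rf (nat_lit 16)))) (cs (nd (nat_lit 163) (nat_lit 0) (cs (lf (nat_lit 24) (nat_lit 119)) (rf (nat_lit 17)))) (cs (nd (nat_lit 187) (nat_lit 0) (cs (rf (nat_lit 7)) (cs (rf (nat_lit 8)) (nd (nat_lit 142) (nat_lit 0) (cs (lf (nat_lit 37) (nat_lit 141)) (nd (nat_lit 143) (nat_lit 0) (cs (nd (nat_lit 121) (nat_lit 0) (cs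 (lf (nat_lit 38) (nat_lit 120)) (rf (nat_lit 18)))) (cs (nd (nat_lit 144) (nat_lit 0) (cs (rf (nat_lit 19)) (cs (rf (nat_lit 20)) (rf (nat_lit 21))))) (cs (nd (nat_lit 144) (nat_lit 0) (cs (rf (nat_lit 22)) (cs (nd (nat_lit 205) (nat_lit 0) (cs (lf (nat_lit 13) (nat_lit 183)) (rf (nat_lit 23)))) (nd (nat_lit 122) (nat_lit 0) (cs (lf (nat_lit 17) (nat_lit 119)) (nd (nat_lit 121) (nat_lit 0) (cs (lf (nat_lit 12) (nat_lit 118)) (nd (nat_lit 205) (nat_lit 0) (cs (lf (nat_lit 13) (nat_lit 183)) (rf (nat_lit 24))))))))))) (nd (nat_lit 205) (nat_lit 0) (cs (lf (nat_lit 13) (nat_lit 183)) (nd (nat_lit 165) (nat_lit 0) (cs (lf (nat_lit 36) (nat_lit 120)) (nd (nat_lit 166) (nat_lit 0) (cs (lf (nat_lit 12) (nat_lit 162)) (nd (nat_lit 167) (nat_lit 0) (cs (lf (nat_lit 6) (nat_lit 164)) (lf (nat_lit 3) (nat_lit 141))))))))))))))))))) (nd (nat_lit 142) (nat_lit 0) (cs (lf (nat_lit 37) (nat_lit 141)) (nd (nat_lit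 163) (nat_lit 0) (cs (lf (nat_lit 35) (nat_lit 119)) (rf (nat_lit 17))))))))))))) (cs (nd (nat_lit 187) (nat_lit 0) (cs (rf (nat_lit 7)) (cs (rf (nat_lit 8)) (nd (nat_lit 184) (nat_lit 0) (cs (rf (nat_lit 11)) (cs (rf (nat_lit 12)) (nd (nat_lit 164) (nat_lit 0) (cs (rf (nat_lit 25)) (cs (nd (nat_lit 206) (nat_lit 0) (cs (lf (nat_lit 12) (nat_lit 183)) (nd (nat_lit 165) (nat_lit 0) (cs (lf (nat_lit 17) (nat_lit 162)) (nd (nat_lit 143) (nat_lit 0) (cs (lf (nat_lit 36) (nat_lit 120)) (nd (nat_lit 162) (nat_lit 0) (cs (lf (nat_lit 23) (nat_lit 161)) (nd (nat_lit 229) (nat_lit 0) (cs (lf (nat_lit 30) (nat_lit 163)) (nd (nat_lit 163) (nat_lit 0) (cs (lf (nat_lit 17) (nat_lit 140)) (rf (nat_lit 26)))))))))))))) (nd (nat_lit 206) (nat_lit 0) (cs (lf (nat_lit 11) (nat_lit 183)) (rf (nat_lit 27))))))))))))) (nd (nat_lit 229) (nat_lit 0) (cs (rf (nat_lit 14)) (cs (rf (nat_lit 15)) (nd (nat_lit 163) (nat_lit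 0) (cs (rf (nat_lit 28)) (rf (nat_lit 29))))))))))))))) q20718 (by decide +kernel)
def q20813 : Q := Q.p (nat_lit 0x20000000000100000c0000000000000000000000000000000000000000000000) (nat_lit 0x80000e000198000760003ee000700003fe0007c0000f00003e0000380000a0000000000000) (nat_lit 12)
theorem c20813 : QOK q20813 := cut [q7417, q19829, q18159, q19746, q20791, q20025, q8348, q20796, q18394, q19971, q20045, q20798, q20808, q6859] ⟨c7417, c19829, c18159, c19746, c20791, c20025, c8348, c20796, c18394, c19971, c20045, c20798, c20808, c6859, trivial⟩ (nd (nat_lit 230) (nat_lit 0) (cs (rf (nat_lit 0)) (cs (rf (nat_lit 1)) (nd (nat_lit 164) (nat_lit 0) (cs (rf (nat_lit 2)) (cs (rf (nat_lit 3)) (cs (rf (nat_lit 4)) (cs (nd (nat_lit 229) (nat_lit 0) (cs (lf (nat_lit 41) (nat_lit 163)) (nd (nat_lit 165) (nat_lit 0) (cs (rf (nat_lit 5)) (nd (nat_lit 166) (nat_lit 0) (cs (rf (nat_lit 6)) (cs (rf (nat_lit 7)) (cs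 (nd (nat_lit 188) (nat_lit 0) (cs (rf (nat_lit 8)) (cs (rf (nat_lit 9)) (rf (nat_lit 10))))) (cs (nd (nat_lit 167) (nat_lit 0) (cs (lf (nat_lit 6) (nat_lit 164)) (nd (nat_lit 145) (nat_lit 0) (cs (lf (nat_lit 17) (nat_lit 142)) (rf (nat_lit 11)))))) (nd (nat_lit 167) (nat_lit 0) (cs (lf (nat_lit 6) (nat_lit 164)) (nd (nat_lit 189) (nat_lit 0) (cs (lf (nat_lit 5) (nat_lit 164)) (nd (nat_lit 188) (nat_lit 0) (cs (lf (nat_lit 11) (nat_lit 185)) (lf (nat_lit 23) (nat_lit 163))))))))))))))))) (cs (rf (nat_lit 12)) (nd (nat_lit 143) (nat_lit 0) (cs (lf (nat_lit 34) (nat_lit 142)) (nd (nat_lit 229) (nat_lit 0) (cs (lf (nat_lit 41) (nat_lit 163)) (nd (nat_lit 207) (nat_lit 0) (cs (lf (nat_lit 36) (nat_lit 141)) (rf (nat_lit 13))))))))))))))))) q20813 (by decide +kernel)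
def q21102 : Q := Q.p (nat_lit 0x2000000000010000040000000000000000000000000000000000000000000000) (nat_lit 0x40000f00009f80037c001ef800fbe003ff8007be001ee00020800000000000000000000000) (nat_lit 17)
theorem c21102 : QOK q21102 := cut [q21, q435, q500, q18160, q18179, q8576, q4772, q18911, q18931, q18463, q19272, q21032, q6513, q21041, q21045, q21047, q21051, q9201, q21056, q3199, q6125, q20095, q2890, q20096, q21073, q21078, q459, q5673, q5668, q20101, q6121, q6126, q20777, q21094, q7193, q20786] ⟨c21, c435, c500, c18160, c18179, c8576, c4772, c18911, c18931, c18463, c19272, c21032, c6513, c21041, c21045, c21047, c21051, c9201, c21056, c3199, c6125, c20095, c2890, c20096, c21073, c21078, c459, c5673, c5668, c20101, c6121, c6126, c20777, c21094, c7193, c20786, trivial⟩ (nd (nat_lit 230) (nat_lit 0) (cs (rf (nat_lit 0)) (cs (rf (nat_lit 1)) (cs (rf (nat_lit 2)) (cs (rf (nat_lit 3)) (nd (nat_lit 163)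 (nat_lit 0) (cs (nd (nat_lit 141) (nat_lit 0) (cs (lf (nat_lit 45) (nat_lit 141)) (nd (nat_lit 185) (nat_lit 0) (cs (lf (nat_lit 24) (nat_lit 119)) (lf (nat_lit 27) (nat_lit 141)))))) (cs (nd (nat_lit 164) (nat_lit 0) (cs (lf (nat_lit 47) (nat_lit 141)) (rf (nat_lit 4)))) (cs (nd (nat_lit 185) (nat_lit 0) (cs (rf (nat_lit 5)) (nd (nat_lit 184) (nat_lit 0) (cs (rf (nat_lit 6)) (cs (rf (nat_lit 7)) (cs (rf (nat_lit 8)) (nd (nat_lit 187) (nat_lit 0) (cs (rf (nat_lit 9)) (rf (nat_lit 10)))))))))) (cs (nd (nat_lit 165) (nat_lit 0) (cs (nd (nat_lit 143) (nat_lit 0) (cs (lf (nat_lit 33) (nat_lit 142)) (nd (nat_lit 187) (nat_lit 0) (cs (lf (nat_lit 36) (nat_lit 120)) (lf (nat_lit 39) (nat_lit 142)))))) (cs (nd (nat_lit 164) (nat_lit 0) (cs (lf (nat_lit 35) (nat_lit 142)) (rf (nat_lit 11)))) (cs (nd (nat_lit 187) (nat_lit 0) (cs (rf (nat_lit 12)) (cs (nd (nat_lit 188) (nat_lit 0) (cs (nd (nat_lit 121) (nat_lit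 0) (cs (lf (nat_lit 37) (nat_lit 120)) (rf (nat_lit 13)))) (cs (rf (nat_lit 14)) (nd (nat_lit 121) (nat_lit 0) (cs (lf (nat_lit 37) (nat_lit 120)) (rf (nat_lit 15))))))) (nd (nat_lit 185) (nat_lit 0) (cs (rf (nat_lit 16)) (nd (nat_lit 184) (nat_lit 0) (cs (lf (nat_lit 17) (nat_lit 162)) (rf (nat_lit 17))))))))) (cs (nd (nat_lit 164) (nat_lit 0) (cs (rf (nat_lit 11)) (cs (nd (nat_lit 166) (nat_lit 0) (cs (rf (nat_lit 18)) (cs (nd (nat_lit 229) (nat_lit 0) (cs (lf (nat_lit 41) (nat_lit 163)) (rf (nat_lit 19)))) (cs (nd (nat_lit 229) (nat_lit 0) (cs (lf (nat_lit 41) (nat_lit 163)) (rf (nat_lit 20)))) (nd (nat_lit 145) (nat_lit 0) (cs (lf (nat_lit 16) (nat_lit 141)) (nd (nat_lit 229) (nat_lit 0) (cs (lf (nat_lit 41) (nat_lit 163)) (rf (nat_lit 21)))))))))) (cs (nd (nat_lit 229) (nat_lit 0) (cs (lf (nat_lit 41) (nat_lit 163)) (nd (nat_lit 166) (nat_lit 0) (cs (rf (nat_lit 22)) (cs (rf (nat_lit 23)) (rf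 (nat_lit 24))))))) (cs (rf (nat_lit 25)) (cs (nd (nat_lit 229) (nat_lit 0) (cs (lf (nat_lit 41) (nat_lit 163)) (nd (nat_lit 162) (nat_lit 0) (cs (rf (nat_lit 26)) (cs (rf (nat_lit 27)) (nd (nat_lit 184) (nat_lit 0) (cs (lf (nat_lit 11) (nat_lit 161)) (nd (nat_lit 187) (nat_lit 0) (cs (lf (nat_lit 5) (nat_lit 162)) (rf (nat_lit 28))))))))))) (cs (nd (nat_lit 166) (nat_lit 0) (cs (rf (nat_lit 22)) (cs (rf (nat_lit 19)) (nd (nat_lit 229) (nat_lit 0) (cs (lf (nat_lit 41) (nat_lit 163)) (nd (nat_lit 184) (nat_lit 0) (cs (lf (nat_lit 10) (nat_lit 162)) (nd (nat_lit 188) (nat_lit 0) (cs (lf (nat_lit 5) (nat_lit 163)) (nd (nat_lit 162) (nat_lit 0) (cs (lf (nat_lit 4) (nat_lit 162)) (rf (nat_lit 29))))))))))))) (cs (nd (nat_lit 184) (nat_lit 0) (cs (nd (nat_lit 229) (nat_lit 0) (cs (lf (nat_lit 41) (nat_lit 163)) (rf (nat_lit 30)))) (cs (nd (nat_lit 229) (nat_lit 0) (cs (lf (nat_lit 41) (nat_lit 163)) (rf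 (nat_lit 31)))) (nd (nat_lit 185) (nat_lit 0) (cs (lf (nat_lit 12) (nat_lit 161)) (lf (nat_lit 6) (nat_lit 162))))))) (nd (nat_lit 166) (nat_lit 0) (cs (rf (nat_lit 20)) (cs (rf (nat_lit 32)) (rf (nat_lit 33))))))))))))) (nd (nat_lit 187) (nat_lit 0) (cs (rf (nat_lit 34)) (nd (nat_lit 188) (nat_lit 0) (cs (rf (nat_lit 13)) (cs (rf (nat_lit 14)) (rf (nat_lit 15)))))))))))) (nd (nat_lit 164) (nat_lit 0) (cs (lf (nat_lit 47) (nat_lit 141)) (rf (nat_lit 35)))))))))))))) q21102 (by decide +kernel)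
def q21325 : Q := Q.p (nat_lit 0x2000000000010000040000000000000000000000000000000000000000000000) (nat_lit 0x280007e0001fe0007f8001ff0001f80077f001ef800fbf001ff80077e0003f0000e000020000000000000000000) (nat_lit 18)
theorem c21325 : QOK q21325 := cut [q530, q18355, q20282, q18709, q20262, q20265, q1133, q20663, q21131, q21161, q1824, q18184, q3817, q6902, q5397, q4265, q21162, q21222, q2412, q18710, q3500, q20296, q20468, q18847, q6730, q643, q21259, q21306, q1828, q18751, q18297, q1066, q3930, q7417, q5418] ⟨c530, c18355, c20282, c18709, c20262, c20265, c1133, c20663, c21131, c21161, c1824, c18184, c3817, c6902, c5397, c4265, c21162, c21222, c2412, c18710, c3500, c20296, c20468, c18847, c6730, c643, c21259, c21306, c1828, c18751, c18297, c1066, c3930, c7417, c5418, trivial⟩ (nd (nat_lit 207) (nat_lit 0) (cs (nd (nat_lit 206) (nat_lit 0) (cs (rf (nat_lit 0)) (cs (rf (nat_lit 1)) (cs (rf (nat_lit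 2)) (nd (nat_lit 209) (nat_lit 0) (cs (rf (nat_lit 3)) (cs (rf (nat_lit 4)) (cs (rf (nat_lit 5)) (nd (nat_lit 184) (nat_lit 0) (cs (lf (nat_lit 23) (nat_lit 183)) (nd (nat_lit 185) (nat_lit 0) (cs (rf (nat_lit 6)) (rf (nat_lit 7)))))))))))))) (cs (rf (nat_lit 8)) (cs (rf (nat_lit 9)) (cs (nd (nat_lit 230) (nat_lit 0) (cs (rf (nat_lit 10)) (cs (rf (nat_lit 11)) (nd (nat_lit 164) (nat_lit 0) (cs (rf (nat_lit 12)) (cs (rf (nat_lit 13)) (nd (nat_lit 163) (nat_lit 0) (cs (lf (nat_lit 47) (nat_lit 141)) (nd (nat_lit 229) (nat_lit 0) (cs (rf (nat_lit 14)) (nd (nat_lit 228) (nat_lit 0) (cs (rf (nat_lit 15)) (rf (nat_lit 16)))))))))))))) (cs (rf (nat_lit 17)) (cs (nd (nat_lit 206) (nat_lit 0) (cs (rf (nat_lit 0)) (cs (rf (nat_lit 1)) (cs (rf (nat_lit 2)) (nd (nat_lit 184) (nat_lit 0) (cs (rf (nat_lit 18)) (cs (rf (nat_lit 19)) (cs (nd (nat_lit 185) (nat_lit 0) (cs (rf (nat_lit 20)) (cs (rf (nat_lit 21))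 (rf (nat_lit 7))))) (nd (nat_lit 185) (nat_lit 0) (cs (rf (nat_lit 22)) (cs (rf (nat_lit 7)) (nd (nat_lit 252) (nat_lit 0) (cs (rf (nat_lit 23)) (cs (nd (nat_lit 209) (nat_lit 0) (cs (lf (nat_lit 18) (nat_lit 184)) (nd (nat_lit 228) (nat_lit 0) (cs (lf (nat_lit 11) (nat_lit 205)) (nd (nat_lit 250) (nat_lit 0) (cs (lf (nat_lit 30) (nat_lit 184)) (nd (nat_lit 249) (nat_lit 0) (cs (lf (nat_lit 41) (nat_lit 183)) (nd (nat_lit 251) (nat_lit 0) (cs (lf (nat_lit 29) (nat_lit 184)) (rf (nat_lit 24)))))))))))) (nd (nat_lit 209) (nat_lit 0) (cs (lf (nat_lit 18) (nat_lit 184)) (nd (nat_lit 227) (nat_lit 0) (cs (lf (nat_lit 10) (nat_lit 205)) (nd (nat_lit 187) (nat_lit 0) (cs (lf (nat_lit 17) (nat_lit 184)) (rf (nat_lit 25)))))))))))))))))))))) (cs (rf (nat_lit 26)) (cs (rf (nat_lit 27)) (nd (nat_lit 206) (nat_lit 0) (cs (rf (nat_lit 0)) (cs (rf (nat_lit 1)) (cs (rf (nat_lit 2)) (nd (nat_lit 229) (nat_lit 0)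 (cs (rf (nat_lit 28)) (cs (rf (nat_lit 29)) (nd (nat_lit 228) (nat_lit 0) (cs (rf (nat_lit 30)) (cs (nd (nat_lit 227) (nat_lit 0) (cs (lf (nat_lit 12) (nat_lit 204)) (nd (nat_lit 230) (nat_lit 0) (cs (lf (nat_lit 4) (nat_lit 227)) (nd (nat_lit 249) (nat_lit 0) (cs (lf (nat_lit 11) (nat_lit 226)) (nd (nat_lit 271) (nat_lit 0) (cs (lf (nat_lit 30) (nat_lit 205)) (nd (nat_lit 250) (nat_lit 0) (cs (rf (nat_lit 31)) (lf (nat_lit 36) (nat_lit 183)))))))))))) (nd (nat_lit 163) (nat_lit 0) (cs (rf (nat_lit 32)) (cs (nd (nat_lit 164) (nat_lit 0) (cs (lf (nat_lit 36) (nat_lit 141)) (nd (nat_lit 209) (nat_lit 0) (cs (lf (nat_lit 6) (nat_lit 206)) (nd (nat_lit 187) (nat_lit 0) (cs (lf (nat_lit 17) (nat_lit 184)) (nd (nat_lit 183) (nat_lit 0) (cs (lf (nat_lit 22) (nat_lit 183)) (nd (nat_lit 230) (nat_lit 0) (cs (lf (nat_lit 47) (nat_lit 141)) (rf (nat_lit 33)))))))))))) (nd (nat_lit 209) (nat_lit 0) (cs (lf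 (nat_lit 6) (nat_lit 206)) (nd (nat_lit 142) (nat_lit 0) (cs (lf (nat_lit 37) (nat_lit 141)) (nd (nat_lit 184) (nat_lit 0) (cs (lf (nat_lit 23) (nat_lit 183)) (nd (nat_lit 187) (nat_lit 0) (cs (lf (nat_lit 17) (nat_lit 184)) (rf (nat_lit 34)))))))))))))))))))))))))))))))) q21325 (by decide +kernel)
def q21392 : Q := Q.p (nat_lit 0x10000040000000000000000000000000000000000000000000000) (nat_lit 0x200000800077e001ef000fbe007ff801ffc007ff8003e8000fa0002a0000000000000) (nat_lit 16)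
theorem c21392 : QOK q21392 := cut [q18446, q20118, q20183, q21361, q4929, q6854, q18163, q18388, q20284, q524, q6855, q21364, q530, q18355, q20282, q20262, q20265, q20273, q21365, q8367, q18709, q864, q18166, q20131, q21388, q18450, q18380] ⟨c18446, c20118, c20183, c21361, c4929, c6854, c18163, c18388, c20284, c524, c6855, c21364, c530, c18355, c20282, c20262, c20265, c20273, c21365, c8367, c18709, c864, c18166, c20131, c21388, c18450, c18380, trivial⟩ (nd (nat_lit 164) (nat_lit 0) (cs (rf (nat_lit 0)) (cs (rf (nat_lit 1)) (cs (rf (nat_lit 2)) (cs (rf (nat_lit 3)) (cs (nd (nat_lit 142) (nat_lit 0) (cs (rf (nat_lit 4)) (cs (rf (nat_lit 5)) (cs (rf (nat_lit 6)) (cs (rf (nat_lit 7)) (rf (nat_lit 8))))))) (cs (nd (nat_lit 207) (nat_lit 0) (cs (rf (nat_lit 9)) (cs (rf (nat_lit 10)) (cs (nd (nat_lit 165) (nat_lit 0) (cs (rf (nat_lit 11)) (nd (nat_lit 206) (nat_lit 0) (cs (rf (nat_lit 12)) (cs (rf (nat_lit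 13)) (cs (rf (nat_lit 14)) (nd (nat_lit 209) (nat_lit 0) (cs (rf (nat_lit 15)) (cs (rf (nat_lit 16)) (cs (rf (nat_lit 17)) (cs (nd (nat_lit 184) (nat_lit 0) (cs (lf (nat_lit 23) (nat_lit 183)) (nd (nat_lit 227) (nat_lit 0) (cs (lf (nat_lit 10) (nat_lit 205)) (nd (nat_lit 187) (nat_lit 0) (cs (lf (nat_lit 17) (nat_lit 184)) (rf (nat_lit 18)))))))) (nd (nat_lit 184) (nat_lit 0) (cs (lf (nat_lit 23) (nat_lit 183)) (nd (nat_lit 187) (nat_lit 0) (cs (lf (nat_lit 17) (nat_lit 184)) (rf (nat_lit 19))))))))))))))))) (nd (nat_lit 206) (nat_lit 0) (cs (rf (nat_lit 12)) (cs (rf (nat_lit 13)) (cs (rf (nat_lit 14)) (nd (nat_lit 209) (nat_lit 0) (cs (rf (nat_lit 20)) (cs (rf (nat_lit 15)) (cs (rf (nat_lit 16)) (nd (nat_lit 184) (nat_lit 0) (cs (lf (nat_lit 23) (nat_lit 183)) (nd (nat_lit 162) (nat_lit 0) (cs (nd (nat_lit 187) (nat_lit 0) (cs (lf (nat_lit 17) (nat_lit 184)) (nd (nat_lit 161) (nat_lit 0) (cs (lf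 (nat_lit 20) (nat_lit 161)) (lf (nat_lit 2) (nat_lit 161)))))) (cs (nd (nat_lit 227) (nat_lit 0) (cs (lf (nat_lit 10) (nat_lit 205)) (rf (nat_lit 21)))) (nd (nat_lit 227) (nat_lit 0) (cs (lf (nat_lit 10) (nat_lit 205)) (nd (nat_lit 187) (nat_lit 0) (cs (lf (nat_lit 17) (nat_lit 184)) (nd (nat_lit 161) (nat_lit 0) (cs (lf (nat_lit 2) (nat_lit 161)) (nd (nat_lit 229) (nat_lit 0) (cs (lf (nat_lit 24) (nat_lit 140)) (nd (nat_lit 251) (nat_lit 0) (cs (lf (nat_lit 42) (nat_lit 184)) (lf (nat_lit 39) (nat_lit 163))))))))))))))))))))))))))))) (cs (nd (nat_lit 142) (nat_lit 0) (cs (rf (nat_lit 4)) (cs (rf (nat_lit 22)) (cs (rf (nat_lit 23)) (rf (nat_lit 24)))))) (cs (nd (nat_lit 142) (nat_lit 0) (cs (rf (nat_lit 7)) (cs (rf (nat_lit 25)) (rf (nat_lit 24))))) (nd (nat_lit 142) (nat_lit 0) (cs (rf (nat_lit 22)) (cs (rf (nat_lit 26)) (cs (rf (nat_lit 25)) (rf (nat_lit 8))))))))))))))) q21392 (by decide +kernel)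
def q21724 : Q := Q.p (nat_lit 0x2000000000010000040000000000000000000000000000000000000000000000) (nat_lit 0xa0001fc0001f80007e003efc007be001dfc003fe0007f8000fc0002f000000000000000000) (nat_lit 17)
theorem c21724 : QOK q21724 := cut [q20672, q21470, q21495, q21528, q4753, q4772, q4774, q20671, q20658, q20660, q20667, q21554, q9723, q18722, q19176, q21545, q18910, q21529, q21538, q21541, q21543, q1173, q21559, q1177, q21566, q21576, q21603, q21668, q19091, q20664, q21698, q3803, q21530, q21723] ⟨c20672, c21470, c21495, c21528, c4753, c4772, c4774, c20671, c20658, c20660, c20667, c21554, c9723, c18722, c19176, c21545, c18910, c21529, c21538, c21541, c21543, c1173, c21559, c1177, c21566, c21576, c21603, c21668, c19091, c20664, c21698, c3803, c21530, c21723, trivial⟩ (nd (nat_lit 185) (nat_lit 0) (cs (rf (nat_lit 0)) (cs (rf (nat_lit 1)) (cs (rf (nat_lit 2)) (cs (rf (nat_lit 3)) (cs (nd (nat_lit 184)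 (nat_lit 0) (cs (rf (nat_lit 4)) (cs (rf (nat_lit 5)) (cs (rf (nat_lit 6)) (cs (rf (nat_lit 7)) (nd (nat_lit 206) (nat_lit 0) (cs (rf (nat_lit 8)) (cs (rf (nat_lit 9)) (cs (rf (nat_lit 10)) (cs (rf (nat_lit 11)) (nd (nat_lit 187) (nat_lit 0) (cs (rf (nat_lit 12)) (cs (rf (nat_lit 13)) (rf (nat_lit 14))))))))))))))) (cs (nd (nat_lit 230) (nat_lit 0) (cs (rf (nat_lit 15)) (cs (nd (nat_lit 209) (nat_lit 0) (cs (nd (nat_lit 184) (nat_lit 0) (cs (lf (nat_lit 0) (nat_lit 183)) (rf (nat_lit 16)))) (cs (nd (nat_lit 164) (nat_lit 0) (cs (rf (nat_lit 17)) (cs (rf (nat_lit 18)) (cs (rf (nat_lit 19)) (cs (rf (nat_lit 20)) (nd (nat_lit 163) (nat_lit 0) (cs (rf (nat_lit 21)) (nd (nat_lit 184) (nat_lit 0) (cs (lf (nat_lit 0) (nat_lit 183)) (nd (nat_lit 229) (nat_lit 0) (cs (lf (nat_lit 41) (nat_lit 163)) (nd (nat_lit 228) (nat_lit 0) (cs (lf (nat_lit 12) (nat_lit 205)) (rf (nat_lit 22))))))))))))))) (nd (nat_lit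 229) (nat_lit 0) (cs (nd (nat_lit 210) (nat_lit 0) (cs (lf (nat_lit 18) (nat_lit 185)) (rf (nat_lit 23)))) (nd (nat_lit 164) (nat_lit 0) (cs (lf (nat_lit 41) (nat_lit 163)) (nd (nat_lit 141) (nat_lit 0) (cs (lf (nat_lit 46) (nat_lit 141)) (nd (nat_lit 142) (nat_lit 0) (cs (lf (nat_lit 47) (nat_lit 119)) (rf (nat_lit 24))))))))))))) (rf (nat_lit 25))))) (cs (rf (nat_lit 26)) (cs (rf (nat_lit 27)) (cs (nd (nat_lit 184) (nat_lit 0) (cs (rf (nat_lit 4)) (cs (rf (nat_lit 5)) (cs (rf (nat_lit 6)) (cs (rf (nat_lit 28)) (nd (nat_lit 206) (nat_lit 0) (cs (rf (nat_lit 8)) (cs (rf (nat_lit 9)) (cs (rf (nat_lit 29)) (cs (rf (nat_lit 10)) (rf (nat_lit 11)))))))))))) (cs (rf (nat_lit 30)) (cs (nd (nat_lit 230) (nat_lit 0) (cs (nd (nat_lit 164) (nat_lit 0) (cs (rf (nat_lit 17)) (cs (nd (nat_lit 229) (nat_lit 0) (cs (lf (nat_lit 41) (nat_lit 163)) (nd (nat_lit 163) (nat_lit 0) (cs (rf (nat_lit 21)) (nd (nat_lit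 162) (nat_lit 0) (cs (rf (nat_lit 31)) (rf (nat_lit 32)))))))) (cs (rf (nat_lit 18)) (cs (rf (nat_lit 19)) (rf (nat_lit 20))))))) (cs (rf (nat_lit 15)) (rf (nat_lit 25))))) (rf (nat_lit 33)))))))))))))) q21724 (by decide +kernel)
def q21769 : Q := Q.p (nat_lit 0x2000000000010000040000000000000000000000000000000000000000000000) (nat_lit 0xe00001e00077e000ef8007be001ff8007fc0005800016000000000000000000000000) (nat_lit 17)
theorem c21769 : QOK q21769 := cut [q21, q435, q500, q18160, q495, q20787, q21734, q530, q18355, q20282, q20260, q21365, q21751, q4753, q4772, q4774, q20671, q18722, q20058, q16281, q6175] ⟨c21, c435, c500, c18160, c495, c20787, c21734, c530, c18355, c20282, c20260, c21365, c21751, c4753, c4772, c4774, c20671, c18722, c20058, c16281, c6175, trivial⟩ (nd (nat_lit 230) (nat_lit 0) (cs (rf (nat_lit 0)) (cs (rf (nat_lit 1)) (cs (rf (nat_lit 2)) (cs (rf (nat_lit 3)) (nd (nat_lit 164)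 (nat_lit 0) (cs (rf (nat_lit 4)) (cs (rf (nat_lit 5)) (cs (nd (nat_lit 165) (nat_lit 0) (cs (lf (nat_lit 35) (nat_lit 142)) (nd (nat_lit 229) (nat_lit 0) (cs (lf (nat_lit 41) (nat_lit 163)) (nd (nat_lit 142) (nat_lit 0) (cs (lf (nat_lit 40) (nat_lit 141)) (rf (nat_lit 6)))))))) (cs (nd (nat_lit 229) (nat_lit 0) (cs (lf (nat_lit 41) (nat_lit 163)) (nd (nat_lit 207) (nat_lit 0) (cs (lf (nat_lit 36) (nat_lit 141)) (nd (nat_lit 206) (nat_lit 0) (cs (rf (nat_lit 7)) (cs (rf (nat_lit 8)) (cs (rf (nat_lit 9)) (nd (nat_lit 209) (nat_lit 0) (cs (rf (nat_lit 10)) (cs (nd (nat_lit 165) (nat_lit 0) (cs (lf (nat_lit 35) (nat_lit 142)) (nd (nat_lit 227) (nat_lit 0) (cs (lf (nat_lit 10) (nat_lit 205)) (nd (nat_lit 187) (nat_lit 0) (cs (lf (nat_lit 17) (nat_lit 184)) (nd (nat_lit 184) (nat_lit 0) (cs (lf (nat_lit 23) (nat_lit 183)) (rf (nat_lit 11)))))))))) (nd (nat_lit 228) (nat_lit 0) (cs (lf (nat_lit 11) (nat_lit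 205)) (lf (nat_lit 6) (nat_lit 206))))))))))))))) (nd (nat_lit 185) (nat_lit 0) (cs (nd (nat_lit 165) (nat_lit 0) (cs (lf (nat_lit 35) (nat_lit 142)) (nd (nat_lit 166) (nat_lit 0) (cs (lf (nat_lit 6) (nat_lit 163)) (nd (nat_lit 184) (nat_lit 0) (cs (lf (nat_lit 15) (nat_lit 162)) (lf (nat_lit 12) (nat_lit 161)))))))) (cs (nd (nat_lit 141) (nat_lit 0) (cs (lf (nat_lit 46) (nat_lit 141)) (nd (nat_lit 165) (nat_lit 0) (cs (lf (nat_lit 35) (nat_lit 142)) (nd (nat_lit 166) (nat_lit 0) (cs (lf (nat_lit 6) (nat_lit 163)) (rf (nat_lit 12)))))))) (cs (nd (nat_lit 184) (nat_lit 0) (cs (rf (nat_lit 13)) (cs (rf (nat_lit 14)) (cs (rf (nat_lit 15)) (cs (rf (nat_lit 16)) (nd (nat_lit 187) (nat_lit 0) (cs (rf (nat_lit 17)) (cs (rf (nat_lit 18)) (nd (nat_lit 209) (nat_lit 0) (cs (lf (nat_lit 5) (nat_lit 184)) (nd (nat_lit 120) (nat_lit 0) (cs (lf (nat_lit 25) (nat_lit 120)) (nd (nat_lit 163) (nat_lit 0) (cs (lf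 (nat_lit 47) (nat_lit 141)) (nd (nat_lit 162) (nat_lit 0) (cs (lf (nat_lit 0) (nat_lit 161)) (nd (nat_lit 206) (nat_lit 0) (cs (lf (nat_lit 11) (nat_lit 183)) (nd (nat_lit 228) (nat_lit 0) (cs (lf (nat_lit 30) (nat_lit 162)) (rf (nat_lit 19)))))))))))))))))))))) (cs (nd (nat_lit 163) (nat_lit 0) (cs (lf (nat_lit 47) (nat_lit 141)) (rf (nat_lit 20)))) (nd (nat_lit 165) (nat_lit 0) (cs (lf (nat_lit 35) (nat_lit 142)) (nd (nat_lit 183) (nat_lit 0) (cs (lf (nat_lit 13) (nat_lit 161)) (nd (nat_lit 141) (nat_lit 0) (cs (lf (nat_lit 46) (nat_lit 141)) (rf (nat_lit 12))))))))))))))))))))))) q21769 (by decide +kernel)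
def q21905 : Q := Q.p (nat_lit 0x2000000000010000040000000000000000000000000000000000000000000000) (nat_lit 0x10000dc0001700007c003ef8007bc000ff8003fc0007f0000fc0000f000000000000000000) (nat_lit 18)
theorem c21905 : QOK q21905 := cut [q4753, q4772, q4774, q18473, q19139, q20464, q20570, q8628, q21545, q448, q8636, q8638, q8576, q8633, q8623, q9715, q8643, q8724, q8612, q19986, q7214, q8654, q8666, q8685, q8687, q8665, q8679, q5552, q16253, q20538, q8695, q8722, q8701, q3742, q7254, q5553, q1650, q5818, q20442, q20449, q20528, q20539, q19091, q9723, q18907, q19138, q19143, q19145, q18911, q19075, q20647] ⟨c4753, c4772, c4774, c18473, c19139, c20464, c20570, c8628, c21545, c448, c8636, c8638, c8576, c8633, c8623, c9715, c8643, c8724, c8612, c19986, c7214, c8654, c8666, c8685, c8687, c8665, c8679, c5552, c16253, c20538, c8695, c8722, c8701, c3742, c7254, c5553, c1650, c5818, c20442, c20449, c20528,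 c20539, c19091, c9723, c18907, c19138, c19143, c19145, c18911, c19075, c20647, trivial⟩ (nd (nat_lit 185) (nat_lit 0) (cs (nd (nat_lit 184) (nat_lit 0) (cs (rf (nat_lit 0)) (cs (rf (nat_lit 1)) (cs (rf (nat_lit 2)) (cs (rf (nat_lit 3)) (rf (nat_lit 4))))))) (cs (rf (nat_lit 5)) (cs (rf (nat_lit 6)) (cs (nd (nat_lit 230) (nat_lit 0) (cs (rf (nat_lit 7)) (cs (rf (nat_lit 8)) (nd (nat_lit 164) (nat_lit 0) (cs (rf (nat_lit 9)) (cs (rf (nat_lit 10)) (cs (rf (nat_lit 11)) (nd (nat_lit 163) (nat_lit 0) (cs (rf (nat_lit 12)) (rf (nat_lit 13))))))))))) (cs (nd (nat_lit 163) (nat_lit 0) (cs (rf (nat_lit 14)) (cs (rf (nat_lit 15)) (cs (nd (nat_lit 164) (nat_lit 0) (cs (rf (nat_lit 16)) (cs (rf (nat_lit 17)) (cs (nd (nat_lit 142) (nat_lit 0) (cs (rf (nat_lit 18)) (cs (rf (nat_lit 19)) (nd (nat_lit 207) (nat_lit 0) (cs (lf (nat_lit 30) (nat_lit 141)) (nd (nat_lit 161) (nat_lit 0) (cs (rf (nat_lit 20)) (cs (nd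 (nat_lit 205) (nat_lit 0) (cs (rf (nat_lit 21)) (cs (rf (nat_lit 22)) (cs (rf (nat_lit 23)) (cs (rf (nat_lit 24)) (nd (nat_lit 183) (nat_lit 0) (cs (rf (nat_lit 25)) (cs (rf (nat_lit 26)) (nd (nat_lit 184) (nat_lit 0) (cs (lf (nat_lit 5) (nat_lit 183)) (lf (nat_lit 11) (nat_lit 182)))))))))))) (nd (nat_lit 230) (nat_lit 0) (cs (lf (nat_lit 42) (nat_lit 163)) (nd (nat_lit 162) (nat_lit 0) (cs (lf (nat_lit 0) (nat_lit 160)) (rf (nat_lit 27)))))))))))))) (cs (nd (nat_lit 207) (nat_lit 0) (cs (rf (nat_lit 28)) (cs (rf (nat_lit 29)) (nd (nat_lit 120) (nat_lit 0) (cs (lf (nat_lit 37) (nat_lit 119)) (nd (nat_lit 162) (nat_lit 0) (cs (rf (nat_lit 30)) (cs (rf (nat_lit 31)) (cs (nd (nat_lit 230) (nat_lit 0) (cs (lf (nat_lit 42) (nat_lit 163)) (nd (nat_lit 161) (nat_lit 0) (cs (lf (nat_lit 0) (nat_lit 160)) (rf (nat_lit 32)))))) (cs (nd (nat_lit 230) (nat_lit 0) (cs (lf (nat_lit 42) (nat_lit 163)) (nd (nat_lit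 161) (nat_lit 0) (cs (lf (nat_lit 0) (nat_lit 160)) (nd (nat_lit 139) (nat_lit 0) (cs (lf (nat_lit 23) (nat_lit 138)) (nd (nat_lit 140) (nat_lit 0) (cs (lf (nat_lit 18) (nat_lit 139)) (rf (nat_lit 33)))))))))) (cs (nd (nat_lit 184) (nat_lit 0) (cs (rf (nat_lit 0)) (nd (nat_lit 230) (nat_lit 0) (cs (lf (nat_lit 42) (nat_lit 163)) (nd (nat_lit 165) (nat_lit 0) (cs (lf (nat_lit 6) (nat_lit 162)) (rf (nat_lit 34)))))))) (nd (nat_lit 230) (nat_lit 0) (cs (lf (nat_lit 42) (nat_lit 163)) (rf (nat_lit 35))))))))))))))) (nd (nat_lit 184) (nat_lit 0) (cs (rf (nat_lit 0)) (cs (rf (nat_lit 1)) (nd (nat_lit 142) (nat_lit 0) (cs (rf (nat_lit 36)) (rf (nat_lit 18)))))))))))) (nd (nat_lit 207) (nat_lit 0) (cs (rf (nat_lit 37)) (cs (rf (nat_lit 38)) (cs (rf (nat_lit 39)) (cs (rf (nat_lit 40)) (rf (nat_lit 41))))))))))) (cs (nd (nat_lit 184) (nat_lit 0) (cs (rf (nat_lit 0)) (cs (rf (nat_lit 1)) (cs (rf (nat_lit 2))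 (cs (rf (nat_lit 42)) (nd (nat_lit 187) (nat_lit 0) (cs (rf (nat_lit 43)) (cs (rf (nat_lit 44)) (cs (rf (nat_lit 45)) (rf (nat_lit 46))))))))))) (cs (nd (nat_lit 184) (nat_lit 0) (cs (rf (nat_lit 0)) (cs (rf (nat_lit 1)) (cs (rf (nat_lit 2)) (cs (rf (nat_lit 3)) (rf (nat_lit 47))))))) (nd (nat_lit 184) (nat_lit 0) (cs (rf (nat_lit 0)) (cs (rf (nat_lit 48)) (cs (rf (nat_lit 49)) (rf (nat_lit 50)))))))))))))) q21905 (by decide +kernel)
def q22000 : Q := Q.p (nat_lit 0x800002000008000010000000000000000000000000000000000000000000000000000) (nat_lit 0x500003400001800037c003ee000fbc000700001c00001000000000000000000000000000000) (nat_lit 11)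
theorem c22000 : QOK q22000 := cut [q1590, q21979, q2938, q21982, q21989, q21999] ⟨c1590, c21979, c2938, c21982, c21989, c21999, trivial⟩ (nd (nat_lit 209) (nat_lit 0) (cs (rf (nat_lit 0)) (cs (rf (nat_lit 1)) (cs (nd (nat_lit 207) (nat_lit 0) (cs (nd (nat_lit 274) (nat_lit 0) (cs (lf (nat_lit 41) (nat_lit 208)) (nd (nat_lit 187) (nat_lit 0) (cs (lf (nat_lit 40) (nat_lit 186)) (rf (nat_lit 2)))))) (cs (nd (nat_lit 274) (nat_lit 0) (cs (lf (nat_lit 41) (nat_lit 208)) (nd (nat_lit 252) (nat_lit 0) (cs (lf (nat_lit 36) (nat_lit 186)) (nd (nat_lit 185) (nat_lit 0) (cs (lf (nat_lit 44) (nat_lit 185)) (nd (nat_lit 184) (nat_lit 0) (cs (lf (nat_lit 18) (nat_lit 184)) (nd (nat_lit 182) (nat_lit 0) (cs (lf (nat_lit 1) (nat_lit 182)) (nd (nat_lit 251) (nat_lit 0) (cs (lf (nat_lit 26) (nat_lit 185)) (rf (nat_lit 3)))))))))))))) (rf (nat_lit 4))))) (rf (nat_lit 5)))))) q22000 (by decide +kernel)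
def q22166 : Q := Q.p (nat_lit 0xc00002000000000010000000000000000000000000000000000000000000000000000) (nat_lit 0x500001c000078001ff00033e0000fc007fc003ee000f3c000400000000000000000000000000000000000000000) (nat_lit 12)
theorem c22166 : QOK q22166 := cut [q22132, q22133, q12819, q22136, q22145, q22147, q22161, q21999, q9644, q22165] ⟨c22132, c22133, c12819, c22136, c22145, c22147, c22161, c21999, c9644, c22165, trivial⟩ (nd (nat_lit 231) (nat_lit 0) (cs (nd (nat_lit 273) (nat_lit 0) (cs (nd (nat_lit 297) (nat_lit 0) (cs (lf (nat_lit 46) (nat_lit 208)) (nd (nat_lit 210) (nat_lit 0) (cs (lf (nat_lit 34) (nat_lit 209)) (nd (nat_lit 272) (nat_lit 0) (cs (lf (nat_lit 5) (nat_lit 272)) (nd (nat_lit 296) (nat_lit 0) (cs (lf (nat_lit 41) (nat_lit 230)) (lf (nat_lit 0) (nat_lit 271)))))))))) (cs (rf (nat_lit 0)) (cs (nd (nat_lit 295) (nat_lit 0) (cs (rf (nat_lit 1)) (cs (nd (nat_lit 230) (nat_lit 0) (cs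 (lf (nat_lit 42) (nat_lit 208)) (nd (nat_lit 251) (nat_lit 0) (cs (lf (nat_lit 33) (nat_lit 207)) (rf (nat_lit 2)))))) (nd (nat_lit 297) (nat_lit 0) (cs (lf (nat_lit 46) (nat_lit 208)) (nd (nat_lit 210) (nat_lit 0) (cs (lf (nat_lit 34) (nat_lit 209)) (nd (nat_lit 296) (nat_lit 0) (cs (lf (nat_lit 41) (nat_lit 230)) (nd (nat_lit 294) (nat_lit 0) (cs (lf (nat_lit 12) (nat_lit 271)) (nd (nat_lit 298) (nat_lit 0) (cs (lf (nat_lit 18) (nat_lit 273)) (rf (nat_lit 3))))))))))))))) (cs (rf (nat_lit 4)) (nd (nat_lit 297) (nat_lit 0) (cs (lf (nat_lit 46) (nat_lit 208)) (nd (nat_lit 210) (nat_lit 0) (cs (lf (nat_lit 34) (nat_lit 209)) (nd (nat_lit 296) (nat_lit 0) (cs (lf (nat_lit 41) (nat_lit 230)) (rf (nat_lit 5))))))))))))) (cs (rf (nat_lit 6)) (cs (nd (nat_lit 209) (nat_lit 0) (cs (lf (nat_lit 41) (nat_lit 208)) (rf (nat_lit 7)))) (cs (nd (nat_lit 209) (nat_lit 0) (cs (lf (nat_lit 41) (nat_lit 208)) (rf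 (nat_lit 8)))) (rf (nat_lit 9))))))) q22166 (by decide +kernel)
def q22282 : Q := Q.p (nat_lit 0xc00002000000000010000000000000000000000000000000000000000000000000000) (nat_lit 0x8000020003ef0007380039f0007f8001ee000fb8000700001c00001000000000000000000000000000000) (nat_lit 14)
theorem c22282 : QOK q22282 := cut [q22161, q13254, q22171, q22177, q2931, q22188, q22226, q22235, q22237, q22191, q22242, q2952, q22250, q1402, q22261, q22276, q22279, q2957, q21978] ⟨c22161, c13254, c22171, c22177, c2931, c22188, c22226, c22235, c22237, c22191, c22242, c2952, c22250, c1402, c22261, c22276, c22279, c2957, c21978, trivial⟩ (nd (nat_lit 231) (nat_lit 0) (cs (rf (nat_lit 0)) (cs (nd (nat_lit 276) (nat_lit 0) (cs (nd (nat_lit 277) (nat_lit 0) (cs (rf (nat_lit 1)) (cs (nd (nat_lit 255) (nat_lit 0) (cs (lf (nat_lit 17) (nat_lit 252)) (rf (nat_lit 2)))) (rf (nat_lit 3))))) (cs (nd (nat_lit 209) (nat_lit 0) (cs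 (lf (nat_lit 29) (nat_lit 209)) (rf (nat_lit 4)))) (nd (nat_lit 277) (nat_lit 0) (cs (rf (nat_lit 1)) (cs (nd (nat_lit 255) (nat_lit 0) (cs (lf (nat_lit 17) (nat_lit 252)) (nd (nat_lit 299) (nat_lit 0) (cs (lf (nat_lit 5) (nat_lit 274)) (nd (nat_lit 252) (nat_lit 0) (cs (lf (nat_lit 23) (nat_lit 251)) (nd (nat_lit 209) (nat_lit 0) (cs (lf (nat_lit 36) (nat_lit 186)) (nd (nat_lit 210) (nat_lit 0) (cs (lf (nat_lit 35) (nat_lit 187)) (nd (nat_lit 232) (nat_lit 0) (cs (lf (nat_lit 30) (nat_lit 209)) (lf (nat_lit 45) (nat_lit 210)))))))))))))) (rf (nat_lit 5)))))))) (cs (rf (nat_lit 6)) (cs (nd (nat_lit 252) (nat_lit 0) (cs (rf (nat_lit 7)) (cs (rf (nat_lit 8)) (nd (nat_lit 230) (nat_lit 0) (cs (rf (nat_lit 9)) (cs (nd (nat_lit 273) (nat_lit 0) (cs (lf (nat_lit 41) (nat_lit 207)) (nd (nat_lit 209) (nat_lit 0) (cs (lf (nat_lit 36) (nat_lit 186)) (rf (nat_lit 10)))))) (nd (nat_lit 207) (nat_lit 0) (cs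 (lf (nat_lit 47) (nat_lit 185)) (nd (nat_lit 209) (nat_lit 0) (cs (lf (nat_lit 35) (nat_lit 186)) (rf (nat_lit 11)))))))))))) (cs (nd (nat_lit 252) (nat_lit 0) (cs (rf (nat_lit 8)) (cs (nd (nat_lit 230) (nat_lit 0) (cs (lf (nat_lit 42) (nat_lit 208)) (rf (nat_lit 12)))) (cs (nd (nat_lit 230) (nat_lit 0) (cs (lf (nat_lit 29) (nat_lit 208)) (nd (nat_lit 273) (nat_lit 0) (cs (lf (nat_lit 41) (nat_lit 207)) (nd (nat_lit 271) (nat_lit 0) (cs (lf (nat_lit 13) (nat_lit 249)) (nd (nat_lit 185) (nat_lit 0) (cs (lf (nat_lit 46) (nat_lit 185)) (nd (nat_lit 209) (nat_lit 0) (cs (lf (nat_lit 35) (nat_lit 186)) (nd (nat_lit 276) (nat_lit 0) (cs (lf (nat_lit 29) (nat_lit 209)) (nd (nat_lit 277) (nat_lit 0) (cs (lf (nat_lit 18) (nat_lit 252)) (nd (nat_lit 299) (nat_lit 0) (cs (lf (nat_lit 5) (nat_lit 274)) (nd (nat_lit 255) (nat_lit 0) (cs (rf (nat_lit 13)) (lf (nat_lit 17) (nat_lit 252)))))))))))))))))))) (nd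 (nat_lit 230) (nat_lit 0) (cs (lf (nat_lit 29) (nat_lit 208)) (nd (nat_lit 273) (nat_lit 0) (cs (lf (nat_lit 41) (nat_lit 207)) (nd (nat_lit 187) (nat_lit 0) (cs (lf (nat_lit 37) (nat_lit 186)) (nd (nat_lit 272) (nat_lit 0) (cs (lf (nat_lit 12) (nat_lit 249)) (nd (nat_lit 294) (nat_lit 0) (cs (lf (nat_lit 11) (nat_lit 271)) (nd (nat_lit 250) (nat_lit 0) (cs (lf (nat_lit 23) (nat_lit 249)) (nd (nat_lit 207) (nat_lit 0) (cs (lf (nat_lit 47) (nat_lit 185)) (rf (nat_lit 14)))))))))))))))))))) (cs (rf (nat_lit 15)) (cs (nd (nat_lit 297) (nat_lit 0) (cs (lf (nat_lit 46) (nat_lit 208)) (rf (nat_lit 16)))) (nd (nat_lit 209) (nat_lit 0) (cs (rf (nat_lit 4)) (cs (rf (nat_lit 17)) (rf (nat_lit 18))))))))))))) q22282 (by decide +kernel)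
def q22340 : Q := Q.p (nat_lit 0xc00003000000000010000000000000000000000000000000000000000000000000000) (nat_lit 0x8000020001de0007380000e0000d000064000180000000000000000000000000000000000000000000000) (nat_lit 9)
theorem c22340 : QOK q22340 := cut [q2192, q22233, q22319, q22324, q22337] ⟨c2192, c22233, c22319, c22324, c22337, trivial⟩ (nd (nat_lit 273) (nat_lit 0) (cs (rf (nat_lit 0)) (cs (rf (nat_lit 1)) (cs (rf (nat_lit 2)) (cs (rf (nat_lit 3)) (nd (nat_lit 271) (nat_lit 0) (cs (lf (nat_lit 13) (nat_lit 249)) (nd (nat_lit 230) (nat_lit 0) (cs (lf (nat_lit 41) (nat_lit 207)) (rf (nat_lit 4))))))))))) q22340 (by decide +kernel)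
def q22899 : Q := Q.p (nat_lit 0x1e00002000000000010000000000000000000000000000000000000000000000000000) (nat_lit 0x50000140003d80006180038e0007bc000ef0007be000040000100000000000000000000000000000000000) (nat_lit 14)
theorem c22899 : QOK q22899 := cut [q1301, q22859, q22628, q117, q22368, q22367, q18827, q22892, q22898] ⟨c1301, c22859, c22628, c117, c22368, c22367, c18827, c22892, c22898, trivial⟩ (nd (nat_lit 209) (nat_lit 0) (cs (rf (nat_lit 0)) (cs (nd (nat_lit 250) (nat_lit 0) (cs (lf (nat_lit 22) (nat_lit 250)) (nd (nat_lit 249) (nat_lit 0) (cs (lf (nat_lit 21) (nat_lit 249)) (rf (nat_lit 1)))))) (cs (nd (nat_lit 207) (nat_lit 0) (cs (rf (nat_lit 2)) (cs (nd (nat_lit 206) (nat_lit 0) (cs (rf (nat_lit 3)) (cs (rf (nat_lit 4)) (cs (nd (nat_lit 298) (nat_lit 0) (cs (lf (nat_lit 5) (nat_lit 273)) (nd (nat_lit 320) (nat_lit 0) (cs (lf (nat_lit 42) (nat_lit 253)) (nd (nat_lit 187) (nat_lit 0) (cs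 (lf (nat_lit 17) (nat_lit 184)) (nd (nat_lit 227) (nat_lit 0) (cs (lf (nat_lit 10) (nat_lit 205)) (nd (nat_lit 205) (nat_lit 0) (cs (lf (nat_lit 11) (nat_lit 204)) (nd (nat_lit 182) (nat_lit 0) (cs (lf (nat_lit 22) (nat_lit 182)) (nd (nat_lit 204) (nat_lit 0) (cs (lf (nat_lit 23) (nat_lit 181)) (nd (nat_lit 250) (nat_lit 0) (cs (lf (nat_lit 22) (nat_lit 250)) (nd (nat_lit 249) (nat_lit 0) (cs (lf (nat_lit 21) (nat_lit 249)) (lf (nat_lit 42) (nat_lit 182)))))))))))))))))))) (nd (nat_lit 250) (nat_lit 0) (cs (lf (nat_lit 22) (nat_lit 250)) (nd (nat_lit 249) (nat_lit 0) (cs (lf (nat_lit 21) (nat_lit 249)) (nd (nat_lit 298) (nat_lit 0) (cs (lf (nat_lit 5) (nat_lit 273)) (nd (nat_lit 320) (nat_lit 0) (cs (lf (nat_lit 42) (nat_lit 253)) (nd (nat_lit 227) (nat_lit 0) (cs (lf (nat_lit 10) (nat_lit 205)) (nd (nat_lit 205) (nat_lit 0) (cs (lf (nat_lit 11) (nat_lit 204)) (nd (nat_lit 184) (nat_lit 0) (cs (lf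 (nat_lit 30) (nat_lit 183)) (nd (nat_lit 140) (nat_lit 0) (cs (lf (nat_lit 37) (nat_lit 139)) (rf (nat_lit 5)))))))))))))))))))))) (cs (nd (nat_lit 251) (nat_lit 0) (cs (lf (nat_lit 23) (nat_lit 250)) (nd (nat_lit 298) (nat_lit 0) (cs (lf (nat_lit 5) (nat_lit 273)) (nd (nat_lit 320) (nat_lit 0) (cs (lf (nat_lit 42) (nat_lit 253)) (nd (nat_lit 229) (nat_lit 0) (cs (lf (nat_lit 29) (nat_lit 207)) (nd (nat_lit 206) (nat_lit 0) (cs (lf (nat_lit 47) (nat_lit 184)) (nd (nat_lit 228) (nat_lit 0) (cs (lf (nat_lit 11) (nat_lit 205)) (lf (nat_lit 42) (nat_lit 206)))))))))))))) (cs (nd (nat_lit 251) (nat_lit 0) (cs (lf (nat_lit 23) (nat_lit 250)) (nd (nat_lit 298) (nat_lit 0) (cs (lf (nat_lit 5) (nat_lit 273)) (nd (nat_lit 320) (nat_lit 0) (cs (lf (nat_lit 42) (nat_lit 253)) (nd (nat_lit 229) (nat_lit 0) (cs (lf (nat_lit 29) (nat_lit 207)) (nd (nat_lit 210) (nat_lit 0) (cs (lf (nat_lit 11) (nat_lit 206)) (rf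 (nat_lit 6)))))))))))) (nd (nat_lit 251) (nat_lit 0) (cs (lf (nat_lit 23) (nat_lit 250)) (nd (nat_lit 298) (nat_lit 0) (cs (lf (nat_lit 5) (nat_lit 273)) (nd (nat_lit 320) (nat_lit 0) (cs (lf (nat_lit 42) (nat_lit 253)) (nd (nat_lit 229) (nat_lit 0) (cs (lf (nat_lit 29) (nat_lit 207)) (rf (nat_lit 7))))))))))))))) (rf (nat_lit 8)))))) q22899 (by decide +kernel)
def q23679 : Q := Q.p (nat_lit 0x80000200000000001c000000000000000000000000000000000000000000000000000) (nat_lit 0x180001e00017e0001f8001fe0000000003c0001e0000780001800004000000000000000000000000) (nat_lit 12)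
theorem c23679 : QOK q23679 := cut [q23540, q23549, q23551, q23552, q23558, q23589, q2020, q3386, q23532, q23562, q23596, q23602, q1496, q23603, q23605, q23651, q15215, q23654, q23658, q11451, q23564, q23584, q23587, q23647, q4157, q15267, q2513, q3390, q23600] ⟨c23540, c23549, c23551, c23552, c23558, c23589, c2020, c3386, c23532, c23562, c23596, c23602, c1496, c23603, c23605, c23651, c15215, c23654, c23658, c11451, c23564, c23584, c23587, c23647, c4157, c15267, c2513, c3390, c23600, trivial⟩ (nd (nat_lit 250) (nat_lit 0) (cs (nd (nat_lit 251) (nat_lit 0) (cs (rf (nat_lit 0)) (cs (rf (nat_lit 1)) (cs (rf (nat_lit 2)) (nd (nat_lit 229) (nat_lit 0) (cs (rf (nat_lit 3)) (cs (nd (nat_lit 273) (nat_lit 0) (cs (lf (nat_lit 47) (nat_lit 184)) (nd (nat_lit 272) (nat_lit 0) (cs (lf (nat_lit 41) (nat_lit 206)) (nd (nat_lit 274) (nat_lit 0) (cs (lf (nat_lit 29) (nat_lit 207)) (lf (nat_lit 23) (nat_lit 249))))))))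 (rf (nat_lit 4))))))))) (cs (rf (nat_lit 5)) (cs (nd (nat_lit 251) (nat_lit 0) (cs (rf (nat_lit 2)) (cs (nd (nat_lit 184) (nat_lit 0) (cs (rf (nat_lit 6)) (cs (nd (nat_lit 273) (nat_lit 0) (cs (lf (nat_lit 44) (nat_lit 184)) (lf (nat_lit 26) (nat_lit 184)))) (cs (nd (nat_lit 228) (nat_lit 0) (cs (lf (nat_lit 29) (nat_lit 184)) (rf (nat_lit 7)))) (nd (nat_lit 228) (nat_lit 0) (cs (rf (nat_lit 8)) (rf (nat_lit 9)))))))) (rf (nat_lit 10))))) (cs (rf (nat_lit 11)) (cs (nd (nat_lit 228) (nat_lit 0) (cs (rf (nat_lit 12)) (cs (nd (nat_lit 184) (nat_lit 0) (cs (rf (nat_lit 9)) (rf (nat_lit 13)))) (rf (nat_lit 14))))) (cs (rf (nat_lit 15)) (cs (nd (nat_lit 251) (nat_lit 0) (cs (rf (nat_lit 16)) (cs (rf (nat_lit 2)) (nd (nat_lit 185) (nat_lit 0) (cs (nd (nat_lit 272) (nat_lit 0) (cs (lf (nat_lit 38) (nat_lit 184)) (lf (nat_lit 32) (nat_lit 184)))) (cs (nd (nat_lit 229) (nat_lit 0) (cs (lf (nat_lit 41) (nat_lit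 184)) (nd (nat_lit 162) (nat_lit 0) (cs (lf (nat_lit 46) (nat_lit 162)) (nd (nat_lit 163) (nat_lit 0) (cs (lf (nat_lit 47) (nat_lit 140)) (rf (nat_lit 17)))))))) (cs (rf (nat_lit 18)) (nd (nat_lit 163) (nat_lit 0) (cs (nd (nat_lit 141) (nat_lit 0) (cs (lf (nat_lit 29) (nat_lit 141)) (lf (nat_lit 41) (nat_lit 140)))) (cs (nd (nat_lit 228) (nat_lit 0) (cs (lf (nat_lit 33) (nat_lit 162)) (lf (nat_lit 39) (nat_lit 162)))) (nd (nat_lit 141) (nat_lit 0) (cs (lf (nat_lit 29) (nat_lit 141)) (rf (nat_lit 19)))))))))))))) (cs (nd (nat_lit 228) (nat_lit 0) (cs (rf (nat_lit 12)) (cs (rf (nat_lit 20)) (nd (nat_lit 272) (nat_lit 0) (cs (rf (nat_lit 21)) (cs (rf (nat_lit 22)) (cs (rf (nat_lit 23)) (nd (nat_lit 273) (nat_lit 0) (cs (lf (nat_lit 29) (nat_lit 206)) (nd (nat_lit 184) (nat_lit 0) (cs (lf (nat_lit 28) (nat_lit 184)) (nd (nat_lit 161) (nat_lit 0) (cs (lf (nat_lit 46) (nat_lit 161)) (nd (nat_lit 139)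 (nat_lit 0) (cs (lf (nat_lit 45) (nat_lit 139)) (rf (nat_lit 24))))))))))))))))) (nd (nat_lit 251) (nat_lit 0) (cs (rf (nat_lit 16)) (cs (nd (nat_lit 273) (nat_lit 0) (cs (rf (nat_lit 25)) (nd (nat_lit 184) (nat_lit 0) (cs (lf (nat_lit 44) (nat_lit 184)) (lf (nat_lit 26) (nat_lit 184)))))) (cs (nd (nat_lit 252) (nat_lit 0) (cs (lf (nat_lit 5) (nat_lit 250)) (nd (nat_lit 271) (nat_lit 0) (cs (lf (nat_lit 10) (nat_lit 249)) (nd (nat_lit 231) (nat_lit 0) (cs (lf (nat_lit 17) (nat_lit 228)) (nd (nat_lit 228) (nat_lit 0) (cs (lf (nat_lit 23) (nat_lit 227)) (rf (nat_lit 26)))))))))) (nd (nat_lit 228) (nat_lit 0) (cs (rf (nat_lit 26)) (cs (rf (nat_lit 27)) (rf (nat_lit 28)))))))))))))))))) q23679 (by decide +kernel)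
def q23885 : Q := Q.p (nat_lit 0x80000200000000001e000000000000000000000000000000000000000000000000000) (nat_lit 0x380000e00003e001de00077c0001f0001d80000100003e0000f80007c0000700001400000000000000000000000) (nat_lit 14)
theorem c23885 : QOK q23885 := cut [q23602, q23825, q23836, q14973, q1310, q22119, q3427, q14126, q23854, q14183, q23863, q13430, q23876, q23881] ⟨c23602, c23825, c23836, c14973, c1310, c22119, c3427, c14126, c23854, c14183, c23863, c13430, c23876, c23881, trivial⟩ (nd (nat_lit 250) (nat_lit 0) (cs (rf (nat_lit 0)) (cs (rf (nat_lit 1)) (cs (nd (nat_lit 183) (nat_lit 0) (cs (lf (nat_lit 23) (nat_lit 182)) (rf (nat_lit 2)))) (cs (nd (nat_lit 274) (nat_lit 0) (cs (nd (nat_lit 230) (nat_lit 0) (cs (lf (nat_lit 5) (nat_lit 205)) (nd (nat_lit 252) (nat_lit 0) (cs (lf (nat_lit 47) (nat_lit 185)) (rf (nat_lit 3)))))) (cs (nd (nat_lit 182) (nat_lit 0) (cs (lf (nat_lit 22) (nat_lit 182))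 (nd (nat_lit 181) (nat_lit 0) (cs (lf (nat_lit 21) (nat_lit 181)) (nd (nat_lit 230) (nat_lit 0) (cs (lf (nat_lit 5) (nat_lit 205)) (nd (nat_lit 252) (nat_lit 0) (cs (lf (nat_lit 47) (nat_lit 185)) (nd (nat_lit 276) (nat_lit 0) (cs (lf (nat_lit 1) (nat_lit 250)) (nd (nat_lit 273) (nat_lit 0) (cs (lf (nat_lit 41) (nat_lit 207)) (rf (nat_lit 4)))))))))))))) (cs (nd (nat_lit 273) (nat_lit 0) (cs (rf (nat_lit 5)) (cs (nd (nat_lit 183) (nat_lit 0) (cs (lf (nat_lit 23) (nat_lit 182)) (nd (nat_lit 230) (nat_lit 0) (cs (lf (nat_lit 5) (nat_lit 205)) (nd (nat_lit 249) (nat_lit 0) (cs (lf (nat_lit 21) (nat_lit 249)) (nd (nat_lit 248) (nat_lit 0) (cs (lf (nat_lit 3) (nat_lit 248)) (nd (nat_lit 227) (nat_lit 0) (cs (lf (nat_lit 41) (nat_lit 182)) (rf (nat_lit 6)))))))))))) (nd (nat_lit 272) (nat_lit 0) (cs (lf (nat_lit 23) (nat_lit 249)) (nd (nat_lit 294) (nat_lit 0) (cs (lf (nat_lit 11) (nat_lit 271)) (nd (nat_lit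 316) (nat_lit 0) (cs (nd (nat_lit 295) (nat_lit 0) (cs (lf (nat_lit 6) (nat_lit 272)) (nd (nat_lit 338) (nat_lit 0) (cs (rf (nat_lit 7)) (lf (nat_lit 30) (nat_lit 272)))))) (cs (nd (nat_lit 182) (nat_lit 0) (cs (lf (nat_lit 22) (nat_lit 182)) (nd (nat_lit 181) (nat_lit 0) (cs (lf (nat_lit 21) (nat_lit 181)) (nd (nat_lit 295) (nat_lit 0) (cs (lf (nat_lit 6) (nat_lit 272)) (nd (nat_lit 317) (nat_lit 0) (cs (lf (nat_lit 42) (nat_lit 250)) (nd (nat_lit 230) (nat_lit 0) (cs (lf (nat_lit 5) (nat_lit 205)) (rf (nat_lit 8)))))))))))) (cs (nd (nat_lit 337) (nat_lit 0) (cs (lf (nat_lit 40) (nat_lit 249)) (nd (nat_lit 182) (nat_lit 0) (cs (lf (nat_lit 22) (nat_lit 182)) (nd (nat_lit 181) (nat_lit 0) (cs (lf (nat_lit 21) (nat_lit 181)) (rf (nat_lit 9)))))))) (nd (nat_lit 230) (nat_lit 0) (cs (lf (nat_lit 5) (nat_lit 205)) (nd (nat_lit 295) (nat_lit 0) (cs (lf (nat_lit 6) (nat_lit 272)) (nd (nat_lit 338) (nat_lit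 0) (cs (lf (nat_lit 30) (nat_lit 272)) (rf (nat_lit 10))))))))))))))))))) (cs (nd (nat_lit 182) (nat_lit 0) (cs (lf (nat_lit 22) (nat_lit 182)) (nd (nat_lit 181) (nat_lit 0) (cs (lf (nat_lit 21) (nat_lit 181)) (nd (nat_lit 230) (nat_lit 0) (cs (lf (nat_lit 5) (nat_lit 205)) (nd (nat_lit 252) (nat_lit 0) (cs (lf (nat_lit 47) (nat_lit 185)) (rf (nat_lit 11)))))))))) (nd (nat_lit 249) (nat_lit 0) (cs (rf (nat_lit 12)) (nd (nat_lit 183) (nat_lit 0) (cs (lf (nat_lit 23) (nat_lit 182)) (nd (nat_lit 227) (nat_lit 0) (cs (lf (nat_lit 29) (nat_lit 183)) (rf (nat_lit 6))))))))))))) (nd (nat_lit 230) (nat_lit 0) (cs (lf (nat_lit 5) (nat_lit 205)) (nd (nat_lit 183) (nat_lit 0) (cs (lf (nat_lit 23) (nat_lit 182)) (nd (nat_lit 228) (nat_lit 0) (cs (lf (nat_lit 42) (nat_lit 183)) (rf (nat_lit 13))))))))))))) q23885 (by decide +kernel)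
def q24319 : Q := Q.p (nat_lit 0x80000200000000001c000000000000000000000000000000000000000000000000000) (nat_lit 0x1400017c0001f8001f700003c0003f8007fc001ff800ffc0003e0000f800028000000000000) (nat_lit 16)
theorem c24319 : QOK q24319 := cut [q6789, q23924, q23540, q23549, q23551, q23558, q23929, q23932, q24062, q24145, q864, q3851, q18105, q23922, q823, q12472, q23943, q23907, q24063, q24110, q12055, q24156, q6644, q23522, q6642, q2020, q3425, q24307, q23956, q24309, q2019, q3899, q15215, q24087, q23941, q2419, q23939, q23947, q24318] ⟨c6789, c23924, c23540, c23549, c23551, c23558, c23929, c23932, c24062, c24145, c864, c3851, c18105, c23922, c823, c12472, c23943, c23907, c24063, c24110, c12055, c24156, c6644, c23522, c6642, c2020, c3425, c24307, c23956, c24309, c2019, c3899, c15215, c24087, c23941, c2419, c23939, c23947, c24318, trivial⟩ (nd (nat_lit 184) (nat_lit 0) (cs (nd (nat_lit 183) (nat_lit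 0) (cs (rf (nat_lit 0)) (nd (nat_lit 250) (nat_lit 0) (cs (nd (nat_lit 228) (nat_lit 0) (cs (lf (nat_lit 47) (nat_lit 161)) (rf (nat_lit 1)))) (cs (nd (nat_lit 251) (nat_lit 0) (cs (rf (nat_lit 2)) (cs (rf (nat_lit 3)) (cs (rf (nat_lit 4)) (nd (nat_lit 229) (nat_lit 0) (cs (lf (nat_lit 42) (nat_lit 184)) (rf (nat_lit 5)))))))) (cs (nd (nat_lit 228) (nat_lit 0) (cs (lf (nat_lit 47) (nat_lit 161)) (nd (nat_lit 163) (nat_lit 0) (cs (lf (nat_lit 34) (nat_lit 162)) (rf (nat_lit 6)))))) (nd (nat_lit 228) (nat_lit 0) (cs (lf (nat_lit 47) (nat_lit 161)) (nd (nat_lit 251) (nat_lit 0) (cs (lf (nat_lit 29) (nat_lit 184)) (rf (nat_lit 7)))))))))))) (cs (rf (nat_lit 8)) (cs (rf (nat_lit 9)) (cs (nd (nat_lit 162) (nat_lit 0) (cs (rf (nat_lit 10)) (cs (rf (nat_lit 11)) (cs (rf (nat_lit 12)) (cs (rf (nat_lit 13)) (nd (nat_lit 229) (nat_lit 0) (cs (rf (nat_lit 14)) (cs (rf (nat_lit 15)) (nd (nat_lit 205) (nat_lit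 0) (cs (nd (nat_lit 230) (nat_lit 0) (cs (lf (nat_lit 5) (nat_lit 205)) (nd (nat_lit 183) (nat_lit 0) (cs (rf (nat_lit 0)) (nd (nat_lit 161) (nat_lit 0) (cs (rf (nat_lit 16)) (cs (nd (nat_lit 163) (nat_lit 0) (cs (rf (nat_lit 17)) (cs (rf (nat_lit 18)) (nd (nat_lit 141) (nat_lit 0) (cs (lf (nat_lit 30) (nat_lit 140)) (nd (nat_lit 142) (nat_lit 0) (cs (lf (nat_lit 12) (nat_lit 138)) (rf (nat_lit 19))))))))) (nd (nat_lit 139) (nat_lit 0) (cs (lf (nat_lit 24) (nat_lit 117)) (nd (nat_lit 138) (nat_lit 0) (cs (lf (nat_lit 47) (nat_lit 116)) (nd (nat_lit 136) (nat_lit 0) (cs (lf (nat_lit 1) (nat_lit 136)) (nd (nat_lit 163) (nat_lit 0) (cs (lf (nat_lit 18) (nat_lit 138)) (rf (nat_lit 20))))))))))))))))) (cs (nd (nat_lit 182) (nat_lit 0) (cs (lf (nat_lit 22) (nat_lit 182)) (nd (nat_lit 204) (nat_lit 0) (cs (lf (nat_lit 23) (nat_lit 181)) (rf (nat_lit 21)))))) (nd (nat_lit 230) (nat_lit 0) (cs (lf (nat_lit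 5) (nat_lit 205)) (lf (nat_lit 0) (nat_lit 204))))))))))))))) (cs (nd (nat_lit 205) (nat_lit 0) (cs (rf (nat_lit 22)) (cs (rf (nat_lit 23)) (cs (nd (nat_lit 230) (nat_lit 0) (cs (lf (nat_lit 5) (nat_lit 205)) (nd (nat_lit 204) (nat_lit 0) (cs (lf (nat_lit 4) (nat_lit 204)) (rf (nat_lit 24)))))) (nd (nat_lit 183) (nat_lit 0) (cs (rf (nat_lit 0)) (nd (nat_lit 251) (nat_lit 0) (cs (rf (nat_lit 25)) (nd (nat_lit 250) (nat_lit 0) (cs (rf (nat_lit 26)) (rf (nat_lit 4)))))))))))) (cs (rf (nat_lit 27)) (cs (nd (nat_lit 251) (nat_lit 0) (cs (rf (nat_lit 25)) (cs (rf (nat_lit 28)) (cs (rf (nat_lit 29)) (nd (nat_lit 229) (nat_lit 0) (cs (rf (nat_lit 30)) (cs (rf (nat_lit 31)) (nd (nat_lit 250) (nat_lit 0) (cs (rf (nat_lit 32)) (cs (rf (nat_lit 4)) (nd (nat_lit 185) (nat_lit 0) (cs (lf (nat_lit 41) (nat_lit 184)) (nd (nat_lit 182) (nat_lit 0) (cs (lf (nat_lit 1) (nat_lit 182)) (nd (nat_lit 163) (nat_lit 0)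 (cs (lf (nat_lit 40) (nat_lit 162)) (rf (nat_lit 33)))))))))))))))))) (cs (nd (nat_lit 162) (nat_lit 0) (cs (rf (nat_lit 11)) (cs (rf (nat_lit 34)) (nd (nat_lit 251) (nat_lit 0) (cs (rf (nat_lit 35)) (cs (rf (nat_lit 36)) (cs (rf (nat_lit 37)) (rf (nat_lit 29))))))))) (rf (nat_lit 38))))))))))) q24319 (by decide +kernel)
def q24360 : Q := Q.p (nat_lit 0x80000200000000001c000000000000000000000000000000000000000000000000000) (nat_lit 0x100000f00017c0001fc001ff00003c0003b8001e00003e0000e00002800000000000000000000000) (nat_lit 11)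
theorem c24360 : QOK q24360 := cut [q23523, q23808, q24321, q5182, q24325, q1496, q23825, q24327, q24332, q14145, q1026, q24359] ⟨c23523, c23808, c24321, c5182, c24325, c1496, c23825, c24327, c24332, c14145, c1026, c24359, trivial⟩ (nd (nat_lit 205) (nat_lit 0) (cs (rf (nat_lit 0)) (cs (rf (nat_lit 1)) (cs (rf (nat_lit 2)) (cs (nd (nat_lit 228) (nat_lit 0) (cs (nd (nat_lit 230) (nat_lit 0) (cs (lf (nat_lit 5) (nat_lit 205)) (nd (nat_lit 229) (nat_lit 0) (cs (lf (nat_lit 0) (nat_lit 204)) (nd (nat_lit 227) (nat_lit 0) (cs (lf (nat_lit 4) (nat_lit 227)) (rf (nat_lit 3)))))))) (cs (rf (nat_lit 4)) (cs (nd (nat_lit 250) (nat_lit 0) (cs (rf (nat_lit 5)) (cs (rf (nat_lit 6)) (cs (nd (nat_lit 230) (nat_lit 0) (cs (lf (nat_lit 5) (nat_lit 205)) (nd (nat_lit 229) (nat_lit 0) (cs (lf (nat_lit 0) (nat_lit 204)) (nd (nat_lit 185) (nat_lit 0) (cs (lf (nat_lit 36) (nat_lit 162)) (nd (nat_lit 252) (nat_lit 0)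 (cs (lf (nat_lit 42) (nat_lit 185)) (rf (nat_lit 7)))))))))) (nd (nat_lit 230) (nat_lit 0) (cs (lf (nat_lit 5) (nat_lit 205)) (nd (nat_lit 204) (nat_lit 0) (cs (lf (nat_lit 4) (nat_lit 204)) (rf (nat_lit 8)))))))))) (cs (nd (nat_lit 250) (nat_lit 0) (cs (rf (nat_lit 5)) (cs (rf (nat_lit 8)) (nd (nat_lit 184) (nat_lit 0) (cs (rf (nat_lit 9)) (nd (nat_lit 230) (nat_lit 0) (cs (lf (nat_lit 5) (nat_lit 205)) (nd (nat_lit 204) (nat_lit 0) (cs (lf (nat_lit 4) (nat_lit 204)) (nd (nat_lit 185) (nat_lit 0) (cs (lf (nat_lit 35) (nat_lit 162)) (lf (nat_lit 12) (nat_lit 181))))))))))))) (nd (nat_lit 230) (nat_lit 0) (cs (lf (nat_lit 5) (nat_lit 205)) (nd (nat_lit 229) (nat_lit 0) (cs (lf (nat_lit 0) (nat_lit 204)) (nd (nat_lit 252) (nat_lit 0) (cs (rf (nat_lit 10)) (lf (nat_lit 0) (nat_lit 227))))))))))))) (rf (nat_lit 11))))))) q24360 (by decide +kernel)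
def q24469 : Q := Q.p (nat_lit 0x80000200000000001c000000000000000000000000000000000000000000000000000) (nat_lit 0x17c0001e00003f80003c0003f8001f00003e0000f00002800000000000000000000000) (nat_lit 9)
theorem c24469 : QOK q24469 := cut [q18354, q24359, q24377, q24438, q24465, q24468] ⟨c18354, c24359, c24377, c24438, c24465, c24468, trivial⟩ (nd (nat_lit 205) (nat_lit 0) (cs (rf (nat_lit 0)) (cs (rf (nat_lit 1)) (cs (rf (nat_lit 2)) (cs (rf (nat_lit 3)) (cs (rf (nat_lit 4)) (rf (nat_lit 5)))))))) q24469 (by decide +kernel)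
def q24523 : Q := Q.p (nat_lit 0xc00002000000000038000000000000000000000000000000000000000000000000000) (nat_lit 0x19000064003df80073e0038fc000fc00002000020000000000000000000000000000000000000000000000) (nat_lit 13)
theorem c24523 : QOK q24523 := cut [q12947, q12673, q1301, q22122, q11954, q22118, q22859, q22898, q15704, q22261] ⟨c12947, c12673, c1301, c22122, c11954, c22118, c22859, c22898, c15704, c22261, trivial⟩ (nd (nat_lit 273) (nat_lit 0) (cs (nd (nat_lit 296) (nat_lit 0) (cs (lf (nat_lit 37) (nat_lit 208)) (nd (nat_lit 318) (nat_lit 0) (cs (lf (nat_lit 30) (nat_lit 252)) (nd (nat_lit 251) (nat_lit 0) (cs (lf (nat_lit 25) (nat_lit 207)) (rf (nat_lit 0)))))))) (cs (nd (nat_lit 272) (nat_lit 0) (cs (rf (nat_lit 1)) (cs (nd (nat_lit 250) (nat_lit 0) (cs (lf (nat_lit 23) (nat_lit 249)) (nd (nat_lit 251) (nat_lit 0) (cs (lf (nat_lit 18) (nat_lit 250)) (nd (nat_lit 229) (nat_lit 0) (cs (lf (nat_lit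 36) (nat_lit 184)) (nd (nat_lit 295) (nat_lit 0) (cs (lf (nat_lit 34) (nat_lit 207)) (nd (nat_lit 317) (nat_lit 0) (cs (lf (nat_lit 47) (nat_lit 228)) (lf (nat_lit 42) (nat_lit 250)))))))))))) (nd (nat_lit 294) (nat_lit 0) (cs (lf (nat_lit 11) (nat_lit 271)) (nd (nat_lit 229) (nat_lit 0) (cs (lf (nat_lit 38) (nat_lit 206)) (nd (nat_lit 276) (nat_lit 0) (cs (lf (nat_lit 10) (nat_lit 272)) (rf (nat_lit 2))))))))))) (cs (nd (nat_lit 296) (nat_lit 0) (cs (lf (nat_lit 37) (nat_lit 208)) (nd (nat_lit 272) (nat_lit 0) (cs (rf (nat_lit 1)) (cs (nd (nat_lit 229) (nat_lit 0) (cs (lf (nat_lit 26) (nat_lit 207)) (nd (nat_lit 318) (nat_lit 0) (cs (lf (nat_lit 30) (nat_lit 252)) (nd (nat_lit 249) (nat_lit 0) (cs (lf (nat_lit 22) (nat_lit 249)) (nd (nat_lit 271) (nat_lit 0) (cs (lf (nat_lit 23) (nat_lit 248)) (nd (nat_lit 270) (nat_lit 0) (cs (lf (nat_lit 4) (nat_lit 270)) (nd (nat_lit 292) (nat_lit 0) (cs (lf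 (nat_lit 11) (nat_lit 269)) (nd (nat_lit 314) (nat_lit 0) (cs (lf (nat_lit 30) (nat_lit 248)) (nd (nat_lit 227) (nat_lit 0) (cs (nd (nat_lit 228) (nat_lit 0) (cs (lf (nat_lit 12) (nat_lit 204)) (lf (nat_lit 15) (nat_lit 205)))) (lf (nat_lit 36) (nat_lit 204)))))))))))))))))) (cs (nd (nat_lit 318) (nat_lit 0) (cs (lf (nat_lit 30) (nat_lit 252)) (nd (nat_lit 293) (nat_lit 0) (cs (lf (nat_lit 10) (nat_lit 271)) (nd (nat_lit 251) (nat_lit 0) (cs (lf (nat_lit 25) (nat_lit 207)) (nd (nat_lit 271) (nat_lit 0) (cs (lf (nat_lit 11) (nat_lit 270)) (nd (nat_lit 270) (nat_lit 0) (cs (lf (nat_lit 4) (nat_lit 270)) (nd (nat_lit 269) (nat_lit 0) (cs (rf (nat_lit 3)) (lf (nat_lit 16) (nat_lit 247)))))))))))))) (cs (nd (nat_lit 318) (nat_lit 0) (cs (lf (nat_lit 30) (nat_lit 252)) (nd (nat_lit 229) (nat_lit 0) (cs (lf (nat_lit 26) (nat_lit 207)) (nd (nat_lit 293) (nat_lit 0) (cs (lf (nat_lit 10) (nat_lit 271)) (nd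 (nat_lit 271) (nat_lit 0) (cs (lf (nat_lit 11) (nat_lit 270)) (rf (nat_lit 4)))))))))) (nd (nat_lit 250) (nat_lit 0) (cs (lf (nat_lit 23) (nat_lit 249)) (nd (nat_lit 318) (nat_lit 0) (cs (lf (nat_lit 30) (nat_lit 252)) (nd (nat_lit 294) (nat_lit 0) (cs (lf (nat_lit 11) (nat_lit 271)) (nd (nat_lit 229) (nat_lit 0) (cs (lf (nat_lit 26) (nat_lit 207)) (lf (nat_lit 33) (nat_lit 206))))))))))))))))) (cs (nd (nat_lit 276) (nat_lit 0) (cs (rf (nat_lit 2)) (cs (rf (nat_lit 5)) (cs (rf (nat_lit 6)) (rf (nat_lit 7)))))) (nd (nat_lit 294) (nat_lit 0) (cs (rf (nat_lit 8)) (cs (nd (nat_lit 276) (nat_lit 0) (cs (lf (nat_lit 10) (nat_lit 272)) (nd (nat_lit 251) (nat_lit 0) (cs (lf (nat_lit 23) (nat_lit 250)) (nd (nat_lit 229) (nat_lit 0) (cs (lf (nat_lit 29) (nat_lit 207)) (lf (nat_lit 40) (nat_lit 206)))))))) (nd (nat_lit 272) (nat_lit 0) (cs (lf (nat_lit 11) (nat_lit 271)) (nd (nat_lit 250) (nat_lit 0) (cs (lf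 (nat_lit 23) (nat_lit 249)) (rf (nat_lit 9)))))))))))))) q24523 (by decide +kernel)
def q25406 : Q := Q.p (nat_lit 0xc00002000000000010000000000000000000000000000000000000000000000000000) (nat_lit 0x140001fe000ffc003ff800ffe003ffc00f3e0038fc00e7c0028e0000380000a0000000000000000000000000000000000000000) (nat_lit 17)
theorem c25406 : QOK q25406 := cut [q22132, q23284, q23289, q25297, q12834, q12908, q12906, q16004, q12839, q12841, q12851, q12846, q12870, q12858, q12865, q12881, q12886, q25311, q22408, q23297, q23301, q23307, q15964, q1197, q22820, q17457, q25400, q15704, q15706, q15065, q14624, q12673, q23283] ⟨c22132, c23284, c23289, c25297, c12834, c12908, c12906, c16004, c12839, c12841, c12851, c12846, c12870, c12858, c12865, c12881, c12886, c25311, c22408, c23297, c23301, c23307, c15964, c1197, c22820, c17457, c25400, c15704, c15706, c15065, c14624, c12673, c23283, trivial⟩ (nd (nat_lit 273) (nat_lit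 0) (cs (rf (nat_lit 0)) (cs (rf (nat_lit 1)) (cs (rf (nat_lit 2)) (cs (rf (nat_lit 3)) (cs (nd (nat_lit 297) (nat_lit 0) (cs (rf (nat_lit 4)) (cs (rf (nat_lit 5)) (cs (nd (nat_lit 296) (nat_lit 0) (cs (rf (nat_lit 6)) (cs (rf (nat_lit 7)) (nd (nat_lit 319) (nat_lit 0) (cs (rf (nat_lit 8)) (cs (rf (nat_lit 9)) (nd (nat_lit 320) (nat_lit 0) (cs (lf (nat_lit 29) (nat_lit 253)) (nd (nat_lit 300) (nat_lit 0) (cs (rf (nat_lit 10)) (cs (nd (nat_lit 318) (nat_lit 0) (cs (lf (nat_lit 30) (nat_lit 252)) (rf (nat_lit 11)))) (nd (nat_lit 322) (nat_lit 0) (cs (lf (nat_lit 19) (nat_lit 296)) (nd (nat_lit 278) (nat_lit 0) (cs (rf (nat_lit 12)) (cs (nd (nat_lit 318) (nat_lit 0) (cs (lf (nat_lit 41) (nat_lit 252)) (rf (nat_lit 13)))) (nd (nat_lit 344) (nat_lit 0) (cs (rf (nat_lit 14)) (cs (rf (nat_lit 15)) (nd (nat_lit 345) (nat_lit 0) (cs (lf (nat_lit 29) (nat_lit 278)) (nd (nat_lit 323) (nat_lit 0) (cs (lf (nat_lit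 24) (nat_lit 256)) (nd (nat_lit 271) (nat_lit 0) (cs (lf (nat_lit 1) (nat_lit 271)) (nd (nat_lit 318) (nat_lit 0) (cs (lf (nat_lit 41) (nat_lit 252)) (rf (nat_lit 16))))))))))))))))))))))))))))) (rf (nat_lit 17)))))) (cs (nd (nat_lit 272) (nat_lit 0) (cs (rf (nat_lit 18)) (cs (rf (nat_lit 19)) (cs (rf (nat_lit 20)) (cs (rf (nat_lit 21)) (nd (nat_lit 293) (nat_lit 0) (cs (lf (nat_lit 10) (nat_lit 271)) (nd (nat_lit 271) (nat_lit 0) (cs (lf (nat_lit 11) (nat_lit 270)) (nd (nat_lit 296) (nat_lit 0) (cs (lf (nat_lit 5) (nat_lit 271)) (nd (nat_lit 318) (nat_lit 0) (cs (lf (nat_lit 30) (nat_lit 252)) (nd (nat_lit 295) (nat_lit 0) (cs (lf (nat_lit 0) (nat_lit 270)) (nd (nat_lit 251) (nat_lit 0) (cs (rf (nat_lit 22)) (lf (nat_lit 24) (nat_lit 229))))))))))))))))))) (cs (nd (nat_lit 272) (nat_lit 0) (cs (rf (nat_lit 23)) (cs (rf (nat_lit 24)) (nd (nat_lit 249) (nat_lit 0) (cs (lf (nat_lit 22) (nat_lit 249))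 (nd (nat_lit 271) (nat_lit 0) (cs (lf (nat_lit 23) (nat_lit 248)) (rf (nat_lit 25))))))))) (cs (rf (nat_lit 26)) (cs (nd (nat_lit 294) (nat_lit 0) (cs (rf (nat_lit 27)) (cs (rf (nat_lit 28)) (cs (nd (nat_lit 272) (nat_lit 0) (cs (lf (nat_lit 11) (nat_lit 271)) (nd (nat_lit 297) (nat_lit 0) (cs (lf (nat_lit 5) (nat_lit 272)) (rf (nat_lit 29)))))) (nd (nat_lit 276) (nat_lit 0) (cs (lf (nat_lit 10) (nat_lit 272)) (rf (nat_lit 30)))))))) (nd (nat_lit 272) (nat_lit 0) (cs (rf (nat_lit 31)) (cs (rf (nat_lit 32)) (cs (rf (nat_lit 19)) (rf (nat_lit 21)))))))))))))))) q25406 (by decide +kernel)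
def q25417 : Q := Q.p (nat_lit 0xc0000200000c00002000000000010000000000000000000000000000000000000000000000000000) (nat_lit 0x3cf000f38007cf0000000001000004000000000000000000000000000000000000000000000000000000000) (nat_lit 11)
theorem c25417 : QOK q25417 := cut [q13154] ⟨c13154, trivial⟩ (nd (nat_lit 252) (nat_lit 0) (cs (lf (nat_lit 25) (nat_lit 208)) (rf (nat_lit 0)))) q25417 (by decide +kernel)
def q25429 : Q := Q.p (nat_lit 0x40000200000c00003000000000000000000000000000000000000000000000000000000000000000) (nat_lit 0x3ef000fb8007cf0000000000000000000000000000000000000000000000000000000000000000000000000) (nat_lit 11)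
theorem c25429 : QOK q25429 := cut [q13154] ⟨c13154, trivial⟩ (nd (nat_lit 319) (nat_lit 0) (cs (lf (nat_lit 42) (nat_lit 252)) (rf (nat_lit 0)))) q25429 (by decide +kernel)
def q26027 : Q := Q.p (nat_lit 0xc00002000000000010000000000000000000000000000000000000000000000000000) (nat_lit 0x100000e40003fc003fe000ffc007ff000f380039700005000004000000000000000000000000000000000000000000000000000) (nat_lit 13)
theorem c26027 : QOK q26027 := cut [q22014, q23235, q25897, q25903, q25925, q12908, q14709, q22143, q22798, q23286, q25922, q25960, q13048, q21929, q25970, q12906, q25977, q25982, q25983, q26018, q14754, q22031, q14748] ⟨c22014, c23235, c25897, c25903, c25925, c12908, c14709, c22143, c22798, c23286, c25922, c25960, c13048, c21929, c25970, c12906, c25977, c25982, c25983, c26018, c14754, c22031, c14748, trivial⟩ (nd (nat_lit 297) (nat_lit 0) (cs (rf (nat_lit 0)) (cs (rf (nat_lit 1)) (cs (rf (nat_lit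 2)) (cs (rf (nat_lit 3)) (cs (rf (nat_lit 4)) (cs (nd (nat_lit 273) (nat_lit 0) (cs (rf (nat_lit 5)) (cs (rf (nat_lit 6)) (cs (rf (nat_lit 7)) (nd (nat_lit 276) (nat_lit 0) (cs (rf (nat_lit 8)) (cs (rf (nat_lit 9)) (cs (rf (nat_lit 10)) (nd (nat_lit 230) (nat_lit 0) (cs (lf (nat_lit 26) (nat_lit 208)) (nd (nat_lit 295) (nat_lit 0) (cs (lf (nat_lit 11) (nat_lit 272)) (nd (nat_lit 277) (nat_lit 0) (cs (lf (nat_lit 10) (nat_lit 273)) (nd (nat_lit 256) (nat_lit 0) (cs (lf (nat_lit 16) (nat_lit 252)) (nd (nat_lit 278) (nat_lit 0) (cs (lf (nat_lit 17) (nat_lit 253)) (rf (nat_lit 11)))))))))))))))))))) (cs (nd (nat_lit 319) (nat_lit 0) (cs (rf (nat_lit 12)) (cs (rf (nat_lit 13)) (rf (nat_lit 14))))) (cs (nd (nat_lit 296) (nat_lit 0) (cs (rf (nat_lit 15)) (cs (rf (nat_lit 16)) (cs (rf (nat_lit 17)) (rf (nat_lit 18)))))) (cs (rf (nat_lit 19)) (nd (nat_lit 319) (nat_lit 0) (cs (rf (nat_lit 12)) (cs (rf (nat_lit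 13)) (nd (nat_lit 320) (nat_lit 0) (cs (lf (nat_lit 29) (nat_lit 253)) (nd (nat_lit 321) (nat_lit 0) (cs (rf (nat_lit 20)) (cs (rf (nat_lit 21)) (nd (nat_lit 318) (nat_lit 0) (cs (lf (nat_lit 41) (nat_lit 252)) (nd (nat_lit 343) (nat_lit 0) (cs (lf (nat_lit 5) (nat_lit 318)) (nd (nat_lit 299) (nat_lit 0) (cs (lf (nat_lit 17) (nat_lit 296)) (nd (nat_lit 296) (nat_lit 0) (cs (lf (nat_lit 23) (nat_lit 295)) (nd (nat_lit 230) (nat_lit 0) (cs (lf (nat_lit 26) (nat_lit 208)) (rf (nat_lit 22)))))))))))))))))))))))))))))) q26027 (by decide +kernel)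
def q26446 : Q := Q.p (nat_lit 0x800002000000000016000000000000000000000000000000000000000000000000000) (nat_lit 0x800002800017c0001f0000f700009c0003f8000f0000fc0000f00000000000000000000000000000) (nat_lit 15)
theorem c26446 : QOK q26446 := cut [q24321, q24431, q24465, q1140, q1411, q3425, q12282, q2020, q24947] ⟨c24321, c24431, c24465, c1140, c1411, c3425, c12282, c2020, c24947, trivial⟩ (nd (nat_lit 207) (nat_lit 0) (cs (rf (nat_lit 0)) (cs (rf (nat_lit 1)) (cs (rf (nat_lit 2)) (nd (nat_lit 183) (nat_lit 0) (cs (lf (nat_lit 23) (nat_lit 182)) (nd (nat_lit 230) (nat_lit 0) (cs (lf (nat_lit 5) (nat_lit 205)) (nd (nat_lit 252) (nat_lit 0) (cs (rf (nat_lit 3)) (cs (rf (nat_lit 4)) (nd (nat_lit 250) (nat_lit 0) (cs (rf (nat_lit 5)) (cs (nd (nat_lit 297) (nat_lit 0) (cs (lf (nat_lit 42) (nat_lit 230)) (nd (nat_lit 251) (nat_lit 0) (cs (lf (nat_lit 5) (nat_lit 250)) (nd (nat_lit 271) (nat_lit 0) (cs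 (lf (nat_lit 10) (nat_lit 249)) (nd (nat_lit 249) (nat_lit 0) (cs (lf (nat_lit 11) (nat_lit 248)) (nd (nat_lit 229) (nat_lit 0) (cs (lf (nat_lit 12) (nat_lit 226)) (rf (nat_lit 6)))))))))))) (cs (nd (nat_lit 184) (nat_lit 0) (cs (nd (nat_lit 251) (nat_lit 0) (cs (lf (nat_lit 5) (nat_lit 250)) (nd (nat_lit 228) (nat_lit 0) (cs (lf (nat_lit 47) (nat_lit 161)) (lf (nat_lit 29) (nat_lit 184)))))) (cs (nd (nat_lit 251) (nat_lit 0) (cs (lf (nat_lit 5) (nat_lit 250)) (rf (nat_lit 7)))) (nd (nat_lit 161) (nat_lit 0) (cs (lf (nat_lit 43) (nat_lit 161)) (nd (nat_lit 139) (nat_lit 0) (cs (lf (nat_lit 24) (nat_lit 117)) (nd (nat_lit 297) (nat_lit 0) (cs (lf (nat_lit 42) (nat_lit 230)) (rf (nat_lit 8))))))))))) (nd (nat_lit 297) (nat_lit 0) (cs (lf (nat_lit 42) (nat_lit 230)) (nd (nat_lit 251) (nat_lit 0) (cs (lf (nat_lit 5) (nat_lit 250)) (nd (nat_lit 272) (nat_lit 0) (cs (lf (nat_lit 11) (nat_lit 249)) (lf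 (nat_lit 44) (nat_lit 183))))))))))))))))))))))) q26446 (by decide +kernel)
def q26628 : Q := Q.p (nat_lit 0x800002000000000016000000000000000000000000000000000000000000000000000) (nat_lit 0x80000b8000ef00017e0001fc000ff00008c0003f0003f0000fc0000000000000000000000000000000000) (nat_lit 16)
theorem c26628 : QOK q26628 := cut [q23535, q24332, q26194, q26549, q25029, q17120, q26528, q26472, q26275, q26449, q26555, q26563, q1140, q26583, q26577, q26615, q4940, q26622, q3997, q26626] ⟨c23535, c24332, c26194, c26549, c25029, c17120, c26528, c26472, c26275, c26449, c26555, c26563, c1140, c26583, c26577, c26615, c4940, c26622, c3997, c26626, trivial⟩ (nd (nat_lit 228) (nat_lit 0) (cs (nd (nat_lit 250) (nat_lit 0) (cs (rf (nat_lit 0)) (cs (rf (nat_lit 1)) (rf (nat_lit 2))))) (cs (rf (nat_lit 3)) (cs (nd (nat_lit 250) (nat_lit 0) (cs (rf (nat_lit 1)) (cs (rf (nat_lit 4)) (nd (nat_lit 272) (nat_lit 0) (cs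 (lf (nat_lit 47) (nat_lit 183)) (nd (nat_lit 273) (nat_lit 0) (cs (lf (nat_lit 29) (nat_lit 206)) (nd (nat_lit 185) (nat_lit 0) (cs (lf (nat_lit 34) (nat_lit 184)) (rf (nat_lit 5))))))))))) (cs (nd (nat_lit 227) (nat_lit 0) (cs (rf (nat_lit 6)) (cs (nd (nat_lit 207) (nat_lit 0) (cs (lf (nat_lit 11) (nat_lit 204)) (rf (nat_lit 7)))) (cs (nd (nat_lit 250) (nat_lit 0) (cs (rf (nat_lit 8)) (cs (rf (nat_lit 9)) (cs (nd (nat_lit 272) (nat_lit 0) (cs (lf (nat_lit 42) (nat_lit 205)) (nd (nat_lit 185) (nat_lit 0) (cs (lf (nat_lit 34) (nat_lit 184)) (nd (nat_lit 163) (nat_lit 0) (cs (lf (nat_lit 33) (nat_lit 162)) (rf (nat_lit 10)))))))) (cs (rf (nat_lit 11)) (nd (nat_lit 272) (nat_lit 0) (cs (lf (nat_lit 42) (nat_lit 205)) (nd (nat_lit 185) (nat_lit 0) (cs (lf (nat_lit 34) (nat_lit 184)) (nd (nat_lit 163) (nat_lit 0) (cs (lf (nat_lit 33) (nat_lit 162)) (nd (nat_lit 252) (nat_lit 0) (cs (lf (nat_lit 20) (nat_lit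 227)) (nd (nat_lit 271) (nat_lit 0) (cs (lf (nat_lit 41) (nat_lit 205)) (nd (nat_lit 230) (nat_lit 0) (cs (rf (nat_lit 12)) (lf (nat_lit 2) (nat_lit 227))))))))))))))))))) (cs (rf (nat_lit 13)) (nd (nat_lit 226) (nat_lit 0) (cs (lf (nat_lit 7) (nat_lit 204)) (nd (nat_lit 225) (nat_lit 0) (cs (lf (nat_lit 12) (nat_lit 202)) (nd (nat_lit 202) (nat_lit 0) (cs (nd (nat_lit 246) (nat_lit 0) (cs (lf (nat_lit 10) (nat_lit 224)) (nd (nat_lit 250) (nat_lit 0) (cs (rf (nat_lit 14)) (lf (nat_lit 5) (nat_lit 225)))))) (lf (nat_lit 22) (nat_lit 202))))))))))))) (cs (nd (nat_lit 250) (nat_lit 0) (cs (rf (nat_lit 1)) (cs (rf (nat_lit 2)) (cs (rf (nat_lit 8)) (rf (nat_lit 15)))))) (cs (nd (nat_lit 230) (nat_lit 0) (cs (nd (nat_lit 231) (nat_lit 0) (cs (lf (nat_lit 20) (nat_lit 205)) (lf (nat_lit 2) (nat_lit 205)))) (cs (nd (nat_lit 227) (nat_lit 0) (cs (nd (nat_lit 207) (nat_lit 0) (cs (lf (nat_lit 11) (nat_lit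 204)) (rf (nat_lit 16)))) (nd (nat_lit 252) (nat_lit 0) (cs (rf (nat_lit 12)) (lf (nat_lit 2) (nat_lit 227)))))) (cs (nd (nat_lit 231) (nat_lit 0) (cs (lf (nat_lit 42) (nat_lit 208)) (lf (nat_lit 20) (nat_lit 205)))) (rf (nat_lit 17)))))) (nd (nat_lit 250) (nat_lit 0) (cs (rf (nat_lit 1)) (cs (rf (nat_lit 15)) (cs (nd (nat_lit 227) (nat_lit 0) (cs (rf (nat_lit 9)) (nd (nat_lit 207) (nat_lit 0) (cs (lf (nat_lit 11) (nat_lit 204)) (rf (nat_lit 18)))))) (rf (nat_lit 19))))))))))))) q26628 (by decide +kernel)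
def q26810 : Q := Q.p (nat_lit 0x800002000000000016000000000000000000000000000000000000000000000000000) (nat_lit 0x98000bf000efc0017f8001fc001ff80001c0003f8000fe0003f0000900000000000000000000000000000) (nat_lit 16)
theorem c26810 : QOK q26810 := cut [q24332, q25029, q26638, q26711, q26767, q26769, q26626, q26772, q26775, q26258, q26275, q24373, q26655, q26650, q23759, q26647, q23811, q24372, q26780, q23724, q26795] ⟨c24332, c25029, c26638, c26711, c26767, c26769, c26626, c26772, c26775, c26258, c26275, c24373, c26655, c26650, c23759, c26647, c23811, c24372, c26780, c23724, c26795, trivial⟩ (nd (nat_lit 228) (nat_lit 0) (cs (nd (nat_lit 250) (nat_lit 0) (cs (rf (nat_lit 0)) (cs (rf (nat_lit 1)) (rf (nat_lit 2))))) (cs (rf (nat_lit 3)) (cs (rf (nat_lit 4)) (cs (rf (nat_lit 5)) (cs (nd (nat_lit 250) (nat_lit 0) (cs (rf (nat_lit 6)) (cs (rf (nat_lit 2)) (rf (nat_lit 7))))) (cs (rf (nat_lit 8)) (cs (nd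 (nat_lit 250) (nat_lit 0) (cs (rf (nat_lit 0)) (cs (rf (nat_lit 9)) (cs (rf (nat_lit 10)) (rf (nat_lit 6)))))) (cs (nd (nat_lit 204) (nat_lit 0) (cs (rf (nat_lit 11)) (cs (rf (nat_lit 12)) (cs (nd (nat_lit 227) (nat_lit 0) (cs (rf (nat_lit 13)) (nd (nat_lit 249) (nat_lit 0) (cs (rf (nat_lit 14)) (cs (rf (nat_lit 15)) (nd (nat_lit 271) (nat_lit 0) (cs (lf (nat_lit 30) (nat_lit 205)) (lf (nat_lit 47) (nat_lit 182))))))))) (nd (nat_lit 203) (nat_lit 0) (cs (rf (nat_lit 16)) (cs (rf (nat_lit 17)) (nd (nat_lit 161) (nat_lit 0) (cs (nd (nat_lit 180) (nat_lit 0) (cs (lf (nat_lit 22) (nat_lit 180)) (nd (nat_lit 224) (nat_lit 0) (cs (lf (nat_lit 10) (nat_lit 202)) (nd (nat_lit 184) (nat_lit 0) (cs (lf (nat_lit 17) (nat_lit 181)) (nd (nat_lit 162) (nat_lit 0) (cs (lf (nat_lit 47) (nat_lit 139)) (rf (nat_lit 18)))))))))) (cs (nd (nat_lit 180) (nat_lit 0) (cs (lf (nat_lit 22) (nat_lit 180)) (nd (nat_lit 224)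 (nat_lit 0) (cs (lf (nat_lit 10) (nat_lit 202)) (nd (nat_lit 184) (nat_lit 0) (cs (lf (nat_lit 17) (nat_lit 181)) (nd (nat_lit 250) (nat_lit 0) (cs (lf (nat_lit 46) (nat_lit 161)) (nd (nat_lit 249) (nat_lit 0) (cs (lf (nat_lit 41) (nat_lit 183)) (nd (nat_lit 162) (nat_lit 0) (cs (lf (nat_lit 40) (nat_lit 161)) (nd (nat_lit 141) (nat_lit 0) (cs (lf (nat_lit 34) (nat_lit 140)) (nd (nat_lit 119) (nat_lit 0) (cs (lf (nat_lit 33) (nat_lit 118)) (rf (nat_lit 19)))))))))))))))))) (cs (nd (nat_lit 183) (nat_lit 0) (cs (lf (nat_lit 24) (nat_lit 139)) (nd (nat_lit 180) (nat_lit 0) (cs (lf (nat_lit 22) (nat_lit 180)) (nd (nat_lit 227) (nat_lit 0) (cs (lf (nat_lit 29) (nat_lit 161)) (nd (nat_lit 226) (nat_lit 0) (cs (lf (nat_lit 41) (nat_lit 160)) (nd (nat_lit 224) (nat_lit 0) (cs (lf (nat_lit 13) (nat_lit 202)) (nd (nat_lit 140) (nat_lit 0) (cs (lf (nat_lit 34) (nat_lit 139)) (nd (nat_lit 160) (nat_lit 0)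 (cs (lf (nat_lit 47) (nat_lit 138)) (nd (nat_lit 182) (nat_lit 0) (cs (lf (nat_lit 42) (nat_lit 160)) (rf (nat_lit 20)))))))))))))))))) (nd (nat_lit 183) (nat_lit 0) (cs (lf (nat_lit 24) (nat_lit 139)) (nd (nat_lit 184) (nat_lit 0) (cs (lf (nat_lit 42) (nat_lit 161)) (lf (nat_lit 17) (nat_lit 181))))))))))))))))) (nd (nat_lit 250) (nat_lit 0) (cs (rf (nat_lit 0)) (rf (nat_lit 7))))))))))))) q26810 (by decide +kernel)
def q26890 : Q := Q.p (nat_lit 0x800002000000000016000000000000000000000000000000000000000000000000000) (nat_lit 0x800002b00017c0001f8000fb80009c0003f8001f00003e0000780001400000000000000000000000) (nat_lit 13)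
theorem c26890 : QOK q26890 := cut [q1225, q26622, q26854, q26857, q24373, q26655, q26775, q26863, q8660, q11440, q11444, q24397, q23958, q26869, q26872, q26887] ⟨c1225, c26622, c26854, c26857, c24373, c26655, c26775, c26863, c8660, c11440, c11444, c24397, c23958, c26869, c26872, c26887, trivial⟩ (nd (nat_lit 230) (nat_lit 0) (cs (rf (nat_lit 0)) (cs (rf (nat_lit 1)) (nd (nat_lit 204) (nat_lit 0) (cs (rf (nat_lit 2)) (cs (rf (nat_lit 3)) (cs (nd (nat_lit 228) (nat_lit 0) (cs (rf (nat_lit 4)) (cs (rf (nat_lit 5)) (rf (nat_lit 6))))) (nd (nat_lit 182) (nat_lit 0) (cs (nd (nat_lit 207) (nat_lit 0) (cs (lf (nat_lit 23) (nat_lit 181)) (lf (nat_lit 22) (nat_lit 182)))) (cs (rf (nat_lit 7)) (cs (nd (nat_lit 183) (nat_lit 0) (cs (lf (nat_lit 19) (nat_lit 182)) (nd (nat_lit 161) (nat_lit 0) (cs (rf (nat_lit 8)) (cs (rf (nat_lit 9)) (cs (rf (nat_lit 10)) (cs (nd (nat_lit 227) (nat_lit 0) (cs (rf (nat_lit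 11)) (cs (nd (nat_lit 138) (nat_lit 0) (cs (lf (nat_lit 46) (nat_lit 138)) (nd (nat_lit 228) (nat_lit 0) (cs (lf (nat_lit 29) (nat_lit 161)) (nd (nat_lit 203) (nat_lit 0) (cs (lf (nat_lit 0) (nat_lit 202)) (nd (nat_lit 162) (nat_lit 0) (cs (lf (nat_lit 35) (nat_lit 139)) (nd (nat_lit 184) (nat_lit 0) (cs (lf (nat_lit 17) (nat_lit 181)) (rf (nat_lit 12)))))))))))) (rf (nat_lit 13))))) (nd (nat_lit 139) (nat_lit 0) (cs (lf (nat_lit 36) (nat_lit 116)) (nd (nat_lit 118) (nat_lit 0) (cs (lf (nat_lit 34) (nat_lit 117)) (nd (nat_lit 138) (nat_lit 0) (cs (lf (nat_lit 47) (nat_lit 116)) (nd (nat_lit 160) (nat_lit 0) (cs (lf (nat_lit 42) (nat_lit 138)) (nd (nat_lit 115) (nat_lit 0) (cs (nd (nat_lit 203) (nat_lit 0) (cs (lf (nat_lit 41) (nat_lit 137)) (rf (nat_lit 14)))) (lf (nat_lit 46) (nat_lit 115))))))))))))))))))) (rf (nat_lit 15))))))))))))) q26890 (by decide +kernel)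
def q27345 : Q := Q.p (nat_lit 0x14000010000000000000000000000000000000000000000000000) (nat_lit 0x200001c0003f0000fe0006f0002bc0002f8003fe000ff0001fc0002000000000000000000000000) (nat_lit 15)
theorem c27345 : QOK q27345 := cut [q13616, q3509, q24358, q24954, q18005, q27138, q27140, q27341, q27342] ⟨c13616, c3509, c24358, c24954, c18005, c27138, c27140, c27341, c27342, trivial⟩ (nd (nat_lit 183) (nat_lit 0) (cs (rf (nat_lit 0)) (cs (nd (nat_lit 207) (nat_lit 0) (cs (lf (nat_lit 18) (nat_lit 183)) (nd (nat_lit 205) (nat_lit 0) (cs (rf (nat_lit 1)) (cs (rf (nat_lit 2)) (cs (rf (nat_lit 3)) (nd (nat_lit 204) (nat_lit 0) (cs (rf (nat_lit 4)) (cs (nd (nat_lit 229) (nat_lit 0) (cs (lf (nat_lit 5) (nat_lit 204)) (rf (nat_lit 5)))) (nd (nat_lit 229) (nat_lit 0) (cs (lf (nat_lit 5) (nat_lit 204)) (nd (nat_lit 251) (nat_lit 0) (cs (lf (nat_lit 42) (nat_lit 184)) (nd (nat_lit 140) (nat_lit 0) (cs (lf (nat_lit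 25) (nat_lit 140)) (nd (nat_lit 203) (nat_lit 0) (cs (lf (nat_lit 12) (nat_lit 180)) (rf (nat_lit 6))))))))))))))))))) (cs (rf (nat_lit 7)) (cs (rf (nat_lit 8)) (nd (nat_lit 207) (nat_lit 0) (cs (lf (nat_lit 18) (nat_lit 183)) (nd (nat_lit 182) (nat_lit 0) (cs (lf (nat_lit 21) (nat_lit 182)) (lf (nat_lit 3) (nat_lit 182))))))))))) q27345 (by decide +kernel)
def q27756 : Q := Q.p (nat_lit 0x800002000000000014000000000000000000000000000000000000000000000000000) (nat_lit 0x80000e00003a000ef80017f0001fc007bf800ebc007bf0007fc001ff0000f80003e00002000000000000000000) (nat_lit 16)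
theorem c27756 : QOK q27756 := cut [q27634, q27671, q4164, q27675, q27698, q23605, q24654, q26194, q26276, q24325, q27674, q24376, q5168, q18354, q24438, q26769, q27702, q1496, q3392, q4135, q23567, q24929, q4157, q14148, q6838, q23599, q27635, q27749, q24332, q23598, q27681, q23725] ⟨c27634, c27671, c4164, c27675, c27698, c23605, c24654, c26194, c26276, c24325, c27674, c24376, c5168, c18354, c24438, c26769, c27702, c1496, c3392, c4135, c23567, c24929, c4157, c14148, c6838, c23599, c27635, c27749, c24332, c23598, c27681, c23725, trivial⟩ (nd (nat_lit 228) (nat_lit 0) (cs (rf (nat_lit 0)) (cs (rf (nat_lit 1)) (cs (nd (nat_lit 207) (nat_lit 0) (cs (rf (nat_lit 2)) (cs (rf (nat_lit 3)) (rf (nat_lit 4))))) (cs (nd (nat_lit 250) (nat_lit 0) (cs (rf (nat_lit 5)) (cs (rf (nat_lit 6)) (cs (rf (nat_lit 7)) (rf (nat_lit 8)))))) (cs (nd (nat_lit 207) (nat_lit 0) (cs (rf (nat_lit 9)) (cs (rf (nat_lit 3)) (nd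 (nat_lit 209) (nat_lit 0) (cs (lf (nat_lit 11) (nat_lit 205)) (nd (nat_lit 187) (nat_lit 0) (cs (lf (nat_lit 17) (nat_lit 184)) (rf (nat_lit 10))))))))) (cs (nd (nat_lit 207) (nat_lit 0) (cs (rf (nat_lit 2)) (cs (rf (nat_lit 11)) (rf (nat_lit 3))))) (cs (nd (nat_lit 207) (nat_lit 0) (cs (rf (nat_lit 2)) (cs (rf (nat_lit 3)) (nd (nat_lit 205) (nat_lit 0) (cs (rf (nat_lit 12)) (cs (rf (nat_lit 13)) (cs (rf (nat_lit 14)) (rf (nat_lit 15))))))))) (cs (nd (nat_lit 207) (nat_lit 0) (cs (rf (nat_lit 2)) (cs (rf (nat_lit 16)) (cs (nd (nat_lit 250) (nat_lit 0) (cs (rf (nat_lit 17)) (cs (rf (nat_lit 18)) (cs (nd (nat_lit 184) (nat_lit 0) (cs (rf (nat_lit 19)) (cs (nd (nat_lit 161) (nat_lit 0) (cs (lf (nat_lit 46) (nat_lit 161)) (nd (nat_lit 162) (nat_lit 0) (cs (lf (nat_lit 47) (nat_lit 139)) (rf (nat_lit 20)))))) (rf (nat_lit 21))))) (nd (nat_lit 272) (nat_lit 0) (cs (rf (nat_lit 22)) (rf (nat_lit 23))))))))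 (nd (nat_lit 205) (nat_lit 0) (cs (rf (nat_lit 12)) (cs (rf (nat_lit 13)) (cs (rf (nat_lit 14)) (nd (nat_lit 226) (nat_lit 0) (cs (lf (nat_lit 10) (nat_lit 204)) (nd (nat_lit 204) (nat_lit 0) (cs (lf (nat_lit 11) (nat_lit 203)) (nd (nat_lit 203) (nat_lit 0) (cs (lf (nat_lit 5) (nat_lit 203)) (nd (nat_lit 184) (nat_lit 0) (cs (lf (nat_lit 17) (nat_lit 181)) (nd (nat_lit 183) (nat_lit 0) (cs (lf (nat_lit 12) (nat_lit 180)) (rf (nat_lit 24)))))))))))))))))))) (cs (nd (nat_lit 207) (nat_lit 0) (cs (rf (nat_lit 2)) (nd (nat_lit 250) (nat_lit 0) (cs (rf (nat_lit 18)) (cs (rf (nat_lit 25)) (cs (rf (nat_lit 6)) (rf (nat_lit 26)))))))) (cs (rf (nat_lit 27)) (cs (nd (nat_lit 207) (nat_lit 0) (cs (rf (nat_lit 2)) (cs (rf (nat_lit 3)) (nd (nat_lit 205) (nat_lit 0) (cs (rf (nat_lit 12)) (cs (nd (nat_lit 250) (nat_lit 0) (cs (rf (nat_lit 5)) (cs (rf (nat_lit 28)) (nd (nat_lit 272) (nat_lit 0) (cs (rf (nat_lit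 29)) (nd (nat_lit 227) (nat_lit 0) (cs (lf (nat_lit 42) (nat_lit 205)) (nd (nat_lit 207) (nat_lit 0) (cs (lf (nat_lit 11) (nat_lit 204)) (lf (nat_lit 35) (nat_lit 184))))))))))) (rf (nat_lit 30)))))))) (nd (nat_lit 207) (nat_lit 0) (cs (rf (nat_lit 2)) (cs (rf (nat_lit 4)) (cs (rf (nat_lit 16)) (nd (nat_lit 250) (nat_lit 0) (cs (rf (nat_lit 25)) (cs (rf (nat_lit 6)) (cs (nd (nat_lit 184) (nat_lit 0) (cs (rf (nat_lit 31)) (rf (nat_lit 21)))) (nd (nat_lit 272) (nat_lit 0) (cs (lf (nat_lit 35) (nat_lit 184)) (rf (nat_lit 23)))))))))))))))))))))))) q27756 (by decide +kernel)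
def q27882 : Q := Q.p (nat_lit 0x800002000000000014000000000000000000000000000000000000000000000000000) (nat_lit 0x580007e0001d8000ee00017c0001f0003de0006b8001bf0004e80003a0000200000000000000000000000000000) (nat_lit 17)
theorem c27882 : QOK q27882 := cut [q12651, q26057, q26060, q26371, q27781, q26181, q26194, q3386, q3767, q14145, q27790, q27833, q27844, q27848, q13430, q26276, q27864, q2065, q4011] ⟨c12651, c26057, c26060, c26371, c27781, c26181, c26194, c3386, c3767, c14145, c27790, c27833, c27844, c27848, c13430, c26276, c27864, c2065, c4011, trivial⟩ (nd (nat_lit 231) (nat_lit 0) (cs (rf (nat_lit 0)) (cs (rf (nat_lit 1)) (cs (rf (nat_lit 2)) (cs (rf (nat_lit 3)) (cs (nd (nat_lit 250) (nat_lit 0) (cs (rf (nat_lit 4)) (cs (nd (nat_lit 228) (nat_lit 0) (cs (rf (nat_lit 5)) (cs (rf (nat_lit 6)) (cs (nd (nat_lit 184) (nat_lit 0) (cs (rf (nat_lit 7)) (cs (rf (nat_lit 8)) (cs (rf (nat_lit 9)) (nd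 (nat_lit 251) (nat_lit 0) (cs (lf (nat_lit 29) (nat_lit 184)) (nd (nat_lit 249) (nat_lit 0) (cs (lf (nat_lit 41) (nat_lit 183)) (nd (nat_lit 185) (nat_lit 0) (cs (lf (nat_lit 35) (nat_lit 162)) (nd (nat_lit 183) (nat_lit 0) (cs (lf (nat_lit 47) (nat_lit 161)) (nd (nat_lit 230) (nat_lit 0) (cs (lf (nat_lit 42) (nat_lit 208)) (nd (nat_lit 207) (nat_lit 0) (cs (lf (nat_lit 0) (nat_lit 182)) (lf (nat_lit 0) (nat_lit 205)))))))))))))))))) (rf (nat_lit 10)))))) (cs (rf (nat_lit 11)) (cs (rf (nat_lit 12)) (cs (nd (nat_lit 297) (nat_lit 0) (cs (lf (nat_lit 46) (nat_lit 208)) (nd (nat_lit 210) (nat_lit 0) (cs (lf (nat_lit 34) (nat_lit 209)) (nd (nat_lit 320) (nat_lit 0) (cs (lf (nat_lit 28) (nat_lit 231)) (nd (nat_lit 319) (nat_lit 0) (cs (lf (nat_lit 29) (nat_lit 253)) (nd (nat_lit 340) (nat_lit 0) (cs (lf (nat_lit 40) (nat_lit 252)) (nd (nat_lit 341) (nat_lit 0) (cs (lf (nat_lit 41) (nat_lit 274)) (nd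 (nat_lit 338) (nat_lit 0) (cs (lf (nat_lit 13) (nat_lit 316)) (nd (nat_lit 252) (nat_lit 0) (cs (lf (nat_lit 46) (nat_lit 252)) (nd (nat_lit 251) (nat_lit 0) (cs (lf (nat_lit 5) (nat_lit 250)) (nd (nat_lit 228) (nat_lit 0) (cs (lf (nat_lit 23) (nat_lit 227)) (rf (nat_lit 13)))))))))))))))))))))) (cs (nd (nat_lit 230) (nat_lit 0) (cs (lf (nat_lit 42) (nat_lit 208)) (nd (nat_lit 207) (nat_lit 0) (cs (lf (nat_lit 0) (nat_lit 205)) (nd (nat_lit 232) (nat_lit 0) (cs (lf (nat_lit 18) (nat_lit 207)) (nd (nat_lit 252) (nat_lit 0) (cs (lf (nat_lit 13) (nat_lit 228)) (nd (nat_lit 274) (nat_lit 0) (cs (lf (nat_lit 47) (nat_lit 185)) (rf (nat_lit 14)))))))))))) (cs (nd (nat_lit 228) (nat_lit 0) (cs (rf (nat_lit 15)) (cs (rf (nat_lit 10)) (cs (nd (nat_lit 230) (nat_lit 0) (cs (lf (nat_lit 42) (nat_lit 208)) (rf (nat_lit 16)))) (nd (nat_lit 297) (nat_lit 0) (cs (lf (nat_lit 46) (nat_lit 208)) (nd (nat_lit 232)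 (nat_lit 0) (cs (lf (nat_lit 35) (nat_lit 209)) (nd (nat_lit 251) (nat_lit 0) (cs (lf (nat_lit 14) (nat_lit 228)) (nd (nat_lit 184) (nat_lit 0) (cs (lf (nat_lit 29) (nat_lit 184)) (rf (nat_lit 7)))))))))))))) (nd (nat_lit 297) (nat_lit 0) (cs (lf (nat_lit 46) (nat_lit 208)) (nd (nat_lit 210) (nat_lit 0) (cs (lf (nat_lit 34) (nat_lit 209)) (nd (nat_lit 320) (nat_lit 0) (cs (lf (nat_lit 28) (nat_lit 231)) (nd (nat_lit 319) (nat_lit 0) (cs (lf (nat_lit 29) (nat_lit 253)) (nd (nat_lit 340) (nat_lit 0) (cs (lf (nat_lit 40) (nat_lit 252)) (nd (nat_lit 341) (nat_lit 0) (cs (lf (nat_lit 41) (nat_lit 274)) (nd (nat_lit 252) (nat_lit 0) (cs (lf (nat_lit 46) (nat_lit 252)) (nd (nat_lit 251) (nat_lit 0) (cs (lf (nat_lit 5) (nat_lit 250)) (rf (nat_lit 17)))))))))))))))))))))))))) (nd (nat_lit 230) (nat_lit 0) (cs (lf (nat_lit 42) (nat_lit 208)) (nd (nat_lit 207) (nat_lit 0) (cs (lf (nat_lit 0) (nat_lit 205))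 (rf (nat_lit 18)))))))))))) q27882 (by decide +kernel)
def q27907 : Q := Q.p (nat_lit 0x80000200000400001c000000000000000000000000000000000000000000000000000) (nat_lit 0x800002000007c0001f000030000e30003be0003f0001f80001e00002800000000000000000000000) (nat_lit 15)
theorem c27907 : QOK q27907 := cut [q6790, q23923, q24929, q12505, q27138, q735, q4363, q864, q3851, q674, q22367, q817] ⟨c6790, c23923, c24929, c12505, c27138, c735, c4363, c864, c3851, c674, c22367, c817, trivial⟩ (nd (nat_lit 184) (nat_lit 0) (cs (rf (nat_lit 0)) (cs (rf (nat_lit 1)) (cs (rf (nat_lit 2)) (nd (nat_lit 229) (nat_lit 0) (cs (rf (nat_lit 3)) (cs (rf (nat_lit 4)) (cs (nd (nat_lit 185) (nat_lit 0) (cs (rf (nat_lit 5)) (cs (nd (nat_lit 204) (nat_lit 0) (cs (lf (nat_lit 1) (nat_lit 204)) (nd (nat_lit 252) (nat_lit 0) (cs (lf (nat_lit 42) (nat_lit 185)) (nd (nat_lit 297) (nat_lit 0) (cs (lf (nat_lit 42) (nat_lit 230)) (nd (nat_lit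 209) (nat_lit 0) (cs (lf (nat_lit 18) (nat_lit 184)) (nd (nat_lit 187) (nat_lit 0) (cs (lf (nat_lit 17) (nat_lit 184)) (nd (nat_lit 143) (nat_lit 0) (cs (lf (nat_lit 37) (nat_lit 142)) (nd (nat_lit 251) (nat_lit 0) (cs (lf (nat_lit 42) (nat_lit 184)) (nd (nat_lit 250) (nat_lit 0) (cs (lf (nat_lit 41) (nat_lit 184)) (nd (nat_lit 249) (nat_lit 0) (cs (lf (nat_lit 12) (nat_lit 226)) (nd (nat_lit 271) (nat_lit 0) (cs (lf (nat_lit 11) (nat_lit 248)) (lf (nat_lit 38) (nat_lit 183)))))))))))))))))))))) (nd (nat_lit 251) (nat_lit 0) (cs (lf (nat_lit 42) (nat_lit 184)) (nd (nat_lit 204) (nat_lit 0) (cs (lf (nat_lit 1) (nat_lit 204)) (nd (nat_lit 250) (nat_lit 0) (cs (lf (nat_lit 41) (nat_lit 184)) (rf (nat_lit 6))))))))))) (nd (nat_lit 162) (nat_lit 0) (cs (rf (nat_lit 7)) (cs (rf (nat_lit 8)) (nd (nat_lit 209) (nat_lit 0) (cs (rf (nat_lit 9)) (cs (rf (nat_lit 10)) (nd (nat_lit 204) (nat_lit 0) (cs (lf (nat_lit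 1) (nat_lit 204)) (nd (nat_lit 187) (nat_lit 0) (cs (lf (nat_lit 17) (nat_lit 184)) (nd (nat_lit 143) (nat_lit 0) (cs (lf (nat_lit 37) (nat_lit 142)) (nd (nat_lit 252) (nat_lit 0) (cs (lf (nat_lit 30) (nat_lit 186)) (nd (nat_lit 297) (nat_lit 0) (cs (lf (nat_lit 42) (nat_lit 230)) (nd (nat_lit 163) (nat_lit 0) (cs (rf (nat_lit 11)) (lf (nat_lit 25) (nat_lit 163)))))))))))))))))))))))))))) q27907 (by decide +kernel)
def q30948 : Q := Q.p (nat_lit 0xc0000000000200000800002000000000000000000000000000000000000000000000000000000000000000) (nat_lit 0xe0000ff0007f80007e000738001f6000fd8003f000039000000000000000000000000000000000000000000000000000000000000000) (nat_lit 15)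
theorem c30948 : QOK q30948 := cut [q11848, q30881, q29427, q30598, q29132, q29136, q30748, q30888, q30019, q28385, q29142, q30184, q30928, q13084, q30615, q30617, q29506, q29548, q29713] ⟨c11848, c30881, c29427, c30598, c29132, c29136, c30748, c30888, c30019, c28385, c29142, c30184, c30928, c13084, c30615, c30617, c29506, c29548, c29713, trivial⟩ (nd (nat_lit 320) (nat_lit 0) (cs (rf (nat_lit 0)) (cs (rf (nat_lit 1)) (cs (nd (nat_lit 321) (nat_lit 0) (cs (rf (nat_lit 2)) (cs (rf (nat_lit 3)) (cs (nd (nat_lit 341) (nat_lit 0) (cs (rf (nat_lit 4)) (cs (rf (nat_lit 5)) (rf (nat_lit 6))))) (cs (rf (nat_lit 7)) (cs (nd (nat_lit 365) (nat_lit 0) (cs (rf (nat_lit 8)) (cs (nd (nat_lit 341) (nat_lit 0) (cs (rf (nat_lit 4)) (cs (rf (nat_lit 5)) (nd (nat_lit 276) (nat_lit 0) (cs (lf (nat_lit 44) (nat_lit 253)) (nd (nat_lit 278) (nat_lit 0) (cs (rf (nat_lit 9)) (nd (nat_lit 322) (nat_lit 0) (cs (lf (nat_lit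 6) (nat_lit 319)) (rf (nat_lit 10))))))))))) (nd (nat_lit 387) (nat_lit 0) (cs (lf (nat_lit 42) (nat_lit 320)) (nd (nat_lit 388) (nat_lit 0) (cs (lf (nat_lit 29) (nat_lit 321)) (nd (nat_lit 386) (nat_lit 0) (cs (lf (nat_lit 41) (nat_lit 320)) (rf (nat_lit 11))))))))))) (cs (rf (nat_lit 12)) (nd (nat_lit 299) (nat_lit 0) (cs (nd (nat_lit 276) (nat_lit 0) (cs (lf (nat_lit 44) (nat_lit 253)) (nd (nat_lit 277) (nat_lit 0) (cs (lf (nat_lit 36) (nat_lit 254)) (rf (nat_lit 13)))))) (cs (nd (nat_lit 298) (nat_lit 0) (cs (lf (nat_lit 45) (nat_lit 253)) (nd (nat_lit 365) (nat_lit 0) (cs (lf (nat_lit 42) (nat_lit 298)) (nd (nat_lit 300) (nat_lit 0) (cs (lf (nat_lit 35) (nat_lit 277)) (nd (nat_lit 322) (nat_lit 0) (cs (lf (nat_lit 18) (nat_lit 297)) (nd (nat_lit 301) (nat_lit 0) (cs (lf (nat_lit 6) (nat_lit 298)) (nd (nat_lit 279) (nat_lit 0) (cs (lf (nat_lit 17) (nat_lit 276)) (nd (nat_lit 366) (nat_lit 0)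 (cs (lf (nat_lit 29) (nat_lit 299)) (lf (nat_lit 31) (nat_lit 278)))))))))))))))) (cs (nd (nat_lit 277) (nat_lit 0) (cs (lf (nat_lit 36) (nat_lit 254)) (nd (nat_lit 256) (nat_lit 0) (cs (lf (nat_lit 34) (nat_lit 255)) (nd (nat_lit 344) (nat_lit 0) (cs (lf (nat_lit 29) (nat_lit 277)) (nd (nat_lit 345) (nat_lit 0) (cs (lf (nat_lit 18) (nat_lit 320)) (rf (nat_lit 14)))))))))) (nd (nat_lit 277) (nat_lit 0) (cs (lf (nat_lit 36) (nat_lit 254)) (nd (nat_lit 344) (nat_lit 0) (cs (lf (nat_lit 29) (nat_lit 277)) (rf (nat_lit 15))))))))))))))))) (nd (nat_lit 364) (nat_lit 0) (cs (lf (nat_lit 45) (nat_lit 275)) (nd (nat_lit 386) (nat_lit 0) (cs (rf (nat_lit 16)) (cs (rf (nat_lit 17)) (rf (nat_lit 18))))))))))) q30948 (by decide +kernel)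
def q32232 : Q := Q.p (nat_lit 0x2000000000010000040000000000000000000000000000000000000000000000) (nat_lit 0x80000fc0009f80037c001cf001fbe007ff000ffe001ff0005f80003a000080000000000000) (nat_lit 18)
theorem c32232 : QOK q32232 := cut [q18451, q617, q619, q18163, q11035, q4806, q32053, q2270, q3803, q32056, q32057, q4829, q32070, q4850, q4854, q5673, q19754, q32204, q5534, q8581, q32206, q32221, q20137, q20142, q20152, q20157, q32226] ⟨c18451, c617, c619, c18163, c11035, c4806, c32053, c2270, c3803, c32056, c32057, c4829, c32070, c4850, c4854, c5673, c19754, c32204, c5534, c8581, c32206, c32221, c20137, c20142, c20152, c20157, c32226, trivial⟩ (nd (nat_lit 164) (nat_lit 0) (cs (rf (nat_lit 0)) (cs (nd (nat_lit 142) (nat_lit 0) (cs (rf (nat_lit 1)) (cs (rf (nat_lit 2)) (cs (rf (nat_lit 3)) (nd (nat_lit 119) (nat_lit 0) (cs (lf (nat_lit 46) (nat_lit 119)) (nd (nat_lit 207) (nat_lit 0) (cs (lf (nat_lit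 41) (nat_lit 141)) (nd (nat_lit 143) (nat_lit 0) (cs (lf (nat_lit 35) (nat_lit 120)) (nd (nat_lit 230) (nat_lit 0) (cs (lf (nat_lit 34) (nat_lit 142)) (nd (nat_lit 252) (nat_lit 0) (cs (lf (nat_lit 29) (nat_lit 186)) (nd (nat_lit 274) (nat_lit 0) (cs (lf (nat_lit 47) (nat_lit 185)) (rf (nat_lit 4)))))))))))))))))) (cs (nd (nat_lit 163) (nat_lit 0) (cs (rf (nat_lit 5)) (cs (rf (nat_lit 6)) (cs (nd (nat_lit 162) (nat_lit 0) (cs (rf (nat_lit 7)) (cs (rf (nat_lit 8)) (cs (rf (nat_lit 9)) (cs (nd (nat_lit 165) (nat_lit 0) (cs (rf (nat_lit 10)) (nd (nat_lit 140) (nat_lit 0) (cs (lf (nat_lit 23) (nat_lit 139)) (nd (nat_lit 183) (nat_lit 0) (cs (lf (nat_lit 10) (nat_lit 161)) (rf (nat_lit 11)))))))) (rf (nat_lit 12))))))) (nd (nat_lit 165) (nat_lit 0) (cs (rf (nat_lit 13)) (cs (rf (nat_lit 14)) (cs (nd (nat_lit 162) (nat_lit 0) (cs (rf (nat_lit 15)) (rf (nat_lit 10)))) (nd (nat_lit 162) (nat_lit 0) (cs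 (rf (nat_lit 7)) (cs (rf (nat_lit 15)) (cs (rf (nat_lit 9)) (nd (nat_lit 139) (nat_lit 0) (cs (lf (nat_lit 22) (nat_lit 139)) (nd (nat_lit 187) (nat_lit 0) (cs (lf (nat_lit 5) (nat_lit 162)) (nd (nat_lit 230) (nat_lit 0) (cs (lf (nat_lit 30) (nat_lit 164)) (nd (nat_lit 229) (nat_lit 0) (cs (lf (nat_lit 41) (nat_lit 163)) (rf (nat_lit 16)))))))))))))))))))))) (cs (rf (nat_lit 17)) (cs (nd (nat_lit 230) (nat_lit 0) (cs (rf (nat_lit 18)) (cs (rf (nat_lit 19)) (rf (nat_lit 20))))) (cs (rf (nat_lit 21)) (nd (nat_lit 142) (nat_lit 0) (cs (rf (nat_lit 3)) (cs (rf (nat_lit 22)) (cs (rf (nat_lit 23)) (cs (rf (nat_lit 24)) (cs (rf (nat_lit 25)) (nd (nat_lit 119) (nat_lit 0) (cs (lf (nat_lit 46) (nat_lit 119)) (nd (nat_lit 120) (nat_lit 0) (cs (lf (nat_lit 47) (nat_lit 97)) (nd (nat_lit 185) (nat_lit 0) (cs (lf (nat_lit 41) (nat_lit 119)) (nd (nat_lit 98) (nat_lit 0) (cs (lf (nat_lit 40) (nat_lit 97)) (rf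 (nat_lit 26))))))))))))))))))))))) q32232 (by decide +kernel)
def q32789 : Q := Q.p (nat_lit 0x2000000000010000040000140000000000000000000000000000000000000000) (nat_lit 0x80000380001e00003c001cfc007be001e9c007be000fe0003be0000e000020000000000000) (nat_lit 14)
theorem c32789 : QOK q32789 := cut [q17806, q32622, q2497, q32628, q18531, q32633, q32637, q32638, q4816, q32646, q32650, q32613, q32666, q32669, q32671, q32692, q32710, q32712, q19066, q17226, q32719, q456, q32721, q32724, q21365, q20798, q32170, q32762, q32764, q32788] ⟨c17806, c32622, c2497, c32628, c18531, c32633, c32637, c32638, c4816, c32646, c32650, c32613, c32666, c32669, c32671, c32692, c32710, c32712, c19066, c17226, c32719, c456, c32721, c32724, c21365, c20798, c32170, c32762, c32764, c32788, trivial⟩ (nd (nat_lit 184) (nat_lit 0) (cs (nd (nat_lit 163) (nat_lit 0) (cs (nd (nat_lit 206) (nat_lit 0) (cs (rf (nat_lit 0)) (cs (nd (nat_lit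 228) (nat_lit 0) (cs (lf (nat_lit 35) (nat_lit 140)) (nd (nat_lit 227) (nat_lit 0) (cs (lf (nat_lit 41) (nat_lit 161)) (nd (nat_lit 229) (nat_lit 0) (cs (lf (nat_lit 29) (nat_lit 162)) (nd (nat_lit 207) (nat_lit 0) (cs (lf (nat_lit 12) (nat_lit 204)) (rf (nat_lit 1)))))))))) (cs (nd (nat_lit 140) (nat_lit 0) (cs (rf (nat_lit 2)) (rf (nat_lit 3)))) (nd (nat_lit 205) (nat_lit 0) (cs (rf (nat_lit 4)) (cs (rf (nat_lit 5)) (cs (rf (nat_lit 6)) (nd (nat_lit 187) (nat_lit 0) (cs (lf (nat_lit 14) (nat_lit 183)) (nd (nat_lit 188) (nat_lit 0) (cs (lf (nat_lit 18) (nat_lit 163)) (rf (nat_lit 7)))))))))))))) (cs (nd (nat_lit 165) (nat_lit 0) (cs (lf (nat_lit 11) (nat_lit 161)) (rf (nat_lit 8)))) (cs (nd (nat_lit 165) (nat_lit 0) (cs (rf (nat_lit 8)) (rf (nat_lit 9)))) (rf (nat_lit 10)))))) (cs (nd (nat_lit 185) (nat_lit 0) (cs (rf (nat_lit 11)) (cs (rf (nat_lit 12)) (rf (nat_lit 13))))) (cs (nd (nat_lit 140)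 (nat_lit 0) (cs (rf (nat_lit 14)) (cs (rf (nat_lit 15)) (cs (rf (nat_lit 16)) (cs (rf (nat_lit 17)) (cs (nd (nat_lit 118) (nat_lit 0) (cs (rf (nat_lit 18)) (cs (nd (nat_lit 183) (nat_lit 0) (cs (lf (nat_lit 41) (nat_lit 117)) (nd (nat_lit 185) (nat_lit 0) (cs (lf (nat_lit 29) (nat_lit 118)) (nd (nat_lit 163) (nat_lit 0) (cs (lf (nat_lit 24) (nat_lit 96)) (lf (nat_lit 12) (nat_lit 160)))))))) (nd (nat_lit 185) (nat_lit 0) (cs (lf (nat_lit 29) (nat_lit 118)) (nd (nat_lit 95) (nat_lit 0) (cs (lf (nat_lit 46) (nat_lit 95)) (nd (nat_lit 97) (nat_lit 0) (cs (lf (nat_lit 34) (nat_lit 96)) (nd (nat_lit 183) (nat_lit 0) (cs (lf (nat_lit 41) (nat_lit 117)) (nd (nat_lit 182) (nat_lit 0) (cs (rf (nat_lit 19)) (lf (nat_lit 16) (nat_lit 160))))))))))))))) (rf (nat_lit 20)))))))) (cs (nd (nat_lit 165) (nat_lit 0) (cs (rf (nat_lit 21)) (cs (rf (nat_lit 22)) (cs (rf (nat_lit 23)) (nd (nat_lit 187) (nat_lit 0) (cs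 (rf (nat_lit 24)) (cs (nd (nat_lit 166) (nat_lit 0) (cs (lf (nat_lit 13) (nat_lit 162)) (nd (nat_lit 167) (nat_lit 0) (cs (lf (nat_lit 6) (nat_lit 164)) (nd (nat_lit 145) (nat_lit 0) (cs (lf (nat_lit 17) (nat_lit 142)) (nd (nat_lit 121) (nat_lit 0) (cs (lf (nat_lit 37) (nat_lit 120)) (rf (nat_lit 25)))))))))) (cs (nd (nat_lit 166) (nat_lit 0) (cs (lf (nat_lit 13) (nat_lit 162)) (nd (nat_lit 167) (nat_lit 0) (cs (lf (nat_lit 6) (nat_lit 164)) (nd (nat_lit 145) (nat_lit 0) (cs (lf (nat_lit 17) (nat_lit 142)) (nd (nat_lit 163) (nat_lit 0) (cs (lf (nat_lit 5) (nat_lit 162)) (lf (nat_lit 16) (nat_lit 141)))))))))) (nd (nat_lit 121) (nat_lit 0) (cs (lf (nat_lit 37) (nat_lit 120)) (nd (nat_lit 188) (nat_lit 0) (cs (lf (nat_lit 1) (nat_lit 162)) (rf (nat_lit 26)))))))))))))) (cs (rf (nat_lit 27)) (cs (rf (nat_lit 28)) (rf (nat_lit 29))))))))) q32789 (by decide +kernel)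
def q33115 : Q := Q.p (nat_lit 0x2000000000018000040000140000000000000000000000000000000000000000) (nat_lit 0x80000380001e00003c001c78003bc001e80000380000e00002800000000000000000000000) (nat_lit 10)
theorem c33115 : QOK q33115 := cut [q32613, q32666, q32669, q33100, q32618, q32619, q33025, q565, q32665, q1132, q3687, q33113] ⟨c32613, c32666, c32669, c33100, c32618, c32619, c33025, c565, c32665, c1132, c3687, c33113, trivial⟩ (nd (nat_lit 185) (nat_lit 0) (cs (nd (nat_lit 184) (nat_lit 0) (cs (rf (nat_lit 0)) (cs (rf (nat_lit 1)) (rf (nat_lit 2))))) (cs (nd (nat_lit 229) (nat_lit 0) (cs (lf (nat_lit 30) (nat_lit 163)) (nd (nat_lit 140) (nat_lit 0) (cs (lf (nat_lit 45) (nat_lit 140)) (rf (nat_lit 3)))))) (cs (nd (nat_lit 184) (nat_lit 0) (cs (rf (nat_lit 4)) (cs (rf (nat_lit 5)) (nd (nat_lit 206) (nat_lit 0) (cs (rf (nat_lit 6)) (nd (nat_lit 140) (nat_lit 0) (cs (lf (nat_lit 24) (nat_lit 118)) (nd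 (nat_lit 187) (nat_lit 0) (cs (lf (nat_lit 6) (nat_lit 184)) (nd (nat_lit 165) (nat_lit 0) (cs (rf (nat_lit 7)) (lf (nat_lit 17) (nat_lit 162))))))))))))) (cs (nd (nat_lit 184) (nat_lit 0) (cs (rf (nat_lit 4)) (cs (rf (nat_lit 5)) (nd (nat_lit 206) (nat_lit 0) (cs (rf (nat_lit 8)) (nd (nat_lit 228) (nat_lit 0) (cs (rf (nat_lit 9)) (nd (nat_lit 229) (nat_lit 0) (cs (lf (nat_lit 30) (nat_lit 163)) (rf (nat_lit 10))))))))))) (nd (nat_lit 229) (nat_lit 0) (cs (lf (nat_lit 30) (nat_lit 163)) (rf (nat_lit 11))))))))) q33115 (by decide +kernel)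
def q33451 : Q := Q.p (nat_lit 0x2000000000010000040000140000000000000000000000000000000000000000) (nat_lit 0x380001e00003e001cf8003be001e900007e0003f8000fe0003e000070000140000000) (nat_lit 13)
theorem c33451 : QOK q33451 := cut [q2882, q32608, q33069, q527, q32527, q33094, q33077, q33079, q33082, q12357, q21427, q33372, q32582, q4876, q33385, q20977, q32613, q32618, q32669, q33032, q33450] ⟨c2882, c32608, c33069, c527, c32527, c33094, c33077, c33079, c33082, c12357, c21427, c33372, c32582, c4876, c33385, c20977, c32613, c32618, c32669, c33032, c33450, trivial⟩ (nd (nat_lit 141) (nat_lit 0) (cs (rf (nat_lit 0)) (cs (rf (nat_lit 1)) (cs (nd (nat_lit 207) (nat_lit 0) (cs (rf (nat_lit 2)) (cs (nd (nat_lit 206) (nat_lit 0) (cs (rf (nat_lit 3)) (cs (rf (nat_lit 4)) (cs (rf (nat_lit 5)) (nd (nat_lit 163) (nat_lit 0) (cs (rf (nat_lit 6)) (cs (rf (nat_lit 7)) (cs (rf (nat_lit 8)) (nd (nat_lit 140) (nat_lit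 0) (cs (rf (nat_lit 9)) (cs (nd (nat_lit 118) (nat_lit 0) (cs (lf (nat_lit 43) (nat_lit 118)) (nd (nat_lit 74) (nat_lit 0) (cs (lf (nat_lit 25) (nat_lit 74)) (nd (nat_lit 139) (nat_lit 0) (cs (lf (nat_lit 0) (nat_lit 138)) (nd (nat_lit 117) (nat_lit 0) (cs (lf (nat_lit 43) (nat_lit 117)) (rf (nat_lit 10)))))))))) (nd (nat_lit 118) (nat_lit 0) (cs (lf (nat_lit 43) (nat_lit 118)) (nd (nat_lit 96) (nat_lit 0) (cs (lf (nat_lit 24) (nat_lit 74)) (nd (nat_lit 75) (nat_lit 0) (cs (lf (nat_lit 34) (nat_lit 74)) (nd (nat_lit 95) (nat_lit 0) (cs (lf (nat_lit 47) (nat_lit 73)) (nd (nat_lit 184) (nat_lit 0) (cs (lf (nat_lit 46) (nat_lit 95)) (rf (nat_lit 11))))))))))))))))))))))) (cs (nd (nat_lit 142) (nat_lit 0) (cs (lf (nat_lit 41) (nat_lit 141)) (rf (nat_lit 12)))) (nd (nat_lit 206) (nat_lit 0) (cs (rf (nat_lit 3)) (cs (rf (nat_lit 4)) (cs (rf (nat_lit 5)) (nd (nat_lit 185) (nat_lit 0) (cs (nd (nat_lit 229)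 (nat_lit 0) (cs (lf (nat_lit 30) (nat_lit 163)) (nd (nat_lit 140) (nat_lit 0) (cs (lf (nat_lit 45) (nat_lit 140)) (nd (nat_lit 184) (nat_lit 0) (cs (lf (nat_lit 24) (nat_lit 118)) (lf (nat_lit 27) (nat_lit 140)))))))) (cs (nd (nat_lit 187) (nat_lit 0) (cs (lf (nat_lit 6) (nat_lit 184)) (nd (nat_lit 229) (nat_lit 0) (cs (lf (nat_lit 30) (nat_lit 163)) (nd (nat_lit 184) (nat_lit 0) (cs (lf (nat_lit 24) (nat_lit 140)) (rf (nat_lit 13)))))))) (cs (nd (nat_lit 163) (nat_lit 0) (cs (lf (nat_lit 41) (nat_lit 140)) (nd (nat_lit 187) (nat_lit 0) (cs (lf (nat_lit 18) (nat_lit 162)) (nd (nat_lit 140) (nat_lit 0) (cs (lf (nat_lit 47) (nat_lit 118)) (rf (nat_lit 14)))))))) (nd (nat_lit 187) (nat_lit 0) (cs (lf (nat_lit 6) (nat_lit 184)) (nd (nat_lit 228) (nat_lit 0) (cs (lf (nat_lit 37) (nat_lit 140)) (nd (nat_lit 250) (nat_lit 0) (cs (lf (nat_lit 30) (nat_lit 184)) (nd (nat_lit 229) (nat_lit 0) (cs (lf (nat_lit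 30) (nat_lit 163)) (nd (nat_lit 227) (nat_lit 0) (cs (lf (nat_lit 12) (nat_lit 204)) (nd (nat_lit 184) (nat_lit 0) (cs (lf (nat_lit 41) (nat_lit 161)) (rf (nat_lit 15)))))))))))))))))))))))))) (cs (nd (nat_lit 142) (nat_lit 0) (cs (lf (nat_lit 47) (nat_lit 119)) (nd (nat_lit 207) (nat_lit 0) (cs (lf (nat_lit 41) (nat_lit 141)) (nd (nat_lit 185) (nat_lit 0) (cs (lf (nat_lit 36) (nat_lit 119)) (nd (nat_lit 184) (nat_lit 0) (cs (rf (nat_lit 16)) (cs (rf (nat_lit 17)) (cs (rf (nat_lit 18)) (rf (nat_lit 19)))))))))))) (rf (nat_lit 20))))))) q33451 (by decide +kernel)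
def q34187 : Q := Q.p (nat_lit 0x10000040000040000500000400000000000000000000000000000) (nat_lit 0xc000230000bc0002f80033c0002f80033c000ff0000fc0002d000000000000) (nat_lit 14)
theorem c34187 : QOK q34187 := cut [q34070, q34071, q34123, q34126, q34128, q34129, q34164, q34163, q33711] ⟨c34070, c34071, c34123, c34126, c34128, c34129, c34164, c34163, c33711, trivial⟩ (nd (nat_lit 161) (nat_lit 0) (cs (rf (nat_lit 0)) (cs (rf (nat_lit 1)) (cs (rf (nat_lit 2)) (nd (nat_lit 139) (nat_lit 0) (cs (rf (nat_lit 3)) (cs (nd (nat_lit 95) (nat_lit 0) (cs (rf (nat_lit 4)) (cs (nd (nat_lit 117) (nat_lit 0) (cs (lf (nat_lit 24) (nat_lit 73)) (nd (nat_lit 72) (nat_lit 0) (cs (rf (nat_lit 5)) (lf (nat_lit 46) (nat_lit 72)))))) (nd (nat_lit 116) (nat_lit 0) (cs (nd (nat_lit 117) (nat_lit 0) (cs (lf (nat_lit 19) (nat_lit 116)) (nd (nat_lit 115) (nat_lit 0) (cs (lf (nat_lit 0) (nat_lit 114)) (nd (nat_lit 94) (nat_lit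 0) (cs (lf (nat_lit 47) (nat_lit 72)) (nd (nat_lit 93) (nat_lit 0) (cs (nd (nat_lit 137) (nat_lit 0) (cs (nd (nat_lit 159) (nat_lit 0) (cs (nd (nat_lit 158) (nat_lit 0) (cs (lf (nat_lit 8) (nat_lit 136)) (lf (nat_lit 41) (nat_lit 92)))) (lf (nat_lit 30) (nat_lit 93)))) (lf (nat_lit 11) (nat_lit 114)))) (lf (nat_lit 0) (nat_lit 92)))))))))) (cs (nd (nat_lit 117) (nat_lit 0) (cs (lf (nat_lit 19) (nat_lit 116)) (nd (nat_lit 96) (nat_lit 0) (cs (lf (nat_lit 35) (nat_lit 73)) (nd (nat_lit 97) (nat_lit 0) (cs (lf (nat_lit 35) (nat_lit 74)) (lf (nat_lit 6) (nat_lit 94)))))))) (nd (nat_lit 96) (nat_lit 0) (cs (lf (nat_lit 36) (nat_lit 73)) (nd (nat_lit 97) (nat_lit 0) (cs (lf (nat_lit 35) (nat_lit 74)) (nd (nat_lit 94) (nat_lit 0) (cs (lf (nat_lit 11) (nat_lit 93)) (nd (nat_lit 72) (nat_lit 0) (cs (lf (nat_lit 23) (nat_lit 71)) (lf (nat_lit 27) (nat_lit 72)))))))))))))))) (nd (nat_lit 95) (nat_lit 0) (cs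 (rf (nat_lit 4)) (cs (rf (nat_lit 6)) (nd (nat_lit 117) (nat_lit 0) (cs (rf (nat_lit 7)) (cs (nd (nat_lit 96) (nat_lit 0) (cs (lf (nat_lit 35) (nat_lit 73)) (rf (nat_lit 8)))) (nd (nat_lit 160) (nat_lit 0) (cs (lf (nat_lit 41) (nat_lit 94)) (nd (nat_lit 137) (nat_lit 0) (cs (nd (nat_lit 96) (nat_lit 0) (cs (lf (nat_lit 35) (nat_lit 73)) (nd (nat_lit 158) (nat_lit 0) (cs (nd (nat_lit 94) (nat_lit 0) (cs (lf (nat_lit 47) (nat_lit 72)) (nd (nat_lit 75) (nat_lit 0) (cs (lf (nat_lit 34) (nat_lit 74)) (nd (nat_lit 93) (nat_lit 0) (cs (lf (nat_lit 0) (nat_lit 92)) (nd (nat_lit 71) (nat_lit 0) (cs (lf (nat_lit 23) (nat_lit 70)) (nd (nat_lit 115) (nat_lit 0) (cs (lf (nat_lit 11) (nat_lit 92)) (lf (nat_lit 28) (nat_lit 71)))))))))))) (lf (nat_lit 13) (nat_lit 136)))))) (cs (nd (nat_lit 74) (nat_lit 0) (cs (nd (nat_lit 138) (nat_lit 0) (cs (lf (nat_lit 0) (nat_lit 136)) (nd (nat_lit 115) (nat_lit 0) (cs (lf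 (nat_lit 23) (nat_lit 114)) (nd (nat_lit 94) (nat_lit 0) (cs (lf (nat_lit 47) (nat_lit 72)) (nd (nat_lit 93) (nat_lit 0) (cs (lf (nat_lit 0) (nat_lit 92)) (lf (nat_lit 24) (nat_lit 71)))))))))) (lf (nat_lit 34) (nat_lit 73)))) (nd (nat_lit 159) (nat_lit 0) (cs (lf (nat_lit 23) (nat_lit 136)) (lf (nat_lit 12) (nat_lit 136)))))))))))))))))))))) q34187 (by decide +kernel)
def q34259 : Q := Q.p (nat_lit 0x10000040000040000500000400000000000000000000000000000) (nat_lit 0xc0002b0000fc000af80033c0002f8003bc000df00027c0000d000000000000) (nat_lit 14)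
theorem c34259 : QOK q34259 := cut [q34123, q34196, q34126, q34129, q34199, q34211, q34128, q34164, q34163, q34239, q34244, q34258] ⟨c34123, c34196, c34126, c34129, c34199, c34211, c34128, c34164, c34163, c34239, c34244, c34258, trivial⟩ (nd (nat_lit 161) (nat_lit 0) (cs (rf (nat_lit 0)) (cs (nd (nat_lit 183) (nat_lit 0) (cs (lf (nat_lit 36) (nat_lit 95)) (nd (nat_lit 205) (nat_lit 0) (cs (lf (nat_lit 30) (nat_lit 139)) (rf (nat_lit 1)))))) (cs (nd (nat_lit 139) (nat_lit 0) (cs (rf (nat_lit 2)) (cs (nd (nat_lit 117) (nat_lit 0) (cs (rf (nat_lit 3)) (cs (nd (nat_lit 74) (nat_lit 0) (cs (lf (nat_lit 37) (nat_lit 73)) (nd (nat_lit 95) (nat_lit 0) (cs (lf (nat_lit 24) (nat_lit 73)) (nd (nat_lit 94) (nat_lit 0) (cs (lf (nat_lit 47) (nat_lit 72)) (nd (nat_lit 92) (nat_lit 0) (cs (lf (nat_lit 1) (nat_lit 92)) (nd (nat_lit 120) (nat_lit 0) (cs (nd (nat_lit 121) (nat_lit 0) (cs (rf (nat_lit 4)) (lf (nat_lit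 14) (nat_lit 117)))) (lf (nat_lit 19) (nat_lit 94)))))))))))) (cs (nd (nat_lit 95) (nat_lit 0) (cs (lf (nat_lit 24) (nat_lit 73)) (nd (nat_lit 74) (nat_lit 0) (cs (lf (nat_lit 37) (nat_lit 73)) (rf (nat_lit 5)))))) (nd (nat_lit 73) (nat_lit 0) (cs (lf (nat_lit 25) (nat_lit 73)) (nd (nat_lit 116) (nat_lit 0) (cs (lf (nat_lit 19) (nat_lit 116)) (nd (nat_lit 115) (nat_lit 0) (cs (lf (nat_lit 0) (nat_lit 114)) (nd (nat_lit 74) (nat_lit 0) (cs (lf (nat_lit 37) (nat_lit 73)) (nd (nat_lit 92) (nat_lit 0) (cs (nd (nat_lit 137) (nat_lit 0) (cs (lf (nat_lit 11) (nat_lit 114)) (nd (nat_lit 138) (nat_lit 0) (cs (nd (nat_lit 94) (nat_lit 0) (cs (lf (nat_lit 24) (nat_lit 72)) (nd (nat_lit 159) (nat_lit 0) (cs (lf (nat_lit 11) (nat_lit 136)) (lf (nat_lit 30) (nat_lit 93)))))) (lf (nat_lit 6) (nat_lit 115)))))) (lf (nat_lit 22) (nat_lit 92)))))))))))))))) (cs (nd (nat_lit 95) (nat_lit 0) (cs (rf (nat_lit 6)) (cs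 (rf (nat_lit 7)) (nd (nat_lit 117) (nat_lit 0) (cs (rf (nat_lit 8)) (cs (rf (nat_lit 5)) (cs (nd (nat_lit 74) (nat_lit 0) (cs (lf (nat_lit 37) (nat_lit 73)) (nd (nat_lit 160) (nat_lit 0) (cs (lf (nat_lit 41) (nat_lit 94)) (nd (nat_lit 159) (nat_lit 0) (cs (lf (nat_lit 12) (nat_lit 136)) (nd (nat_lit 137) (nat_lit 0) (cs (lf (nat_lit 23) (nat_lit 136)) (nd (nat_lit 180) (nat_lit 0) (cs (lf (nat_lit 10) (nat_lit 158)) (nd (nat_lit 138) (nat_lit 0) (cs (nd (nat_lit 115) (nat_lit 0) (cs (lf (nat_lit 23) (nat_lit 114)) (nd (nat_lit 93) (nat_lit 0) (cs (lf (nat_lit 24) (nat_lit 71)) (nd (nat_lit 92) (nat_lit 0) (cs (lf (nat_lit 47) (nat_lit 70)) (lf (nat_lit 20) (nat_lit 92)))))))) (lf (nat_lit 17) (nat_lit 115)))))))))))))) (cs (nd (nat_lit 160) (nat_lit 0) (cs (lf (nat_lit 41) (nat_lit 94)) (nd (nat_lit 158) (nat_lit 0) (cs (lf (nat_lit 13) (nat_lit 136)) (nd (nat_lit 96) (nat_lit 0) (cs (lf (nat_lit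 36) (nat_lit 73)) (rf (nat_lit 9)))))))) (nd (nat_lit 72) (nat_lit 0) (cs (lf (nat_lit 46) (nat_lit 72)) (nd (nat_lit 74) (nat_lit 0) (cs (lf (nat_lit 37) (nat_lit 73)) (nd (nat_lit 160) (nat_lit 0) (cs (lf (nat_lit 41) (nat_lit 94)) (nd (nat_lit 159) (nat_lit 0) (cs (lf (nat_lit 12) (nat_lit 136)) (nd (nat_lit 137) (nat_lit 0) (cs (lf (nat_lit 23) (nat_lit 136)) (nd (nat_lit 181) (nat_lit 0) (cs (lf (nat_lit 11) (nat_lit 158)) (nd (nat_lit 138) (nat_lit 0) (cs (lf (nat_lit 17) (nat_lit 115)) (rf (nat_lit 10)))))))))))))))))))))))) (nd (nat_lit 141) (nat_lit 0) (cs (lf (nat_lit 11) (nat_lit 138)) (nd (nat_lit 164) (nat_lit 0) (cs (lf (nat_lit 47) (nat_lit 119)) (lf (nat_lit 5) (nat_lit 139)))))))))) (rf (nat_lit 11)))))) q34259 (by decide +kernel)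
def q34615 : Q := Q.p (nat_lit 0x2000000000010000040000040000100000000000000000000000000000000000) (nat_lit 0x40000bc0003f0001fc0003f8000fc003bf800f3c007ef000fb8000a400008000000000000000000) (nat_lit 16)
theorem c34615 : QOK q34615 := cut [q32527, q34462, q618, q34528, q33510, q33511, q33517, q9127, q34570, q16276, q32686, q33489, q34521, q34573, q34574, q34581, q34587, q34590, q34593, q34468, q18489, q24432, q32687, q32743, q32681] ⟨c32527, c34462, c618, c34528, c33510, c33511, c33517, c9127, c34570, c16276, c32686, c33489, c34521, c34573, c34574, c34581, c34587, c34590, c34593, c34468, c18489, c24432, c32687, c32743, c32681, trivial⟩ (nd (nat_lit 206) (nat_lit 0) (cs (nd (nat_lit 142) (nat_lit 0) (cs (nd (nat_lit 207) (nat_lit 0) (cs (rf (nat_lit 0)) (rf (nat_lit 1)))) (cs (nd (nat_lit 207) (nat_lit 0) (cs (rf (nat_lit 0)) (nd (nat_lit 164) (nat_lit 0) (cs (lf (nat_lit 41) (nat_lit 141)) (rf (nat_lit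 2)))))) (cs (rf (nat_lit 3)) (nd (nat_lit 141) (nat_lit 0) (cs (rf (nat_lit 4)) (cs (rf (nat_lit 5)) (cs (rf (nat_lit 6)) (nd (nat_lit 143) (nat_lit 0) (cs (lf (nat_lit 11) (nat_lit 139)) (nd (nat_lit 121) (nat_lit 0) (cs (lf (nat_lit 17) (nat_lit 118)) (nd (nat_lit 120) (nat_lit 0) (cs (lf (nat_lit 12) (nat_lit 117)) (nd (nat_lit 166) (nat_lit 0) (cs (lf (nat_lit 4) (nat_lit 140)) (nd (nat_lit 144) (nat_lit 0) (cs (lf (nat_lit 5) (nat_lit 141)) (rf (nat_lit 7)))))))))))))))))))) (cs (rf (nat_lit 8)) (cs (nd (nat_lit 184) (nat_lit 0) (cs (rf (nat_lit 9)) (cs (rf (nat_lit 10)) (rf (nat_lit 11))))) (cs (nd (nat_lit 205) (nat_lit 0) (cs (rf (nat_lit 12)) (cs (rf (nat_lit 13)) (cs (nd (nat_lit 184) (nat_lit 0) (cs (lf (nat_lit 41) (nat_lit 139)) (nd (nat_lit 119) (nat_lit 0) (cs (lf (nat_lit 34) (nat_lit 118)) (nd (nat_lit 117) (nat_lit 0) (cs (lf (nat_lit 46) (nat_lit 117)) (rf (nat_lit 14))))))))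 (rf (nat_lit 15)))))) (cs (nd (nat_lit 184) (nat_lit 0) (cs (rf (nat_lit 16)) (cs (rf (nat_lit 17)) (rf (nat_lit 18))))) (cs (nd (nat_lit 205) (nat_lit 0) (cs (rf (nat_lit 19)) (cs (rf (nat_lit 15)) (cs (nd (nat_lit 207) (nat_lit 0) (cs (lf (nat_lit 17) (nat_lit 183)) (nd (nat_lit 182) (nat_lit 0) (cs (lf (nat_lit 22) (nat_lit 182)) (nd (nat_lit 204) (nat_lit 0) (cs (lf (nat_lit 23) (nat_lit 181)) (nd (nat_lit 225) (nat_lit 0) (cs (lf (nat_lit 10) (nat_lit 203)) (nd (nat_lit 203) (nat_lit 0) (cs (lf (nat_lit 11) (nat_lit 202)) (nd (nat_lit 229) (nat_lit 0) (cs (lf (nat_lit 4) (nat_lit 203)) (lf (nat_lit 26) (nat_lit 140)))))))))))))) (nd (nat_lit 184) (nat_lit 0) (cs (lf (nat_lit 41) (nat_lit 139)) (nd (nat_lit 119) (nat_lit 0) (cs (lf (nat_lit 34) (nat_lit 118)) (nd (nat_lit 139) (nat_lit 0) (cs (lf (nat_lit 47) (nat_lit 117)) (nd (nat_lit 228) (nat_lit 0) (cs (lf (nat_lit 46) (nat_lit 139)) (rf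 (nat_lit 20)))))))))))))) (cs (nd (nat_lit 205) (nat_lit 0) (cs (rf (nat_lit 19)) (cs (rf (nat_lit 12)) (cs (rf (nat_lit 13)) (cs (nd (nat_lit 187) (nat_lit 0) (cs (lf (nat_lit 14) (nat_lit 183)) (nd (nat_lit 184) (nat_lit 0) (cs (lf (nat_lit 41) (nat_lit 139)) (lf (nat_lit 8) (nat_lit 183)))))) (nd (nat_lit 227) (nat_lit 0) (cs (lf (nat_lit 38) (nat_lit 139)) (nd (nat_lit 161) (nat_lit 0) (cs (lf (nat_lit 32) (nat_lit 139)) (nd (nat_lit 207) (nat_lit 0) (cs (lf (nat_lit 11) (nat_lit 204)) (nd (nat_lit 204) (nat_lit 0) (cs (lf (nat_lit 16) (nat_lit 182)) (nd (nat_lit 181) (nat_lit 0) (cs (lf (nat_lit 22) (nat_lit 181)) (nd (nat_lit 203) (nat_lit 0) (cs (lf (nat_lit 23) (nat_lit 180)) (nd (nat_lit 202) (nat_lit 0) (cs (rf (nat_lit 21)) (lf (nat_lit 5) (nat_lit 202))))))))))))))))))))) (nd (nat_lit 184) (nat_lit 0) (cs (rf (nat_lit 9)) (cs (rf (nat_lit 22)) (cs (rf (nat_lit 23)) (nd (nat_lit 207)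 (nat_lit 0) (cs (lf (nat_lit 29) (nat_lit 140)) (nd (nat_lit 119) (nat_lit 0) (cs (lf (nat_lit 34) (nat_lit 118)) (nd (nat_lit 139) (nat_lit 0) (cs (lf (nat_lit 47) (nat_lit 117)) (nd (nat_lit 228) (nat_lit 0) (cs (lf (nat_lit 46) (nat_lit 139)) (rf (nat_lit 24)))))))))))))))))))))) q34615 (by decide +kernel)
def q35164 : Q := Q.p (nat_lit 0x2000000000010000040000040000100000000000000000000000000000000000) (nat_lit 0x20000380001e0000380000f8001b800073800088000760000f80007e000020000000000000) (nat_lit 13)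
theorem c35164 : QOK q35164 := cut [q33504, q34787, q33491, q33500, q34689, q34747, q35133, q35139, q34803, q35146, q35152, q35161, q35162, q35163] ⟨c33504, c34787, c33491, c33500, c34689, c34747, c35133, c35139, c34803, c35146, c35152, c35161, c35162, c35163, trivial⟩ (nd (nat_lit 184) (nat_lit 0) (cs (rf (nat_lit 0)) (cs (rf (nat_lit 1)) (cs (nd (nat_lit 118) (nat_lit 0) (cs (rf (nat_lit 2)) (cs (rf (nat_lit 3)) (cs (rf (nat_lit 4)) (cs (rf (nat_lit 5)) (nd (nat_lit 185) (nat_lit 0) (cs (lf (nat_lit 29) (nat_lit 118)) (nd (nat_lit 161) (nat_lit 0) (cs (lf (nat_lit 18) (nat_lit 161)) (nd (nat_lit 159) (nat_lit 0) (cs (lf (nat_lit 1) (nat_lit 159)) (nd (nat_lit 95) (nat_lit 0) (cs (lf (nat_lit 46) (nat_lit 95)) (rf (nat_lit 6))))))))))))))) (cs (nd (nat_lit 117) (nat_lit 0) (cs (nd (nat_lit 95) (nat_lit 0) (cs (lf (nat_lit 45) (nat_lit 95)) (rf (nat_lit 7)))) (cs (nd (nat_lit 118) (nat_lit 0) (cs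 (lf (nat_lit 47) (nat_lit 95)) (rf (nat_lit 8)))) (cs (nd (nat_lit 206) (nat_lit 0) (cs (lf (nat_lit 46) (nat_lit 117)) (nd (nat_lit 207) (nat_lit 0) (cs (lf (nat_lit 29) (nat_lit 140)) (nd (nat_lit 185) (nat_lit 0) (cs (lf (nat_lit 24) (nat_lit 118)) (nd (nat_lit 187) (nat_lit 0) (cs (lf (nat_lit 23) (nat_lit 161)) (lf (nat_lit 6) (nat_lit 184)))))))))) (nd (nat_lit 139) (nat_lit 0) (cs (lf (nat_lit 42) (nat_lit 117)) (rf (nat_lit 9)))))))) (cs (rf (nat_lit 10)) (cs (rf (nat_lit 11)) (cs (rf (nat_lit 12)) (rf (nat_lit 13)))))))))) q35164 (by decide +kernel)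
def q35442 : Q := Q.p (nat_lit 0x2000000000010000040000040000100000000000000000000000000000000000) (nat_lit 0xac0003b0001fc0003fe000ff003bfe0033e001efc003ff001dfc0027c0000f000028000000) (nat_lit 16)
theorem c35442 : QOK q35442 := cut [q34630, q35183, q16276, q34755, q35187, q35191, q35197, q35205, q35207, q35209, q35212, q34592, q34734, q35394, q34787, q35162, q35397, q35400, q35402, q33487, q34258, q35086, q35121, q35128, q35130, q33504, q35152, q35161, q35163, q35423, q34076, q34122, q34806, q35178, q35380, q35439] ⟨c34630, c35183, c16276, c34755, c35187, c35191, c35197, c35205, c35207, c35209, c35212, c34592, c34734, c35394, c34787, c35162, c35397, c35400, c35402, c33487, c34258, c35086, c35121, c35128, c35130, c33504, c35152, c35161, c35163, c35423, c34076, c34122, c34806, c35178, c35380, c35439, trivial⟩ (nd (nat_lit 161) (nat_lit 0) (cs (nd (nat_lit 184) (nat_lit 0) (cs (rf (nat_lit 0)) (cs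 (rf (nat_lit 1)) (cs (nd (nat_lit 206) (nat_lit 0) (cs (rf (nat_lit 2)) (cs (nd (nat_lit 229) (nat_lit 0) (cs (lf (nat_lit 28) (nat_lit 140)) (nd (nat_lit 119) (nat_lit 0) (cs (lf (nat_lit 34) (nat_lit 118)) (nd (nat_lit 228) (nat_lit 0) (cs (lf (nat_lit 29) (nat_lit 162)) (rf (nat_lit 3)))))))) (cs (nd (nat_lit 207) (nat_lit 0) (cs (lf (nat_lit 29) (nat_lit 140)) (nd (nat_lit 205) (nat_lit 0) (cs (lf (nat_lit 17) (nat_lit 183)) (rf (nat_lit 4)))))) (nd (nat_lit 119) (nat_lit 0) (cs (lf (nat_lit 34) (nat_lit 118)) (rf (nat_lit 5)))))))) (rf (nat_lit 6)))))) (cs (nd (nat_lit 184) (nat_lit 0) (cs (rf (nat_lit 1)) (cs (nd (nat_lit 185) (nat_lit 0) (cs (lf (nat_lit 18) (nat_lit 161)) (nd (nat_lit 160) (nat_lit 0) (cs (lf (nat_lit 0) (nat_lit 159)) (nd (nat_lit 207) (nat_lit 0) (cs (lf (nat_lit 24) (nat_lit 118)) (nd (nat_lit 229) (nat_lit 0) (cs (lf (nat_lit 42) (nat_lit 162)) (nd (nat_lit 142) (nat_lit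 0) (cs (lf (nat_lit 37) (nat_lit 141)) (nd (nat_lit 141) (nat_lit 0) (cs (lf (nat_lit 6) (nat_lit 139)) (lf (nat_lit 9) (nat_lit 138)))))))))))))) (cs (rf (nat_lit 7)) (cs (nd (nat_lit 141) (nat_lit 0) (cs (rf (nat_lit 8)) (cs (nd (nat_lit 159) (nat_lit 0) (cs (lf (nat_lit 13) (nat_lit 137)) (nd (nat_lit 185) (nat_lit 0) (cs (lf (nat_lit 18) (nat_lit 161)) (rf (nat_lit 9)))))) (rf (nat_lit 10))))) (nd (nat_lit 206) (nat_lit 0) (cs (rf (nat_lit 2)) (cs (rf (nat_lit 11)) (rf (nat_lit 12)))))))))) (cs (rf (nat_lit 13)) (cs (nd (nat_lit 184) (nat_lit 0) (cs (rf (nat_lit 14)) (cs (rf (nat_lit 15)) (cs (rf (nat_lit 7)) (cs (rf (nat_lit 16)) (rf (nat_lit 17))))))) (cs (nd (nat_lit 184) (nat_lit 0) (cs (rf (nat_lit 1)) (cs (rf (nat_lit 16)) (rf (nat_lit 18))))) (cs (nd (nat_lit 184) (nat_lit 0) (cs (rf (nat_lit 19)) (cs (rf (nat_lit 7)) (rf (nat_lit 18))))) (cs (nd (nat_lit 118) (nat_lit 0) (cs (rf (nat_lit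 20)) (cs (rf (nat_lit 21)) (cs (rf (nat_lit 22)) (cs (rf (nat_lit 23)) (rf (nat_lit 24))))))) (cs (nd (nat_lit 184) (nat_lit 0) (cs (rf (nat_lit 25)) (cs (rf (nat_lit 14)) (cs (rf (nat_lit 26)) (cs (rf (nat_lit 27)) (cs (rf (nat_lit 15)) (cs (rf (nat_lit 28)) (rf (nat_lit 16))))))))) (cs (nd (nat_lit 184) (nat_lit 0) (cs (rf (nat_lit 27)) (cs (rf (nat_lit 6)) (cs (rf (nat_lit 17)) (rf (nat_lit 18)))))) (cs (rf (nat_lit 29)) (nd (nat_lit 160) (nat_lit 0) (cs (rf (nat_lit 30)) (cs (rf (nat_lit 31)) (cs (rf (nat_lit 32)) (nd (nat_lit 183) (nat_lit 0) (cs (rf (nat_lit 33)) (cs (rf (nat_lit 34)) (rf (nat_lit 35)))))))))))))))))))) q35442 (by decide +kernel)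
def q35562 : Q := Q.p (nat_lit 0x400001c0000000000000000000000000000000000000000) (nat_lit 0x72e000e300039e0000000000000000000000000000000000) (nat_lit 9)
theorem c35562 : QOK q35562 := cut [q2269, q3802, q32055, q35561] ⟨c2269, c3802, c32055, c35561, trivial⟩ (nd (nat_lit 161) (nat_lit 0) (cs (rf (nat_lit 0)) (cs (rf (nat_lit 1)) (cs (rf (nat_lit 2)) (rf (nat_lit 3)))))) q35562 (by decide +kernel)
def q36003 : Q := Q.p (nat_lit 0x2000000000010000040000040000400000000000000000000000000000000000) (nat_lit 0x14000270001fc0003f8000fc0009f800ebc007bf801ffe00fff800ffe000ff0000f4000280) (nat_lit 16)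
theorem c36003 : QOK q36003 := cut [q34446, q35461, q35466, q35468, q35673, q33670, q33691, q33695, q35014, q35017, q33659, q35689, q24124, q34875, q34881, q34926, q34937, q35692, q35777, q35858, q33653, q33680, q35860, q35863, q35868, q35869, q34418, q35878, q34445, q35891, q35907, q33514, q35966, q35972, q35890, q35964, q35978, q35996, q35999] ⟨c34446, c35461, c35466, c35468, c35673, c33670, c33691, c33695, c35014, c35017, c33659, c35689, c24124, c34875, c34881, c34926, c34937, c35692, c35777, c35858, c33653, c33680, c35860, c35863, c35868, c35869, c34418, c35878, c34445, c35891, c35907, c33514, c35966, c35972, c35890, c35964, c35978, c35996, c35999, trivial⟩ (nd (nat_lit 140) (nat_lit 0) (cs (rf (nat_lit 0)) (cs (nd (nat_lit 118) (nat_lit 0) (cs (rf (nat_lit 1)) (cs (rf (nat_lit 2)) (cs (rf (nat_lit 3)) (cs (nd (nat_lit 119) (nat_lit 0) (cs (rf (nat_lit 4)) (cs (nd (nat_lit 120) (nat_lit 0) (cs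 (rf (nat_lit 5)) (cs (rf (nat_lit 6)) (rf (nat_lit 7))))) (nd (nat_lit 117) (nat_lit 0) (cs (rf (nat_lit 8)) (cs (rf (nat_lit 9)) (nd (nat_lit 120) (nat_lit 0) (cs (lf (nat_lit 5) (nat_lit 117)) (rf (nat_lit 10)))))))))) (cs (rf (nat_lit 11)) (cs (nd (nat_lit 96) (nat_lit 0) (cs (rf (nat_lit 12)) (cs (rf (nat_lit 13)) (cs (rf (nat_lit 14)) (cs (rf (nat_lit 15)) (cs (rf (nat_lit 16)) (nd (nat_lit 73) (nat_lit 0) (cs (lf (nat_lit 46) (nat_lit 73)) (nd (nat_lit 74) (nat_lit 0) (cs (lf (nat_lit 47) (nat_lit 51)) (nd (nat_lit 139) (nat_lit 0) (cs (lf (nat_lit 41) (nat_lit 73)) (nd (nat_lit 117) (nat_lit 0) (cs (lf (nat_lit 36) (nat_lit 51)) (rf (nat_lit 17)))))))))))))))) (cs (rf (nat_lit 18)) (cs (rf (nat_lit 19)) (cs (nd (nat_lit 96) (nat_lit 0) (cs (rf (nat_lit 20)) (cs (rf (nat_lit 21)) (rf (nat_lit 16))))) (rf (nat_lit 22)))))))))))) (cs (nd (nat_lit 141) (nat_lit 0) (cs (rf (nat_lit 23)) (cs (rf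 (nat_lit 24)) (rf (nat_lit 25))))) (cs (nd (nat_lit 141) (nat_lit 0) (cs (rf (nat_lit 26)) (cs (rf (nat_lit 23)) (rf (nat_lit 27))))) (cs (nd (nat_lit 141) (nat_lit 0) (cs (rf (nat_lit 28)) (cs (rf (nat_lit 23)) (cs (rf (nat_lit 29)) (rf (nat_lit 30)))))) (cs (nd (nat_lit 141) (nat_lit 0) (cs (rf (nat_lit 31)) (cs (rf (nat_lit 23)) (cs (rf (nat_lit 25)) (rf (nat_lit 32)))))) (cs (rf (nat_lit 33)) (cs (nd (nat_lit 141) (nat_lit 0) (cs (rf (nat_lit 31)) (cs (rf (nat_lit 23)) (cs (rf (nat_lit 25)) (nd (nat_lit 139) (nat_lit 0) (cs (rf (nat_lit 34)) (cs (nd (nat_lit 120) (nat_lit 0) (cs (lf (nat_lit 17) (nat_lit 117)) (rf (nat_lit 35)))) (rf (nat_lit 36))))))))) (cs (nd (nat_lit 141) (nat_lit 0) (cs (rf (nat_lit 31)) (cs (rf (nat_lit 26)) (cs (rf (nat_lit 28)) (rf (nat_lit 37)))))) (cs (nd (nat_lit 141) (nat_lit 0) (cs (rf (nat_lit 26)) (cs (rf (nat_lit 25)) (cs (rf (nat_lit 27)) (rf (nat_lit 30))))))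 (cs (nd (nat_lit 141) (nat_lit 0) (cs (rf (nat_lit 26)) (cs (rf (nat_lit 23)) (rf (nat_lit 38))))) (cs (nd (nat_lit 141) (nat_lit 0) (cs (rf (nat_lit 31)) (cs (rf (nat_lit 27)) (rf (nat_lit 29))))) (nd (nat_lit 141) (nat_lit 0) (cs (rf (nat_lit 26)) (cs (rf (nat_lit 25)) (rf (nat_lit 29)))))))))))))))))) q36003 (by decide +kernel)
def q36503 : Q := Q.p (nat_lit 0x2000000000010000040000040000400000000000000000000000000000000000) (nat_lit 0x14000270001fc0003f8000fe0039f8007be0073f801ffe00fff801ffe001ff0007f4001680) (nat_lit 16)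
theorem c36503 : QOK q36503 := cut [q35972, q36080, q36140, q35891, q35890, q36142, q36160, q36163, q36164, q33510, q35868, q36162, q36170, q36365, q35966, q36366, q36367, q35878, q36369, q36186, q35996, q36167, q36383, q34442, q36479, q34438, q36168, q35999, q35978, q36169, q36188, q36495, q36026, q35867, q35964] ⟨c35972, c36080, c36140, c35891, c35890, c36142, c36160, c36163, c36164, c33510, c35868, c36162, c36170, c36365, c35966, c36366, c36367, c35878, c36369, c36186, c35996, c36167, c36383, c34442, c36479, c34438, c36168, c35999, c35978, c36169, c36188, c36495, c36026, c35867, c35964, trivial⟩ (nd (nat_lit 140) (nat_lit 0) (cs (rf (nat_lit 0)) (cs (rf (nat_lit 1)) (cs (rf (nat_lit 2)) (cs (nd (nat_lit 141) (nat_lit 0) (cs (rf (nat_lit 3)) (cs (nd (nat_lit 139) (nat_lit 0) (cs (rf (nat_lit 4)) (cs (rf (nat_lit 5)) (rf (nat_lit 6))))) (cs (rf (nat_lit 7)) (rf (nat_lit 8)))))) (cs (nd (nat_lit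 141) (nat_lit 0) (cs (rf (nat_lit 9)) (cs (rf (nat_lit 10)) (cs (rf (nat_lit 11)) (rf (nat_lit 12)))))) (cs (rf (nat_lit 13)) (cs (nd (nat_lit 141) (nat_lit 0) (cs (rf (nat_lit 14)) (cs (rf (nat_lit 8)) (cs (rf (nat_lit 15)) (rf (nat_lit 16)))))) (cs (nd (nat_lit 141) (nat_lit 0) (cs (rf (nat_lit 17)) (cs (rf (nat_lit 11)) (cs (rf (nat_lit 8)) (cs (rf (nat_lit 18)) (nd (nat_lit 164) (nat_lit 0) (cs (lf (nat_lit 47) (nat_lit 119)) (nd (nat_lit 139) (nat_lit 0) (cs (lf (nat_lit 5) (nat_lit 139)) (nd (nat_lit 120) (nat_lit 0) (cs (lf (nat_lit 17) (nat_lit 117)) (nd (nat_lit 116) (nat_lit 0) (cs (lf (nat_lit 22) (nat_lit 116)) (nd (nat_lit 207) (nat_lit 0) (cs (lf (nat_lit 41) (nat_lit 141)) (nd (nat_lit 161) (nat_lit 0) (cs (lf (nat_lit 11) (nat_lit 138)) (rf (nat_lit 19))))))))))))))))))) (cs (nd (nat_lit 141) (nat_lit 0) (cs (rf (nat_lit 9)) (cs (rf (nat_lit 20)) (cs (rf (nat_lit 11)) (rf (nat_lit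 15)))))) (cs (nd (nat_lit 141) (nat_lit 0) (cs (rf (nat_lit 17)) (cs (rf (nat_lit 7)) (cs (rf (nat_lit 8)) (nd (nat_lit 139) (nat_lit 0) (cs (rf (nat_lit 4)) (cs (rf (nat_lit 21)) (rf (nat_lit 22))))))))) (cs (nd (nat_lit 141) (nat_lit 0) (cs (rf (nat_lit 23)) (cs (rf (nat_lit 7)) (cs (rf (nat_lit 16)) (cs (rf (nat_lit 24)) (nd (nat_lit 139) (nat_lit 0) (cs (rf (nat_lit 25)) (cs (rf (nat_lit 21)) (rf (nat_lit 26)))))))))) (cs (nd (nat_lit 141) (nat_lit 0) (cs (rf (nat_lit 27)) (cs (rf (nat_lit 8)) (cs (rf (nat_lit 16)) (nd (nat_lit 139) (nat_lit 0) (cs (rf (nat_lit 28)) (cs (rf (nat_lit 6)) (cs (rf (nat_lit 29)) (cs (rf (nat_lit 30)) (cs (rf (nat_lit 22)) (rf (nat_lit 31)))))))))))) (cs (nd (nat_lit 141) (nat_lit 0) (cs (rf (nat_lit 23)) (cs (rf (nat_lit 7)) (cs (rf (nat_lit 18)) (nd (nat_lit 164) (nat_lit 0) (cs (lf (nat_lit 47) (nat_lit 119)) (rf (nat_lit 32)))))))) (cs (nd (nat_lit 141) (nat_lit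 0) (cs (rf (nat_lit 9)) (cs (rf (nat_lit 17)) (cs (rf (nat_lit 11)) (nd (nat_lit 139) (nat_lit 0) (cs (rf (nat_lit 33)) (cs (rf (nat_lit 34)) (cs (rf (nat_lit 28)) (rf (nat_lit 21)))))))))) (nd (nat_lit 141) (nat_lit 0) (cs (rf (nat_lit 10)) (cs (rf (nat_lit 7)) (cs (rf (nat_lit 12)) (cs (rf (nat_lit 16)) (rf (nat_lit 24)))))))))))))))))))))) q36503 (by decide +kernel)
def q36998 : Q := Q.p (nat_lit 0x10000040000040000400000000000000000000000000000000000) (nat_lit 0x7c0003f0000fc0039f8003be001bf8001fc0007f0000fc0003d000000000000) (nat_lit 16)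
theorem c36998 : QOK q36998 := cut [q24110, q33776, q36913, q36162, q36612, q36702, q36704, q36011, q36514, q36203, q36954, q36993, q36912, q36953, q2242] ⟨c24110, c33776, c36913, c36162, c36612, c36702, c36704, c36011, c36514, c36203, c36954, c36993, c36912, c36953, c2242, trivial⟩ (nd (nat_lit 161) (nat_lit 0) (cs (nd (nat_lit 141) (nat_lit 0) (cs (nd (nat_lit 163) (nat_lit 0) (cs (lf (nat_lit 12) (nat_lit 138)) (rf (nat_lit 0)))) (cs (nd (nat_lit 119) (nat_lit 0) (cs (lf (nat_lit 44) (nat_lit 119)) (nd (nat_lit 140) (nat_lit 0) (cs (lf (nat_lit 6) (nat_lit 139)) (rf (nat_lit 1)))))) (cs (rf (nat_lit 2)) (nd (nat_lit 140) (nat_lit 0) (cs (lf (nat_lit 6) (nat_lit 139)) (rf (nat_lit 3)))))))) (cs (nd (nat_lit 164) (nat_lit 0) (cs (rf (nat_lit 4)) (cs (rf (nat_lit 5)) (rf (nat_lit 6))))) (cs (nd (nat_lit 163) (nat_lit 0) (cs (rf (nat_lit 7)) (nd (nat_lit 164) (nat_lit 0) (cs (lf (nat_lit 5) (nat_lit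 161)) (lf (nat_lit 17) (nat_lit 139)))))) (cs (nd (nat_lit 164) (nat_lit 0) (cs (rf (nat_lit 8)) (cs (rf (nat_lit 6)) (cs (nd (nat_lit 207) (nat_lit 0) (cs (lf (nat_lit 41) (nat_lit 141)) (nd (nat_lit 141) (nat_lit 0) (cs (lf (nat_lit 47) (nat_lit 119)) (nd (nat_lit 140) (nat_lit 0) (cs (lf (nat_lit 6) (nat_lit 139)) (nd (nat_lit 139) (nat_lit 0) (cs (lf (nat_lit 5) (nat_lit 139)) (nd (nat_lit 116) (nat_lit 0) (cs (lf (nat_lit 22) (nat_lit 116)) (nd (nat_lit 138) (nat_lit 0) (cs (lf (nat_lit 23) (nat_lit 115)) (nd (nat_lit 72) (nat_lit 0) (cs (lf (nat_lit 25) (nat_lit 72)) (nd (nat_lit 136) (nat_lit 0) (cs (lf (nat_lit 1) (nat_lit 136)) (rf (nat_lit 9)))))))))))))))))) (nd (nat_lit 119) (nat_lit 0) (cs (lf (nat_lit 46) (nat_lit 119)) (nd (nat_lit 97) (nat_lit 0) (cs (lf (nat_lit 45) (nat_lit 97)) (nd (nat_lit 163) (nat_lit 0) (cs (lf (nat_lit 17) (nat_lit 139)) (nd (nat_lit 207) (nat_lit 0) (cs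 (lf (nat_lit 41) (nat_lit 141)) (nd (nat_lit 139) (nat_lit 0) (cs (lf (nat_lit 23) (nat_lit 138)) (nd (nat_lit 140) (nat_lit 0) (cs (lf (nat_lit 18) (nat_lit 139)) (nd (nat_lit 118) (nat_lit 0) (cs (lf (nat_lit 30) (nat_lit 96)) (nd (nat_lit 183) (nat_lit 0) (cs (lf (nat_lit 11) (nat_lit 160)) (lf (nat_lit 36) (nat_lit 95)))))))))))))))))))))) (cs (rf (nat_lit 10)) (cs (rf (nat_lit 11)) (nd (nat_lit 160) (nat_lit 0) (cs (nd (nat_lit 141) (nat_lit 0) (cs (lf (nat_lit 15) (nat_lit 138)) (rf (nat_lit 12)))) (cs (rf (nat_lit 13)) (nd (nat_lit 163) (nat_lit 0) (cs (lf (nat_lit 16) (nat_lit 138)) (nd (nat_lit 137) (nat_lit 0) (cs (lf (nat_lit 22) (nat_lit 137)) (nd (nat_lit 164) (nat_lit 0) (cs (rf (nat_lit 14)) (lf (nat_lit 5) (nat_lit 161)))))))))))))))))) q36998 (by decide +kernel)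
def q37606 : Q := Q.p (nat_lit 0x10000018000060000000000000000000000000000000000000000) (nat_lit 0x1fe0003f0000fe0000700001c000070000180000600000000000000000000000) (nat_lit 12)
theorem c37606 : QOK q37606 := cut [q37544, q37550, q37555, q37436, q37440, q37559, q37584, q37500, q37601] ⟨c37544, c37550, c37555, c37436, c37440, c37559, c37584, c37500, c37601, trivial⟩ (nd (nat_lit 227) (nat_lit 0) (cs (rf (nat_lit 0)) (cs (nd (nat_lit 160) (nat_lit 0) (cs (nd (nat_lit 138) (nat_lit 0) (cs (nd (nat_lit 94) (nat_lit 0) (cs (rf (nat_lit 1)) (lf (nat_lit 25) (nat_lit 94)))) (lf (nat_lit 43) (nat_lit 138)))) (cs (nd (nat_lit 205) (nat_lit 0) (cs (lf (nat_lit 47) (nat_lit 138)) (rf (nat_lit 2)))) (cs (nd (nat_lit 182) (nat_lit 0) (cs (rf (nat_lit 3)) (cs (rf (nat_lit 4)) (cs (rf (nat_lit 5)) (nd (nat_lit 158) (nat_lit 0) (cs (lf (nat_lit 1) (nat_lit 158)) (nd (nat_lit 181) (nat_lit 0) (cs (lf (nat_lit 12)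 (nat_lit 158)) (nd (nat_lit 203) (nat_lit 0) (cs (lf (nat_lit 11) (nat_lit 180)) (nd (nat_lit 247) (nat_lit 0) (cs (nd (nat_lit 206) (nat_lit 0) (cs (lf (nat_lit 5) (nat_lit 181)) (nd (nat_lit 228) (nat_lit 0) (cs (lf (nat_lit 42) (nat_lit 161)) (nd (nat_lit 229) (nat_lit 0) (cs (lf (nat_lit 29) (nat_lit 162)) (nd (nat_lit 226) (nat_lit 0) (cs (lf (nat_lit 22) (nat_lit 203)) (lf (nat_lit 10) (nat_lit 225)))))))))) (lf (nat_lit 31) (nat_lit 159)))))))))))))) (nd (nat_lit 226) (nat_lit 0) (cs (nd (nat_lit 205) (nat_lit 0) (cs (lf (nat_lit 41) (nat_lit 160)) (nd (nat_lit 206) (nat_lit 0) (cs (lf (nat_lit 7) (nat_lit 204)) (nd (nat_lit 225) (nat_lit 0) (cs (lf (nat_lit 12) (nat_lit 202)) (nd (nat_lit 228) (nat_lit 0) (cs (lf (nat_lit 29) (nat_lit 161)) (nd (nat_lit 229) (nat_lit 0) (cs (lf (nat_lit 29) (nat_lit 162)) (nd (nat_lit 203) (nat_lit 0) (cs (lf (nat_lit 1) (nat_lit 203)) (lf (nat_lit 23) (nat_lit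 202)))))))))))))) (cs (nd (nat_lit 205) (nat_lit 0) (cs (lf (nat_lit 41) (nat_lit 160)) (nd (nat_lit 158) (nat_lit 0) (cs (lf (nat_lit 1) (nat_lit 158)) (nd (nat_lit 207) (nat_lit 0) (cs (lf (nat_lit 8) (nat_lit 204)) (nd (nat_lit 228) (nat_lit 0) (cs (lf (nat_lit 29) (nat_lit 161)) (lf (nat_lit 15) (nat_lit 204)))))))))) (rf (nat_lit 6))))))))) (cs (nd (nat_lit 228) (nat_lit 0) (cs (rf (nat_lit 7)) (cs (nd (nat_lit 250) (nat_lit 0) (cs (lf (nat_lit 44) (nat_lit 161)) (lf (nat_lit 26) (nat_lit 161)))) (cs (nd (nat_lit 249) (nat_lit 0) (cs (lf (nat_lit 38) (nat_lit 161)) (lf (nat_lit 32) (nat_lit 161)))) (nd (nat_lit 205) (nat_lit 0) (cs (lf (nat_lit 29) (nat_lit 161)) (lf (nat_lit 30) (nat_lit 161)))))))) (nd (nat_lit 160) (nat_lit 0) (cs (rf (nat_lit 8)) (cs (nd (nat_lit 205) (nat_lit 0) (cs (lf (nat_lit 30) (nat_lit 161)) (lf (nat_lit 47) (nat_lit 138)))) (nd (nat_lit 226) (nat_lit 0) (cs (rf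 (nat_lit 6)) (nd (nat_lit 205) (nat_lit 0) (cs (lf (nat_lit 30) (nat_lit 161)) (lf (nat_lit 41) (nat_lit 160))))))))))))) q37606 (by decide +kernel)
def q37816 : Q := Q.p (nat_lit 0x400001e0000000000000000000000000000000000000000) (nat_lit 0x73c000e000038c0000000000000000000000000000000000) (nat_lit 8)
theorem c37816 : QOK q37816 := cut [q37815] ⟨c37815, trivial⟩ (nd (nat_lit 138) (nat_lit 0) (cs (lf (nat_lit 22) (nat_lit 138)) (rf (nat_lit 0)))) q37816 (by decide +kernel)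
def q38613 : Q := Q.p (nat_lit 0x2000000000010000040000040000000000000000000000000000000000000000) (nat_lit 0x880003f0001fc0003fc01cff003bfc01ebe000ffc003ff001ff0000fc0003f000028000000) (nat_lit 17)
theorem c38613 : QOK q38613 := cut [q19014, q32666, q38235, q38378, q32671, q33503, q34765, q35152, q35205, q38397, q19066, q34751, q34825, q35454, q36084, q32692, q32710, q32712, q32719, q32761, q32674, q35444, q3734, q38426, q38428, q38433, q38437, q33487, q38377, q23943, q2497, q34734, q34737, q3551, q32656, q38443, q38552, q38567, q38596, q35162, q35550, q16276, q32769, q38612] ⟨c19014, c32666, c38235, c38378, c32671, c33503, c34765, c35152, c35205, c38397, c19066, c34751, c34825, c35454, c36084, c32692, c32710, c32712, c32719, c32761, c32674, c35444, c3734, c38426, c38428, c38433, c38437, c33487, c38377, c23943, c2497, c34734, c34737, c3551, c32656, c38443, c38552, c38567, c38596, c35162, c35550,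 c16276, c32769, c38612, trivial⟩ (nd (nat_lit 184) (nat_lit 0) (cs (nd (nat_lit 185) (nat_lit 0) (cs (rf (nat_lit 0)) (cs (rf (nat_lit 1)) (rf (nat_lit 2))))) (cs (rf (nat_lit 3)) (cs (nd (nat_lit 140) (nat_lit 0) (cs (rf (nat_lit 4)) (cs (rf (nat_lit 5)) (cs (rf (nat_lit 6)) (cs (rf (nat_lit 7)) (cs (rf (nat_lit 8)) (cs (rf (nat_lit 9)) (nd (nat_lit 118) (nat_lit 0) (cs (rf (nat_lit 10)) (cs (rf (nat_lit 11)) (cs (rf (nat_lit 12)) (cs (rf (nat_lit 13)) (cs (rf (nat_lit 14)) (nd (nat_lit 97) (nat_lit 0) (cs (lf (nat_lit 34) (nat_lit 96)) (nd (nat_lit 96) (nat_lit 0) (cs (lf (nat_lit 35) (nat_lit 74)) (nd (nat_lit 161) (nat_lit 0) (cs (lf (nat_lit 41) (nat_lit 95)) (nd (nat_lit 139) (nat_lit 0) (cs (lf (nat_lit 36) (nat_lit 73)) (nd (nat_lit 206) (nat_lit 0) (cs (lf (nat_lit 47) (nat_lit 117)) (lf (nat_lit 42) (nat_lit 139))))))))))))))))))))))))) (cs (nd (nat_lit 140) (nat_lit 0) (cs (rf (nat_lit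 4)) (cs (rf (nat_lit 15)) (cs (rf (nat_lit 16)) (cs (rf (nat_lit 17)) (cs (rf (nat_lit 18)) (cs (rf (nat_lit 19)) (nd (nat_lit 118) (nat_lit 0) (cs (rf (nat_lit 10)) (cs (rf (nat_lit 20)) (cs (nd (nat_lit 119) (nat_lit 0) (cs (lf (nat_lit 35) (nat_lit 96)) (nd (nat_lit 117) (nat_lit 0) (cs (lf (nat_lit 47) (nat_lit 95)) (nd (nat_lit 183) (nat_lit 0) (cs (lf (nat_lit 41) (nat_lit 117)) (nd (nat_lit 185) (nat_lit 0) (cs (lf (nat_lit 29) (nat_lit 118)) (nd (nat_lit 141) (nat_lit 0) (cs (lf (nat_lit 26) (nat_lit 119)) (rf (nat_lit 21)))))))))))) (nd (nat_lit 97) (nat_lit 0) (cs (lf (nat_lit 34) (nat_lit 96)) (nd (nat_lit 96) (nat_lit 0) (cs (lf (nat_lit 35) (nat_lit 74)) (nd (nat_lit 185) (nat_lit 0) (cs (lf (nat_lit 28) (nat_lit 96)) (lf (nat_lit 29) (nat_lit 118))))))))))))))))))) (cs (nd (nat_lit 185) (nat_lit 0) (cs (rf (nat_lit 22)) (cs (rf (nat_lit 0)) (cs (rf (nat_lit 23)) (cs (rf (nat_lit 24))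 (rf (nat_lit 25))))))) (cs (nd (nat_lit 185) (nat_lit 0) (cs (rf (nat_lit 22)) (cs (rf (nat_lit 1)) (rf (nat_lit 26))))) (cs (nd (nat_lit 161) (nat_lit 0) (cs (rf (nat_lit 27)) (cs (rf (nat_lit 28)) (cs (nd (nat_lit 185) (nat_lit 0) (cs (lf (nat_lit 18) (nat_lit 161)) (nd (nat_lit 206) (nat_lit 0) (cs (rf (nat_lit 29)) (cs (nd (nat_lit 140) (nat_lit 0) (cs (rf (nat_lit 30)) (cs (rf (nat_lit 31)) (cs (rf (nat_lit 32)) (nd (nat_lit 139) (nat_lit 0) (cs (lf (nat_lit 47) (nat_lit 117)) (nd (nat_lit 207) (nat_lit 0) (cs (lf (nat_lit 29) (nat_lit 140)) (nd (nat_lit 182) (nat_lit 0) (cs (lf (nat_lit 1) (nat_lit 182)) (rf (nat_lit 33)))))))))))) (nd (nat_lit 228) (nat_lit 0) (cs (rf (nat_lit 34)) (rf (nat_lit 35))))))))) (rf (nat_lit 36)))))) (cs (rf (nat_lit 37)) (cs (rf (nat_lit 38)) (cs (nd (nat_lit 185) (nat_lit 0) (cs (rf (nat_lit 22)) (cs (rf (nat_lit 2)) (cs (rf (nat_lit 23)) (rf (nat_lit 25))))))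 (cs (nd (nat_lit 140) (nat_lit 0) (cs (rf (nat_lit 17)) (cs (rf (nat_lit 39)) (cs (rf (nat_lit 40)) (cs (rf (nat_lit 9)) (nd (nat_lit 206) (nat_lit 0) (cs (rf (nat_lit 41)) (cs (rf (nat_lit 42)) (rf (nat_lit 32)))))))))) (rf (nat_lit 43)))))))))))))) q38613 (by decide +kernel)
def q38858 : Q := Q.p (nat_lit 0x10000050000060000000000000000000000000000000000000000) (nat_lit 0xbc0003e0000fc003a0000018000180000600000800000000000000000000000) (nat_lit 11)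
theorem c38858 : QOK q38858 := cut [q5854, q38853, q38855] ⟨c5854, c38853, c38855, trivial⟩ (nd (nat_lit 206) (nat_lit 0) (cs (rf (nat_lit 0)) (cs (rf (nat_lit 1)) (nd (nat_lit 185) (nat_lit 0) (cs (lf (nat_lit 18) (nat_lit 161)) (nd (nat_lit 159) (nat_lit 0) (cs (lf (nat_lit 1) (nat_lit 159)) (rf (nat_lit 2))))))))) q38858 (by decide +kernel)
def q38912 : Q := Q.p (nat_lit 0x400000e0000000000000000000000000000000000000000) (nat_lit 0x7ac000f000039c0000000000000000000000000000000000) (nat_lit 9)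
theorem c38912 : QOK q38912 := cut [q35561] ⟨c35561, trivial⟩ (nd (nat_lit 164) (nat_lit 0) (cs (lf (nat_lit 5) (nat_lit 161)) (rf (nat_lit 0)))) q38912 (by decide +kernel)
def q39245 : Q := Q.p (nat_lit 0x10000040000040000000000000000000000000000000000000000) (nat_lit 0x300000c0000300000c0003bf000fb8003fe001ff8000fc0003f000040000000000000) (nat_lit 15)
theorem c39245 : QOK q39245 := cut [q32471, q3803, q32490, q32493, q32494, q32499, q4533, q32544, q3871, q32511, q32532, q32570, q32574, q32576, q39006, q39215, q33452, q33453, q39219, q20055, q32509, q12357, q12356, q33123, q35888, q21427, q39236, q10329, q32747] ⟨c32471, c3803, c32490, c32493, c32494, c32499, c4533, c32544, c3871, c32511, c32532, c32570, c32574, c32576, c39006, c39215, c33452, c33453, c39219, c20055, c32509, c12357, c12356, c33123, c35888, c21427, c39236, c10329, c32747, trivial⟩ (nd (nat_lit 163) (nat_lit 0) (cs (rf (nat_lit 0))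 (cs (nd (nat_lit 164) (nat_lit 0) (cs (rf (nat_lit 1)) (cs (rf (nat_lit 2)) (cs (rf (nat_lit 3)) (nd (nat_lit 142) (nat_lit 0) (cs (rf (nat_lit 4)) (cs (nd (nat_lit 141) (nat_lit 0) (cs (lf (nat_lit 47) (nat_lit 119)) (nd (nat_lit 207) (nat_lit 0) (cs (lf (nat_lit 41) (nat_lit 141)) (rf (nat_lit 5)))))) (nd (nat_lit 119) (nat_lit 0) (cs (lf (nat_lit 46) (nat_lit 119)) (nd (nat_lit 97) (nat_lit 0) (cs (lf (nat_lit 45) (nat_lit 97)) (nd (nat_lit 207) (nat_lit 0) (cs (lf (nat_lit 41) (nat_lit 141)) (rf (nat_lit 6))))))))))))))) (cs (nd (nat_lit 141) (nat_lit 0) (cs (rf (nat_lit 7)) (cs (nd (nat_lit 142) (nat_lit 0) (cs (rf (nat_lit 8)) (cs (rf (nat_lit 9)) (cs (nd (nat_lit 164) (nat_lit 0) (cs (rf (nat_lit 5)) (rf (nat_lit 10)))) (rf (nat_lit 11)))))) (cs (rf (nat_lit 12)) (rf (nat_lit 13)))))) (cs (rf (nat_lit 14)) (cs (rf (nat_lit 15)) (nd (nat_lit 164) (nat_lit 0) (cs (rf (nat_lit 16)) (cs (rf (nat_lit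 17)) (cs (rf (nat_lit 18)) (cs (nd (nat_lit 141) (nat_lit 0) (cs (rf (nat_lit 19)) (cs (rf (nat_lit 20)) (cs (nd (nat_lit 140) (nat_lit 0) (cs (rf (nat_lit 21)) (cs (nd (nat_lit 139) (nat_lit 0) (cs (rf (nat_lit 22)) (nd (nat_lit 207) (nat_lit 0) (cs (rf (nat_lit 23)) (cs (nd (nat_lit 142) (nat_lit 0) (cs (lf (nat_lit 41) (nat_lit 141)) (nd (nat_lit 120) (nat_lit 0) (cs (lf (nat_lit 17) (nat_lit 117)) (nd (nat_lit 76) (nat_lit 0) (cs (lf (nat_lit 37) (nat_lit 75)) (nd (nat_lit 117) (nat_lit 0) (cs (lf (nat_lit 23) (nat_lit 116)) (rf (nat_lit 24)))))))))) (cs (nd (nat_lit 118) (nat_lit 0) (cs (lf (nat_lit 43) (nat_lit 118)) (nd (nat_lit 96) (nat_lit 0) (cs (lf (nat_lit 24) (nat_lit 74)) (nd (nat_lit 75) (nat_lit 0) (cs (lf (nat_lit 34) (nat_lit 74)) (nd (nat_lit 95) (nat_lit 0) (cs (lf (nat_lit 47) (nat_lit 73)) (nd (nat_lit 117) (nat_lit 0) (cs (rf (nat_lit 25)) (lf (nat_lit 42) (nat_lit 95))))))))))))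 (nd (nat_lit 185) (nat_lit 0) (cs (lf (nat_lit 47) (nat_lit 118)) (lf (nat_lit 42) (nat_lit 140)))))))))) (nd (nat_lit 165) (nat_lit 0) (cs (lf (nat_lit 18) (nat_lit 140)) (rf (nat_lit 26))))))) (nd (nat_lit 119) (nat_lit 0) (cs (lf (nat_lit 45) (nat_lit 119)) (lf (nat_lit 27) (nat_lit 119)))))))) (nd (nat_lit 141) (nat_lit 0) (cs (rf (nat_lit 19)) (nd (nat_lit 165) (nat_lit 0) (cs (rf (nat_lit 27)) (cs (rf (nat_lit 28)) (nd (nat_lit 140) (nat_lit 0) (cs (rf (nat_lit 21)) (rf (nat_lit 26)))))))))))))))))))) q39245 (by decide +kernel)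
def q39504 : Q := Q.p (nat_lit 0x10000050000040000000000000000000000000000000000000000) (nat_lit 0x6000018000078003a70007b8003ff0007f8000f80003c000040000000000000) (nat_lit 12)
theorem c39504 : QOK q39504 := cut [q39006, q32472, q39452, q21439, q21414, q21418, q21435, q32509, q32539, q32544, q24055, q16290, q33083, q39473, q39475, q32493, q37167, q39007, q39490, q39503] ⟨c39006, c32472, c39452, c21439, c21414, c21418, c21435, c32509, c32539, c32544, c24055, c16290, c33083, c39473, c39475, c32493, c37167, c39007, c39490, c39503, trivial⟩ (nd (nat_lit 163) (nat_lit 0) (cs (rf (nat_lit 0)) (cs (nd (nat_lit 185) (nat_lit 0) (cs (rf (nat_lit 1)) (cs (rf (nat_lit 2)) (nd (nat_lit 140) (nat_lit 0) (cs (rf (nat_lit 3)) (cs (nd (nat_lit 160) (nat_lit 0) (cs (lf (nat_lit 1) (nat_lit 160)) (rf (nat_lit 4)))) (cs (nd (nat_lit 141) (nat_lit 0) (cs (lf (nat_lit 24) (nat_lit 119)) (nd (nat_lit 160) (nat_lit 0)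 (cs (lf (nat_lit 1) (nat_lit 160)) (nd (nat_lit 206) (nat_lit 0) (cs (lf (nat_lit 30) (nat_lit 140)) (nd (nat_lit 205) (nat_lit 0) (cs (lf (nat_lit 41) (nat_lit 139)) (nd (nat_lit 203) (nat_lit 0) (cs (lf (nat_lit 13) (nat_lit 181)) (rf (nat_lit 5)))))))))))) (nd (nat_lit 160) (nat_lit 0) (cs (lf (nat_lit 1) (nat_lit 160)) (rf (nat_lit 6))))))))))) (cs (nd (nat_lit 141) (nat_lit 0) (cs (rf (nat_lit 7)) (cs (rf (nat_lit 8)) (cs (rf (nat_lit 9)) (nd (nat_lit 206) (nat_lit 0) (cs (lf (nat_lit 30) (nat_lit 140)) (nd (nat_lit 140) (nat_lit 0) (cs (rf (nat_lit 10)) (cs (nd (nat_lit 143) (nat_lit 0) (cs (nd (nat_lit 142) (nat_lit 0) (cs (lf (nat_lit 6) (nat_lit 140)) (rf (nat_lit 11)))) (cs (nd (nat_lit 205) (nat_lit 0) (cs (lf (nat_lit 41) (nat_lit 139)) (nd (nat_lit 187) (nat_lit 0) (cs (lf (nat_lit 8) (nat_lit 183)) (nd (nat_lit 165) (nat_lit 0) (cs (lf (nat_lit 36) (nat_lit 120)) (nd (nat_lit 164)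 (nat_lit 0) (cs (lf (nat_lit 17) (nat_lit 140)) (lf (nat_lit 18) (nat_lit 140)))))))))) (nd (nat_lit 205) (nat_lit 0) (cs (lf (nat_lit 41) (nat_lit 139)) (nd (nat_lit 185) (nat_lit 0) (cs (lf (nat_lit 6) (nat_lit 183)) (nd (nat_lit 203) (nat_lit 0) (cs (lf (nat_lit 13) (nat_lit 181)) (nd (nat_lit 118) (nat_lit 0) (cs (lf (nat_lit 24) (nat_lit 96)) (rf (nat_lit 12))))))))))))) (cs (nd (nat_lit 205) (nat_lit 0) (cs (lf (nat_lit 41) (nat_lit 139)) (rf (nat_lit 13)))) (nd (nat_lit 165) (nat_lit 0) (cs (rf (nat_lit 14)) (cs (nd (nat_lit 205) (nat_lit 0) (cs (lf (nat_lit 41) (nat_lit 139)) (nd (nat_lit 187) (nat_lit 0) (cs (lf (nat_lit 8) (nat_lit 183)) (nd (nat_lit 143) (nat_lit 0) (cs (lf (nat_lit 36) (nat_lit 120)) (nd (nat_lit 142) (nat_lit 0) (cs (lf (nat_lit 5) (nat_lit 140)) (lf (nat_lit 6) (nat_lit 140)))))))))) (nd (nat_lit 205) (nat_lit 0) (cs (lf (nat_lit 41) (nat_lit 139)) (nd (nat_lit 164)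 (nat_lit 0) (cs (lf (nat_lit 23) (nat_lit 139)) (nd (nat_lit 187) (nat_lit 0) (cs (lf (nat_lit 5) (nat_lit 162)) (lf (nat_lit 8) (nat_lit 183))))))))))))))))))))) (cs (nd (nat_lit 164) (nat_lit 0) (cs (rf (nat_lit 15)) (cs (rf (nat_lit 16)) (cs (rf (nat_lit 17)) (rf (nat_lit 18)))))) (rf (nat_lit 19))))))) q39504 (by decide +kernel)
def q39578 : Q := Q.p (nat_lit 0x2000000000010000050000040000000000000000000000000000000000000000) (nat_lit 0x20000380001e00003c00007c0008f000fbc001ff0007fc000ff0000e000038000080000000) (nat_lit 15)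
theorem c39578 : QOK q39578 := cut [q33503, q34731, q35457, q34539, q35877, q39355, q17716, q35885, q35962, q18669, q39514, q39553, q39560, q34919, q35449, q5884, q34725, q35454, q35382] ⟨c33503, c34731, c35457, c34539, c35877, c39355, c17716, c35885, c35962, c18669, c39514, c39553, c39560, c34919, c35449, c5884, c34725, c35454, c35382, trivial⟩ (nd (nat_lit 140) (nat_lit 0) (cs (rf (nat_lit 0)) (cs (rf (nat_lit 1)) (cs (rf (nat_lit 2)) (cs (nd (nat_lit 141) (nat_lit 0) (cs (rf (nat_lit 3)) (cs (rf (nat_lit 4)) (nd (nat_lit 139) (nat_lit 0) (cs (rf (nat_lit 5)) (nd (nat_lit 138) (nat_lit 0) (cs (rf (nat_lit 6)) (cs (rf (nat_lit 7)) (cs (rf (nat_lit 8)) (nd (nat_lit 115) (nat_lit 0) (cs (lf (nat_lit 22) (nat_lit 115)) (nd (nat_lit 163) (nat_lit 0) (cs (lf (nat_lit 5) (nat_lit 138)) (rf (nat_lit 9))))))))))))))) (cs (rf (nat_lit 10)) (cs (rf (nat_lit 11)) (cs (rf (nat_lit 12)) (cs (nd (nat_lit 117)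 (nat_lit 0) (cs (rf (nat_lit 13)) (cs (rf (nat_lit 14)) (nd (nat_lit 118) (nat_lit 0) (cs (lf (nat_lit 47) (nat_lit 95)) (nd (nat_lit 205) (nat_lit 0) (cs (lf (nat_lit 40) (nat_lit 117)) (nd (nat_lit 206) (nat_lit 0) (cs (lf (nat_lit 41) (nat_lit 139)) (nd (nat_lit 141) (nat_lit 0) (cs (lf (nat_lit 35) (nat_lit 118)) (nd (nat_lit 142) (nat_lit 0) (cs (lf (nat_lit 18) (nat_lit 117)) (nd (nat_lit 115) (nat_lit 0) (cs (rf (nat_lit 15)) (lf (nat_lit 1) (nat_lit 115))))))))))))))))) (nd (nat_lit 118) (nat_lit 0) (cs (rf (nat_lit 16)) (cs (rf (nat_lit 17)) (nd (nat_lit 95) (nat_lit 0) (cs (lf (nat_lit 46) (nat_lit 95)) (nd (nat_lit 96) (nat_lit 0) (cs (lf (nat_lit 47) (nat_lit 73)) (nd (nat_lit 161) (nat_lit 0) (cs (lf (nat_lit 41) (nat_lit 95)) (nd (nat_lit 74) (nat_lit 0) (cs (lf (nat_lit 40) (nat_lit 73)) (nd (nat_lit 53) (nat_lit 0) (cs (lf (nat_lit 34) (nat_lit 52)) (nd (nat_lit 31) (nat_lit 0) (cs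 (lf (nat_lit 33) (nat_lit 30)) (nd (nat_lit 141) (nat_lit 0) (cs (lf (nat_lit 29) (nat_lit 74)) (nd (nat_lit 119) (nat_lit 0) (cs (lf (nat_lit 30) (nat_lit 118)) (rf (nat_lit 18)))))))))))))))))))))))))))))) q39578 (by decide +kernel)
def q39689 : Q := Q.p (nat_lit 0x2000000000010000050000040000000000000000000000000000000000000000) (nat_lit 0x20000380001e0000380000700072f001fbe007ff8003f8000f80003e000028000000000000) (nat_lit 14)
theorem c39689 : QOK q39689 := cut [q39503, q32650, q32767, q39422, q39431, q39433, q39441, q6771, q39583, q18690, q39653, q32779, q39497, q39560, q32515, q39473, q39675, q39676, q39677, q39490, q37828, q12363, q32055, q32469, q38228] ⟨c39503, c32650, c32767, c39422, c39431, c39433, c39441, c6771, c39583, c18690, c39653, c32779, c39497, c39560, c32515, c39473, c39675, c39676, c39677, c39490, c37828, c12363, c32055, c32469, c38228, trivial⟩ (nd (nat_lit 163) (nat_lit 0)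 (cs (rf (nat_lit 0)) (cs (nd (nat_lit 164) (nat_lit 0) (cs (rf (nat_lit 1)) (cs (rf (nat_lit 2)) (cs (rf (nat_lit 3)) (cs (rf (nat_lit 4)) (cs (rf (nat_lit 5)) (rf (nat_lit 6)))))))) (cs (nd (nat_lit 161) (nat_lit 0) (cs (rf (nat_lit 7)) (cs (rf (nat_lit 8)) (cs (nd (nat_lit 160) (nat_lit 0) (cs (lf (nat_lit 4) (nat_lit 160)) (rf (nat_lit 9)))) (nd (nat_lit 160) (nat_lit 0) (cs (lf (nat_lit 4) (nat_lit 160)) (nd (nat_lit 181) (nat_lit 0) (cs (lf (nat_lit 10) (nat_lit 159)) (nd (nat_lit 159) (nat_lit 0) (cs (lf (nat_lit 11) (nat_lit 158)) (nd (nat_lit 158) (nat_lit 0) (cs (lf (nat_lit 4) (nat_lit 158)) (nd (nat_lit 139) (nat_lit 0) (cs (lf (nat_lit 17) (nat_lit 136)) (nd (nat_lit 138) (nat_lit 0) (cs (lf (nat_lit 18) (nat_lit 138)) (lf (nat_lit 12) (nat_lit 135)))))))))))))))))) (cs (rf (nat_lit 10)) (cs (nd (nat_lit 141) (nat_lit 0) (cs (rf (nat_lit 11)) (cs (rf (nat_lit 12)) (cs (nd (nat_lit 140)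 (nat_lit 0) (cs (rf (nat_lit 13)) (cs (nd (nat_lit 206) (nat_lit 0) (cs (lf (nat_lit 30) (nat_lit 140)) (nd (nat_lit 205) (nat_lit 0) (cs (lf (nat_lit 41) (nat_lit 139)) (nd (nat_lit 118) (nat_lit 0) (cs (lf (nat_lit 40) (nat_lit 117)) (rf (nat_lit 14)))))))) (cs (nd (nat_lit 118) (nat_lit 0) (cs (rf (nat_lit 14)) (nd (nat_lit 183) (nat_lit 0) (cs (lf (nat_lit 41) (nat_lit 117)) (nd (nat_lit 181) (nat_lit 0) (cs (lf (nat_lit 13) (nat_lit 159)) (nd (nat_lit 117) (nat_lit 0) (cs (lf (nat_lit 47) (nat_lit 95)) (nd (nat_lit 116) (nat_lit 0) (cs (lf (nat_lit 0) (nat_lit 115)) (nd (nat_lit 142) (nat_lit 0) (cs (lf (nat_lit 21) (nat_lit 116)) (lf (nat_lit 18) (nat_lit 117)))))))))))))) (cs (nd (nat_lit 206) (nat_lit 0) (cs (lf (nat_lit 30) (nat_lit 140)) (nd (nat_lit 205) (nat_lit 0) (cs (lf (nat_lit 41) (nat_lit 139)) (nd (nat_lit 139) (nat_lit 0) (cs (lf (nat_lit 47) (nat_lit 117)) (nd (nat_lit 138)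 (nat_lit 0) (cs (lf (nat_lit 0) (nat_lit 137)) (nd (nat_lit 115) (nat_lit 0) (cs (lf (nat_lit 22) (nat_lit 115)) (nd (nat_lit 160) (nat_lit 0) (cs (lf (nat_lit 11) (nat_lit 137)) (nd (nat_lit 161) (nat_lit 0) (cs (lf (nat_lit 4) (nat_lit 160)) (lf (nat_lit 6) (nat_lit 138)))))))))))))))) (nd (nat_lit 206) (nat_lit 0) (cs (lf (nat_lit 30) (nat_lit 140)) (rf (nat_lit 15))))))))) (nd (nat_lit 206) (nat_lit 0) (cs (lf (nat_lit 30) (nat_lit 140)) (nd (nat_lit 119) (nat_lit 0) (cs (lf (nat_lit 33) (nat_lit 118)) (lf (nat_lit 39) (nat_lit 118)))))))))) (cs (nd (nat_lit 164) (nat_lit 0) (cs (rf (nat_lit 2)) (cs (rf (nat_lit 3)) (cs (rf (nat_lit 16)) (cs (rf (nat_lit 17)) (nd (nat_lit 165) (nat_lit 0) (cs (lf (nat_lit 11) (nat_lit 161)) (nd (nat_lit 166) (nat_lit 0) (cs (lf (nat_lit 10) (nat_lit 162)) (nd (nat_lit 141) (nat_lit 0) (cs (lf (nat_lit 23) (nat_lit 140)) (rf (nat_lit 18))))))))))))) (cs (nd (nat_lit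 164) (nat_lit 0) (cs (rf (nat_lit 1)) (cs (rf (nat_lit 19)) (cs (rf (nat_lit 17)) (cs (nd (nat_lit 161) (nat_lit 0) (cs (rf (nat_lit 20)) (rf (nat_lit 8)))) (nd (nat_lit 165) (nat_lit 0) (cs (lf (nat_lit 11) (nat_lit 161)) (nd (nat_lit 140) (nat_lit 0) (cs (lf (nat_lit 23) (nat_lit 139)) (nd (nat_lit 141) (nat_lit 0) (cs (lf (nat_lit 18) (nat_lit 140)) (rf (nat_lit 18))))))))))))) (nd (nat_lit 164) (nat_lit 0) (cs (rf (nat_lit 2)) (cs (rf (nat_lit 5)) (cs (rf (nat_lit 19)) (nd (nat_lit 161) (nat_lit 0) (cs (rf (nat_lit 21)) (cs (rf (nat_lit 22)) (cs (rf (nat_lit 23)) (rf (nat_lit 24)))))))))))))))))) q39689 (by decide +kernel)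
def q39742 : Q := Q.p (nat_lit 0x2000000000010000040000040000000000000000000000000000000000000000) (nat_lit 0x300008e0003bc001cfc00fbe003fbc003f0003fc00020000000000000000000000000) (nat_lit 16)
theorem c39742 : QOK q39742 := cut [q39070, q39083, q39108, q6989, q38235, q39080, q39115, q39119, q39124, q16292, q32473, q8461, q32478, q2869, q39110, q32474, q32475, q33113, q39171, q38418, q21050, q21490, q7338, q39738, q39739, q39741] ⟨c39070, c39083, c39108, c6989, c38235, c39080, c39115, c39119, c39124, c16292, c32473, c8461, c32478, c2869, c39110, c32474, c32475, c33113, c39171, c38418, c21050, c21490, c7338, c39738, c39739, c39741, trivial⟩ (nd (nat_lit 185) (nat_lit 0) (cs (rf (nat_lit 0)) (cs (rf (nat_lit 1)) (cs (rf (nat_lit 2)) (cs (nd (nat_lit 207) (nat_lit 0) (cs (nd (nat_lit 184) (nat_lit 0) (cs (rf (nat_lit 3)) (cs (rf (nat_lit 4)) (rf (nat_lit 5))))) (cs (nd (nat_lit 163) (nat_lit 0) (cs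 (rf (nat_lit 6)) (cs (rf (nat_lit 7)) (cs (rf (nat_lit 8)) (nd (nat_lit 141) (nat_lit 0) (cs (lf (nat_lit 24) (nat_lit 119)) (nd (nat_lit 160) (nat_lit 0) (cs (lf (nat_lit 1) (nat_lit 160)) (nd (nat_lit 206) (nat_lit 0) (cs (lf (nat_lit 41) (nat_lit 140)) (nd (nat_lit 140) (nat_lit 0) (cs (lf (nat_lit 47) (nat_lit 118)) (rf (nat_lit 9)))))))))))))) (cs (nd (nat_lit 163) (nat_lit 0) (cs (rf (nat_lit 10)) (cs (rf (nat_lit 6)) (nd (nat_lit 160) (nat_lit 0) (cs (lf (nat_lit 1) (nat_lit 160)) (nd (nat_lit 141) (nat_lit 0) (cs (lf (nat_lit 24) (nat_lit 119)) (nd (nat_lit 142) (nat_lit 0) (cs (lf (nat_lit 35) (nat_lit 119)) (nd (nat_lit 143) (nat_lit 0) (cs (lf (nat_lit 6) (nat_lit 140)) (rf (nat_lit 11))))))))))))) (cs (nd (nat_lit 163) (nat_lit 0) (cs (rf (nat_lit 12)) (cs (rf (nat_lit 8)) (nd (nat_lit 164) (nat_lit 0) (cs (rf (nat_lit 13)) (rf (nat_lit 14))))))) (cs (nd (nat_lit 163) (nat_lit 0) (cs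 (rf (nat_lit 10)) (cs (rf (nat_lit 15)) (rf (nat_lit 8))))) (nd (nat_lit 229) (nat_lit 0) (cs (rf (nat_lit 16)) (rf (nat_lit 17)))))))))) (cs (rf (nat_lit 18)) (cs (nd (nat_lit 187) (nat_lit 0) (cs (rf (nat_lit 19)) (cs (nd (nat_lit 188) (nat_lit 0) (cs (rf (nat_lit 20)) (cs (rf (nat_lit 21)) (nd (nat_lit 207) (nat_lit 0) (cs (rf (nat_lit 22)) (nd (nat_lit 166) (nat_lit 0) (cs (lf (nat_lit 17) (nat_lit 163)) (nd (nat_lit 210) (nat_lit 0) (cs (lf (nat_lit 5) (nat_lit 185)) (nd (nat_lit 232) (nat_lit 0) (cs (lf (nat_lit 40) (nat_lit 165)) (nd (nat_lit 233) (nat_lit 0) (cs (lf (nat_lit 29) (nat_lit 166)) (nd (nat_lit 143) (nat_lit 0) (cs (lf (nat_lit 46) (nat_lit 143)) (nd (nat_lit 144) (nat_lit 0) (cs (lf (nat_lit 47) (nat_lit 121)) (nd (nat_lit 123) (nat_lit 0) (cs (lf (nat_lit 34) (nat_lit 122)) (nd (nat_lit 122) (nat_lit 0) (cs (lf (nat_lit 35) (nat_lit 100)) (nd (nat_lit 124) (nat_lit 0) (cs (lf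 (nat_lit 6) (nat_lit 121)) (nd (nat_lit 142) (nat_lit 0) (cs (lf (nat_lit 12) (nat_lit 119)) (nd (nat_lit 164) (nat_lit 0) (cs (lf (nat_lit 41) (nat_lit 141)) (lf (nat_lit 36) (nat_lit 119))))))))))))))))))))))))))))) (cs (rf (nat_lit 23)) (rf (nat_lit 24)))))) (rf (nat_lit 25))))))))) q39742 (by decide +kernel)
def q39819 : Q := Q.p (nat_lit 0x2000000000010000060000040000000000000000000000000000000000000000) (nat_lit 0x200001e0000380000f80001e0003bc0007f0001fc0003c0000a000000000000000000) (nat_lit 14)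
theorem c39819 : QOK q39819 := cut [q38428, q38437, q39095, q6989, q39080, q39773, q37486, q8715, q35146, q6489] ⟨c38428, c38437, c39095, c6989, c39080, c39773, c37486, c8715, c35146, c6489, trivial⟩ (nd (nat_lit 184) (nat_lit 0) (cs (rf (nat_lit 0)) (cs (rf (nat_lit 1)) (cs (rf (nat_lit 2)) (cs (nd (nat_lit 207) (nat_lit 0) (cs (rf (nat_lit 3)) (cs (rf (nat_lit 4)) (rf (nat_lit 5))))) (cs (nd (nat_lit 183) (nat_lit 0) (cs (rf (nat_lit 6)) (nd (nat_lit 161) (nat_lit 0) (cs (lf (nat_lit 23) (nat_lit 160)) (rf (nat_lit 7)))))) (nd (nat_lit 207) (nat_lit 0) (cs (rf (nat_lit 3)) (cs (rf (nat_lit 4)) (nd (nat_lit 140) (nat_lit 0) (cs (lf (nat_lit 24) (nat_lit 118)) (nd (nat_lit 139) (nat_lit 0) (cs (nd (nat_lit 117) (nat_lit 0) (cs (lf (nat_lit 42) (nat_lit 117)) (rf (nat_lit 8)))) (cs (nd (nat_lit 182) (nat_lit 0) (cs (lf (nat_lit 1) (nat_lit 182)) (nd (nat_lit 206) (nat_lit 0) (cs (lf (nat_lit 47)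 (nat_lit 117)) (nd (nat_lit 141) (nat_lit 0) (cs (lf (nat_lit 35) (nat_lit 118)) (nd (nat_lit 163) (nat_lit 0) (cs (lf (nat_lit 41) (nat_lit 140)) (nd (nat_lit 164) (nat_lit 0) (cs (lf (nat_lit 18) (nat_lit 139)) (lf (nat_lit 0) (nat_lit 138)))))))))))) (cs (nd (nat_lit 183) (nat_lit 0) (cs (lf (nat_lit 0) (nat_lit 182)) (nd (nat_lit 164) (nat_lit 0) (cs (lf (nat_lit 17) (nat_lit 161)) (nd (nat_lit 120) (nat_lit 0) (cs (lf (nat_lit 37) (nat_lit 119)) (nd (nat_lit 161) (nat_lit 0) (cs (lf (nat_lit 23) (nat_lit 160)) (nd (nat_lit 206) (nat_lit 0) (cs (lf (nat_lit 42) (nat_lit 139)) (nd (nat_lit 141) (nat_lit 0) (cs (lf (nat_lit 35) (nat_lit 118)) (nd (nat_lit 138) (nat_lit 0) (cs (lf (nat_lit 19) (nat_lit 138)) (nd (nat_lit 137) (nat_lit 0) (cs (rf (nat_lit 9)) (lf (nat_lit 0) (nat_lit 136)))))))))))))))))) (nd (nat_lit 183) (nat_lit 0) (cs (lf (nat_lit 0) (nat_lit 182)) (nd (nat_lit 164) (nat_lit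 0) (cs (lf (nat_lit 17) (nat_lit 161)) (nd (nat_lit 120) (nat_lit 0) (cs (lf (nat_lit 37) (nat_lit 119)) (nd (nat_lit 161) (nat_lit 0) (cs (lf (nat_lit 23) (nat_lit 160)) (nd (nat_lit 138) (nat_lit 0) (cs (lf (nat_lit 19) (nat_lit 138)) (nd (nat_lit 136) (nat_lit 0) (cs (lf (nat_lit 1) (nat_lit 136)) (nd (nat_lit 141) (nat_lit 0) (cs (lf (nat_lit 16) (nat_lit 116)) (nd (nat_lit 117) (nat_lit 0) (cs (lf (nat_lit 24) (nat_lit 95)) (nd (nat_lit 116) (nat_lit 0) (cs (lf (nat_lit 23) (nat_lit 115)) (lf (nat_lit 47) (nat_lit 94))))))))))))))))))))))))))))))))))) q39819 (by decide +kernel)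
def q40288 : Q := Q.p (nat_lit 0x10000060000060000000000000000000000000000000000000000) (nat_lit 0x300000e00003c0000f00071c000f80003fc0000f00003800002000000000000000000) (nat_lit 12)
theorem c40288 : QOK q40288 := cut [q32473, q32474, q40240, q39743, q32477, q2869, q37815, q38961, q24084, q32564, q35560, q37110, q39418, q40261, q40263, q8715, q38966, q20055, q32509, q37100, q32478, q39119] ⟨c32473, c32474, c40240, c39743, c32477, c2869, c37815, c38961, c24084, c32564, c35560, c37110, c39418, c40261, c40263, c8715, c38966, c20055, c32509, c37100, c32478, c39119, trivial⟩ (nd (nat_lit 163) (nat_lit 0) (cs (nd (nat_lit 207) (nat_lit 0) (cs (rf (nat_lit 0)) (cs (rf (nat_lit 1)) (cs (nd (nat_lit 141) (nat_lit 0) (cs (lf (nat_lit 24) (nat_lit 119)) (rf (nat_lit 2)))) (nd (nat_lit 141) (nat_lit 0) (cs (lf (nat_lit 24) (nat_lit 119)) (nd (nat_lit 140) (nat_lit 0) (cs (lf (nat_lit 47) (nat_lit 118)) (nd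 (nat_lit 142) (nat_lit 0) (cs (lf (nat_lit 6) (nat_lit 139)) (rf (nat_lit 3)))))))))))) (cs (nd (nat_lit 141) (nat_lit 0) (cs (lf (nat_lit 24) (nat_lit 119)) (nd (nat_lit 207) (nat_lit 0) (cs (rf (nat_lit 4)) (cs (rf (nat_lit 2)) (cs (nd (nat_lit 164) (nat_lit 0x20000000000000000000000000000000000000000000000) (cs (rf (nat_lit 5)) (rf (nat_lit 6)))) (nd (nat_lit 183) (nat_lit 0) (cs (rf (nat_lit 7)) (cs (nd (nat_lit 182) (nat_lit 0) (cs (lf (nat_lit 6) (nat_lit 160)) (nd (nat_lit 206) (nat_lit 0) (cs (lf (nat_lit 21) (nat_lit 182)) (lf (nat_lit 41) (nat_lit 140)))))) (cs (nd (nat_lit 206) (nat_lit 0) (cs (lf (nat_lit 41) (nat_lit 140)) (nd (nat_lit 205) (nat_lit 0) (cs (lf (nat_lit 12) (nat_lit 182)) (nd (nat_lit 227) (nat_lit 0) (cs (lf (nat_lit 11) (nat_lit 204)) (nd (nat_lit 184) (nat_lit 0) (cs (lf (nat_lit 30) (nat_lit 161)) (rf (nat_lit 8)))))))))) (nd (nat_lit 206) (nat_lit 0) (cs (lf (nat_lit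 41) (nat_lit 140)) (nd (nat_lit 182) (nat_lit 0) (cs (lf (nat_lit 21) (nat_lit 182)) (lf (nat_lit 2) (nat_lit 182)))))))))))))))) (cs (nd (nat_lit 164) (nat_lit 0) (cs (rf (nat_lit 9)) (cs (rf (nat_lit 10)) (cs (rf (nat_lit 11)) (nd (nat_lit 184) (nat_lit 0) (cs (rf (nat_lit 12)) (cs (nd (nat_lit 119) (nat_lit 0) (cs (lf (nat_lit 25) (nat_lit 119)) (rf (nat_lit 13)))) (cs (nd (nat_lit 142) (nat_lit 0) (cs (lf (nat_lit 17) (nat_lit 139)) (nd (nat_lit 119) (nat_lit 0) (cs (lf (nat_lit 46) (nat_lit 119)) (rf (nat_lit 14)))))) (nd (nat_lit 138) (nat_lit 0) (cs (lf (nat_lit 22) (nat_lit 138)) (nd (nat_lit 183) (nat_lit 0) (cs (lf (nat_lit 12) (nat_lit 160)) (nd (nat_lit 142) (nat_lit 0) (cs (lf (nat_lit 17) (nat_lit 139)) (nd (nat_lit 119) (nat_lit 0) (cs (lf (nat_lit 46) (nat_lit 119)) (rf (nat_lit 15)))))))))))))))))) (cs (nd (nat_lit 164) (nat_lit 0) (cs (rf (nat_lit 10)) (cs (rf (nat_lit 6)) (cs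 (rf (nat_lit 16)) (nd (nat_lit 141) (nat_lit 0) (cs (rf (nat_lit 17)) (cs (rf (nat_lit 18)) (nd (nat_lit 182) (nat_lit 0) (cs (lf (nat_lit 10) (nat_lit 160)) (nd (nat_lit 139) (nat_lit 0) (cs (lf (nat_lit 23) (nat_lit 138)) (nd (nat_lit 142) (nat_lit 0) (cs (lf (nat_lit 17) (nat_lit 139)) (nd (nat_lit 207) (nat_lit 0) (cs (lf (nat_lit 41) (nat_lit 141)) (nd (nat_lit 140) (nat_lit 0) (cs (lf (nat_lit 47) (nat_lit 118)) (rf (nat_lit 19))))))))))))))))))) (cs (nd (nat_lit 207) (nat_lit 0) (cs (rf (nat_lit 0)) (cs (rf (nat_lit 1)) (cs (rf (nat_lit 20)) (rf (nat_lit 21)))))) (nd (nat_lit 164) (nat_lit 0) (cs (rf (nat_lit 10)) (cs (rf (nat_lit 11)) (cs (rf (nat_lit 6)) (nd (nat_lit 184) (nat_lit 0) (cs (rf (nat_lit 12)) (cs (rf (nat_lit 13)) (cs (rf (nat_lit 14)) (nd (nat_lit 138) (nat_lit 0) (cs (lf (nat_lit 22) (nat_lit 138)) (nd (nat_lit 183) (nat_lit 0) (cs (lf (nat_lit 12) (nat_lit 160)) (nd (nat_lit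 142) (nat_lit 0) (cs (lf (nat_lit 17) (nat_lit 139)) (nd (nat_lit 207) (nat_lit 0) (cs (lf (nat_lit 41) (nat_lit 141)) (nd (nat_lit 140) (nat_lit 0) (cs (lf (nat_lit 24) (nat_lit 118)) (nd (nat_lit 205) (nat_lit 0) (cs (lf (nat_lit 30) (nat_lit 139)) (lf (nat_lit 11) (nat_lit 182)))))))))))))))))))))))))))) q40288 (by decide +kernel)
def q40436 : Q := Q.p (nat_lit 0x10000040000040000000000000000000000000000000000000000) (nat_lit 0x300000f80003e0000f8003bf0001bc001ff001ffc007fe0007f8001fe000100000000) (nat_lit 17)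
theorem c40436 : QOK q40436 := cut [q32489, q40376, q32556, q38021, q39065, q40387, q6771, q38615, q39219, q40391, q32467, q32567, q38934, q32544, q32574, q32576, q3871, q32511, q32570, q32468, q38953, q40408, q37900, q10277, q32477, q32483, q32462, q32463, q32470, q38890, q40435] ⟨c32489, c40376, c32556, c38021, c39065, c40387, c6771, c38615, c39219, c40391, c32467, c32567, c38934, c32544, c32574, c32576, c3871, c32511, c32570, c32468, c38953, c40408, c37900, c10277, c32477, c32483, c32462, c32463, c32470, c38890, c40435, trivial⟩ (nd (nat_lit 163) (nat_lit 0) (cs (rf (nat_lit 0)) (cs (rf (nat_lit 1)) (cs (nd (nat_lit 161) (nat_lit 0) (cs (rf (nat_lit 2)) (cs (rf (nat_lit 3)) (cs (rf (nat_lit 4)) (nd (nat_lit 164) (nat_lit 0) (cs (lf (nat_lit 5) (nat_lit 161)) (rf (nat_lit 5)))))))) (cs (nd (nat_lit 161) (nat_lit 0) (cs (rf (nat_lit 6)) (cs (rf (nat_lit 2)) (rf (nat_lit 7))))) (cs (nd (nat_lit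 164) (nat_lit 0) (cs (rf (nat_lit 8)) (cs (rf (nat_lit 9)) (nd (nat_lit 161) (nat_lit 0) (cs (lf (nat_lit 5) (nat_lit 161)) (rf (nat_lit 5))))))) (cs (nd (nat_lit 161) (nat_lit 0) (cs (rf (nat_lit 6)) (cs (rf (nat_lit 10)) (cs (rf (nat_lit 2)) (cs (rf (nat_lit 11)) (rf (nat_lit 12))))))) (cs (nd (nat_lit 141) (nat_lit 0) (cs (rf (nat_lit 13)) (cs (rf (nat_lit 14)) (cs (rf (nat_lit 15)) (nd (nat_lit 142) (nat_lit 0) (cs (rf (nat_lit 16)) (cs (rf (nat_lit 17)) (cs (rf (nat_lit 18)) (nd (nat_lit 185) (nat_lit 0) (cs (nd (nat_lit 161) (nat_lit 0) (cs (rf (nat_lit 19)) (nd (nat_lit 183) (nat_lit 0) (cs (nd (nat_lit 164) (nat_lit 0) (cs (lf (nat_lit 11) (nat_lit 160)) (nd (nat_lit 139) (nat_lit 0) (cs (lf (nat_lit 23) (nat_lit 138)) (nd (nat_lit 120) (nat_lit 0) (cs (lf (nat_lit 36) (nat_lit 97)) (nd (nat_lit 121) (nat_lit 0) (cs (lf (nat_lit 35) (nat_lit 98)) (lf (nat_lit 13) (nat_lit 117)))))))))) (cs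 (nd (nat_lit 205) (nat_lit 0) (cs (rf (nat_lit 20)) (cs (nd (nat_lit 184) (nat_lit 0) (cs (lf (nat_lit 11) (nat_lit 182)) (nd (nat_lit 181) (nat_lit 0) (cs (lf (nat_lit 13) (nat_lit 159)) (nd (nat_lit 206) (nat_lit 0) (cs (lf (nat_lit 30) (nat_lit 140)) (nd (nat_lit 139) (nat_lit 0) (cs (lf (nat_lit 24) (nat_lit 117)) (nd (nat_lit 140) (nat_lit 0) (cs (lf (nat_lit 36) (nat_lit 117)) (nd (nat_lit 138) (nat_lit 0) (cs (lf (nat_lit 47) (nat_lit 116)) (lf (nat_lit 0) (nat_lit 137)))))))))))))) (rf (nat_lit 21))))) (cs (nd (nat_lit 182) (nat_lit 0) (cs (lf (nat_lit 6) (nat_lit 160)) (rf (nat_lit 22)))) (nd (nat_lit 205) (nat_lit 0) (cs (rf (nat_lit 20)) (cs (rf (nat_lit 21)) (nd (nat_lit 184) (nat_lit 0) (cs (lf (nat_lit 11) (nat_lit 182)) (nd (nat_lit 206) (nat_lit 0) (cs (lf (nat_lit 30) (nat_lit 140)) (nd (nat_lit 139) (nat_lit 0) (cs (lf (nat_lit 24) (nat_lit 117)) (nd (nat_lit 138) (nat_lit 0) (cs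 (lf (nat_lit 47) (nat_lit 116)) (lf (nat_lit 18) (nat_lit 138))))))))))))))))))) (cs (nd (nat_lit 160) (nat_lit 0) (cs (lf (nat_lit 1) (nat_lit 160)) (nd (nat_lit 120) (nat_lit 0) (cs (lf (nat_lit 30) (nat_lit 119)) (nd (nat_lit 98) (nat_lit 0) (cs (lf (nat_lit 36) (nat_lit 75)) (lf (nat_lit 39) (nat_lit 97)))))))) (nd (nat_lit 207) (nat_lit 0) (cs (rf (nat_lit 23)) (cs (rf (nat_lit 24)) (rf (nat_lit 25)))))))))))))))) (cs (nd (nat_lit 161) (nat_lit 0) (cs (rf (nat_lit 26)) (cs (rf (nat_lit 27)) (cs (rf (nat_lit 10)) (cs (rf (nat_lit 28)) (nd (nat_lit 164) (nat_lit 0) (cs (lf (nat_lit 5) (nat_lit 161)) (nd (nat_lit 182) (nat_lit 0) (cs (lf (nat_lit 10) (nat_lit 160)) (nd (nat_lit 142) (nat_lit 0) (cs (lf (nat_lit 17) (nat_lit 139)) (nd (nat_lit 207) (nat_lit 0) (cs (lf (nat_lit 41) (nat_lit 141)) (nd (nat_lit 120) (nat_lit 0) (cs (lf (nat_lit 40) (nat_lit 119)) (nd (nat_lit 99) (nat_lit 0) (cs (lf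 (nat_lit 34) (nat_lit 98)) (nd (nat_lit 98) (nat_lit 0) (cs (lf (nat_lit 35) (nat_lit 76)) (nd (nat_lit 138) (nat_lit 0) (cs (lf (nat_lit 22) (nat_lit 138)) (rf (nat_lit 29))))))))))))))))))))))) (rf (nat_lit 30))))))))))) q40436 (by decide +kernel)
def q40505 : Q := Q.p (nat_lit 0x10000040000040000000000000000000000000000000000000000) (nat_lit 0x180038e0007bf003fb8003ff001ff8000fc0003f000040000000000000) (nat_lit 14)
theorem c40505 : QOK q40505 := cut [q39006, q39653, q40435, q32509, q32539, q32544, q32510, q21442, q40443, q20424, q7985, q32513, q32523, q39153, q40330, q39475, q40461, q40465, q40501, q3803, q32490, q32493, q37110, q37828, q39675, q40391] ⟨c39006, c39653, c40435, c32509, c32539, c32544, c32510, c21442, c40443, c20424, c7985, c32513, c32523, c39153, c40330, c39475, c40461, c40465, c40501, c3803, c32490, c32493, c37110, c37828, c39675, c40391, trivial⟩ (nd (nat_lit 163) (nat_lit 0)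 (cs (rf (nat_lit 0)) (cs (rf (nat_lit 1)) (cs (rf (nat_lit 2)) (cs (nd (nat_lit 141) (nat_lit 0) (cs (rf (nat_lit 3)) (cs (rf (nat_lit 4)) (cs (rf (nat_lit 5)) (nd (nat_lit 143) (nat_lit 0) (cs (nd (nat_lit 142) (nat_lit 0) (cs (lf (nat_lit 6) (nat_lit 140)) (rf (nat_lit 6)))) (cs (nd (nat_lit 165) (nat_lit 0) (cs (nd (nat_lit 121) (nat_lit 0) (cs (lf (nat_lit 39) (nat_lit 120)) (nd (nat_lit 164) (nat_lit 0) (cs (lf (nat_lit 17) (nat_lit 140)) (lf (nat_lit 36) (nat_lit 98)))))) (cs (nd (nat_lit 187) (nat_lit 0) (cs (lf (nat_lit 36) (nat_lit 120)) (nd (nat_lit 185) (nat_lit 0) (cs (lf (nat_lit 18) (nat_lit 162)) (nd (nat_lit 184) (nat_lit 0) (cs (lf (nat_lit 17) (nat_lit 162)) (rf (nat_lit 7)))))))) (rf (nat_lit 8))))) (cs (nd (nat_lit 121) (nat_lit 0) (cs (nd (nat_lit 142) (nat_lit 0) (cs (lf (nat_lit 32) (nat_lit 120)) (rf (nat_lit 9)))) (nd (nat_lit 187) (nat_lit 0) (cs (lf (nat_lit 38) (nat_lit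 120)) (nd (nat_lit 188) (nat_lit 0) (cs (lf (nat_lit 21) (nat_lit 162)) (nd (nat_lit 189) (nat_lit 0) (cs (lf (nat_lit 11) (nat_lit 185)) (nd (nat_lit 168) (nat_lit 0) (cs (lf (nat_lit 16) (nat_lit 164)) (nd (nat_lit 212) (nat_lit 0) (cs (rf (nat_lit 10)) (lf (nat_lit 4) (nat_lit 186)))))))))))))) (cs (nd (nat_lit 142) (nat_lit 0) (cs (lf (nat_lit 6) (nat_lit 140)) (nd (nat_lit 140) (nat_lit 0) (cs (rf (nat_lit 11)) (rf (nat_lit 12)))))) (cs (nd (nat_lit 165) (nat_lit 0) (cs (rf (nat_lit 13)) (cs (rf (nat_lit 8)) (cs (nd (nat_lit 142) (nat_lit 0) (cs (lf (nat_lit 6) (nat_lit 140)) (nd (nat_lit 140) (nat_lit 0) (cs (lf (nat_lit 5) (nat_lit 140)) (rf (nat_lit 14)))))) (nd (nat_lit 140) (nat_lit 0) (cs (rf (nat_lit 15)) (cs (nd (nat_lit 142) (nat_lit 0) (cs (lf (nat_lit 5) (nat_lit 140)) (rf (nat_lit 14)))) (nd (nat_lit 139) (nat_lit 0) (cs (lf (nat_lit 19) (nat_lit 139)) (rf (nat_lit 16)))))))))))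 (nd (nat_lit 142) (nat_lit 0) (cs (lf (nat_lit 6) (nat_lit 140)) (nd (nat_lit 121) (nat_lit 0) (cs (lf (nat_lit 32) (nat_lit 120)) (nd (nat_lit 187) (nat_lit 0) (cs (lf (nat_lit 38) (nat_lit 120)) (nd (nat_lit 185) (nat_lit 0) (cs (lf (nat_lit 18) (nat_lit 162)) (rf (nat_lit 17)))))))))))))))))))) (cs (rf (nat_lit 18)) (cs (nd (nat_lit 164) (nat_lit 0) (cs (rf (nat_lit 19)) (cs (rf (nat_lit 20)) (cs (rf (nat_lit 21)) (nd (nat_lit 161) (nat_lit 0) (cs (rf (nat_lit 22)) (rf (nat_lit 23)))))))) (nd (nat_lit 164) (nat_lit 0) (cs (rf (nat_lit 21)) (cs (rf (nat_lit 24)) (rf (nat_lit 25)))))))))))) q40505 (by decide +kernel)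
def q41372 : Q := Q.p (nat_lit 0x3400000000010000040000000000000000000000000000000000000000000000) (nat_lit 0xf80007e0000fc001bf8000bf001bf8000fe000bf0000fc0003f0000f40000000000000000000000000000) (nat_lit 16)
theorem c41372 : QOK q41372 := cut [q2622, q41024, q41221, q41224, q17127, q40706, q41226, q41228, q41231, q41233, q41236, q41297, q41351, q41242, q41295, q41336, q37535, q41335, q41337, q41355, q17403] ⟨c2622, c41024, c41221, c41224, c17127, c40706, c41226, c41228, c41231, c41233, c41236, c41297, c41351, c41242, c41295, c41336, c37535, c41335, c41337, c41355, c17403, trivial⟩ (nd (nat_lit 227) (nat_lit 0) (cs (nd (nat_lit 251) (nat_lit 0) (cs (lf (nat_lit 22) (nat_lit 227)) (nd (nat_lit 275) (nat_lit 0) (cs (lf (nat_lit 5) (nat_lit 250)) (rf (nat_lit 0)))))) (cs (rf (nat_lit 1)) (cs (rf (nat_lit 2)) (cs (nd (nat_lit 228) (nat_lit 0) (cs (lf (nat_lit 20) (nat_lit 227)) (nd (nat_lit 272) (nat_lit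 0) (cs (rf (nat_lit 3)) (cs (nd (nat_lit 206) (nat_lit 0) (cs (rf (nat_lit 4)) (cs (rf (nat_lit 5)) (cs (nd (nat_lit 273) (nat_lit 0) (cs (lf (nat_lit 29) (nat_lit 206)) (rf (nat_lit 6)))) (nd (nat_lit 271) (nat_lit 0) (cs (lf (nat_lit 41) (nat_lit 205)) (rf (nat_lit 7)))))))) (cs (nd (nat_lit 294) (nat_lit 0) (cs (rf (nat_lit 8)) (nd (nat_lit 293) (nat_lit 0) (cs (lf (nat_lit 41) (nat_lit 227)) (rf (nat_lit 9)))))) (rf (nat_lit 10)))))))) (cs (rf (nat_lit 11)) (cs (rf (nat_lit 12)) (nd (nat_lit 228) (nat_lit 0) (cs (lf (nat_lit 20) (nat_lit 227)) (nd (nat_lit 226) (nat_lit 0) (cs (rf (nat_lit 13)) (cs (rf (nat_lit 14)) (cs (rf (nat_lit 15)) (nd (nat_lit 225) (nat_lit 0) (cs (rf (nat_lit 16)) (cs (rf (nat_lit 17)) (cs (rf (nat_lit 18)) (nd (nat_lit 183) (nat_lit 0) (cs (nd (nat_lit 202) (nat_lit 0) (cs (lf (nat_lit 22) (nat_lit 202)) (nd (nat_lit 161) (nat_lit 0) (cs (lf (nat_lit 26) (nat_lit 161))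 (nd (nat_lit 206) (nat_lit 0) (cs (lf (nat_lit 45) (nat_lit 161)) (lf (nat_lit 17) (nat_lit 203)))))))) (cs (nd (nat_lit 202) (nat_lit 0) (cs (lf (nat_lit 22) (nat_lit 202)) (nd (nat_lit 246) (nat_lit 0) (cs (lf (nat_lit 10) (nat_lit 224)) (nd (nat_lit 206) (nat_lit 0) (cs (lf (nat_lit 17) (nat_lit 203)) (nd (nat_lit 184) (nat_lit 0) (cs (lf (nat_lit 47) (nat_lit 161)) (rf (nat_lit 19)))))))))) (cs (nd (nat_lit 202) (nat_lit 0) (cs (lf (nat_lit 22) (nat_lit 202)) (nd (nat_lit 246) (nat_lit 0) (cs (lf (nat_lit 10) (nat_lit 224)) (nd (nat_lit 206) (nat_lit 0) (cs (lf (nat_lit 17) (nat_lit 203)) (nd (nat_lit 272) (nat_lit 0) (cs (lf (nat_lit 46) (nat_lit 183)) (nd (nat_lit 295) (nat_lit 0) (cs (lf (nat_lit 28) (nat_lit 206)) (nd (nat_lit 294) (nat_lit 0) (cs (lf (nat_lit 29) (nat_lit 228)) (rf (nat_lit 20)))))))))))))) (nd (nat_lit 205) (nat_lit 0) (cs (lf (nat_lit 24) (nat_lit 161)) (nd (nat_lit 272)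 (nat_lit 0) (cs (lf (nat_lit 42) (nat_lit 205)) (lf (nat_lit 27) (nat_lit 183))))))))))))))))))))))))))) q41372 (by decide +kernel)
def q41558 : Q := Q.p (nat_lit 0x3400000000010000040000000000000000000000000000000000000000000000) (nat_lit 0x1480007e0001f80007e0001f8000080001b80000f8003be000ee0000280000000000000000000000000000000000) (nat_lit 14)
theorem c41558 : QOK q41558 := cut [q40544, q40731, q2074, q2513, q40711, q40743, q41406, q41523, q41460, q41526, q26319, q41536, q41543, q21908, q2047, q41380, q40526, q40536, q40558, q40708, q40713] ⟨c40544, c40731, c2074, c2513, c40711, c40743, c41406, c41523, c41460, c41526, c26319, c41536, c41543, c21908, c2047, c41380, c40526, c40536, c40558, c40708, c40713, trivial⟩ (nd (nat_lit 251) (nat_lit 0) (cs (rf (nat_lit 0)) (cs (rf (nat_lit 1)) (cs (nd (nat_lit 228) (nat_lit 0) (cs (lf (nat_lit 23) (nat_lit 227)) (nd (nat_lit 206) (nat_lit 0) (cs (rf (nat_lit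 2)) (cs (rf (nat_lit 3)) (cs (nd (nat_lit 272) (nat_lit 0) (cs (lf (nat_lit 11) (nat_lit 249)) (nd (nat_lit 231) (nat_lit 0) (cs (lf (nat_lit 17) (nat_lit 228)) (rf (nat_lit 4)))))) (rf (nat_lit 5)))))))) (cs (rf (nat_lit 6)) (cs (nd (nat_lit 228) (nat_lit 0) (cs (lf (nat_lit 23) (nat_lit 227)) (nd (nat_lit 275) (nat_lit 0) (cs (lf (nat_lit 5) (nat_lit 250)) (rf (nat_lit 7)))))) (cs (nd (nat_lit 272) (nat_lit 0) (cs (lf (nat_lit 11) (nat_lit 249)) (nd (nat_lit 275) (nat_lit 0) (cs (lf (nat_lit 5) (nat_lit 250)) (nd (nat_lit 297) (nat_lit 0) (cs (rf (nat_lit 8)) (cs (nd (nat_lit 231) (nat_lit 0) (cs (lf (nat_lit 17) (nat_lit 228)) (nd (nat_lit 298) (nat_lit 0) (cs (lf (nat_lit 29) (nat_lit 231)) (nd (nat_lit 273) (nat_lit 0) (cs (lf (nat_lit 2) (nat_lit 272)) (nd (nat_lit 295) (nat_lit 0) (cs (nd (nat_lit 317) (nat_lit 0) (cs (lf (nat_lit 42) (nat_lit 250)) (nd (nat_lit 229) (nat_lit 0) (cs (lf (nat_lit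 33) (nat_lit 185)) (rf (nat_lit 9)))))) (lf (nat_lit 20) (nat_lit 272)))))))))) (cs (nd (nat_lit 231) (nat_lit 0) (cs (lf (nat_lit 17) (nat_lit 228)) (rf (nat_lit 10)))) (cs (nd (nat_lit 231) (nat_lit 0) (cs (lf (nat_lit 17) (nat_lit 228)) (nd (nat_lit 318) (nat_lit 0) (cs (lf (nat_lit 40) (nat_lit 230)) (nd (nat_lit 319) (nat_lit 0) (cs (lf (nat_lit 41) (nat_lit 252)) (rf (nat_lit 11)))))))) (cs (nd (nat_lit 231) (nat_lit 0) (cs (lf (nat_lit 17) (nat_lit 228)) (nd (nat_lit 318) (nat_lit 0) (cs (lf (nat_lit 40) (nat_lit 230)) (nd (nat_lit 319) (nat_lit 0) (cs (lf (nat_lit 41) (nat_lit 252)) (rf (nat_lit 12)))))))) (nd (nat_lit 319) (nat_lit 0) (cs (rf (nat_lit 13)) (cs (rf (nat_lit 12)) (nd (nat_lit 294) (nat_lit 0) (cs (rf (nat_lit 14)) (rf (nat_lit 15))))))))))))))))) (cs (nd (nat_lit 228) (nat_lit 0) (cs (lf (nat_lit 23) (nat_lit 227)) (nd (nat_lit 295) (nat_lit 0) (cs (rf (nat_lit 16)) (cs (rf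 (nat_lit 17)) (cs (nd (nat_lit 273) (nat_lit 0) (cs (lf (nat_lit 42) (nat_lit 228)) (nd (nat_lit 229) (nat_lit 0) (cs (lf (nat_lit 47) (nat_lit 206)) (lf (nat_lit 33) (nat_lit 185)))))) (nd (nat_lit 231) (nat_lit 0) (cs (lf (nat_lit 17) (nat_lit 228)) (nd (nat_lit 275) (nat_lit 0) (cs (lf (nat_lit 5) (nat_lit 250)) (rf (nat_lit 18)))))))))))) (nd (nat_lit 228) (nat_lit 0) (cs (lf (nat_lit 23) (nat_lit 227)) (nd (nat_lit 206) (nat_lit 0) (cs (rf (nat_lit 2)) (cs (rf (nat_lit 3)) (cs (rf (nat_lit 19)) (rf (nat_lit 20)))))))))))))))) q41558 (by decide +kernel)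
def q41895 : Q := Q.p (nat_lit 0x40000000000000003c00000000010000040000000000000000000000000000000000000000000000) (nat_lit 0x100001ffc003be001efc001bc000030001ae00008000020000000000000000000000000000000000000000000000) (nat_lit 14)
theorem c41895 : QOK q41895 := cut [q41840, q41842, q41847, q25254, q41770, q41849, q41854, q12719, q41867, q41869, q41894] ⟨c41840, c41842, c41847, c25254, c41770, c41849, c41854, c12719, c41867, c41869, c41894, trivial⟩ (nd (nat_lit 316) (nat_lit 0) (cs (rf (nat_lit 0)) (cs (rf (nat_lit 1)) (cs (nd (nat_lit 315) (nat_lit 0) (cs (rf (nat_lit 2)) (cs (nd (nat_lit 317) (nat_lit 0) (cs (rf (nat_lit 3)) (cs (rf (nat_lit 4)) (cs (nd (nat_lit 275) (nat_lit 0) (cs (lf (nat_lit 5) (nat_lit 250)) (nd (nat_lit 337) (nat_lit 0) (cs (lf (nat_lit 11) (nat_lit 314)) (nd (nat_lit 292) (nat_lit 0) (cs (lf (nat_lit 22) (nat_lit 292)) (rf (nat_lit 5)))))))) (nd (nat_lit 275) (nat_lit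 0) (cs (lf (nat_lit 5) (nat_lit 250)) (rf (nat_lit 6)))))))) (nd (nat_lit 317) (nat_lit 0) (cs (nd (nat_lit 275) (nat_lit 0) (cs (lf (nat_lit 5) (nat_lit 250)) (nd (nat_lit 231) (nat_lit 0) (cs (lf (nat_lit 17) (nat_lit 228)) (nd (nat_lit 271) (nat_lit 0) (cs (lf (nat_lit 10) (nat_lit 249)) (nd (nat_lit 249) (nat_lit 0) (cs (lf (nat_lit 11) (nat_lit 248)) (nd (nat_lit 226) (nat_lit 0) (cs (lf (nat_lit 22) (nat_lit 226)) (nd (nat_lit 225) (nat_lit 0) (cs (lf (nat_lit 21) (nat_lit 225)) (nd (nat_lit 337) (nat_lit 0) (cs (lf (nat_lit 11) (nat_lit 314)) (nd (nat_lit 319) (nat_lit 0) (cs (lf (nat_lit 10) (nat_lit 315)) (nd (nat_lit 297) (nat_lit 0) (cs (rf (nat_lit 7)) (lf (nat_lit 17) (nat_lit 294)))))))))))))))))))) (cs (rf (nat_lit 8)) (cs (nd (nat_lit 340) (nat_lit 0) (cs (lf (nat_lit 5) (nat_lit 315)) (nd (nat_lit 339) (nat_lit 0) (cs (lf (nat_lit 0) (nat_lit 314)) (nd (nat_lit 273) (nat_lit 0)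 (cs (nd (nat_lit 207) (nat_lit 0) (cs (lf (nat_lit 32) (nat_lit 185)) (nd (nat_lit 231) (nat_lit 0) (cs (lf (nat_lit 17) (nat_lit 228)) (nd (nat_lit 271) (nat_lit 0) (cs (lf (nat_lit 10) (nat_lit 249)) (nd (nat_lit 249) (nat_lit 0) (cs (lf (nat_lit 11) (nat_lit 248)) (nd (nat_lit 275) (nat_lit 0) (cs (lf (nat_lit 5) (nat_lit 250)) (rf (nat_lit 9)))))))))))) (lf (nat_lit 26) (nat_lit 251)))))))) (nd (nat_lit 271) (nat_lit 0) (cs (lf (nat_lit 10) (nat_lit 249)) (nd (nat_lit 249) (nat_lit 0) (cs (lf (nat_lit 11) (nat_lit 248)) (nd (nat_lit 226) (nat_lit 0) (cs (lf (nat_lit 22) (nat_lit 226)) (nd (nat_lit 225) (nat_lit 0) (cs (lf (nat_lit 21) (nat_lit 225)) (nd (nat_lit 275) (nat_lit 0) (cs (lf (nat_lit 5) (nat_lit 250)) (nd (nat_lit 231) (nat_lit 0) (cs (lf (nat_lit 17) (nat_lit 228)) (nd (nat_lit 337) (nat_lit 0) (cs (lf (nat_lit 11) (nat_lit 314)) (rf (nat_lit 5))))))))))))))))))))))) (rf (nat_lit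 10)))))) q41895 (by decide +kernel)
def q42459 : Q := Q.p (nat_lit 0x10000040000000000000003400000000010000040000000000000000000000000000000000000000000000) (nat_lit 0x8000024000198003ef8007be001ff8001bf0000b8001ae00009000024000000000000000000000000000000000000000000000) (nat_lit 14)
theorem c42459 : QOK q42459 := cut [q42373, q3762, q11143, q42383, q42391, q41842, q42396, q41767, q41824, q42403, q25254, q42408, q42412, q42417, q42421, q42430, q41761, q13220, q42440, q42445, q41840, q42458] ⟨c42373, c3762, c11143, c42383, c42391, c41842, c42396, c41767, c41824, c42403, c25254, c42408, c42412, c42417, c42421, c42430, c41761, c13220, c42440, c42445, c41840, c42458, trivial⟩ (nd (nat_lit 251) (nat_lit 0) (cs (rf (nat_lit 0)) (cs (nd (nat_lit 249) (nat_lit 0) (cs (rf (nat_lit 1)) (cs (rf (nat_lit 2)) (cs (rf (nat_lit 3)) (rf (nat_lit 4)))))) (cs (nd (nat_lit 316) (nat_lit 0) (cs (rf (nat_lit 5)) (cs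 (nd (nat_lit 317) (nat_lit 0) (cs (rf (nat_lit 6)) (cs (nd (nat_lit 319) (nat_lit 0) (cs (rf (nat_lit 7)) (cs (rf (nat_lit 8)) (rf (nat_lit 9))))) (cs (nd (nat_lit 315) (nat_lit 0) (cs (rf (nat_lit 10)) (cs (nd (nat_lit 231) (nat_lit 0) (cs (lf (nat_lit 17) (nat_lit 228)) (nd (nat_lit 296) (nat_lit 0) (cs (lf (nat_lit 17) (nat_lit 293)) (rf (nat_lit 11)))))) (rf (nat_lit 12))))) (cs (rf (nat_lit 13)) (rf (nat_lit 14))))))) (rf (nat_lit 15))))) (cs (nd (nat_lit 316) (nat_lit 0) (cs (rf (nat_lit 5)) (cs (rf (nat_lit 15)) (nd (nat_lit 317) (nat_lit 0) (cs (rf (nat_lit 6)) (cs (rf (nat_lit 13)) (cs (rf (nat_lit 14)) (cs (nd (nat_lit 319) (nat_lit 0) (cs (rf (nat_lit 16)) (cs (rf (nat_lit 7)) (cs (rf (nat_lit 9)) (cs (nd (nat_lit 275) (nat_lit 0) (cs (lf (nat_lit 5) (nat_lit 250)) (nd (nat_lit 293) (nat_lit 0) (cs (lf (nat_lit 22) (nat_lit 293)) (nd (nat_lit 338) (nat_lit 0) (cs (lf (nat_lit 11) (nat_lit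 315)) (nd (nat_lit 320) (nat_lit 0) (cs (lf (nat_lit 10) (nat_lit 316)) (nd (nat_lit 298) (nat_lit 0) (cs (lf (nat_lit 17) (nat_lit 295)) (nd (nat_lit 295) (nat_lit 0) (cs (lf (nat_lit 25) (nat_lit 251)) (nd (nat_lit 321) (nat_lit 0) (cs (lf (nat_lit 22) (nat_lit 295)) (rf (nat_lit 17)))))))))))))))) (nd (nat_lit 231) (nat_lit 0) (cs (lf (nat_lit 17) (nat_lit 228)) (nd (nat_lit 275) (nat_lit 0) (cs (lf (nat_lit 5) (nat_lit 250)) (nd (nat_lit 341) (nat_lit 0) (cs (lf (nat_lit 5) (nat_lit 316)) (rf (nat_lit 18))))))))))))) (rf (nat_lit 19)))))))))) (cs (nd (nat_lit 316) (nat_lit 0) (cs (rf (nat_lit 20)) (cs (rf (nat_lit 5)) (rf (nat_lit 15))))) (rf (nat_lit 21)))))))) q42459 (by decide +kernel)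
def q43245 : Q := Q.p (nat_lit 0x10000040000000000000002400000000000000000000000000000000000000000000000000000000000000) (nat_lit 0x280001a0001ff0007f8007ef001fb8003fe0007b80018000000000000000000000000000000000000000000000000000000000000000) (nat_lit 14)
theorem c43245 : QOK q43245 := cut [q42288, q42320, q42354, q42363, q43119, q42202, q42261, q43208, q14414, q42201, q42199, q43216, q13222, q13022, q43221, q43240, q13060] ⟨c42288, c42320, c42354, c42363, c43119, c42202, c42261, c43208, c14414, c42201, c42199, c43216, c13222, c13022, c43221, c43240, c13060, trivial⟩ (nd (nat_lit 319) (nat_lit 0) (cs (rf (nat_lit 0)) (cs (rf (nat_lit 1)) (cs (rf (nat_lit 2)) (cs (rf (nat_lit 3)) (cs (rf (nat_lit 4)) (cs (nd (nat_lit 320) (nat_lit 0) (cs (rf (nat_lit 5)) (cs (rf (nat_lit 6)) (cs (rf (nat_lit 7)) (cs (nd (nat_lit 321) (nat_lit 0) (cs (rf (nat_lit 8)) (cs (rf (nat_lit 9)) (nd (nat_lit 343) (nat_lit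 0) (cs (lf (nat_lit 5) (nat_lit 318)) (nd (nat_lit 317) (nat_lit 0) (cs (lf (nat_lit 4) (nat_lit 317)) (rf (nat_lit 10))))))))) (rf (nat_lit 11))))))) (nd (nat_lit 320) (nat_lit 0) (cs (rf (nat_lit 12)) (cs (rf (nat_lit 7)) (cs (nd (nat_lit 343) (nat_lit 0) (cs (nd (nat_lit 321) (nat_lit 0) (cs (lf (nat_lit 5) (nat_lit 318)) (nd (nat_lit 322) (nat_lit 0) (cs (rf (nat_lit 13)) (lf (nat_lit 10) (nat_lit 318)))))) (cs (nd (nat_lit 317) (nat_lit 0) (cs (lf (nat_lit 4) (nat_lit 317)) (rf (nat_lit 14)))) (nd (nat_lit 317) (nat_lit 0) (cs (lf (nat_lit 4) (nat_lit 317)) (nd (nat_lit 294) (nat_lit 0) (cs (lf (nat_lit 22) (nat_lit 294)) (nd (nat_lit 275) (nat_lit 0) (cs (lf (nat_lit 38) (nat_lit 252)) (nd (nat_lit 321) (nat_lit 0) (cs (lf (nat_lit 5) (nat_lit 318)) (nd (nat_lit 322) (nat_lit 0) (cs (lf (nat_lit 10) (nat_lit 318)) (nd (nat_lit 300) (nat_lit 0) (cs (lf (nat_lit 17) (nat_lit 297)) (nd (nat_lit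 256) (nat_lit 0) (cs (nd (nat_lit 316) (nat_lit 0) (cs (lf (nat_lit 23) (nat_lit 293)) (nd (nat_lit 337) (nat_lit 0) (cs (lf (nat_lit 10) (nat_lit 315)) (nd (nat_lit 315) (nat_lit 0) (cs (lf (nat_lit 11) (nat_lit 314)) (lf (nat_lit 37) (nat_lit 249)))))))) (lf (nat_lit 37) (nat_lit 255))))))))))))))))))) (cs (nd (nat_lit 275) (nat_lit 0) (cs (lf (nat_lit 38) (nat_lit 252)) (rf (nat_lit 15)))) (nd (nat_lit 321) (nat_lit 0) (cs (lf (nat_lit 11) (nat_lit 317)) (nd (nat_lit 275) (nat_lit 0) (cs (rf (nat_lit 16)) (lf (nat_lit 38) (nat_lit 252)))))))))))))))))) q43245 (by decide +kernel)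
def q43361 : Q := Q.p (nat_lit 0x10000040000000000000003400000000000000000000000000000000000000000000000000000000000000) (nat_lit 0xa0000f80007fc001ff0007fc001ef8003bc000df00003c0000b00000e00000000000000000000000000000000000000000000000000000000) (nat_lit 14)
theorem c43361 : QOK q43361 := cut [q42553, q42558, q42564, q42568, q42654, q42788, q42814, q42677, q42792, q43295, q42764, q43297, q43309, q43315, q43322, q43323, q43360] ⟨c42553, c42558, c42564, c42568, c42654, c42788, c42814, c42677, c42792, c43295, c42764, c43297, c43309, c43315, c43322, c43323, c43360, trivial⟩ (nd (nat_lit 362) (nat_lit 0) (cs (rf (nat_lit 0)) (cs (rf (nat_lit 1)) (cs (rf (nat_lit 2)) (cs (rf (nat_lit 3)) (cs (rf (nat_lit 4)) (cs (rf (nat_lit 5)) (cs (rf (nat_lit 6)) (cs (nd (nat_lit 383) (nat_lit 0) (cs (rf (nat_lit 7)) (cs (rf (nat_lit 8)) (cs (nd (nat_lit 384) (nat_lit 0) (cs (lf (nat_lit 41) (nat_lit 317)) (rf (nat_lit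 9)))) (nd (nat_lit 361) (nat_lit 0) (cs (lf (nat_lit 36) (nat_lit 295)) (nd (nat_lit 317) (nat_lit 0) (cs (rf (nat_lit 10)) (cs (nd (nat_lit 295) (nat_lit 0) (cs (lf (nat_lit 42) (nat_lit 295)) (nd (nat_lit 251) (nat_lit 0) (cs (lf (nat_lit 25) (nat_lit 251)) (nd (nat_lit 271) (nat_lit 0) (cs (lf (nat_lit 10) (nat_lit 249)) (nd (nat_lit 249) (nat_lit 0) (cs (lf (nat_lit 11) (nat_lit 248)) (nd (nat_lit 226) (nat_lit 0) (cs (lf (nat_lit 22) (nat_lit 226)) (nd (nat_lit 248) (nat_lit 0) (cs (lf (nat_lit 23) (nat_lit 225)) (nd (nat_lit 293) (nat_lit 0) (cs (lf (nat_lit 42) (nat_lit 226)) (nd (nat_lit 294) (nat_lit 0) (cs (lf (nat_lit 0) (nat_lit 292)) (rf (nat_lit 11)))))))))))))))))) (cs (nd (nat_lit 339) (nat_lit 0) (cs (nd (nat_lit 382) (nat_lit 0) (cs (lf (nat_lit 41) (nat_lit 316)) (nd (nat_lit 294) (nat_lit 0) (cs (rf (nat_lit 12)) (lf (nat_lit 46) (nat_lit 294)))))) (cs (nd (nat_lit 273) (nat_lit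 0) (cs (lf (nat_lit 25) (nat_lit 273)) (rf (nat_lit 13)))) (nd (nat_lit 294) (nat_lit 0) (cs (lf (nat_lit 46) (nat_lit 294)) (nd (nat_lit 295) (nat_lit 0) (cs (lf (nat_lit 24) (nat_lit 273)) (lf (nat_lit 47) (nat_lit 272))))))))) (nd (nat_lit 339) (nat_lit 0) (cs (rf (nat_lit 14)) (nd (nat_lit 316) (nat_lit 0) (cs (rf (nat_lit 15)) (lf (nat_lit 47) (nat_lit 294)))))))))))))))) (rf (nat_lit 16))))))))))) q43361 (by decide +kernel)
def q43891 : Q := Q.p (nat_lit 0x10000040000000000000003400000000000000000000000000000000000000000000000000000000000000) (nat_lit 0x280001a0001ff0007f8003ef0007b0003fe0007a00000800000000000000000000000000000000000000000000000000000000000000) (nat_lit 13)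
theorem c43891 : QOK q43891 := cut [q42288, q42369, q43119, q42282, q42299, q42473, q42296, q42307, q14740, q42215, q42261, q43216, q2590, q13222, q42202, q13220, q42201, q41733, q41738, q42591] ⟨c42288, c42369, c43119, c42282, c42299, c42473, c42296, c42307, c14740, c42215, c42261, c43216, c2590, c13222, c42202, c13220, c42201, c41733, c41738, c42591, trivial⟩ (nd (nat_lit 319) (nat_lit 0) (cs (rf (nat_lit 0)) (cs (rf (nat_lit 1)) (cs (rf (nat_lit 2)) (cs (nd (nat_lit 297) (nat_lit 0) (cs (lf (nat_lit 37) (nat_lit 252)) (nd (nat_lit 362) (nat_lit 0) (cs (lf (nat_lit 30) (nat_lit 296)) (nd (nat_lit 363) (nat_lit 0) (cs (nd (nat_lit 296) (nat_lit 0) (cs (lf (nat_lit 29) (nat_lit 296)) (nd (nat_lit 361) (nat_lit 0) (cs (lf (nat_lit 41) (nat_lit 295)) (rf (nat_lit 3)))))) (cs (rf (nat_lit 4)) (cs (rf (nat_lit 5)) (nd (nat_lit 341) (nat_lit 0) (cs (rf (nat_lit 6)) (cs (rf (nat_lit 7)) (nd (nat_lit 298)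 (nat_lit 0) (cs (lf (nat_lit 35) (nat_lit 275)) (nd (nat_lit 299) (nat_lit 0) (cs (lf (nat_lit 6) (nat_lit 296)) (rf (nat_lit 8))))))))))))))))) (cs (nd (nat_lit 320) (nat_lit 0) (cs (rf (nat_lit 9)) (cs (rf (nat_lit 10)) (cs (rf (nat_lit 11)) (nd (nat_lit 275) (nat_lit 0) (cs (lf (nat_lit 38) (nat_lit 252)) (nd (nat_lit 276) (nat_lit 0) (cs (lf (nat_lit 1) (nat_lit 250)) (nd (nat_lit 277) (nat_lit 0) (cs (lf (nat_lit 18) (nat_lit 252)) (nd (nat_lit 298) (nat_lit 0) (cs (lf (nat_lit 42) (nat_lit 253)) (nd (nat_lit 317) (nat_lit 0) (cs (rf (nat_lit 12)) (lf (nat_lit 17) (nat_lit 295)))))))))))))))) (nd (nat_lit 320) (nat_lit 0) (cs (rf (nat_lit 13)) (cs (rf (nat_lit 14)) (cs (nd (nat_lit 321) (nat_lit 0) (cs (rf (nat_lit 15)) (rf (nat_lit 16)))) (nd (nat_lit 317) (nat_lit 0) (cs (rf (nat_lit 17)) (cs (rf (nat_lit 18)) (nd (nat_lit 295) (nat_lit 0) (cs (lf (nat_lit 23) (nat_lit 294)) (nd (nat_lit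 338) (nat_lit 0) (cs (lf (nat_lit 10) (nat_lit 316)) (nd (nat_lit 362) (nat_lit 0) (cs (lf (nat_lit 42) (nat_lit 295)) (rf (nat_lit 19))))))))))))))))))))) q43891 (by decide +kernel)
def q44211 : Q := Q.p (nat_lit 0x40000180000000000400000000000000000000000000000000000000000000000000000000000000) (nat_lit 0xa0000380002e0001ff0007f8001ff8003bc001e400003c0000800002000000000000000000000000000000000000000000000000000000000) (nat_lit 13)
theorem c44211 : QOK q44211 := cut [q43972, q44005, q44027, q43984, q43994, q15852, q43991] ⟨c43972, c44005, c44027, c43984, c43994, c15852, c43991, trivial⟩ (nd (nat_lit 340) (nat_lit 0) (cs (rf (nat_lit 0)) (cs (rf (nat_lit 1)) (cs (rf (nat_lit 2)) (nd (nat_lit 317) (nat_lit 0) (cs (rf (nat_lit 3)) (cs (rf (nat_lit 4)) (cs (nd (nat_lit 316) (nat_lit 0) (cs (rf (nat_lit 5)) (cs (nd (nat_lit 319) (nat_lit 0) (cs (rf (nat_lit 6)) (cs (nd (nat_lit 273) (nat_lit 0) (cs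 (lf (nat_lit 24) (nat_lit 251)) (nd (nat_lit 297) (nat_lit 0) (cs (lf (nat_lit 17) (nat_lit 294)) (nd (nat_lit 341) (nat_lit 0) (cs (lf (nat_lit 5) (nat_lit 316)) (nd (nat_lit 363) (nat_lit 0) (cs (lf (nat_lit 42) (nat_lit 296)) (nd (nat_lit 338) (nat_lit 0) (cs (lf (nat_lit 11) (nat_lit 315)) (nd (nat_lit 360) (nat_lit 0) (cs (lf (nat_lit 30) (nat_lit 294)) (lf (nat_lit 33) (nat_lit 272)))))))))))))) (nd (nat_lit 320) (nat_lit 0) (cs (lf (nat_lit 23) (nat_lit 294)) (lf (nat_lit 18) (nat_lit 295))))))) (nd (nat_lit 315) (nat_lit 0) (cs (lf (nat_lit 12) (nat_lit 292)) (lf (nat_lit 5) (nat_lit 315))))))) (nd (nat_lit 273) (nat_lit 0) (cs (lf (nat_lit 24) (nat_lit 251)) (nd (nat_lit 272) (nat_lit 0) (cs (lf (nat_lit 42) (nat_lit 250)) (nd (nat_lit 271) (nat_lit 0) (cs (lf (nat_lit 0) (nat_lit 270)) (nd (nat_lit 297) (nat_lit 0) (cs (lf (nat_lit 18) (nat_lit 272)) (lf (nat_lit 21) (nat_lit 271))))))))))))))))))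 q44211 (by decide +kernel)
def q44301 : Q := Q.p (nat_lit 0x40000180000000003400000000000000000000000000000000000000000000000000000000000000) (nat_lit 0xa0000380002e8001ff0007f8001ff8003bc001e6000730000080001a000000000000000000000000000000000000000000000000000000000) (nat_lit 13)
theorem c44301 : QOK q44301 := cut [q43972, q44005, q44027, q15986, q44040, q44169, q43984, q43994] ⟨c43972, c44005, c44027, c15986, c44040, c44169, c43984, c43994, trivial⟩ (nd (nat_lit 340) (nat_lit 0) (cs (rf (nat_lit 0)) (cs (rf (nat_lit 1)) (cs (rf (nat_lit 2)) (nd (nat_lit 319) (nat_lit 0) (cs (rf (nat_lit 3)) (cs (rf (nat_lit 4)) (cs (nd (nat_lit 294) (nat_lit 0) (cs (lf (nat_lit 0) (nat_lit 293)) (rf (nat_lit 5)))) (nd (nat_lit 317) (nat_lit 0) (cs (rf (nat_lit 6)) (cs (rf (nat_lit 7)) (nd (nat_lit 251) (nat_lit 0) (cs (lf (nat_lit 25) (nat_lit 251)) (nd (nat_lit 231) (nat_lit 0) (cs (lf (nat_lit 17) (nat_lit 228))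 (nd (nat_lit 320) (nat_lit 0) (cs (lf (nat_lit 18) (nat_lit 295)) (nd (nat_lit 298) (nat_lit 0) (cs (lf (nat_lit 17) (nat_lit 295)) (nd (nat_lit 297) (nat_lit 0) (cs (lf (nat_lit 12) (nat_lit 294)) (nd (nat_lit 276) (nat_lit 0) (cs (lf (nat_lit 17) (nat_lit 273)) (nd (nat_lit 342) (nat_lit 0) (cs (lf (nat_lit 5) (nat_lit 317)) (nd (nat_lit 363) (nat_lit 0) (cs (lf (nat_lit 40) (nat_lit 275)) (nd (nat_lit 364) (nat_lit 0) (cs (lf (nat_lit 41) (nat_lit 297)) (lf (nat_lit 42) (nat_lit 297))))))))))))))))))))))))))))))) q44301 (by decide +kernel)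
def q44885 : Q := Q.p (nat_lit 0x100003400000000014000040000000000000000000000000000000000000000000000) (nat_lit 0xc00003c0006f80003c0000fe000bf800bff0007e0003fc0003c0000500000000000000000000000) (nat_lit 14)
theorem c44885 : QOK q44885 := cut [q34520, q34521, q44551, q44603, q44711, q26654, q44554, q44557, q44562, q44669, q44714, q44672, q44738, q44745, q44787, q44707, q44779, q44784, q44820, q44849, q44560, q44563, q44870, q44786, q44606, q41611] ⟨c34520, c34521, c44551, c44603, c44711, c26654, c44554, c44557, c44562, c44669, c44714, c44672, c44738, c44745, c44787, c44707, c44779, c44784, c44820, c44849, c44560, c44563, c44870, c44786, c44606, c41611, trivial⟩ (nd (nat_lit 205) (nat_lit 0) (cs (rf (nat_lit 0)) (cs (rf (nat_lit 1)) (cs (rf (nat_lit 2)) (cs (nd (nat_lit 204) (nat_lit 0) (cs (rf (nat_lit 3)) (cs (rf (nat_lit 4)) (cs (nd (nat_lit 203) (nat_lit 0) (cs (rf (nat_lit 5)) (cs (rf (nat_lit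 6)) (cs (rf (nat_lit 7)) (nd (nat_lit 181) (nat_lit 0) (cs (lf (nat_lit 23) (nat_lit 180)) (nd (nat_lit 159) (nat_lit 0) (cs (rf (nat_lit 8)) (cs (rf (nat_lit 9)) (cs (nd (nat_lit 225) (nat_lit 0) (cs (lf (nat_lit 11) (nat_lit 202)) (nd (nat_lit 184) (nat_lit 0) (cs (lf (nat_lit 17) (nat_lit 181)) (nd (nat_lit 136) (nat_lit 0) (cs (lf (nat_lit 46) (nat_lit 136)) (nd (nat_lit 138) (nat_lit 0) (cs (lf (nat_lit 34) (nat_lit 137)) (nd (nat_lit 248) (nat_lit 0) (cs (lf (nat_lit 28) (nat_lit 159)) (rf (nat_lit 10)))))))))))) (nd (nat_lit 225) (nat_lit 0) (cs (lf (nat_lit 11) (nat_lit 202)) (nd (nat_lit 226) (nat_lit 0) (cs (lf (nat_lit 24) (nat_lit 137)) (lf (nat_lit 29) (nat_lit 159)))))))))))))))) (cs (nd (nat_lit 203) (nat_lit 0) (cs (rf (nat_lit 7)) (cs (rf (nat_lit 11)) (cs (rf (nat_lit 12)) (rf (nat_lit 13)))))) (cs (rf (nat_lit 14)) (cs (nd (nat_lit 203) (nat_lit 0) (cs (rf (nat_lit 5)) (cs (rf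 (nat_lit 6)) (cs (rf (nat_lit 7)) (nd (nat_lit 225) (nat_lit 0) (cs (lf (nat_lit 11) (nat_lit 202)) (nd (nat_lit 247) (nat_lit 0) (cs (rf (nat_lit 15)) (cs (rf (nat_lit 16)) (cs (rf (nat_lit 17)) (nd (nat_lit 184) (nat_lit 0) (cs (lf (nat_lit 17) (nat_lit 181)) (nd (nat_lit 269) (nat_lit 0) (cs (lf (nat_lit 35) (nat_lit 181)) (nd (nat_lit 268) (nat_lit 0) (cs (lf (nat_lit 41) (nat_lit 202)) (nd (nat_lit 270) (nat_lit 0) (cs (lf (nat_lit 29) (nat_lit 203)) (nd (nat_lit 249) (nat_lit 0) (cs (lf (nat_lit 15) (nat_lit 246)) (lf (nat_lit 8) (nat_lit 246)))))))))))))))))))))) (cs (rf (nat_lit 18)) (cs (rf (nat_lit 19)) (cs (nd (nat_lit 203) (nat_lit 0) (cs (rf (nat_lit 5)) (cs (rf (nat_lit 6)) (cs (rf (nat_lit 7)) (nd (nat_lit 181) (nat_lit 0) (cs (lf (nat_lit 23) (nat_lit 180)) (nd (nat_lit 159) (nat_lit 0) (cs (rf (nat_lit 20)) (cs (rf (nat_lit 8)) (cs (rf (nat_lit 21)) (nd (nat_lit 225) (nat_lit 0)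 (cs (lf (nat_lit 11) (nat_lit 202)) (nd (nat_lit 184) (nat_lit 0) (cs (lf (nat_lit 17) (nat_lit 181)) (nd (nat_lit 158) (nat_lit 0) (cs (lf (nat_lit 47) (nat_lit 136)) (nd (nat_lit 160) (nat_lit 0) (cs (lf (nat_lit 35) (nat_lit 137)) (nd (nat_lit 182) (nat_lit 0) (cs (lf (nat_lit 30) (nat_lit 159)) (lf (nat_lit 19) (nat_lit 158)))))))))))))))))))))) (cs (rf (nat_lit 22)) (cs (nd (nat_lit 203) (nat_lit 0) (cs (rf (nat_lit 7)) (cs (rf (nat_lit 13)) (rf (nat_lit 23))))) (nd (nat_lit 203) (nat_lit 0) (cs (rf (nat_lit 5)) (cs (rf (nat_lit 6)) (cs (rf (nat_lit 7)) (nd (nat_lit 181) (nat_lit 0) (cs (lf (nat_lit 23) (nat_lit 180)) (nd (nat_lit 248) (nat_lit 0) (cs (nd (nat_lit 226) (nat_lit 0) (cs (lf (nat_lit 42) (nat_lit 181)) (rf (nat_lit 24)))) (cs (nd (nat_lit 225) (nat_lit 0) (cs (lf (nat_lit 11) (nat_lit 202)) (nd (nat_lit 184) (nat_lit 0) (cs (lf (nat_lit 17) (nat_lit 181)) (rf (nat_lit 10))))))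 (nd (nat_lit 184) (nat_lit 0) (cs (lf (nat_lit 17) (nat_lit 181)) (nd (nat_lit 225) (nat_lit 0) (cs (lf (nat_lit 11) (nat_lit 202)) (nd (nat_lit 159) (nat_lit 0) (cs (lf (nat_lit 28) (nat_lit 159)) (rf (nat_lit 25))))))))))))))))))))))))))))) (nd (nat_lit 204) (nat_lit 0) (cs (rf (nat_lit 3)) (cs (rf (nat_lit 4)) (cs (rf (nat_lit 14)) (nd (nat_lit 185) (nat_lit 0) (cs (lf (nat_lit 15) (nat_lit 182)) (nd (nat_lit 184) (nat_lit 0) (cs (lf (nat_lit 12) (nat_lit 181)) (lf (nat_lit 9) (nat_lit 182))))))))))))))) q44885 (by decide +kernel)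
def q45098 : Q := Q.p (nat_lit 0x100003400000000010000040000000000000000000000000000000000000000000000) (nat_lit 0x2d0001fc0007f8000ff000fff801ffc007e7800020000be0000f8000bf0000e0000380000200000000000000000000000000000) (nat_lit 15)
theorem c45098 : QOK q45098 := cut [q44918, q44492, q44515, q44517, q44922, q44932, q44934, q14508, q45084, q44490, q45087, q45097] ⟨c44918, c44492, c44515, c44517, c44922, c44932, c44934, c14508, c45084, c44490, c45087, c45097, trivial⟩ (nd (nat_lit 228) (nat_lit 0) (cs (rf (nat_lit 0)) (cs (nd (nat_lit 294) (nat_lit 0) (cs (rf (nat_lit 1)) (cs (rf (nat_lit 2)) (cs (rf (nat_lit 3)) (nd (nat_lit 293) (nat_lit 0) (cs (lf (nat_lit 41) (nat_lit 227)) (nd (nat_lit 292) (nat_lit 0) (cs (nd (nat_lit 205) (nat_lit 0) (cs (lf (nat_lit 46) (nat_lit 205)) (rf (nat_lit 4)))) (cs (rf (nat_lit 5)) (cs (nd (nat_lit 205) (nat_lit 0) (cs (lf (nat_lit 46) (nat_lit 205)) (nd (nat_lit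 207) (nat_lit 0) (cs (lf (nat_lit 34) (nat_lit 206)) (nd (nat_lit 295) (nat_lit 0) (cs (lf (nat_lit 29) (nat_lit 228)) (nd (nat_lit 269) (nat_lit 0) (cs (lf (nat_lit 22) (nat_lit 269)) (nd (nat_lit 313) (nat_lit 0) (cs (lf (nat_lit 10) (nat_lit 291)) (rf (nat_lit 6)))))))))))) (nd (nat_lit 205) (nat_lit 0) (cs (lf (nat_lit 46) (nat_lit 205)) (nd (nat_lit 207) (nat_lit 0) (cs (lf (nat_lit 34) (nat_lit 206)) (nd (nat_lit 295) (nat_lit 0) (cs (lf (nat_lit 29) (nat_lit 228)) (rf (nat_lit 7)))))))))))))))))) (cs (rf (nat_lit 8)) (cs (nd (nat_lit 294) (nat_lit 0) (cs (rf (nat_lit 9)) (cs (rf (nat_lit 3)) (rf (nat_lit 10))))) (rf (nat_lit 11))))))) q45098 (by decide +kernel)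
def q45299 : Q := Q.p (nat_lit 0x100003400000000000000000000000000000000000000000000000000000000000000) (nat_lit 0x328000fe0003fc003ff8007fc003ef80003c000bf8000c000030000000000000000000000000000000000000000000000) (nat_lit 15)
theorem c45299 : QOK q45299 := cut [q45110, q45139, q6623, q45106, q45150, q45163, q45172, q45113, q44503, q45122, q45175, q45178, q45181, q45190, q45196, q45121, q41233, q45203, q45257, q45149, q44922, q44932, q45259, q45262, q45270, q44930, q45291, q45294, q45298] ⟨c45110, c45139, c6623, c45106, c45150, c45163, c45172, c45113, c44503, c45122, c45175, c45178, c45181, c45190, c45196, c45121, c41233, c45203, c45257, c45149, c44922, c44932, c45259, c45262, c45270, c44930, c45291, c45294, c45298, trivial⟩ (nd (nat_lit 294) (nat_lit 0) (cs (rf (nat_lit 0)) (cs (rf (nat_lit 1)) (cs (nd (nat_lit 315) (nat_lit 0) (cs (nd (nat_lit 228) (nat_lit 0) (cs (lf (nat_lit 40) (nat_lit 227))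 (nd (nat_lit 207) (nat_lit 0) (cs (lf (nat_lit 34) (nat_lit 206)) (nd (nat_lit 206) (nat_lit 0) (cs (lf (nat_lit 35) (nat_lit 184)) (rf (nat_lit 2)))))))) (cs (nd (nat_lit 316) (nat_lit 0) (cs (lf (nat_lit 41) (nat_lit 249)) (nd (nat_lit 227) (nat_lit 0) (cs (lf (nat_lit 46) (nat_lit 227)) (nd (nat_lit 317) (nat_lit 0) (cs (lf (nat_lit 29) (nat_lit 250)) (nd (nat_lit 295) (nat_lit 0) (cs (lf (nat_lit 24) (nat_lit 228)) (rf (nat_lit 3)))))))))) (cs (rf (nat_lit 4)) (nd (nat_lit 316) (nat_lit 0) (cs (lf (nat_lit 41) (nat_lit 249)) (rf (nat_lit 5)))))))) (cs (rf (nat_lit 6)) (cs (nd (nat_lit 295) (nat_lit 0) (cs (rf (nat_lit 7)) (cs (nd (nat_lit 296) (nat_lit 0) (cs (rf (nat_lit 8)) (cs (rf (nat_lit 9)) (cs (nd (nat_lit 297) (nat_lit 0) (cs (rf (nat_lit 10)) (cs (rf (nat_lit 11)) (cs (rf (nat_lit 12)) (nd (nat_lit 319) (nat_lit 0) (cs (lf (nat_lit 5) (nat_lit 294)) (nd (nat_lit 273) (nat_lit 0) (cs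 (lf (nat_lit 18) (nat_lit 272)) (nd (nat_lit 206) (nat_lit 0) (cs (lf (nat_lit 25) (nat_lit 206)) (nd (nat_lit 275) (nat_lit 0) (cs (lf (nat_lit 17) (nat_lit 272)) (nd (nat_lit 318) (nat_lit 0) (cs (lf (nat_lit 41) (nat_lit 252)) (lf (nat_lit 36) (nat_lit 230)))))))))))))))) (rf (nat_lit 13)))))) (cs (nd (nat_lit 228) (nat_lit 0) (cs (lf (nat_lit 29) (nat_lit 228)) (nd (nat_lit 207) (nat_lit 0) (cs (lf (nat_lit 34) (nat_lit 206)) (nd (nat_lit 206) (nat_lit 0) (cs (lf (nat_lit 35) (nat_lit 184)) (rf (nat_lit 14)))))))) (nd (nat_lit 296) (nat_lit 0) (cs (rf (nat_lit 8)) (cs (rf (nat_lit 15)) (cs (rf (nat_lit 9)) (rf (nat_lit 13)))))))))) (cs (nd (nat_lit 293) (nat_lit 0) (cs (nd (nat_lit 228) (nat_lit 0) (cs (lf (nat_lit 41) (nat_lit 227)) (rf (nat_lit 16)))) (cs (rf (nat_lit 17)) (cs (rf (nat_lit 18)) (nd (nat_lit 315) (nat_lit 0) (cs (rf (nat_lit 19)) (cs (nd (nat_lit 292) (nat_lit 0) (cs (rf (nat_lit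 20)) (cs (rf (nat_lit 21)) (cs (nd (nat_lit 314) (nat_lit 0) (cs (rf (nat_lit 22)) (cs (nd (nat_lit 249) (nat_lit 0) (cs (nd (nat_lit 312) (nat_lit 0) (cs (nd (nat_lit 227) (nat_lit 0) (cs (lf (nat_lit 42) (nat_lit 227)) (nd (nat_lit 248) (nat_lit 0) (cs (nd (nat_lit 247) (nat_lit 0) (cs (lf (nat_lit 5) (nat_lit 247)) (rf (nat_lit 23)))) (lf (nat_lit 32) (nat_lit 226)))))) (lf (nat_lit 13) (nat_lit 290)))) (cs (nd (nat_lit 271) (nat_lit 0) (cs (lf (nat_lit 36) (nat_lit 226)) (lf (nat_lit 41) (nat_lit 248)))) (nd (nat_lit 271) (nat_lit 0) (cs (lf (nat_lit 41) (nat_lit 248)) (nd (nat_lit 316) (nat_lit 0) (cs (lf (nat_lit 42) (nat_lit 249)) (nd (nat_lit 273) (nat_lit 0) (cs (rf (nat_lit 24)) (lf (nat_lit 6) (nat_lit 270))))))))))) (nd (nat_lit 295) (nat_lit 0) (cs (lf (nat_lit 6) (nat_lit 292)) (nd (nat_lit 273) (nat_lit 0) (cs (lf (nat_lit 17) (nat_lit 270)) (nd (nat_lit 270) (nat_lit 0) (cs (lf (nat_lit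 23) (nat_lit 269)) (nd (nat_lit 248) (nat_lit 0) (cs (lf (nat_lit 24) (nat_lit 226)) (nd (nat_lit 247) (nat_lit 0) (cs (lf (nat_lit 2) (nat_lit 247)) (lf (nat_lit 47) (nat_lit 225))))))))))))))) (nd (nat_lit 291) (nat_lit 0) (cs (rf (nat_lit 25)) (cs (nd (nat_lit 269) (nat_lit 0) (cs (lf (nat_lit 23) (nat_lit 268)) (nd (nat_lit 312) (nat_lit 0) (cs (lf (nat_lit 10) (nat_lit 290)) (nd (nat_lit 295) (nat_lit 0) (cs (lf (nat_lit 22) (nat_lit 269)) (nd (nat_lit 296) (nat_lit 0) (cs (lf (nat_lit 11) (nat_lit 292)) (nd (nat_lit 297) (nat_lit 0) (cs (lf (nat_lit 10) (nat_lit 293)) (lf (nat_lit 23) (nat_lit 271)))))))))))) (rf (nat_lit 26))))))))) (rf (nat_lit 27))))))))) (rf (nat_lit 28))))))))) q45299 (by decide +kernel)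
def q45846 : Q := Q.p (nat_lit 0x20000000000100003400000000010000040000000000000000000000000000000000000000000000) (nat_lit 0xe0000780001fc001ffc003df000f5c001ef80003f000bfc000ff000bfc000fc0003f0000e00003800000000000000000000000) (nat_lit 14)
theorem c45846 : QOK q45846 := cut [q45536, q45463, q45468, q45469, q45487, q45541, q45467, q45542, q45544, q45557, q45380, q45384, q45391, q45442, q45445, q45457, q45559, q44572, q45572, q41749, q45357, q45485, q45642, q45645, q45836, q45845] ⟨c45536, c45463, c45468, c45469, c45487, c45541, c45467, c45542, c45544, c45557, c45380, c45384, c45391, c45442, c45445, c45457, c45559, c44572, c45572, c41749, c45357, c45485, c45642, c45645, c45836, c45845, trivial⟩ (nd (nat_lit 249) (nat_lit 0) (cs (nd (nat_lit 227) (nat_lit 0) (cs (rf (nat_lit 0)) (cs (nd (nat_lit 316) (nat_lit 0) (cs (lf (nat_lit 43) (nat_lit 227)) (nd (nat_lit 318) (nat_lit 0) (cs (rf (nat_lit 1))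 (cs (rf (nat_lit 2)) (cs (rf (nat_lit 3)) (cs (rf (nat_lit 4)) (cs (rf (nat_lit 5)) (cs (nd (nat_lit 337) (nat_lit 0) (cs (rf (nat_lit 6)) (cs (rf (nat_lit 7)) (nd (nat_lit 315) (nat_lit 0) (cs (lf (nat_lit 11) (nat_lit 314)) (nd (nat_lit 340) (nat_lit 0) (cs (lf (nat_lit 5) (nat_lit 315)) (nd (nat_lit 314) (nat_lit 0) (cs (lf (nat_lit 4) (nat_lit 314)) (nd (nat_lit 292) (nat_lit 0) (cs (lf (nat_lit 23) (nat_lit 291)) (nd (nat_lit 248) (nat_lit 0) (cs (lf (nat_lit 25) (nat_lit 248)) (rf (nat_lit 8))))))))))))))) (cs (rf (nat_lit 9)) (cs (nd (nat_lit 319) (nat_lit 0) (cs (rf (nat_lit 10)) (cs (rf (nat_lit 11)) (cs (rf (nat_lit 12)) (cs (rf (nat_lit 13)) (cs (rf (nat_lit 14)) (rf (nat_lit 15)))))))) (rf (nat_lit 16))))))))))))) (cs (nd (nat_lit 205) (nat_lit 0) (cs (lf (nat_lit 24) (nat_lit 183)) (nd (nat_lit 316) (nat_lit 0) (cs (lf (nat_lit 43) (nat_lit 227)) (nd (nat_lit 318) (nat_lit 0) (cs (rf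 (nat_lit 1)) (cs (rf (nat_lit 2)) (cs (rf (nat_lit 3)) (cs (rf (nat_lit 5)) (cs (rf (nat_lit 9)) (cs (rf (nat_lit 16)) (cs (nd (nat_lit 337) (nat_lit 0) (cs (rf (nat_lit 6)) (cs (rf (nat_lit 7)) (nd (nat_lit 315) (nat_lit 0) (cs (lf (nat_lit 11) (nat_lit 314)) (nd (nat_lit 248) (nat_lit 0) (cs (rf (nat_lit 17)) (nd (nat_lit 340) (nat_lit 0) (cs (lf (nat_lit 5) (nat_lit 315)) (nd (nat_lit 314) (nat_lit 0) (cs (lf (nat_lit 4) (nat_lit 314)) (nd (nat_lit 292) (nat_lit 0) (cs (lf (nat_lit 23) (nat_lit 291)) (lf (nat_lit 32) (nat_lit 226))))))))))))))) (cs (nd (nat_lit 319) (nat_lit 0) (cs (rf (nat_lit 10)) (cs (rf (nat_lit 11)) (cs (rf (nat_lit 12)) (cs (rf (nat_lit 13)) (cs (rf (nat_lit 14)) (rf (nat_lit 18)))))))) (nd (nat_lit 319) (nat_lit 0) (cs (rf (nat_lit 19)) (cs (rf (nat_lit 20)) (cs (rf (nat_lit 21)) (rf (nat_lit 18))))))))))))))))))) (rf (nat_lit 22)))))) (cs (rf (nat_lit 23)) (cs (rf (nat_lit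 24)) (rf (nat_lit 25)))))) q45846 (by decide +kernel)
def q47509 : Q := Q.p (nat_lit 0x180003400000000010000040000000000000000000000000000000000000000000000) (nat_lit 0x70007fe001ffc00ffe000c700003e0008f0000fe000bfc0001c000040000000000000000000000000000000000) (nat_lit 14)
theorem c47509 : QOK q47509 := cut [q47070, q47117, q47274, q47286, q47319, q47363, q47374, q47439, q40946, q46578, q46576, q46588, q45192, q45241, q47440, q47441, q47444, q47451, q47488, q46564, q47050, q47268, q47472, q47182, q47128, q47349, q47325, q47327, q47343, q44099, q47502, q47499, q46584] ⟨c47070, c47117, c47274, c47286, c47319, c47363, c47374, c47439, c40946, c46578, c46576, c46588, c45192, c45241, c47440, c47441, c47444, c47451, c47488, c46564, c47050, c47268, c47472, c47182, c47128, c47349, c47325, c47327, c47343, c44099, c47502, c47499, c46584, trivial⟩ (nd (nat_lit 249) (nat_lit 0) (cs (rf (nat_lit 0)) (cs (rf (nat_lit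 1)) (cs (rf (nat_lit 2)) (cs (rf (nat_lit 3)) (cs (rf (nat_lit 4)) (cs (rf (nat_lit 5)) (cs (rf (nat_lit 6)) (cs (rf (nat_lit 7)) (cs (nd (nat_lit 227) (nat_lit 0) (cs (rf (nat_lit 8)) (cs (rf (nat_lit 9)) (nd (nat_lit 293) (nat_lit 0) (cs (rf (nat_lit 10)) (cs (rf (nat_lit 11)) (nd (nat_lit 294) (nat_lit 0) (cs (rf (nat_lit 12)) (nd (nat_lit 226) (nat_lit 0) (cs (lf (nat_lit 47) (nat_lit 204)) (nd (nat_lit 224) (nat_lit 0) (cs (lf (nat_lit 1) (nat_lit 224)) (nd (nat_lit 295) (nat_lit 0) (cs (rf (nat_lit 13)) (nd (nat_lit 269) (nat_lit 0) (cs (lf (nat_lit 1) (nat_lit 269)) (nd (nat_lit 291) (nat_lit 0) (cs (rf (nat_lit 14)) (cs (nd (nat_lit 292) (nat_lit 0) (cs (lf (nat_lit 12) (nat_lit 268)) (rf (nat_lit 15)))) (cs (nd (nat_lit 268) (nat_lit 0) (cs (nd (nat_lit 247) (nat_lit 0) (cs (lf (nat_lit 8) (nat_lit 246)) (rf (nat_lit 16)))) (lf (nat_lit 20) (nat_lit 268)))) (nd (nat_lit 246) (nat_lit 0)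 (cs (nd (nat_lit 247) (nat_lit 0) (cs (lf (nat_lit 42) (nat_lit 224)) (lf (nat_lit 2) (nat_lit 246)))) (cs (nd (nat_lit 268) (nat_lit 0) (cs (lf (nat_lit 24) (nat_lit 202)) (rf (nat_lit 17)))) (nd (nat_lit 202) (nat_lit 0) (cs (nd (nat_lit 247) (nat_lit 0) (cs (lf (nat_lit 2) (nat_lit 246)) (lf (nat_lit 24) (nat_lit 180)))) (lf (nat_lit 27) (nat_lit 202))))))))))))))))))))))))))) (cs (rf (nat_lit 18)) (cs (nd (nat_lit 270) (nat_lit 0) (cs (rf (nat_lit 19)) (cs (rf (nat_lit 20)) (cs (rf (nat_lit 21)) (nd (nat_lit 227) (nat_lit 0) (cs (rf (nat_lit 8)) (cs (rf (nat_lit 22)) (nd (nat_lit 314) (nat_lit 0) (cs (nd (nat_lit 292) (nat_lit 0) (cs (lf (nat_lit 33) (nat_lit 226)) (lf (nat_lit 39) (nat_lit 226)))) (cs (nd (nat_lit 292) (nat_lit 0) (cs (lf (nat_lit 30) (nat_lit 248)) (lf (nat_lit 33) (nat_lit 226)))) (cs (nd (nat_lit 315) (nat_lit 0) (cs (rf (nat_lit 23)) (cs (nd (nat_lit 316) (nat_lit 0) (cs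 (rf (nat_lit 24)) (cs (rf (nat_lit 25)) (nd (nat_lit 317) (nat_lit 0) (cs (rf (nat_lit 26)) (cs (rf (nat_lit 27)) (rf (nat_lit 28)))))))) (nd (nat_lit 293) (nat_lit 0) (cs (lf (nat_lit 41) (nat_lit 248)) (rf (nat_lit 29))))))) (nd (nat_lit 292) (nat_lit 0) (cs (lf (nat_lit 30) (nat_lit 248)) (lf (nat_lit 39) (nat_lit 226))))))))))))))) (cs (rf (nat_lit 30)) (nd (nat_lit 227) (nat_lit 0) (cs (rf (nat_lit 22)) (cs (rf (nat_lit 31)) (nd (nat_lit 293) (nat_lit 0) (cs (rf (nat_lit 10)) (cs (rf (nat_lit 11)) (nd (nat_lit 294) (nat_lit 0) (cs (rf (nat_lit 12)) (nd (nat_lit 204) (nat_lit 0) (cs (lf (nat_lit 46) (nat_lit 204)) (nd (nat_lit 292) (nat_lit 0) (cs (lf (nat_lit 41) (nat_lit 226)) (nd (nat_lit 291) (nat_lit 0) (cs (lf (nat_lit 12) (nat_lit 268)) (rf (nat_lit 32))))))))))))))))))))))))))))) q47509 (by decide +kernel)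
def q47569 : Q := Q.p (nat_lit 0x180000400000000010000040000000000000000000000000000000000000000000000) (nat_lit 0x270000fc000ffc003fe0002780003e0000f8000fe000bf00001c000040000000000000000000000000000000000) (nat_lit 14)
theorem c47569 : QOK q47569 := cut [q47070, q47117, q47286, q47319, q47374, q47488, q47502, q47211, q46600, q46593, q47513, q47001, q11939, q47221, q47533, q40946, q46578, q44797, q44818, q47074, q47088, q47071, q47472, q47499, q46576, q46588, q45192, q47554, q47556, q47565] ⟨c47070, c47117, c47286, c47319, c47374, c47488, c47502, c47211, c46600, c46593, c47513, c47001, c11939, c47221, c47533, c40946, c46578, c44797, c44818, c47074, c47088, c47071, c47472, c47499, c46576, c46588, c45192, c47554, c47556, c47565, trivial⟩ (nd (nat_lit 249) (nat_lit 0) (cs (rf (nat_lit 0)) (cs (rf (nat_lit 1)) (cs (rf (nat_lit 2)) (cs (rf (nat_lit 3)) (cs (rf (nat_lit 4)) (cs (rf (nat_lit 5)) (cs (rf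 (nat_lit 6)) (cs (nd (nat_lit 270) (nat_lit 0) (cs (rf (nat_lit 7)) (cs (nd (nat_lit 248) (nat_lit 0) (cs (rf (nat_lit 8)) (cs (nd (nat_lit 292) (nat_lit 0) (cs (rf (nat_lit 9)) (cs (rf (nat_lit 10)) (nd (nat_lit 291) (nat_lit 0) (cs (rf (nat_lit 11)) (lf (nat_lit 6) (nat_lit 269))))))) (nd (nat_lit 247) (nat_lit 0) (cs (lf (nat_lit 18) (nat_lit 247)) (lf (nat_lit 0) (nat_lit 246))))))) (cs (nd (nat_lit 269) (nat_lit 0) (cs (lf (nat_lit 12) (nat_lit 246)) (nd (nat_lit 247) (nat_lit 0) (cs (lf (nat_lit 23) (nat_lit 246)) (nd (nat_lit 290) (nat_lit 0) (cs (lf (nat_lit 10) (nat_lit 268)) (nd (nat_lit 273) (nat_lit 0) (cs (lf (nat_lit 22) (nat_lit 247)) (rf (nat_lit 12)))))))))) (cs (nd (nat_lit 269) (nat_lit 0) (cs (lf (nat_lit 12) (nat_lit 246)) (nd (nat_lit 247) (nat_lit 0) (cs (lf (nat_lit 23) (nat_lit 246)) (nd (nat_lit 294) (nat_lit 0) (cs (lf (nat_lit 5) (nat_lit 269)) (nd (nat_lit 248) (nat_lit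 0) (cs (lf (nat_lit 18) (nat_lit 247)) (nd (nat_lit 316) (nat_lit 0) (cs (lf (nat_lit 42) (nat_lit 249)) (nd (nat_lit 224) (nat_lit 0) (cs (lf (nat_lit 22) (nat_lit 224)) (nd (nat_lit 315) (nat_lit 0) (cs (lf (nat_lit 41) (nat_lit 249)) (nd (nat_lit 293) (nat_lit 0) (cs (lf (nat_lit 47) (nat_lit 226)) (nd (nat_lit 314) (nat_lit 0) (cs (lf (nat_lit 41) (nat_lit 248)) (nd (nat_lit 313) (nat_lit 0) (cs (lf (nat_lit 12) (nat_lit 290)) (rf (nat_lit 13)))))))))))))))))))))) (nd (nat_lit 269) (nat_lit 0) (cs (lf (nat_lit 12) (nat_lit 246)) (nd (nat_lit 294) (nat_lit 0) (cs (lf (nat_lit 5) (nat_lit 269)) (nd (nat_lit 291) (nat_lit 0) (cs (lf (nat_lit 11) (nat_lit 268)) (nd (nat_lit 292) (nat_lit 0) (cs (lf (nat_lit 6) (nat_lit 269)) (nd (nat_lit 314) (nat_lit 0) (cs (lf (nat_lit 30) (nat_lit 248)) (rf (nat_lit 14))))))))))))))))) (cs (nd (nat_lit 227) (nat_lit 0) (cs (rf (nat_lit 15)) (cs (rf (nat_lit 16))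 (nd (nat_lit 269) (nat_lit 0) (cs (nd (nat_lit 294) (nat_lit 0) (cs (lf (nat_lit 42) (nat_lit 227)) (nd (nat_lit 270) (nat_lit 0) (cs (lf (nat_lit 5) (nat_lit 269)) (nd (nat_lit 290) (nat_lit 0) (cs (lf (nat_lit 10) (nat_lit 268)) (nd (nat_lit 247) (nat_lit 0) (cs (lf (nat_lit 23) (nat_lit 246)) (nd (nat_lit 248) (nat_lit 0) (cs (lf (nat_lit 5) (nat_lit 247)) (nd (nat_lit 225) (nat_lit 0) (cs (lf (nat_lit 23) (nat_lit 224)) (nd (nat_lit 203) (nat_lit 0) (cs (lf (nat_lit 24) (nat_lit 181)) (nd (nat_lit 202) (nat_lit 0) (cs (lf (nat_lit 47) (nat_lit 180)) (nd (nat_lit 204) (nat_lit 0) (cs (lf (nat_lit 35) (nat_lit 181)) (nd (nat_lit 226) (nat_lit 0) (cs (lf (nat_lit 29) (nat_lit 204)) (lf (nat_lit 0) (nat_lit 201)))))))))))))))))))))) (cs (nd (nat_lit 247) (nat_lit 0) (cs (rf (nat_lit 17)) (cs (rf (nat_lit 18)) (cs (rf (nat_lit 19)) (rf (nat_lit 20)))))) (nd (nat_lit 294) (nat_lit 0) (cs (lf (nat_lit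 42) (nat_lit 227)) (rf (nat_lit 21)))))))))) (cs (nd (nat_lit 227) (nat_lit 0) (cs (rf (nat_lit 22)) (cs (rf (nat_lit 23)) (nd (nat_lit 293) (nat_lit 0) (cs (rf (nat_lit 24)) (cs (rf (nat_lit 25)) (nd (nat_lit 294) (nat_lit 0) (cs (rf (nat_lit 26)) (nd (nat_lit 295) (nat_lit 0) (cs (rf (nat_lit 27)) (nd (nat_lit 292) (nat_lit 0) (cs (lf (nat_lit 41) (nat_lit 226)) (nd (nat_lit 204) (nat_lit 0) (cs (lf (nat_lit 46) (nat_lit 204)) (rf (nat_lit 28)))))))))))))))) (nd (nat_lit 227) (nat_lit 0) (cs (rf (nat_lit 22)) (cs (rf (nat_lit 23)) (nd (nat_lit 293) (nat_lit 0) (cs (rf (nat_lit 24)) (cs (rf (nat_lit 25)) (nd (nat_lit 294) (nat_lit 0) (cs (lf (nat_lit 42) (nat_lit 227)) (rf (nat_lit 29))))))))))))))))))))) q47569 (by decide +kernel)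
def q47818 : Q := Q.p (nat_lit 0x180003400000000000000000000000000000000000000000000000000000000000000) (nat_lit 0x28000ae0003ff800ffc003ff800e78000370008e0000380000e000020000000000000000000000000000000000000000) (nat_lit 14)
theorem c47818 : QOK q47818 := cut [q46894, q47628, q47686, q45298, q46774, q14121, q14128, q14184, q46683, q47213, q47224, q47620, q47772, q47808, q47811, q46738, q47621] ⟨c46894, c47628, c47686, c45298, c46774, c14121, c14128, c14184, c46683, c47213, c47224, c47620, c47772, c47808, c47811, c46738, c47621, trivial⟩ (nd (nat_lit 270) (nat_lit 0) (cs (rf (nat_lit 0)) (cs (rf (nat_lit 1)) (cs (rf (nat_lit 2)) (cs (nd (nat_lit 294) (nat_lit 0) (cs (rf (nat_lit 3)) (cs (nd (nat_lit 269) (nat_lit 0) (cs (lf (nat_lit 5) (nat_lit 269)) (rf (nat_lit 4)))) (cs (nd (nat_lit 269) (nat_lit 0) (cs (lf (nat_lit 5) (nat_lit 269)) (nd (nat_lit 290) (nat_lit 0) (cs (lf (nat_lit 10) (nat_lit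 268)) (nd (nat_lit 268) (nat_lit 0) (cs (lf (nat_lit 11) (nat_lit 267)) (lf (nat_lit 4) (nat_lit 268)))))))) (cs (nd (nat_lit 316) (nat_lit 0) (cs (rf (nat_lit 5)) (cs (rf (nat_lit 6)) (cs (rf (nat_lit 7)) (nd (nat_lit 293) (nat_lit 0) (cs (rf (nat_lit 8)) (cs (nd (nat_lit 227) (nat_lit 0) (cs (lf (nat_lit 25) (nat_lit 227)) (nd (nat_lit 269) (nat_lit 0) (cs (lf (nat_lit 0) (nat_lit 268)) (rf (nat_lit 9)))))) (cs (nd (nat_lit 315) (nat_lit 0) (cs (lf (nat_lit 41) (nat_lit 249)) (nd (nat_lit 227) (nat_lit 0) (cs (lf (nat_lit 25) (nat_lit 227)) (nd (nat_lit 268) (nat_lit 0) (cs (nd (nat_lit 317) (nat_lit 0) (cs (lf (nat_lit 29) (nat_lit 250)) (nd (nat_lit 318) (nat_lit 0) (cs (lf (nat_lit 18) (nat_lit 293)) (nd (nat_lit 296) (nat_lit 0) (cs (lf (nat_lit 17) (nat_lit 293)) (nd (nat_lit 274) (nat_lit 0) (cs (lf (nat_lit 35) (nat_lit 230)) (nd (nat_lit 340) (nat_lit 0) (cs (lf (nat_lit 34) (nat_lit 252))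 (lf (nat_lit 5) (nat_lit 315)))))))))))) (lf (nat_lit 1) (nat_lit 268)))))))) (nd (nat_lit 315) (nat_lit 0) (cs (lf (nat_lit 41) (nat_lit 249)) (nd (nat_lit 249) (nat_lit 0) (cs (lf (nat_lit 24) (nat_lit 227)) (nd (nat_lit 268) (nat_lit 0) (cs (lf (nat_lit 13) (nat_lit 246)) (rf (nat_lit 10)))))))))))))))) (nd (nat_lit 269) (nat_lit 0) (cs (lf (nat_lit 5) (nat_lit 269)) (rf (nat_lit 11))))))))) (cs (nd (nat_lit 273) (nat_lit 0) (cs (lf (nat_lit 15) (nat_lit 249)) (rf (nat_lit 12)))) (cs (rf (nat_lit 13)) (cs (nd (nat_lit 273) (nat_lit 0) (cs (lf (nat_lit 15) (nat_lit 249)) (rf (nat_lit 14)))) (cs (nd (nat_lit 273) (nat_lit 0) (cs (lf (nat_lit 15) (nat_lit 249)) (rf (nat_lit 15)))) (nd (nat_lit 269) (nat_lit 0) (cs (rf (nat_lit 4)) (cs (rf (nat_lit 16)) (nd (nat_lit 295) (nat_lit 0) (cs (lf (nat_lit 4) (nat_lit 269)) (nd (nat_lit 291) (nat_lit 0) (cs (lf (nat_lit 11) (nat_lit 268)) (nd (nat_lit 273)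 (nat_lit 0) (cs (lf (nat_lit 10) (nat_lit 269)) (lf (nat_lit 5) (nat_lit 270)))))))))))))))))))) q47818 (by decide +kernel)
def q48543 : Q := Q.p (nat_lit 0x100003400000000010000040000000000000000000000000000000000000000000000) (nat_lit 0x140000700001e8003fe001ffe007ff003ffe00ffe007ffc007ee00001c001be0004f8000bf0000e0000080000000000000000000000000000000000) (nat_lit 15)
theorem c48543 : QOK q48543 := cut [q2085, q44496, q44536, q45084, q44516, q48340, q48424, q18265, q48428, q48430, q48434, q48442, q48448, q48463, q48470, q45364, q45461, q45462, q48481, q48531, q48519, q46736, q48540, q48542] ⟨c2085, c44496, c44536, c45084, c44516, c48340, c48424, c18265, c48428, c48430, c48434, c48442, c48448, c48463, c48470, c45364, c45461, c45462, c48481, c48531, c48519, c46736, c48540, c48542, trivial⟩ (nd (nat_lit 228) (nat_lit 0) (cs (nd (nat_lit 206) (nat_lit 0) (cs (rf (nat_lit 0)) (rf (nat_lit 1)))) (cs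 (rf (nat_lit 2)) (cs (rf (nat_lit 3)) (cs (nd (nat_lit 317) (nat_lit 0) (cs (nd (nat_lit 294) (nat_lit 0) (cs (lf (nat_lit 28) (nat_lit 228)) (rf (nat_lit 4)))) (cs (rf (nat_lit 5)) (cs (rf (nat_lit 6)) (cs (nd (nat_lit 315) (nat_lit 0) (cs (nd (nat_lit 294) (nat_lit 0) (cs (lf (nat_lit 40) (nat_lit 227)) (rf (nat_lit 7)))) (cs (nd (nat_lit 316) (nat_lit 0) (cs (nd (nat_lit 294) (nat_lit 0) (cs (lf (nat_lit 40) (nat_lit 227)) (lf (nat_lit 29) (nat_lit 250)))) (cs (rf (nat_lit 8)) (cs (rf (nat_lit 9)) (rf (nat_lit 10)))))) (cs (nd (nat_lit 293) (nat_lit 0) (cs (lf (nat_lit 39) (nat_lit 227)) (nd (nat_lit 337) (nat_lit 0) (cs (lf (nat_lit 33) (nat_lit 249)) (nd (nat_lit 359) (nat_lit 0) (cs (rf (nat_lit 11)) (cs (nd (nat_lit 358) (nat_lit 0) (cs (lf (nat_lit 41) (nat_lit 292)) (nd (nat_lit 357) (nat_lit 0) (cs (rf (nat_lit 12)) (cs (nd (nat_lit 270) (nat_lit 0) (cs (nd (nat_lit 360) (nat_lit 0) (cs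 (lf (nat_lit 29) (nat_lit 293)) (nd (nat_lit 335) (nat_lit 0) (cs (lf (nat_lit 23) (nat_lit 334)) (nd (nat_lit 378) (nat_lit 0) (cs (nd (nat_lit 361) (nat_lit 0) (cs (lf (nat_lit 22) (nat_lit 335)) (nd (nat_lit 339) (nat_lit 0) (cs (lf (nat_lit 16) (nat_lit 335)) (lf (nat_lit 17) (nat_lit 336)))))) (lf (nat_lit 10) (nat_lit 356)))))))) (lf (nat_lit 46) (nat_lit 270)))) (nd (nat_lit 270) (nat_lit 0) (cs (lf (nat_lit 46) (nat_lit 270)) (rf (nat_lit 13))))))))) (cs (rf (nat_lit 14)) (nd (nat_lit 382) (nat_lit 0) (cs (lf (nat_lit 28) (nat_lit 293)) (nd (nat_lit 381) (nat_lit 0) (cs (lf (nat_lit 29) (nat_lit 315)) (nd (nat_lit 292) (nat_lit 0) (cs (lf (nat_lit 46) (nat_lit 292)) (lf (nat_lit 47) (nat_lit 270)))))))))))))))) (cs (nd (nat_lit 316) (nat_lit 0) (cs (nd (nat_lit 318) (nat_lit 0) (cs (rf (nat_lit 15)) (cs (rf (nat_lit 16)) (rf (nat_lit 17))))) (cs (rf (nat_lit 10)) (cs (rf (nat_lit 18)) (nd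 (nat_lit 294) (nat_lit 0) (cs (lf (nat_lit 41) (nat_lit 249)) (lf (nat_lit 29) (nat_lit 250)))))))) (cs (rf (nat_lit 19)) (nd (nat_lit 316) (nat_lit 0) (cs (rf (nat_lit 9)) (cs (rf (nat_lit 18)) (cs (rf (nat_lit 20)) (nd (nat_lit 294) (nat_lit 0) (cs (lf (nat_lit 41) (nat_lit 249)) (lf (nat_lit 40) (nat_lit 227)))))))))))))) (nd (nat_lit 295) (nat_lit 0) (cs (lf (nat_lit 27) (nat_lit 228)) (nd (nat_lit 273) (nat_lit 0) (cs (lf (nat_lit 42) (nat_lit 250)) (nd (nat_lit 271) (nat_lit 0) (cs (lf (nat_lit 15) (nat_lit 249)) (nd (nat_lit 270) (nat_lit 0) (cs (lf (nat_lit 5) (nat_lit 270)) (rf (nat_lit 21))))))))))))))) (cs (rf (nat_lit 22)) (rf (nat_lit 23)))))))) q48543 (by decide +kernel)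
def q48599 : Q := Q.p (nat_lit 0x100003400000000000000000000000000000000000000000000000000000000000000) (nat_lit 0x328000ee0003fc003ff8007fc003ef80003c000bf8000b80000c000000000000000000000000000000000000000000000) (nat_lit 15)
theorem c48599 : QOK q48599 := cut [q45172, q45298, q45123, q47555, q45120, q45121, q45122, q48549, q48553, q44507, q44932, q44934, q45225, q48560, q48563, q48566, q48598] ⟨c45172, c45298, c45123, c47555, c45120, c45121, c45122, c48549, c48553, c44507, c44932, c44934, c45225, c48560, c48563, c48566, c48598, trivial⟩ (nd (nat_lit 294) (nat_lit 0) (cs (rf (nat_lit 0)) (cs (rf (nat_lit 1)) (cs (nd (nat_lit 295) (nat_lit 0) (cs (rf (nat_lit 2)) (cs (nd (nat_lit 317) (nat_lit 0) (cs (lf (nat_lit 24) (nat_lit 228)) (rf (nat_lit 3)))) (cs (nd (nat_lit 296) (nat_lit 0) (cs (rf (nat_lit 4)) (cs (rf (nat_lit 5)) (cs (rf (nat_lit 6)) (nd (nat_lit 228) (nat_lit 0) (cs (lf (nat_lit 29)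 (nat_lit 228)) (nd (nat_lit 207) (nat_lit 0) (cs (lf (nat_lit 34) (nat_lit 206)) (rf (nat_lit 7)))))))))) (nd (nat_lit 293) (nat_lit 0) (cs (rf (nat_lit 8)) (cs (nd (nat_lit 315) (nat_lit 0) (cs (lf (nat_lit 36) (nat_lit 227)) (nd (nat_lit 337) (nat_lit 0) (cs (lf (nat_lit 30) (nat_lit 271)) (nd (nat_lit 296) (nat_lit 0) (cs (lf (nat_lit 11) (nat_lit 292)) (rf (nat_lit 9)))))))) (nd (nat_lit 292) (nat_lit 0) (cs (rf (nat_lit 10)) (cs (rf (nat_lit 11)) (rf (nat_lit 12)))))))))))) (cs (rf (nat_lit 13)) (cs (rf (nat_lit 14)) (cs (rf (nat_lit 15)) (rf (nat_lit 16))))))))) q48599 (by decide +kernel)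
def q49019 : Q := Q.p (nat_lit 0x180003480000000010000040000000000000000000000000000000000000000000000) (nat_lit 0x500007e0001f00003f000670000240001f8000fc000bf00001c000000000000000000000000000000000000000) (nat_lit 13)
theorem c49019 : QOK q49019 := cut [q48851, q48959, q48696, q48976, q34520, q34521, q44551, q48699, q48920, q48828, q49017] ⟨c48851, c48959, c48696, c48976, c34520, c34521, c44551, c48699, c48920, c48828, c49017, trivial⟩ (nd (nat_lit 291) (nat_lit 0) (cs (rf (nat_lit 0)) (cs (rf (nat_lit 1)) (cs (nd (nat_lit 273) (nat_lit 0) (cs (lf (nat_lit 15) (nat_lit 249)) (nd (nat_lit 292) (nat_lit 0) (cs (lf (nat_lit 9) (nat_lit 269)) (nd (nat_lit 293) (nat_lit 0) (cs (lf (nat_lit 12) (nat_lit 268)) (rf (nat_lit 2)))))))) (nd (nat_lit 293) (nat_lit 0) (cs (rf (nat_lit 2)) (cs (rf (nat_lit 3)) (cs (nd (nat_lit 206) (nat_lit 0) (cs (lf (nat_lit 37) (nat_lit 205)) (nd (nat_lit 205) (nat_lit 0)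 (cs (rf (nat_lit 4)) (cs (rf (nat_lit 5)) (cs (rf (nat_lit 6)) (nd (nat_lit 290) (nat_lit 0) (cs (lf (nat_lit 14) (nat_lit 268)) (nd (nat_lit 225) (nat_lit 0) (cs (nd (nat_lit 269) (nat_lit 0) (cs (lf (nat_lit 41) (nat_lit 224)) (rf (nat_lit 7)))) (cs (nd (nat_lit 273) (nat_lit 0) (cs (lf (nat_lit 15) (nat_lit 249)) (nd (nat_lit 269) (nat_lit 0) (cs (lf (nat_lit 41) (nat_lit 224)) (nd (nat_lit 226) (nat_lit 0) (cs (lf (nat_lit 35) (nat_lit 203)) (nd (nat_lit 224) (nat_lit 0) (cs (lf (nat_lit 15) (nat_lit 202)) (lf (nat_lit 47) (nat_lit 202)))))))))) (cs (nd (nat_lit 224) (nat_lit 0) (cs (rf (nat_lit 8)) (cs (nd (nat_lit 203) (nat_lit 0) (cs (lf (nat_lit 8) (nat_lit 202)) (nd (nat_lit 246) (nat_lit 0) (cs (nd (nat_lit 181) (nat_lit 0) (cs (lf (nat_lit 36) (nat_lit 158)) (nd (nat_lit 182) (nat_lit 0) (cs (lf (nat_lit 35) (nat_lit 159)) (nd (nat_lit 180) (nat_lit 0) (cs (lf (nat_lit 47) (nat_lit 158))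 (lf (nat_lit 3) (nat_lit 180)))))))) (lf (nat_lit 31) (nat_lit 202)))))) (nd (nat_lit 273) (nat_lit 0) (cs (lf (nat_lit 15) (nat_lit 249)) (nd (nat_lit 226) (nat_lit 0) (cs (lf (nat_lit 15) (nat_lit 202)) (nd (nat_lit 204) (nat_lit 0) (cs (lf (nat_lit 12) (nat_lit 201)) (lf (nat_lit 9) (nat_lit 202))))))))))) (nd (nat_lit 273) (nat_lit 0) (cs (lf (nat_lit 15) (nat_lit 249)) (nd (nat_lit 269) (nat_lit 0) (cs (lf (nat_lit 41) (nat_lit 224)) (rf (nat_lit 9)))))))))))))))))) (rf (nat_lit 10)))))))))) q49019 (by decide +kernel)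
def q50130 : Q := Q.p (nat_lit 0x1000034c0000000010000040000000000000000000000000000000000000000000000) (nat_lit 0x200003d0000fd8003f60007f8006ff000138003ef000ff800bfe000e780008a000000000000000000000000000000000) (nat_lit 13)
theorem c50130 : QOK q50130 := cut [q49616, q49924, q49932, q50070, q50074, q50088, q48979, q50093, q45687, q50099, q48954, q49465, q49499, q50110, q48844, q49583] ⟨c49616, c49924, c49932, c50070, c50074, c50088, c48979, c50093, c45687, c50099, c48954, c49465, c49499, c50110, c48844, c49583, trivial⟩ (nd (nat_lit 245) (nat_lit 0) (cs (rf (nat_lit 0)) (cs (rf (nat_lit 1)) (cs (rf (nat_lit 2)) (cs (rf (nat_lit 3)) (nd (nat_lit 271) (nat_lit 0) (cs (rf (nat_lit 4)) (cs (rf (nat_lit 5)) (nd (nat_lit 291) (nat_lit 0) (cs (rf (nat_lit 6)) (cs (nd (nat_lit 269) (nat_lit 0) (cs (lf (nat_lit 20) (nat_lit 246)) (nd (nat_lit 312) (nat_lit 0) (cs (rf (nat_lit 7)) (cs (nd (nat_lit 273)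 (nat_lit 0) (cs (lf (nat_lit 15) (nat_lit 249)) (nd (nat_lit 225) (nat_lit 0) (cs (lf (nat_lit 40) (nat_lit 224)) (nd (nat_lit 204) (nat_lit 0) (cs (lf (nat_lit 34) (nat_lit 203)) (nd (nat_lit 203) (nat_lit 0) (cs (lf (nat_lit 35) (nat_lit 181)) (nd (nat_lit 181) (nat_lit 0) (cs (lf (nat_lit 41) (nat_lit 180)) (rf (nat_lit 8)))))))))))) (nd (nat_lit 225) (nat_lit 0) (cs (lf (nat_lit 40) (nat_lit 224)) (nd (nat_lit 226) (nat_lit 0) (cs (lf (nat_lit 35) (nat_lit 203)) (nd (nat_lit 313) (nat_lit 0) (cs (lf (nat_lit 41) (nat_lit 246)) (nd (nat_lit 228) (nat_lit 0) (cs (lf (nat_lit 7) (nat_lit 224)) (nd (nat_lit 273) (nat_lit 0) (cs (lf (nat_lit 15) (nat_lit 249)) (rf (nat_lit 9))))))))))))))))) (cs (nd (nat_lit 293) (nat_lit 0) (cs (rf (nat_lit 10)) (cs (rf (nat_lit 11)) (cs (rf (nat_lit 12)) (nd (nat_lit 290) (nat_lit 0) (cs (lf (nat_lit 14) (nat_lit 268)) (nd (nat_lit 312) (nat_lit 0) (cs (nd (nat_lit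 268) (nat_lit 0) (cs (lf (nat_lit 35) (nat_lit 224)) (lf (nat_lit 47) (nat_lit 223)))) (cs (nd (nat_lit 273) (nat_lit 0) (cs (lf (nat_lit 15) (nat_lit 249)) (nd (nat_lit 315) (nat_lit 0) (cs (lf (nat_lit 30) (nat_lit 249)) (nd (nat_lit 206) (nat_lit 0) (cs (lf (nat_lit 37) (nat_lit 205)) (nd (nat_lit 269) (nat_lit 0) (cs (lf (nat_lit 36) (nat_lit 224)) (rf (nat_lit 13)))))))))) (nd (nat_lit 273) (nat_lit 0) (cs (lf (nat_lit 15) (nat_lit 249)) (nd (nat_lit 315) (nat_lit 0) (cs (lf (nat_lit 30) (nat_lit 249)) (nd (nat_lit 206) (nat_lit 0) (cs (lf (nat_lit 37) (nat_lit 205)) (nd (nat_lit 268) (nat_lit 0) (cs (lf (nat_lit 47) (nat_lit 223)) (nd (nat_lit 334) (nat_lit 0) (cs (lf (nat_lit 34) (nat_lit 246)) (lf (nat_lit 46) (nat_lit 245))))))))))))))))))))) (cs (nd (nat_lit 270) (nat_lit 0) (cs (lf (nat_lit 21) (nat_lit 246)) (nd (nat_lit 273) (nat_lit 0) (cs (lf (nat_lit 15) (nat_lit 249)) (lf (nat_lit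 10) (nat_lit 269)))))) (nd (nat_lit 290) (nat_lit 0) (cs (rf (nat_lit 14)) (rf (nat_lit 15))))))))))))))))) q50130 (by decide +kernel)
def q50413 : Q := Q.p (nat_lit 0x1000034c0000000010000040000000000000000000000000000000000000000000000) (nat_lit 0x200003c0000fc0003f00007f0006ef000138003ff000ff800bfe000ff8000f40001c0000500000000000000000000000) (nat_lit 13)
theorem c50413 : QOK q50413 := cut [q49238, q49302, q50137, q50138, q45791, q50151, q50183, q49240, q49243, q49262, q50192, q50264, q50270, q50381, q47043, q50386, q50295, q50099, q49239, q49242, q49303, q50412] ⟨c49238, c49302, c50137, c50138, c45791, c50151, c50183, c49240, c49243, c49262, c50192, c50264, c50270, c50381, c47043, c50386, c50295, c50099, c49239, c49242, c49303, c50412, trivial⟩ (nd (nat_lit 225) (nat_lit 0) (cs (nd (nat_lit 269) (nat_lit 0) (cs (rf (nat_lit 0)) (cs (rf (nat_lit 1)) (cs (rf (nat_lit 2)) (cs (nd (nat_lit 202)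 (nat_lit 0) (cs (rf (nat_lit 3)) (cs (nd (nat_lit 270) (nat_lit 0) (cs (lf (nat_lit 19) (nat_lit 246)) (nd (nat_lit 244) (nat_lit 0) (cs (lf (nat_lit 1) (nat_lit 244)) (nd (nat_lit 291) (nat_lit 0) (cs (lf (nat_lit 46) (nat_lit 202)) (nd (nat_lit 312) (nat_lit 0) (cs (lf (nat_lit 40) (nat_lit 224)) (nd (nat_lit 313) (nat_lit 0) (cs (lf (nat_lit 41) (nat_lit 246)) (nd (nat_lit 336) (nat_lit 0) (cs (lf (nat_lit 28) (nat_lit 247)) (nd (nat_lit 335) (nat_lit 0) (cs (lf (nat_lit 29) (nat_lit 269)) (lf (nat_lit 35) (nat_lit 247)))))))))))))))) (nd (nat_lit 270) (nat_lit 0) (cs (lf (nat_lit 19) (nat_lit 246)) (nd (nat_lit 244) (nat_lit 0) (cs (lf (nat_lit 1) (nat_lit 244)) (nd (nat_lit 203) (nat_lit 0) (cs (lf (nat_lit 47) (nat_lit 180)) (nd (nat_lit 181) (nat_lit 0) (cs (lf (nat_lit 28) (nat_lit 181)) (rf (nat_lit 4))))))))))))) (rf (nat_lit 5))))))) (cs (rf (nat_lit 6)) (cs (nd (nat_lit 245) (nat_lit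 0) (cs (rf (nat_lit 7)) (cs (rf (nat_lit 8)) (cs (rf (nat_lit 9)) (rf (nat_lit 10)))))) (cs (rf (nat_lit 11)) (cs (rf (nat_lit 12)) (cs (rf (nat_lit 13)) (cs (nd (nat_lit 269) (nat_lit 0) (cs (rf (nat_lit 0)) (cs (rf (nat_lit 2)) (cs (rf (nat_lit 5)) (cs (nd (nat_lit 270) (nat_lit 0) (cs (lf (nat_lit 19) (nat_lit 246)) (rf (nat_lit 14)))) (cs (rf (nat_lit 15)) (nd (nat_lit 202) (nat_lit 0) (cs (rf (nat_lit 3)) (cs (nd (nat_lit 270) (nat_lit 0) (cs (lf (nat_lit 19) (nat_lit 246)) (nd (nat_lit 203) (nat_lit 0) (cs (lf (nat_lit 47) (nat_lit 180)) (rf (nat_lit 16)))))) (nd (nat_lit 271) (nat_lit 0) (cs (lf (nat_lit 20) (nat_lit 246)) (nd (nat_lit 273) (nat_lit 0) (cs (lf (nat_lit 15) (nat_lit 249)) (nd (nat_lit 291) (nat_lit 0) (cs (lf (nat_lit 46) (nat_lit 202)) (nd (nat_lit 226) (nat_lit 0) (cs (lf (nat_lit 35) (nat_lit 203)) (nd (nat_lit 290) (nat_lit 0) (cs (lf (nat_lit 41) (nat_lit 224)) (nd (nat_lit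 228) (nat_lit 0) (cs (lf (nat_lit 7) (nat_lit 224)) (rf (nat_lit 17))))))))))))))))))))))) (cs (nd (nat_lit 245) (nat_lit 0) (cs (rf (nat_lit 7)) (cs (rf (nat_lit 8)) (cs (rf (nat_lit 9)) (nd (nat_lit 226) (nat_lit 0) (cs (rf (nat_lit 18)) (cs (rf (nat_lit 19)) (rf (nat_lit 20))))))))) (rf (nat_lit 21))))))))))) q50413 (by decide +kernel)
def q51260 : Q := Q.p (nat_lit 0x1000034c0000000000000040000000000000000000000000000000000000000000000) (nat_lit 0x20000390000fd0003fc0007f0006f8000138003ff000ff800bfc000ff8000d4000000000000000000000000000000000) (nat_lit 13)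
theorem c51260 : QOK q51260 := cut [q49212, q49305, q50525, q50842, q50849, q50851, q49216, q49224, q50184, q49647, q49285, q49995, q50226, q51241, q49532, q49240, q49243, q50192, q51258] ⟨c49212, c49305, c50525, c50842, c50849, c50851, c49216, c49224, c50184, c49647, c49285, c49995, c50226, c51241, c49532, c49240, c49243, c50192, c51258, trivial⟩ (nd (nat_lit 225) (nat_lit 0) (cs (rf (nat_lit 0)) (cs (rf (nat_lit 1)) (cs (rf (nat_lit 2)) (cs (rf (nat_lit 3)) (cs (rf (nat_lit 4)) (cs (rf (nat_lit 5)) (cs (nd (nat_lit 226) (nat_lit 0) (cs (rf (nat_lit 6)) (cs (rf (nat_lit 7)) (nd (nat_lit 245) (nat_lit 0) (cs (lf (nat_lit 12) (nat_lit 222)) (nd (nat_lit 291) (nat_lit 0) (cs (nd (nat_lit 269) (nat_lit 0) (cs (lf (nat_lit 35) (nat_lit 203)) (rf (nat_lit 8)))) (cs (nd (nat_lit 223) (nat_lit 0) (cs (rf (nat_lit 9)) (cs (nd (nat_lit 248) (nat_lit 0) (cs (lf (nat_lit 23) (nat_lit 222)) (nd (nat_lit 270)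 (nat_lit 0) (cs (lf (nat_lit 5) (nat_lit 245)) (nd (nat_lit 292) (nat_lit 0) (cs (lf (nat_lit 42) (nat_lit 225)) (lf (nat_lit 41) (nat_lit 225)))))))) (nd (nat_lit 201) (nat_lit 0) (cs (rf (nat_lit 10)) (cs (rf (nat_lit 11)) (cs (rf (nat_lit 12)) (nd (nat_lit 200) (nat_lit 0) (cs (lf (nat_lit 20) (nat_lit 200)) (nd (nat_lit 267) (nat_lit 0) (cs (lf (nat_lit 47) (nat_lit 178)) (nd (nat_lit 290) (nat_lit 0) (cs (lf (nat_lit 28) (nat_lit 201)) (nd (nat_lit 289) (nat_lit 0) (cs (lf (nat_lit 29) (nat_lit 223)) (nd (nat_lit 310) (nat_lit 0) (cs (lf (nat_lit 40) (nat_lit 222)) (nd (nat_lit 311) (nat_lit 0) (cs (lf (nat_lit 41) (nat_lit 244)) (lf (nat_lit 6) (nat_lit 288))))))))))))))))))))) (cs (nd (nat_lit 269) (nat_lit 0) (cs (lf (nat_lit 35) (nat_lit 203)) (nd (nat_lit 202) (nat_lit 0) (cs (lf (nat_lit 46) (nat_lit 202)) (nd (nat_lit 271) (nat_lit 0) (cs (lf (nat_lit 20) (nat_lit 246)) (rf (nat_lit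 13)))))))) (nd (nat_lit 269) (nat_lit 0) (cs (lf (nat_lit 35) (nat_lit 203)) (nd (nat_lit 290) (nat_lit 0) (cs (lf (nat_lit 41) (nat_lit 224)) (nd (nat_lit 270) (nat_lit 0) (cs (lf (nat_lit 7) (nat_lit 268)) (nd (nat_lit 288) (nat_lit 0) (cs (lf (nat_lit 13) (nat_lit 266)) (nd (nat_lit 292) (nat_lit 0) (cs (lf (nat_lit 29) (nat_lit 225)) (nd (nat_lit 248) (nat_lit 0) (cs (lf (nat_lit 41) (nat_lit 225)) (rf (nat_lit 14))))))))))))))))))))))) (nd (nat_lit 245) (nat_lit 0) (cs (rf (nat_lit 15)) (cs (rf (nat_lit 16)) (cs (rf (nat_lit 17)) (rf (nat_lit 18)))))))))))))) q51260 (by decide +kernel)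
def q51996 : Q := Q.p (nat_lit 0x100000480000000010000040000000000000000000000000000000000000000000000) (nat_lit 0x140001f0001fc0007f00027f00037c003ff000ffc00bff0003f8000fc0001d0000500000000000000000000000) (nat_lit 14)
theorem c51996 : QOK q51996 := cut [q51543, q51475, q51479, q51690, q51497, q51705, q51839, q51859, q51542, q17292, q44691, q45629, q47077, q51492, q51860, q51861, q51900, q51494, q51528, q51918, q51510, q45599, q45679, q48747, q51695, q51923, q51498, q47102, q51007, q48794, q38122, q45598, q51529, q51980, q51992, q44690, q41052, q48798, q50379, q51917] ⟨c51543, c51475, c51479, c51690, c51497, c51705, c51839, c51859, c51542, c17292, c44691, c45629, c47077, c51492, c51860, c51861, c51900, c51494, c51528, c51918, c51510, c45599, c45679, c48747, c51695, c51923, c51498, c47102, c51007, c48794, c38122, c45598, c51529, c51980, c51992, c44690, c41052, c48798, c50379, c51917, trivial⟩ (nd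 (nat_lit 225) (nat_lit 0) (cs (rf (nat_lit 0)) (cs (nd (nat_lit 248) (nat_lit 0) (cs (rf (nat_lit 1)) (cs (rf (nat_lit 2)) (cs (rf (nat_lit 3)) (nd (nat_lit 249) (nat_lit 0) (cs (lf (nat_lit 23) (nat_lit 224)) (rf (nat_lit 4)))))))) (cs (rf (nat_lit 5)) (cs (rf (nat_lit 6)) (cs (rf (nat_lit 7)) (cs (nd (nat_lit 248) (nat_lit 0) (cs (rf (nat_lit 1)) (cs (rf (nat_lit 8)) (nd (nat_lit 203) (nat_lit 0) (cs (rf (nat_lit 9)) (cs (rf (nat_lit 10)) (cs (nd (nat_lit 269) (nat_lit 0) (cs (rf (nat_lit 11)) (cs (rf (nat_lit 12)) (rf (nat_lit 13))))) (cs (rf (nat_lit 14)) (rf (nat_lit 15)))))))))) (cs (rf (nat_lit 16)) (cs (nd (nat_lit 248) (nat_lit 0) (cs (rf (nat_lit 1)) (cs (rf (nat_lit 2)) (nd (nat_lit 203) (nat_lit 0) (cs (rf (nat_lit 17)) (cs (rf (nat_lit 18)) (cs (rf (nat_lit 15)) (rf (nat_lit 19))))))))) (cs (nd (nat_lit 248) (nat_lit 0) (cs (rf (nat_lit 1)) (cs (rf (nat_lit 20)) (nd (nat_lit 203) (nat_lit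 0) (cs (rf (nat_lit 10)) (cs (rf (nat_lit 21)) (cs (rf (nat_lit 17)) (nd (nat_lit 269) (nat_lit 0) (cs (rf (nat_lit 22)) (cs (rf (nat_lit 12)) (nd (nat_lit 202) (nat_lit 0) (cs (lf (nat_lit 47) (nat_lit 180)) (nd (nat_lit 201) (nat_lit 0) (cs (rf (nat_lit 23)) (cs (rf (nat_lit 24)) (nd (nat_lit 270) (nat_lit 0) (cs (lf (nat_lit 29) (nat_lit 203)) (nd (nat_lit 268) (nat_lit 0) (cs (lf (nat_lit 41) (nat_lit 202)) (nd (nat_lit 182) (nat_lit 0) (cs (lf (nat_lit 34) (nat_lit 181)) (nd (nat_lit 267) (nat_lit 0) (cs (lf (nat_lit 12) (nat_lit 244)) (rf (nat_lit 25))))))))))))))))))))))))) (cs (nd (nat_lit 248) (nat_lit 0) (cs (rf (nat_lit 1)) (cs (rf (nat_lit 26)) (nd (nat_lit 203) (nat_lit 0) (cs (rf (nat_lit 9)) (cs (rf (nat_lit 10)) (cs (rf (nat_lit 14)) (cs (rf (nat_lit 15)) (nd (nat_lit 269) (nat_lit 0) (cs (rf (nat_lit 22)) (cs (rf (nat_lit 27)) (cs (rf (nat_lit 28)) (rf (nat_lit 13))))))))))))))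 (cs (nd (nat_lit 248) (nat_lit 0) (cs (rf (nat_lit 1)) (cs (rf (nat_lit 2)) (nd (nat_lit 203) (nat_lit 0) (cs (rf (nat_lit 9)) (cs (rf (nat_lit 17)) (cs (nd (nat_lit 269) (nat_lit 0) (cs (rf (nat_lit 11)) (cs (rf (nat_lit 22)) (cs (rf (nat_lit 29)) (nd (nat_lit 268) (nat_lit 0) (cs (lf (nat_lit 41) (nat_lit 202)) (nd (nat_lit 267) (nat_lit 0) (cs (lf (nat_lit 12) (nat_lit 244)) (nd (nat_lit 202) (nat_lit 0) (cs (lf (nat_lit 47) (nat_lit 180)) (nd (nat_lit 270) (nat_lit 0) (cs (lf (nat_lit 29) (nat_lit 203)) (rf (nat_lit 25)))))))))))))) (nd (nat_lit 181) (nat_lit 0) (cs (rf (nat_lit 30)) (cs (rf (nat_lit 31)) (rf (nat_lit 32)))))))))))) (cs (rf (nat_lit 33)) (cs (rf (nat_lit 34)) (nd (nat_lit 248) (nat_lit 0) (cs (rf (nat_lit 1)) (cs (rf (nat_lit 2)) (nd (nat_lit 203) (nat_lit 0) (cs (rf (nat_lit 35)) (cs (rf (nat_lit 17)) (cs (nd (nat_lit 181) (nat_lit 0) (cs (rf (nat_lit 36)) (cs (rf (nat_lit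 37)) (rf (nat_lit 38))))) (nd (nat_lit 269) (nat_lit 0) (cs (rf (nat_lit 22)) (cs (rf (nat_lit 28)) (cs (rf (nat_lit 13)) (rf (nat_lit 39))))))))))))))))))))))))))) q51996 (by decide +kernel)
def q52039 : Q := Q.p (nat_lit 0x100003480000000010000040000000000000000000000000000000000000000000000) (nat_lit 0x50000fe000ff00037f0006f800034000bd0000f4000bf0000e0000180000000000000000000000000000000000) (nat_lit 14)
theorem c52039 : QOK q52039 := cut [q49083, q52004, q52005, q45097, q48606, q49120, q49444, q52006, q45536, q52009, q12030, q52038] ⟨c49083, c52004, c52005, c45097, c48606, c49120, c49444, c52006, c45536, c52009, c12030, c52038, trivial⟩ (nd (nat_lit 271) (nat_lit 0) (cs (rf (nat_lit 0)) (cs (rf (nat_lit 1)) (cs (rf (nat_lit 2)) (cs (nd (nat_lit 228) (nat_lit 0) (cs (rf (nat_lit 3)) (cs (rf (nat_lit 4)) (cs (rf (nat_lit 5)) (cs (rf (nat_lit 6)) (nd (nat_lit 249) (nat_lit 0) (cs (rf (nat_lit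 7)) (cs (nd (nat_lit 227) (nat_lit 0) (cs (rf (nat_lit 8)) (cs (rf (nat_lit 9)) (nd (nat_lit 293) (nat_lit 0) (cs (lf (nat_lit 30) (nat_lit 227)) (nd (nat_lit 204) (nat_lit 0) (cs (lf (nat_lit 46) (nat_lit 204)) (nd (nat_lit 294) (nat_lit 0) (cs (lf (nat_lit 42) (nat_lit 227)) (nd (nat_lit 207) (nat_lit 0) (cs (lf (nat_lit 34) (nat_lit 206)) (nd (nat_lit 292) (nat_lit 0) (cs (lf (nat_lit 41) (nat_lit 226)) (nd (nat_lit 291) (nat_lit 0) (cs (lf (nat_lit 12) (nat_lit 268)) (nd (nat_lit 269) (nat_lit 0) (cs (lf (nat_lit 23) (nat_lit 268)) (nd (nat_lit 313) (nat_lit 0) (cs (lf (nat_lit 11) (nat_lit 290)) (nd (nat_lit 246) (nat_lit 0) (cs (lf (nat_lit 20) (nat_lit 246)) (lf (nat_lit 47) (nat_lit 224))))))))))))))))))))))) (cs (nd (nat_lit 293) (nat_lit 0) (cs (lf (nat_lit 30) (nat_lit 227)) (nd (nat_lit 229) (nat_lit 0) (cs (lf (nat_lit 13) (nat_lit 225)) (nd (nat_lit 207) (nat_lit 0) (cs (lf (nat_lit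 30) (nat_lit 206)) (nd (nat_lit 227) (nat_lit 0) (cs (lf (nat_lit 12) (nat_lit 204)) (nd (nat_lit 163) (nat_lit 0) (cs (lf (nat_lit 37) (nat_lit 162)) (nd (nat_lit 205) (nat_lit 0) (cs (lf (nat_lit 24) (nat_lit 183)) (rf (nat_lit 10)))))))))))))) (nd (nat_lit 227) (nat_lit 0) (cs (rf (nat_lit 8)) (cs (rf (nat_lit 9)) (nd (nat_lit 294) (nat_lit 0) (cs (lf (nat_lit 42) (nat_lit 227)) (nd (nat_lit 293) (nat_lit 0) (cs (lf (nat_lit 41) (nat_lit 227)) (nd (nat_lit 204) (nat_lit 0) (cs (lf (nat_lit 46) (nat_lit 204)) (nd (nat_lit 292) (nat_lit 0) (cs (lf (nat_lit 41) (nat_lit 226)) (nd (nat_lit 246) (nat_lit 0) (cs (nd (nat_lit 291) (nat_lit 0) (cs (lf (nat_lit 12) (nat_lit 268)) (nd (nat_lit 269) (nat_lit 0) (cs (lf (nat_lit 23) (nat_lit 268)) (lf (nat_lit 20) (nat_lit 246)))))) (lf (nat_lit 14) (nat_lit 224)))))))))))))))))))))))) (rf (nat_lit 11))))))) q52039 (by decide +kernel)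
def q52080 : Q := Q.p (nat_lit 0x100003480000000000000040000000000000000000000000000000000000000000000) (nat_lit 0x240000fc0003f00007c000ef0000360003f0000dc000bf0000fc0000a0000000000000000000000000000000000) (nat_lit 12)
theorem c52080 : QOK q52080 := cut [q48696, q48704, q48702, q48711, q48836, q48839, q48842, q48844, q48851, q52004, q52038, q45320, q49444, q50099, q52041, q45192, q49110, q48953, q52044, q52054, q48954, q52058, q52062, q52066, q979, q52073, q46567] ⟨c48696, c48704, c48702, c48711, c48836, c48839, c48842, c48844, c48851, c52004, c52038, c45320, c49444, c50099, c52041, c45192, c49110, c48953, c52044, c52054, c48954, c52058, c52062, c52066, c979, c52073, c46567, trivial⟩ (nd (nat_lit 271) (nat_lit 0) (cs (nd (nat_lit 293) (nat_lit 0) (cs (rf (nat_lit 0)) (cs (nd (nat_lit 291) (nat_lit 0) (cs (rf (nat_lit 1)) (cs (nd (nat_lit 269) (nat_lit 0) (cs (rf (nat_lit 2)) (cs (rf (nat_lit 3))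 (cs (nd (nat_lit 273) (nat_lit 0) (cs (lf (nat_lit 15) (nat_lit 249)) (nd (nat_lit 206) (nat_lit 0) (cs (lf (nat_lit 37) (nat_lit 205)) (rf (nat_lit 4)))))) (rf (nat_lit 5)))))) (cs (nd (nat_lit 206) (nat_lit 0) (cs (lf (nat_lit 37) (nat_lit 205)) (rf (nat_lit 6)))) (nd (nat_lit 290) (nat_lit 0) (cs (nd (nat_lit 206) (nat_lit 0) (cs (lf (nat_lit 37) (nat_lit 205)) (rf (nat_lit 7)))) (lf (nat_lit 14) (nat_lit 268)))))))) (nd (nat_lit 315) (nat_lit 0) (cs (lf (nat_lit 30) (nat_lit 249)) (nd (nat_lit 291) (nat_lit 0) (cs (rf (nat_lit 1)) (cs (rf (nat_lit 6)) (rf (nat_lit 8)))))))))) (cs (rf (nat_lit 9)) (cs (rf (nat_lit 10)) (cs (nd (nat_lit 249) (nat_lit 0) (cs (rf (nat_lit 11)) (cs (nd (nat_lit 228) (nat_lit 0) (cs (rf (nat_lit 12)) (cs (rf (nat_lit 13)) (cs (nd (nat_lit 273) (nat_lit 0) (cs (lf (nat_lit 15) (nat_lit 249)) (nd (nat_lit 206) (nat_lit 0) (cs (lf (nat_lit 36) (nat_lit 183)) (rf (nat_lit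 14)))))) (nd (nat_lit 294) (nat_lit 0) (cs (rf (nat_lit 15)) (cs (rf (nat_lit 16)) (nd (nat_lit 293) (nat_lit 0) (cs (rf (nat_lit 17)) (nd (nat_lit 207) (nat_lit 0) (cs (lf (nat_lit 34) (nat_lit 206)) (nd (nat_lit 273) (nat_lit 0) (cs (lf (nat_lit 15) (nat_lit 249)) (nd (nat_lit 292) (nat_lit 0) (cs (lf (nat_lit 12) (nat_lit 269)) (nd (nat_lit 227) (nat_lit 0) (cs (lf (nat_lit 41) (nat_lit 226)) (rf (nat_lit 18))))))))))))))))))) (rf (nat_lit 19))))) (nd (nat_lit 293) (nat_lit 0) (cs (rf (nat_lit 20)) (cs (nd (nat_lit 248) (nat_lit 0) (cs (rf (nat_lit 21)) (cs (nd (nat_lit 228) (nat_lit 0) (cs (lf (nat_lit 36) (nat_lit 205)) (nd (nat_lit 229) (nat_lit 0) (cs (lf (nat_lit 14) (nat_lit 225)) (nd (nat_lit 226) (nat_lit 0) (cs (lf (nat_lit 8) (nat_lit 225)) (rf (nat_lit 22)))))))) (cs (nd (nat_lit 226) (nat_lit 0) (cs (rf (nat_lit 22)) (cs (nd (nat_lit 228) (nat_lit 0) (cs (lf (nat_lit 36) (nat_lit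 205)) (nd (nat_lit 227) (nat_lit 0) (cs (lf (nat_lit 6) (nat_lit 225)) (rf (nat_lit 23)))))) (nd (nat_lit 206) (nat_lit 0) (cs (lf (nat_lit 37) (nat_lit 205)) (nd (nat_lit 204) (nat_lit 0) (cs (lf (nat_lit 27) (nat_lit 204)) (nd (nat_lit 182) (nat_lit 0) (cs (rf (nat_lit 24)) (lf (nat_lit 41) (nat_lit 181))))))))))) (nd (nat_lit 249) (nat_lit 0) (cs (lf (nat_lit 0) (nat_lit 246)) (rf (nat_lit 25)))))))) (nd (nat_lit 315) (nat_lit 0) (cs (lf (nat_lit 30) (nat_lit 249)) (nd (nat_lit 249) (nat_lit 0) (cs (rf (nat_lit 26)) (nd (nat_lit 248) (nat_lit 0) (cs (lf (nat_lit 0) (nat_lit 246)) (lf (nat_lit 47) (nat_lit 226)))))))))))))))) q52080 (by decide +kernel)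
def q52264 : Q := Q.p (nat_lit 0x100003480000000000000000000000000000000000000000000000000000000000000) (nat_lit 0xc4000ff8001fe0007f8006ff0003780017f0007f8000fe0003f80002a000000000000000000000000000000000) (nat_lit 14)
theorem c52264 : QOK q52264 := cut [q52191, q52192, q52082, q52083, q52106, q52214, q51303, q46881, q52117, q52220, q51310, q52229, q46589, q46743, q52131, q52245, q51299, q47248, q52164, q52160, q52193, q52194, q52241, q52242, q52243, q52244, q49711, q50070, q52257] ⟨c52191, c52192, c52082, c52083, c52106, c52214, c51303, c46881, c52117, c52220, c51310, c52229, c46589, c46743, c52131, c52245, c51299, c47248, c52164, c52160, c52193, c52194, c52241, c52242, c52243, c52244, c49711, c50070, c52257, trivial⟩ (nd (nat_lit 248) (nat_lit 0) (cs (rf (nat_lit 0)) (cs (rf (nat_lit 1)) (cs (nd (nat_lit 270) (nat_lit 0) (cs (rf (nat_lit 2)) (cs (nd (nat_lit 292) (nat_lit 0) (cs (rf (nat_lit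 3)) (cs (rf (nat_lit 4)) (nd (nat_lit 293) (nat_lit 0) (cs (nd (nat_lit 315) (nat_lit 0) (cs (lf (nat_lit 24) (nat_lit 226)) (nd (nat_lit 337) (nat_lit 0) (cs (lf (nat_lit 42) (nat_lit 270)) (nd (nat_lit 294) (nat_lit 0) (cs (lf (nat_lit 36) (nat_lit 227)) (lf (nat_lit 39) (nat_lit 249)))))))) (cs (nd (nat_lit 271) (nat_lit 0) (cs (lf (nat_lit 18) (nat_lit 247)) (nd (nat_lit 245) (nat_lit 0) (cs (lf (nat_lit 1) (nat_lit 245)) (nd (nat_lit 291) (nat_lit 0) (cs (lf (nat_lit 12) (nat_lit 268)) (nd (nat_lit 226) (nat_lit 0) (cs (lf (nat_lit 24) (nat_lit 204)) (lf (nat_lit 41) (nat_lit 225)))))))))) (nd (nat_lit 271) (nat_lit 0) (cs (lf (nat_lit 18) (nat_lit 247)) (nd (nat_lit 245) (nat_lit 0) (cs (lf (nat_lit 1) (nat_lit 245)) (nd (nat_lit 290) (nat_lit 0) (cs (lf (nat_lit 13) (nat_lit 268)) (rf (nat_lit 5)))))))))))))) (cs (nd (nat_lit 292) (nat_lit 0) (cs (rf (nat_lit 6)) (cs (rf (nat_lit 3)) (cs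 (nd (nat_lit 314) (nat_lit 0) (cs (rf (nat_lit 7)) (cs (rf (nat_lit 8)) (nd (nat_lit 313) (nat_lit 0) (cs (lf (nat_lit 41) (nat_lit 247)) (nd (nat_lit 269) (nat_lit 0) (cs (lf (nat_lit 42) (nat_lit 247)) (nd (nat_lit 291) (nat_lit 0) (cs (lf (nat_lit 35) (nat_lit 225)) (nd (nat_lit 224) (nat_lit 0) (cs (lf (nat_lit 46) (nat_lit 224)) (nd (nat_lit 312) (nat_lit 0) (cs (lf (nat_lit 41) (nat_lit 246)) (rf (nat_lit 9))))))))))))))) (nd (nat_lit 226) (nat_lit 0) (cs (rf (nat_lit 10)) (cs (nd (nat_lit 291) (nat_lit 0) (cs (lf (nat_lit 41) (nat_lit 225)) (nd (nat_lit 204) (nat_lit 0) (cs (lf (nat_lit 40) (nat_lit 203)) (rf (nat_lit 11)))))) (cs (nd (nat_lit 204) (nat_lit 0) (cs (rf (nat_lit 12)) (cs (rf (nat_lit 13)) (cs (rf (nat_lit 11)) (nd (nat_lit 293) (nat_lit 0) (cs (lf (nat_lit 29) (nat_lit 226)) (nd (nat_lit 183) (nat_lit 0) (cs (lf (nat_lit 34) (nat_lit 182)) (nd (nat_lit 182) (nat_lit 0) (cs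 (lf (nat_lit 35) (nat_lit 160)) (nd (nat_lit 225) (nat_lit 0) (cs (lf (nat_lit 47) (nat_lit 203)) (lf (nat_lit 36) (nat_lit 159)))))))))))))) (nd (nat_lit 291) (nat_lit 0) (cs (lf (nat_lit 41) (nat_lit 225)) (nd (nat_lit 225) (nat_lit 0) (cs (lf (nat_lit 47) (nat_lit 203)) (rf (nat_lit 14)))))))))))))) (cs (rf (nat_lit 15)) (nd (nat_lit 271) (nat_lit 0) (cs (rf (nat_lit 16)) (nd (nat_lit 293) (nat_lit 0) (cs (rf (nat_lit 5)) (cs (nd (nat_lit 269) (nat_lit 0) (cs (rf (nat_lit 17)) (cs (rf (nat_lit 18)) (nd (nat_lit 204) (nat_lit 0) (cs (nd (nat_lit 268) (nat_lit 0) (cs (lf (nat_lit 5) (nat_lit 268)) (rf (nat_lit 19)))) (lf (nat_lit 25) (nat_lit 204))))))) (nd (nat_lit 226) (nat_lit 0) (cs (lf (nat_lit 24) (nat_lit 204)) (nd (nat_lit 315) (nat_lit 0) (cs (lf (nat_lit 30) (nat_lit 249)) (lf (nat_lit 27) (nat_lit 226)))))))))))))))) (nd (nat_lit 246) (nat_lit 0) (cs (rf (nat_lit 20)) (cs (rf (nat_lit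 21)) (cs (nd (nat_lit 270) (nat_lit 0) (cs (rf (nat_lit 22)) (cs (rf (nat_lit 23)) (cs (rf (nat_lit 24)) (rf (nat_lit 25)))))) (nd (nat_lit 245) (nat_lit 0) (cs (rf (nat_lit 26)) (cs (rf (nat_lit 27)) (cs (nd (nat_lit 266) (nat_lit 0) (cs (lf (nat_lit 10) (nat_lit 244)) (nd (nat_lit 244) (nat_lit 0) (cs (lf (nat_lit 11) (nat_lit 243)) (rf (nat_lit 28)))))) (nd (nat_lit 222) (nat_lit 0) (cs (lf (nat_lit 22) (nat_lit 222)) (nd (nat_lit 244) (nat_lit 0) (cs (lf (nat_lit 23) (nat_lit 221)) (rf (nat_lit 28)))))))))))))))))) q52264 (by decide +kernel)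
def q52443 : Q := Q.p (nat_lit 0x100000400000000010000040000000000000000000000000000000000000000000000) (nat_lit 0xa0001ff0007f8003ae0000200003e0000f8000bf0000e0000380000200000000000000000000000000000) (nat_lit 13)
theorem c52443 : QOK q52443 := cut [q44523, q44536, q44918, q45097, q44492, q44515, q44517, q45232] ⟨c44523, c44536, c44918, c45097, c44492, c44515, c44517, c45232, trivial⟩ (nd (nat_lit 228) (nat_lit 0) (cs (rf (nat_lit 0)) (cs (rf (nat_lit 1)) (cs (rf (nat_lit 2)) (cs (rf (nat_lit 3)) (nd (nat_lit 294) (nat_lit 0) (cs (rf (nat_lit 4)) (cs (rf (nat_lit 5)) (cs (rf (nat_lit 6)) (nd (nat_lit 295) (nat_lit 0) (cs (lf (nat_lit 29) (nat_lit 228)) (nd (nat_lit 270) (nat_lit 0) (cs (nd (nat_lit 293) (nat_lit 0) (cs (lf (nat_lit 41) (nat_lit 227)) (nd (nat_lit 269) (nat_lit 0) (cs (lf (nat_lit 21) (nat_lit 269)) (lf (nat_lit 2) (nat_lit 269)))))) (cs (nd (nat_lit 205) (nat_lit 0) (cs (lf (nat_lit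 46) (nat_lit 205)) (nd (nat_lit 207) (nat_lit 0) (cs (lf (nat_lit 34) (nat_lit 206)) (nd (nat_lit 293) (nat_lit 0) (cs (lf (nat_lit 41) (nat_lit 227)) (nd (nat_lit 292) (nat_lit 0) (cs (lf (nat_lit 23) (nat_lit 269)) (nd (nat_lit 313) (nat_lit 0) (cs (lf (nat_lit 10) (nat_lit 291)) (nd (nat_lit 291) (nat_lit 0) (cs (lf (nat_lit 11) (nat_lit 290)) (lf (nat_lit 17) (nat_lit 269)))))))))))))) (cs (nd (nat_lit 205) (nat_lit 0) (cs (lf (nat_lit 46) (nat_lit 205)) (nd (nat_lit 207) (nat_lit 0) (cs (lf (nat_lit 34) (nat_lit 206)) (nd (nat_lit 271) (nat_lit 0) (cs (lf (nat_lit 0) (nat_lit 269)) (nd (nat_lit 296) (nat_lit 0) (cs (lf (nat_lit 18) (nat_lit 271)) (lf (nat_lit 3) (nat_lit 270)))))))))) (nd (nat_lit 205) (nat_lit 0) (cs (lf (nat_lit 46) (nat_lit 205)) (nd (nat_lit 207) (nat_lit 0) (cs (lf (nat_lit 34) (nat_lit 206)) (nd (nat_lit 293) (nat_lit 0) (cs (lf (nat_lit 41) (nat_lit 227)) (rf (nat_lit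 7))))))))))))))))))))))) q52443 (by decide +kernel)
def q52864 : Q := Q.p (nat_lit 0x10000000000080000e00002000000000010000000000000000000000000000000000000000000000000000) (nat_lit 0x140000f4000ffc003ee000fbc007f0000f000038c00007000004000000000000000000000000000000000000000000000000000) (nat_lit 14)
theorem c52864 : QOK q52864 := cut [q25385, q52781, q52704, q52785, q52798, q25335, q52803, q52720, q14835, q52669, q52795, q15557, q15561, q15565, q52830, q25938, q15588, q52710, q52735, q52840, q52861] ⟨c25385, c52781, c52704, c52785, c52798, c25335, c52803, c52720, c14835, c52669, c52795, c15557, c15561, c15565, c52830, c25938, c15588, c52710, c52735, c52840, c52861, trivial⟩ (nd (nat_lit 339) (nat_lit 0) (cs (rf (nat_lit 0)) (cs (rf (nat_lit 1)) (cs (nd (nat_lit 338) (nat_lit 0) (cs (rf (nat_lit 2)) (cs (nd (nat_lit 341) (nat_lit 0) (cs (nd (nat_lit 363) (nat_lit 0) (cs (lf (nat_lit 5) (nat_lit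 338)) (nd (nat_lit 320) (nat_lit 0) (cs (lf (nat_lit 16) (nat_lit 316)) (nd (nat_lit 342) (nat_lit 0) (cs (lf (nat_lit 17) (nat_lit 317)) (nd (nat_lit 276) (nat_lit 0) (cs (lf (nat_lit 37) (nat_lit 275)) (rf (nat_lit 3)))))))))) (cs (nd (nat_lit 319) (nat_lit 0) (cs (lf (nat_lit 17) (nat_lit 316)) (nd (nat_lit 316) (nat_lit 0) (cs (lf (nat_lit 23) (nat_lit 315)) (nd (nat_lit 363) (nat_lit 0) (cs (lf (nat_lit 5) (nat_lit 338)) (nd (nat_lit 296) (nat_lit 0) (cs (lf (nat_lit 45) (nat_lit 274)) (nd (nat_lit 317) (nat_lit 0) (cs (lf (nat_lit 30) (nat_lit 273)) (lf (nat_lit 36) (nat_lit 250)))))))))))) (cs (nd (nat_lit 315) (nat_lit 0) (cs (lf (nat_lit 22) (nat_lit 315)) (nd (nat_lit 314) (nat_lit 0) (cs (lf (nat_lit 21) (nat_lit 314)) (rf (nat_lit 4)))))) (nd (nat_lit 363) (nat_lit 0) (cs (lf (nat_lit 5) (nat_lit 338)) (rf (nat_lit 5)))))))) (cs (rf (nat_lit 6)) (nd (nat_lit 341) (nat_lit 0) (cs (rf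 (nat_lit 7)) (rf (nat_lit 4)))))))) (cs (nd (nat_lit 317) (nat_lit 0) (cs (lf (nat_lit 29) (nat_lit 273)) (nd (nat_lit 296) (nat_lit 0) (cs (lf (nat_lit 30) (nat_lit 273)) (rf (nat_lit 8)))))) (nd (nat_lit 276) (nat_lit 0) (cs (rf (nat_lit 9)) (cs (rf (nat_lit 10)) (cs (nd (nat_lit 342) (nat_lit 0) (cs (rf (nat_lit 11)) (cs (nd (nat_lit 298) (nat_lit 0) (cs (lf (nat_lit 43) (nat_lit 253)) (nd (nat_lit 250) (nat_lit 0) (cs (lf (nat_lit 22) (nat_lit 250)) (nd (nat_lit 277) (nat_lit 0) (cs (lf (nat_lit 10) (nat_lit 273)) (rf (nat_lit 12)))))))) (cs (nd (nat_lit 341) (nat_lit 0) (cs (nd (nat_lit 277) (nat_lit 0) (cs (lf (nat_lit 10) (nat_lit 273)) (nd (nat_lit 361) (nat_lit 0) (cs (lf (nat_lit 11) (nat_lit 338)) (nd (nat_lit 255) (nat_lit 0) (cs (lf (nat_lit 17) (nat_lit 252)) (nd (nat_lit 343) (nat_lit 0) (cs (lf (nat_lit 10) (nat_lit 339)) (nd (nat_lit 366) (nat_lit 0) (cs (lf (nat_lit 4) (nat_lit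 340)) (nd (nat_lit 250) (nat_lit 0) (cs (lf (nat_lit 22) (nat_lit 250)) (rf (nat_lit 13)))))))))))))) (cs (rf (nat_lit 14)) (cs (nd (nat_lit 364) (nat_lit 0) (cs (lf (nat_lit 5) (nat_lit 339)) (nd (nat_lit 338) (nat_lit 0) (cs (lf (nat_lit 4) (nat_lit 338)) (nd (nat_lit 315) (nat_lit 0) (cs (lf (nat_lit 22) (nat_lit 315)) (nd (nat_lit 297) (nat_lit 0) (cs (lf (nat_lit 26) (nat_lit 275)) (rf (nat_lit 15)))))))))) (nd (nat_lit 277) (nat_lit 0) (cs (lf (nat_lit 10) (nat_lit 273)) (rf (nat_lit 16)))))))) (cs (nd (nat_lit 341) (nat_lit 0) (cs (rf (nat_lit 17)) (cs (rf (nat_lit 18)) (rf (nat_lit 14))))) (nd (nat_lit 277) (nat_lit 0) (cs (lf (nat_lit 10) (nat_lit 273)) (nd (nat_lit 255) (nat_lit 0) (cs (lf (nat_lit 17) (nat_lit 252)) (nd (nat_lit 250) (nat_lit 0) (cs (lf (nat_lit 22) (nat_lit 250)) (nd (nat_lit 320) (nat_lit 0) (cs (lf (nat_lit 32) (nat_lit 254)) (nd (nat_lit 341) (nat_lit 0) (cs (lf (nat_lit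 17) (nat_lit 317)) (nd (nat_lit 319) (nat_lit 0) (cs (lf (nat_lit 12) (nat_lit 316)) (rf (nat_lit 19))))))))))))))))))) (nd (nat_lit 298) (nat_lit 0) (cs (lf (nat_lit 5) (nat_lit 273)) (rf (nat_lit 20))))))))))))) q52864 (by decide +kernel)
def q53058 : Q := Q.p (nat_lit 0xe00000000000000000000000000000000000000000000000000000000000000000000) (nat_lit 0x2000028003bf00071e0038fc0001000004000000000000000000000000000000000000000000000000000) (nat_lit 10)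
theorem c53058 : QOK q53058 := cut [q22120, q53050, q53051, q22124] ⟨c22120, c53050, c53051, c22124, trivial⟩ (nd (nat_lit 250) (nat_lit 0) (cs (rf (nat_lit 0)) (cs (rf (nat_lit 1)) (cs (rf (nat_lit 2)) (nd (nat_lit 272) (nat_lit 0) (cs (lf (nat_lit 23) (nat_lit 249)) (nd (nat_lit 293) (nat_lit 0) (cs (lf (nat_lit 10) (nat_lit 271)) (nd (nat_lit 271) (nat_lit 0) (cs (lf (nat_lit 11) (nat_lit 270)) (nd (nat_lit 315) (nat_lit 0) (cs (lf (nat_lit 30) (nat_lit 249)) (nd (nat_lit 296) (nat_lit 0) (cs (lf (nat_lit 5) (nat_lit 271)) (nd (nat_lit 270) (nat_lit 0) (cs (lf (nat_lit 4) (nat_lit 270)) (rf (nat_lit 3)))))))))))))))))) q53058 (by decide +kernel)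
def q53062 : Q := Q.p (nat_lit 0xe00000000000000000000000000000000000000000000000000000000000000000000) (nat_lit 0x80000200039f00071e0038fc0001000004000000000000000000000000000000000000000000000000000) (nat_lit 9)
theorem c53062 : QOK q53062 := cut [q22120, q53050, q53051, q22121, q22127, q53059] ⟨c22120, c53050, c53051, c22121, c22127, c53059, trivial⟩ (nd (nat_lit 250) (nat_lit 0) (cs (rf (nat_lit 0)) (cs (rf (nat_lit 1)) (cs (rf (nat_lit 2)) (nd (nat_lit 272) (nat_lit 0) (cs (lf (nat_lit 23) (nat_lit 249)) (nd (nat_lit 295) (nat_lit 0) (cs (rf (nat_lit 3)) (cs (rf (nat_lit 4)) (rf (nat_lit 5))))))))))) q53062 (by decide +kernel)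
def q53930 : Q := Q.p (nat_lit 0x10000000000000000c00002000000000000000000000000000000000000000000000000000000000000000) (nat_lit 0x10001fc000ff0007fc00fffc01fee00fffc01fef00ff380078f001e0000700000400000000000000000000000000000000000000000000000) (nat_lit 16)
theorem c53930 : QOK q53930 := cut [q53359, q53403, q53404, q53411, q53417, q53409, q53426, q53440, q25476, q53441, q53446, q53449, q53509, q53606, q53628, q53660, q53705, q53706, q53707, q53415, q53713, q53714, q53745, q53852, q53152, q53159, q53599, q53605, q53662, q14414, q53513, q43179, q53008, q53175, q53174, q53486, q52939, q53550, q53864, q52941, q52959, q53654, q53658, q53659, q22741, q25479, q53878, q53905, q53918, q53926, q53173, q53177, q53612, q53909] ⟨c53359, c53403, c53404, c53411, c53417, c53409, c53426, c53440, c25476, c53441, c53446, c53449, c53509, c53606, c53628, c53660, c53705, c53706, c53707, c53415, c53713, c53714, c53745,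 c53852, c53152, c53159, c53599, c53605, c53662, c14414, c53513, c43179, c53008, c53175, c53174, c53486, c52939, c53550, c53864, c52941, c52959, c53654, c53658, c53659, c22741, c25479, c53878, c53905, c53918, c53926, c53173, c53177, c53612, c53909, trivial⟩ (nd (nat_lit 342) (nat_lit 0) (cs (rf (nat_lit 0)) (cs (rf (nat_lit 1)) (cs (nd (nat_lit 319) (nat_lit 0) (cs (rf (nat_lit 2)) (cs (rf (nat_lit 3)) (cs (rf (nat_lit 4)) (nd (nat_lit 341) (nat_lit 0) (cs (rf (nat_lit 5)) (cs (rf (nat_lit 6)) (cs (rf (nat_lit 7)) (cs (nd (nat_lit 339) (nat_lit 0) (cs (rf (nat_lit 8)) (cs (nd (nat_lit 361) (nat_lit 0) (cs (lf (nat_lit 11) (nat_lit 338)) (nd (nat_lit 343) (nat_lit 0) (cs (lf (nat_lit 10) (nat_lit 339)) (nd (nat_lit 365) (nat_lit 0) (cs (lf (nat_lit 5) (nat_lit 340)) (rf (nat_lit 9)))))))) (rf (nat_lit 10))))) (rf (nat_lit 11))))))))))) (cs (rf (nat_lit 12)) (cs (rf (nat_lit 13)) (cs (rf (nat_lit 14))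 (cs (rf (nat_lit 15)) (cs (rf (nat_lit 16)) (cs (nd (nat_lit 319) (nat_lit 0) (cs (rf (nat_lit 2)) (cs (rf (nat_lit 17)) (cs (rf (nat_lit 18)) (nd (nat_lit 341) (nat_lit 0) (cs (rf (nat_lit 5)) (cs (rf (nat_lit 19)) (cs (rf (nat_lit 11)) (cs (rf (nat_lit 20)) (rf (nat_lit 21))))))))))) (cs (rf (nat_lit 22)) (cs (rf (nat_lit 23)) (cs (nd (nat_lit 320) (nat_lit 0) (cs (rf (nat_lit 24)) (cs (rf (nat_lit 25)) (cs (rf (nat_lit 26)) (cs (rf (nat_lit 27)) (nd (nat_lit 321) (nat_lit 0) (cs (rf (nat_lit 28)) (cs (nd (nat_lit 319) (nat_lit 0) (cs (lf (nat_lit 26) (nat_lit 253)) (nd (nat_lit 318) (nat_lit 0) (cs (lf (nat_lit 11) (nat_lit 317)) (rf (nat_lit 29)))))) (cs (nd (nat_lit 319) (nat_lit 0) (cs (lf (nat_lit 26) (nat_lit 253)) (nd (nat_lit 339) (nat_lit 0) (cs (lf (nat_lit 14) (nat_lit 317)) (lf (nat_lit 9) (nat_lit 317)))))) (nd (nat_lit 319) (nat_lit 0) (cs (lf (nat_lit 26) (nat_lit 253)) (rf (nat_lit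 30))))))))))))) (cs (nd (nat_lit 320) (nat_lit 0) (cs (rf (nat_lit 24)) (cs (rf (nat_lit 25)) (cs (nd (nat_lit 341) (nat_lit 0) (cs (rf (nat_lit 31)) (cs (rf (nat_lit 32)) (rf (nat_lit 33))))) (cs (nd (nat_lit 341) (nat_lit 0) (cs (rf (nat_lit 34)) (cs (rf (nat_lit 35)) (cs (nd (nat_lit 343) (nat_lit 0) (cs (rf (nat_lit 36)) (rf (nat_lit 37)))) (nd (nat_lit 276) (nat_lit 0) (cs (lf (nat_lit 44) (nat_lit 253)) (rf (nat_lit 38)))))))) (nd (nat_lit 341) (nat_lit 0) (cs (rf (nat_lit 39)) (cs (rf (nat_lit 40)) (cs (rf (nat_lit 35)) (rf (nat_lit 38))))))))))) (cs (nd (nat_lit 341) (nat_lit 0) (cs (rf (nat_lit 32)) (cs (rf (nat_lit 5)) (cs (rf (nat_lit 41)) (cs (rf (nat_lit 42)) (cs (rf (nat_lit 43)) (nd (nat_lit 339) (nat_lit 0) (cs (rf (nat_lit 44)) (cs (rf (nat_lit 8)) (cs (rf (nat_lit 45)) (rf (nat_lit 46)))))))))))) (cs (rf (nat_lit 47)) (cs (rf (nat_lit 48)) (cs (rf (nat_lit 49)) (nd (nat_lit 320)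 (nat_lit 0) (cs (rf (nat_lit 24)) (cs (rf (nat_lit 25)) (cs (rf (nat_lit 50)) (cs (rf (nat_lit 51)) (nd (nat_lit 341) (nat_lit 0) (cs (rf (nat_lit 31)) (cs (rf (nat_lit 33)) (nd (nat_lit 343) (nat_lit 0) (cs (rf (nat_lit 37)) (cs (rf (nat_lit 52)) (rf (nat_lit 53))))))))))))))))))))))))))))))) q53930 (by decide +kernel)
def q55111 : Q := Q.p (nat_lit 0xe00002000000000010000000000000000000000000000000000000000000000000000) (nat_lit 0x1c0000700007f8007fc003ff800dfc0031c0001b00007c0002700005c000010000000000000000000000000000000000000000) (nat_lit 15)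
theorem c55111 : QOK q55111 := cut [q22194, q13407, q54918, q54923, q54927, q54931, q55081, q13408, q12717, q55084, q14824, q14837, q55099, q22729, q55102, q55104, q53968] ⟨c22194, c13407, c54918, c54923, c54927, c54931, c55081, c13408, c12717, c55084, c14824, c14837, c55099, c22729, c55102, c55104, c53968, trivial⟩ (nd (nat_lit 293) (nat_lit 0) (cs (nd (nat_lit 272) (nat_lit 0) (cs (lf (nat_lit 10) (nat_lit 271)) (rf (nat_lit 0)))) (cs (nd (nat_lit 271) (nat_lit 0) (cs (nd (nat_lit 252) (nat_lit 0) (cs (lf (nat_lit 13) (nat_lit 249)) (rf (nat_lit 1)))) (cs (nd (nat_lit 249) (nat_lit 0) (cs (nd (nat_lit 272) (nat_lit 0) (cs (lf (nat_lit 11) (nat_lit 270)) (lf (nat_lit 23) (nat_lit 248)))) (cs (nd (nat_lit 292) (nat_lit 0) (cs (nd (nat_lit 227) (nat_lit 0) (cs (lf (nat_lit 41) (nat_lit 226)) (nd (nat_lit 206) (nat_lit 0) (cs (lf (nat_lit 34) (nat_lit 205)) (nd (nat_lit 205) (nat_lit 0) (cs (lf (nat_lit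 40) (nat_lit 204)) (lf (nat_lit 35) (nat_lit 183)))))))) (lf (nat_lit 8) (nat_lit 270)))) (cs (nd (nat_lit 248) (nat_lit 0) (cs (rf (nat_lit 2)) (lf (nat_lit 20) (nat_lit 248)))) (nd (nat_lit 315) (nat_lit 0) (cs (rf (nat_lit 3)) (cs (rf (nat_lit 4)) (rf (nat_lit 5))))))))) (rf (nat_lit 6))))) (cs (nd (nat_lit 272) (nat_lit 0) (cs (lf (nat_lit 10) (nat_lit 271)) (rf (nat_lit 7)))) (cs (nd (nat_lit 295) (nat_lit 0) (cs (rf (nat_lit 8)) (cs (nd (nat_lit 317) (nat_lit 0) (cs (rf (nat_lit 9)) (cs (nd (nat_lit 318) (nat_lit 0) (cs (rf (nat_lit 10)) (cs (nd (nat_lit 230) (nat_lit 0) (cs (lf (nat_lit 38) (nat_lit 207)) (nd (nat_lit 251) (nat_lit 0) (cs (lf (nat_lit 33) (nat_lit 207)) (nd (nat_lit 316) (nat_lit 0) (cs (lf (nat_lit 41) (nat_lit 250)) (nd (nat_lit 315) (nat_lit 0) (cs (lf (nat_lit 23) (nat_lit 292)) (nd (nat_lit 336) (nat_lit 0) (cs (lf (nat_lit 10) (nat_lit 314)) (nd (nat_lit 314) (nat_lit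 0) (cs (lf (nat_lit 11) (nat_lit 313)) (lf (nat_lit 17) (nat_lit 292)))))))))))))) (cs (nd (nat_lit 230) (nat_lit 0) (cs (lf (nat_lit 38) (nat_lit 207)) (nd (nat_lit 251) (nat_lit 0) (cs (lf (nat_lit 33) (nat_lit 207)) (lf (nat_lit 29) (nat_lit 251)))))) (nd (nat_lit 296) (nat_lit 0) (cs (lf (nat_lit 30) (nat_lit 252)) (nd (nat_lit 276) (nat_lit 0) (cs (lf (nat_lit 6) (nat_lit 273)) (nd (nat_lit 298) (nat_lit 0) (cs (lf (nat_lit 5) (nat_lit 273)) (nd (nat_lit 252) (nat_lit 0) (cs (lf (nat_lit 36) (nat_lit 229)) (nd (nat_lit 320) (nat_lit 0) (cs (lf (nat_lit 42) (nat_lit 253)) (rf (nat_lit 11)))))))))))))))) (nd (nat_lit 340) (nat_lit 0) (cs (rf (nat_lit 12)) (cs (nd (nat_lit 339) (nat_lit 0) (cs (lf (nat_lit 29) (nat_lit 273)) (nd (nat_lit 296) (nat_lit 0) (cs (lf (nat_lit 30) (nat_lit 273)) (rf (nat_lit 13)))))) (cs (rf (nat_lit 14)) (rf (nat_lit 15))))))))) (cs (nd (nat_lit 294) (nat_lit 0) (cs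 (lf (nat_lit 15) (nat_lit 271)) (lf (nat_lit 6) (nat_lit 272)))) (nd (nat_lit 294) (nat_lit 0) (cs (lf (nat_lit 12) (nat_lit 270)) (lf (nat_lit 6) (nat_lit 272)))))))) (nd (nat_lit 294) (nat_lit 0) (cs (lf (nat_lit 9) (nat_lit 271)) (rf (nat_lit 16))))))))) q55111 (by decide +kernel)
def q55483 : Q := Q.p (nat_lit 0xc00002000000000010000000000000000000000000000000000000000000000000000) (nat_lit 0xa00003e0000fc0007f8003ff000ffc007ff8000380001e000078000260000d8000000000000000000000000000000000000000000000) (nat_lit 17)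
theorem c55483 : QOK q55483 := cut [q12652, q14310, q13603, q55131, q41764, q55306, q55311, q15839, q43930, q55321, q14305, q25764, q45109, q41480, q55328, q55330, q15073, q2050, q55441, q25847, q2049, q48352, q14914, q25883, q55442, q55449, q55482] ⟨c12652, c14310, c13603, c55131, c41764, c55306, c55311, c15839, c43930, c55321, c14305, c25764, c45109, c41480, c55328, c55330, c15073, c2050, c55441, c25847, c2049, c48352, c14914, c25883, c55442, c55449, c55482, trivial⟩ (nd (nat_lit 252) (nat_lit 0) (cs (rf (nat_lit 0)) (cs (nd (nat_lit 272) (nat_lit 0) (cs (rf (nat_lit 1)) (cs (nd (nat_lit 294) (nat_lit 0) (cs (nd (nat_lit 318) (nat_lit 0) (cs (nd (nat_lit 319) (nat_lit 0) (cs (rf (nat_lit 2)) (cs (rf (nat_lit 3)) (nd (nat_lit 317) (nat_lit 0) (cs (nd (nat_lit 293) (nat_lit 0) (cs (lf (nat_lit 21) (nat_lit 293)) (nd (nat_lit 295) (nat_lit 0) (cs (lf (nat_lit 18) (nat_lit 294)) (lf (nat_lit 0) (nat_lit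 292)))))) (cs (nd (nat_lit 320) (nat_lit 0) (cs (lf (nat_lit 22) (nat_lit 294)) (nd (nat_lit 342) (nat_lit 0) (cs (lf (nat_lit 5) (nat_lit 317)) (rf (nat_lit 4)))))) (nd (nat_lit 316) (nat_lit 0) (cs (lf (nat_lit 23) (nat_lit 293)) (nd (nat_lit 250) (nat_lit 0) (cs (lf (nat_lit 29) (nat_lit 250)) (nd (nat_lit 337) (nat_lit 0) (cs (lf (nat_lit 10) (nat_lit 315)) (lf (nat_lit 40) (nat_lit 249)))))))))))))) (cs (nd (nat_lit 296) (nat_lit 0) (cs (lf (nat_lit 30) (nat_lit 252)) (nd (nat_lit 317) (nat_lit 0) (cs (lf (nat_lit 41) (nat_lit 251)) (rf (nat_lit 5)))))) (cs (nd (nat_lit 296) (nat_lit 0) (cs (nd (nat_lit 317) (nat_lit 0) (cs (lf (nat_lit 41) (nat_lit 251)) (nd (nat_lit 293) (nat_lit 0) (cs (lf (nat_lit 14) (nat_lit 271)) (nd (nat_lit 319) (nat_lit 0) (cs (lf (nat_lit 29) (nat_lit 252)) (lf (nat_lit 21) (nat_lit 293)))))))) (cs (rf (nat_lit 5)) (cs (rf (nat_lit 6)) (nd (nat_lit 317) (nat_lit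 0) (cs (lf (nat_lit 41) (nat_lit 251)) (nd (nat_lit 229) (nat_lit 0) (cs (lf (nat_lit 46) (nat_lit 229)) (nd (nat_lit 319) (nat_lit 0) (cs (lf (nat_lit 29) (nat_lit 252)) (rf (nat_lit 7)))))))))))) (cs (nd (nat_lit 296) (nat_lit 0) (cs (lf (nat_lit 30) (nat_lit 252)) (nd (nat_lit 229) (nat_lit 0) (cs (lf (nat_lit 46) (nat_lit 229)) (nd (nat_lit 319) (nat_lit 0) (cs (lf (nat_lit 29) (nat_lit 252)) (nd (nat_lit 295) (nat_lit 0) (cs (lf (nat_lit 0) (nat_lit 293)) (rf (nat_lit 8)))))))))) (cs (nd (nat_lit 296) (nat_lit 0) (cs (lf (nat_lit 30) (nat_lit 252)) (nd (nat_lit 319) (nat_lit 0) (cs (lf (nat_lit 29) (nat_lit 252)) (rf (nat_lit 9)))))) (nd (nat_lit 296) (nat_lit 0) (cs (lf (nat_lit 30) (nat_lit 252)) (rf (nat_lit 6)))))))))) (cs (nd (nat_lit 250) (nat_lit 0) (cs (rf (nat_lit 10)) (cs (rf (nat_lit 11)) (cs (nd (nat_lit 316) (nat_lit 0) (cs (rf (nat_lit 12)) (cs (nd (nat_lit 251) (nat_lit 0) (cs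 (lf (nat_lit 35) (nat_lit 228)) (nd (nat_lit 228) (nat_lit 0) (cs (lf (nat_lit 23) (nat_lit 227)) (rf (nat_lit 13)))))) (rf (nat_lit 14))))) (rf (nat_lit 15)))))) (cs (nd (nat_lit 250) (nat_lit 0) (cs (rf (nat_lit 10)) (cs (rf (nat_lit 11)) (cs (rf (nat_lit 15)) (nd (nat_lit 293) (nat_lit 0) (cs (lf (nat_lit 8) (nat_lit 271)) (nd (nat_lit 228) (nat_lit 0) (cs (lf (nat_lit 41) (nat_lit 227)) (rf (nat_lit 16)))))))))) (nd (nat_lit 273) (nat_lit 0) (cs (lf (nat_lit 11) (nat_lit 271)) (rf (nat_lit 17)))))))) (cs (rf (nat_lit 18)) (nd (nat_lit 297) (nat_lit 0) (cs (rf (nat_lit 19)) (cs (nd (nat_lit 294) (nat_lit 0) (cs (rf (nat_lit 20)) (rf (nat_lit 21)))) (nd (nat_lit 296) (nat_lit 0) (cs (rf (nat_lit 22)) (cs (rf (nat_lit 23)) (cs (nd (nat_lit 319) (nat_lit 0) (cs (lf (nat_lit 42) (nat_lit 252)) (nd (nat_lit 318) (nat_lit 0) (cs (lf (nat_lit 30) (nat_lit 252)) (rf (nat_lit 24)))))) (nd (nat_lit 318)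 (nat_lit 0) (cs (lf (nat_lit 30) (nat_lit 252)) (rf (nat_lit 25))))))))))))))) (rf (nat_lit 26))))) q55483 (by decide +kernel)
def q56030 : Q := Q.p (nat_lit 0xc00002000000000010000000000000000000000000000000000000000000000000000) (nat_lit 0x700007c000ffe001ff000ffe007df801f3c00f9f001fb0007e4003fe0001e0000700001c000040000000000000000000000000) (nat_lit 17)
theorem c56030 : QOK q56030 := cut [q22607, q55283, q55825, q13240, q13258, q15625, q55839, q25398, q55851, q24876, q25390, q24867, q55945, q56028, q56029] ⟨c22607, c55283, c55825, c13240, c13258, c15625, c55839, c25398, c55851, c24876, c25390, c24867, c55945, c56028, c56029, trivial⟩ (nd (nat_lit 276) (nat_lit 0) (cs (rf (nat_lit 0)) (cs (rf (nat_lit 1)) (cs (rf (nat_lit 2)) (cs (nd (nat_lit 273) (nat_lit 0) (cs (rf (nat_lit 3)) (cs (rf (nat_lit 4)) (cs (rf (nat_lit 5)) (cs (nd (nat_lit 318) (nat_lit 0) (cs (rf (nat_lit 6)) (cs (nd (nat_lit 295)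 (nat_lit 0) (cs (rf (nat_lit 7)) (rf (nat_lit 8)))) (cs (nd (nat_lit 294) (nat_lit 0) (cs (lf (nat_lit 10) (nat_lit 272)) (nd (nat_lit 272) (nat_lit 0) (cs (lf (nat_lit 11) (nat_lit 271)) (nd (nat_lit 252) (nat_lit 0) (cs (lf (nat_lit 12) (nat_lit 249)) (rf (nat_lit 9)))))))) (cs (nd (nat_lit 340) (nat_lit 0) (cs (lf (nat_lit 32) (nat_lit 252)) (nd (nat_lit 295) (nat_lit 0) (cs (lf (nat_lit 11) (nat_lit 272)) (nd (nat_lit 298) (nat_lit 0) (cs (lf (nat_lit 5) (nat_lit 273)) (nd (nat_lit 320) (nat_lit 0) (cs (lf (nat_lit 42) (nat_lit 253)) (nd (nat_lit 209) (nat_lit 0) (cs (lf (nat_lit 25) (nat_lit 209)) (rf (nat_lit 10)))))))))))) (nd (nat_lit 294) (nat_lit 0) (cs (lf (nat_lit 10) (nat_lit 272)) (nd (nat_lit 272) (nat_lit 0) (cs (lf (nat_lit 11) (nat_lit 271)) (nd (nat_lit 252) (nat_lit 0) (cs (lf (nat_lit 12) (nat_lit 249)) (rf (nat_lit 11))))))))))))) (cs (nd (nat_lit 295) (nat_lit 0) (cs (lf (nat_lit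 11) (nat_lit 272)) (nd (nat_lit 318) (nat_lit 0) (cs (rf (nat_lit 6)) (cs (rf (nat_lit 8)) (cs (nd (nat_lit 251) (nat_lit 0) (cs (lf (nat_lit 23) (nat_lit 250)) (nd (nat_lit 298) (nat_lit 0) (cs (lf (nat_lit 5) (nat_lit 273)) (nd (nat_lit 320) (nat_lit 0) (cs (lf (nat_lit 42) (nat_lit 253)) (nd (nat_lit 231) (nat_lit 0) (cs (lf (nat_lit 24) (nat_lit 209)) (nd (nat_lit 296) (nat_lit 0) (cs (lf (nat_lit 33) (nat_lit 230)) (lf (nat_lit 24) (nat_lit 229)))))))))))) (nd (nat_lit 251) (nat_lit 0) (cs (lf (nat_lit 23) (nat_lit 250)) (nd (nat_lit 296) (nat_lit 0) (cs (lf (nat_lit 30) (nat_lit 252)) (lf (nat_lit 24) (nat_lit 229)))))))))))) (rf (nat_lit 12)))))))) (cs (rf (nat_lit 13)) (rf (nat_lit 14)))))))) q56030 (by decide +kernel)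
def q56240 : Q := Q.p (nat_lit 0xc00002000000000010000000000000000000000000000000000000000000000000000) (nat_lit 0xe0001b8000ffc003ff003bf80073e0039f0007b8000660001c8000400000000000000000000000000000000000000000) (nat_lit 15)
theorem c56240 : QOK q56240 := cut [q15802, q15887, q13257, q15518, q15515, q56049, q15683, q15797, q15801, q15828, q15886, q15934, q15931, q15805, q56054, q14516, q14138, q15920, q56190, q15936, q56192, q56239] ⟨c15802, c15887, c13257, c15518, c15515, c56049, c15683, c15797, c15801, c15828, c15886, c15934, c15931, c15805, c56054, c14516, c14138, c15920, c56190, c15936, c56192, c56239, trivial⟩ (nd (nat_lit 294) (nat_lit 0) (cs (nd (nat_lit 296) (nat_lit 0) (cs (rf (nat_lit 0)) (rf (nat_lit 1)))) (cs (nd (nat_lit 273) (nat_lit 0) (cs (rf (nat_lit 2)) (cs (nd (nat_lit 276) (nat_lit 0) (cs (lf (nat_lit 10) (nat_lit 272)) (rf (nat_lit 3)))) (cs (nd (nat_lit 276) (nat_lit 0) (cs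 (lf (nat_lit 10) (nat_lit 272)) (rf (nat_lit 4)))) (nd (nat_lit 272) (nat_lit 0) (cs (lf (nat_lit 11) (nat_lit 271)) (rf (nat_lit 5)))))))) (cs (nd (nat_lit 231) (nat_lit 0) (cs (rf (nat_lit 6)) (cs (rf (nat_lit 7)) (nd (nat_lit 296) (nat_lit 0) (cs (rf (nat_lit 8)) (cs (rf (nat_lit 9)) (nd (nat_lit 295) (nat_lit 0) (cs (rf (nat_lit 10)) (cs (rf (nat_lit 11)) (nd (nat_lit 272) (nat_lit 0) (cs (rf (nat_lit 12)) (cs (nd (nat_lit 250) (nat_lit 0) (cs (rf (nat_lit 13)) (cs (nd (nat_lit 228) (nat_lit 0) (cs (lf (nat_lit 29) (nat_lit 228)) (rf (nat_lit 14)))) (cs (nd (nat_lit 273) (nat_lit 0) (cs (lf (nat_lit 23) (nat_lit 249)) (rf (nat_lit 15)))) (nd (nat_lit 228) (nat_lit 0) (cs (lf (nat_lit 29) (nat_lit 228)) (nd (nat_lit 206) (nat_lit 0) (cs (lf (nat_lit 28) (nat_lit 206)) (rf (nat_lit 16)))))))))) (nd (nat_lit 297) (nat_lit 0) (cs (lf (nat_lit 23) (nat_lit 271)) (nd (nat_lit 210) (nat_lit 0) (cs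 (lf (nat_lit 34) (nat_lit 209)) (rf (nat_lit 17)))))))))))))))))) (cs (rf (nat_lit 18)) (cs (nd (nat_lit 296) (nat_lit 0) (cs (rf (nat_lit 0)) (cs (rf (nat_lit 19)) (nd (nat_lit 293) (nat_lit 0) (cs (lf (nat_lit 14) (nat_lit 271)) (rf (nat_lit 20))))))) (rf (nat_lit 21)))))))) q56240 (by decide +kernel)
def q57715 : Q := Q.p (nat_lit 0x800002400000000010000000000000000000000000000000000000000000000000000) (nat_lit 0x3e0001f80001e00027c0019a0007fc001e60007f8001ce0005200000000000000000000000000000000000) (nat_lit 14)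
theorem c57715 : QOK q57715 := cut [q56302, q2068, q1998, q6234, q57646, q2090, q2623, q40537, q40539, q57704, q57706, q8874] ⟨c56302, c2068, c1998, c6234, c57646, c2090, c2623, c40537, c40539, c57704, c57706, c8874, trivial⟩ (nd (nat_lit 252) (nat_lit 0) (cs (rf (nat_lit 0)) (cs (nd (nat_lit 186) (nat_lit 0) (cs (lf (nat_lit 26) (nat_lit 186)) (nd (nat_lit 231) (nat_lit 0) (cs (lf (nat_lit 45) (nat_lit 186)) (nd (nat_lit 251) (nat_lit 0) (cs (lf (nat_lit 17) (nat_lit 228)) (rf (nat_lit 1)))))))) (cs (nd (nat_lit 251) (nat_lit 0) (cs (rf (nat_lit 2)) (cs (rf (nat_lit 3)) (rf (nat_lit 4))))) (cs (nd (nat_lit 251) (nat_lit 0) (cs (rf (nat_lit 2)) (cs (rf (nat_lit 5)) (cs (rf (nat_lit 6)) (nd (nat_lit 228) (nat_lit 0) (cs (lf (nat_lit 23) (nat_lit 227)) (nd (nat_lit 295) (nat_lit 0) (cs (rf (nat_lit 7)) (cs (nd (nat_lit 272) (nat_lit 0) (cs (lf (nat_lit 11) (nat_lit 249)) (nd (nat_lit 231) (nat_lit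 0) (cs (lf (nat_lit 17) (nat_lit 228)) (nd (nat_lit 294) (nat_lit 0) (cs (lf (nat_lit 29) (nat_lit 228)) (nd (nat_lit 293) (nat_lit 0) (cs (lf (nat_lit 41) (nat_lit 227)) (nd (nat_lit 229) (nat_lit 0) (cs (lf (nat_lit 30) (nat_lit 228)) (nd (nat_lit 274) (nat_lit 0) (cs (lf (nat_lit 15) (nat_lit 271)) (nd (nat_lit 209) (nat_lit 0) (cs (lf (nat_lit 36) (nat_lit 186)) (nd (nat_lit 210) (nat_lit 0) (cs (lf (nat_lit 35) (nat_lit 187)) (lf (nat_lit 14) (nat_lit 206)))))))))))))))))) (cs (nd (nat_lit 272) (nat_lit 0) (cs (lf (nat_lit 11) (nat_lit 249)) (nd (nat_lit 231) (nat_lit 0) (cs (lf (nat_lit 17) (nat_lit 228)) (rf (nat_lit 8)))))) (nd (nat_lit 272) (nat_lit 0) (cs (lf (nat_lit 11) (nat_lit 249)) (nd (nat_lit 317) (nat_lit 0) (cs (lf (nat_lit 44) (nat_lit 228)) (lf (nat_lit 27) (nat_lit 228)))))))))))))))) (cs (rf (nat_lit 9)) (cs (nd (nat_lit 230) (nat_lit 0) (cs (lf (nat_lit 24) (nat_lit 186))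 (nd (nat_lit 251) (nat_lit 0) (cs (rf (nat_lit 2)) (cs (rf (nat_lit 5)) (cs (rf (nat_lit 6)) (nd (nat_lit 272) (nat_lit 0) (cs (lf (nat_lit 11) (nat_lit 249)) (nd (nat_lit 295) (nat_lit 0) (cs (nd (nat_lit 273) (nat_lit 0) (cs (lf (nat_lit 33) (nat_lit 207)) (lf (nat_lit 39) (nat_lit 207)))) (cs (nd (nat_lit 228) (nat_lit 0) (cs (lf (nat_lit 23) (nat_lit 227)) (rf (nat_lit 10)))) (nd (nat_lit 273) (nat_lit 0) (cs (lf (nat_lit 39) (nat_lit 207)) (lf (nat_lit 30) (nat_lit 229))))))))))))))) (nd (nat_lit 186) (nat_lit 0) (cs (lf (nat_lit 26) (nat_lit 186)) (nd (nat_lit 231) (nat_lit 0) (cs (lf (nat_lit 45) (nat_lit 186)) (rf (nat_lit 11))))))))))))) q57715 (by decide +kernel)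
def q58929 : Q := Q.p (nat_lit 0x20000800002400000000010000000000000000000000000000000000000000000000000000) (nat_lit 0x4e000738001de0007ff003dd80077f003980007b8001e60005d8000000000000000000000000000000000000000000000) (nat_lit 15)
theorem c58929 : QOK q58929 := cut [q58858, q58871, q44140, q58551, q58556, q58881, q58853, q58883, q53034, q58893, q58856, q58896, q58898, q52446, q58908, q58910, q58912, q58851, q58855, q58926, q58928] ⟨c58858, c58871, c44140, c58551, c58556, c58881, c58853, c58883, c53034, c58893, c58856, c58896, c58898, c52446, c58908, c58910, c58912, c58851, c58855, c58926, c58928, trivial⟩ (nd (nat_lit 294) (nat_lit 0) (cs (rf (nat_lit 0)) (cs (nd (nat_lit 295) (nat_lit 0) (cs (rf (nat_lit 1)) (cs (nd (nat_lit 292) (nat_lit 0) (cs (rf (nat_lit 2)) (cs (rf (nat_lit 3)) (cs (rf (nat_lit 4)) (nd (nat_lit 317) (nat_lit 0) (cs (lf (nat_lit 5) (nat_lit 292)) (nd (nat_lit 269) (nat_lit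 0) (cs (lf (nat_lit 22) (nat_lit 269)) (nd (nat_lit 313) (nat_lit 0) (cs (lf (nat_lit 10) (nat_lit 291)) (nd (nat_lit 273) (nat_lit 0) (cs (lf (nat_lit 17) (nat_lit 270)) (nd (nat_lit 251) (nat_lit 0) (cs (lf (nat_lit 47) (nat_lit 228)) (nd (nat_lit 316) (nat_lit 0) (cs (lf (nat_lit 41) (nat_lit 250)) (lf (nat_lit 36) (nat_lit 228)))))))))))))))))) (rf (nat_lit 5))))) (cs (nd (nat_lit 272) (nat_lit 0) (cs (rf (nat_lit 6)) (cs (rf (nat_lit 7)) (cs (nd (nat_lit 273) (nat_lit 0) (cs (lf (nat_lit 7) (nat_lit 271)) (nd (nat_lit 291) (nat_lit 0) (cs (lf (nat_lit 13) (nat_lit 269)) (nd (nat_lit 228) (nat_lit 0) (cs (lf (nat_lit 41) (nat_lit 227)) (rf (nat_lit 8)))))))) (rf (nat_lit 9)))))) (cs (nd (nat_lit 274) (nat_lit 0) (cs (rf (nat_lit 10)) (cs (rf (nat_lit 11)) (nd (nat_lit 272) (nat_lit 0) (cs (lf (nat_lit 8) (nat_lit 271)) (rf (nat_lit 12))))))) (cs (nd (nat_lit 272) (nat_lit 0) (cs (rf (nat_lit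 13)) (cs (rf (nat_lit 6)) (cs (rf (nat_lit 14)) (rf (nat_lit 15)))))) (cs (nd (nat_lit 272) (nat_lit 0) (cs (rf (nat_lit 6)) (cs (rf (nat_lit 14)) (cs (rf (nat_lit 15)) (nd (nat_lit 228) (nat_lit 0) (cs (lf (nat_lit 41) (nat_lit 227)) (nd (nat_lit 205) (nat_lit 0) (cs (lf (nat_lit 46) (nat_lit 205)) (nd (nat_lit 183) (nat_lit 0) (cs (lf (nat_lit 45) (nat_lit 183)) (nd (nat_lit 317) (nat_lit 0) (cs (lf (nat_lit 28) (nat_lit 228)) (nd (nat_lit 316) (nat_lit 0) (cs (lf (nat_lit 29) (nat_lit 250)) (nd (nat_lit 318) (nat_lit 0) (cs (lf (nat_lit 18) (nat_lit 293)) (nd (nat_lit 291) (nat_lit 0) (cs (lf (nat_lit 1) (nat_lit 291)) (nd (nat_lit 251) (nat_lit 0) (cs (lf (nat_lit 35) (nat_lit 228)) (nd (nat_lit 252) (nat_lit 0) (cs (lf (nat_lit 5) (nat_lit 250)) (nd (nat_lit 231) (nat_lit 0) (cs (lf (nat_lit 17) (nat_lit 228)) (nd (nat_lit 274) (nat_lit 0) (cs (lf (nat_lit 31) (nat_lit 230)) (rf (nat_lit 16))))))))))))))))))))))))))))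 (cs (nd (nat_lit 272) (nat_lit 0) (cs (nd (nat_lit 274) (nat_lit 0) (cs (lf (nat_lit 8) (nat_lit 271)) (rf (nat_lit 17)))) (cs (rf (nat_lit 6)) (cs (rf (nat_lit 18)) (rf (nat_lit 9)))))) (cs (nd (nat_lit 272) (nat_lit 0) (cs (rf (nat_lit 6)) (cs (rf (nat_lit 18)) (cs (rf (nat_lit 7)) (rf (nat_lit 19)))))) (rf (nat_lit 20))))))))))) q58929 (by decide +kernel)
def q59403 : Q := Q.p (nat_lit 0x20000800002400000000010000000000000000000000000000000000000000000000000000) (nat_lit 0x1000007c0001f0003fe000ffe001df0016fe001be001bfc0027e000ff00007c0001c0000000000000000000000000000000000) (nat_lit 16)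
theorem c59403 : QOK q59403 := cut [q57623, q58771, q58793, q58999, q58513, q59005, q59009, q59041, q59047, q59244, q58791, q57492, q59248, q59250, q59254, q59258, q59263, q59266, q59286, q59321, q54931, q58517, q59272, q59324, q58932, q56623, q57552, q59334, q59335, q59339, q59341, q59342, q59350, q59365, q59376, q59395, q58938, q58939, q15305, q58841, q59045, q58830] ⟨c57623, c58771, c58793, c58999, c58513, c59005, c59009, c59041, c59047, c59244, c58791, c57492, c59248, c59250, c59254, c59258, c59263, c59266, c59286, c59321, c54931, c58517, c59272, c59324, c58932, c56623, c57552, c59334, c59335, c59339, c59341, c59342, c59350, c59365, c59376, c59395, c58938, c58939, c15305, c58841, c59045, c58830, trivial⟩ (nd (nat_lit 249) (nat_lit 0) (cs (nd (nat_lit 251) (nat_lit 0) (cs (rf (nat_lit 0)) (cs (rf (nat_lit 1)) (cs (rf (nat_lit 2)) (rf (nat_lit 3)))))) (cs (nd (nat_lit 271) (nat_lit 0) (cs (rf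 (nat_lit 4)) (cs (rf (nat_lit 5)) (cs (rf (nat_lit 6)) (rf (nat_lit 7)))))) (cs (rf (nat_lit 8)) (cs (rf (nat_lit 9)) (cs (nd (nat_lit 271) (nat_lit 0) (cs (rf (nat_lit 4)) (cs (rf (nat_lit 6)) (cs (nd (nat_lit 251) (nat_lit 0) (cs (rf (nat_lit 10)) (cs (nd (nat_lit 227) (nat_lit 0) (cs (rf (nat_lit 11)) (cs (rf (nat_lit 12)) (cs (nd (nat_lit 294) (nat_lit 0) (cs (lf (nat_lit 29) (nat_lit 227)) (nd (nat_lit 295) (nat_lit 0) (cs (rf (nat_lit 13)) (cs (nd (nat_lit 228) (nat_lit 0) (cs (lf (nat_lit 35) (nat_lit 205)) (nd (nat_lit 292) (nat_lit 0) (cs (lf (nat_lit 41) (nat_lit 226)) (nd (nat_lit 273) (nat_lit 0) (cs (lf (nat_lit 42) (nat_lit 228)) (lf (nat_lit 17) (nat_lit 270)))))))) (rf (nat_lit 14))))))) (cs (nd (nat_lit 294) (nat_lit 0) (cs (lf (nat_lit 29) (nat_lit 227)) (nd (nat_lit 292) (nat_lit 0) (cs (lf (nat_lit 41) (nat_lit 226)) (nd (nat_lit 205) (nat_lit 0) (cs (lf (nat_lit 40) (nat_lit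 204)) (rf (nat_lit 15)))))))) (nd (nat_lit 294) (nat_lit 0) (cs (lf (nat_lit 29) (nat_lit 227)) (rf (nat_lit 16))))))))) (rf (nat_lit 17))))) (rf (nat_lit 18)))))) (cs (nd (nat_lit 271) (nat_lit 0) (cs (rf (nat_lit 4)) (cs (rf (nat_lit 6)) (cs (rf (nat_lit 19)) (nd (nat_lit 315) (nat_lit 0) (cs (rf (nat_lit 20)) (cs (rf (nat_lit 21)) (cs (rf (nat_lit 22)) (rf (nat_lit 23)))))))))) (cs (nd (nat_lit 271) (nat_lit 0) (cs (rf (nat_lit 4)) (cs (rf (nat_lit 6)) (cs (nd (nat_lit 227) (nat_lit 0) (cs (rf (nat_lit 24)) (cs (rf (nat_lit 12)) (nd (nat_lit 228) (nat_lit 0) (cs (rf (nat_lit 25)) (nd (nat_lit 225) (nat_lit 0) (cs (rf (nat_lit 26)) (cs (rf (nat_lit 27)) (rf (nat_lit 28)))))))))) (rf (nat_lit 29)))))) (cs (nd (nat_lit 271) (nat_lit 0) (cs (rf (nat_lit 7)) (cs (rf (nat_lit 18)) (cs (rf (nat_lit 29)) (cs (rf (nat_lit 30)) (cs (rf (nat_lit 31)) (cs (rf (nat_lit 32)) (cs (rf (nat_lit 33)) (rf (nat_lit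 34)))))))))) (cs (rf (nat_lit 35)) (cs (nd (nat_lit 271) (nat_lit 0) (cs (rf (nat_lit 4)) (cs (rf (nat_lit 36)) (cs (rf (nat_lit 37)) (nd (nat_lit 251) (nat_lit 0) (cs (rf (nat_lit 0)) (cs (rf (nat_lit 2)) (nd (nat_lit 248) (nat_lit 0) (cs (rf (nat_lit 38)) (cs (rf (nat_lit 39)) (cs (rf (nat_lit 40)) (nd (nat_lit 273) (nat_lit 0) (cs (lf (nat_lit 5) (nat_lit 248)) (nd (nat_lit 269) (nat_lit 0) (cs (lf (nat_lit 10) (nat_lit 247)) (nd (nat_lit 226) (nat_lit 0) (cs (lf (nat_lit 23) (nat_lit 225)) (rf (nat_lit 41))))))))))))))))))) (nd (nat_lit 271) (nat_lit 0) (cs (rf (nat_lit 6)) (cs (rf (nat_lit 30)) (cs (rf (nat_lit 32)) (rf (nat_lit 34))))))))))))))))) q59403 (by decide +kernel)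
def q59831 : Q := Q.p (nat_lit 0x20000800002400000000000000000000000000000000000000000000000000000000000000) (nat_lit 0x200000d00007e0003fe000ff8001df0007f80013f000bf00027c0001c000060000000000000000000000000000000000000000) (nat_lit 16)
theorem c59831 : QOK q59831 := cut [q23639, q59501, q59527, q59534, q58857, q59494, q59498, q59500, q59540, q59552, q59556, q59559, q59568, q59554, q46776, q59503, q59513, q59523, q59572, q59689, q59691, q59773, q59778, q59779, q59824, q59825, q59826, q59829, q59830] ⟨c23639, c59501, c59527, c59534, c58857, c59494, c59498, c59500, c59540, c59552, c59556, c59559, c59568, c59554, c46776, c59503, c59513, c59523, c59572, c59689, c59691, c59773, c59778, c59779, c59824, c59825, c59826, c59829, c59830, trivial⟩ (nd (nat_lit 271) (nat_lit 0) (cs (nd (nat_lit 272) (nat_lit 0) (cs (nd (nat_lit 273) (nat_lit 0) (cs (rf (nat_lit 0)) (cs (rf (nat_lit 1)) (rf (nat_lit 2))))) (cs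 (rf (nat_lit 3)) (cs (nd (nat_lit 294) (nat_lit 0) (cs (rf (nat_lit 4)) (cs (rf (nat_lit 5)) (nd (nat_lit 273) (nat_lit 0) (cs (lf (nat_lit 7) (nat_lit 271)) (rf (nat_lit 6))))))) (cs (nd (nat_lit 294) (nat_lit 0) (cs (rf (nat_lit 4)) (cs (rf (nat_lit 7)) (cs (rf (nat_lit 8)) (rf (nat_lit 9)))))) (cs (nd (nat_lit 294) (nat_lit 0) (cs (rf (nat_lit 9)) (cs (rf (nat_lit 10)) (cs (rf (nat_lit 11)) (rf (nat_lit 12)))))) (cs (nd (nat_lit 294) (nat_lit 0) (cs (rf (nat_lit 8)) (cs (rf (nat_lit 13)) (cs (rf (nat_lit 11)) (rf (nat_lit 12)))))) (cs (nd (nat_lit 294) (nat_lit 0) (cs (rf (nat_lit 4)) (cs (rf (nat_lit 7)) (cs (rf (nat_lit 8)) (rf (nat_lit 10)))))) (cs (nd (nat_lit 273) (nat_lit 0) (cs (rf (nat_lit 0)) (cs (rf (nat_lit 1)) (nd (nat_lit 270) (nat_lit 0) (cs (rf (nat_lit 14)) (cs (rf (nat_lit 15)) (cs (rf (nat_lit 16)) (cs (rf (nat_lit 17)) (nd (nat_lit 292) (nat_lit 0) (cs (lf (nat_lit 11) (nat_lit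 269)) (nd (nat_lit 247) (nat_lit 0) (cs (lf (nat_lit 22) (nat_lit 247)) (nd (nat_lit 295) (nat_lit 0) (cs (lf (nat_lit 5) (nat_lit 270)) (nd (nat_lit 317) (nat_lit 0) (cs (lf (nat_lit 42) (nat_lit 250)) (nd (nat_lit 294) (nat_lit 0) (cs (lf (nat_lit 5) (nat_lit 292)) (rf (nat_lit 18)))))))))))))))))))) (cs (rf (nat_lit 19)) (nd (nat_lit 294) (nat_lit 0) (cs (rf (nat_lit 4)) (cs (rf (nat_lit 5)) (nd (nat_lit 273) (nat_lit 0) (cs (lf (nat_lit 7) (nat_lit 271)) (nd (nat_lit 291) (nat_lit 0) (cs (lf (nat_lit 13) (nat_lit 269)) (nd (nat_lit 228) (nat_lit 0) (cs (lf (nat_lit 36) (nat_lit 205)) (nd (nat_lit 227) (nat_lit 0) (cs (lf (nat_lit 47) (nat_lit 205)) (nd (nat_lit 316) (nat_lit 0) (cs (lf (nat_lit 25) (nat_lit 227)) (rf (nat_lit 20))))))))))))))))))))))))) (cs (rf (nat_lit 21)) (cs (rf (nat_lit 22)) (cs (rf (nat_lit 23)) (cs (rf (nat_lit 24)) (cs (rf (nat_lit 25)) (cs (rf (nat_lit 26)) (cs (rf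 (nat_lit 27)) (rf (nat_lit 28))))))))))) q59831 (by decide +kernel)
def q59932 : Q := Q.p (nat_lit 0x20000800002400000000000000000000000000000000000000000000000000000000000000) (nat_lit 0x200000d00007e0003fe000ff8001df0013fc001be0003f80007c0001f000050000000000000000000000000000000000000000) (nat_lit 15)
theorem c59932 : QOK q59932 := cut [q59778, q59779, q59824, q59825, q59826, q59829, q59830, q48954, q58908, q59494, q59835, q59854, q59837, q59853, q56654, q56985, q59855, q46908, q59029, q59862, q58549, q59931] ⟨c59778, c59779, c59824, c59825, c59826, c59829, c59830, c48954, c58908, c59494, c59835, c59854, c59837, c59853, c56654, c56985, c59855, c46908, c59029, c59862, c58549, c59931, trivial⟩ (nd (nat_lit 271) (nat_lit 0) (cs (rf (nat_lit 0)) (cs (rf (nat_lit 1)) (cs (rf (nat_lit 2)) (cs (rf (nat_lit 3)) (cs (rf (nat_lit 4)) (cs (rf (nat_lit 5)) (cs (rf (nat_lit 6)) (cs (nd (nat_lit 272) (nat_lit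 0) (cs (rf (nat_lit 7)) (cs (nd (nat_lit 294) (nat_lit 0) (cs (rf (nat_lit 8)) (cs (rf (nat_lit 9)) (rf (nat_lit 10))))) (cs (rf (nat_lit 11)) (nd (nat_lit 270) (nat_lit 0) (cs (rf (nat_lit 12)) (cs (rf (nat_lit 13)) (nd (nat_lit 315) (nat_lit 0) (cs (rf (nat_lit 14)) (cs (rf (nat_lit 15)) (nd (nat_lit 292) (nat_lit 0) (cs (rf (nat_lit 16)) (cs (nd (nat_lit 251) (nat_lit 0) (cs (lf (nat_lit 7) (nat_lit 249)) (nd (nat_lit 248) (nat_lit 0) (cs (lf (nat_lit 24) (nat_lit 226)) (nd (nat_lit 247) (nat_lit 0) (cs (lf (nat_lit 18) (nat_lit 247)) (nd (nat_lit 245) (nat_lit 0) (cs (lf (nat_lit 1) (nat_lit 245)) (nd (nat_lit 314) (nat_lit 0) (cs (lf (nat_lit 47) (nat_lit 225)) (nd (nat_lit 336) (nat_lit 0) (cs (lf (nat_lit 30) (nat_lit 270)) (rf (nat_lit 17)))))))))))))) (nd (nat_lit 316) (nat_lit 0) (cs (rf (nat_lit 18)) (cs (nd (nat_lit 226) (nat_lit 0) (cs (lf (nat_lit 25) (nat_lit 226)) (nd (nat_lit 317)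 (nat_lit 0) (cs (lf (nat_lit 18) (nat_lit 292)) (nd (nat_lit 294) (nat_lit 0) (cs (lf (nat_lit 29) (nat_lit 250)) (rf (nat_lit 19)))))))) (cs (nd (nat_lit 291) (nat_lit 0) (cs (lf (nat_lit 12) (nat_lit 268)) (nd (nat_lit 226) (nat_lit 0) (cs (lf (nat_lit 25) (nat_lit 226)) (nd (nat_lit 251) (nat_lit 0) (cs (lf (nat_lit 7) (nat_lit 249)) (nd (nat_lit 294) (nat_lit 0) (cs (lf (nat_lit 35) (nat_lit 228)) (nd (nat_lit 295) (nat_lit 0) (cs (lf (nat_lit 18) (nat_lit 270)) (rf (nat_lit 20)))))))))))) (nd (nat_lit 251) (nat_lit 0) (cs (lf (nat_lit 7) (nat_lit 249)) (nd (nat_lit 317) (nat_lit 0) (cs (lf (nat_lit 18) (nat_lit 292)) (nd (nat_lit 291) (nat_lit 0) (cs (lf (nat_lit 21) (nat_lit 291)) (lf (nat_lit 12) (nat_lit 268))))))))))))))))))))))))) (rf (nat_lit 21))))))))))) q59932 (by decide +kernel)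
def q60053 : Q := Q.p (nat_lit 0x60000080000400000000000000000000000000000000000000000000000000000000000000) (nat_lit 0x500001c0003fe0007f00019e000070001b00000f0000700001c000050000000000000000000000000000000000000000) (nat_lit 12)
theorem c60053 : QOK q60053 := cut [q59286, q59339, q59342, q59365, q59376, q60046, q59879] ⟨c59286, c59339, c59342, c59365, c59376, c60046, c59879, trivial⟩ (nd (nat_lit 249) (nat_lit 0) (cs (rf (nat_lit 0)) (cs (rf (nat_lit 1)) (cs (rf (nat_lit 2)) (cs (rf (nat_lit 3)) (cs (rf (nat_lit 4)) (cs (rf (nat_lit 5)) (nd (nat_lit 227) (nat_lit 0) (cs (lf (nat_lit 29) (nat_lit 227)) (nd (nat_lit 204) (nat_lit 0) (cs (lf (nat_lit 46) (nat_lit 204)) (nd (nat_lit 205) (nat_lit 0) (cs (lf (nat_lit 47) (nat_lit 182)) (nd (nat_lit 184) (nat_lit 0) (cs (lf (nat_lit 34) (nat_lit 183)) (nd (nat_lit 162) (nat_lit 0) (cs (lf (nat_lit 33) (nat_lit 161)) (nd (nat_lit 270) (nat_lit 0) (cs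 (lf (nat_lit 41) (nat_lit 204)) (rf (nat_lit 6))))))))))))))))))))) q60053 (by decide +kernel)
def q60322 : Q := Q.p (nat_lit 0x60000800002400000000010000000000000000000000000000000000000000000000000000) (nat_lit 0x20000dc0003f0000fc0003f00019c0017f0001bc001af00023c000c0000000000000000000000000000000000000000000000) (nat_lit 15)
theorem c60322 : QOK q60322 := cut [q58926, q60228, q60247, q58887, q58912, q60298, q23069, q58889, q45149, q45294, q43951, q60304, q46687, q60230] ⟨c58926, c60228, c60247, c58887, c58912, c60298, c23069, c58889, c45149, c45294, c43951, c60304, c46687, c60230, trivial⟩ (nd (nat_lit 272) (nat_lit 0) (cs (rf (nat_lit 0)) (cs (rf (nat_lit 1)) (cs (rf (nat_lit 2)) (cs (nd (nat_lit 316) (nat_lit 0) (cs (rf (nat_lit 3)) (cs (nd (nat_lit 274) (nat_lit 0) (cs (lf (nat_lit 8) (nat_lit 271)) (nd (nat_lit 295) (nat_lit 0) (cs (lf (nat_lit 15) (nat_lit 271)) (nd (nat_lit 315) (nat_lit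 0) (cs (lf (nat_lit 41) (nat_lit 249)) (nd (nat_lit 313) (nat_lit 0) (cs (lf (nat_lit 13) (nat_lit 291)) (nd (nat_lit 317) (nat_lit 0) (cs (lf (nat_lit 29) (nat_lit 250)) (nd (nat_lit 291) (nat_lit 0) (cs (lf (nat_lit 1) (nat_lit 291)) (nd (nat_lit 227) (nat_lit 0) (cs (lf (nat_lit 46) (nat_lit 227)) (nd (nat_lit 251) (nat_lit 0) (cs (lf (nat_lit 35) (nat_lit 228)) (nd (nat_lit 252) (nat_lit 0) (cs (lf (nat_lit 5) (nat_lit 250)) (nd (nat_lit 231) (nat_lit 0) (cs (lf (nat_lit 17) (nat_lit 228)) (rf (nat_lit 4)))))))))))))))))))))) (rf (nat_lit 5))))) (cs (nd (nat_lit 316) (nat_lit 0) (cs (rf (nat_lit 6)) (cs (rf (nat_lit 7)) (nd (nat_lit 229) (nat_lit 0) (cs (lf (nat_lit 34) (nat_lit 228)) (rf (nat_lit 5))))))) (nd (nat_lit 315) (nat_lit 0) (cs (rf (nat_lit 8)) (cs (rf (nat_lit 9)) (nd (nat_lit 316) (nat_lit 0) (cs (nd (nat_lit 249) (nat_lit 0) (cs (lf (nat_lit 47) (nat_lit 227)) (nd (nat_lit 338)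 (nat_lit 0) (cs (lf (nat_lit 25) (nat_lit 249)) (rf (nat_lit 10)))))) (cs (nd (nat_lit 273) (nat_lit 0) (cs (lf (nat_lit 7) (nat_lit 271)) (nd (nat_lit 291) (nat_lit 0) (cs (lf (nat_lit 13) (nat_lit 269)) (nd (nat_lit 227) (nat_lit 0) (cs (lf (nat_lit 46) (nat_lit 227)) (rf (nat_lit 11)))))))) (cs (nd (nat_lit 317) (nat_lit 0) (cs (lf (nat_lit 29) (nat_lit 250)) (nd (nat_lit 291) (nat_lit 0) (cs (lf (nat_lit 1) (nat_lit 291)) (nd (nat_lit 273) (nat_lit 0) (cs (lf (nat_lit 7) (nat_lit 271)) (nd (nat_lit 249) (nat_lit 0) (cs (lf (nat_lit 47) (nat_lit 227)) (nd (nat_lit 248) (nat_lit 0) (cs (lf (nat_lit 0) (nat_lit 247)) (nd (nat_lit 271) (nat_lit 0) (cs (lf (nat_lit 47) (nat_lit 226)) (rf (nat_lit 12)))))))))))))) (cs (nd (nat_lit 273) (nat_lit 0) (cs (lf (nat_lit 7) (nat_lit 271)) (nd (nat_lit 339) (nat_lit 0) (cs (lf (nat_lit 28) (nat_lit 250)) (nd (nat_lit 338) (nat_lit 0) (cs (lf (nat_lit 29)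 (nat_lit 272)) (nd (nat_lit 360) (nat_lit 0) (cs (lf (nat_lit 47) (nat_lit 271)) (lf (nat_lit 34) (nat_lit 272)))))))))) (nd (nat_lit 273) (nat_lit 0) (cs (lf (nat_lit 7) (nat_lit 271)) (nd (nat_lit 291) (nat_lit 0) (cs (lf (nat_lit 13) (nat_lit 269)) (rf (nat_lit 13)))))))))))))))))))) q60322 (by decide +kernel)
def q60540 : Q := Q.p (nat_lit 0x20000800002400000000010000000000000000000000000000000000000000000000000000) (nat_lit 0xe0000380003e0000f8001ddf0077f8039be001b60002780007e0003e0000200000000000000000000000000000000000) (nat_lit 15)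
theorem c60540 : QOK q60540 := cut [q60451, q60452, q14653, q59854, q60126, q60463, q60465, q11979, q60356, q56407, q23068, q58793, q58571, q60473, q60474, q60493, q60519, q59990, q60521, q60525, q23210, q58846, q58857, q58910] ⟨c60451, c60452, c14653, c59854, c60126, c60463, c60465, c11979, c60356, c56407, c23068, c58793, c58571, c60473, c60474, c60493, c60519, c59990, c60521, c60525, c23210, c58846, c58857, c58910, trivial⟩ (nd (nat_lit 272) (nat_lit 0) (cs (rf (nat_lit 0)) (cs (nd (nat_lit 273) (nat_lit 0) (cs (rf (nat_lit 1)) (cs (nd (nat_lit 274) (nat_lit 0) (cs (lf (nat_lit 23) (nat_lit 249)) (nd (nat_lit 276) (nat_lit 0) (cs (lf (nat_lit 22) (nat_lit 250)) (nd (nat_lit 299) (nat_lit 0) (cs (lf (nat_lit 4) (nat_lit 273)) (nd (nat_lit 277) (nat_lit 0) (cs (lf (nat_lit 5) (nat_lit 274)) (nd (nat_lit 295) (nat_lit 0) (cs (lf (nat_lit 10) (nat_lit 273)) (nd (nat_lit 317) (nat_lit 0) (cs (lf (nat_lit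 42) (nat_lit 250)) (rf (nat_lit 2)))))))))))))) (cs (nd (nat_lit 271) (nat_lit 0) (cs (rf (nat_lit 3)) (cs (rf (nat_lit 4)) (cs (nd (nat_lit 206) (nat_lit 0) (cs (lf (nat_lit 37) (nat_lit 205)) (rf (nat_lit 5)))) (rf (nat_lit 6)))))) (cs (nd (nat_lit 271) (nat_lit 0) (cs (rf (nat_lit 7)) (cs (rf (nat_lit 3)) (rf (nat_lit 8))))) (nd (nat_lit 274) (nat_lit 0) (cs (lf (nat_lit 23) (nat_lit 249)) (nd (nat_lit 251) (nat_lit 0) (cs (lf (nat_lit 18) (nat_lit 250)) (rf (nat_lit 9))))))))))) (cs (nd (nat_lit 251) (nat_lit 0) (cs (rf (nat_lit 10)) (cs (rf (nat_lit 11)) (nd (nat_lit 294) (nat_lit 0) (cs (rf (nat_lit 12)) (cs (rf (nat_lit 13)) (cs (nd (nat_lit 274) (nat_lit 0) (cs (lf (nat_lit 8) (nat_lit 271)) (nd (nat_lit 295) (nat_lit 0) (cs (lf (nat_lit 15) (nat_lit 271)) (nd (nat_lit 228) (nat_lit 0) (cs (lf (nat_lit 29) (nat_lit 228)) (rf (nat_lit 14)))))))) (nd (nat_lit 273) (nat_lit 0) (cs (lf (nat_lit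 7) (nat_lit 271)) (nd (nat_lit 316) (nat_lit 0) (cs (lf (nat_lit 30) (nat_lit 250)) (nd (nat_lit 317) (nat_lit 0) (cs (lf (nat_lit 29) (nat_lit 250)) (nd (nat_lit 318) (nat_lit 0) (cs (lf (nat_lit 18) (nat_lit 293)) (nd (nat_lit 292) (nat_lit 0) (cs (lf (nat_lit 3) (nat_lit 292)) (lf (nat_lit 12) (nat_lit 269))))))))))))))))))) (cs (rf (nat_lit 15)) (cs (rf (nat_lit 16)) (cs (nd (nat_lit 294) (nat_lit 0) (cs (rf (nat_lit 17)) (cs (nd (nat_lit 228) (nat_lit 0) (cs (lf (nat_lit 41) (nat_lit 227)) (nd (nat_lit 273) (nat_lit 0) (cs (lf (nat_lit 7) (nat_lit 271)) (nd (nat_lit 291) (nat_lit 0) (cs (lf (nat_lit 13) (nat_lit 269)) (rf (nat_lit 18)))))))) (cs (nd (nat_lit 228) (nat_lit 0) (cs (lf (nat_lit 41) (nat_lit 227)) (rf (nat_lit 19)))) (nd (nat_lit 228) (nat_lit 0) (cs (lf (nat_lit 41) (nat_lit 227)) (nd (nat_lit 295) (nat_lit 0) (cs (lf (nat_lit 29) (nat_lit 228)) (nd (nat_lit 274) (nat_lit 0) (cs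 (lf (nat_lit 15) (nat_lit 271)) (nd (nat_lit 206) (nat_lit 0) (cs (lf (nat_lit 40) (nat_lit 205)) (nd (nat_lit 183) (nat_lit 0) (cs (lf (nat_lit 46) (nat_lit 183)) (nd (nat_lit 184) (nat_lit 0) (cs (lf (nat_lit 47) (nat_lit 161)) (nd (nat_lit 163) (nat_lit 0) (cs (lf (nat_lit 34) (nat_lit 162)) (nd (nat_lit 162) (nat_lit 0) (cs (lf (nat_lit 35) (nat_lit 140)) (nd (nat_lit 164) (nat_lit 0) (cs (lf (nat_lit 6) (nat_lit 161)) (nd (nat_lit 181) (nat_lit 0) (cs (lf (nat_lit 13) (nat_lit 159)) (nd (nat_lit 251) (nat_lit 0) (cs (lf (nat_lit 28) (nat_lit 162)) (rf (nat_lit 20)))))))))))))))))))))))))))) (nd (nat_lit 294) (nat_lit 0) (cs (nd (nat_lit 273) (nat_lit 0) (cs (lf (nat_lit 7) (nat_lit 271)) (nd (nat_lit 228) (nat_lit 0) (cs (lf (nat_lit 41) (nat_lit 227)) (rf (nat_lit 21)))))) (cs (rf (nat_lit 22)) (rf (nat_lit 23)))))))))))) q60540 (by decide +kernel)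
def q60635 : Q := Q.p (nat_lit 0x20000800002400000000010000000000000000000000000000000000000000000000000000) (nat_lit 0x230000dc0007f0003fe000ff8001df0015f0001be001bf80027c0005f000050000000000000000000000000000000000000000) (nat_lit 16)
theorem c60635 : QOK q60635 := cut [q58521, q59778, q59779, q59824, q59825, q59829, q56985, q59771, q59772, q59748, q60587, q58853, q60165, q60541, q47440, q60189, q60561, q60601, q49115, q59005, q59321, q59914, q59917, q58793, q52073, q60622, q57492, q59913, q59916, q59879, q59927, q60627] ⟨c58521, c59778, c59779, c59824, c59825, c59829, c56985, c59771, c59772, c59748, c60587, c58853, c60165, c60541, c47440, c60189, c60561, c60601, c49115, c59005, c59321, c59914, c59917, c58793, c52073, c60622, c57492, c59913, c59916, c59879, c59927, c60627, trivial⟩ (nd (nat_lit 271) (nat_lit 0) (cs (rf (nat_lit 0)) (cs (rf (nat_lit 1)) (cs (rf (nat_lit 2)) (cs (rf (nat_lit 3))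 (cs (rf (nat_lit 4)) (cs (rf (nat_lit 5)) (cs (nd (nat_lit 315) (nat_lit 0) (cs (rf (nat_lit 6)) (cs (rf (nat_lit 7)) (cs (rf (nat_lit 8)) (nd (nat_lit 294) (nat_lit 0) (cs (rf (nat_lit 9)) (cs (rf (nat_lit 10)) (cs (nd (nat_lit 272) (nat_lit 0) (cs (rf (nat_lit 11)) (nd (nat_lit 269) (nat_lit 0) (cs (rf (nat_lit 12)) (cs (rf (nat_lit 13)) (nd (nat_lit 291) (nat_lit 0) (cs (rf (nat_lit 14)) (cs (nd (nat_lit 251) (nat_lit 0) (cs (lf (nat_lit 7) (nat_lit 249)) (nd (nat_lit 268) (nat_lit 0) (cs (lf (nat_lit 20) (nat_lit 268)) (nd (nat_lit 316) (nat_lit 0) (cs (lf (nat_lit 35) (nat_lit 228)) (nd (nat_lit 338) (nat_lit 0) (cs (lf (nat_lit 42) (nat_lit 271)) (nd (nat_lit 339) (nat_lit 0) (cs (lf (nat_lit 29) (nat_lit 272)) (nd (nat_lit 313) (nat_lit 0) (cs (lf (nat_lit 1) (nat_lit 313)) (nd (nat_lit 246) (nat_lit 0) (cs (lf (nat_lit 42) (nat_lit 246)) (nd (nat_lit 224) (nat_lit 0) (cs (lf (nat_lit 24)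 (nat_lit 202)) (lf (nat_lit 45) (nat_lit 224)))))))))))))))))) (cs (nd (nat_lit 313) (nat_lit 0) (cs (rf (nat_lit 15)) (cs (rf (nat_lit 16)) (nd (nat_lit 251) (nat_lit 0) (cs (lf (nat_lit 7) (nat_lit 249)) (nd (nat_lit 316) (nat_lit 0) (cs (lf (nat_lit 35) (nat_lit 228)) (nd (nat_lit 314) (nat_lit 0) (cs (lf (nat_lit 23) (nat_lit 290)) (lf (nat_lit 17) (nat_lit 291))))))))))) (nd (nat_lit 251) (nat_lit 0) (cs (lf (nat_lit 7) (nat_lit 249)) (nd (nat_lit 292) (nat_lit 0) (cs (lf (nat_lit 12) (nat_lit 268)) (nd (nat_lit 229) (nat_lit 0) (cs (lf (nat_lit 30) (nat_lit 228)) (nd (nat_lit 313) (nat_lit 0) (cs (lf (nat_lit 11) (nat_lit 290)) (nd (nat_lit 314) (nat_lit 0) (cs (lf (nat_lit 6) (nat_lit 291)) (rf (nat_lit 17))))))))))))))))))))) (nd (nat_lit 272) (nat_lit 0) (cs (lf (nat_lit 36) (nat_lit 227)) (nd (nat_lit 251) (nat_lit 0) (cs (lf (nat_lit 7) (nat_lit 249)) (nd (nat_lit 316) (nat_lit 0) (cs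 (lf (nat_lit 35) (nat_lit 228)) (rf (nat_lit 18)))))))))))))))) (nd (nat_lit 249) (nat_lit 0) (cs (rf (nat_lit 19)) (cs (rf (nat_lit 20)) (cs (rf (nat_lit 21)) (cs (rf (nat_lit 22)) (cs (nd (nat_lit 251) (nat_lit 0) (cs (rf (nat_lit 23)) (nd (nat_lit 248) (nat_lit 0) (cs (nd (nat_lit 225) (nat_lit 0) (cs (lf (nat_lit 22) (nat_lit 225)) (nd (nat_lit 247) (nat_lit 0) (cs (lf (nat_lit 23) (nat_lit 224)) (nd (nat_lit 228) (nat_lit 0) (cs (lf (nat_lit 17) (nat_lit 225)) (nd (nat_lit 272) (nat_lit 0) (cs (lf (nat_lit 36) (nat_lit 205)) (lf (nat_lit 0) (nat_lit 246)))))))))) (cs (nd (nat_lit 269) (nat_lit 0) (cs (lf (nat_lit 10) (nat_lit 247)) (nd (nat_lit 247) (nat_lit 0) (cs (lf (nat_lit 11) (nat_lit 246)) (nd (nat_lit 272) (nat_lit 0) (cs (lf (nat_lit 0) (nat_lit 246)) (rf (nat_lit 24)))))))) (nd (nat_lit 270) (nat_lit 0) (cs (lf (nat_lit 11) (nat_lit 247)) (rf (nat_lit 25))))))))) (nd (nat_lit 227)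 (nat_lit 0) (cs (rf (nat_lit 26)) (cs (rf (nat_lit 27)) (cs (rf (nat_lit 28)) (nd (nat_lit 270) (nat_lit 0) (cs (rf (nat_lit 29)) (cs (rf (nat_lit 30)) (nd (nat_lit 228) (nat_lit 0) (cs (lf (nat_lit 35) (nat_lit 205)) (nd (nat_lit 251) (nat_lit 0) (cs (lf (nat_lit 6) (nat_lit 248)) (nd (nat_lit 294) (nat_lit 0) (cs (lf (nat_lit 29) (nat_lit 227)) (nd (nat_lit 295) (nat_lit 0) (cs (lf (nat_lit 18) (nat_lit 270)) (rf (nat_lit 31))))))))))))))))))))))))))))))) q60635 (by decide +kernel)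
def q60858 : Q := Q.p (nat_lit 0x20000800002400000000010000000000000000000000000000000000000000000000000000) (nat_lit 0xa00003e0000f8000ff8000de0017f8001bf001bf000678001fe0004f80002a0000000000000000000000000000000000) (nat_lit 15)
theorem c60858 : QOK q60858 := cut [q15215, q15332, q58508, q1591, q60493, q60824, q45203, q58571, q58855, q60473, q60155, q60205, q26337, q60338, q60474, q60485, q15339, q15305, q56417, q56448, q56421, q56438, q46743, q57615, q58771, q58783] ⟨c15215, c15332, c58508, c1591, c60493, c60824, c45203, c58571, c58855, c60473, c60155, c60205, c26337, c60338, c60474, c60485, c15339, c15305, c56417, c56448, c56421, c56438, c46743, c57615, c58771, c58783, trivial⟩ (nd (nat_lit 251) (nat_lit 0) (cs (rf (nat_lit 0)) (cs (rf (nat_lit 1)) (cs (rf (nat_lit 2)) (cs (nd (nat_lit 252) (nat_lit 0) (cs (lf (nat_lit 5) (nat_lit 250)) (nd (nat_lit 271) (nat_lit 0) (cs (lf (nat_lit 10) (nat_lit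 249)) (nd (nat_lit 227) (nat_lit 0) (cs (lf (nat_lit 22) (nat_lit 227)) (nd (nat_lit 231) (nat_lit 0) (cs (lf (nat_lit 17) (nat_lit 228)) (nd (nat_lit 209) (nat_lit 0) (cs (lf (nat_lit 47) (nat_lit 186)) (nd (nat_lit 187) (nat_lit 0) (cs (lf (nat_lit 41) (nat_lit 186)) (rf (nat_lit 3)))))))))))))) (cs (nd (nat_lit 272) (nat_lit 0) (cs (rf (nat_lit 4)) (cs (rf (nat_lit 5)) (cs (nd (nat_lit 294) (nat_lit 0) (cs (rf (nat_lit 6)) (cs (rf (nat_lit 7)) (rf (nat_lit 8))))) (cs (nd (nat_lit 294) (nat_lit 0) (cs (rf (nat_lit 7)) (cs (rf (nat_lit 9)) (nd (nat_lit 271) (nat_lit 0) (cs (nd (nat_lit 273) (nat_lit 0) (cs (lf (nat_lit 7) (nat_lit 271)) (nd (nat_lit 292) (nat_lit 0) (cs (lf (nat_lit 12) (nat_lit 269)) (nd (nat_lit 228) (nat_lit 0) (cs (lf (nat_lit 36) (nat_lit 205)) (nd (nat_lit 295) (nat_lit 0) (cs (lf (nat_lit 42) (nat_lit 228)) (nd (nat_lit 314) (nat_lit 0) (cs (lf (nat_lit 11) (nat_lit 291))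 (nd (nat_lit 227) (nat_lit 0) (cs (lf (nat_lit 47) (nat_lit 205)) (lf (nat_lit 37) (nat_lit 226)))))))))))))) (cs (nd (nat_lit 228) (nat_lit 0) (cs (lf (nat_lit 36) (nat_lit 205)) (nd (nat_lit 269) (nat_lit 0) (cs (lf (nat_lit 13) (nat_lit 247)) (nd (nat_lit 295) (nat_lit 0) (cs (lf (nat_lit 29) (nat_lit 228)) (nd (nat_lit 227) (nat_lit 0) (cs (lf (nat_lit 47) (nat_lit 205)) (nd (nat_lit 226) (nat_lit 0) (cs (lf (nat_lit 0) (nat_lit 225)) (nd (nat_lit 249) (nat_lit 0) (cs (lf (nat_lit 47) (nat_lit 204)) (rf (nat_lit 10)))))))))))))) (cs (nd (nat_lit 273) (nat_lit 0) (cs (lf (nat_lit 7) (nat_lit 271)) (nd (nat_lit 292) (nat_lit 0) (cs (lf (nat_lit 12) (nat_lit 269)) (rf (nat_lit 11)))))) (nd (nat_lit 270) (nat_lit 0) (cs (lf (nat_lit 12) (nat_lit 247)) (nd (nat_lit 228) (nat_lit 0) (cs (lf (nat_lit 36) (nat_lit 205)) (nd (nat_lit 273) (nat_lit 0) (cs (lf (nat_lit 7) (nat_lit 271)) (nd (nat_lit 248)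 (nat_lit 0) (cs (lf (nat_lit 23) (nat_lit 247)) (nd (nat_lit 295) (nat_lit 0) (cs (lf (nat_lit 29) (nat_lit 228)) (nd (nat_lit 227) (nat_lit 0) (cs (lf (nat_lit 47) (nat_lit 205)) (nd (nat_lit 226) (nat_lit 0) (cs (lf (nat_lit 0) (nat_lit 225)) (lf (nat_lit 24) (nat_lit 204))))))))))))))))))))))) (cs (nd (nat_lit 294) (nat_lit 0) (cs (rf (nat_lit 12)) (cs (rf (nat_lit 13)) (rf (nat_lit 9))))) (nd (nat_lit 228) (nat_lit 0) (cs (rf (nat_lit 14)) (cs (nd (nat_lit 294) (nat_lit 0) (cs (lf (nat_lit 41) (nat_lit 227)) (nd (nat_lit 205) (nat_lit 0) (cs (lf (nat_lit 46) (nat_lit 205)) (nd (nat_lit 206) (nat_lit 0) (cs (lf (nat_lit 47) (nat_lit 183)) (nd (nat_lit 273) (nat_lit 0) (cs (lf (nat_lit 24) (nat_lit 184)) (lf (nat_lit 7) (nat_lit 271)))))))))) (nd (nat_lit 315) (nat_lit 0) (cs (lf (nat_lit 39) (nat_lit 227)) (rf (nat_lit 15))))))))))))) (nd (nat_lit 249) (nat_lit 0) (cs (rf (nat_lit 16)) (cs (nd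 (nat_lit 248) (nat_lit 0) (cs (rf (nat_lit 17)) (cs (rf (nat_lit 18)) (cs (rf (nat_lit 19)) (nd (nat_lit 226) (nat_lit 0) (cs (lf (nat_lit 23) (nat_lit 225)) (nd (nat_lit 204) (nat_lit 0) (cs (rf (nat_lit 20)) (cs (rf (nat_lit 21)) (cs (nd (nat_lit 273) (nat_lit 0) (cs (lf (nat_lit 5) (nat_lit 248)) (nd (nat_lit 270) (nat_lit 0) (cs (lf (nat_lit 11) (nat_lit 247)) (rf (nat_lit 22)))))) (nd (nat_lit 270) (nat_lit 0) (cs (lf (nat_lit 11) (nat_lit 247)) (nd (nat_lit 273) (nat_lit 0) (cs (lf (nat_lit 5) (nat_lit 248)) (nd (nat_lit 181) (nat_lit 0) (cs (lf (nat_lit 46) (nat_lit 181)) (nd (nat_lit 183) (nat_lit 0) (cs (lf (nat_lit 34) (nat_lit 182)) (rf (nat_lit 23)))))))))))))))))))) (cs (rf (nat_lit 24)) (rf (nat_lit 25)))))))))))) q60858 (by decide +kernel)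
def q60895 : Q := Q.p (nat_lit 0x20000800002400000000000000000000000000000000000000000000000000000000000000) (nat_lit 0x40000700003c0001f0000ffc01dde0077f0039bc000bf8002380000e000000000000000000000000000000000000000000000) (nat_lit 14)
theorem c60895 : QOK q60895 := cut [q60451, q60787, q60362, q47354, q11979, q60463, q60697, q46971, q60160, q23068, q26337, q60473, q60881, q60485, q60489, q60492, q60884, q23069, q45169, q45203, q60338, q60712] ⟨c60451, c60787, c60362, c47354, c11979, c60463, c60697, c46971, c60160, c23068, c26337, c60473, c60881, c60485, c60489, c60492, c60884, c23069, c45169, c45203, c60338, c60712, trivial⟩ (nd (nat_lit 272) (nat_lit 0) (cs (rf (nat_lit 0)) (cs (rf (nat_lit 1)) (cs (nd (nat_lit 271) (nat_lit 0) (cs (rf (nat_lit 2)) (cs (nd (nat_lit 315) (nat_lit 0) (cs (lf (nat_lit 30) (nat_lit 249)) (nd (nat_lit 249) (nat_lit 0) (cs (rf (nat_lit 3)) (lf (nat_lit 35) (nat_lit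 227)))))) (cs (nd (nat_lit 273) (nat_lit 0) (cs (rf (nat_lit 4)) (cs (rf (nat_lit 5)) (rf (nat_lit 6))))) (cs (nd (nat_lit 251) (nat_lit 0) (cs (lf (nat_lit 7) (nat_lit 249)) (nd (nat_lit 269) (nat_lit 0) (cs (lf (nat_lit 13) (nat_lit 247)) (nd (nat_lit 315) (nat_lit 0) (cs (lf (nat_lit 30) (nat_lit 249)) (nd (nat_lit 249) (nat_lit 0) (cs (lf (nat_lit 35) (nat_lit 227)) (nd (nat_lit 273) (nat_lit 0) (cs (lf (nat_lit 19) (nat_lit 249)) (rf (nat_lit 7)))))))))))) (cs (nd (nat_lit 315) (nat_lit 0) (cs (lf (nat_lit 30) (nat_lit 249)) (nd (nat_lit 249) (nat_lit 0) (cs (lf (nat_lit 35) (nat_lit 227)) (rf (nat_lit 8)))))) (nd (nat_lit 251) (nat_lit 0) (cs (lf (nat_lit 7) (nat_lit 249)) (nd (nat_lit 269) (nat_lit 0) (cs (lf (nat_lit 13) (nat_lit 247)) (nd (nat_lit 315) (nat_lit 0) (cs (lf (nat_lit 30) (nat_lit 249)) (nd (nat_lit 249) (nat_lit 0) (cs (lf (nat_lit 35) (nat_lit 227)) (nd (nat_lit 273) (nat_lit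 0) (cs (lf (nat_lit 19) (nat_lit 249)) (nd (nat_lit 247) (nat_lit 0) (cs (lf (nat_lit 1) (nat_lit 247)) (nd (nat_lit 314) (nat_lit 0) (cs (lf (nat_lit 41) (nat_lit 248)) (nd (nat_lit 292) (nat_lit 0) (cs (lf (nat_lit 36) (nat_lit 226)) (nd (nat_lit 291) (nat_lit 0) (cs (lf (nat_lit 12) (nat_lit 268)) (lf (nat_lit 24) (nat_lit 225)))))))))))))))))))))))))) (cs (nd (nat_lit 251) (nat_lit 0) (cs (rf (nat_lit 9)) (nd (nat_lit 294) (nat_lit 0) (cs (rf (nat_lit 10)) (cs (rf (nat_lit 11)) (rf (nat_lit 12))))))) (cs (nd (nat_lit 315) (nat_lit 0) (cs (nd (nat_lit 228) (nat_lit 0) (cs (lf (nat_lit 39) (nat_lit 227)) (rf (nat_lit 13)))) (cs (rf (nat_lit 14)) (cs (rf (nat_lit 15)) (cs (nd (nat_lit 271) (nat_lit 0) (cs (lf (nat_lit 30) (nat_lit 249)) (nd (nat_lit 251) (nat_lit 0) (cs (lf (nat_lit 7) (nat_lit 249)) (nd (nat_lit 249) (nat_lit 0) (cs (lf (nat_lit 35) (nat_lit 227)) (nd (nat_lit 269) (nat_lit 0)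 (cs (lf (nat_lit 13) (nat_lit 247)) (nd (nat_lit 316) (nat_lit 0) (cs (lf (nat_lit 29) (nat_lit 249)) (nd (nat_lit 314) (nat_lit 0) (cs (lf (nat_lit 41) (nat_lit 248)) (rf (nat_lit 16)))))))))))))) (nd (nat_lit 294) (nat_lit 0) (cs (lf (nat_lit 36) (nat_lit 227)) (nd (nat_lit 316) (nat_lit 0) (cs (rf (nat_lit 17)) (rf (nat_lit 18))))))))))) (nd (nat_lit 294) (nat_lit 0) (cs (rf (nat_lit 19)) (cs (rf (nat_lit 20)) (rf (nat_lit 21))))))))))) q60895 (by decide +kernel)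
def q60985 : Q := Q.p (nat_lit 0x20000800002400000000010000000000000000000000000000000000000000000000000000) (nat_lit 0x4f00073c001dfc007ff803ddc0077f8039bc0079f001e7c005cd000000000000000000000000000000000000000000000) (nat_lit 16)
theorem c60985 : QOK q60985 := cut [q59933, q59938, q59985, q59986, q59988, q58856, q45203, q58853, q47469, q60898, q60899, q60622, q58889, q60921, q60966, q58851, q59949, q60242, q60298, q45149, q48522, q60149] ⟨c59933, c59938, c59985, c59986, c59988, c58856, c45203, c58853, c47469, c60898, c60899, c60622, c58889, c60921, c60966, c58851, c59949, c60242, c60298, c45149, c48522, c60149, trivial⟩ (nd (nat_lit 274) (nat_lit 0) (cs (rf (nat_lit 0)) (cs (rf (nat_lit 1)) (cs (rf (nat_lit 2)) (cs (rf (nat_lit 3)) (cs (rf (nat_lit 4)) (nd (nat_lit 294) (nat_lit 0) (cs (rf (nat_lit 5)) (cs (nd (nat_lit 272) (nat_lit 0) (cs (rf (nat_lit 6)) (cs (rf (nat_lit 7)) (cs (nd (nat_lit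 316) (nat_lit 0) (cs (rf (nat_lit 8)) (cs (rf (nat_lit 9)) (nd (nat_lit 292) (nat_lit 0) (cs (rf (nat_lit 10)) (cs (nd (nat_lit 249) (nat_lit 0) (cs (lf (nat_lit 47) (nat_lit 227)) (nd (nat_lit 271) (nat_lit 0) (cs (lf (nat_lit 42) (nat_lit 249)) (nd (nat_lit 206) (nat_lit 0) (cs (lf (nat_lit 37) (nat_lit 205)) (nd (nat_lit 251) (nat_lit 0) (cs (lf (nat_lit 3) (nat_lit 249)) (nd (nat_lit 270) (nat_lit 0) (cs (lf (nat_lit 12) (nat_lit 247)) (nd (nat_lit 314) (nat_lit 0) (cs (lf (nat_lit 30) (nat_lit 248)) (nd (nat_lit 313) (nat_lit 0) (cs (lf (nat_lit 6) (nat_lit 291)) (nd (nat_lit 248) (nat_lit 0) (cs (lf (nat_lit 41) (nat_lit 247)) (rf (nat_lit 11)))))))))))))))))) (nd (nat_lit 227) (nat_lit 0) (cs (lf (nat_lit 46) (nat_lit 227)) (nd (nat_lit 291) (nat_lit 0) (cs (lf (nat_lit 5) (nat_lit 291)) (nd (nat_lit 271) (nat_lit 0) (cs (lf (nat_lit 12) (nat_lit 268)) (nd (nat_lit 228) (nat_lit 0) (cs (lf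 (nat_lit 47) (nat_lit 205)) (lf (nat_lit 36) (nat_lit 205)))))))))))))))) (nd (nat_lit 316) (nat_lit 0) (cs (rf (nat_lit 8)) (cs (rf (nat_lit 12)) (rf (nat_lit 13))))))))) (cs (rf (nat_lit 14)) (cs (nd (nat_lit 272) (nat_lit 0) (cs (rf (nat_lit 15)) (cs (rf (nat_lit 7)) (cs (rf (nat_lit 16)) (nd (nat_lit 316) (nat_lit 0) (cs (rf (nat_lit 12)) (cs (rf (nat_lit 17)) (cs (rf (nat_lit 18)) (cs (rf (nat_lit 13)) (nd (nat_lit 315) (nat_lit 0) (cs (rf (nat_lit 19)) (nd (nat_lit 295) (nat_lit 0) (cs (lf (nat_lit 15) (nat_lit 271)) (nd (nat_lit 314) (nat_lit 0) (cs (lf (nat_lit 12) (nat_lit 291)) (nd (nat_lit 227) (nat_lit 0) (cs (lf (nat_lit 46) (nat_lit 227)) (nd (nat_lit 317) (nat_lit 0) (cs (lf (nat_lit 29) (nat_lit 250)) (nd (nat_lit 336) (nat_lit 0) (cs (lf (nat_lit 11) (nat_lit 313)) (nd (nat_lit 292) (nat_lit 0) (cs (lf (nat_lit 23) (nat_lit 291)) (rf (nat_lit 20))))))))))))))))))))))))) (nd (nat_lit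 272) (nat_lit 0) (cs (rf (nat_lit 15)) (cs (rf (nat_lit 7)) (cs (rf (nat_lit 16)) (nd (nat_lit 316) (nat_lit 0) (cs (rf (nat_lit 8)) (cs (rf (nat_lit 12)) (nd (nat_lit 295) (nat_lit 0) (cs (lf (nat_lit 15) (nat_lit 271)) (nd (nat_lit 315) (nat_lit 0) (cs (lf (nat_lit 41) (nat_lit 249)) (nd (nat_lit 313) (nat_lit 0) (cs (lf (nat_lit 13) (nat_lit 291)) (nd (nat_lit 249) (nat_lit 0) (cs (lf (nat_lit 47) (nat_lit 227)) (nd (nat_lit 271) (nat_lit 0) (cs (lf (nat_lit 42) (nat_lit 249)) (nd (nat_lit 269) (nat_lit 0) (cs (lf (nat_lit 1) (nat_lit 269)) (rf (nat_lit 21)))))))))))))))))))))))))))))))) q60985 (by decide +kernel)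
def q61012 : Q := Q.p (nat_lit 0x20000800002400000000010000000000000000000000000000000000000000000000000000) (nat_lit 0x140000700001c0000b80003f0001df0017f8001bc001bf00027e000fe0000f8000280000000000000000000000000000000000) (nat_lit 13)
theorem c61012 : QOK q61012 := cut [q60363, q60365, q60444, q60449, q59823, q56973, q59324, q47382, q58935, q59285, q47484, q60046, q57009, q60670, q60673, q60676, q61006, q61009, q59777] ⟨c60363, c60365, c60444, c60449, c59823, c56973, c59324, c47382, c58935, c59285, c47484, c60046, c57009, c60670, c60673, c60676, c61006, c61009, c59777, trivial⟩ (nd (nat_lit 271) (nat_lit 0) (cs (rf (nat_lit 0)) (cs (rf (nat_lit 1)) (cs (rf (nat_lit 2)) (cs (rf (nat_lit 3)) (cs (nd (nat_lit 315) (nat_lit 0) (cs (rf (nat_lit 4)) (cs (nd (nat_lit 249) (nat_lit 0) (cs (rf (nat_lit 5)) (cs (rf (nat_lit 6)) (nd (nat_lit 272) (nat_lit 0) (cs (lf (nat_lit 30) (nat_lit 249)) (nd (nat_lit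 251) (nat_lit 0) (cs (lf (nat_lit 7) (nat_lit 249)) (rf (nat_lit 7))))))))) (cs (nd (nat_lit 249) (nat_lit 0) (cs (rf (nat_lit 8)) (cs (rf (nat_lit 9)) (cs (rf (nat_lit 6)) (nd (nat_lit 314) (nat_lit 0) (cs (lf (nat_lit 41) (nat_lit 248)) (nd (nat_lit 294) (nat_lit 0) (cs (rf (nat_lit 10)) (cs (rf (nat_lit 11)) (nd (nat_lit 295) (nat_lit 0) (cs (lf (nat_lit 6) (nat_lit 292)) (nd (nat_lit 316) (nat_lit 0) (cs (lf (nat_lit 12) (nat_lit 291)) (lf (nat_lit 24) (nat_lit 227))))))))))))))) (cs (nd (nat_lit 249) (nat_lit 0) (cs (rf (nat_lit 6)) (cs (nd (nat_lit 314) (nat_lit 0) (cs (lf (nat_lit 41) (nat_lit 248)) (nd (nat_lit 227) (nat_lit 0) (cs (lf (nat_lit 40) (nat_lit 226)) (nd (nat_lit 294) (nat_lit 0) (cs (lf (nat_lit 29) (nat_lit 227)) (nd (nat_lit 312) (nat_lit 0) (cs (lf (nat_lit 13) (nat_lit 290)) (nd (nat_lit 295) (nat_lit 0) (cs (lf (nat_lit 6) (nat_lit 292)) (rf (nat_lit 12)))))))))))) (nd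 (nat_lit 269) (nat_lit 0) (cs (rf (nat_lit 13)) (cs (rf (nat_lit 14)) (rf (nat_lit 15)))))))) (cs (rf (nat_lit 16)) (rf (nat_lit 17)))))))) (nd (nat_lit 315) (nat_lit 0) (cs (rf (nat_lit 18)) (cs (rf (nat_lit 4)) (cs (rf (nat_lit 16)) (rf (nat_lit 17)))))))))))) q61012 (by decide +kernel)
def q61484 : Q := Q.p (nat_lit 0x800002400000000010000000000000000000000000000000000000000000000000000) (nat_lit 0x20000380000e000738001980007f8007e7001ffc007ff800ffc007ff8007fc001ff000020000000000000) (nat_lit 17)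
theorem c61484 : QOK q61484 := cut [q56608, q56732, q58472, q40537, q57706, q61439, q57998, q58015, q58029, q58044, q58169, q58174, q58284, q58308, q58358, q58389, q58448, q58452, q57722, q57795, q57824, q57907, q57932, q61019, q61476, q2647, q19504, q57838, q61479, q58315, q58319, q58320, q58339, q58342] ⟨c56608, c56732, c58472, c40537, c57706, c61439, c57998, c58015, c58029, c58044, c58169, c58174, c58284, c58308, c58358, c58389, c58448, c58452, c57722, c57795, c57824, c57907, c57932, c61019, c61476, c2647, c19504, c57838, c61479, c58315, c58319, c58320, c58339, c58342, trivial⟩ (nd (nat_lit 186) (nat_lit 0) (cs (rf (nat_lit 0)) (cs (nd (nat_lit 230) (nat_lit 0) (cs (lf (nat_lit 27) (nat_lit 186)) (rf (nat_lit 1)))) (cs (rf (nat_lit 2)) (cs (nd (nat_lit 252) (nat_lit 0) (cs (lf (nat_lit 26) (nat_lit 186)) (nd (nat_lit 251) (nat_lit 0) (cs (lf (nat_lit 5) (nat_lit 250)) (nd (nat_lit 228) (nat_lit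 0) (cs (lf (nat_lit 23) (nat_lit 227)) (nd (nat_lit 295) (nat_lit 0) (cs (rf (nat_lit 3)) (cs (nd (nat_lit 272) (nat_lit 0) (cs (lf (nat_lit 11) (nat_lit 249)) (rf (nat_lit 4)))) (nd (nat_lit 272) (nat_lit 0) (cs (lf (nat_lit 11) (nat_lit 249)) (nd (nat_lit 206) (nat_lit 0) (cs (lf (nat_lit 28) (nat_lit 206)) (rf (nat_lit 5))))))))))))))) (nd (nat_lit 187) (nat_lit 0) (cs (rf (nat_lit 6)) (cs (rf (nat_lit 7)) (cs (rf (nat_lit 8)) (cs (rf (nat_lit 9)) (cs (rf (nat_lit 10)) (cs (rf (nat_lit 11)) (cs (rf (nat_lit 12)) (cs (rf (nat_lit 13)) (cs (rf (nat_lit 14)) (cs (rf (nat_lit 15)) (cs (rf (nat_lit 16)) (cs (rf (nat_lit 17)) (cs (nd (nat_lit 188) (nat_lit 0) (cs (rf (nat_lit 18)) (cs (rf (nat_lit 19)) (cs (rf (nat_lit 20)) (cs (rf (nat_lit 21)) (cs (rf (nat_lit 22)) (cs (rf (nat_lit 23)) (cs (rf (nat_lit 24)) (nd (nat_lit 166) (nat_lit 0) (cs (rf (nat_lit 25)) (cs (rf (nat_lit 26)) (cs (rf (nat_lit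 27)) (rf (nat_lit 28)))))))))))))) (nd (nat_lit 188) (nat_lit 0) (cs (rf (nat_lit 29)) (cs (rf (nat_lit 30)) (cs (rf (nat_lit 31)) (cs (rf (nat_lit 32)) (cs (rf (nat_lit 33)) (rf (nat_lit 24))))))))))))))))))))))))))) q61484 (by decide +kernel)
def q61515 : Q := Q.p (nat_lit 0x800002400000000010000000000000000000000000000000000000000000000000000) (nat_lit 0x75c0019b0007fc007e7001ffc007ff800ffc007ff8007fc001ff000020000000000000) (nat_lit 17)
theorem c61515 : QOK q61515 := cut [q56608, q58472, q58473, q58015, q58029, q58169, q58284, q58389, q57722, q57748, q57795, q57824, q57906, q57907, q57932, q61476, q11, q57975, q57995, q57974, q57982, q57990, q61486, q58117, q61495, q58033, q58043, q9201, q61492, q57745, q58040, q61500, q58173, q58338, q58307, q58315, q58319, q58320, q58342, q58337, q58356, q58399, q58412, q58421, q58426, q58429, q58436, q58446, q61509, q58450] ⟨c56608, c58472, c58473, c58015,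 c58029, c58169, c58284, c58389, c57722, c57748, c57795, c57824, c57906, c57907, c57932, c61476, c11, c57975, c57995, c57974, c57982, c57990, c61486, c58117, c61495, c58033, c58043, c9201, c61492, c57745, c58040, c61500, c58173, c58338, c58307, c58315, c58319, c58320, c58342, c58337, c58356, c58399, c58412, c58421, c58426, c58429, c58436, c58446, c61509, c58450, trivial⟩ (nd (nat_lit 186) (nat_lit 0) (cs (rf (nat_lit 0)) (cs (rf (nat_lit 1)) (cs (rf (nat_lit 2)) (nd (nat_lit 187) (nat_lit 0) (cs (rf (nat_lit 3)) (cs (rf (nat_lit 4)) (cs (rf (nat_lit 5)) (cs (rf (nat_lit 6)) (cs (rf (nat_lit 7)) (cs (nd (nat_lit 188) (nat_lit 0) (cs (rf (nat_lit 8)) (cs (rf (nat_lit 9)) (cs (rf (nat_lit 10)) (cs (rf (nat_lit 11)) (cs (rf (nat_lit 12)) (cs (rf (nat_lit 13)) (cs (rf (nat_lit 14)) (rf (nat_lit 15)))))))))) (cs (nd (nat_lit 209) (nat_lit 0) (cs (lf (nat_lit 44) (nat_lit 186)) (nd (nat_lit 185) (nat_lit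 0) (cs (rf (nat_lit 16)) (cs (nd (nat_lit 143) (nat_lit 0) (cs (rf (nat_lit 17)) (cs (rf (nat_lit 18)) (cs (nd (nat_lit 142) (nat_lit 0) (cs (rf (nat_lit 19)) (cs (rf (nat_lit 20)) (cs (rf (nat_lit 21)) (rf (nat_lit 22)))))) (nd (nat_lit 210) (nat_lit 0) (cs (lf (nat_lit 18) (nat_lit 185)) (rf (nat_lit 23)))))))) (rf (nat_lit 24))))))) (cs (nd (nat_lit 185) (nat_lit 0) (cs (rf (nat_lit 25)) (cs (rf (nat_lit 26)) (cs (nd (nat_lit 184) (nat_lit 0) (cs (rf (nat_lit 27)) (rf (nat_lit 28)))) (cs (nd (nat_lit 184) (nat_lit 0) (cs (rf (nat_lit 27)) (cs (rf (nat_lit 29)) (rf (nat_lit 30))))) (rf (nat_lit 31))))))) (cs (nd (nat_lit 185) (nat_lit 0) (cs (rf (nat_lit 32)) (cs (rf (nat_lit 33)) (rf (nat_lit 31))))) (cs (nd (nat_lit 185) (nat_lit 0) (cs (rf (nat_lit 34)) (cs (rf (nat_lit 33)) (rf (nat_lit 31))))) (cs (nd (nat_lit 188) (nat_lit 0) (cs (rf (nat_lit 35)) (cs (rf (nat_lit 36)) (cs (rf (nat_lit 37))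 (cs (rf (nat_lit 38)) (cs (rf (nat_lit 15)) (nd (nat_lit 185) (nat_lit 0) (cs (rf (nat_lit 39)) (cs (rf (nat_lit 33)) (rf (nat_lit 31))))))))))) (cs (nd (nat_lit 209) (nat_lit 0) (cs (lf (nat_lit 44) (nat_lit 186)) (nd (nat_lit 185) (nat_lit 0) (cs (rf (nat_lit 16)) (cs (rf (nat_lit 40)) (rf (nat_lit 24))))))) (cs (nd (nat_lit 209) (nat_lit 0) (cs (lf (nat_lit 44) (nat_lit 186)) (nd (nat_lit 164) (nat_lit 0) (cs (rf (nat_lit 41)) (cs (rf (nat_lit 42)) (cs (rf (nat_lit 43)) (cs (rf (nat_lit 44)) (cs (rf (nat_lit 45)) (cs (rf (nat_lit 46)) (cs (rf (nat_lit 47)) (rf (nat_lit 48)))))))))))) (nd (nat_lit 209) (nat_lit 0) (cs (lf (nat_lit 44) (nat_lit 186)) (nd (nat_lit 185) (nat_lit 0) (cs (rf (nat_lit 16)) (cs (rf (nat_lit 49)) (rf (nat_lit 24))))))))))))))))))))))))) q61515 (by decide +kernel)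
def q62135 : Q := Q.p (nat_lit 0x800002600000000010000000000000000000000000000000000000000000000000000) (nat_lit 0x1e0003fe000ff8003fe000ffc001fe0017fc0008c000ff00027c000fc0001e0000000000000000000000000000000000000000) (nat_lit 16)
theorem c62135 : QOK q62135 := cut [q61917, q58807, q61516, q61918, q61797, q61925, q54925, q61935, q61936, q61939, q61940, q58797, q61527, q61535, q25763, q60712, q61915, q61943, q61949, q61950, q61952, q61963, q61967, q58513, q59009, q61597, q61978, q62018, q62022, q62023, q62075, q62098, q62101, q61633, q62109, q61543, q57008, q61672, q62113, q61674, q62124, q47565] ⟨c61917, c58807, c61516, c61918, c61797, c61925, c54925, c61935, c61936, c61939, c61940, c58797, c61527, c61535, c25763, c60712, c61915, c61943, c61949, c61950, c61952, c61963, c61967, c58513, c59009, c61597, c61978, c62018, c62022, c62023, c62075, c62098, c62101, c61633, c62109, c61543, c57008, c61672,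 c62113, c61674, c62124, c47565, trivial⟩ (nd (nat_lit 293) (nat_lit 0) (cs (rf (nat_lit 0)) (cs (nd (nat_lit 271) (nat_lit 0) (cs (rf (nat_lit 1)) (cs (rf (nat_lit 2)) (rf (nat_lit 3))))) (cs (nd (nat_lit 294) (nat_lit 0) (cs (rf (nat_lit 4)) (cs (nd (nat_lit 295) (nat_lit 0) (cs (rf (nat_lit 5)) (cs (nd (nat_lit 296) (nat_lit 0) (cs (lf (nat_lit 16) (nat_lit 271)) (nd (nat_lit 271) (nat_lit 0) (cs (lf (nat_lit 23) (nat_lit 270)) (nd (nat_lit 318) (nat_lit 0) (cs (lf (nat_lit 5) (nat_lit 293)) (nd (nat_lit 227) (nat_lit 0) (cs (lf (nat_lit 29) (nat_lit 227)) (rf (nat_lit 6)))))))))) (cs (rf (nat_lit 7)) (rf (nat_lit 8)))))) (cs (nd (nat_lit 227) (nat_lit 0) (cs (rf (nat_lit 9)) (cs (rf (nat_lit 10)) (nd (nat_lit 271) (nat_lit 0) (cs (rf (nat_lit 11)) (cs (rf (nat_lit 12)) (rf (nat_lit 13)))))))) (cs (nd (nat_lit 272) (nat_lit 0) (cs (rf (nat_lit 14)) (cs (rf (nat_lit 15)) (cs (rf (nat_lit 16)) (rf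 (nat_lit 17)))))) (cs (rf (nat_lit 18)) (nd (nat_lit 271) (nat_lit 0) (cs (rf (nat_lit 19)) (cs (rf (nat_lit 20)) (cs (rf (nat_lit 21)) (rf (nat_lit 22)))))))))))) (cs (nd (nat_lit 271) (nat_lit 0) (cs (rf (nat_lit 23)) (cs (rf (nat_lit 24)) (cs (rf (nat_lit 25)) (rf (nat_lit 26)))))) (cs (rf (nat_lit 27)) (cs (nd (nat_lit 271) (nat_lit 0) (cs (rf (nat_lit 1)) (cs (rf (nat_lit 26)) (cs (rf (nat_lit 28)) (cs (rf (nat_lit 29)) (cs (rf (nat_lit 30)) (cs (rf (nat_lit 31)) (rf (nat_lit 32))))))))) (cs (nd (nat_lit 271) (nat_lit 0) (cs (rf (nat_lit 23)) (cs (rf (nat_lit 24)) (cs (rf (nat_lit 33)) (rf (nat_lit 28)))))) (cs (nd (nat_lit 271) (nat_lit 0) (cs (rf (nat_lit 2)) (cs (rf (nat_lit 3)) (cs (rf (nat_lit 30)) (rf (nat_lit 34)))))) (cs (nd (nat_lit 271) (nat_lit 0) (cs (rf (nat_lit 23)) (cs (rf (nat_lit 2)) (cs (rf (nat_lit 33)) (rf (nat_lit 31)))))) (cs (nd (nat_lit 271) (nat_lit 0) (cs (rf (nat_lit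 24)) (cs (rf (nat_lit 29)) (cs (rf (nat_lit 31)) (rf (nat_lit 34)))))) (cs (nd (nat_lit 271) (nat_lit 0) (cs (rf (nat_lit 23)) (cs (rf (nat_lit 2)) (cs (rf (nat_lit 35)) (nd (nat_lit 227) (nat_lit 0) (cs (rf (nat_lit 36)) (cs (rf (nat_lit 12)) (nd (nat_lit 272) (nat_lit 0) (cs (rf (nat_lit 37)) (cs (nd (nat_lit 204) (nat_lit 0) (cs (lf (nat_lit 46) (nat_lit 204)) (nd (nat_lit 273) (nat_lit 0) (cs (lf (nat_lit 19) (nat_lit 249)) (rf (nat_lit 38)))))) (cs (nd (nat_lit 204) (nat_lit 0) (cs (lf (nat_lit 46) (nat_lit 204)) (nd (nat_lit 228) (nat_lit 0) (cs (lf (nat_lit 36) (nat_lit 205)) (nd (nat_lit 273) (nat_lit 0) (cs (lf (nat_lit 19) (nat_lit 249)) (rf (nat_lit 39)))))))) (cs (nd (nat_lit 294) (nat_lit 0) (cs (rf (nat_lit 9)) (nd (nat_lit 206) (nat_lit 0) (cs (lf (nat_lit 37) (nat_lit 205)) (rf (nat_lit 40)))))) (nd (nat_lit 294) (nat_lit 0) (cs (lf (nat_lit 42) (nat_lit 227)) (nd (nat_lit 206) (nat_lit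 0) (cs (lf (nat_lit 37) (nat_lit 205)) (rf (nat_lit 41)))))))))))))))))) (nd (nat_lit 271) (nat_lit 0) (cs (rf (nat_lit 23)) (cs (rf (nat_lit 1)) (cs (rf (nat_lit 2)) (nd (nat_lit 294) (nat_lit 0) (cs (rf (nat_lit 18)) (cs (rf (nat_lit 21)) (nd (nat_lit 227) (nat_lit 0) (cs (lf (nat_lit 29) (nat_lit 227)) (rf (nat_lit 13))))))))))))))))))))))) q62135 (by decide +kernel)
def q62399 : Q := Q.p (nat_lit 0x800002600001000010000000000000000000000000000000000000000000000000000) (nat_lit 0x380001e000070000080000e8000e7800ffe001ff000ffe000ff0001f8000380000a0000000000000) (nat_lit 15)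
theorem c62399 : QOK q62399 := cut [q62169, q62340, q62334, q558, q20060, q21734, q39388, q62346, q62345, q62373, q20056, q62260, q62276, q62374, q459, q62267, q62271, q62272, q62273, q4850, q32085, q32147, q32996, q33284, q61255, q62222, q4929, q32273, q32285, q62302, q2882, q20127, q62371, q56765, q18910, q17690, q26177, q62251, q58454] ⟨c62169, c62340, c62334, c558, c20060, c21734, c39388, c62346, c62345, c62373, c20056, c62260, c62276, c62374, c459, c62267, c62271, c62272, c62273, c4850, c32085, c32147, c32996, c33284, c61255, c62222, c4929, c32273, c32285, c62302, c2882, c20127, c62371, c56765, c18910, c17690, c26177, c62251, c58454, trivial⟩ (nd (nat_lit 186) (nat_lit 0) (cs (rf (nat_lit 0)) (cs (rf (nat_lit 1)) (cs (nd (nat_lit 164) (nat_lit 0) (cs (rf (nat_lit 2)) (cs (nd (nat_lit 142) (nat_lit 0) (cs (rf (nat_lit 3)) (cs (nd (nat_lit 119) (nat_lit 0) (cs (lf (nat_lit 46) (nat_lit 119))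 (nd (nat_lit 120) (nat_lit 0) (cs (lf (nat_lit 47) (nat_lit 97)) (nd (nat_lit 187) (nat_lit 0) (cs (lf (nat_lit 29) (nat_lit 120)) (rf (nat_lit 4)))))))) (cs (nd (nat_lit 165) (nat_lit 0) (cs (rf (nat_lit 5)) (cs (rf (nat_lit 6)) (rf (nat_lit 7))))) (nd (nat_lit 143) (nat_lit 0) (cs (lf (nat_lit 35) (nat_lit 120)) (nd (nat_lit 230) (nat_lit 0) (cs (lf (nat_lit 34) (nat_lit 142)) (rf (nat_lit 8)))))))))) (cs (rf (nat_lit 9)) (cs (nd (nat_lit 163) (nat_lit 0) (cs (rf (nat_lit 10)) (nd (nat_lit 184) (nat_lit 0) (cs (rf (nat_lit 11)) (cs (rf (nat_lit 12)) (cs (nd (nat_lit 162) (nat_lit 0) (cs (rf (nat_lit 13)) (nd (nat_lit 165) (nat_lit 0) (cs (rf (nat_lit 14)) (lf (nat_lit 11) (nat_lit 161)))))) (nd (nat_lit 183) (nat_lit 0) (cs (rf (nat_lit 15)) (cs (rf (nat_lit 16)) (cs (rf (nat_lit 17)) (rf (nat_lit 18)))))))))))) (cs (nd (nat_lit 165) (nat_lit 0) (cs (rf (nat_lit 19)) (cs (rf (nat_lit 7)) (nd (nat_lit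 166) (nat_lit 0) (cs (rf (nat_lit 20)) (cs (rf (nat_lit 21)) (cs (nd (nat_lit 167) (nat_lit 0) (cs (lf (nat_lit 11) (nat_lit 163)) (nd (nat_lit 145) (nat_lit 0) (cs (lf (nat_lit 17) (nat_lit 142)) (rf (nat_lit 22)))))) (nd (nat_lit 184) (nat_lit 0) (cs (rf (nat_lit 23)) (cs (rf (nat_lit 24)) (cs (rf (nat_lit 25)) (nd (nat_lit 162) (nat_lit 0) (cs (rf (nat_lit 13)) (nd (nat_lit 163) (nat_lit 0) (cs (rf (nat_lit 14)) (lf (nat_lit 11) (nat_lit 161))))))))))))))))) (cs (nd (nat_lit 142) (nat_lit 0) (cs (rf (nat_lit 3)) (cs (rf (nat_lit 26)) (cs (rf (nat_lit 27)) (cs (rf (nat_lit 28)) (nd (nat_lit 141) (nat_lit 0) (cs (lf (nat_lit 47) (nat_lit 119)) (nd (nat_lit 165) (nat_lit 0) (cs (rf (nat_lit 29)) (cs (nd (nat_lit 163) (nat_lit 0) (cs (lf (nat_lit 42) (nat_lit 141)) (nd (nat_lit 140) (nat_lit 0) (cs (lf (nat_lit 0) (nat_lit 139)) (lf (nat_lit 18) (nat_lit 140)))))) (nd (nat_lit 230) (nat_lit 0) (cs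 (lf (nat_lit 35) (nat_lit 142)) (lf (nat_lit 46) (nat_lit 141)))))))))))))) (nd (nat_lit 141) (nat_lit 0) (cs (rf (nat_lit 30)) (cs (rf (nat_lit 31)) (rf (nat_lit 32)))))))))))) (cs (nd (nat_lit 209) (nat_lit 0) (cs (lf (nat_lit 44) (nat_lit 186)) (nd (nat_lit 184) (nat_lit 0) (cs (rf (nat_lit 33)) (cs (nd (nat_lit 185) (nat_lit 0) (cs (rf (nat_lit 34)) (nd (nat_lit 206) (nat_lit 0) (cs (lf (nat_lit 35) (nat_lit 162)) (rf (nat_lit 35)))))) (nd (nat_lit 206) (nat_lit 0) (cs (rf (nat_lit 36)) (rf (nat_lit 37))))))))) (nd (nat_lit 164) (nat_lit 0) (cs (rf (nat_lit 38)) (rf (nat_lit 2))))))))) q62399 (by decide +kernel)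
def q62510 : Q := Q.p (nat_lit 0x800000600001000000000000000000000000000000000000000000000000000000000) (nat_lit 0x7e0000f80007780009c0000f00007c0001e000078000000000000000000000000000000000000000) (nat_lit 13)
theorem c62510 : QOK q62510 := cut [q62430, q56479, q40880, q15322, q62434, q62442, q62450, q62463, q56859, q62472, q62476, q51495, q62148, q62499, q62503, q62505] ⟨c62430, c56479, c40880, c15322, c62434, c62442, c62450, c62463, c56859, c62472, c62476, c51495, c62148, c62499, c62503, c62505, trivial⟩ (nd (nat_lit 227) (nat_lit 0) (cs (nd (nat_lit 248) (nat_lit 0) (cs (rf (nat_lit 0)) (cs (nd (nat_lit 226) (nat_lit 0) (cs (rf (nat_lit 1)) (cs (nd (nat_lit 270) (nat_lit 0) (cs (rf (nat_lit 2)) (cs (nd (nat_lit 251) (nat_lit 0) (cs (lf (nat_lit 11) (nat_lit 247)) (nd (nat_lit 273) (nat_lit 0) (cs (lf (nat_lit 5) (nat_lit 248)) (rf (nat_lit 3)))))) (nd (nat_lit 292) (nat_lit 0) (cs (lf (nat_lit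 30) (nat_lit 226)) (nd (nat_lit 293) (nat_lit 0) (cs (lf (nat_lit 29) (nat_lit 226)) (nd (nat_lit 294) (nat_lit 0) (cs (nd (nat_lit 316) (nat_lit 0) (cs (lf (nat_lit 44) (nat_lit 227)) (nd (nat_lit 291) (nat_lit 0) (cs (lf (nat_lit 41) (nat_lit 225)) (lf (nat_lit 5) (nat_lit 291)))))) (cs (nd (nat_lit 272) (nat_lit 0) (cs (lf (nat_lit 42) (nat_lit 227)) (rf (nat_lit 4)))) (cs (nd (nat_lit 291) (nat_lit 0) (cs (lf (nat_lit 41) (nat_lit 225)) (nd (nat_lit 317) (nat_lit 0) (cs (lf (nat_lit 4) (nat_lit 291)) (nd (nat_lit 295) (nat_lit 0) (cs (lf (nat_lit 5) (nat_lit 292)) (nd (nat_lit 273) (nat_lit 0) (cs (lf (nat_lit 45) (nat_lit 228)) (lf (nat_lit 17) (nat_lit 270)))))))))) (rf (nat_lit 5))))))))))))) (rf (nat_lit 6))))) (cs (nd (nat_lit 247) (nat_lit 0) (cs (lf (nat_lit 12) (nat_lit 224)) (nd (nat_lit 272) (nat_lit 0) (cs (lf (nat_lit 5) (nat_lit 247)) (nd (nat_lit 269) (nat_lit 0) (cs (lf (nat_lit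 11) (nat_lit 246)) (nd (nat_lit 270) (nat_lit 0) (cs (lf (nat_lit 6) (nat_lit 247)) (nd (nat_lit 292) (nat_lit 0) (cs (lf (nat_lit 30) (nat_lit 226)) (nd (nat_lit 294) (nat_lit 0) (cs (lf (nat_lit 42) (nat_lit 227)) (nd (nat_lit 293) (nat_lit 0) (cs (lf (nat_lit 41) (nat_lit 227)) (lf (nat_lit 18) (nat_lit 269)))))))))))))))) (cs (rf (nat_lit 7)) (nd (nat_lit 226) (nat_lit 0) (cs (rf (nat_lit 8)) (cs (rf (nat_lit 6)) (cs (rf (nat_lit 9)) (rf (nat_lit 10))))))))))) (cs (nd (nat_lit 272) (nat_lit 0) (cs (rf (nat_lit 11)) (nd (nat_lit 273) (nat_lit 0) (cs (lf (nat_lit 19) (nat_lit 249)) (rf (nat_lit 12)))))) (cs (rf (nat_lit 13)) (nd (nat_lit 272) (nat_lit 0) (cs (rf (nat_lit 11)) (cs (rf (nat_lit 14)) (nd (nat_lit 183) (nat_lit 0) (cs (lf (nat_lit 25) (nat_lit 183)) (nd (nat_lit 273) (nat_lit 0) (cs (lf (nat_lit 19) (nat_lit 249)) (nd (nat_lit 247) (nat_lit 0) (cs (lf (nat_lit 1) (nat_lit 247)) (rf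 (nat_lit 15))))))))))))))) q62510 (by decide +kernel)
def q62689 : Q := Q.p (nat_lit 0x800002600001000010000000000000000000000000000000000000000000000000000) (nat_lit 0xe0000380001780009c000ef00067c000fe0007f8000ff0003800006000000000000000000000000) (nat_lit 15)
theorem c62689 : QOK q62689 := cut [q62499, q62169, q62531, q62529, q3800, q58456, q27624, q62593, q62271, q39713, q8750, q62609, q62556, q56479, q56677, q62495, q62614, q62617, q62668, q62672, q62430, q62160, q62563, q62675, q26462, q62685, q62688] ⟨c62499, c62169, c62531, c62529, c3800, c58456, c27624, c62593, c62271, c39713, c8750, c62609, c62556, c56479, c56677, c62495, c62614, c62617, c62668, c62672, c62430, c62160, c62563, c62675, c26462, c62685, c62688, trivial⟩ (nd (nat_lit 227) (nat_lit 0) (cs (rf (nat_lit 0)) (cs (nd (nat_lit 183) (nat_lit 0) (cs (nd (nat_lit 205) (nat_lit 0) (cs (lf (nat_lit 24) (nat_lit 161)) (lf (nat_lit 29)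 (nat_lit 183)))) (cs (nd (nat_lit 186) (nat_lit 0) (cs (rf (nat_lit 1)) (cs (rf (nat_lit 2)) (cs (nd (nat_lit 184) (nat_lit 0) (cs (rf (nat_lit 3)) (cs (nd (nat_lit 161) (nat_lit 0) (cs (lf (nat_lit 44) (nat_lit 161)) (nd (nat_lit 185) (nat_lit 0) (cs (lf (nat_lit 23) (nat_lit 160)) (nd (nat_lit 164) (nat_lit 0) (cs (lf (nat_lit 17) (nat_lit 161)) (nd (nat_lit 163) (nat_lit 0) (cs (rf (nat_lit 4)) (lf (nat_lit 12) (nat_lit 160)))))))))) (cs (nd (nat_lit 164) (nat_lit 0) (cs (rf (nat_lit 5)) (cs (nd (nat_lit 162) (nat_lit 0) (cs (lf (nat_lit 38) (nat_lit 161)) (nd (nat_lit 230) (nat_lit 0) (cs (lf (nat_lit 28) (nat_lit 164)) (nd (nat_lit 229) (nat_lit 0) (cs (lf (nat_lit 41) (nat_lit 163)) (nd (nat_lit 163) (nat_lit 0) (cs (lf (nat_lit 47) (nat_lit 141)) (rf (nat_lit 6)))))))))) (cs (nd (nat_lit 165) (nat_lit 0) (cs (lf (nat_lit 14) (nat_lit 161)) (nd (nat_lit 162) (nat_lit 0) (cs (lf (nat_lit 8)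 (nat_lit 161)) (lf (nat_lit 38) (nat_lit 161)))))) (rf (nat_lit 7)))))) (nd (nat_lit 164) (nat_lit 0) (cs (rf (nat_lit 5)) (cs (rf (nat_lit 7)) (cs (nd (nat_lit 230) (nat_lit 0) (cs (lf (nat_lit 28) (nat_lit 164)) (nd (nat_lit 229) (nat_lit 0) (cs (lf (nat_lit 41) (nat_lit 163)) (nd (nat_lit 163) (nat_lit 0) (cs (lf (nat_lit 47) (nat_lit 141)) (rf (nat_lit 8)))))))) (nd (nat_lit 185) (nat_lit 0) (cs (lf (nat_lit 17) (nat_lit 161)) (nd (nat_lit 163) (nat_lit 0) (cs (lf (nat_lit 12) (nat_lit 160)) (nd (nat_lit 119) (nat_lit 0) (cs (lf (nat_lit 25) (nat_lit 119)) (nd (nat_lit 161) (nat_lit 0) (cs (lf (nat_lit 23) (nat_lit 160)) (nd (nat_lit 162) (nat_lit 0) (cs (lf (nat_lit 18) (nat_lit 161)) (nd (nat_lit 138) (nat_lit 0) (cs (lf (nat_lit 22) (nat_lit 138)) (rf (nat_lit 9)))))))))))))))))))))) (nd (nat_lit 184) (nat_lit 0) (cs (rf (nat_lit 3)) (nd (nat_lit 185) (nat_lit 0) (cs (lf (nat_lit 5) (nat_lit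 183)) (rf (nat_lit 10)))))))))) (nd (nat_lit 205) (nat_lit 0) (cs (lf (nat_lit 29) (nat_lit 183)) (nd (nat_lit 204) (nat_lit 0) (cs (rf (nat_lit 11)) (nd (nat_lit 182) (nat_lit 0) (cs (lf (nat_lit 47) (nat_lit 160)) (rf (nat_lit 12))))))))))) (cs (nd (nat_lit 226) (nat_lit 0) (cs (rf (nat_lit 13)) (cs (nd (nat_lit 248) (nat_lit 0) (cs (rf (nat_lit 14)) (cs (rf (nat_lit 15)) (nd (nat_lit 204) (nat_lit 0) (cs (rf (nat_lit 16)) (cs (nd (nat_lit 182) (nat_lit 0) (cs (lf (nat_lit 24) (nat_lit 160)) (nd (nat_lit 161) (nat_lit 0) (cs (lf (nat_lit 34) (nat_lit 160)) (rf (nat_lit 17)))))) (rf (nat_lit 18)))))))) (rf (nat_lit 19))))) (cs (nd (nat_lit 248) (nat_lit 0) (cs (rf (nat_lit 14)) (cs (rf (nat_lit 20)) (nd (nat_lit 226) (nat_lit 0) (cs (rf (nat_lit 13)) (cs (rf (nat_lit 21)) (nd (nat_lit 270) (nat_lit 0) (cs (rf (nat_lit 22)) (rf (nat_lit 23)))))))))) (cs (nd (nat_lit 248) (nat_lit 0) (cs (rf (nat_lit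 24)) (cs (rf (nat_lit 14)) (rf (nat_lit 25))))) (cs (nd (nat_lit 248) (nat_lit 0) (cs (rf (nat_lit 20)) (rf (nat_lit 25)))) (rf (nat_lit 26))))))))) q62689 (by decide +kernel)
def q62904 : Q := Q.p (nat_lit 0x40000000000600001000000000000000000000000000000000000000000000000000000000) (nat_lit 0xee0001f0000be0001780009c0006f00003c0000e000038000000000000000000000000000000000000000) (nat_lit 13)
theorem c62904 : QOK q62904 := cut [q61940, q62499, q56479, q40908, q56677, q62495, q62615, q62890, q62892, q62675, q62827, q62860] ⟨c61940, c62499, c56479, c40908, c56677, c62495, c62615, c62890, c62892, c62675, c62827, c62860, trivial⟩ (nd (nat_lit 227) (nat_lit 0) (cs (rf (nat_lit 0)) (cs (rf (nat_lit 1)) (nd (nat_lit 226) (nat_lit 0) (cs (rf (nat_lit 2)) (cs (nd (nat_lit 225) (nat_lit 0) (cs (lf (nat_lit 0) (nat_lit 224)) (nd (nat_lit 202) (nat_lit 0) (cs (lf (nat_lit 22) (nat_lit 202)) (nd (nat_lit 247)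 (nat_lit 0) (cs (lf (nat_lit 11) (nat_lit 224)) (nd (nat_lit 248) (nat_lit 0) (cs (lf (nat_lit 17) (nat_lit 225)) (rf (nat_lit 3)))))))))) (nd (nat_lit 248) (nat_lit 0) (cs (rf (nat_lit 4)) (cs (rf (nat_lit 5)) (nd (nat_lit 315) (nat_lit 0) (cs (nd (nat_lit 272) (nat_lit 0) (cs (lf (nat_lit 42) (nat_lit 227)) (lf (nat_lit 40) (nat_lit 227)))) (cs (nd (nat_lit 314) (nat_lit 0) (cs (nd (nat_lit 229) (nat_lit 0) (cs (lf (nat_lit 6) (nat_lit 226)) (nd (nat_lit 204) (nat_lit 0) (cs (lf (nat_lit 23) (nat_lit 203)) (nd (nat_lit 270) (nat_lit 0) (cs (rf (nat_lit 6)) (lf (nat_lit 31) (nat_lit 226)))))))) (cs (nd (nat_lit 316) (nat_lit 0) (cs (lf (nat_lit 44) (nat_lit 227)) (rf (nat_lit 7)))) (nd (nat_lit 229) (nat_lit 0) (cs (lf (nat_lit 6) (nat_lit 226)) (nd (nat_lit 203) (nat_lit 0) (cs (lf (nat_lit 22) (nat_lit 203)) (nd (nat_lit 316) (nat_lit 0) (cs (lf (nat_lit 44) (nat_lit 227)) (nd (nat_lit 313) (nat_lit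 0) (cs (lf (nat_lit 17) (nat_lit 291)) (nd (nat_lit 334) (nat_lit 0) (cs (lf (nat_lit 10) (nat_lit 312)) (nd (nat_lit 312) (nat_lit 0) (cs (lf (nat_lit 11) (nat_lit 311)) (rf (nat_lit 8))))))))))))))))) (nd (nat_lit 270) (nat_lit 0) (cs (rf (nat_lit 9)) (cs (rf (nat_lit 10)) (rf (nat_lit 11))))))))))))))))) q62904 (by decide +kernel)
def q63536 : Q := Q.p (nat_lit 0x800000600000000010000000000000000000000000000000000000000000000000000) (nat_lit 0xfc000ff8003fe001ffc00fff01dffc037fe0009f00077c0007f0001f00003c000050000000000000000000000000000000000) (nat_lit 16)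
theorem c63536 : QOK q63536 := cut [q62911, q57373, q63292, q63294, q63299, q63301, q63311, q62512, q63307, q60326, q63322, q11170, q63483, q63492, q63510, q63519, q63535] ⟨c62911, c57373, c63292, c63294, c63299, c63301, c63311, c62512, c63307, c60326, c63322, c11170, c63483, c63492, c63510, c63519, c63535, trivial⟩ (nd (nat_lit 248) (nat_lit 0) (cs (rf (nat_lit 0)) (cs (nd (nat_lit 270) (nat_lit 0) (cs (rf (nat_lit 1)) (cs (rf (nat_lit 2)) (cs (nd (nat_lit 226) (nat_lit 0) (cs (rf (nat_lit 3)) (cs (nd (nat_lit 204) (nat_lit 0) (cs (nd (nat_lit 225) (nat_lit 0) (cs (lf (nat_lit 18) (nat_lit 225)) (nd (nat_lit 224) (nat_lit 0) (cs (lf (nat_lit 0) (nat_lit 223)) (nd (nat_lit 205) (nat_lit 0) (cs (lf (nat_lit 35) (nat_lit 182)) (nd (nat_lit 203) (nat_lit 0) (cs (lf (nat_lit 47) (nat_lit 181)) (lf (nat_lit 6) (nat_lit 202)))))))))) (rf (nat_lit 4)))) (cs (nd (nat_lit 225) (nat_lit 0) (cs (lf (nat_lit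 18) (nat_lit 225)) (nd (nat_lit 223) (nat_lit 0) (cs (lf (nat_lit 1) (nat_lit 223)) (nd (nat_lit 292) (nat_lit 0) (cs (lf (nat_lit 47) (nat_lit 203)) (rf (nat_lit 5)))))))) (cs (rf (nat_lit 6)) (nd (nat_lit 292) (nat_lit 0) (cs (rf (nat_lit 7)) (cs (rf (nat_lit 8)) (cs (nd (nat_lit 293) (nat_lit 0) (cs (lf (nat_lit 29) (nat_lit 226)) (nd (nat_lit 271) (nat_lit 0) (cs (lf (nat_lit 24) (nat_lit 204)) (nd (nat_lit 314) (nat_lit 0) (cs (lf (nat_lit 30) (nat_lit 248)) (nd (nat_lit 251) (nat_lit 0) (cs (lf (nat_lit 23) (nat_lit 225)) (nd (nat_lit 229) (nat_lit 0) (cs (lf (nat_lit 17) (nat_lit 226)) (nd (nat_lit 273) (nat_lit 0) (cs (lf (nat_lit 5) (nat_lit 248)) (nd (nat_lit 272) (nat_lit 0) (cs (lf (nat_lit 11) (nat_lit 269)) (nd (nat_lit 294) (nat_lit 0) (cs (lf (nat_lit 30) (nat_lit 228)) (nd (nat_lit 295) (nat_lit 0) (cs (lf (nat_lit 5) (nat_lit 270)) (rf (nat_lit 9)))))))))))))))))))) (cs (nd (nat_lit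 315) (nat_lit 0) (cs (lf (nat_lit 28) (nat_lit 226)) (nd (nat_lit 225) (nat_lit 0) (cs (lf (nat_lit 18) (nat_lit 225)) (nd (nat_lit 223) (nat_lit 0) (cs (lf (nat_lit 1) (nat_lit 223)) (rf (nat_lit 10)))))))) (nd (nat_lit 271) (nat_lit 0) (cs (rf (nat_lit 11)) (nd (nat_lit 291) (nat_lit 0) (cs (lf (nat_lit 41) (nat_lit 225)) (nd (nat_lit 289) (nat_lit 0) (cs (lf (nat_lit 13) (nat_lit 267)) (nd (nat_lit 273) (nat_lit 0) (cs (lf (nat_lit 7) (nat_lit 269)) (nd (nat_lit 251) (nat_lit 0) (cs (lf (nat_lit 23) (nat_lit 225)) (lf (nat_lit 5) (nat_lit 248)))))))))))))))))))))) (rf (nat_lit 12)))))) (cs (rf (nat_lit 13)) (cs (rf (nat_lit 14)) (cs (rf (nat_lit 15)) (rf (nat_lit 16)))))))) q63536 (by decide +kernel)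
def q64156 : Q := Q.p (nat_lit 0x700000000000000000000000000000000000000000000000000000000000000) (nat_lit 0x80000b80002e0001f80007c000084000ffc0007f0007fc0007e0000f8000280000000000000000000000000000) (nat_lit 15)
theorem c64156 : QOK q64156 := cut [q60700, q64116, q44575, q56421, q56438, q63757, q57615, q63739, q62513, q44646, q44580, q63799, q26229, q64129, q26211, q64024, q64136, q64140, q64143, q40888] ⟨c60700, c64116, c44575, c56421, c56438, c63757, c57615, c63739, c62513, c44646, c44580, c63799, c26229, c64129, c26211, c64024, c64136, c64140, c64143, c40888, trivial⟩ (nd (nat_lit 226) (nat_lit 0) (cs (rf (nat_lit 0)) (cs (rf (nat_lit 1)) (cs (nd (nat_lit 204) (nat_lit 0) (cs (rf (nat_lit 2)) (cs (rf (nat_lit 3)) (cs (rf (nat_lit 4)) (cs (rf (nat_lit 5)) (nd (nat_lit 270) (nat_lit 0) (cs (rf (nat_lit 6)) (cs (rf (nat_lit 7)) (nd (nat_lit 205) (nat_lit 0) (cs (lf (nat_lit 35) (nat_lit 182))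 (nd (nat_lit 203) (nat_lit 0) (cs (lf (nat_lit 47) (nat_lit 181)) (nd (nat_lit 228) (nat_lit 0) (cs (rf (nat_lit 8)) (nd (nat_lit 202) (nat_lit 0) (cs (lf (nat_lit 4) (nat_lit 202)) (rf (nat_lit 9)))))))))))))))))) (cs (nd (nat_lit 204) (nat_lit 0) (cs (rf (nat_lit 2)) (cs (rf (nat_lit 3)) (cs (rf (nat_lit 4)) (cs (rf (nat_lit 5)) (nd (nat_lit 271) (nat_lit 0) (cs (rf (nat_lit 10)) (cs (rf (nat_lit 11)) (nd (nat_lit 203) (nat_lit 0) (cs (rf (nat_lit 12)) (cs (nd (nat_lit 251) (nat_lit 0) (cs (lf (nat_lit 23) (nat_lit 225)) (nd (nat_lit 229) (nat_lit 0) (cs (lf (nat_lit 17) (nat_lit 226)) (nd (nat_lit 228) (nat_lit 0) (cs (lf (nat_lit 20) (nat_lit 203)) (nd (nat_lit 206) (nat_lit 0) (cs (lf (nat_lit 36) (nat_lit 183)) (lf (nat_lit 2) (nat_lit 203)))))))))) (nd (nat_lit 270) (nat_lit 0) (cs (lf (nat_lit 47) (nat_lit 181)) (rf (nat_lit 13))))))))))))))) (nd (nat_lit 204) (nat_lit 0) (cs (rf (nat_lit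 2)) (cs (rf (nat_lit 3)) (cs (rf (nat_lit 4)) (cs (rf (nat_lit 5)) (nd (nat_lit 271) (nat_lit 0) (cs (rf (nat_lit 10)) (cs (rf (nat_lit 11)) (nd (nat_lit 270) (nat_lit 0) (cs (rf (nat_lit 14)) (cs (rf (nat_lit 15)) (cs (rf (nat_lit 16)) (nd (nat_lit 227) (nat_lit 0) (cs (nd (nat_lit 205) (nat_lit 0) (cs (lf (nat_lit 35) (nat_lit 182)) (rf (nat_lit 17)))) (cs (nd (nat_lit 225) (nat_lit 0) (cs (lf (nat_lit 0) (nat_lit 224)) (rf (nat_lit 18)))) (nd (nat_lit 205) (nat_lit 0) (cs (lf (nat_lit 35) (nat_lit 182)) (nd (nat_lit 224) (nat_lit 0) (cs (lf (nat_lit 1) (nat_lit 224)) (nd (nat_lit 272) (nat_lit 0) (cs (lf (nat_lit 29) (nat_lit 205)) (nd (nat_lit 273) (nat_lit 0) (cs (lf (nat_lit 18) (nat_lit 248)) (nd (nat_lit 295) (nat_lit 0) (cs (lf (nat_lit 5) (nat_lit 270)) (nd (nat_lit 317) (nat_lit 0) (cs (lf (nat_lit 42) (nat_lit 250)) (nd (nat_lit 184) (nat_lit 0) (cs (rf (nat_lit 19)) (lf (nat_lit 34)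 (nat_lit 183)))))))))))))))))))))))))))))))))))) q64156 (by decide +kernel)
def q64164 : Q := Q.p (nat_lit 0x800002700000000010000000000000000000000000000000000000000000000000000) (nat_lit 0xc000038001de000378000088000f8000660001f80005e0000200000000000000000000000000000000000) (nat_lit 10)
theorem c64164 : QOK q64164 := cut [q26200, q62426, q63991] ⟨c26200, c62426, c63991, trivial⟩ (nd (nat_lit 228) (nat_lit 0) (cs (rf (nat_lit 0)) (cs (rf (nat_lit 1)) (rf (nat_lit 2))))) q64164 (by decide +kernel)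
def q64406 : Q := Q.p (nat_lit 0x800002600000000010000000000000000000000000000000000000000000000000000) (nat_lit 0x100000400003c0001ffc01dfe0037b80009c000ff801e7c007ff003ffc003fd0003c0000e0000380000a0000000000000) (nat_lit 16)
theorem c64406 : QOK q64406 := cut [q62426, q62697, q63918, q63991, q56677, q62430, q56479, q64241, q5153, q62609, q57098, q64314, q64310, q57552, q56824, q64315, q62755, q38317, q45595, q45598, q64322, q44706, q64332, q64368, q62314, q64398, q64405] ⟨c62426, c62697, c63918, c63991, c56677, c62430, c56479, c64241, c5153, c62609, c57098, c64314, c64310, c57552, c56824, c64315, c62755, c38317, c45595, c45598, c64322, c44706, c64332, c64368, c62314, c64398, c64405, trivial⟩ (nd (nat_lit 228) (nat_lit 0) (cs (rf (nat_lit 0)) (cs (rf (nat_lit 1)) (cs (rf (nat_lit 2)) (cs (rf (nat_lit 3)) (cs (nd (nat_lit 227) (nat_lit 0) (cs (nd (nat_lit 248) (nat_lit 0) (cs (rf (nat_lit 4)) (cs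 (rf (nat_lit 5)) (nd (nat_lit 226) (nat_lit 0) (cs (rf (nat_lit 6)) (nd (nat_lit 229) (nat_lit 0) (cs (lf (nat_lit 6) (nat_lit 226)) (nd (nat_lit 204) (nat_lit 0) (cs (lf (nat_lit 23) (nat_lit 203)) (rf (nat_lit 7))))))))))) (cs (nd (nat_lit 205) (nat_lit 0) (cs (rf (nat_lit 8)) (cs (nd (nat_lit 204) (nat_lit 0) (cs (rf (nat_lit 9)) (cs (nd (nat_lit 294) (nat_lit 0) (cs (lf (nat_lit 43) (nat_lit 205)) (nd (nat_lit 202) (nat_lit 0) (cs (lf (nat_lit 1) (nat_lit 202)) (nd (nat_lit 229) (nat_lit 0) (cs (lf (nat_lit 18) (nat_lit 204)) (nd (nat_lit 271) (nat_lit 0) (cs (lf (nat_lit 47) (nat_lit 182)) (nd (nat_lit 293) (nat_lit 0) (cs (lf (nat_lit 29) (nat_lit 227)) (lf (nat_lit 30) (nat_lit 227)))))))))))) (nd (nat_lit 272) (nat_lit 0) (cs (lf (nat_lit 42) (nat_lit 205)) (rf (nat_lit 10))))))) (nd (nat_lit 183) (nat_lit 0) (cs (lf (nat_lit 24) (nat_lit 161)) (nd (nat_lit 162) (nat_lit 0) (cs (lf (nat_lit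 34) (nat_lit 161)) (nd (nat_lit 182) (nat_lit 0) (cs (lf (nat_lit 47) (nat_lit 160)) (nd (nat_lit 204) (nat_lit 0) (cs (lf (nat_lit 42) (nat_lit 182)) (nd (nat_lit 203) (nat_lit 0) (cs (lf (nat_lit 0) (nat_lit 202)) (nd (nat_lit 229) (nat_lit 0) (cs (lf (nat_lit 18) (nat_lit 204)) (lf (nat_lit 21) (nat_lit 203))))))))))))))))) (cs (rf (nat_lit 11)) (cs (nd (nat_lit 205) (nat_lit 0) (cs (rf (nat_lit 8)) (cs (rf (nat_lit 12)) (nd (nat_lit 225) (nat_lit 0) (cs (rf (nat_lit 13)) (cs (nd (nat_lit 247) (nat_lit 0) (cs (rf (nat_lit 14)) (cs (nd (nat_lit 248) (nat_lit 0) (cs (lf (nat_lit 23) (nat_lit 224)) (rf (nat_lit 15)))) (cs (nd (nat_lit 248) (nat_lit 0) (cs (lf (nat_lit 12) (nat_lit 224)) (rf (nat_lit 15)))) (nd (nat_lit 203) (nat_lit 0) (cs (rf (nat_lit 16)) (cs (nd (nat_lit 181) (nat_lit 0) (cs (nd (nat_lit 272) (nat_lit 0) (cs (lf (nat_lit 42) (nat_lit 205)) (nd (nat_lit 273) (nat_lit 0) (cs (lf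 (nat_lit 19) (nat_lit 249)) (nd (nat_lit 158) (nat_lit 0) (cs (lf (nat_lit 46) (nat_lit 158)) (nd (nat_lit 159) (nat_lit 0) (cs (lf (nat_lit 47) (nat_lit 136)) (rf (nat_lit 17)))))))))) (nd (nat_lit 182) (nat_lit 0) (cs (lf (nat_lit 35) (nat_lit 159)) (nd (nat_lit 204) (nat_lit 0) (cs (lf (nat_lit 42) (nat_lit 182)) (lf (nat_lit 30) (nat_lit 181)))))))) (cs (nd (nat_lit 181) (nat_lit 0) (cs (rf (nat_lit 18)) (cs (rf (nat_lit 19)) (nd (nat_lit 272) (nat_lit 0) (cs (lf (nat_lit 42) (nat_lit 205)) (rf (nat_lit 20))))))) (nd (nat_lit 204) (nat_lit 0) (cs (lf (nat_lit 0) (nat_lit 202)) (nd (nat_lit 272) (nat_lit 0) (cs (lf (nat_lit 42) (nat_lit 205)) (nd (nat_lit 182) (nat_lit 0) (cs (lf (nat_lit 42) (nat_lit 182)) (rf (nat_lit 21)))))))))))))))) (nd (nat_lit 272) (nat_lit 0) (cs (lf (nat_lit 42) (nat_lit 205)) (nd (nat_lit 226) (nat_lit 0) (cs (lf (nat_lit 5) (nat_lit 225)) (rf (nat_lit 22))))))))))))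 (cs (rf (nat_lit 23)) (cs (nd (nat_lit 248) (nat_lit 0) (cs (rf (nat_lit 4)) (cs (rf (nat_lit 5)) (nd (nat_lit 226) (nat_lit 0) (cs (rf (nat_lit 6)) (nd (nat_lit 229) (nat_lit 0) (cs (lf (nat_lit 6) (nat_lit 226)) (nd (nat_lit 204) (nat_lit 0) (cs (lf (nat_lit 23) (nat_lit 203)) (nd (nat_lit 182) (nat_lit 0) (cs (lf (nat_lit 24) (nat_lit 160)) (nd (nat_lit 159) (nat_lit 0) (cs (lf (nat_lit 46) (nat_lit 159)) (nd (nat_lit 183) (nat_lit 0) (cs (lf (nat_lit 35) (nat_lit 160)) (nd (nat_lit 272) (nat_lit 0) (cs (lf (nat_lit 25) (nat_lit 183)) (nd (nat_lit 274) (nat_lit 0) (cs (lf (nat_lit 20) (nat_lit 249)) (rf (nat_lit 24))))))))))))))))))))) (rf (nat_lit 25))))))))) (rf (nat_lit 26)))))))) q64406 (by decide +kernel)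
def q64520 : Q := Q.p (nat_lit 0x800002700000000010000000000000000000000000000000000000000000000000000) (nat_lit 0x80001e0000fc0001f80008c000fc001e78007fc003ff8003f80003c0000e0000380000a0000000000000) (nat_lit 14)
theorem c64520 : QOK q64520 := cut [q26200, q26237, q64405, q61276, q61331, q63518, q26626, q64492, q64498, q62483, q64507, q59916] ⟨c26200, c26237, c64405, c61276, c61331, c63518, c26626, c64492, c64498, c62483, c64507, c59916, trivial⟩ (nd (nat_lit 228) (nat_lit 0) (cs (rf (nat_lit 0)) (cs (rf (nat_lit 1)) (cs (rf (nat_lit 2)) (nd (nat_lit 271) (nat_lit 0) (cs (rf (nat_lit 3)) (cs (rf (nat_lit 4)) (cs (nd (nat_lit 269) (nat_lit 0) (cs (rf (nat_lit 5)) (cs (nd (nat_lit 184) (nat_lit 0) (cs (lf (nat_lit 37) (nat_lit 183)) (nd (nat_lit 247) (nat_lit 0) (cs (lf (nat_lit 11) (nat_lit 246)) (nd (nat_lit 246) (nat_lit 0) (cs (lf (nat_lit 16) (nat_lit 224)) (lf (nat_lit 5) (nat_lit 246))))))))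 (nd (nat_lit 205) (nat_lit 0) (cs (nd (nat_lit 206) (nat_lit 0) (cs (lf (nat_lit 36) (nat_lit 183)) (rf (nat_lit 6)))) (cs (nd (nat_lit 270) (nat_lit 0) (cs (lf (nat_lit 6) (nat_lit 247)) (nd (nat_lit 206) (nat_lit 0) (cs (lf (nat_lit 36) (nat_lit 183)) (nd (nat_lit 272) (nat_lit 0) (cs (lf (nat_lit 47) (nat_lit 183)) (nd (nat_lit 246) (nat_lit 0) (cs (lf (nat_lit 1) (nat_lit 246)) (rf (nat_lit 7)))))))))) (cs (nd (nat_lit 270) (nat_lit 0) (cs (lf (nat_lit 6) (nat_lit 247)) (nd (nat_lit 227) (nat_lit 0) (cs (lf (nat_lit 41) (nat_lit 204)) (nd (nat_lit 246) (nat_lit 0) (cs (lf (nat_lit 13) (nat_lit 224)) (nd (nat_lit 272) (nat_lit 0) (cs (lf (nat_lit 42) (nat_lit 205)) (rf (nat_lit 8)))))))))) (nd (nat_lit 270) (nat_lit 0) (cs (lf (nat_lit 6) (nat_lit 247)) (nd (nat_lit 227) (nat_lit 0) (cs (lf (nat_lit 41) (nat_lit 204)) (lf (nat_lit 36) (nat_lit 182))))))))))))) (nd (nat_lit 227) (nat_lit 0) (cs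 (rf (nat_lit 9)) (cs (nd (nat_lit 293) (nat_lit 0) (cs (lf (nat_lit 30) (nat_lit 227)) (rf (nat_lit 10)))) (cs (nd (nat_lit 293) (nat_lit 0) (cs (lf (nat_lit 30) (nat_lit 227)) (nd (nat_lit 294) (nat_lit 0) (cs (lf (nat_lit 29) (nat_lit 227)) (nd (nat_lit 204) (nat_lit 0) (cs (lf (nat_lit 46) (nat_lit 204)) (nd (nat_lit 292) (nat_lit 0) (cs (lf (nat_lit 41) (nat_lit 226)) (nd (nat_lit 247) (nat_lit 0) (cs (lf (nat_lit 12) (nat_lit 224)) (nd (nat_lit 269) (nat_lit 0) (cs (lf (nat_lit 11) (nat_lit 246)) (nd (nat_lit 270) (nat_lit 0) (cs (lf (nat_lit 6) (nat_lit 247)) (lf (nat_lit 18) (nat_lit 269)))))))))))))))) (nd (nat_lit 246) (nat_lit 0) (cs (lf (nat_lit 13) (nat_lit 224)) (nd (nat_lit 293) (nat_lit 0) (cs (lf (nat_lit 30) (nat_lit 227)) (rf (nat_lit 11)))))))))))))))))) q64520 (by decide +kernel)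
def q64647 : Q := Q.p (nat_lit 0x800000600000000000000000000000000000000000000000000000000000000000000) (nat_lit 0x80001f001dfe0037f80009e0007fe0007f80017e0001c000070000000000000000000000000000000000) (nat_lit 16)
theorem c64647 : QOK q64647 := cut [q62911, q63492, q63519, q63535, q60700, q57373, q63537, q56430, q64020, q64581, q64593, q44581, q56438, q26229, q44607, q62707, q64023, q64595, q64610, q35305, q63759, q64627, q41305, q64637, q64644] ⟨c62911, c63492, c63519, c63535, c60700, c57373, c63537, c56430, c64020, c64581, c64593, c44581, c56438, c26229, c44607, c62707, c64023, c64595, c64610, c35305, c63759, c64627, c41305, c64637, c64644, trivial⟩ (nd (nat_lit 248) (nat_lit 0) (cs (rf (nat_lit 0)) (cs (rf (nat_lit 1)) (cs (rf (nat_lit 2)) (cs (rf (nat_lit 3)) (nd (nat_lit 226) (nat_lit 0) (cs (rf (nat_lit 4)) (cs (nd (nat_lit 270) (nat_lit 0) (cs (rf (nat_lit 5)) (cs (rf (nat_lit 6)) (nd (nat_lit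 293) (nat_lit 0) (cs (rf (nat_lit 7)) (cs (nd (nat_lit 204) (nat_lit 0) (cs (lf (nat_lit 28) (nat_lit 204)) (rf (nat_lit 8)))) (rf (nat_lit 9)))))))) (cs (rf (nat_lit 10)) (nd (nat_lit 204) (nat_lit 0) (cs (rf (nat_lit 11)) (cs (rf (nat_lit 12)) (cs (nd (nat_lit 203) (nat_lit 0) (cs (rf (nat_lit 13)) (cs (rf (nat_lit 14)) (cs (nd (nat_lit 202) (nat_lit 0) (cs (nd (nat_lit 227) (nat_lit 0) (cs (nd (nat_lit 270) (nat_lit 0) (cs (rf (nat_lit 15)) (cs (rf (nat_lit 16)) (nd (nat_lit 160) (nat_lit 0) (cs (lf (nat_lit 25) (nat_lit 160)) (nd (nat_lit 269) (nat_lit 0) (cs (lf (nat_lit 41) (nat_lit 203)) (nd (nat_lit 267) (nat_lit 0) (cs (lf (nat_lit 13) (nat_lit 245)) (nd (nat_lit 224) (nat_lit 0) (cs (lf (nat_lit 1) (nat_lit 224)) (nd (nat_lit 223) (nat_lit 0) (cs (lf (nat_lit 6) (nat_lit 201)) (nd (nat_lit 221) (nat_lit 0) (cs (nd (nat_lit 245) (nat_lit 0) (cs (lf (nat_lit 30) (nat_lit 201)) (rf (nat_lit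 17)))) (lf (nat_lit 13) (nat_lit 199))))))))))))))))) (cs (nd (nat_lit 228) (nat_lit 0) (cs (lf (nat_lit 18) (nat_lit 203)) (lf (nat_lit 3) (nat_lit 202)))) (nd (nat_lit 228) (nat_lit 0) (cs (lf (nat_lit 21) (nat_lit 202)) (lf (nat_lit 18) (nat_lit 203))))))) (cs (nd (nat_lit 223) (nat_lit 0) (cs (nd (nat_lit 224) (nat_lit 0) (cs (lf (nat_lit 6) (nat_lit 201)) (lf (nat_lit 2) (nat_lit 223)))) (cs (nd (nat_lit 201) (nat_lit 0) (cs (lf (nat_lit 11) (nat_lit 200)) (rf (nat_lit 18)))) (nd (nat_lit 205) (nat_lit 0) (cs (lf (nat_lit 10) (nat_lit 201)) (nd (nat_lit 179) (nat_lit 0) (cs (lf (nat_lit 22) (nat_lit 179)) (nd (nat_lit 201) (nat_lit 0) (cs (lf (nat_lit 23) (nat_lit 178)) (lf (nat_lit 11) (nat_lit 200))))))))))) (cs (nd (nat_lit 201) (nat_lit 0) (cs (rf (nat_lit 19)) (lf (nat_lit 5) (nat_lit 201)))) (nd (nat_lit 201) (nat_lit 0) (cs (lf (nat_lit 5) (nat_lit 201)) (rf (nat_lit 18)))))))) (nd (nat_lit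 224) (nat_lit 0) (cs (rf (nat_lit 20)) (cs (nd (nat_lit 202) (nat_lit 0) (cs (nd (nat_lit 201) (nat_lit 0) (cs (lf (nat_lit 5) (nat_lit 201)) (nd (nat_lit 178) (nat_lit 0) (cs (lf (nat_lit 22) (nat_lit 178)) (nd (nat_lit 200) (nat_lit 0) (cs (lf (nat_lit 23) (nat_lit 177)) (nd (nat_lit 181) (nat_lit 0) (cs (nd (nat_lit 180) (nat_lit 0) (cs (lf (nat_lit 12) (nat_lit 177)) (nd (nat_lit 159) (nat_lit 0) (cs (lf (nat_lit 36) (nat_lit 136)) (lf (nat_lit 30) (nat_lit 158)))))) (lf (nat_lit 17) (nat_lit 178)))))))))) (cs (nd (nat_lit 201) (nat_lit 0) (cs (lf (nat_lit 5) (nat_lit 201)) (rf (nat_lit 21)))) (nd (nat_lit 205) (nat_lit 0) (cs (lf (nat_lit 11) (nat_lit 201)) (nd (nat_lit 180) (nat_lit 0) (cs (lf (nat_lit 23) (nat_lit 179)) (nd (nat_lit 181) (nat_lit 0) (cs (lf (nat_lit 18) (nat_lit 180)) (nd (nat_lit 159) (nat_lit 0) (cs (lf (nat_lit 45) (nat_lit 159)) (lf (nat_lit 36) (nat_lit 136)))))))))))))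 (cs (nd (nat_lit 227) (nat_lit 0) (cs (lf (nat_lit 1) (nat_lit 224)) (nd (nat_lit 228) (nat_lit 0) (cs (lf (nat_lit 18) (nat_lit 203)) (rf (nat_lit 22)))))) (nd (nat_lit 223) (nat_lit 0) (cs (lf (nat_lit 2) (nat_lit 223)) (nd (nat_lit 202) (nat_lit 0) (cs (lf (nat_lit 6) (nat_lit 201)) (rf (nat_lit 23)))))))))))))) (rf (nat_lit 24))))))))))))))) q64647 (by decide +kernel)
def q64747 : Q := Q.p (nat_lit 0x40000800002600000000010000000000000000000000000000000000000000000000000000) (nat_lit 0x3c0000f0000ef801dbe0037fc00098000f8001e78007fc003ff8003f80003c0000e0000380000a0000000000000) (nat_lit 15)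
theorem c64747 : QOK q64747 := cut [q61789, q61949, q64671, q61785, q61787, q14508, q64673, q58732, q62426, q63918, q63960, q56474, q58513, q61516, q47485, q56973, q64660, q64735, q61546, q61966, q61636, q64739] ⟨c61789, c61949, c64671, c61785, c61787, c14508, c64673, c58732, c62426, c63918, c63960, c56474, c58513, c61516, c47485, c56973, c64660, c64735, c61546, c61966, c61636, c64739, trivial⟩ (nd (nat_lit 293) (nat_lit 0) (cs (rf (nat_lit 0)) (cs (rf (nat_lit 1)) (cs (rf (nat_lit 2)) (cs (nd (nat_lit 295) (nat_lit 0) (cs (rf (nat_lit 3)) (cs (rf (nat_lit 4)) (nd (nat_lit 292) (nat_lit 0) (cs (rf (nat_lit 5)) (cs (rf (nat_lit 6)) (cs (nd (nat_lit 317) (nat_lit 0) (cs (lf (nat_lit 5) (nat_lit 292)) (nd (nat_lit 269) (nat_lit 0) (cs (lf (nat_lit 22) (nat_lit 269)) (nd (nat_lit 291) (nat_lit 0) (cs (lf (nat_lit 23) (nat_lit 268)) (nd (nat_lit 272) (nat_lit 0) (cs (lf (nat_lit 17) (nat_lit 269)) (nd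 (nat_lit 290) (nat_lit 0) (cs (lf (nat_lit 16) (nat_lit 268)) (rf (nat_lit 7)))))))))))) (nd (nat_lit 317) (nat_lit 0) (cs (lf (nat_lit 5) (nat_lit 292)) (nd (nat_lit 269) (nat_lit 0) (cs (lf (nat_lit 22) (nat_lit 269)) (nd (nat_lit 291) (nat_lit 0) (cs (lf (nat_lit 23) (nat_lit 268)) (nd (nat_lit 272) (nat_lit 0) (cs (lf (nat_lit 17) (nat_lit 269)) (nd (nat_lit 271) (nat_lit 0) (cs (lf (nat_lit 12) (nat_lit 268)) (nd (nat_lit 227) (nat_lit 0) (cs (lf (nat_lit 41) (nat_lit 226)) (lf (nat_lit 24) (nat_lit 205))))))))))))))))))))) (cs (nd (nat_lit 228) (nat_lit 0) (cs (rf (nat_lit 8)) (cs (rf (nat_lit 9)) (rf (nat_lit 10))))) (cs (nd (nat_lit 228) (nat_lit 0) (cs (rf (nat_lit 9)) (cs (rf (nat_lit 10)) (nd (nat_lit 272) (nat_lit 0) (cs (lf (nat_lit 41) (nat_lit 227)) (nd (nat_lit 205) (nat_lit 0) (cs (lf (nat_lit 46) (nat_lit 205)) (nd (nat_lit 206) (nat_lit 0) (cs (lf (nat_lit 47) (nat_lit 183)) (nd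 (nat_lit 273) (nat_lit 0) (cs (lf (nat_lit 19) (nat_lit 249)) (nd (nat_lit 247) (nat_lit 0) (cs (lf (nat_lit 1) (nat_lit 247)) (rf (nat_lit 11))))))))))))))) (nd (nat_lit 271) (nat_lit 0) (cs (rf (nat_lit 12)) (cs (rf (nat_lit 13)) (cs (nd (nat_lit 315) (nat_lit 0) (cs (rf (nat_lit 14)) (cs (rf (nat_lit 15)) (cs (nd (nat_lit 337) (nat_lit 0) (cs (lf (nat_lit 34) (nat_lit 249)) (nd (nat_lit 338) (nat_lit 0) (cs (lf (nat_lit 29) (nat_lit 271)) (rf (nat_lit 16)))))) (nd (nat_lit 272) (nat_lit 0) (cs (lf (nat_lit 30) (nat_lit 249)) (rf (nat_lit 17)))))))) (nd (nat_lit 270) (nat_lit 0) (cs (rf (nat_lit 18)) (cs (rf (nat_lit 19)) (nd (nat_lit 292) (nat_lit 0) (cs (rf (nat_lit 20)) (cs (rf (nat_lit 21)) (nd (nat_lit 295) (nat_lit 0) (cs (lf (nat_lit 18) (nat_lit 270)) (nd (nat_lit 317) (nat_lit 0) (cs (lf (nat_lit 5) (nat_lit 292)) (nd (nat_lit 228) (nat_lit 0) (cs (lf (nat_lit 26) (nat_lit 228)) (nd (nat_lit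 227) (nat_lit 0) (cs (lf (nat_lit 36) (nat_lit 204)) (lf (nat_lit 35) (nat_lit 205))))))))))))))))))))))))))) q64747 (by decide +kernel)
def q64880 : Q := Q.p (nat_lit 0x40000800002600000000010000000000000000000000000000000000000000000000000000) (nat_lit 0xa0000380000e00007c0000380007c000098000f8001e78007fc003ff8003f80003c0000e0000380000a0000000000000) (nat_lit 15)
theorem c64880 : QOK q64880 := cut [q25763, q63716, q15806, q64405, q64751, q56459, q62306, q26237, q64871, q56490, q63456, q64877] ⟨c25763, c63716, c15806, c64405, c64751, c56459, c62306, c26237, c64871, c56490, c63456, c64877, trivial⟩ (nd (nat_lit 272) (nat_lit 0) (cs (rf (nat_lit 0)) (cs (rf (nat_lit 1)) (cs (nd (nat_lit 228) (nat_lit 0) (cs (rf (nat_lit 2)) (cs (rf (nat_lit 3)) (cs (nd (nat_lit 273) (nat_lit 0) (cs (lf (nat_lit 19) (nat_lit 249)) (nd (nat_lit 247) (nat_lit 0) (cs (lf (nat_lit 1) (nat_lit 247)) (rf (nat_lit 4))))))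 (cs (nd (nat_lit 273) (nat_lit 0) (cs (lf (nat_lit 19) (nat_lit 249)) (nd (nat_lit 247) (nat_lit 0) (cs (lf (nat_lit 1) (nat_lit 247)) (nd (nat_lit 293) (nat_lit 0) (cs (lf (nat_lit 41) (nat_lit 227)) (nd (nat_lit 291) (nat_lit 0) (cs (lf (nat_lit 13) (nat_lit 269)) (nd (nat_lit 206) (nat_lit 0) (cs (lf (nat_lit 40) (nat_lit 205)) (rf (nat_lit 5)))))))))))) (cs (nd (nat_lit 293) (nat_lit 0) (cs (lf (nat_lit 41) (nat_lit 227)) (nd (nat_lit 206) (nat_lit 0) (cs (lf (nat_lit 40) (nat_lit 205)) (nd (nat_lit 183) (nat_lit 0) (cs (lf (nat_lit 46) (nat_lit 183)) (nd (nat_lit 184) (nat_lit 0) (cs (lf (nat_lit 47) (nat_lit 161)) (rf (nat_lit 6)))))))))) (nd (nat_lit 248) (nat_lit 0) (cs (rf (nat_lit 7)) (nd (nat_lit 227) (nat_lit 0) (cs (lf (nat_lit 47) (nat_lit 205)) (nd (nat_lit 293) (nat_lit 0) (cs (lf (nat_lit 41) (nat_lit 227)) (nd (nat_lit 273) (nat_lit 0) (cs (lf (nat_lit 7) (nat_lit 271)) (rf (nat_lit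 8)))))))))))))))) (nd (nat_lit 316) (nat_lit 0) (cs (rf (nat_lit 9)) (cs (rf (nat_lit 10)) (nd (nat_lit 273) (nat_lit 0) (cs (lf (nat_lit 19) (nat_lit 249)) (rf (nat_lit 11))))))))))) q64880 (by decide +kernel)
def q64976 : Q := Q.p (nat_lit 0x800000600000000000000000000000000000000000000000000000000000000000000) (nat_lit 0x280001f001dfc0037f80009c0007f80005c0001f00003c0000f0000000000000000000000000000000000) (nat_lit 16)
theorem c64976 : QOK q64976 := cut [q63492, q63519, q63535, q60700, q64593, q44575, q56421, q64644, q979, q56437, q58944, q51282, q57373, q58946, q56430, q64581] ⟨c63492, c63519, c63535, c60700, c64593, c44575, c56421, c64644, c979, c56437, c58944, c51282, c57373, c58946, c56430, c64581, trivial⟩ (nd (nat_lit 248) (nat_lit 0) (cs (rf (nat_lit 0)) (cs (rf (nat_lit 1)) (cs (rf (nat_lit 2)) (nd (nat_lit 226) (nat_lit 0) (cs (rf (nat_lit 3)) (cs (rf (nat_lit 4)) (cs (nd (nat_lit 204)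 (nat_lit 0) (cs (rf (nat_lit 5)) (cs (rf (nat_lit 6)) (cs (rf (nat_lit 7)) (nd (nat_lit 182) (nat_lit 0) (cs (rf (nat_lit 8)) (cs (rf (nat_lit 9)) (cs (rf (nat_lit 10)) (nd (nat_lit 161) (nat_lit 0) (cs (lf (nat_lit 34) (nat_lit 160)) (nd (nat_lit 181) (nat_lit 0) (cs (lf (nat_lit 47) (nat_lit 159)) (nd (nat_lit 270) (nat_lit 0) (cs (lf (nat_lit 46) (nat_lit 181)) (nd (nat_lit 291) (nat_lit 0) (cs (lf (nat_lit 40) (nat_lit 203)) (nd (nat_lit 292) (nat_lit 0) (cs (lf (nat_lit 41) (nat_lit 225)) (nd (nat_lit 314) (nat_lit 0) (cs (lf (nat_lit 35) (nat_lit 226)) (rf (nat_lit 11)))))))))))))))))))))) (nd (nat_lit 270) (nat_lit 0) (cs (rf (nat_lit 12)) (cs (nd (nat_lit 269) (nat_lit 0) (cs (lf (nat_lit 6) (nat_lit 247)) (nd (nat_lit 267) (nat_lit 0) (cs (lf (nat_lit 13) (nat_lit 245)) (nd (nat_lit 204) (nat_lit 0) (cs (lf (nat_lit 41) (nat_lit 203)) (rf (nat_lit 13)))))))) (nd (nat_lit 293) (nat_lit 0)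 (cs (rf (nat_lit 14)) (cs (rf (nat_lit 15)) (nd (nat_lit 204) (nat_lit 0) (cs (lf (nat_lit 28) (nat_lit 204)) (rf (nat_lit 13)))))))))))))))))) q64976 (by decide +kernel)
def q65000 : Q := Q.p (nat_lit 0x800002600000000010000000000000000000000000000000000000000000000000000) (nat_lit 0xc000078001de80037f80009c000ff801e78007fe003ff8003fe0003e8000e0000380000a0000000000000) (nat_lit 15)
theorem c65000 : QOK q65000 := cut [q62426, q63918, q63991, q64405, q26200, q26237, q62167, q62404, q62425, q60700, q44575, q64079, q64085, q47646, q56421, q62777, q62615] ⟨c62426, c63918, c63991, c64405, c26200, c26237, c62167, c62404, c62425, c60700, c44575, c64079, c64085, c47646, c56421, c62777, c62615, trivial⟩ (nd (nat_lit 228) (nat_lit 0) (cs (rf (nat_lit 0)) (cs (rf (nat_lit 1)) (cs (rf (nat_lit 2)) (cs (rf (nat_lit 3)) (nd (nat_lit 248) (nat_lit 0) (cs (rf (nat_lit 4)) (cs (rf (nat_lit 5)) (cs (rf (nat_lit 6))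 (nd (nat_lit 231) (nat_lit 0) (cs (rf (nat_lit 7)) (cs (rf (nat_lit 8)) (nd (nat_lit 226) (nat_lit 0) (cs (rf (nat_lit 9)) (cs (nd (nat_lit 204) (nat_lit 0) (cs (rf (nat_lit 10)) (cs (nd (nat_lit 225) (nat_lit 0) (cs (lf (nat_lit 18) (nat_lit 225)) (nd (nat_lit 223) (nat_lit 0) (cs (lf (nat_lit 1) (nat_lit 223)) (nd (nat_lit 182) (nat_lit 0) (cs (lf (nat_lit 29) (nat_lit 182)) (rf (nat_lit 11)))))))) (cs (nd (nat_lit 225) (nat_lit 0) (cs (lf (nat_lit 18) (nat_lit 225)) (nd (nat_lit 223) (nat_lit 0) (cs (lf (nat_lit 1) (nat_lit 223)) (nd (nat_lit 182) (nat_lit 0) (cs (lf (nat_lit 29) (nat_lit 182)) (rf (nat_lit 12)))))))) (cs (nd (nat_lit 229) (nat_lit 0) (cs (lf (nat_lit 7) (nat_lit 227)) (nd (nat_lit 251) (nat_lit 0) (cs (lf (nat_lit 23) (nat_lit 225)) (nd (nat_lit 270) (nat_lit 0) (cs (lf (nat_lit 11) (nat_lit 247)) (nd (nat_lit 183) (nat_lit 0) (cs (lf (nat_lit 34) (nat_lit 182)) (nd (nat_lit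 181) (nat_lit 0) (cs (lf (nat_lit 46) (nat_lit 181)) (nd (nat_lit 271) (nat_lit 0) (cs (lf (nat_lit 29) (nat_lit 204)) (nd (nat_lit 273) (nat_lit 0) (cs (lf (nat_lit 5) (nat_lit 248)) (nd (nat_lit 295) (nat_lit 0) (cs (lf (nat_lit 42) (nat_lit 228)) (nd (nat_lit 296) (nat_lit 0) (cs (lf (nat_lit 29) (nat_lit 229)) (lf (nat_lit 2) (nat_lit 270)))))))))))))))))))) (nd (nat_lit 229) (nat_lit 0) (cs (lf (nat_lit 7) (nat_lit 227)) (nd (nat_lit 251) (nat_lit 0) (cs (lf (nat_lit 23) (nat_lit 225)) (nd (nat_lit 270) (nat_lit 0) (cs (lf (nat_lit 11) (nat_lit 247)) (nd (nat_lit 181) (nat_lit 0) (cs (lf (nat_lit 46) (nat_lit 181)) (nd (nat_lit 182) (nat_lit 0) (cs (lf (nat_lit 47) (nat_lit 159)) (rf (nat_lit 13))))))))))))))))) (cs (nd (nat_lit 204) (nat_lit 0) (cs (rf (nat_lit 10)) (cs (rf (nat_lit 14)) (rf (nat_lit 15))))) (nd (nat_lit 204) (nat_lit 0) (cs (rf (nat_lit 10)) (cs (rf (nat_lit 14)) (nd (nat_lit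 229) (nat_lit 0) (cs (lf (nat_lit 7) (nat_lit 227)) (nd (nat_lit 203) (nat_lit 0) (cs (lf (nat_lit 20) (nat_lit 203)) (nd (nat_lit 270) (nat_lit 0) (cs (lf (nat_lit 47) (nat_lit 181)) (rf (nat_lit 16))))))))))))))))))))))))))) q65000 (by decide +kernel)
def q65245 : Q := Q.p (nat_lit 0x800002600000000010000000000000000000000000000000000000000000000000000) (nat_lit 0xa00003e0001f8000ff0001fe0037fc0089e00fffc01e7c00ffa001de000720001c000040000000000000000000000000) (nat_lit 16)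
theorem c65245 : QOK q65245 := cut [q25763, q63716, q64236, q64931, q64758, q64761, q65025, q65107, q63708, q23133, q64797, q56490, q63456, q60472, q26461, q44584, q57398, q65137, q65179, q65202, q64929, q15806, q52445, q61386, q64927, q65228, q64932, q63490, q63778, q64040, q64162, q14434, q62406, q60683, q62405, q65174, q51495, q65120, q60701, q63982, q65134, q56473, q64956, q64958] ⟨c25763, c63716, c64236, c64931, c64758, c64761, c65025, c65107, c63708, c23133, c64797, c56490, c63456, c60472, c26461, c44584, c57398, c65137, c65179, c65202, c64929, c15806, c52445, c61386, c64927, c65228, c64932, c63490, c63778, c64040, c64162, c14434, c62406, c60683, c62405, c65174, c51495, c65120, c60701, c63982, c65134, c56473, c64956, c64958, trivial⟩ (nd (nat_lit 272) (nat_lit 0) (cs (nd (nat_lit 294) (nat_lit 0) (cs (rf (nat_lit 0)) (cs (rf (nat_lit 1)) (cs (rf (nat_lit 2)) (rf (nat_lit 3)))))) (cs (nd (nat_lit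 294) (nat_lit 0) (cs (rf (nat_lit 0)) (cs (rf (nat_lit 1)) (cs (rf (nat_lit 4)) (rf (nat_lit 5)))))) (cs (rf (nat_lit 6)) (cs (rf (nat_lit 7)) (cs (nd (nat_lit 248) (nat_lit 0) (cs (rf (nat_lit 8)) (cs (nd (nat_lit 294) (nat_lit 0) (cs (rf (nat_lit 9)) (cs (rf (nat_lit 1)) (cs (rf (nat_lit 10)) (nd (nat_lit 316) (nat_lit 0) (cs (rf (nat_lit 11)) (cs (rf (nat_lit 12)) (nd (nat_lit 293) (nat_lit 0) (cs (rf (nat_lit 13)) (nd (nat_lit 273) (nat_lit 0) (cs (lf (nat_lit 19) (nat_lit 249)) (nd (nat_lit 315) (nat_lit 0) (cs (lf (nat_lit 41) (nat_lit 249)) (nd (nat_lit 226) (nat_lit 0) (cs (lf (nat_lit 44) (nat_lit 226)) (nd (nat_lit 251) (nat_lit 0) (cs (lf (nat_lit 23) (nat_lit 225)) (lf (nat_lit 35) (nat_lit 228))))))))))))))))))) (nd (nat_lit 247) (nat_lit 0) (cs (rf (nat_lit 14)) (cs (rf (nat_lit 15)) (rf (nat_lit 16)))))))) (cs (rf (nat_lit 17)) (cs (rf (nat_lit 18)) (cs (rf (nat_lit 19)) (cs (nd (nat_lit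 294) (nat_lit 0) (cs (rf (nat_lit 0)) (cs (rf (nat_lit 1)) (cs (rf (nat_lit 20)) (nd (nat_lit 228) (nat_lit 0) (cs (rf (nat_lit 21)) (cs (rf (nat_lit 22)) (cs (rf (nat_lit 23)) (rf (nat_lit 24)))))))))) (cs (rf (nat_lit 25)) (cs (nd (nat_lit 294) (nat_lit 0) (cs (rf (nat_lit 9)) (cs (rf (nat_lit 0)) (cs (rf (nat_lit 3)) (rf (nat_lit 26)))))) (cs (nd (nat_lit 273) (nat_lit 0) (cs (lf (nat_lit 19) (nat_lit 249)) (nd (nat_lit 248) (nat_lit 0) (cs (rf (nat_lit 27)) (cs (rf (nat_lit 28)) (cs (rf (nat_lit 29)) (cs (rf (nat_lit 30)) (nd (nat_lit 228) (nat_lit 0) (cs (rf (nat_lit 31)) (cs (rf (nat_lit 32)) (cs (nd (nat_lit 295) (nat_lit 0) (cs (rf (nat_lit 33)) (cs (rf (nat_lit 34)) (nd (nat_lit 270) (nat_lit 0) (cs (rf (nat_lit 35)) (cs (nd (nat_lit 227) (nat_lit 0) (cs (rf (nat_lit 36)) (rf (nat_lit 37)))) (nd (nat_lit 271) (nat_lit 0) (cs (lf (nat_lit 5) (nat_lit 270)) (nd (nat_lit 291) (nat_lit 0) (cs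 (lf (nat_lit 10) (nat_lit 269)) (nd (nat_lit 293) (nat_lit 0) (cs (lf (nat_lit 30) (nat_lit 227)) (rf (nat_lit 38)))))))))))))) (nd (nat_lit 205) (nat_lit 0) (cs (rf (nat_lit 39)) (cs (rf (nat_lit 40)) (nd (nat_lit 294) (nat_lit 0) (cs (lf (nat_lit 46) (nat_lit 205)) (nd (nat_lit 293) (nat_lit 0) (cs (lf (nat_lit 41) (nat_lit 227)) (nd (nat_lit 291) (nat_lit 0) (cs (lf (nat_lit 13) (nat_lit 269)) (nd (nat_lit 206) (nat_lit 0) (cs (lf (nat_lit 40) (nat_lit 205)) (rf (nat_lit 41)))))))))))))))))))))))) (nd (nat_lit 294) (nat_lit 0) (cs (rf (nat_lit 1)) (cs (rf (nat_lit 26)) (cs (rf (nat_lit 42)) (rf (nat_lit 43))))))))))))))))))) q65245 (by decide +kernel)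
def q65421 : Q := Q.p (nat_lit 0x800002600000000010000000000000000000000000000000000000000000000000000) (nat_lit 0xa00003a0000f8000ffc01dff0037fe0009c000ff801e6c007fe003ff8001e80003800000000000000000000000000000) (nat_lit 16)
theorem c65421 : QOK q65421 := cut [q62426, q63991, q26200, q26237, q62580, q57373, q62138, q57626, q58952, q63343, q63541, q58951, q59279, q65299, q62480, q62575, q63575, q65304, q63692, q62167, q26176, q62410, q14766, q26177, q65368, q65390, q65420] ⟨c62426, c63991, c26200, c26237, c62580, c57373, c62138, c57626, c58952, c63343, c63541, c58951, c59279, c65299, c62480, c62575, c63575, c65304, c63692, c62167, c26176, c62410, c14766, c26177, c65368, c65390, c65420, trivial⟩ (nd (nat_lit 228) (nat_lit 0) (cs (rf (nat_lit 0)) (cs (rf (nat_lit 1)) (cs (nd (nat_lit 248) (nat_lit 0) (cs (rf (nat_lit 2)) (cs (rf (nat_lit 3)) (cs (rf (nat_lit 4)) (nd (nat_lit 270) (nat_lit 0) (cs (rf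 (nat_lit 5)) (cs (nd (nat_lit 251) (nat_lit 0) (cs (lf (nat_lit 11) (nat_lit 247)) (rf (nat_lit 6)))) (cs (nd (nat_lit 292) (nat_lit 0) (cs (rf (nat_lit 7)) (cs (rf (nat_lit 8)) (cs (rf (nat_lit 9)) (nd (nat_lit 293) (nat_lit 0) (cs (nd (nat_lit 315) (nat_lit 0) (cs (lf (nat_lit 24) (nat_lit 226)) (lf (nat_lit 32) (nat_lit 227)))) (cs (nd (nat_lit 226) (nat_lit 0) (cs (lf (nat_lit 29) (nat_lit 226)) (rf (nat_lit 10)))) (cs (nd (nat_lit 227) (nat_lit 0) (cs (rf (nat_lit 11)) (nd (nat_lit 229) (nat_lit 0) (cs (lf (nat_lit 6) (nat_lit 226)) (nd (nat_lit 271) (nat_lit 0) (cs (lf (nat_lit 35) (nat_lit 205)) (rf (nat_lit 12)))))))) (rf (nat_lit 13)))))))))) (nd (nat_lit 227) (nat_lit 0) (cs (rf (nat_lit 14)) (cs (rf (nat_lit 15)) (nd (nat_lit 292) (nat_lit 0) (cs (lf (nat_lit 30) (nat_lit 226)) (nd (nat_lit 293) (nat_lit 0) (cs (nd (nat_lit 229) (nat_lit 0) (cs (lf (nat_lit 6) (nat_lit 226)) (nd (nat_lit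 271) (nat_lit 0) (cs (lf (nat_lit 35) (nat_lit 205)) (rf (nat_lit 16)))))) (rf (nat_lit 17))))))))))))))))) (cs (nd (nat_lit 206) (nat_lit 0) (cs (rf (nat_lit 18)) (cs (nd (nat_lit 248) (nat_lit 0) (cs (rf (nat_lit 2)) (cs (rf (nat_lit 19)) (nd (nat_lit 273) (nat_lit 0) (cs (rf (nat_lit 20)) (cs (rf (nat_lit 21)) (cs (nd (nat_lit 295) (nat_lit 0) (cs (lf (nat_lit 27) (nat_lit 206)) (nd (nat_lit 251) (nat_lit 0) (cs (lf (nat_lit 42) (nat_lit 228)) (lf (nat_lit 45) (nat_lit 206)))))) (nd (nat_lit 251) (nat_lit 0) (cs (rf (nat_lit 22)) (lf (nat_lit 5) (nat_lit 248))))))))))) (nd (nat_lit 184) (nat_lit 0) (cs (lf (nat_lit 41) (nat_lit 183)) (nd (nat_lit 163) (nat_lit 0) (cs (lf (nat_lit 34) (nat_lit 162)) (nd (nat_lit 141) (nat_lit 0) (cs (lf (nat_lit 33) (nat_lit 140)) (nd (nat_lit 161) (nat_lit 0) (cs (lf (nat_lit 46) (nat_lit 161)) (rf (nat_lit 23))))))))))))) (cs (rf (nat_lit 24)) (cs (rf (nat_lit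 25)) (rf (nat_lit 26))))))))) q65421 (by decide +kernel)
def q65536 : Q := Q.p (nat_lit 0x800002600000000010000000000000000000000000000000000000000000000000000) (nat_lit 0x100001700007c0001f00007c001df00037f80009e000ff801e7c007fe003ff8003f80003c0000e0000380000a0000000000000) (nat_lit 16)
theorem c65536 : QOK q65536 := cut [q61544, q61599, q61634, q65439, q65470, q65424, q40951, q61594, q65472, q65473, q65485, q65487, q65499, q26206, q11170, q60700, q46599, q65458, q46564, q65437, q40946, q56550, q60626, q61516, q61695, q61696, q65515, q65531, q58938, q61534, q57008, q58797, q61685, q61716, q65530, q58513, q61632, q61633, q61331, q61662, q63918, q61598] ⟨c61544, c61599, c61634, c65439, c65470, c65424, c40951, c61594, c65472, c65473, c65485, c65487, c65499, c26206, c11170, c60700, c46599, c65458, c46564, c65437, c40946, c56550, c60626, c61516, c61695, c61696, c65515, c65531, c58938, c61534, c57008,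 c58797, c61685, c61716, c65530, c58513, c61632, c61633, c61331, c61662, c63918, c61598, trivial⟩ (nd (nat_lit 271) (nat_lit 0) (cs (rf (nat_lit 0)) (cs (rf (nat_lit 1)) (cs (rf (nat_lit 2)) (cs (rf (nat_lit 3)) (cs (rf (nat_lit 4)) (cs (nd (nat_lit 270) (nat_lit 0) (cs (rf (nat_lit 5)) (cs (nd (nat_lit 227) (nat_lit 0) (cs (rf (nat_lit 6)) (cs (rf (nat_lit 7)) (cs (nd (nat_lit 293) (nat_lit 0) (cs (rf (nat_lit 8)) (cs (nd (nat_lit 294) (nat_lit 0) (cs (lf (nat_lit 29) (nat_lit 227)) (nd (nat_lit 295) (nat_lit 0) (cs (lf (nat_lit 18) (nat_lit 270)) (nd (nat_lit 226) (nat_lit 0) (cs (lf (nat_lit 47) (nat_lit 204)) (nd (nat_lit 292) (nat_lit 0) (cs (lf (nat_lit 41) (nat_lit 226)) (nd (nat_lit 317) (nat_lit 0) (cs (lf (nat_lit 5) (nat_lit 292)) (nd (nat_lit 273) (nat_lit 0) (cs (lf (nat_lit 17) (nat_lit 270)) (nd (nat_lit 224) (nat_lit 0) (cs (lf (nat_lit 1) (nat_lit 224)) (rf (nat_lit 9))))))))))))))))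 (cs (rf (nat_lit 10)) (nd (nat_lit 294) (nat_lit 0) (cs (lf (nat_lit 29) (nat_lit 227)) (nd (nat_lit 295) (nat_lit 0) (cs (lf (nat_lit 18) (nat_lit 270)) (rf (nat_lit 11)))))))))) (rf (nat_lit 12)))))) (cs (nd (nat_lit 248) (nat_lit 0) (cs (rf (nat_lit 13)) (cs (nd (nat_lit 226) (nat_lit 0) (cs (rf (nat_lit 14)) (rf (nat_lit 15)))) (nd (nat_lit 247) (nat_lit 0) (cs (rf (nat_lit 16)) (rf (nat_lit 17))))))) (nd (nat_lit 272) (nat_lit 0) (cs (rf (nat_lit 18)) (cs (rf (nat_lit 19)) (nd (nat_lit 227) (nat_lit 0) (cs (rf (nat_lit 20)) (cs (rf (nat_lit 6)) (nd (nat_lit 293) (nat_lit 0) (cs (rf (nat_lit 21)) (cs (rf (nat_lit 10)) (nd (nat_lit 273) (nat_lit 0) (cs (lf (nat_lit 19) (nat_lit 249)) (nd (nat_lit 295) (nat_lit 0) (cs (lf (nat_lit 5) (nat_lit 270)) (nd (nat_lit 317) (nat_lit 0) (cs (lf (nat_lit 42) (nat_lit 250)) (nd (nat_lit 294) (nat_lit 0) (cs (lf (nat_lit 42) (nat_lit 227)) (rf (nat_lit 22)))))))))))))))))))))))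 (cs (nd (nat_lit 293) (nat_lit 0) (cs (rf (nat_lit 23)) (cs (rf (nat_lit 24)) (cs (rf (nat_lit 25)) (rf (nat_lit 26)))))) (cs (rf (nat_lit 27)) (cs (nd (nat_lit 293) (nat_lit 0) (cs (rf (nat_lit 28)) (cs (rf (nat_lit 29)) (cs (rf (nat_lit 25)) (cs (nd (nat_lit 227) (nat_lit 0) (cs (rf (nat_lit 30)) (cs (rf (nat_lit 31)) (cs (rf (nat_lit 32)) (nd (nat_lit 294) (nat_lit 0) (cs (lf (nat_lit 29) (nat_lit 227)) (nd (nat_lit 292) (nat_lit 0) (cs (lf (nat_lit 41) (nat_lit 226)) (nd (nat_lit 226) (nat_lit 0) (cs (lf (nat_lit 47) (nat_lit 204)) (nd (nat_lit 225) (nat_lit 0) (cs (lf (nat_lit 0) (nat_lit 224)) (nd (nat_lit 251) (nat_lit 0) (cs (lf (nat_lit 21) (nat_lit 225)) (lf (nat_lit 3) (nat_lit 225)))))))))))))))) (cs (rf (nat_lit 33)) (rf (nat_lit 34)))))))) (cs (nd (nat_lit 293) (nat_lit 0) (cs (rf (nat_lit 35)) (cs (rf (nat_lit 36)) (rf (nat_lit 37))))) (cs (nd (nat_lit 228) (nat_lit 0) (cs (rf (nat_lit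 38)) (cs (rf (nat_lit 39)) (rf (nat_lit 40))))) (nd (nat_lit 293) (nat_lit 0) (cs (rf (nat_lit 23)) (cs (rf (nat_lit 41)) (rf (nat_lit 26))))))))))))))))) q65536 (by decide +kernel)
def q65629 : Q := Q.p (nat_lit 0x880000600000000010000000000000000000000000000000000000000000000000000) (nat_lit 0xa0000f80003e0001de0007780001c000ff80027c0001f000000000000000000000000000000000000000000000) (nat_lit 14)
theorem c65629 : QOK q65629 := cut [q46561, q65540, q62434, q65543, q14138, q65565, q40946, q62701, q62705, q62717, q62614, q64332, q62609, q27743, q65582, q65620, q61589, q61619, q65437, q47250, q64006, q65561, q65563, q61620, q46564, q61593] ⟨c46561, c65540, c62434, c65543, c14138, c65565, c40946, c62701, c62705, c62717, c62614, c64332, c62609, c27743, c65582, c65620, c61589, c61619, c65437, c47250, c64006, c65561, c65563, c61620, c46564, c61593, trivial⟩ (nd (nat_lit 272) (nat_lit 0) (cs (nd (nat_lit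 294) (nat_lit 0) (cs (rf (nat_lit 0)) (cs (nd (nat_lit 273) (nat_lit 0) (cs (lf (nat_lit 19) (nat_lit 249)) (rf (nat_lit 1)))) (nd (nat_lit 228) (nat_lit 0) (cs (rf (nat_lit 2)) (cs (nd (nat_lit 205) (nat_lit 0) (cs (lf (nat_lit 25) (nat_lit 205)) (rf (nat_lit 3)))) (nd (nat_lit 206) (nat_lit 0) (cs (lf (nat_lit 36) (nat_lit 183)) (rf (nat_lit 4)))))))))) (cs (rf (nat_lit 5)) (cs (nd (nat_lit 228) (nat_lit 0) (cs (nd (nat_lit 227) (nat_lit 0) (cs (rf (nat_lit 6)) (cs (nd (nat_lit 226) (nat_lit 0) (cs (rf (nat_lit 7)) (cs (rf (nat_lit 8)) (cs (rf (nat_lit 9)) (cs (nd (nat_lit 273) (nat_lit 0) (cs (lf (nat_lit 19) (nat_lit 249)) (nd (nat_lit 248) (nat_lit 0) (cs (lf (nat_lit 0) (nat_lit 247)) (nd (nat_lit 294) (nat_lit 0) (cs (lf (nat_lit 42) (nat_lit 227)) (nd (nat_lit 204) (nat_lit 0) (cs (lf (nat_lit 24) (nat_lit 182)) (rf (nat_lit 10)))))))))) (nd (nat_lit 294) (nat_lit 0) (cs (lf (nat_lit 42)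 (nat_lit 227)) (nd (nat_lit 225) (nat_lit 0) (cs (lf (nat_lit 0) (nat_lit 224)) (nd (nat_lit 295) (nat_lit 0) (cs (lf (nat_lit 29) (nat_lit 228)) (rf (nat_lit 11))))))))))))) (nd (nat_lit 273) (nat_lit 0) (cs (lf (nat_lit 19) (nat_lit 249)) (nd (nat_lit 247) (nat_lit 0) (cs (lf (nat_lit 1) (nat_lit 247)) (nd (nat_lit 205) (nat_lit 0) (cs (lf (nat_lit 24) (nat_lit 183)) (nd (nat_lit 204) (nat_lit 0) (cs (lf (nat_lit 47) (nat_lit 182)) (rf (nat_lit 12))))))))))))) (cs (nd (nat_lit 206) (nat_lit 0) (cs (lf (nat_lit 36) (nat_lit 183)) (nd (nat_lit 205) (nat_lit 0) (cs (lf (nat_lit 47) (nat_lit 183)) (nd (nat_lit 227) (nat_lit 0) (cs (lf (nat_lit 29) (nat_lit 205)) (rf (nat_lit 13)))))))) (rf (nat_lit 14))))) (cs (rf (nat_lit 15)) (cs (nd (nat_lit 270) (nat_lit 0) (cs (nd (nat_lit 273) (nat_lit 0) (cs (lf (nat_lit 19) (nat_lit 249)) (nd (nat_lit 295) (nat_lit 0) (cs (lf (nat_lit 5) (nat_lit 270)) (nd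 (nat_lit 206) (nat_lit 0) (cs (lf (nat_lit 25) (nat_lit 206)) (rf (nat_lit 16)))))))) (cs (rf (nat_lit 17)) (cs (rf (nat_lit 18)) (nd (nat_lit 248) (nat_lit 0) (cs (rf (nat_lit 19)) (cs (rf (nat_lit 20)) (cs (rf (nat_lit 21)) (rf (nat_lit 22)))))))))) (cs (nd (nat_lit 227) (nat_lit 0) (cs (rf (nat_lit 6)) (nd (nat_lit 270) (nat_lit 0) (cs (nd (nat_lit 273) (nat_lit 0) (cs (lf (nat_lit 19) (nat_lit 249)) (nd (nat_lit 292) (nat_lit 0) (cs (lf (nat_lit 11) (nat_lit 269)) (nd (nat_lit 248) (nat_lit 0) (cs (lf (nat_lit 23) (nat_lit 247)) (lf (nat_lit 30) (nat_lit 226)))))))) (cs (rf (nat_lit 23)) (cs (rf (nat_lit 18)) (nd (nat_lit 248) (nat_lit 0) (cs (rf (nat_lit 19)) (cs (rf (nat_lit 21)) (cs (rf (nat_lit 22)) (nd (nat_lit 269) (nat_lit 0) (cs (lf (nat_lit 12) (nat_lit 246)) (nd (nat_lit 292) (nat_lit 0) (cs (lf (nat_lit 30) (nat_lit 226)) (nd (nat_lit 291) (nat_lit 0) (cs (lf (nat_lit 11) (nat_lit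 268)) (nd (nat_lit 226) (nat_lit 0) (cs (lf (nat_lit 41) (nat_lit 225)) (lf (nat_lit 36) (nat_lit 203)))))))))))))))))))) (nd (nat_lit 270) (nat_lit 0) (cs (rf (nat_lit 24)) (cs (rf (nat_lit 25)) (rf (nat_lit 17)))))))))))) q65629 (by decide +kernel)
def q65953 : Q := Q.p (nat_lit 0x800000600000000000000000000000000000000000000000000000000000000000000) (nat_lit 0x100001700007e0003fe0007fc001fe0017fc0009e0001f80007f0001f00007c0000a0000000000000000000000000000000000) (nat_lit 16)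
theorem c65953 : QOK q65953 := cut [q61544, q61599, q61634, q61658, q61516, q61686, q61695, q61696, q58513, q61534, q57008, q61527, q59684, q61672, q61677, q46587, q61598, q65531, q62911, q63778, q63844, q64037, q60671, q63781, q61117, q62166, q65947, q58938, q61633, q62022, q61546, q61549, q46564, q61551, q61593, q61656, q40951, q61594, q61595, q65499, q65787, q61716, q61918, q62075, q61519, q62098] ⟨c61544, c61599, c61634, c61658, c61516, c61686, c61695, c61696, c58513, c61534, c57008, c61527, c59684, c61672, c61677, c46587, c61598, c65531, c62911, c63778, c63844, c64037, c60671, c63781, c61117, c62166, c65947, c58938, c61633, c62022, c61546, c61549, c46564, c61551, c61593, c61656, c40951, c61594, c61595, c65499, c65787, c61716, c61918, c62075, c61519, c62098, trivial⟩ (nd (nat_lit 271) (nat_lit 0) (cs (rf (nat_lit 0)) (cs (rf (nat_lit 1)) (cs (rf (nat_lit 2)) (cs (rf (nat_lit 3)) (cs (nd (nat_lit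 293) (nat_lit 0) (cs (rf (nat_lit 4)) (cs (rf (nat_lit 5)) (cs (rf (nat_lit 6)) (rf (nat_lit 7)))))) (cs (nd (nat_lit 293) (nat_lit 0) (cs (rf (nat_lit 8)) (cs (rf (nat_lit 4)) (cs (rf (nat_lit 9)) (nd (nat_lit 227) (nat_lit 0) (cs (rf (nat_lit 10)) (cs (rf (nat_lit 11)) (nd (nat_lit 272) (nat_lit 0) (cs (rf (nat_lit 12)) (cs (rf (nat_lit 13)) (cs (rf (nat_lit 14)) (nd (nat_lit 294) (nat_lit 0) (cs (lf (nat_lit 42) (nat_lit 227)) (nd (nat_lit 204) (nat_lit 0) (cs (lf (nat_lit 46) (nat_lit 204)) (nd (nat_lit 206) (nat_lit 0) (cs (lf (nat_lit 37) (nat_lit 205)) (rf (nat_lit 15))))))))))))))))))) (cs (nd (nat_lit 293) (nat_lit 0) (cs (rf (nat_lit 4)) (cs (rf (nat_lit 16)) (rf (nat_lit 5))))) (cs (rf (nat_lit 17)) (cs (nd (nat_lit 248) (nat_lit 0) (cs (rf (nat_lit 18)) (cs (rf (nat_lit 19)) (cs (rf (nat_lit 20)) (cs (rf (nat_lit 21)) (cs (nd (nat_lit 247) (nat_lit 0) (cs (rf (nat_lit 22)) (cs (rf (nat_lit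 23)) (nd (nat_lit 268) (nat_lit 0) (cs (lf (nat_lit 10) (nat_lit 246)) (nd (nat_lit 246) (nat_lit 0) (cs (lf (nat_lit 11) (nat_lit 245)) (nd (nat_lit 245) (nat_lit 0) (cs (lf (nat_lit 4) (nat_lit 245)) (rf (nat_lit 24))))))))))) (nd (nat_lit 247) (nat_lit 0) (cs (rf (nat_lit 22)) (cs (rf (nat_lit 25)) (nd (nat_lit 224) (nat_lit 0) (cs (lf (nat_lit 22) (nat_lit 224)) (nd (nat_lit 246) (nat_lit 0) (cs (lf (nat_lit 23) (nat_lit 223)) (nd (nat_lit 227) (nat_lit 0) (cs (lf (nat_lit 17) (nat_lit 224)) (nd (nat_lit 245) (nat_lit 0) (cs (lf (nat_lit 16) (nat_lit 223)) (lf (nat_lit 4) (nat_lit 245))))))))))))))))))) (cs (rf (nat_lit 26)) (cs (nd (nat_lit 293) (nat_lit 0) (cs (rf (nat_lit 8)) (cs (rf (nat_lit 27)) (cs (rf (nat_lit 28)) (rf (nat_lit 29)))))) (cs (nd (nat_lit 270) (nat_lit 0) (cs (rf (nat_lit 30)) (cs (rf (nat_lit 31)) (cs (nd (nat_lit 272) (nat_lit 0) (cs (rf (nat_lit 32)) (cs (rf (nat_lit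 33)) (rf (nat_lit 34))))) (cs (rf (nat_lit 35)) (nd (nat_lit 227) (nat_lit 0) (cs (rf (nat_lit 36)) (cs (rf (nat_lit 37)) (cs (rf (nat_lit 38)) (cs (rf (nat_lit 39)) (rf (nat_lit 40)))))))))))) (cs (nd (nat_lit 293) (nat_lit 0) (cs (rf (nat_lit 4)) (cs (rf (nat_lit 41)) (cs (rf (nat_lit 42)) (rf (nat_lit 43)))))) (nd (nat_lit 293) (nat_lit 0) (cs (rf (nat_lit 8)) (cs (rf (nat_lit 4)) (cs (nd (nat_lit 227) (nat_lit 0) (cs (rf (nat_lit 10)) (cs (nd (nat_lit 292) (nat_lit 0) (cs (lf (nat_lit 41) (nat_lit 226)) (nd (nat_lit 294) (nat_lit 0) (cs (lf (nat_lit 29) (nat_lit 227)) (nd (nat_lit 206) (nat_lit 0) (cs (lf (nat_lit 34) (nat_lit 205)) (nd (nat_lit 226) (nat_lit 0) (cs (lf (nat_lit 47) (nat_lit 204)) (nd (nat_lit 225) (nat_lit 0) (cs (lf (nat_lit 0) (nat_lit 224)) (nd (nat_lit 248) (nat_lit 0) (cs (lf (nat_lit 18) (nat_lit 225)) (rf (nat_lit 44)))))))))))))) (rf (nat_lit 11))))) (rf (nat_lit 45))))))))))))))))))))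 q65953 (by decide +kernel)
def q66199 : Q := Q.p (nat_lit 0x800002400000000010000040000000000000000000000000000000000000000000000) (nat_lit 0x6140018300079c007e7001fbc007ff800ffc007ff0007fc000f8000020000000000000) (nat_lit 16)
theorem c66199 : QOK q66199 := cut [q58015, q66016, q57996, q11, q57975, q66022, q2772, q66025, q66027, q8386, q57795, q65987, q66032, q10509, q66044, q7631, q66082, q66091, q66090, q57722, q58032, q8398, q66164, q58356, q65979, q57811, q58319, q58362, q58371, q58372, q58373, q66196, q58450] ⟨c58015, c66016, c57996, c11, c57975, c66022, c2772, c66025, c66027, c8386, c57795, c65987, c66032, c10509, c66044, c7631, c66082, c66091, c66090, c57722, c58032, c8398, c66164, c58356, c65979, c57811, c58319, c58362, c58371, c58372, c58373, c66196, c58450, trivial⟩ (nd (nat_lit 187) (nat_lit 0) (cs (rf (nat_lit 0)) (cs (rf (nat_lit 1)) (cs (nd (nat_lit 209) (nat_lit 0) (cs (lf (nat_lit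 44) (nat_lit 186)) (nd (nat_lit 143) (nat_lit 0) (cs (rf (nat_lit 2)) (cs (nd (nat_lit 185) (nat_lit 0) (cs (rf (nat_lit 3)) (cs (rf (nat_lit 4)) (rf (nat_lit 5))))) (cs (nd (nat_lit 165) (nat_lit 0) (cs (rf (nat_lit 6)) (rf (nat_lit 7)))) (cs (rf (nat_lit 8)) (nd (nat_lit 165) (nat_lit 0) (cs (lf (nat_lit 36) (nat_lit 120)) (rf (nat_lit 9))))))))))) (cs (nd (nat_lit 188) (nat_lit 0) (cs (rf (nat_lit 10)) (cs (nd (nat_lit 185) (nat_lit 0) (cs (rf (nat_lit 11)) (cs (rf (nat_lit 12)) (nd (nat_lit 209) (nat_lit 0) (cs (lf (nat_lit 44) (nat_lit 186)) (rf (nat_lit 13))))))) (cs (nd (nat_lit 209) (nat_lit 0) (cs (lf (nat_lit 44) (nat_lit 186)) (nd (nat_lit 189) (nat_lit 0) (cs (lf (nat_lit 6) (nat_lit 186)) (nd (nat_lit 167) (nat_lit 0) (cs (lf (nat_lit 17) (nat_lit 164)) (nd (nat_lit 166) (nat_lit 0) (cs (lf (nat_lit 12) (nat_lit 163)) (nd (nat_lit 144) (nat_lit 0) (cs (lf (nat_lit 36) (nat_lit 121))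 (nd (nat_lit 164) (nat_lit 0) (cs (lf (nat_lit 23) (nat_lit 163)) (nd (nat_lit 142) (nat_lit 0) (cs (lf (nat_lit 24) (nat_lit 120)) (nd (nat_lit 141) (nat_lit 0) (cs (lf (nat_lit 47) (nat_lit 119)) (lf (nat_lit 2) (nat_lit 141)))))))))))))))))) (cs (rf (nat_lit 14)) (nd (nat_lit 209) (nat_lit 0) (cs (lf (nat_lit 44) (nat_lit 186)) (nd (nat_lit 189) (nat_lit 0) (cs (lf (nat_lit 6) (nat_lit 186)) (nd (nat_lit 211) (nat_lit 0) (cs (lf (nat_lit 5) (nat_lit 186)) (nd (nat_lit 185) (nat_lit 0) (cs (lf (nat_lit 19) (nat_lit 185)) (rf (nat_lit 15))))))))))))))) (cs (rf (nat_lit 16)) (cs (rf (nat_lit 17)) (cs (nd (nat_lit 185) (nat_lit 0) (cs (rf (nat_lit 18)) (cs (nd (nat_lit 188) (nat_lit 0) (cs (rf (nat_lit 19)) (cs (rf (nat_lit 20)) (rf (nat_lit 12))))) (nd (nat_lit 209) (nat_lit 0) (cs (lf (nat_lit 44) (nat_lit 186)) (rf (nat_lit 21))))))) (cs (rf (nat_lit 22)) (cs (nd (nat_lit 209) (nat_lit 0) (cs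 (lf (nat_lit 44) (nat_lit 186)) (nd (nat_lit 185) (nat_lit 0) (cs (rf (nat_lit 3)) (cs (rf (nat_lit 23)) (rf (nat_lit 24))))))) (cs (nd (nat_lit 188) (nat_lit 0) (cs (rf (nat_lit 25)) (cs (rf (nat_lit 26)) (cs (rf (nat_lit 27)) (cs (rf (nat_lit 28)) (cs (rf (nat_lit 29)) (cs (rf (nat_lit 30)) (rf (nat_lit 14))))))))) (cs (rf (nat_lit 31)) (nd (nat_lit 209) (nat_lit 0) (cs (lf (nat_lit 44) (nat_lit 186)) (nd (nat_lit 185) (nat_lit 0) (cs (rf (nat_lit 3)) (cs (rf (nat_lit 32)) (rf (nat_lit 24))))))))))))))))))) q66199 (by decide +kernel)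
def q66724 : Q := Q.p (nat_lit 0x800002400000000010000040000000000000000000000000000000000000000000000) (nat_lit 0xa00067c0019300077c00fe7001fb8007ff801ffe007ff8007fc001fa0001a0000000000000) (nat_lit 16)
theorem c66724 : QOK q66724 := cut [q66091, q58032, q9277, q19161, q9201, q19155, q66213, q19272, q1173, q66380, q66434, q66478, q66578, q66601, q66385, q66386, q66387, q66390, q66648, q4866, q8949, q57787, q66602, q66108, q18432, q66433, q10455, q20054, q66660, q66683, q66706, q66723] ⟨c66091, c58032, c9277, c19161, c9201, c19155, c66213, c19272, c1173, c66380, c66434, c66478, c66578, c66601, c66385, c66386, c66387, c66390, c66648, c4866, c8949, c57787, c66602, c66108, c18432, c66433, c10455, c20054, c66660, c66683, c66706, c66723, trivial⟩ (nd (nat_lit 187) (nat_lit 0) (cs (rf (nat_lit 0)) (cs (nd (nat_lit 185) (nat_lit 0) (cs (nd (nat_lit 188) (nat_lit 0) (cs (rf (nat_lit 1)) (cs (nd (nat_lit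 230) (nat_lit 0) (cs (lf (nat_lit 27) (nat_lit 186)) (rf (nat_lit 2)))) (nd (nat_lit 230) (nat_lit 0) (cs (lf (nat_lit 27) (nat_lit 186)) (rf (nat_lit 3))))))) (cs (nd (nat_lit 184) (nat_lit 0) (cs (rf (nat_lit 4)) (cs (rf (nat_lit 5)) (nd (nat_lit 230) (nat_lit 0) (cs (lf (nat_lit 27) (nat_lit 186)) (nd (nat_lit 206) (nat_lit 0) (cs (lf (nat_lit 11) (nat_lit 183)) (nd (nat_lit 209) (nat_lit 0) (cs (lf (nat_lit 5) (nat_lit 184)) (nd (nat_lit 163) (nat_lit 0) (cs (lf (nat_lit 31) (nat_lit 162)) (nd (nat_lit 141) (nat_lit 0) (cs (lf (nat_lit 45) (nat_lit 141)) (lf (nat_lit 36) (nat_lit 118))))))))))))))) (cs (rf (nat_lit 6)) (nd (nat_lit 163) (nat_lit 0) (cs (rf (nat_lit 7)) (nd (nat_lit 230) (nat_lit 0) (cs (lf (nat_lit 27) (nat_lit 186)) (rf (nat_lit 8)))))))))) (cs (rf (nat_lit 9)) (cs (rf (nat_lit 10)) (cs (rf (nat_lit 11)) (cs (rf (nat_lit 12)) (cs (rf (nat_lit 13)) (cs (nd (nat_lit 164) (nat_lit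 0) (cs (rf (nat_lit 14)) (cs (rf (nat_lit 15)) (cs (rf (nat_lit 16)) (cs (rf (nat_lit 17)) (cs (rf (nat_lit 18)) (nd (nat_lit 142) (nat_lit 0) (cs (rf (nat_lit 19)) (cs (rf (nat_lit 20)) (cs (rf (nat_lit 21)) (nd (nat_lit 143) (nat_lit 0) (cs (lf (nat_lit 35) (nat_lit 120)) (nd (nat_lit 162) (nat_lit 0) (cs (rf (nat_lit 22)) (cs (nd (nat_lit 141) (nat_lit 0) (cs (lf (nat_lit 47) (nat_lit 119)) (nd (nat_lit 140) (nat_lit 0) (cs (lf (nat_lit 11) (nat_lit 139)) (rf (nat_lit 23)))))) (nd (nat_lit 141) (nat_lit 0) (cs (lf (nat_lit 47) (nat_lit 119)) (nd (nat_lit 144) (nat_lit 0) (cs (lf (nat_lit 10) (nat_lit 140)) (nd (nat_lit 123) (nat_lit 0) (cs (lf (nat_lit 16) (nat_lit 119)) (nd (nat_lit 145) (nat_lit 0) (cs (lf (nat_lit 17) (nat_lit 120)) (rf (nat_lit 24))))))))))))))))))))))))) (cs (nd (nat_lit 164) (nat_lit 0) (cs (rf (nat_lit 14)) (cs (rf (nat_lit 15)) (cs (rf (nat_lit 16)) (cs (rf (nat_lit 17))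 (cs (rf (nat_lit 25)) (nd (nat_lit 163) (nat_lit 0) (cs (rf (nat_lit 26)) (cs (rf (nat_lit 27)) (cs (nd (nat_lit 230) (nat_lit 0) (cs (lf (nat_lit 27) (nat_lit 186)) (nd (nat_lit 143) (nat_lit 0) (cs (lf (nat_lit 34) (nat_lit 142)) (nd (nat_lit 142) (nat_lit 0) (cs (lf (nat_lit 35) (nat_lit 120)) (nd (nat_lit 188) (nat_lit 0) (cs (lf (nat_lit 18) (nat_lit 163)) (rf (nat_lit 28)))))))))) (nd (nat_lit 230) (nat_lit 0) (cs (lf (nat_lit 27) (nat_lit 186)) (nd (nat_lit 143) (nat_lit 0) (cs (lf (nat_lit 34) (nat_lit 142)) (nd (nat_lit 142) (nat_lit 0) (cs (lf (nat_lit 35) (nat_lit 120)) (nd (nat_lit 161) (nat_lit 0) (cs (lf (nat_lit 1) (nat_lit 161)) (rf (nat_lit 28)))))))))))))))))))) (cs (rf (nat_lit 29)) (cs (rf (nat_lit 30)) (rf (nat_lit 31)))))))))))))) q66724 (by decide +kernel)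
def q67196 : Q := Q.p (nat_lit 0x8000020000800002600000000010000040000000000000000000000000000000000000000000000) (nat_lit 0x40003fe000770001de000780001180004400000000000000000000000000000000000000000000000000000000) (nat_lit 10)
theorem c67196 : QOK q67196 := cut [q66775, q67193, q67195] ⟨c66775, c67193, c67195, trivial⟩ (nd (nat_lit 271) (nat_lit 0) (cs (rf (nat_lit 0)) (cs (rf (nat_lit 1)) (rf (nat_lit 2))))) q67196 (by decide +kernel)
def q67236 : Q := Q.p (nat_lit 0x20000800002600000000010000040000000000000000000000000000000000000000000000) (nat_lit 0x500001c000070000380001d00007f00011c000df000e7c000bc000040000000000000000000000000000000000000000) (nat_lit 13)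
theorem c67236 : QOK q67236 := cut [q61516, q66774, q64507, q67037, q67054, q67204, q67205, q67232, q67234] ⟨c61516, c66774, c64507, c67037, c67054, c67204, c67205, c67232, c67234, trivial⟩ (nd (nat_lit 209) (nat_lit 0) (cs (lf (nat_lit 44) (nat_lit 186)) (nd (nat_lit 271) (nat_lit 0) (cs (rf (nat_lit 0)) (cs (rf (nat_lit 1)) (cs (nd (nat_lit 227) (nat_lit 0) (cs (rf (nat_lit 2)) (cs (rf (nat_lit 3)) (cs (rf (nat_lit 4)) (nd (nat_lit 294) (nat_lit 0) (cs (lf (nat_lit 29) (nat_lit 227)) (nd (nat_lit 295) (nat_lit 0) (cs (rf (nat_lit 5)) (nd (nat_lit 228) (nat_lit 0) (cs (lf (nat_lit 35) (nat_lit 205)) (nd (nat_lit 226) (nat_lit 0) (cs (lf (nat_lit 47) (nat_lit 204)) (nd (nat_lit 225) (nat_lit 0) (cs (lf (nat_lit 0) (nat_lit 224)) (nd (nat_lit 247) (nat_lit 0) (cs (lf (nat_lit 11) (nat_lit 224)) (nd (nat_lit 202) (nat_lit 0) (cs (lf (nat_lit 22) (nat_lit 202)) (rf (nat_lit 6)))))))))))))))))))) (cs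 (rf (nat_lit 7)) (rf (nat_lit 8))))))))) q67236 (by decide +kernel)
def q67287 : Q := Q.p (nat_lit 0x20000880002200000000010000040000000000000000000000000000000000000000000000) (nat_lit 0x3de0007f0001de000000001100004c00001000000000000000000000000000000000000000000000000000) (nat_lit 10)
theorem c67287 : QOK q67287 := cut [q59775, q66777, q67108, q67193] ⟨c59775, c66777, c67108, c67193, trivial⟩ (nd (nat_lit 315) (nat_lit 0) (cs (rf (nat_lit 0)) (cs (rf (nat_lit 1)) (cs (rf (nat_lit 2)) (rf (nat_lit 3)))))) q67287 (by decide +kernel)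
def q67288 : Q := Q.p (nat_lit 0x20000880002600000000010000040000000000000000000000000000000000000000000000) (nat_lit 0x40003fe0007f0001de000700001180004400000000000000000000000000000000000000000000000000000000) (nat_lit 10)
theorem c67288 : QOK q67288 := cut [q66775, q67193, q67195] ⟨c66775, c67193, c67195, trivial⟩ (nd (nat_lit 315) (nat_lit 0) (cs (rf (nat_lit 0)) (cs (rf (nat_lit 1)) (rf (nat_lit 2))))) q67288 (by decide +kernel)
def q68131 : Q := Q.p (nat_lit 0x800002600000000010000040000000000000000000000000000000000000000000000) (nat_lit 0x140000f00017e001dfc0077f00181c00fffc01e7e00fbfc01cfc0073d001c500010000000000000000000000000) (nat_lit 15)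
theorem c68131 : QOK q68131 := cut [q67864, q67923, q66980, q66986, q65838, q67641, q67930, q56933, q56924, q67941, q67942, q40988, q66985, q67758, q67944, q67965, q67995, q68001, q68062, q68078, q56640, q68088, q45536, q56631, q57225, q57347, q67814, q68092, q67807, q67838, q67851, q56953, q68107, q56870, q56952, q68124, q67648, q67729, q67929, q68106, q68123] ⟨c67864, c67923, c66980, c66986, c65838, c67641, c67930, c56933, c56924, c67941, c67942, c40988, c66985, c67758, c67944, c67965, c67995, c68001, c68062, c68078, c56640, c68088, c45536, c56631, c57225, c57347, c67814, c68092, c67807, c67838, c67851, c56953, c68107, c56870, c56952, c68124, c67648, c67729, c67929, c68106, c68123, trivial⟩ (nd (nat_lit 227) (nat_lit 0) (cs (rf (nat_lit 0)) (cs (rf (nat_lit 1)) (cs (nd (nat_lit 205) (nat_lit 0) (cs (rf (nat_lit 2)) (cs (rf (nat_lit 3)) (cs (nd (nat_lit 271) (nat_lit 0) (cs (rf (nat_lit 4)) (cs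 (rf (nat_lit 5)) (cs (rf (nat_lit 6)) (cs (nd (nat_lit 270) (nat_lit 0) (cs (lf (nat_lit 41) (nat_lit 204)) (nd (nat_lit 268) (nat_lit 0) (cs (lf (nat_lit 13) (nat_lit 246)) (nd (nat_lit 184) (nat_lit 0) (cs (lf (nat_lit 34) (nat_lit 183)) (nd (nat_lit 209) (nat_lit 0) (cs (lf (nat_lit 44) (nat_lit 186)) (rf (nat_lit 7)))))))))) (nd (nat_lit 270) (nat_lit 0) (cs (lf (nat_lit 41) (nat_lit 204)) (nd (nat_lit 268) (nat_lit 0) (cs (lf (nat_lit 13) (nat_lit 246)) (nd (nat_lit 184) (nat_lit 0) (cs (lf (nat_lit 34) (nat_lit 183)) (nd (nat_lit 209) (nat_lit 0) (cs (lf (nat_lit 44) (nat_lit 186)) (rf (nat_lit 8))))))))))))))) (cs (rf (nat_lit 9)) (rf (nat_lit 10))))))) (cs (nd (nat_lit 209) (nat_lit 0) (cs (lf (nat_lit 44) (nat_lit 186)) (nd (nat_lit 205) (nat_lit 0) (cs (rf (nat_lit 11)) (cs (rf (nat_lit 12)) (cs (rf (nat_lit 13)) (rf (nat_lit 14)))))))) (cs (rf (nat_lit 15)) (cs (rf (nat_lit 16)) (cs (rf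 (nat_lit 17)) (cs (rf (nat_lit 18)) (cs (rf (nat_lit 19)) (cs (nd (nat_lit 209) (nat_lit 0) (cs (lf (nat_lit 44) (nat_lit 186)) (nd (nat_lit 205) (nat_lit 0) (cs (rf (nat_lit 20)) (cs (rf (nat_lit 12)) (cs (rf (nat_lit 14)) (rf (nat_lit 21)))))))) (cs (nd (nat_lit 209) (nat_lit 0) (cs (lf (nat_lit 44) (nat_lit 186)) (nd (nat_lit 272) (nat_lit 0) (cs (rf (nat_lit 22)) (cs (rf (nat_lit 23)) (cs (rf (nat_lit 24)) (cs (nd (nat_lit 205) (nat_lit 0) (cs (rf (nat_lit 20)) (cs (rf (nat_lit 12)) (nd (nat_lit 271) (nat_lit 0) (cs (rf (nat_lit 25)) (cs (rf (nat_lit 26)) (rf (nat_lit 27)))))))) (cs (nd (nat_lit 228) (nat_lit 0) (cs (rf (nat_lit 28)) (cs (rf (nat_lit 29)) (rf (nat_lit 30))))) (nd (nat_lit 273) (nat_lit 0) (cs (lf (nat_lit 19) (nat_lit 249)) (nd (nat_lit 247) (nat_lit 0) (cs (lf (nat_lit 1) (nat_lit 247)) (nd (nat_lit 205) (nat_lit 0) (cs (lf (nat_lit 24) (nat_lit 183)) (nd (nat_lit 294) (nat_lit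 0) (cs (lf (nat_lit 27) (nat_lit 205)) (lf (nat_lit 45) (nat_lit 205)))))))))))))))))) (cs (nd (nat_lit 209) (nat_lit 0) (cs (lf (nat_lit 44) (nat_lit 186)) (nd (nat_lit 205) (nat_lit 0) (cs (rf (nat_lit 31)) (cs (rf (nat_lit 12)) (cs (rf (nat_lit 32)) (nd (nat_lit 183) (nat_lit 0) (cs (rf (nat_lit 33)) (rf (nat_lit 34)))))))))) (cs (nd (nat_lit 209) (nat_lit 0) (cs (lf (nat_lit 44) (nat_lit 186)) (rf (nat_lit 35)))) (cs (nd (nat_lit 209) (nat_lit 0) (cs (lf (nat_lit 44) (nat_lit 186)) (nd (nat_lit 205) (nat_lit 0) (cs (rf (nat_lit 20)) (cs (rf (nat_lit 12)) (cs (rf (nat_lit 14)) (nd (nat_lit 271) (nat_lit 0) (cs (rf (nat_lit 36)) (cs (rf (nat_lit 37)) (cs (rf (nat_lit 38)) (rf (nat_lit 39)))))))))))) (nd (nat_lit 209) (nat_lit 0) (cs (lf (nat_lit 44) (nat_lit 186)) (nd (nat_lit 205) (nat_lit 0) (cs (rf (nat_lit 12)) (cs (rf (nat_lit 14)) (rf (nat_lit 40)))))))))))))))))))))) q68131 (by decide +kernel)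
def q68463 : Q := Q.p (nat_lit 0x20000800002600000000010000040000000000000000000000000000000000000000000000) (nat_lit 0x2000008a000778001dc0017fc0081e00fbfc01e7e00fbf001cfc0073d001c000010000000000000000000000000) (nat_lit 14)
theorem c68463 : QOK q68463 := cut [q67496, q68001, q68424, q61939, q66988, q66999, q61787, q61782, q63933, q68428, q61527, q67028, q66773, q68440, q67027, q67503, q68452, q68454, q57225, q67047, q68006, q66986, q67049, q67942, q59913, q68461] ⟨c67496, c68001, c68424, c61939, c66988, c66999, c61787, c61782, c63933, c68428, c61527, c67028, c66773, c68440, c67027, c67503, c68452, c68454, c57225, c67047, c68006, c66986, c67049, c67942, c59913, c68461, trivial⟩ (nd (nat_lit 227) (nat_lit 0) (cs (rf (nat_lit 0)) (cs (rf (nat_lit 1)) (cs (rf (nat_lit 2)) (cs (nd (nat_lit 209) (nat_lit 0) (cs (lf (nat_lit 44) (nat_lit 186)) (nd (nat_lit 294) (nat_lit 0) (cs (rf (nat_lit 3)) (cs (rf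 (nat_lit 4)) (cs (rf (nat_lit 5)) (nd (nat_lit 295) (nat_lit 0) (cs (rf (nat_lit 6)) (cs (nd (nat_lit 292) (nat_lit 0) (cs (rf (nat_lit 7)) (rf (nat_lit 8)))) (nd (nat_lit 296) (nat_lit 0) (cs (lf (nat_lit 16) (nat_lit 271)) (rf (nat_lit 9))))))))))))) (cs (nd (nat_lit 271) (nat_lit 0) (cs (rf (nat_lit 10)) (cs (rf (nat_lit 11)) (cs (nd (nat_lit 209) (nat_lit 0) (cs (lf (nat_lit 44) (nat_lit 186)) (rf (nat_lit 12)))) (nd (nat_lit 209) (nat_lit 0) (cs (lf (nat_lit 44) (nat_lit 186)) (rf (nat_lit 13)))))))) (cs (nd (nat_lit 271) (nat_lit 0) (cs (rf (nat_lit 14)) (cs (rf (nat_lit 15)) (cs (rf (nat_lit 16)) (rf (nat_lit 17)))))) (cs (nd (nat_lit 272) (nat_lit 0) (cs (rf (nat_lit 18)) (cs (rf (nat_lit 19)) (cs (rf (nat_lit 20)) (nd (nat_lit 205) (nat_lit 0) (cs (rf (nat_lit 21)) (cs (rf (nat_lit 22)) (rf (nat_lit 23))))))))) (nd (nat_lit 271) (nat_lit 0) (cs (rf (nat_lit 24)) (cs (rf (nat_lit 10)) (cs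 (rf (nat_lit 15)) (rf (nat_lit 25)))))))))))))) q68463 (by decide +kernel)
def q68739 : Q := Q.p (nat_lit 0x800002600000000010000040000000000000000000000000000000000000000000000) (nat_lit 0x1400007c0003fc0003e0007fc0011f00effe01e7f00ebf0000fc0002d0000000000000000000000000000000000) (nat_lit 15)
theorem c68739 : QOK q68739 := cut [q68713, q61669, q67234, q67289, q67027, q61516, q66774, q61527, q67033, q67217, q56766, q32685, q67105, q66776, q66777, q67103, q61540, q48093, q67515, q67519, q68467, q68468] ⟨c68713, c61669, c67234, c67289, c67027, c61516, c66774, c61527, c67033, c67217, c56766, c32685, c67105, c66776, c66777, c67103, c61540, c48093, c67515, c67519, c68467, c68468, trivial⟩ (nd (nat_lit 271) (nat_lit 0) (cs (rf (nat_lit 0)) (cs (nd (nat_lit 209) (nat_lit 0) (cs (lf (nat_lit 44) (nat_lit 186)) (nd (nat_lit 293) (nat_lit 0) (cs (nd (nat_lit 228) (nat_lit 0) (cs (lf (nat_lit 30) (nat_lit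 227)) (rf (nat_lit 1)))) (cs (rf (nat_lit 2)) (cs (rf (nat_lit 3)) (nd (nat_lit 227) (nat_lit 0) (cs (rf (nat_lit 4)) (nd (nat_lit 230) (nat_lit 0) (cs (lf (nat_lit 27) (nat_lit 186)) (nd (nat_lit 228) (nat_lit 0) (cs (lf (nat_lit 14) (nat_lit 205)) (lf (nat_lit 35) (nat_lit 205)))))))))))))) (cs (nd (nat_lit 293) (nat_lit 0) (cs (rf (nat_lit 5)) (cs (rf (nat_lit 6)) (cs (rf (nat_lit 3)) (nd (nat_lit 227) (nat_lit 0) (cs (rf (nat_lit 7)) (cs (rf (nat_lit 8)) (cs (rf (nat_lit 9)) (nd (nat_lit 230) (nat_lit 0) (cs (lf (nat_lit 27) (nat_lit 186)) (nd (nat_lit 204) (nat_lit 0) (cs (lf (nat_lit 46) (nat_lit 204)) (nd (nat_lit 206) (nat_lit 0) (cs (lf (nat_lit 34) (nat_lit 205)) (nd (nat_lit 205) (nat_lit 0) (cs (lf (nat_lit 47) (nat_lit 182)) (lf (nat_lit 35) (nat_lit 183)))))))))))))))))) (cs (nd (nat_lit 184) (nat_lit 0) (cs (rf (nat_lit 10)) (cs (nd (nat_lit 230) (nat_lit 0) (cs (lf (nat_lit 27) (nat_lit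 186)) (nd (nat_lit 206) (nat_lit 0) (cs (lf (nat_lit 38) (nat_lit 183)) (nd (nat_lit 205) (nat_lit 0) (cs (lf (nat_lit 32) (nat_lit 183)) (rf (nat_lit 11)))))))) (nd (nat_lit 231) (nat_lit 0) (cs (lf (nat_lit 45) (nat_lit 186)) (nd (nat_lit 230) (nat_lit 0) (cs (lf (nat_lit 27) (nat_lit 186)) (nd (nat_lit 228) (nat_lit 0) (cs (lf (nat_lit 8) (nat_lit 227)) (lf (nat_lit 37) (nat_lit 183))))))))))) (cs (nd (nat_lit 293) (nat_lit 0) (cs (rf (nat_lit 12)) (cs (nd (nat_lit 315) (nat_lit 0) (cs (rf (nat_lit 13)) (cs (rf (nat_lit 14)) (cs (rf (nat_lit 15)) (cs (nd (nat_lit 230) (nat_lit 0) (cs (lf (nat_lit 27) (nat_lit 186)) (nd (nat_lit 314) (nat_lit 0) (cs (lf (nat_lit 41) (nat_lit 248)) (nd (nat_lit 227) (nat_lit 0) (cs (lf (nat_lit 40) (nat_lit 226)) (rf (nat_lit 16)))))))) (nd (nat_lit 272) (nat_lit 0) (cs (lf (nat_lit 30) (nat_lit 249)) (nd (nat_lit 273) (nat_lit 0) (cs (lf (nat_lit 19) (nat_lit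 249)) (nd (nat_lit 247) (nat_lit 0) (cs (lf (nat_lit 1) (nat_lit 247)) (nd (nat_lit 230) (nat_lit 0) (cs (lf (nat_lit 27) (nat_lit 186)) (nd (nat_lit 316) (nat_lit 0) (cs (lf (nat_lit 29) (nat_lit 249)) (nd (nat_lit 209) (nat_lit 0) (cs (lf (nat_lit 44) (nat_lit 186)) (nd (nat_lit 314) (nat_lit 0) (cs (lf (nat_lit 41) (nat_lit 248)) (nd (nat_lit 292) (nat_lit 0) (cs (lf (nat_lit 36) (nat_lit 226)) (rf (nat_lit 17))))))))))))))))))))))) (cs (rf (nat_lit 2)) (cs (rf (nat_lit 18)) (rf (nat_lit 19))))))) (cs (nd (nat_lit 231) (nat_lit 0) (cs (lf (nat_lit 45) (nat_lit 186)) (nd (nat_lit 230) (nat_lit 0) (cs (lf (nat_lit 27) (nat_lit 186)) (nd (nat_lit 228) (nat_lit 0) (cs (lf (nat_lit 8) (nat_lit 227)) (nd (nat_lit 206) (nat_lit 0) (cs (lf (nat_lit 36) (nat_lit 183)) (nd (nat_lit 293) (nat_lit 0) (cs (lf (nat_lit 30) (nat_lit 227)) (lf (nat_lit 39) (nat_lit 205)))))))))))) (nd (nat_lit 293) (nat_lit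 0) (cs (rf (nat_lit 5)) (cs (rf (nat_lit 12)) (cs (rf (nat_lit 20)) (rf (nat_lit 21))))))))))))) q68739 (by decide +kernel)
def q69826 : Q := Q.p (nat_lit 0x800002680004000010000040000000000000000000000000000000000000000000000) (nat_lit 0x1600037e000ffc0077f00007c0ebff01e7fc0ebff000ffc003fe000140000400000000000000000000000) (nat_lit 13)
theorem c69826 : QOK q69826 := cut [q69394, q56781, q5153, q67921, q69518, q69524, q45689, q45760, q45793, q48747, q51697, q48764, q69539, q69546, q69549, q69553, q69579, q69588, q69589, q69699, q69742, q69791, q69825] ⟨c69394, c56781, c5153, c67921, c69518, c69524, c45689, c45760, c45793, c48747, c51697, c48764, c69539, c69546, c69549, c69553, c69579, c69588, c69589, c69699, c69742, c69791, c69825, trivial⟩ (nd (nat_lit 225) (nat_lit 0) (cs (rf (nat_lit 0)) (cs (nd (nat_lit 231) (nat_lit 0) (cs (lf (nat_lit 45) (nat_lit 186)) (nd (nat_lit 228) (nat_lit 0) (cs (lf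 (nat_lit 8) (nat_lit 227)) (nd (nat_lit 227) (nat_lit 0) (cs (rf (nat_lit 1)) (nd (nat_lit 205) (nat_lit 0) (cs (rf (nat_lit 2)) (cs (rf (nat_lit 3)) (nd (nat_lit 183) (nat_lit 0) (cs (lf (nat_lit 24) (nat_lit 161)) (nd (nat_lit 160) (nat_lit 0) (cs (lf (nat_lit 46) (nat_lit 160)) (nd (nat_lit 184) (nat_lit 0) (cs (lf (nat_lit 35) (nat_lit 161)) (nd (nat_lit 185) (nat_lit 0) (cs (lf (nat_lit 11) (nat_lit 182)) (nd (nat_lit 206) (nat_lit 0) (cs (lf (nat_lit 35) (nat_lit 162)) (lf (nat_lit 6) (nat_lit 183))))))))))))))))))))) (cs (rf (nat_lit 4)) (cs (nd (nat_lit 269) (nat_lit 0) (cs (rf (nat_lit 5)) (cs (nd (nat_lit 203) (nat_lit 0) (cs (rf (nat_lit 6)) (cs (rf (nat_lit 7)) (cs (rf (nat_lit 8)) (nd (nat_lit 202) (nat_lit 0) (cs (lf (nat_lit 47) (nat_lit 180)) (nd (nat_lit 201) (nat_lit 0) (cs (rf (nat_lit 9)) (cs (rf (nat_lit 10)) (cs (nd (nat_lit 204) (nat_lit 0) (cs (lf (nat_lit 35) (nat_lit 181))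 (nd (nat_lit 268) (nat_lit 0) (cs (lf (nat_lit 41) (nat_lit 202)) (nd (nat_lit 222) (nat_lit 0) (cs (lf (nat_lit 10) (nat_lit 200)) (nd (nat_lit 178) (nat_lit 0) (cs (lf (nat_lit 22) (nat_lit 178)) (nd (nat_lit 227) (nat_lit 0) (cs (lf (nat_lit 4) (nat_lit 201)) (nd (nat_lit 205) (nat_lit 0) (cs (lf (nat_lit 5) (nat_lit 202)) (nd (nat_lit 183) (nat_lit 0) (cs (lf (nat_lit 29) (nat_lit 183)) (lf (nat_lit 17) (nat_lit 180)))))))))))))))) (nd (nat_lit 182) (nat_lit 0) (cs (lf (nat_lit 34) (nat_lit 181)) (nd (nat_lit 270) (nat_lit 0) (cs (lf (nat_lit 29) (nat_lit 203)) (rf (nat_lit 11)))))))))))))))) (cs (rf (nat_lit 12)) (cs (rf (nat_lit 13)) (cs (rf (nat_lit 14)) (nd (nat_lit 203) (nat_lit 0) (cs (rf (nat_lit 6)) (cs (rf (nat_lit 7)) (cs (rf (nat_lit 8)) (nd (nat_lit 268) (nat_lit 0) (cs (lf (nat_lit 41) (nat_lit 202)) (rf (nat_lit 15)))))))))))))) (cs (nd (nat_lit 231) (nat_lit 0) (cs (lf (nat_lit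 45) (nat_lit 186)) (nd (nat_lit 269) (nat_lit 0) (cs (rf (nat_lit 12)) (cs (rf (nat_lit 13)) (cs (rf (nat_lit 14)) (cs (rf (nat_lit 16)) (cs (rf (nat_lit 17)) (rf (nat_lit 18)))))))))) (cs (rf (nat_lit 19)) (cs (rf (nat_lit 20)) (cs (rf (nat_lit 21)) (rf (nat_lit 22))))))))))) q69826 (by decide +kernel)
def q70329 : Q := Q.p (nat_lit 0x980002600000000010000040000000000000000000000000000000000000000000000) (nat_lit 0x50000fc000ff0001fc0004700011c0007700007c00014000000000000000000000000000000000000000000000) (nat_lit 11)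
theorem c70329 : QOK q70329 := cut [q52276, q70262, q45664, q70287, q70293, q70296, q47435, q70298, q70253, q70300, q70305, q46983, q61611, q70315, q47187, q47107] ⟨c52276, c70262, c45664, c70287, c70293, c70296, c47435, c70298, c70253, c70300, c70305, c46983, c61611, c70315, c47187, c47107, trivial⟩ (nd (nat_lit 247) (nat_lit 0) (cs (rf (nat_lit 0)) (cs (rf (nat_lit 1)) (cs (nd (nat_lit 269) (nat_lit 0) (cs (rf (nat_lit 2)) (cs (rf (nat_lit 3)) (cs (nd (nat_lit 230) (nat_lit 0) (cs (lf (nat_lit 27) (nat_lit 186)) (rf (nat_lit 4)))) (rf (nat_lit 5)))))) (nd (nat_lit 269) (nat_lit 0) (cs (rf (nat_lit 6)) (cs (rf (nat_lit 5)) (cs (nd (nat_lit 230) (nat_lit 0) (cs (lf (nat_lit 27) (nat_lit 186)) (rf (nat_lit 7)))) (nd (nat_lit 294) (nat_lit 0) (cs (rf (nat_lit 8)) (cs (nd (nat_lit 230) (nat_lit 0) (cs (lf (nat_lit 27) (nat_lit 186)) (nd (nat_lit 295) (nat_lit 0) (cs (lf (nat_lit 1) (nat_lit 269)) (nd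 (nat_lit 316) (nat_lit 0) (cs (lf (nat_lit 42) (nat_lit 249)) (rf (nat_lit 9)))))))) (cs (rf (nat_lit 10)) (cs (nd (nat_lit 293) (nat_lit 0) (cs (nd (nat_lit 270) (nat_lit 0) (cs (lf (nat_lit 5) (nat_lit 269)) (nd (nat_lit 290) (nat_lit 0) (cs (lf (nat_lit 10) (nat_lit 268)) (nd (nat_lit 315) (nat_lit 0) (cs (lf (nat_lit 30) (nat_lit 249)) (nd (nat_lit 248) (nat_lit 0) (cs (lf (nat_lit 47) (nat_lit 226)) (nd (nat_lit 314) (nat_lit 0) (cs (lf (nat_lit 41) (nat_lit 248)) (rf (nat_lit 11)))))))))))) (cs (nd (nat_lit 270) (nat_lit 0) (cs (lf (nat_lit 5) (nat_lit 269)) (nd (nat_lit 291) (nat_lit 0) (cs (lf (nat_lit 11) (nat_lit 268)) (nd (nat_lit 230) (nat_lit 0) (cs (lf (nat_lit 27) (nat_lit 186)) (rf (nat_lit 12)))))))) (cs (rf (nat_lit 13)) (nd (nat_lit 230) (nat_lit 0) (cs (lf (nat_lit 27) (nat_lit 186)) (nd (nat_lit 295) (nat_lit 0) (cs (lf (nat_lit 1) (nat_lit 269)) (nd (nat_lit 316) (nat_lit 0)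 (cs (lf (nat_lit 42) (nat_lit 249)) (nd (nat_lit 274) (nat_lit 0) (cs (lf (nat_lit 15) (nat_lit 271)) (rf (nat_lit 14)))))))))))))) (nd (nat_lit 270) (nat_lit 0) (cs (lf (nat_lit 5) (nat_lit 269)) (nd (nat_lit 291) (nat_lit 0) (cs (lf (nat_lit 11) (nat_lit 268)) (nd (nat_lit 316) (nat_lit 0) (cs (lf (nat_lit 42) (nat_lit 249)) (nd (nat_lit 315) (nat_lit 0) (cs (lf (nat_lit 41) (nat_lit 249)) (nd (nat_lit 228) (nat_lit 0) (cs (lf (nat_lit 40) (nat_lit 227)) (nd (nat_lit 248) (nat_lit 0) (cs (lf (nat_lit 17) (nat_lit 225)) (rf (nat_lit 15))))))))))))))))))))))))))) q70329 (by decide +kernel)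
def q70653 : Q := Q.p (nat_lit 0x920002600000000010000040000000000000000000000000000000000000000000000) (nat_lit 0xe0000f80001f00002d00011c000f7000e40000b8000000000000000000000000000000000000000000000) (nat_lit 13)
theorem c70653 : QOK q70653 := cut [q70629, q60108, q70652] ⟨c70629, c60108, c70652, trivial⟩ (nd (nat_lit 271) (nat_lit 0) (cs (rf (nat_lit 0)) (cs (nd (nat_lit 230) (nat_lit 0) (cs (lf (nat_lit 27) (nat_lit 186)) (nd (nat_lit 270) (nat_lit 0) (cs (lf (nat_lit 12) (nat_lit 246)) (nd (nat_lit 246) (nat_lit 0) (cs (lf (nat_lit 22) (nat_lit 246)) (nd (nat_lit 231) (nat_lit 0) (cs (lf (nat_lit 45) (nat_lit 186)) (nd (nat_lit 295) (nat_lit 0) (cs (lf (nat_lit 4) (nat_lit 269)) (nd (nat_lit 228) (nat_lit 0) (cs (lf (nat_lit 8) (nat_lit 227)) (nd (nat_lit 273) (nat_lit 0) (cs (lf (nat_lit 5) (nat_lit 270)) (lf (nat_lit 24) (nat_lit 206)))))))))))))))) (cs (nd (nat_lit 270) (nat_lit 0) (cs (lf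 (nat_lit 12) (nat_lit 246)) (nd (nat_lit 247) (nat_lit 0) (cs (lf (nat_lit 23) (nat_lit 246)) (nd (nat_lit 230) (nat_lit 0) (cs (lf (nat_lit 27) (nat_lit 186)) (nd (nat_lit 248) (nat_lit 0) (cs (lf (nat_lit 5) (nat_lit 247)) (nd (nat_lit 224) (nat_lit 0) (cs (lf (nat_lit 22) (nat_lit 224)) (nd (nat_lit 294) (nat_lit 0) (cs (lf (nat_lit 5) (nat_lit 269)) (nd (nat_lit 316) (nat_lit 0) (cs (lf (nat_lit 42) (nat_lit 249)) (nd (nat_lit 315) (nat_lit 0) (cs (lf (nat_lit 41) (nat_lit 249)) (nd (nat_lit 293) (nat_lit 0) (cs (lf (nat_lit 47) (nat_lit 226)) (rf (nat_lit 1)))))))))))))))))))) (rf (nat_lit 2)))))) q70653 (by decide +kernel)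
def q70810 : Q := Q.p (nat_lit 0x920002600000000010000040000000000000000000000000000000000000000000000) (nat_lit 0x50000fc0003f0000fc0002d00001c000b7000e7c000bc000000000000000000000000000000000000000000000) (nat_lit 13)
theorem c70810 : QOK q70810 := cut [q70295, q70652, q70659, q70263, q47072, q52054, q70298, q70797, q60149, q47437, q70293, q70667] ⟨c70295, c70652, c70659, c70263, c47072, c52054, c70298, c70797, c60149, c47437, c70293, c70667, trivial⟩ (nd (nat_lit 271) (nat_lit 0) (cs (rf (nat_lit 0)) (cs (rf (nat_lit 1)) (cs (nd (nat_lit 209) (nat_lit 0) (cs (lf (nat_lit 44) (nat_lit 186)) (nd (nat_lit 270) (nat_lit 0) (cs (lf (nat_lit 12) (nat_lit 246)) (nd (nat_lit 294) (nat_lit 0) (cs (lf (nat_lit 5) (nat_lit 269)) (nd (nat_lit 291) (nat_lit 0) (cs (lf (nat_lit 11) (nat_lit 268)) (nd (nat_lit 292) (nat_lit 0) (cs (lf (nat_lit 6) (nat_lit 269)) (nd (nat_lit 314) (nat_lit 0) (cs (lf (nat_lit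 30) (nat_lit 248)) (nd (nat_lit 225) (nat_lit 0) (cs (rf (nat_lit 2)) (lf (nat_lit 25) (nat_lit 225)))))))))))))))) (cs (nd (nat_lit 293) (nat_lit 0) (cs (rf (nat_lit 3)) (cs (nd (nat_lit 209) (nat_lit 0) (cs (lf (nat_lit 44) (nat_lit 186)) (nd (nat_lit 247) (nat_lit 0) (cs (rf (nat_lit 4)) (cs (rf (nat_lit 5)) (cs (rf (nat_lit 6)) (rf (nat_lit 7)))))))) (nd (nat_lit 315) (nat_lit 0) (cs (lf (nat_lit 30) (nat_lit 249)) (nd (nat_lit 316) (nat_lit 0) (cs (lf (nat_lit 29) (nat_lit 249)) (nd (nat_lit 314) (nat_lit 0) (cs (lf (nat_lit 41) (nat_lit 248)) (nd (nat_lit 209) (nat_lit 0) (cs (lf (nat_lit 44) (nat_lit 186)) (rf (nat_lit 8))))))))))))) (cs (nd (nat_lit 247) (nat_lit 0) (cs (rf (nat_lit 9)) (cs (rf (nat_lit 10)) (rf (nat_lit 11))))) (nd (nat_lit 209) (nat_lit 0) (cs (lf (nat_lit 44) (nat_lit 186)) (nd (nat_lit 270) (nat_lit 0) (cs (lf (nat_lit 12) (nat_lit 246)) (nd (nat_lit 247) (nat_lit 0)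 (cs (lf (nat_lit 23) (nat_lit 246)) (nd (nat_lit 290) (nat_lit 0) (cs (lf (nat_lit 10) (nat_lit 268)) (rf (nat_lit 11)))))))))))))))) q70810 (by decide +kernel)
def q71159 : Q := Q.p (nat_lit 0x920002600008000010000040000000000000000000000000000000000000000000000) (nat_lit 0x10000070003ff0007fc001ff00049c0011c0007780007c00017000014000000000000000000000000000000000000000) (nat_lit 12)
theorem c71159 : QOK q71159 := cut [q70459, q70622, q71044, q70003, q71059, q63511, q71024, q52073, q63986, q71074, q70100, q71083, q47397, q71148, q40572] ⟨c70459, c70622, c71044, c70003, c71059, c63511, c71024, c52073, c63986, c71074, c70100, c71083, c47397, c71148, c40572, trivial⟩ (nd (nat_lit 247) (nat_lit 0) (cs (rf (nat_lit 0)) (cs (rf (nat_lit 1)) (cs (rf (nat_lit 2)) (cs (nd (nat_lit 225) (nat_lit 0) (cs (rf (nat_lit 3)) (cs (rf (nat_lit 4)) (nd (nat_lit 230) (nat_lit 0) (cs (lf (nat_lit 27) (nat_lit 186))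 (nd (nat_lit 248) (nat_lit 0) (cs (lf (nat_lit 23) (nat_lit 224)) (nd (nat_lit 228) (nat_lit 0) (cs (lf (nat_lit 8) (nat_lit 227)) (rf (nat_lit 5))))))))))) (cs (nd (nat_lit 291) (nat_lit 0) (cs (rf (nat_lit 6)) (cs (nd (nat_lit 293) (nat_lit 0) (cs (nd (nat_lit 248) (nat_lit 0) (cs (lf (nat_lit 11) (nat_lit 246)) (nd (nat_lit 271) (nat_lit 0) (cs (lf (nat_lit 0) (nat_lit 246)) (rf (nat_lit 7)))))) (cs (nd (nat_lit 230) (nat_lit 0) (cs (lf (nat_lit 27) (nat_lit 186)) (nd (nat_lit 228) (nat_lit 0) (cs (lf (nat_lit 8) (nat_lit 227)) (rf (nat_lit 8)))))) (cs (nd (nat_lit 230) (nat_lit 0) (cs (lf (nat_lit 27) (nat_lit 186)) (nd (nat_lit 228) (nat_lit 0) (cs (lf (nat_lit 8) (nat_lit 227)) (nd (nat_lit 248) (nat_lit 0) (cs (lf (nat_lit 11) (nat_lit 246)) (nd (nat_lit 294) (nat_lit 0) (cs (lf (nat_lit 41) (nat_lit 227)) (nd (nat_lit 317) (nat_lit 0) (cs (lf (nat_lit 28) (nat_lit 228)) (nd (nat_lit 316)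 (nat_lit 0) (cs (lf (nat_lit 29) (nat_lit 250)) (lf (nat_lit 1) (nat_lit 291)))))))))))))) (nd (nat_lit 230) (nat_lit 0) (cs (lf (nat_lit 27) (nat_lit 186)) (nd (nat_lit 248) (nat_lit 0) (cs (lf (nat_lit 11) (nat_lit 246)) (rf (nat_lit 9)))))))))) (cs (nd (nat_lit 313) (nat_lit 0) (cs (rf (nat_lit 10)) (nd (nat_lit 230) (nat_lit 0) (cs (lf (nat_lit 27) (nat_lit 186)) (nd (nat_lit 228) (nat_lit 0) (cs (lf (nat_lit 8) (nat_lit 227)) (nd (nat_lit 248) (nat_lit 0) (cs (lf (nat_lit 35) (nat_lit 225)) (nd (nat_lit 246) (nat_lit 0) (cs (lf (nat_lit 4) (nat_lit 246)) (lf (nat_lit 47) (nat_lit 224)))))))))))) (cs (nd (nat_lit 230) (nat_lit 0) (cs (lf (nat_lit 27) (nat_lit 186)) (nd (nat_lit 248) (nat_lit 0) (cs (lf (nat_lit 11) (nat_lit 246)) (nd (nat_lit 228) (nat_lit 0) (cs (lf (nat_lit 17) (nat_lit 225)) (nd (nat_lit 313) (nat_lit 0) (cs (lf (nat_lit 35) (nat_lit 225)) (nd (nat_lit 334) (nat_lit 0) (cs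 (lf (nat_lit 40) (nat_lit 246)) (nd (nat_lit 314) (nat_lit 0) (cs (lf (nat_lit 29) (nat_lit 247)) (nd (nat_lit 335) (nat_lit 0) (cs (lf (nat_lit 41) (nat_lit 268)) (nd (nat_lit 315) (nat_lit 0) (cs (lf (nat_lit 6) (nat_lit 312)) (rf (nat_lit 11)))))))))))))))))) (nd (nat_lit 248) (nat_lit 0) (cs (lf (nat_lit 11) (nat_lit 246)) (nd (nat_lit 246) (nat_lit 0) (cs (lf (nat_lit 4) (nat_lit 246)) (nd (nat_lit 313) (nat_lit 0) (cs (lf (nat_lit 35) (nat_lit 225)) (lf (nat_lit 47) (nat_lit 224))))))))))))) (cs (nd (nat_lit 225) (nat_lit 0) (cs (rf (nat_lit 12)) (rf (nat_lit 4)))) (nd (nat_lit 315) (nat_lit 0) (cs (rf (nat_lit 13)) (cs (nd (nat_lit 230) (nat_lit 0) (cs (lf (nat_lit 27) (nat_lit 186)) (nd (nat_lit 228) (nat_lit 0) (cs (lf (nat_lit 8) (nat_lit 227)) (rf (nat_lit 11)))))) (cs (nd (nat_lit 248) (nat_lit 0) (cs (lf (nat_lit 11) (nat_lit 246)) (nd (nat_lit 271) (nat_lit 0) (cs (lf (nat_lit 0) (nat_lit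 246)) (nd (nat_lit 293) (nat_lit 0) (cs (lf (nat_lit 30) (nat_lit 249)) (lf (nat_lit 47) (nat_lit 226)))))))) (nd (nat_lit 248) (nat_lit 0) (cs (lf (nat_lit 11) (nat_lit 246)) (nd (nat_lit 230) (nat_lit 0) (cs (lf (nat_lit 27) (nat_lit 186)) (nd (nat_lit 228) (nat_lit 0) (cs (lf (nat_lit 17) (nat_lit 225)) (nd (nat_lit 294) (nat_lit 0) (cs (lf (nat_lit 40) (nat_lit 227)) (rf (nat_lit 14))))))))))))))))))))) q71159 (by decide +kernel)
def q71284 : Q := Q.p (nat_lit 0x820002600008000010000040000000000000000000000000000000000000000000000) (nat_lit 0x500001c0001f00007e0001fc000de0011f80077f0001f00007800014000000000000000000000000000000000000000) (nat_lit 12)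
theorem c71284 : QOK q71284 := cut [q70714, q50968, q71193, q70558, q70564, q71029, q45792, q71199, q69576, q70551, q70554, q50636, q71208, q71283] ⟨c70714, c50968, c71193, c70558, c70564, c71029, c45792, c71199, c69576, c70551, c70554, c50636, c71208, c71283, trivial⟩ (nd (nat_lit 268) (nat_lit 0) (cs (rf (nat_lit 0)) (cs (nd (nat_lit 230) (nat_lit 0) (cs (lf (nat_lit 27) (nat_lit 186)) (nd (nat_lit 270) (nat_lit 0) (cs (lf (nat_lit 15) (nat_lit 246)) (nd (nat_lit 267) (nat_lit 0) (cs (lf (nat_lit 16) (nat_lit 245)) (nd (nat_lit 228) (nat_lit 0) (cs (lf (nat_lit 8) (nat_lit 227)) (nd (nat_lit 288) (nat_lit 0) (cs (lf (nat_lit 10) (nat_lit 266)) (nd (nat_lit 266) (nat_lit 0) (cs (lf (nat_lit 11) (nat_lit 265)) (rf (nat_lit 1)))))))))))))) (cs (rf (nat_lit 2)) (cs (nd (nat_lit 247) (nat_lit 0) (cs (lf (nat_lit 8) (nat_lit 246)) (nd (nat_lit 225) (nat_lit 0) (cs (rf (nat_lit 3)) (cs (rf (nat_lit 4))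 (cs (rf (nat_lit 5)) (cs (nd (nat_lit 202) (nat_lit 0) (cs (nd (nat_lit 230) (nat_lit 0) (cs (lf (nat_lit 27) (nat_lit 186)) (nd (nat_lit 228) (nat_lit 0) (cs (lf (nat_lit 8) (nat_lit 227)) (nd (nat_lit 203) (nat_lit 0) (cs (lf (nat_lit 47) (nat_lit 180)) (rf (nat_lit 6)))))))) (cs (nd (nat_lit 230) (nat_lit 0) (cs (lf (nat_lit 27) (nat_lit 186)) (nd (nat_lit 228) (nat_lit 0) (cs (lf (nat_lit 8) (nat_lit 227)) (nd (nat_lit 291) (nat_lit 0) (cs (lf (nat_lit 46) (nat_lit 202)) (rf (nat_lit 7)))))))) (nd (nat_lit 180) (nat_lit 0) (cs (lf (nat_lit 45) (nat_lit 180)) (nd (nat_lit 224) (nat_lit 0) (cs (lf (nat_lit 42) (nat_lit 202)) (lf (nat_lit 24) (nat_lit 158))))))))) (nd (nat_lit 291) (nat_lit 0) (cs (rf (nat_lit 8)) (cs (rf (nat_lit 9)) (cs (rf (nat_lit 10)) (nd (nat_lit 290) (nat_lit 0) (cs (lf (nat_lit 41) (nat_lit 224)) (nd (nat_lit 224) (nat_lit 0) (cs (lf (nat_lit 47) (nat_lit 202)) (nd (nat_lit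 246) (nat_lit 0) (cs (nd (nat_lit 292) (nat_lit 0) (cs (lf (nat_lit 29) (nat_lit 225)) (nd (nat_lit 266) (nat_lit 0) (cs (lf (nat_lit 1) (nat_lit 266)) (rf (nat_lit 11)))))) (nd (nat_lit 226) (nat_lit 0) (cs (lf (nat_lit 35) (nat_lit 203)) (nd (nat_lit 223) (nat_lit 0) (cs (lf (nat_lit 47) (nat_lit 201)) (nd (nat_lit 244) (nat_lit 0) (cs (lf (nat_lit 13) (nat_lit 222)) (rf (nat_lit 12))))))))))))))))))))))))) (rf (nat_lit 13))))))) q71284 (by decide +kernel)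
def q71440 : Q := Q.p (nat_lit 0x900002600000000010000040000000000000000000000000000000000000000000000) (nat_lit 0x100000700007e0003fe0007f8006ff0011f006f7f01e7f80ebff00014000000000000000000000000000000000000000) (nat_lit 14)
theorem c71440 : QOK q71440 := cut [q56821, q70566, q70622, q45664, q70629, q69246, q70813, q70378, q70568, q70581, q70621, q70833, q46785, q70559, q70563, q70692, q70100, q70580, q70597, q70738, q69576, q70452, q70612, q70613, q70155, q70263, q70797, q70268, q70468, q49160, q70279, q70277, q44584, q44740, q70524, q71437] ⟨c56821, c70566, c70622, c45664, c70629, c69246, c70813, c70378, c70568, c70581, c70621, c70833, c46785, c70559, c70563, c70692, c70100, c70580, c70597, c70738, c69576, c70452, c70612, c70613, c70155, c70263, c70797, c70268, c70468, c49160, c70279, c70277, c44584, c44740, c70524, c71437, trivial⟩ (nd (nat_lit 247) (nat_lit 0) (cs (rf (nat_lit 0)) (cs (nd (nat_lit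 269) (nat_lit 0) (cs (rf (nat_lit 1)) (cs (rf (nat_lit 2)) (cs (nd (nat_lit 271) (nat_lit 0) (cs (rf (nat_lit 3)) (rf (nat_lit 4)))) (cs (nd (nat_lit 231) (nat_lit 0) (cs (lf (nat_lit 45) (nat_lit 186)) (nd (nat_lit 271) (nat_lit 0) (cs (rf (nat_lit 5)) (rf (nat_lit 6)))))) (cs (nd (nat_lit 231) (nat_lit 0) (cs (lf (nat_lit 45) (nat_lit 186)) (nd (nat_lit 271) (nat_lit 0) (cs (rf (nat_lit 7)) (rf (nat_lit 6)))))) (cs (nd (nat_lit 231) (nat_lit 0) (cs (lf (nat_lit 45) (nat_lit 186)) (nd (nat_lit 291) (nat_lit 0) (cs (rf (nat_lit 8)) (cs (rf (nat_lit 9)) (cs (rf (nat_lit 10)) (cs (rf (nat_lit 11)) (cs (nd (nat_lit 225) (nat_lit 0) (cs (rf (nat_lit 12)) (cs (rf (nat_lit 13)) (cs (rf (nat_lit 14)) (rf (nat_lit 15)))))) (cs (nd (nat_lit 313) (nat_lit 0) (cs (rf (nat_lit 16)) (cs (rf (nat_lit 17)) (cs (rf (nat_lit 18)) (nd (nat_lit 312) (nat_lit 0) (cs (lf (nat_lit 41) (nat_lit 246)) (nd (nat_lit 290)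 (nat_lit 0) (cs (rf (nat_lit 19)) (nd (nat_lit 270) (nat_lit 0) (cs (lf (nat_lit 7) (nat_lit 268)) (nd (nat_lit 246) (nat_lit 0) (cs (lf (nat_lit 47) (nat_lit 224)) (nd (nat_lit 245) (nat_lit 0) (cs (lf (nat_lit 0) (nat_lit 244)) (nd (nat_lit 268) (nat_lit 0) (cs (lf (nat_lit 47) (nat_lit 223)) (nd (nat_lit 311) (nat_lit 0) (cs (lf (nat_lit 41) (nat_lit 245)) (nd (nat_lit 310) (nat_lit 0) (cs (lf (nat_lit 12) (nat_lit 287)) (lf (nat_lit 17) (nat_lit 288)))))))))))))))))))))) (cs (nd (nat_lit 225) (nat_lit 0) (cs (rf (nat_lit 20)) (cs (rf (nat_lit 21)) (rf (nat_lit 13))))) (nd (nat_lit 313) (nat_lit 0) (cs (rf (nat_lit 16)) (cs (rf (nat_lit 22)) (cs (rf (nat_lit 23)) (nd (nat_lit 230) (nat_lit 0) (cs (lf (nat_lit 27) (nat_lit 186)) (rf (nat_lit 24)))))))))))))))))) (nd (nat_lit 209) (nat_lit 0) (cs (lf (nat_lit 44) (nat_lit 186)) (nd (nat_lit 271) (nat_lit 0) (cs (rf (nat_lit 3)) (cs (rf (nat_lit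 5)) (cs (rf (nat_lit 7)) (nd (nat_lit 293) (nat_lit 0) (cs (rf (nat_lit 25)) (cs (rf (nat_lit 26)) (nd (nat_lit 291) (nat_lit 0) (cs (rf (nat_lit 27)) (cs (rf (nat_lit 28)) (cs (nd (nat_lit 313) (nat_lit 0) (cs (rf (nat_lit 29)) (cs (rf (nat_lit 16)) (nd (nat_lit 273) (nat_lit 0) (cs (lf (nat_lit 19) (nat_lit 249)) (nd (nat_lit 224) (nat_lit 0) (cs (lf (nat_lit 46) (nat_lit 224)) (nd (nat_lit 314) (nat_lit 0) (cs (lf (nat_lit 29) (nat_lit 247)) (nd (nat_lit 202) (nat_lit 0) (cs (lf (nat_lit 45) (nat_lit 202)) (nd (nat_lit 315) (nat_lit 0) (cs (lf (nat_lit 30) (nat_lit 249)) (rf (nat_lit 30))))))))))))))) (nd (nat_lit 315) (nat_lit 0) (cs (lf (nat_lit 30) (nat_lit 249)) (rf (nat_lit 31)))))))))))))))))))))))) (nd (nat_lit 209) (nat_lit 0) (cs (lf (nat_lit 44) (nat_lit 186)) (nd (nat_lit 248) (nat_lit 0) (cs (rf (nat_lit 32)) (cs (rf (nat_lit 33)) (cs (nd (nat_lit 269) (nat_lit 0) (cs (lf (nat_lit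 11) (nat_lit 246)) (rf (nat_lit 34)))) (rf (nat_lit 35))))))))))) q71440 (by decide +kernel)
def q71701 : Q := Q.p (nat_lit 0x60000900002600000000010000040000000000000000000000000000000000000000000000) (nat_lit 0x50000dc000f780011c0006f80011c006c7801e1c00ea5000000000000000000000000000000000000000000000) (nat_lit 12)
theorem c71701 : QOK q71701 := cut [q71662, q47438, q71646, q70378, q70914, q60164, q71635, q70834, q69868, q71619, q66782, q70714, q47451, q71685, q45254, q56821, q70459, q49160, q70100, q49524] ⟨c71662, c47438, c71646, c70378, c70914, c60164, c71635, c70834, c69868, c71619, c66782, c70714, c47451, c71685, c45254, c56821, c70459, c49160, c70100, c49524, trivial⟩ (nd (nat_lit 269) (nat_lit 0) (cs (rf (nat_lit 0)) (cs (nd (nat_lit 271) (nat_lit 0) (cs (rf (nat_lit 1)) (rf (nat_lit 2)))) (cs (nd (nat_lit 271) (nat_lit 0) (cs (rf (nat_lit 3)) (cs (rf (nat_lit 4)) (rf (nat_lit 2))))) (cs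 (nd (nat_lit 291) (nat_lit 0) (cs (rf (nat_lit 5)) (cs (rf (nat_lit 6)) (nd (nat_lit 292) (nat_lit 0) (cs (lf (nat_lit 23) (nat_lit 268)) (nd (nat_lit 247) (nat_lit 0) (cs (rf (nat_lit 7)) (cs (nd (nat_lit 230) (nat_lit 0) (cs (lf (nat_lit 27) (nat_lit 186)) (nd (nat_lit 316) (nat_lit 0) (cs (lf (nat_lit 5) (nat_lit 291)) (nd (nat_lit 313) (nat_lit 0) (cs (lf (nat_lit 11) (nat_lit 290)) (nd (nat_lit 336) (nat_lit 0) (cs (lf (nat_lit 28) (nat_lit 247)) (nd (nat_lit 248) (nat_lit 0) (cs (lf (nat_lit 35) (nat_lit 225)) (rf (nat_lit 8)))))))))))) (nd (nat_lit 312) (nat_lit 0) (cs (lf (nat_lit 10) (nat_lit 290)) (nd (nat_lit 290) (nat_lit 0) (cs (lf (nat_lit 11) (nat_lit 289)) (lf (nat_lit 36) (nat_lit 224)))))))))))))) (cs (nd (nat_lit 291) (nat_lit 0) (cs (rf (nat_lit 5)) (cs (rf (nat_lit 6)) (nd (nat_lit 230) (nat_lit 0) (cs (lf (nat_lit 27) (nat_lit 186)) (nd (nat_lit 209) (nat_lit 0) (cs (lf (nat_lit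 44) (nat_lit 186)) (nd (nat_lit 292) (nat_lit 0) (cs (lf (nat_lit 23) (nat_lit 268)) (rf (nat_lit 9))))))))))) (cs (nd (nat_lit 209) (nat_lit 0) (cs (lf (nat_lit 44) (nat_lit 186)) (nd (nat_lit 211) (nat_lit 0) (cs (rf (nat_lit 10)) (nd (nat_lit 268) (nat_lit 0) (cs (rf (nat_lit 11)) (cs (nd (nat_lit 291) (nat_lit 0) (cs (lf (nat_lit 20) (nat_lit 268)) (nd (nat_lit 224) (nat_lit 0) (cs (nd (nat_lit 230) (nat_lit 0) (cs (lf (nat_lit 27) (nat_lit 186)) (nd (nat_lit 247) (nat_lit 0) (cs (lf (nat_lit 8) (nat_lit 246)) (nd (nat_lit 225) (nat_lit 0) (cs (lf (nat_lit 47) (nat_lit 202)) (nd (nat_lit 290) (nat_lit 0) (cs (lf (nat_lit 41) (nat_lit 224)) (lf (nat_lit 36) (nat_lit 202)))))))))) (cs (nd (nat_lit 230) (nat_lit 0) (cs (lf (nat_lit 27) (nat_lit 186)) (nd (nat_lit 246) (nat_lit 0) (cs (lf (nat_lit 24) (nat_lit 202)) (rf (nat_lit 12)))))) (nd (nat_lit 247) (nat_lit 0) (cs (lf (nat_lit 8) (nat_lit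 246)) (rf (nat_lit 13))))))))) (nd (nat_lit 230) (nat_lit 0) (cs (lf (nat_lit 27) (nat_lit 186)) (nd (nat_lit 292) (nat_lit 0) (cs (lf (nat_lit 21) (nat_lit 268)) (rf (nat_lit 14))))))))))))) (nd (nat_lit 291) (nat_lit 0) (cs (rf (nat_lit 5)) (cs (nd (nat_lit 268) (nat_lit 0) (cs (lf (nat_lit 20) (nat_lit 268)) (rf (nat_lit 11)))) (nd (nat_lit 247) (nat_lit 0) (cs (rf (nat_lit 15)) (cs (rf (nat_lit 16)) (nd (nat_lit 313) (nat_lit 0) (cs (rf (nat_lit 17)) (cs (rf (nat_lit 18)) (nd (nat_lit 209) (nat_lit 0) (cs (lf (nat_lit 44) (nat_lit 186)) (nd (nat_lit 336) (nat_lit 0) (cs (lf (nat_lit 28) (nat_lit 247)) (nd (nat_lit 273) (nat_lit 0) (cs (lf (nat_lit 7) (nat_lit 271)) (nd (nat_lit 246) (nat_lit 0) (cs (lf (nat_lit 47) (nat_lit 224)) (rf (nat_lit 19)))))))))))))))))))))))))) q71701 (by decide +kernel)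
def q71781 : Q := Q.p (nat_lit 0x20000900002600000000010000040000000000000000000000000000000000000000000000) (nat_lit 0x50000fc0007f80019c0006f00011c000c700021c00005000000000000000000000000000000000000000000000) (nat_lit 13)
theorem c71781 : QOK q71781 := cut [q65764, q71751, q71765, q60772] ⟨c65764, c71751, c71765, c60772, trivial⟩ (nd (nat_lit 271) (nat_lit 0) (cs (rf (nat_lit 0)) (cs (rf (nat_lit 1)) (cs (rf (nat_lit 2)) (cs (nd (nat_lit 209) (nat_lit 0) (cs (lf (nat_lit 44) (nat_lit 186)) (nd (nat_lit 315) (nat_lit 0) (cs (lf (nat_lit 30) (nat_lit 249)) (nd (nat_lit 314) (nat_lit 0) (cs (lf (nat_lit 41) (nat_lit 248)) (nd (nat_lit 316) (nat_lit 0) (cs (lf (nat_lit 29) (nat_lit 249)) (nd (nat_lit 230) (nat_lit 0) (cs (lf (nat_lit 27) (nat_lit 186)) (nd (nat_lit 248) (nat_lit 0) (cs (lf (nat_lit 47) (nat_lit 226)) (nd (nat_lit 247) (nat_lit 0) (cs (lf (nat_lit 0) (nat_lit 246)) (nd (nat_lit 268)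 (nat_lit 0) (cs (lf (nat_lit 10) (nat_lit 246)) (nd (nat_lit 225) (nat_lit 0) (cs (lf (nat_lit 23) (nat_lit 224)) (nd (nat_lit 292) (nat_lit 0) (cs (lf (nat_lit 44) (nat_lit 225)) (nd (nat_lit 291) (nat_lit 0) (cs (lf (nat_lit 12) (nat_lit 268)) (lf (nat_lit 18) (nat_lit 291)))))))))))))))))))))))) (nd (nat_lit 315) (nat_lit 0) (cs (lf (nat_lit 30) (nat_lit 249)) (nd (nat_lit 316) (nat_lit 0) (cs (lf (nat_lit 29) (nat_lit 249)) (nd (nat_lit 230) (nat_lit 0) (cs (lf (nat_lit 27) (nat_lit 186)) (nd (nat_lit 209) (nat_lit 0) (cs (lf (nat_lit 44) (nat_lit 186)) (rf (nat_lit 3))))))))))))))) q71781 (by decide +kernel)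
def q71807 : Q := Q.p (nat_lit 0x20000900002600000000010000040000000000000000000000000000000000000000000000) (nat_lit 0x50003fc000ff0001dc0002f00011c0004780001c00007000000000000000000000000000000000000000000000) (nat_lit 12)
theorem c71807 : QOK q71807 := cut [q47438, q70655, q70793, q71313, q59904, q71798, q71799, q40969] ⟨c47438, c70655, c70793, c71313, c59904, c71798, c71799, c40969, trivial⟩ (nd (nat_lit 271) (nat_lit 0) (cs (nd (nat_lit 269) (nat_lit 0) (cs (rf (nat_lit 0)) (cs (rf (nat_lit 1)) (cs (rf (nat_lit 2)) (nd (nat_lit 270) (nat_lit 0) (cs (rf (nat_lit 3)) (cs (nd (nat_lit 230) (nat_lit 0) (cs (lf (nat_lit 27) (nat_lit 186)) (rf (nat_lit 4)))) (nd (nat_lit 247) (nat_lit 0) (cs (lf (nat_lit 23) (nat_lit 246)) (nd (nat_lit 230) (nat_lit 0) (cs (lf (nat_lit 27) (nat_lit 186)) (nd (nat_lit 248) (nat_lit 0) (cs (lf (nat_lit 5) (nat_lit 247)) (nd (nat_lit 224) (nat_lit 0) (cs (lf (nat_lit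 22) (nat_lit 224)) (nd (nat_lit 226) (nat_lit 0) (cs (lf (nat_lit 24) (nat_lit 204)) (nd (nat_lit 291) (nat_lit 0) (cs (lf (nat_lit 11) (nat_lit 268)) (lf (nat_lit 30) (nat_lit 225))))))))))))))))))))) (cs (rf (nat_lit 5)) (cs (nd (nat_lit 315) (nat_lit 0) (cs (lf (nat_lit 30) (nat_lit 249)) (nd (nat_lit 314) (nat_lit 0) (cs (lf (nat_lit 41) (nat_lit 248)) (rf (nat_lit 6)))))) (cs (nd (nat_lit 315) (nat_lit 0) (cs (lf (nat_lit 30) (nat_lit 249)) (nd (nat_lit 316) (nat_lit 0) (cs (lf (nat_lit 29) (nat_lit 249)) (rf (nat_lit 6)))))) (nd (nat_lit 315) (nat_lit 0) (cs (lf (nat_lit 30) (nat_lit 249)) (nd (nat_lit 316) (nat_lit 0) (cs (lf (nat_lit 29) (nat_lit 249)) (nd (nat_lit 314) (nat_lit 0) (cs (rf (nat_lit 7)) (lf (nat_lit 41) (nat_lit 248))))))))))))) q71807 (by decide +kernel)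
def q71893 : Q := Q.p (nat_lit 0x20000900002600000000010000040000000000000000000000000000000000000000000000) (nat_lit 0x50003fe000ff0001de0004f00011c006c7001e1c00ebf000004000000000000000000000000000000000000000) (nat_lit 13)
theorem c71893 : QOK q71893 := cut [q71376, q71798, q47438, q75, q47072, q71808, q70466, q45497, q47291, q70268, q70581, q70621, q70270, q47437, q69136, q70819, q70834, q71313, q71832, q66782, q47162, q71119, q71835, q62888, q71854, q71885, q71796, q71797, q71879, q71890] ⟨c71376, c71798, c47438, c75, c47072, c71808, c70466, c45497, c47291, c70268, c70581, c70621, c70270, c47437, c69136, c70819, c70834, c71313, c71832, c66782, c47162, c71119, c71835, c62888, c71854, c71885, c71796, c71797, c71879, c71890, trivial⟩ (nd (nat_lit 271) (nat_lit 0) (cs (rf (nat_lit 0)) (cs (rf (nat_lit 1)) (cs (nd (nat_lit 269) (nat_lit 0) (cs (rf (nat_lit 2)) (cs (nd (nat_lit 209) (nat_lit 0) (cs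 (lf (nat_lit 44) (nat_lit 186)) (nd (nat_lit 210) (nat_lit 0) (cs (rf (nat_lit 3)) (nd (nat_lit 247) (nat_lit 0) (cs (rf (nat_lit 4)) (cs (rf (nat_lit 5)) (cs (nd (nat_lit 291) (nat_lit 0) (cs (rf (nat_lit 6)) (cs (nd (nat_lit 230) (nat_lit 0) (cs (lf (nat_lit 27) (nat_lit 186)) (nd (nat_lit 248) (nat_lit 0) (cs (lf (nat_lit 11) (nat_lit 246)) (rf (nat_lit 7)))))) (cs (nd (nat_lit 290) (nat_lit 0) (cs (lf (nat_lit 14) (nat_lit 268)) (nd (nat_lit 248) (nat_lit 0) (cs (lf (nat_lit 11) (nat_lit 246)) (nd (nat_lit 313) (nat_lit 0) (cs (lf (nat_lit 35) (nat_lit 225)) (rf (nat_lit 8)))))))) (nd (nat_lit 230) (nat_lit 0) (cs (lf (nat_lit 27) (nat_lit 186)) (nd (nat_lit 290) (nat_lit 0) (cs (lf (nat_lit 14) (nat_lit 268)) (nd (nat_lit 248) (nat_lit 0) (cs (lf (nat_lit 11) (nat_lit 246)) (nd (nat_lit 225) (nat_lit 0) (cs (lf (nat_lit 23) (nat_lit 224)) (lf (nat_lit 41) (nat_lit 224)))))))))))))) (nd (nat_lit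 291) (nat_lit 0) (cs (rf (nat_lit 9)) (cs (rf (nat_lit 6)) (cs (rf (nat_lit 10)) (cs (rf (nat_lit 11)) (nd (nat_lit 292) (nat_lit 0) (cs (lf (nat_lit 12) (nat_lit 268)) (nd (nat_lit 230) (nat_lit 0) (cs (lf (nat_lit 27) (nat_lit 186)) (rf (nat_lit 12))))))))))))))))))) (cs (nd (nat_lit 209) (nat_lit 0) (cs (lf (nat_lit 44) (nat_lit 186)) (nd (nat_lit 210) (nat_lit 0) (cs (rf (nat_lit 3)) (nd (nat_lit 247) (nat_lit 0) (cs (rf (nat_lit 13)) (cs (rf (nat_lit 5)) (cs (nd (nat_lit 291) (nat_lit 0) (cs (rf (nat_lit 14)) (cs (rf (nat_lit 6)) (cs (rf (nat_lit 15)) (rf (nat_lit 16)))))) (nd (nat_lit 230) (nat_lit 0) (cs (lf (nat_lit 27) (nat_lit 186)) (nd (nat_lit 270) (nat_lit 0) (cs (lf (nat_lit 23) (nat_lit 246)) (rf (nat_lit 17)))))))))))))) (nd (nat_lit 230) (nat_lit 0) (cs (lf (nat_lit 27) (nat_lit 186)) (rf (nat_lit 18)))))))) (cs (nd (nat_lit 209) (nat_lit 0) (cs (lf (nat_lit 44) (nat_lit 186)) (nd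 (nat_lit 211) (nat_lit 0) (cs (rf (nat_lit 19)) (nd (nat_lit 315) (nat_lit 0) (cs (lf (nat_lit 30) (nat_lit 249)) (nd (nat_lit 316) (nat_lit 0) (cs (lf (nat_lit 29) (nat_lit 249)) (nd (nat_lit 314) (nat_lit 0) (cs (lf (nat_lit 41) (nat_lit 248)) (nd (nat_lit 313) (nat_lit 0) (cs (nd (nat_lit 317) (nat_lit 0) (cs (rf (nat_lit 20)) (cs (rf (nat_lit 21)) (rf (nat_lit 22))))) (nd (nat_lit 230) (nat_lit 0) (cs (lf (nat_lit 27) (nat_lit 186)) (nd (nat_lit 290) (nat_lit 0) (cs (lf (nat_lit 22) (nat_lit 290)) (nd (nat_lit 226) (nat_lit 0) (cs (lf (nat_lit 46) (nat_lit 226)) (rf (nat_lit 23)))))))))))))))))))) (cs (rf (nat_lit 24)) (cs (rf (nat_lit 25)) (nd (nat_lit 294) (nat_lit 0) (cs (rf (nat_lit 26)) (cs (rf (nat_lit 27)) (cs (rf (nat_lit 28)) (nd (nat_lit 209) (nat_lit 0) (cs (lf (nat_lit 44) (nat_lit 186)) (rf (nat_lit 29))))))))))))))) q71893 (by decide +kernel)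
def q71997 : Q := Q.p (nat_lit 0x20000900002600000000010000040000000000000000000000000000000000000000000000) (nat_lit 0x200003f0000ff8001dc0006f800100000c000020000000000000000000000000000000000000000000000000000) (nat_lit 12)
theorem c71997 : QOK q71997 := cut [q71765, q71798, q71348, q22293, q71646, q71736, q71939, q71320, q71459, q71796, q71964, q71758, q49066, q71321, q71797, q71976, q48949, q70283, q71987, q69253, q56961] ⟨c71765, c71798, c71348, c22293, c71646, c71736, c71939, c71320, c71459, c71796, c71964, c71758, c49066, c71321, c71797, c71976, c48949, c70283, c71987, c69253, c56961, trivial⟩ (nd (nat_lit 271) (nat_lit 0) (cs (rf (nat_lit 0)) (cs (rf (nat_lit 1)) (cs (nd (nat_lit 294) (nat_lit 0) (cs (rf (nat_lit 2)) (cs (nd (nat_lit 252) (nat_lit 0) (cs (lf (nat_lit 26) (nat_lit 186)) (nd (nat_lit 274) (nat_lit 0) (cs (lf (nat_lit 8) (nat_lit 271)) (nd (nat_lit 296) (nat_lit 0) (cs (lf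 (nat_lit 14) (nat_lit 271)) (rf (nat_lit 3)))))))) (cs (rf (nat_lit 4)) (cs (rf (nat_lit 5)) (nd (nat_lit 230) (nat_lit 0) (cs (lf (nat_lit 27) (nat_lit 186)) (nd (nat_lit 274) (nat_lit 0) (cs (lf (nat_lit 8) (nat_lit 271)) (rf (nat_lit 6))))))))))) (cs (nd (nat_lit 294) (nat_lit 0) (cs (rf (nat_lit 7)) (cs (rf (nat_lit 8)) (cs (rf (nat_lit 9)) (nd (nat_lit 230) (nat_lit 0) (cs (lf (nat_lit 27) (nat_lit 186)) (nd (nat_lit 273) (nat_lit 0) (cs (lf (nat_lit 7) (nat_lit 271)) (nd (nat_lit 315) (nat_lit 0) (cs (lf (nat_lit 30) (nat_lit 249)) (nd (nat_lit 314) (nat_lit 0) (cs (lf (nat_lit 41) (nat_lit 248)) (nd (nat_lit 313) (nat_lit 0) (cs (lf (nat_lit 12) (nat_lit 290)) (nd (nat_lit 316) (nat_lit 0) (cs (lf (nat_lit 29) (nat_lit 249)) (lf (nat_lit 17) (nat_lit 291)))))))))))))))))) (cs (rf (nat_lit 10)) (cs (nd (nat_lit 292) (nat_lit 0) (cs (rf (nat_lit 11)) (cs (nd (nat_lit 315) (nat_lit 0) (cs (lf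 (nat_lit 30) (nat_lit 249)) (nd (nat_lit 316) (nat_lit 0) (cs (lf (nat_lit 29) (nat_lit 249)) (nd (nat_lit 317) (nat_lit 0) (cs (lf (nat_lit 18) (nat_lit 292)) (nd (nat_lit 339) (nat_lit 0) (cs (lf (nat_lit 26) (nat_lit 250)) (nd (nat_lit 273) (nat_lit 0) (cs (lf (nat_lit 44) (nat_lit 250)) (lf (nat_lit 6) (nat_lit 270)))))))))))) (nd (nat_lit 230) (nat_lit 0) (cs (lf (nat_lit 27) (nat_lit 186)) (nd (nat_lit 209) (nat_lit 0) (cs (lf (nat_lit 44) (nat_lit 186)) (nd (nat_lit 291) (nat_lit 0) (cs (lf (nat_lit 12) (nat_lit 268)) (nd (nat_lit 315) (nat_lit 0) (cs (lf (nat_lit 30) (nat_lit 249)) (nd (nat_lit 316) (nat_lit 0) (cs (lf (nat_lit 29) (nat_lit 249)) (rf (nat_lit 12))))))))))))))) (cs (nd (nat_lit 294) (nat_lit 0) (cs (nd (nat_lit 209) (nat_lit 0) (cs (lf (nat_lit 44) (nat_lit 186)) (rf (nat_lit 13)))) (cs (rf (nat_lit 8)) (cs (rf (nat_lit 14)) (nd (nat_lit 273) (nat_lit 0) (cs (lf (nat_lit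 7) (nat_lit 271)) (nd (nat_lit 291) (nat_lit 0) (cs (lf (nat_lit 13) (nat_lit 269)) (nd (nat_lit 316) (nat_lit 0) (cs (lf (nat_lit 42) (nat_lit 249)) (nd (nat_lit 230) (nat_lit 0) (cs (lf (nat_lit 27) (nat_lit 186)) (nd (nat_lit 209) (nat_lit 0) (cs (lf (nat_lit 44) (nat_lit 186)) (rf (nat_lit 15)))))))))))))))) (cs (nd (nat_lit 292) (nat_lit 0) (cs (rf (nat_lit 11)) (nd (nat_lit 315) (nat_lit 0) (cs (lf (nat_lit 30) (nat_lit 249)) (rf (nat_lit 16)))))) (nd (nat_lit 315) (nat_lit 0) (cs (lf (nat_lit 30) (nat_lit 249)) (nd (nat_lit 314) (nat_lit 0) (cs (lf (nat_lit 41) (nat_lit 248)) (nd (nat_lit 291) (nat_lit 0) (cs (rf (nat_lit 17)) (cs (nd (nat_lit 230) (nat_lit 0) (cs (lf (nat_lit 27) (nat_lit 186)) (nd (nat_lit 209) (nat_lit 0) (cs (lf (nat_lit 44) (nat_lit 186)) (nd (nat_lit 273) (nat_lit 0) (cs (lf (nat_lit 19) (nat_lit 249)) (rf (nat_lit 18)))))))) (cs (nd (nat_lit 316) (nat_lit 0) (cs (lf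 (nat_lit 29) (nat_lit 249)) (nd (nat_lit 292) (nat_lit 0) (cs (lf (nat_lit 18) (nat_lit 291)) (rf (nat_lit 19)))))) (nd (nat_lit 292) (nat_lit 0) (cs (lf (nat_lit 12) (nat_lit 268)) (rf (nat_lit 20))))))))))))))))))))) q71997 (by decide +kernel)
def q72170 : Q := Q.p (nat_lit 0x900002600000000010000040000000000000000000000000000000000000000000000) (nat_lit 0x50003fc000ff0001fc0006f00001c000b7000e7c000be000000000000000000000000000000000000000000000) (nat_lit 14)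
theorem c72170 : QOK q72170 := cut [q70261, q52054, q56821, q70648, q70625, q70263, q70337, q71321, q65658, q70315, q70425, q71320, q65632, q61551, q70258, q70649, q57083, q61291, q70391, q65764, q45664, q69246, q70378, q70797, q69301, q70433, q44591, q47306, q72169] ⟨c70261, c52054, c56821, c70648, c70625, c70263, c70337, c71321, c65658, c70315, c70425, c71320, c65632, c61551, c70258, c70649, c57083, c61291, c70391, c65764, c45664, c69246, c70378, c70797, c69301, c70433, c44591, c47306, c72169, trivial⟩ (nd (nat_lit 271) (nat_lit 0) (cs (rf (nat_lit 0)) (cs (nd (nat_lit 209) (nat_lit 0) (cs (lf (nat_lit 44) (nat_lit 186)) (nd (nat_lit 247) (nat_lit 0) (cs (rf (nat_lit 1)) (cs (rf (nat_lit 2)) (nd (nat_lit 294) (nat_lit 0) (cs (rf (nat_lit 3)) (cs (nd (nat_lit 273) (nat_lit 0) (cs (lf (nat_lit 19) (nat_lit 249)) (nd (nat_lit 316) (nat_lit 0) (cs (lf (nat_lit 42) (nat_lit 249)) (nd (nat_lit 315)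 (nat_lit 0) (cs (lf (nat_lit 41) (nat_lit 249)) (nd (nat_lit 317) (nat_lit 0) (cs (lf (nat_lit 29) (nat_lit 250)) (nd (nat_lit 228) (nat_lit 0) (cs (lf (nat_lit 28) (nat_lit 228)) (rf (nat_lit 4)))))))))))) (cs (nd (nat_lit 293) (nat_lit 0) (cs (rf (nat_lit 5)) (cs (rf (nat_lit 6)) (rf (nat_lit 7))))) (cs (nd (nat_lit 273) (nat_lit 0) (cs (lf (nat_lit 19) (nat_lit 249)) (rf (nat_lit 8)))) (cs (nd (nat_lit 293) (nat_lit 0) (cs (rf (nat_lit 9)) (cs (nd (nat_lit 273) (nat_lit 0) (cs (lf (nat_lit 7) (nat_lit 271)) (rf (nat_lit 10)))) (cs (rf (nat_lit 11)) (rf (nat_lit 7)))))) (nd (nat_lit 273) (nat_lit 0) (cs (lf (nat_lit 19) (nat_lit 249)) (rf (nat_lit 12))))))))))))))) (cs (nd (nat_lit 270) (nat_lit 0) (cs (rf (nat_lit 13)) (cs (rf (nat_lit 14)) (nd (nat_lit 209) (nat_lit 0) (cs (lf (nat_lit 44) (nat_lit 186)) (nd (nat_lit 269) (nat_lit 0) (cs (lf (nat_lit 12) (nat_lit 246)) (nd (nat_lit 290) (nat_lit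 0) (cs (lf (nat_lit 10) (nat_lit 268)) (rf (nat_lit 15))))))))))) (cs (nd (nat_lit 273) (nat_lit 0) (cs (lf (nat_lit 19) (nat_lit 249)) (nd (nat_lit 270) (nat_lit 0) (cs (rf (nat_lit 16)) (cs (rf (nat_lit 17)) (rf (nat_lit 18))))))) (cs (nd (nat_lit 293) (nat_lit 0) (cs (rf (nat_lit 19)) (cs (rf (nat_lit 5)) (nd (nat_lit 247) (nat_lit 0) (cs (rf (nat_lit 1)) (cs (rf (nat_lit 2)) (nd (nat_lit 269) (nat_lit 0) (cs (rf (nat_lit 20)) (cs (rf (nat_lit 21)) (cs (rf (nat_lit 22)) (rf (nat_lit 23)))))))))))) (cs (nd (nat_lit 293) (nat_lit 0) (cs (rf (nat_lit 19)) (cs (rf (nat_lit 5)) (nd (nat_lit 270) (nat_lit 0) (cs (rf (nat_lit 14)) (cs (nd (nat_lit 209) (nat_lit 0) (cs (lf (nat_lit 44) (nat_lit 186)) (rf (nat_lit 24)))) (cs (nd (nat_lit 273) (nat_lit 0) (cs (lf (nat_lit 19) (nat_lit 249)) (nd (nat_lit 295) (nat_lit 0) (cs (lf (nat_lit 5) (nat_lit 270)) (nd (nat_lit 206) (nat_lit 0) (cs (lf (nat_lit 25)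 (nat_lit 206)) (nd (nat_lit 292) (nat_lit 0) (cs (lf (nat_lit 11) (nat_lit 269)) (nd (nat_lit 248) (nat_lit 0) (cs (lf (nat_lit 23) (nat_lit 247)) (nd (nat_lit 209) (nat_lit 0) (cs (lf (nat_lit 44) (nat_lit 186)) (nd (nat_lit 204) (nat_lit 0) (cs (lf (nat_lit 25) (nat_lit 204)) (rf (nat_lit 25)))))))))))))))) (nd (nat_lit 247) (nat_lit 0) (cs (rf (nat_lit 26)) (cs (rf (nat_lit 1)) (nd (nat_lit 268) (nat_lit 0) (cs (lf (nat_lit 13) (nat_lit 246)) (nd (nat_lit 209) (nat_lit 0) (cs (lf (nat_lit 44) (nat_lit 186)) (nd (nat_lit 228) (nat_lit 0) (cs (lf (nat_lit 36) (nat_lit 205)) (nd (nat_lit 248) (nat_lit 0) (cs (lf (nat_lit 17) (nat_lit 225)) (nd (nat_lit 225) (nat_lit 0) (cs (lf (nat_lit 23) (nat_lit 224)) (nd (nat_lit 226) (nat_lit 0) (cs (lf (nat_lit 24) (nat_lit 204)) (rf (nat_lit 27)))))))))))))))))))))))) (rf (nat_lit 28))))))))) q72170 (by decide +kernel)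
def q72194 : Q := Q.p (nat_lit 0x20000880002600000000010000040000000000000000000000000000000000000000000000) (nat_lit 0x500001c00007e0003f0001de000700001180004400000000000000000000000000000000000000000000000000000000) (nat_lit 10)
theorem c72194 : QOK q72194 := cut [q56985, q66776, q72193] ⟨c56985, c66776, c72193, trivial⟩ (nd (nat_lit 315) (nat_lit 0) (cs (rf (nat_lit 0)) (cs (rf (nat_lit 1)) (rf (nat_lit 2))))) q72194 (by decide +kernel)
def q72905 : Q := Q.p (nat_lit 0x880002600000000010000040000000000000000000000000000000000000000000000) (nat_lit 0x1500007c0001f0000ff0001f00017780011e00eefc01e7000ebc000040000000000000000000000000000000000000000) (nat_lit 14)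
theorem c72905 : QOK q72905 := cut [q66782, q67617, q67232, q67296, q61542, q66776, q72177, q72184, q72187, q72195, q72201, q67227, q59254, q59925, q62077, q72874, q56985, q72186, q60671, q72428, q60108, q60056, q47485, q66758, q61518] ⟨c66782, c67617, c67232, c67296, c61542, c66776, c72177, c72184, c72187, c72195, c72201, c67227, c59254, c59925, c62077, c72874, c56985, c72186, c60671, c72428, c60108, c60056, c47485, c66758, c61518, trivial⟩ (nd (nat_lit 209) (nat_lit 0) (cs (lf (nat_lit 44) (nat_lit 186)) (nd (nat_lit 211) (nat_lit 0) (cs (rf (nat_lit 0)) (cs (rf (nat_lit 1)) (nd (nat_lit 293) (nat_lit 0) (cs (rf (nat_lit 2)) (cs (rf (nat_lit 3)) (cs (nd (nat_lit 315) (nat_lit 0) (cs (rf (nat_lit 4)) (cs (rf (nat_lit 5)) (cs (rf (nat_lit 6)) (rf (nat_lit 7)))))) (cs (rf (nat_lit 8)) (cs (rf (nat_lit 9)) (cs (rf (nat_lit 10)) (cs (nd (nat_lit 227) (nat_lit 0) (cs (rf (nat_lit 11)) (nd (nat_lit 294)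 (nat_lit 0) (cs (lf (nat_lit 29) (nat_lit 227)) (nd (nat_lit 295) (nat_lit 0) (cs (rf (nat_lit 12)) (cs (nd (nat_lit 230) (nat_lit 0) (cs (lf (nat_lit 27) (nat_lit 186)) (nd (nat_lit 270) (nat_lit 0) (cs (lf (nat_lit 18) (nat_lit 270)) (rf (nat_lit 13)))))) (nd (nat_lit 273) (nat_lit 0) (cs (rf (nat_lit 14)) (cs (nd (nat_lit 292) (nat_lit 0) (cs (lf (nat_lit 41) (nat_lit 226)) (rf (nat_lit 15)))) (nd (nat_lit 292) (nat_lit 0) (cs (lf (nat_lit 41) (nat_lit 226)) (lf (nat_lit 17) (nat_lit 270)))))))))))))) (cs (nd (nat_lit 315) (nat_lit 0) (cs (rf (nat_lit 16)) (cs (rf (nat_lit 5)) (cs (rf (nat_lit 17)) (nd (nat_lit 248) (nat_lit 0) (cs (lf (nat_lit 47) (nat_lit 226)) (nd (nat_lit 247) (nat_lit 0) (cs (rf (nat_lit 18)) (cs (rf (nat_lit 19)) (nd (nat_lit 294) (nat_lit 0) (cs (nd (nat_lit 272) (nat_lit 0) (cs (lf (nat_lit 5) (nat_lit 247)) (nd (nat_lit 316) (nat_lit 0) (cs (lf (nat_lit 42) (nat_lit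 249)) (rf (nat_lit 20)))))) (cs (nd (nat_lit 230) (nat_lit 0) (cs (lf (nat_lit 27) (nat_lit 186)) (nd (nat_lit 272) (nat_lit 0) (cs (lf (nat_lit 5) (nat_lit 247)) (nd (nat_lit 316) (nat_lit 0) (cs (lf (nat_lit 42) (nat_lit 249)) (nd (nat_lit 317) (nat_lit 0) (cs (lf (nat_lit 29) (nat_lit 250)) (rf (nat_lit 21)))))))))) (nd (nat_lit 268) (nat_lit 0) (cs (lf (nat_lit 10) (nat_lit 246)) (nd (nat_lit 230) (nat_lit 0) (cs (lf (nat_lit 27) (nat_lit 186)) (nd (nat_lit 224) (nat_lit 0) (cs (lf (nat_lit 22) (nat_lit 224)) (rf (nat_lit 22)))))))))))))))))))) (nd (nat_lit 227) (nat_lit 0) (cs (rf (nat_lit 23)) (cs (rf (nat_lit 11)) (nd (nat_lit 230) (nat_lit 0) (cs (lf (nat_lit 27) (nat_lit 186)) (nd (nat_lit 294) (nat_lit 0) (cs (lf (nat_lit 29) (nat_lit 227)) (nd (nat_lit 292) (nat_lit 0) (cs (lf (nat_lit 41) (nat_lit 226)) (nd (nat_lit 226) (nat_lit 0) (cs (lf (nat_lit 47) (nat_lit 204)) (nd (nat_lit 224)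 (nat_lit 0) (cs (lf (nat_lit 1) (nat_lit 224)) (nd (nat_lit 315) (nat_lit 0) (cs (lf (nat_lit 46) (nat_lit 226)) (nd (nat_lit 337) (nat_lit 0) (cs (lf (nat_lit 34) (nat_lit 249)) (nd (nat_lit 270) (nat_lit 0) (cs (lf (nat_lit 42) (nat_lit 270)) (rf (nat_lit 24))))))))))))))))))))))))))))))))))) q72905 (by decide +kernel)
def q72994 : Q := Q.p (nat_lit 0x880002600000000010000040000000000000000000000000000000000000000000000) (nat_lit 0xc0000700003c0000f8000fe00077e0011f00eefe01e7e00ebf80004e000000000000000000000000000000000000000) (nat_lit 14)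
theorem c72994 : QOK q72994 := cut [q72357, q72397, q44571, q60671, q72404, q72409, q72427, q68591, q40946, q56552, q72340, q58830, q68605, q72449, q72948, q66782, q67617, q68700, q46571, q72341, q67227, q72490, q64208, q72985, q72992] ⟨c72357, c72397, c44571, c60671, c72404, c72409, c72427, c68591, c40946, c56552, c72340, c58830, c68605, c72449, c72948, c66782, c67617, c68700, c46571, c72341, c67227, c72490, c64208, c72985, c72992, trivial⟩ (nd (nat_lit 248) (nat_lit 0) (cs (rf (nat_lit 0)) (cs (rf (nat_lit 1)) (cs (nd (nat_lit 247) (nat_lit 0) (cs (rf (nat_lit 2)) (cs (rf (nat_lit 3)) (nd (nat_lit 272) (nat_lit 0) (cs (lf (nat_lit 5) (nat_lit 247)) (nd (nat_lit 269) (nat_lit 0) (cs (lf (nat_lit 11) (nat_lit 246)) (nd (nat_lit 291) (nat_lit 0) (cs (nd (nat_lit 230) (nat_lit 0) (cs (lf (nat_lit 27) (nat_lit 186)) (nd (nat_lit 270) (nat_lit 0) (cs (lf (nat_lit 11) (nat_lit 268)) (nd (nat_lit 313)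 (nat_lit 0) (cs (lf (nat_lit 30) (nat_lit 247)) (nd (nat_lit 314) (nat_lit 0) (cs (lf (nat_lit 29) (nat_lit 247)) (nd (nat_lit 227) (nat_lit 0) (cs (lf (nat_lit 31) (nat_lit 226)) (nd (nat_lit 205) (nat_lit 0) (cs (lf (nat_lit 29) (nat_lit 205)) (lf (nat_lit 36) (nat_lit 182)))))))))))))) (cs (nd (nat_lit 225) (nat_lit 0) (cs (lf (nat_lit 23) (nat_lit 224)) (rf (nat_lit 4)))) (cs (rf (nat_lit 5)) (nd (nat_lit 225) (nat_lit 0) (cs (lf (nat_lit 23) (nat_lit 224)) (nd (nat_lit 290) (nat_lit 0) (cs (lf (nat_lit 41) (nat_lit 224)) (lf (nat_lit 8) (nat_lit 268))))))))))))))))) (cs (rf (nat_lit 6)) (cs (nd (nat_lit 247) (nat_lit 0) (cs (rf (nat_lit 3)) (cs (rf (nat_lit 7)) (nd (nat_lit 272) (nat_lit 0) (cs (lf (nat_lit 5) (nat_lit 247)) (nd (nat_lit 227) (nat_lit 0) (cs (rf (nat_lit 8)) (nd (nat_lit 293) (nat_lit 0) (cs (rf (nat_lit 9)) (cs (rf (nat_lit 10)) (nd (nat_lit 226) (nat_lit 0) (cs (rf (nat_lit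 11)) (nd (nat_lit 225) (nat_lit 0) (cs (lf (nat_lit 0) (nat_lit 224)) (nd (nat_lit 203) (nat_lit 0) (cs (nd (nat_lit 292) (nat_lit 0) (cs (lf (nat_lit 41) (nat_lit 226)) (lf (nat_lit 43) (nat_lit 203)))) (nd (nat_lit 269) (nat_lit 0) (cs (lf (nat_lit 11) (nat_lit 246)) (rf (nat_lit 12)))))))))))))))))))) (cs (rf (nat_lit 13)) (cs (rf (nat_lit 14)) (cs (nd (nat_lit 209) (nat_lit 0) (cs (lf (nat_lit 44) (nat_lit 186)) (nd (nat_lit 211) (nat_lit 0) (cs (rf (nat_lit 15)) (cs (rf (nat_lit 16)) (nd (nat_lit 247) (nat_lit 0) (cs (rf (nat_lit 3)) (cs (rf (nat_lit 17)) (nd (nat_lit 272) (nat_lit 0) (cs (lf (nat_lit 5) (nat_lit 247)) (nd (nat_lit 293) (nat_lit 0) (cs (rf (nat_lit 18)) (cs (rf (nat_lit 19)) (nd (nat_lit 227) (nat_lit 0) (cs (rf (nat_lit 20)) (cs (rf (nat_lit 21)) (nd (nat_lit 230) (nat_lit 0) (cs (lf (nat_lit 27) (nat_lit 186)) (nd (nat_lit 292) (nat_lit 0) (cs (lf (nat_lit 41) (nat_lit 226))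 (nd (nat_lit 291) (nat_lit 0) (cs (lf (nat_lit 12) (nat_lit 268)) (nd (nat_lit 225) (nat_lit 0) (cs (lf (nat_lit 23) (nat_lit 224)) (nd (nat_lit 226) (nat_lit 0) (cs (lf (nat_lit 47) (nat_lit 204)) (rf (nat_lit 22)))))))))))))))))))))))))))) (cs (rf (nat_lit 23)) (nd (nat_lit 209) (nat_lit 0) (cs (lf (nat_lit 44) (nat_lit 186)) (rf (nat_lit 24)))))))))))))) q72994 (by decide +kernel)
def q73056 : Q := Q.p (nat_lit 0x880002600000000010000040000000000000000000000000000000000000000000000) (nat_lit 0x100007c0003fc0003e00037e0011f00eefe01e7f006bf80005e000050000000000000000000000000000000000) (nat_lit 14)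
theorem c73056 : QOK q73056 := cut [q72397, q72427, q72449, q72842, q72992, q72340, q72341, q67617, q67227, q72490, q72946, q54931, q72767, q44571, q60671, q72773, q72428, q72409, q68571, q68575, q48862, q68591, q44691, q63532, q68642, q68644] ⟨c72397, c72427, c72449, c72842, c72992, c72340, c72341, c67617, c67227, c72490, c72946, c54931, c72767, c44571, c60671, c72773, c72428, c72409, c68571, c68575, c48862, c68591, c44691, c63532, c68642, c68644, trivial⟩ (nd (nat_lit 248) (nat_lit 0) (cs (rf (nat_lit 0)) (cs (rf (nat_lit 1)) (cs (rf (nat_lit 2)) (cs (rf (nat_lit 3)) (cs (rf (nat_lit 4)) (cs (nd (nat_lit 209) (nat_lit 0) (cs (lf (nat_lit 44) (nat_lit 186)) (nd (nat_lit 293) (nat_lit 0) (cs (rf (nat_lit 5)) (cs (rf (nat_lit 6)) (cs (nd (nat_lit 211) (nat_lit 0) (cs (rf (nat_lit 7)) (nd (nat_lit 227) (nat_lit 0) (cs (rf (nat_lit 8)) (cs (rf (nat_lit 9)) (rf (nat_lit 10))))))) (nd (nat_lit 315) (nat_lit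 0) (cs (rf (nat_lit 11)) (rf (nat_lit 12)))))))))) (cs (nd (nat_lit 209) (nat_lit 0) (cs (lf (nat_lit 44) (nat_lit 186)) (nd (nat_lit 247) (nat_lit 0) (cs (rf (nat_lit 13)) (cs (rf (nat_lit 14)) (rf (nat_lit 15))))))) (cs (nd (nat_lit 247) (nat_lit 0) (cs (rf (nat_lit 14)) (cs (rf (nat_lit 16)) (nd (nat_lit 269) (nat_lit 0) (cs (lf (nat_lit 11) (nat_lit 246)) (nd (nat_lit 291) (nat_lit 0) (cs (rf (nat_lit 17)) (cs (nd (nat_lit 230) (nat_lit 0) (cs (lf (nat_lit 27) (nat_lit 186)) (nd (nat_lit 272) (nat_lit 0) (cs (lf (nat_lit 5) (nat_lit 247)) (nd (nat_lit 270) (nat_lit 0) (cs (lf (nat_lit 11) (nat_lit 268)) (nd (nat_lit 313) (nat_lit 0) (cs (lf (nat_lit 30) (nat_lit 247)) (nd (nat_lit 314) (nat_lit 0) (cs (lf (nat_lit 29) (nat_lit 247)) (nd (nat_lit 292) (nat_lit 0) (cs (lf (nat_lit 47) (nat_lit 225)) (lf (nat_lit 35) (nat_lit 226)))))))))))))) (cs (nd (nat_lit 230) (nat_lit 0) (cs (lf (nat_lit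 27) (nat_lit 186)) (nd (nat_lit 225) (nat_lit 0) (cs (lf (nat_lit 23) (nat_lit 224)) (nd (nat_lit 209) (nat_lit 0) (cs (lf (nat_lit 44) (nat_lit 186)) (rf (nat_lit 18)))))))) (cs (nd (nat_lit 209) (nat_lit 0) (cs (lf (nat_lit 44) (nat_lit 186)) (nd (nat_lit 230) (nat_lit 0) (cs (lf (nat_lit 27) (nat_lit 186)) (rf (nat_lit 19)))))) (nd (nat_lit 272) (nat_lit 0) (cs (lf (nat_lit 5) (nat_lit 247)) (nd (nat_lit 225) (nat_lit 0) (cs (lf (nat_lit 23) (nat_lit 224)) (nd (nat_lit 209) (nat_lit 0) (cs (lf (nat_lit 44) (nat_lit 186)) (rf (nat_lit 20)))))))))))))))))) (nd (nat_lit 247) (nat_lit 0) (cs (rf (nat_lit 14)) (cs (rf (nat_lit 21)) (nd (nat_lit 209) (nat_lit 0) (cs (lf (nat_lit 44) (nat_lit 186)) (nd (nat_lit 225) (nat_lit 0) (cs (lf (nat_lit 23) (nat_lit 224)) (nd (nat_lit 203) (nat_lit 0) (cs (rf (nat_lit 22)) (cs (rf (nat_lit 23)) (cs (rf (nat_lit 24)) (rf (nat_lit 25)))))))))))))))))))))) q73056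 (by decide +kernel)
def q73144 : Q := Q.p (nat_lit 0x880002600000000010000040000000000000000000000000000000000000000000000) (nat_lit 0x100001e0000fa0001fe00177c0011f000cfe0027c0003fc0005c000050000000000000000000000000000000000) (nat_lit 14)
theorem c73144 : QOK q73144 := cut [q72357, q72449, q72831, q72992, q73101, q44571, q68591, q72428, q73102, q72353, q72835, q72837, q60671, q72339, q72341, q45169, q44707, q51860, q46562, q73121, q68700, q73078, q65860, q54967, q59254, q62078, q47307, q72991] ⟨c72357, c72449, c72831, c72992, c73101, c44571, c68591, c72428, c73102, c72353, c72835, c72837, c60671, c72339, c72341, c45169, c44707, c51860, c46562, c73121, c68700, c73078, c65860, c54967, c59254, c62078, c47307, c72991, trivial⟩ (nd (nat_lit 248) (nat_lit 0) (cs (rf (nat_lit 0)) (cs (rf (nat_lit 1)) (cs (rf (nat_lit 2)) (cs (rf (nat_lit 3)) (cs (rf (nat_lit 4)) (cs (nd (nat_lit 247) (nat_lit 0) (cs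 (rf (nat_lit 5)) (cs (rf (nat_lit 6)) (cs (rf (nat_lit 7)) (cs (rf (nat_lit 8)) (nd (nat_lit 269) (nat_lit 0) (cs (lf (nat_lit 11) (nat_lit 246)) (nd (nat_lit 204) (nat_lit 0) (cs (rf (nat_lit 9)) (cs (rf (nat_lit 10)) (rf (nat_lit 11)))))))))))) (cs (nd (nat_lit 247) (nat_lit 0) (cs (rf (nat_lit 12)) (cs (rf (nat_lit 8)) (nd (nat_lit 272) (nat_lit 0) (cs (lf (nat_lit 5) (nat_lit 247)) (nd (nat_lit 209) (nat_lit 0) (cs (lf (nat_lit 44) (nat_lit 186)) (nd (nat_lit 225) (nat_lit 0) (cs (lf (nat_lit 23) (nat_lit 224)) (nd (nat_lit 293) (nat_lit 0) (cs (rf (nat_lit 13)) (cs (rf (nat_lit 14)) (cs (nd (nat_lit 230) (nat_lit 0) (cs (lf (nat_lit 27) (nat_lit 186)) (nd (nat_lit 315) (nat_lit 0) (cs (lf (nat_lit 30) (nat_lit 249)) (nd (nat_lit 316) (nat_lit 0) (cs (lf (nat_lit 29) (nat_lit 249)) (nd (nat_lit 294) (nat_lit 0) (cs (lf (nat_lit 47) (nat_lit 227)) (rf (nat_lit 15)))))))))) (nd (nat_lit 204) (nat_lit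 0) (cs (nd (nat_lit 226) (nat_lit 0) (cs (lf (nat_lit 24) (nat_lit 182)) (lf (nat_lit 45) (nat_lit 204)))) (cs (nd (nat_lit 203) (nat_lit 0) (cs (rf (nat_lit 16)) (cs (rf (nat_lit 17)) (cs (nd (nat_lit 269) (nat_lit 0) (cs (lf (nat_lit 35) (nat_lit 181)) (nd (nat_lit 180) (nat_lit 0) (cs (lf (nat_lit 46) (nat_lit 180)) (nd (nat_lit 270) (nat_lit 0) (cs (lf (nat_lit 29) (nat_lit 203)) (rf (nat_lit 18)))))))) (nd (nat_lit 230) (nat_lit 0) (cs (lf (nat_lit 27) (nat_lit 186)) (nd (nat_lit 181) (nat_lit 0) (cs (lf (nat_lit 29) (nat_lit 181)) (nd (nat_lit 180) (nat_lit 0) (cs (lf (nat_lit 47) (nat_lit 158)) (nd (nat_lit 179) (nat_lit 0) (cs (lf (nat_lit 0) (nat_lit 178)) (nd (nat_lit 202) (nat_lit 0) (cs (lf (nat_lit 42) (nat_lit 180)) (lf (nat_lit 18) (nat_lit 179)))))))))))))))) (cs (nd (nat_lit 226) (nat_lit 0) (cs (lf (nat_lit 27) (nat_lit 204)) (lf (nat_lit 45) (nat_lit 204)))) (rf (nat_lit 19)))))))))))))))))))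 (cs (nd (nat_lit 247) (nat_lit 0) (cs (rf (nat_lit 12)) (cs (rf (nat_lit 20)) (nd (nat_lit 293) (nat_lit 0) (cs (rf (nat_lit 13)) (cs (rf (nat_lit 14)) (cs (rf (nat_lit 21)) (nd (nat_lit 294) (nat_lit 0) (cs (rf (nat_lit 22)) (cs (nd (nat_lit 230) (nat_lit 0) (cs (lf (nat_lit 27) (nat_lit 186)) (nd (nat_lit 224) (nat_lit 0) (cs (lf (nat_lit 22) (nat_lit 224)) (nd (nat_lit 209) (nat_lit 0) (cs (lf (nat_lit 44) (nat_lit 186)) (nd (nat_lit 227) (nat_lit 0) (cs (lf (nat_lit 29) (nat_lit 227)) (nd (nat_lit 204) (nat_lit 0) (cs (lf (nat_lit 46) (nat_lit 204)) (nd (nat_lit 205) (nat_lit 0) (cs (lf (nat_lit 47) (nat_lit 182)) (rf (nat_lit 23)))))))))))))) (nd (nat_lit 273) (nat_lit 0) (cs (lf (nat_lit 4) (nat_lit 247)) (nd (nat_lit 295) (nat_lit 0) (cs (rf (nat_lit 24)) (cs (rf (nat_lit 25)) (nd (nat_lit 230) (nat_lit 0) (cs (lf (nat_lit 27) (nat_lit 186)) (nd (nat_lit 270) (nat_lit 0) (cs (lf (nat_lit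 18) (nat_lit 270)) (nd (nat_lit 226) (nat_lit 0) (cs (lf (nat_lit 24) (nat_lit 204)) (rf (nat_lit 26))))))))))))))))))))))) (nd (nat_lit 209) (nat_lit 0) (cs (lf (nat_lit 44) (nat_lit 186)) (nd (nat_lit 247) (nat_lit 0) (cs (rf (nat_lit 12)) (cs (rf (nat_lit 6)) (rf (nat_lit 27)))))))))))))))) q73144 (by decide +kernel)
def q73268 : Q := Q.p (nat_lit 0x9a0002600000000010000040000000000000000000000000000000000000000000000) (nat_lit 0x40000fe000ff0001fe0006000011c000c700021c00005000000000000000000000000000000000000000000000) (nat_lit 12)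
theorem c73268 : QOK q73268 := cut [q60708, q56821, q73212, q47470, q46785, q69158, q73249, q72193, q46687, q71976] ⟨c60708, c56821, c73212, c47470, c46785, c69158, c73249, c72193, c46687, c71976, trivial⟩ (nd (nat_lit 293) (nat_lit 0) (cs (rf (nat_lit 0)) (cs (nd (nat_lit 247) (nat_lit 0) (cs (rf (nat_lit 1)) (cs (rf (nat_lit 2)) (nd (nat_lit 294) (nat_lit 0) (cs (rf (nat_lit 3)) (cs (nd (nat_lit 273) (nat_lit 0) (cs (lf (nat_lit 19) (nat_lit 249)) (nd (nat_lit 291) (nat_lit 0) (cs (lf (nat_lit 13) (nat_lit 269)) (nd (nat_lit 225) (nat_lit 0) (cs (rf (nat_lit 4)) (nd (nat_lit 338) (nat_lit 0) (cs (lf (nat_lit 43) (nat_lit 249)) (nd (nat_lit 312) (nat_lit 0) (cs (lf (nat_lit 40) (nat_lit 224)) (nd (nat_lit 313) (nat_lit 0) (cs (lf (nat_lit 41) (nat_lit 246)) (rf (nat_lit 5)))))))))))))) (rf (nat_lit 6)))))))) (cs (nd (nat_lit 315) (nat_lit 0) (cs (lf (nat_lit 30) (nat_lit 249)) (rf (nat_lit 7))))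 (cs (nd (nat_lit 294) (nat_lit 0) (cs (rf (nat_lit 3)) (cs (rf (nat_lit 6)) (nd (nat_lit 273) (nat_lit 0) (cs (lf (nat_lit 19) (nat_lit 249)) (nd (nat_lit 291) (nat_lit 0) (cs (lf (nat_lit 13) (nat_lit 269)) (nd (nat_lit 248) (nat_lit 0) (cs (lf (nat_lit 0) (nat_lit 247)) (nd (nat_lit 209) (nat_lit 0) (cs (lf (nat_lit 44) (nat_lit 186)) (nd (nat_lit 316) (nat_lit 0) (cs (lf (nat_lit 42) (nat_lit 249)) (nd (nat_lit 315) (nat_lit 0) (cs (lf (nat_lit 47) (nat_lit 226)) (nd (nat_lit 317) (nat_lit 0) (cs (lf (nat_lit 29) (nat_lit 250)) (rf (nat_lit 8))))))))))))))))))) (nd (nat_lit 294) (nat_lit 0) (cs (rf (nat_lit 3)) (cs (rf (nat_lit 6)) (nd (nat_lit 230) (nat_lit 0) (cs (lf (nat_lit 27) (nat_lit 186)) (nd (nat_lit 273) (nat_lit 0) (cs (lf (nat_lit 19) (nat_lit 249)) (nd (nat_lit 291) (nat_lit 0) (cs (lf (nat_lit 13) (nat_lit 269)) (nd (nat_lit 316) (nat_lit 0) (cs (lf (nat_lit 42) (nat_lit 249)) (nd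 (nat_lit 209) (nat_lit 0) (cs (lf (nat_lit 44) (nat_lit 186)) (nd (nat_lit 317) (nat_lit 0) (cs (lf (nat_lit 29) (nat_lit 250)) (rf (nat_lit 9)))))))))))))))))))))) q73268 (by decide +kernel)
def q73554 : Q := Q.p (nat_lit 0x20000880002200000000010000040000000000000000000000000000000000000000000000) (nat_lit 0x5e0003f0001de00000000110000cc00021000000000000000000000000000000000000000000000000000) (nat_lit 10)
theorem c73554 : QOK q73554 := cut [q59324, q68552, q72177, q72193] ⟨c59324, c68552, c72177, c72193, trivial⟩ (nd (nat_lit 315) (nat_lit 0) (cs (rf (nat_lit 0)) (cs (rf (nat_lit 1)) (cs (rf (nat_lit 2)) (rf (nat_lit 3)))))) q73554 (by decide +kernel)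
def q73703 : Q := Q.p (nat_lit 0x880002600000000010000040000000000000000000000000000000000000000000000) (nat_lit 0x300001e0001f8001df80077c0011f806cff01e7f80eaff0001c000070000000000000000000000000000000000) (nat_lit 14)
theorem c73703 : QOK q73703 := cut [q73422, q73424, q73626, q73673, q72327, q72681, q66782, q69992, q70734, q69523, q73331, q50957, q70736, q73409, q73691] ⟨c73422, c73424, c73626, c73673, c72327, c72681, c66782, c69992, c70734, c69523, c73331, c50957, c70736, c73409, c73691, trivial⟩ (nd (nat_lit 269) (nat_lit 0) (cs (rf (nat_lit 0)) (cs (rf (nat_lit 1)) (cs (rf (nat_lit 2)) (cs (rf (nat_lit 3)) (cs (nd (nat_lit 270) (nat_lit 0) (cs (lf (nat_lit 12) (nat_lit 246)) (nd (nat_lit 272) (nat_lit 0) (cs (rf (nat_lit 4)) (rf (nat_lit 5)))))) (nd (nat_lit 209) (nat_lit 0) (cs (lf (nat_lit 44) (nat_lit 186)) (nd (nat_lit 268) (nat_lit 0) (cs (lf (nat_lit 14) (nat_lit 246)) (nd (nat_lit 247)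 (nat_lit 0) (cs (lf (nat_lit 8) (nat_lit 246)) (nd (nat_lit 211) (nat_lit 0) (cs (rf (nat_lit 6)) (nd (nat_lit 290) (nat_lit 0) (cs (rf (nat_lit 7)) (cs (rf (nat_lit 8)) (cs (nd (nat_lit 225) (nat_lit 0) (cs (lf (nat_lit 36) (nat_lit 202)) (nd (nat_lit 291) (nat_lit 0) (cs (rf (nat_lit 9)) (cs (rf (nat_lit 10)) (nd (nat_lit 230) (nat_lit 0) (cs (lf (nat_lit 27) (nat_lit 186)) (nd (nat_lit 204) (nat_lit 0) (cs (lf (nat_lit 34) (nat_lit 203)) (nd (nat_lit 314) (nat_lit 0) (cs (lf (nat_lit 28) (nat_lit 225)) (nd (nat_lit 313) (nat_lit 0) (cs (lf (nat_lit 29) (nat_lit 247)) (nd (nat_lit 335) (nat_lit 0) (cs (lf (nat_lit 47) (nat_lit 246)) (lf (nat_lit 42) (nat_lit 268))))))))))))))))) (nd (nat_lit 312) (nat_lit 0) (cs (lf (nat_lit 30) (nat_lit 246)) (nd (nat_lit 246) (nat_lit 0) (cs (rf (nat_lit 11)) (cs (rf (nat_lit 12)) (cs (nd (nat_lit 230) (nat_lit 0) (cs (lf (nat_lit 27) (nat_lit 186)) (rf (nat_lit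 13)))) (nd (nat_lit 289) (nat_lit 0) (cs (nd (nat_lit 230) (nat_lit 0) (cs (lf (nat_lit 27) (nat_lit 186)) (nd (nat_lit 288) (nat_lit 0) (cs (lf (nat_lit 12) (nat_lit 265)) (nd (nat_lit 313) (nat_lit 0) (cs (lf (nat_lit 29) (nat_lit 246)) (nd (nat_lit 314) (nat_lit 0) (cs (lf (nat_lit 18) (nat_lit 289)) (lf (nat_lit 3) (nat_lit 288)))))))))) (nd (nat_lit 311) (nat_lit 0) (cs (lf (nat_lit 41) (nat_lit 245)) (nd (nat_lit 245) (nat_lit 0) (cs (lf (nat_lit 47) (nat_lit 223)) (nd (nat_lit 244) (nat_lit 0) (cs (lf (nat_lit 0) (nat_lit 243)) (rf (nat_lit 14)))))))))))))))))))))))))))))))))) q73703 (by decide +kernel)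
def q73855 : Q := Q.p (nat_lit 0x4000890002600000000010000040000000000000000000000000000000000000000000000) (nat_lit 0x100000700001e0000780003ee001fb0000480011e000cf0002700003c000040000000000000000000000000000000000000000) (nat_lit 12)
theorem c73855 : QOK q73855 := cut [q72187, q59011, q73537, q73764, q73779, q73795, q67184, q73803, q73810, q73777, q73825, q73829, q66777, q68552, q72177, q73805, q56522, q73837, q73840, q73850, q73854] ⟨c72187, c59011, c73537, c73764, c73779, c73795, c67184, c73803, c73810, c73777, c73825, c73829, c66777, c68552, c72177, c73805, c56522, c73837, c73840, c73850, c73854, trivial⟩ (nd (nat_lit 293) (nat_lit 0) (cs (rf (nat_lit 0)) (cs (nd (nat_lit 227) (nat_lit 0) (cs (rf (nat_lit 1)) (cs (rf (nat_lit 2)) (cs (rf (nat_lit 3)) (nd (nat_lit 226) (nat_lit 0) (cs (lf (nat_lit 47) (nat_lit 204)) (nd (nat_lit 209) (nat_lit 0) (cs (lf (nat_lit 44) (nat_lit 186)) (nd (nat_lit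 224) (nat_lit 0) (cs (lf (nat_lit 1) (nat_lit 224)) (nd (nat_lit 294) (nat_lit 0) (cs (lf (nat_lit 29) (nat_lit 227)) (nd (nat_lit 230) (nat_lit 0) (cs (lf (nat_lit 27) (nat_lit 186)) (nd (nat_lit 292) (nat_lit 0) (cs (lf (nat_lit 41) (nat_lit 226)) (nd (nat_lit 291) (nat_lit 0) (cs (lf (nat_lit 23) (nat_lit 267)) (nd (nat_lit 246) (nat_lit 0) (cs (lf (nat_lit 29) (nat_lit 224)) (nd (nat_lit 289) (nat_lit 0) (cs (lf (nat_lit 41) (nat_lit 223)) (lf (nat_lit 16) (nat_lit 267)))))))))))))))))))))))) (cs (rf (nat_lit 4)) (cs (rf (nat_lit 5)) (cs (nd (nat_lit 315) (nat_lit 0) (cs (rf (nat_lit 6)) (cs (rf (nat_lit 7)) (cs (nd (nat_lit 209) (nat_lit 0) (cs (lf (nat_lit 44) (nat_lit 186)) (rf (nat_lit 8)))) (nd (nat_lit 316) (nat_lit 0) (cs (lf (nat_lit 29) (nat_lit 249)) (nd (nat_lit 291) (nat_lit 0) (cs (lf (nat_lit 2) (nat_lit 290)) (nd (nat_lit 313) (nat_lit 0) (cs (lf (nat_lit 20) (nat_lit 290)) (nd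 (nat_lit 335) (nat_lit 0) (cs (lf (nat_lit 42) (nat_lit 268)) (nd (nat_lit 246) (nat_lit 0) (cs (lf (nat_lit 24) (nat_lit 224)) (nd (nat_lit 209) (nat_lit 0) (cs (lf (nat_lit 44) (nat_lit 186)) (nd (nat_lit 248) (nat_lit 0) (cs (lf (nat_lit 47) (nat_lit 226)) (nd (nat_lit 270) (nat_lit 0) (cs (lf (nat_lit 42) (nat_lit 248)) (nd (nat_lit 247) (nat_lit 0) (cs (lf (nat_lit 11) (nat_lit 245)) (lf (nat_lit 0) (nat_lit 245)))))))))))))))))))))))) (cs (nd (nat_lit 315) (nat_lit 0) (cs (rf (nat_lit 9)) (cs (rf (nat_lit 8)) (cs (rf (nat_lit 10)) (nd (nat_lit 209) (nat_lit 0) (cs (lf (nat_lit 44) (nat_lit 186)) (rf (nat_lit 11)))))))) (cs (nd (nat_lit 315) (nat_lit 0) (cs (rf (nat_lit 12)) (cs (rf (nat_lit 13)) (cs (rf (nat_lit 14)) (nd (nat_lit 209) (nat_lit 0) (cs (lf (nat_lit 44) (nat_lit 186)) (nd (nat_lit 314) (nat_lit 0) (cs (lf (nat_lit 41) (nat_lit 248)) (nd (nat_lit 226) (nat_lit 0) (cs (lf (nat_lit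 46) (nat_lit 226)) (rf (nat_lit 15)))))))))))) (cs (nd (nat_lit 292) (nat_lit 0) (cs (rf (nat_lit 16)) (cs (nd (nat_lit 230) (nat_lit 0) (cs (lf (nat_lit 27) (nat_lit 186)) (nd (nat_lit 209) (nat_lit 0) (cs (lf (nat_lit 44) (nat_lit 186)) (rf (nat_lit 17)))))) (cs (nd (nat_lit 267) (nat_lit 0) (cs (nd (nat_lit 230) (nat_lit 0) (cs (lf (nat_lit 27) (nat_lit 186)) (nd (nat_lit 209) (nat_lit 0) (cs (lf (nat_lit 44) (nat_lit 186)) (rf (nat_lit 18)))))) (lf (nat_lit 20) (nat_lit 267)))) (nd (nat_lit 230) (nat_lit 0) (cs (lf (nat_lit 27) (nat_lit 186)) (nd (nat_lit 209) (nat_lit 0) (cs (lf (nat_lit 44) (nat_lit 186)) (rf (nat_lit 19)))))))))) (rf (nat_lit 20))))))))))) q73855 (by decide +kernel)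
def q73949 : Q := Q.p (nat_lit 0x4000890002600000000010000040000000000000000000000000000000000000000000000) (nat_lit 0x1400007e0003f0001fb0000480011400eef001e7000ebc000040000000000000000000000000000000000000000) (nat_lit 12)
theorem c73949 : QOK q73949 := cut [q66782, q67617, q73870, q73871, q73873, q73879, q73880, q67227, q72490, q72611, q73777, q73782, q73829, q73837, q73840, q63396] ⟨c66782, c67617, c73870, c73871, c73873, c73879, c73880, c67227, c72490, c72611, c73777, c73782, c73829, c73837, c73840, c63396, trivial⟩ (nd (nat_lit 209) (nat_lit 0) (cs (lf (nat_lit 44) (nat_lit 186)) (nd (nat_lit 211) (nat_lit 0) (cs (rf (nat_lit 0)) (cs (rf (nat_lit 1)) (nd (nat_lit 293) (nat_lit 0) (cs (rf (nat_lit 2)) (cs (rf (nat_lit 3)) (cs (rf (nat_lit 4)) (cs (rf (nat_lit 5)) (cs (rf (nat_lit 6)) (cs (nd (nat_lit 227) (nat_lit 0) (cs (rf (nat_lit 7)) (cs (rf (nat_lit 8)) (nd (nat_lit 230) (nat_lit 0) (cs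 (lf (nat_lit 27) (nat_lit 186)) (nd (nat_lit 226) (nat_lit 0) (cs (lf (nat_lit 47) (nat_lit 204)) (nd (nat_lit 294) (nat_lit 0) (cs (lf (nat_lit 29) (nat_lit 227)) (nd (nat_lit 224) (nat_lit 0) (cs (lf (nat_lit 1) (nat_lit 224)) (nd (nat_lit 292) (nat_lit 0) (cs (lf (nat_lit 41) (nat_lit 226)) (nd (nat_lit 291) (nat_lit 0) (cs (lf (nat_lit 23) (nat_lit 267)) (nd (nat_lit 313) (nat_lit 0) (cs (lf (nat_lit 11) (nat_lit 290)) (lf (nat_lit 25) (nat_lit 224))))))))))))))))))) (cs (nd (nat_lit 315) (nat_lit 0) (cs (rf (nat_lit 9)) (cs (rf (nat_lit 10)) (cs (rf (nat_lit 11)) (rf (nat_lit 12)))))) (nd (nat_lit 292) (nat_lit 0) (cs (rf (nat_lit 13)) (cs (rf (nat_lit 14)) (nd (nat_lit 230) (nat_lit 0) (cs (lf (nat_lit 27) (nat_lit 186)) (nd (nat_lit 291) (nat_lit 0) (cs (lf (nat_lit 23) (nat_lit 267)) (nd (nat_lit 289) (nat_lit 0) (cs (lf (nat_lit 16) (nat_lit 267)) (nd (nat_lit 314) (nat_lit 0) (cs (lf (nat_lit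 5) (nat_lit 289)) (nd (nat_lit 313) (nat_lit 0) (cs (lf (nat_lit 0) (nat_lit 288)) (rf (nat_lit 15)))))))))))))))))))))))))))) q73949 (by decide +kernel)
def q74010 : Q := Q.p (nat_lit 0x4000890002600000000010000040000000000000000000000000000000000000000000000) (nat_lit 0x100000700001c0000700001dc0007a0000480011e006cfc01e7000ebc000040000000000000000000000000000000000000000) (nat_lit 12)
theorem c74010 : QOK q74010 := cut [q73795, q73854, q59011, q73537, q73764, q73988, q67184, q72177, q73993, q66782, q59008, q73872, q62073, q59056, q44569, q74008, q66777] ⟨c73795, c73854, c59011, c73537, c73764, c73988, c67184, c72177, c73993, c66782, c59008, c73872, c62073, c59056, c44569, c74008, c66777, trivial⟩ (nd (nat_lit 293) (nat_lit 0) (cs (rf (nat_lit 0)) (cs (rf (nat_lit 1)) (cs (nd (nat_lit 227) (nat_lit 0) (cs (rf (nat_lit 2)) (cs (rf (nat_lit 3)) (cs (rf (nat_lit 4)) (nd (nat_lit 230) (nat_lit 0) (cs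 (lf (nat_lit 27) (nat_lit 186)) (nd (nat_lit 204) (nat_lit 0) (cs (lf (nat_lit 46) (nat_lit 204)) (nd (nat_lit 294) (nat_lit 0) (cs (lf (nat_lit 29) (nat_lit 227)) (rf (nat_lit 5)))))))))))) (cs (nd (nat_lit 315) (nat_lit 0) (cs (rf (nat_lit 6)) (cs (rf (nat_lit 7)) (rf (nat_lit 8))))) (cs (nd (nat_lit 209) (nat_lit 0) (cs (lf (nat_lit 44) (nat_lit 186)) (nd (nat_lit 211) (nat_lit 0) (cs (rf (nat_lit 9)) (nd (nat_lit 315) (nat_lit 0) (cs (rf (nat_lit 10)) (cs (rf (nat_lit 6)) (cs (rf (nat_lit 11)) (nd (nat_lit 292) (nat_lit 0) (cs (nd (nat_lit 248) (nat_lit 0) (cs (lf (nat_lit 47) (nat_lit 226)) (nd (nat_lit 314) (nat_lit 0) (cs (rf (nat_lit 12)) (nd (nat_lit 247) (nat_lit 0) (cs (rf (nat_lit 13)) (cs (nd (nat_lit 230) (nat_lit 0) (cs (lf (nat_lit 27) (nat_lit 186)) (nd (nat_lit 225) (nat_lit 0) (cs (lf (nat_lit 44) (nat_lit 225)) (nd (nat_lit 246) (nat_lit 0) (cs (lf (nat_lit 11) (nat_lit 245))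 (lf (nat_lit 30) (nat_lit 224)))))))) (cs (nd (nat_lit 224) (nat_lit 0) (cs (lf (nat_lit 22) (nat_lit 224)) (rf (nat_lit 14)))) (nd (nat_lit 225) (nat_lit 0) (cs (lf (nat_lit 23) (nat_lit 224)) (lf (nat_lit 44) (nat_lit 225)))))))))))) (nd (nat_lit 316) (nat_lit 0) (cs (lf (nat_lit 1) (nat_lit 290)) (lf (nat_lit 29) (nat_lit 249)))))))))))))) (cs (rf (nat_lit 15)) (nd (nat_lit 315) (nat_lit 0) (cs (rf (nat_lit 16)) (cs (rf (nat_lit 7)) (rf (nat_lit 8)))))))))))) q74010 (by decide +kernel)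
def q74694 : Q := Q.p (nat_lit 0x890002600000000010000040000000000000000000000000000000000000000000000) (nat_lit 0x280000e0001ff0007f80002e0011fc06cff01e7fc0ebff0001f80007e000020000000000000000000000000000) (nat_lit 13)
theorem c74694 : QOK q74694 := cut [q74251, q74340, q74370, q74438, q74480, q66782, q72379, q74312, q72372, q74051, q74275, q73754, q74502, q74503, q74515, q74517, q74547, q74609, q74371, q74378, q74387, q74385, q74557, q74579, q74585, q74164, q74367, q74620, q74347, q74290, q74335, q74287, q74628, q50580, q74584, q74645, q74675, q72373, q73962, q74359, q74693] ⟨c74251, c74340, c74370, c74438, c74480, c66782, c72379, c74312, c72372, c74051, c74275, c73754, c74502, c74503, c74515, c74517, c74547, c74609, c74371, c74378, c74387, c74385, c74557, c74579, c74585, c74164, c74367, c74620, c74347, c74290, c74335, c74287, c74628, c50580, c74584, c74645, c74675, c72373, c73962, c74359, c74693,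 trivial⟩ (nd (nat_lit 224) (nat_lit 0) (cs (rf (nat_lit 0)) (cs (rf (nat_lit 1)) (cs (rf (nat_lit 2)) (cs (rf (nat_lit 3)) (cs (rf (nat_lit 4)) (cs (nd (nat_lit 209) (nat_lit 0) (cs (lf (nat_lit 44) (nat_lit 186)) (nd (nat_lit 211) (nat_lit 0) (cs (rf (nat_lit 5)) (nd (nat_lit 246) (nat_lit 0) (cs (rf (nat_lit 6)) (cs (rf (nat_lit 7)) (cs (nd (nat_lit 290) (nat_lit 0) (cs (rf (nat_lit 8)) (cs (rf (nat_lit 9)) (cs (rf (nat_lit 10)) (nd (nat_lit 230) (nat_lit 0) (cs (lf (nat_lit 27) (nat_lit 186)) (nd (nat_lit 289) (nat_lit 0) (cs (lf (nat_lit 41) (nat_lit 223)) (nd (nat_lit 291) (nat_lit 0) (cs (lf (nat_lit 29) (nat_lit 224)) (nd (nat_lit 223) (nat_lit 0) (cs (lf (nat_lit 47) (nat_lit 201)) (nd (nat_lit 225) (nat_lit 0) (cs (lf (nat_lit 35) (nat_lit 202)) (rf (nat_lit 11)))))))))))))))) (cs (rf (nat_lit 12)) (cs (rf (nat_lit 13)) (cs (rf (nat_lit 14)) (rf (nat_lit 15))))))))))))) (cs (rf (nat_lit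 16)) (cs (rf (nat_lit 17)) (cs (nd (nat_lit 247) (nat_lit 0) (cs (rf (nat_lit 18)) (cs (rf (nat_lit 19)) (cs (rf (nat_lit 20)) (nd (nat_lit 246) (nat_lit 0) (cs (rf (nat_lit 7)) (cs (rf (nat_lit 21)) (cs (rf (nat_lit 14)) (cs (rf (nat_lit 22)) (cs (rf (nat_lit 23)) (rf (nat_lit 24)))))))))))) (cs (nd (nat_lit 209) (nat_lit 0) (cs (lf (nat_lit 44) (nat_lit 186)) (nd (nat_lit 211) (nat_lit 0) (cs (rf (nat_lit 5)) (nd (nat_lit 225) (nat_lit 0) (cs (rf (nat_lit 25)) (cs (rf (nat_lit 26)) (cs (rf (nat_lit 27)) (nd (nat_lit 246) (nat_lit 0) (cs (rf (nat_lit 28)) (cs (nd (nat_lit 202) (nat_lit 0) (cs (rf (nat_lit 29)) (cs (rf (nat_lit 30)) (cs (nd (nat_lit 226) (nat_lit 0) (cs (lf (nat_lit 3) (nat_lit 224)) (nd (nat_lit 269) (nat_lit 0) (cs (lf (nat_lit 29) (nat_lit 202)) (nd (nat_lit 180) (nat_lit 0) (cs (lf (nat_lit 28) (nat_lit 180)) (rf (nat_lit 31)))))))) (nd (nat_lit 269) (nat_lit 0) (cs (lf (nat_lit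 29) (nat_lit 202)) (rf (nat_lit 32)))))))) (nd (nat_lit 290) (nat_lit 0) (cs (rf (nat_lit 33)) (cs (rf (nat_lit 10)) (rf (nat_lit 34)))))))))))))))) (cs (rf (nat_lit 35)) (cs (rf (nat_lit 36)) (cs (nd (nat_lit 209) (nat_lit 0) (cs (lf (nat_lit 44) (nat_lit 186)) (nd (nat_lit 211) (nat_lit 0) (cs (rf (nat_lit 5)) (nd (nat_lit 246) (nat_lit 0) (cs (rf (nat_lit 6)) (cs (rf (nat_lit 7)) (cs (rf (nat_lit 12)) (cs (rf (nat_lit 13)) (cs (rf (nat_lit 14)) (cs (rf (nat_lit 15)) (nd (nat_lit 290) (nat_lit 0) (cs (rf (nat_lit 37)) (cs (rf (nat_lit 38)) (nd (nat_lit 223) (nat_lit 0) (cs (lf (nat_lit 47) (nat_lit 201)) (nd (nat_lit 225) (nat_lit 0) (cs (lf (nat_lit 35) (nat_lit 202)) (nd (nat_lit 226) (nat_lit 0) (cs (lf (nat_lit 3) (nat_lit 224)) (rf (nat_lit 39)))))))))))))))))))))) (rf (nat_lit 40)))))))))))))))) q74694 (by decide +kernel)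
def q75072 : Q := Q.p (nat_lit 0x890002600000000010000040000000000000000000000000000000000000000000000) (nat_lit 0x200000e0000ff0007fc003ff0007fc0006f0010fc0eefe01e7f00ebe800050000000000000000000000000000000000000000) (nat_lit 13)
theorem c75072 : QOK q75072 := cut [q74103, q74885, q74102, q50957, q73729, q73737, q74888, q74894, q74900, q74904, q74910, q74129, q74929, q74931, q66782, q73732, q74059, q74066, q70736, q73763, q74939, q74063, q74945, q74971, q74990, q75013, q74060, q74160, q75017, q75042, q67617, q74159, q75064, q74090, q75070] ⟨c74103, c74885, c74102, c50957, c73729, c73737, c74888, c74894, c74900, c74904, c74910, c74129, c74929, c74931, c66782, c73732, c74059, c74066, c70736, c73763, c74939, c74063, c74945, c74971, c74990, c75013, c74060, c74160, c75017, c75042, c67617, c74159, c75064, c74090, c75070, trivial⟩ (nd (nat_lit 290) (nat_lit 0) (cs (rf (nat_lit 0)) (cs (rf (nat_lit 1))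 (cs (nd (nat_lit 209) (nat_lit 0) (cs (lf (nat_lit 44) (nat_lit 186)) (nd (nat_lit 269) (nat_lit 0) (cs (lf (nat_lit 14) (nat_lit 246)) (nd (nat_lit 312) (nat_lit 0) (cs (rf (nat_lit 2)) (cs (nd (nat_lit 246) (nat_lit 0) (cs (rf (nat_lit 3)) (cs (rf (nat_lit 4)) (cs (rf (nat_lit 5)) (nd (nat_lit 313) (nat_lit 0) (cs (lf (nat_lit 29) (nat_lit 246)) (nd (nat_lit 314) (nat_lit 0) (cs (nd (nat_lit 230) (nat_lit 0) (cs (lf (nat_lit 27) (nat_lit 186)) (nd (nat_lit 225) (nat_lit 0) (cs (lf (nat_lit 34) (nat_lit 224)) (rf (nat_lit 6)))))) (cs (nd (nat_lit 223) (nat_lit 0) (cs (lf (nat_lit 46) (nat_lit 223)) (rf (nat_lit 7)))) (cs (rf (nat_lit 8)) (nd (nat_lit 223) (nat_lit 0) (cs (lf (nat_lit 46) (nat_lit 223)) (rf (nat_lit 9)))))))))))))) (rf (nat_lit 10))))))))) (cs (nd (nat_lit 312) (nat_lit 0) (cs (rf (nat_lit 11)) (cs (nd (nat_lit 209) (nat_lit 0) (cs (lf (nat_lit 44) (nat_lit 186)) (rf (nat_lit 12))))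 (rf (nat_lit 13))))) (cs (nd (nat_lit 269) (nat_lit 0) (cs (lf (nat_lit 14) (nat_lit 246)) (nd (nat_lit 209) (nat_lit 0) (cs (lf (nat_lit 44) (nat_lit 186)) (nd (nat_lit 211) (nat_lit 0) (cs (rf (nat_lit 14)) (nd (nat_lit 312) (nat_lit 0) (cs (nd (nat_lit 334) (nat_lit 0) (cs (rf (nat_lit 15)) (cs (rf (nat_lit 16)) (rf (nat_lit 17))))) (cs (nd (nat_lit 246) (nat_lit 0) (cs (rf (nat_lit 18)) (cs (rf (nat_lit 5)) (cs (rf (nat_lit 19)) (rf (nat_lit 20)))))) (cs (nd (nat_lit 230) (nat_lit 0) (cs (lf (nat_lit 27) (nat_lit 186)) (nd (nat_lit 334) (nat_lit 0) (cs (nd (nat_lit 335) (nat_lit 0) (cs (lf (nat_lit 29) (nat_lit 268)) (rf (nat_lit 21)))) (lf (nat_lit 35) (nat_lit 246)))))) (rf (nat_lit 22)))))))))))) (cs (rf (nat_lit 23)) (cs (rf (nat_lit 24)) (cs (rf (nat_lit 25)) (cs (nd (nat_lit 269) (nat_lit 0) (cs (lf (nat_lit 14) (nat_lit 246)) (nd (nat_lit 312) (nat_lit 0) (cs (rf (nat_lit 26)) (cs (rf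 (nat_lit 27)) (cs (rf (nat_lit 10)) (nd (nat_lit 246) (nat_lit 0) (cs (rf (nat_lit 18)) (cs (rf (nat_lit 5)) (cs (rf (nat_lit 19)) (nd (nat_lit 209) (nat_lit 0) (cs (lf (nat_lit 44) (nat_lit 186)) (nd (nat_lit 245) (nat_lit 0) (cs (lf (nat_lit 47) (nat_lit 223)) (nd (nat_lit 244) (nat_lit 0) (cs (lf (nat_lit 0) (nat_lit 243)) (nd (nat_lit 311) (nat_lit 0) (cs (lf (nat_lit 41) (nat_lit 245)) (nd (nat_lit 247) (nat_lit 0) (cs (lf (nat_lit 35) (nat_lit 224)) (rf (nat_lit 28)))))))))))))))))))))) (cs (rf (nat_lit 29)) (cs (nd (nat_lit 209) (nat_lit 0) (cs (lf (nat_lit 44) (nat_lit 186)) (nd (nat_lit 211) (nat_lit 0) (cs (rf (nat_lit 14)) (cs (rf (nat_lit 30)) (nd (nat_lit 312) (nat_lit 0) (cs (rf (nat_lit 31)) (cs (rf (nat_lit 12)) (nd (nat_lit 230) (nat_lit 0) (cs (lf (nat_lit 27) (nat_lit 186)) (nd (nat_lit 269) (nat_lit 0) (cs (lf (nat_lit 14) (nat_lit 246)) (rf (nat_lit 22)))))))))))))) (cs (rf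 (nat_lit 32)) (cs (nd (nat_lit 209) (nat_lit 0) (cs (lf (nat_lit 44) (nat_lit 186)) (nd (nat_lit 211) (nat_lit 0) (cs (rf (nat_lit 14)) (cs (rf (nat_lit 30)) (nd (nat_lit 312) (nat_lit 0) (cs (rf (nat_lit 33)) (cs (rf (nat_lit 12)) (rf (nat_lit 13)))))))))) (nd (nat_lit 269) (nat_lit 0) (cs (lf (nat_lit 14) (nat_lit 246)) (rf (nat_lit 34)))))))))))))))))) q75072 (by decide +kernel)
def q75328 : Q := Q.p (nat_lit 0x880002600000000010000040000000000000000000000000000000000000000000000) (nat_lit 0x14a000778001fe0007fe001ff80177e0010f006ef801e7e00ebf80005e000008000000000000000000000000000000000) (nat_lit 14)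
theorem c75328 : QOK q75328 := cut [q73538, q73540, q73545, q40955, q73539, q72284, q71702, q48938, q73515, q54934, q54937, q75317, q66782, q59254, q61780, q67204, q62077, q62078, q72874, q14241, q44930, q62089, q62093, q58802, q73460] ⟨c73538, c73540, c73545, c40955, c73539, c72284, c71702, c48938, c73515, c54934, c54937, c75317, c66782, c59254, c61780, c67204, c62077, c62078, c72874, c14241, c44930, c62089, c62093, c58802, c73460, trivial⟩ (nd (nat_lit 227) (nat_lit 0) (cs (rf (nat_lit 0)) (cs (rf (nat_lit 1)) (cs (rf (nat_lit 2)) (cs (nd (nat_lit 205) (nat_lit 0) (cs (rf (nat_lit 3)) (cs (rf (nat_lit 4)) (nd (nat_lit 209) (nat_lit 0) (cs (lf (nat_lit 44) (nat_lit 186)) (nd (nat_lit 204) (nat_lit 0) (cs (lf (nat_lit 47) (nat_lit 182)) (nd (nat_lit 272) (nat_lit 0) (cs (rf (nat_lit 5)) (nd (nat_lit 270) (nat_lit 0) (cs (lf (nat_lit 41) (nat_lit 204)) (nd (nat_lit 269) (nat_lit 0) (cs (lf (nat_lit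 12) (nat_lit 246)) (nd (nat_lit 210) (nat_lit 0) (cs (rf (nat_lit 6)) (nd (nat_lit 225) (nat_lit 0) (cs (nd (nat_lit 291) (nat_lit 0) (cs (lf (nat_lit 11) (nat_lit 268)) (nd (nat_lit 247) (nat_lit 0) (cs (lf (nat_lit 23) (nat_lit 246)) (lf (nat_lit 34) (nat_lit 203)))))) (cs (nd (nat_lit 224) (nat_lit 0) (cs (lf (nat_lit 2) (nat_lit 224)) (nd (nat_lit 206) (nat_lit 0) (cs (lf (nat_lit 35) (nat_lit 183)) (lf (nat_lit 9) (nat_lit 202)))))) (nd (nat_lit 291) (nat_lit 0) (cs (lf (nat_lit 11) (nat_lit 268)) (nd (nat_lit 206) (nat_lit 0) (cs (lf (nat_lit 35) (nat_lit 183)) (nd (nat_lit 247) (nat_lit 0) (cs (lf (nat_lit 23) (nat_lit 246)) (rf (nat_lit 7)))))))))))))))))))))))))) (cs (nd (nat_lit 293) (nat_lit 0) (cs (rf (nat_lit 8)) (cs (nd (nat_lit 209) (nat_lit 0) (cs (lf (nat_lit 44) (nat_lit 186)) (nd (nat_lit 204) (nat_lit 0) (cs (lf (nat_lit 46) (nat_lit 204)) (nd (nat_lit 230) (nat_lit 0) (cs (lf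 (nat_lit 27) (nat_lit 186)) (nd (nat_lit 314) (nat_lit 0) (cs (lf (nat_lit 40) (nat_lit 226)) (nd (nat_lit 315) (nat_lit 0) (cs (lf (nat_lit 41) (nat_lit 248)) (nd (nat_lit 337) (nat_lit 0) (cs (lf (nat_lit 34) (nat_lit 249)) (rf (nat_lit 9)))))))))))))) (cs (nd (nat_lit 316) (nat_lit 0) (cs (lf (nat_lit 28) (nat_lit 227)) (nd (nat_lit 209) (nat_lit 0) (cs (lf (nat_lit 44) (nat_lit 186)) (nd (nat_lit 315) (nat_lit 0) (cs (lf (nat_lit 29) (nat_lit 249)) (nd (nat_lit 337) (nat_lit 0) (cs (lf (nat_lit 34) (nat_lit 249)) (rf (nat_lit 10)))))))))) (cs (rf (nat_lit 11)) (nd (nat_lit 209) (nat_lit 0) (cs (lf (nat_lit 44) (nat_lit 186)) (nd (nat_lit 211) (nat_lit 0) (cs (rf (nat_lit 12)) (nd (nat_lit 294) (nat_lit 0) (cs (lf (nat_lit 29) (nat_lit 227)) (nd (nat_lit 295) (nat_lit 0) (cs (rf (nat_lit 13)) (cs (rf (nat_lit 14)) (cs (rf (nat_lit 15)) (nd (nat_lit 273) (nat_lit 0) (cs (rf (nat_lit 16)) (cs (rf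 (nat_lit 17)) (nd (nat_lit 292) (nat_lit 0) (cs (rf (nat_lit 18)) (nd (nat_lit 291) (nat_lit 0) (cs (rf (nat_lit 19)) (cs (rf (nat_lit 20)) (cs (rf (nat_lit 21)) (nd (nat_lit 230) (nat_lit 0) (cs (lf (nat_lit 27) (nat_lit 186)) (rf (nat_lit 22)))))))))))))))))))))))))))) (nd (nat_lit 205) (nat_lit 0) (cs (rf (nat_lit 23)) (rf (nat_lit 24)))))))))) q75328 (by decide +kernel)
def q75935 : Q := Q.p (nat_lit 0x880002600000100010400040000000000000000000000000000000000000000000000) (nat_lit 0xa0000780010f806c8f01e7bc0ebff000ffc001fc0007fc000300000800000000000000000) (nat_lit 12)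
theorem c75935 : QOK q75935 := cut [q75360, q75652, q75656, q75696, q75708, q75712, q75717, q75931, q75932, q75933, q75934] ⟨c75360, c75652, c75656, c75696, c75708, c75712, c75717, c75931, c75932, c75933, c75934, trivial⟩ (nd (nat_lit 180) (nat_lit 0) (cs (nd (nat_lit 246) (nat_lit 0) (cs (rf (nat_lit 0)) (cs (rf (nat_lit 1)) (cs (rf (nat_lit 2)) (nd (nat_lit 179) (nat_lit 0) (cs (lf (nat_lit 47) (nat_lit 157)) (nd (nat_lit 178) (nat_lit 0) (cs (nd (nat_lit 209) (nat_lit 0) (cs (lf (nat_lit 44) (nat_lit 186)) (nd (nat_lit 177) (nat_lit 0) (cs (nd (nat_lit 198) (nat_lit 0) (cs (nd (nat_lit 176) (nat_lit 0) (cs (nd (nat_lit 155) (nat_lit 0) (cs (lf (nat_lit 23) (nat_lit 154)) (nd (nat_lit 181) (nat_lit 0) (cs (lf (nat_lit 35) (nat_lit 158)) (lf (nat_lit 22) (nat_lit 155)))))) (lf (nat_lit 4) (nat_lit 176)))) (lf (nat_lit 10) (nat_lit 176)))) (lf (nat_lit 5) (nat_lit 177)))))) (cs (nd (nat_lit 245)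 (nat_lit 0) (cs (lf (nat_lit 41) (nat_lit 179)) (nd (nat_lit 177) (nat_lit 0) (cs (lf (nat_lit 5) (nat_lit 177)) (nd (nat_lit 199) (nat_lit 0) (cs (lf (nat_lit 11) (nat_lit 176)) (nd (nat_lit 155) (nat_lit 0) (cs (lf (nat_lit 23) (nat_lit 154)) (nd (nat_lit 201) (nat_lit 0) (cs (nd (nat_lit 156) (nat_lit 0) (cs (rf (nat_lit 3)) (lf (nat_lit 43) (nat_lit 156)))) (lf (nat_lit 0) (nat_lit 176)))))))))))) (cs (rf (nat_lit 4)) (cs (nd (nat_lit 181) (nat_lit 0) (cs (lf (nat_lit 35) (nat_lit 158)) (nd (nat_lit 245) (nat_lit 0) (cs (lf (nat_lit 41) (nat_lit 179)) (nd (nat_lit 155) (nat_lit 0) (cs (lf (nat_lit 22) (nat_lit 155)) (rf (nat_lit 5)))))))) (nd (nat_lit 230) (nat_lit 0) (cs (lf (nat_lit 27) (nat_lit 186)) (nd (nat_lit 245) (nat_lit 0) (cs (lf (nat_lit 41) (nat_lit 179)) (nd (nat_lit 159) (nat_lit 0) (cs (lf (nat_lit 34) (nat_lit 158)) (nd (nat_lit 209) (nat_lit 0) (cs (lf (nat_lit 44) (nat_lit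 186)) (nd (nat_lit 247) (nat_lit 0) (cs (lf (nat_lit 29) (nat_lit 180)) (rf (nat_lit 6))))))))))))))))))))))) (cs (rf (nat_lit 7)) (cs (rf (nat_lit 8)) (cs (rf (nat_lit 9)) (rf (nat_lit 10))))))) q75935 (by decide +kernel)
def q76169 : Q := Q.p (nat_lit 0x880002600000100010400040000000000000000000000000000000000000000000000) (nat_lit 0x6e00017800117806ccf01e7bc0ebff000ffc001fc0007fc000380000800000000000000000) (nat_lit 12)
theorem c76169 : QOK q76169 := cut [q75931, q66782, q76011, q76030, q76107, q76136, q76167, q76168] ⟨c75931, c66782, c76011, c76030, c76107, c76136, c76167, c76168, trivial⟩ (nd (nat_lit 180) (nat_lit 0) (cs (rf (nat_lit 0)) (cs (nd (nat_lit 209) (nat_lit 0) (cs (lf (nat_lit 44) (nat_lit 186)) (nd (nat_lit 211) (nat_lit 0) (cs (rf (nat_lit 1)) (rf (nat_lit 2)))))) (cs (rf (nat_lit 3)) (cs (rf (nat_lit 4)) (cs (nd (nat_lit 209) (nat_lit 0) (cs (lf (nat_lit 44) (nat_lit 186)) (nd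 (nat_lit 211) (nat_lit 0) (cs (rf (nat_lit 1)) (rf (nat_lit 5)))))) (cs (rf (nat_lit 6)) (rf (nat_lit 7))))))))) q76169 (by decide +kernel)
def q76711 : Q := Q.p (nat_lit 0x880002600000100010400040000000000000000000000000000000000000000000000) (nat_lit 0xc0000380006f80017f0010fc06eef01e3bc0ebef0001f8000fe000300000800000000000000000000000) (nat_lit 12)
theorem c76711 : QOK q76711 := cut [q76234, q76252, q76270, q75, q76235, q76292, q76269, q76306, q76288, q76317, q76384, q76522, q76616, q76659, q66782, q76618, q76620, q76622, q76324, q76656, q76410, q75482, q76678, q70250, q76258, q76706, q76233, q76237, q76242, q76246, q76248] ⟨c76234, c76252, c76270, c75, c76235, c76292, c76269, c76306, c76288, c76317, c76384, c76522, c76616, c76659, c66782, c76618, c76620, c76622, c76324, c76656, c76410, c75482, c76678, c70250, c76258, c76706, c76233, c76237, c76242, c76246, c76248, trivial⟩ (nd (nat_lit 223)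 (nat_lit 0) (cs (nd (nat_lit 222) (nat_lit 0) (cs (rf (nat_lit 0)) (cs (rf (nat_lit 1)) (rf (nat_lit 2))))) (cs (nd (nat_lit 209) (nat_lit 0) (cs (lf (nat_lit 44) (nat_lit 186)) (nd (nat_lit 210) (nat_lit 0) (cs (rf (nat_lit 3)) (nd (nat_lit 222) (nat_lit 0) (cs (rf (nat_lit 4)) (cs (rf (nat_lit 1)) (cs (nd (nat_lit 221) (nat_lit 0) (cs (lf (nat_lit 17) (nat_lit 199)) (rf (nat_lit 5)))) (nd (nat_lit 221) (nat_lit 0) (cs (rf (nat_lit 6)) (cs (rf (nat_lit 5)) (cs (nd (nat_lit 230) (nat_lit 0) (cs (lf (nat_lit 27) (nat_lit 186)) (nd (nat_lit 246) (nat_lit 0) (cs (lf (nat_lit 5) (nat_lit 221)) (nd (nat_lit 245) (nat_lit 0) (cs (lf (nat_lit 0) (nat_lit 220)) (nd (nat_lit 199) (nat_lit 0) (cs (lf (nat_lit 23) (nat_lit 198)) (nd (nat_lit 225) (nat_lit 0) (cs (lf (nat_lit 22) (nat_lit 199)) (nd (nat_lit 226) (nat_lit 0) (cs (lf (nat_lit 11) (nat_lit 222)) (lf (nat_lit 6) (nat_lit 223)))))))))))))) (cs (nd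 (nat_lit 246) (nat_lit 0) (cs (lf (nat_lit 5) (nat_lit 221)) (nd (nat_lit 245) (nat_lit 0) (cs (lf (nat_lit 0) (nat_lit 220)) (rf (nat_lit 7)))))) (cs (nd (nat_lit 246) (nat_lit 0) (cs (lf (nat_lit 5) (nat_lit 221)) (nd (nat_lit 245) (nat_lit 0) (cs (lf (nat_lit 0) (nat_lit 220)) (nd (nat_lit 243) (nat_lit 0) (cs (lf (nat_lit 11) (nat_lit 220)) (nd (nat_lit 244) (nat_lit 0) (cs (rf (nat_lit 8)) (lf (nat_lit 17) (nat_lit 221)))))))))) (nd (nat_lit 246) (nat_lit 0) (cs (lf (nat_lit 5) (nat_lit 221)) (nd (nat_lit 245) (nat_lit 0) (cs (lf (nat_lit 0) (nat_lit 220)) (rf (nat_lit 9)))))))))))))))))))) (cs (rf (nat_lit 10)) (cs (rf (nat_lit 11)) (cs (rf (nat_lit 12)) (cs (rf (nat_lit 13)) (cs (nd (nat_lit 209) (nat_lit 0) (cs (lf (nat_lit 44) (nat_lit 186)) (nd (nat_lit 211) (nat_lit 0) (cs (rf (nat_lit 14)) (nd (nat_lit 203) (nat_lit 0) (cs (rf (nat_lit 15)) (cs (rf (nat_lit 16)) (cs (nd (nat_lit 268)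 (nat_lit 0) (cs (nd (nat_lit 222) (nat_lit 0) (cs (lf (nat_lit 12) (nat_lit 199)) (nd (nat_lit 225) (nat_lit 0) (cs (rf (nat_lit 17)) (nd (nat_lit 269) (nat_lit 0) (cs (lf (nat_lit 14) (nat_lit 246)) (nd (nat_lit 247) (nat_lit 0) (cs (lf (nat_lit 41) (nat_lit 202)) (lf (nat_lit 42) (nat_lit 202)))))))))) (cs (nd (nat_lit 269) (nat_lit 0) (cs (lf (nat_lit 14) (nat_lit 246)) (nd (nat_lit 246) (nat_lit 0) (cs (lf (nat_lit 29) (nat_lit 202)) (lf (nat_lit 35) (nat_lit 180)))))) (nd (nat_lit 246) (nat_lit 0) (cs (lf (nat_lit 35) (nat_lit 180)) (rf (nat_lit 18))))))) (nd (nat_lit 204) (nat_lit 0) (cs (lf (nat_lit 6) (nat_lit 201)) (nd (nat_lit 201) (nat_lit 0) (cs (rf (nat_lit 19)) (nd (nat_lit 230) (nat_lit 0) (cs (lf (nat_lit 27) (nat_lit 186)) (nd (nat_lit 179) (nat_lit 0) (cs (lf (nat_lit 23) (nat_lit 178)) (rf (nat_lit 20)))))))))))))))))) (cs (nd (nat_lit 204) (nat_lit 0) (cs (rf (nat_lit 21)) (cs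 (rf (nat_lit 22)) (nd (nat_lit 222) (nat_lit 0) (cs (nd (nat_lit 203) (nat_lit 0) (cs (lf (nat_lit 9) (nat_lit 200)) (lf (nat_lit 12) (nat_lit 199)))) (cs (nd (nat_lit 209) (nat_lit 0) (cs (lf (nat_lit 44) (nat_lit 186)) (nd (nat_lit 211) (nat_lit 0) (cs (rf (nat_lit 23)) (nd (nat_lit 221) (nat_lit 0) (cs (rf (nat_lit 24)) (rf (nat_lit 9)))))))) (cs (nd (nat_lit 203) (nat_lit 0) (cs (lf (nat_lit 15) (nat_lit 200)) (lf (nat_lit 12) (nat_lit 199)))) (nd (nat_lit 203) (nat_lit 0) (cs (lf (nat_lit 15) (nat_lit 200)) (lf (nat_lit 9) (nat_lit 200))))))))))) (cs (rf (nat_lit 25)) (nd (nat_lit 209) (nat_lit 0) (cs (lf (nat_lit 44) (nat_lit 186)) (nd (nat_lit 222) (nat_lit 0) (cs (rf (nat_lit 26)) (cs (rf (nat_lit 2)) (nd (nat_lit 225) (nat_lit 0) (cs (rf (nat_lit 27)) (nd (nat_lit 268) (nat_lit 0) (cs (rf (nat_lit 28)) (cs (rf (nat_lit 29)) (rf (nat_lit 30)))))))))))))))))))))) q76711 (by decide +kernel)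
def q78022 : Q := Q.p (nat_lit 0x880002600000100010400040000000000000000000000000000000000000000000000) (nat_lit 0x20000380000e00003800117806cef01e7bc0ebff000ffc001fc0007fc000380000800000000000000000) (nat_lit 12)
theorem c78022 : QOK q78022 := cut [q75931, q76023, q76168, q77713, q75656, q76008, q77454, q49490, q77652, q77525, q77982] ⟨c75931, c76023, c76168, c77713, c75656, c76008, c77454, c49490, c77652, c77525, c77982, trivial⟩ (nd (nat_lit 180) (nat_lit 0) (cs (rf (nat_lit 0)) (cs (rf (nat_lit 1)) (cs (rf (nat_lit 2)) (cs (rf (nat_lit 3)) (cs (nd (nat_lit 209) (nat_lit 0) (cs (lf (nat_lit 44) (nat_lit 186)) (nd (nat_lit 246) (nat_lit 0) (cs (rf (nat_lit 4)) (cs (rf (nat_lit 5)) (cs (rf (nat_lit 6)) (nd (nat_lit 230) (nat_lit 0) (cs (lf (nat_lit 27) (nat_lit 186)) (nd (nat_lit 245) (nat_lit 0) (cs (lf (nat_lit 41) (nat_lit 179)) (nd (nat_lit 179) (nat_lit 0) (cs (lf (nat_lit 47) (nat_lit 157))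 (nd (nat_lit 268) (nat_lit 0) (cs (lf (nat_lit 46) (nat_lit 179)) (nd (nat_lit 291) (nat_lit 0) (cs (lf (nat_lit 28) (nat_lit 202)) (nd (nat_lit 290) (nat_lit 0) (cs (lf (nat_lit 29) (nat_lit 224)) (nd (nat_lit 312) (nat_lit 0) (cs (rf (nat_lit 7)) (lf (nat_lit 47) (nat_lit 223)))))))))))))))))))))) (cs (nd (nat_lit 157) (nat_lit 0) (cs (nd (nat_lit 230) (nat_lit 0) (cs (lf (nat_lit 27) (nat_lit 186)) (nd (nat_lit 209) (nat_lit 0) (cs (lf (nat_lit 44) (nat_lit 186)) (nd (nat_lit 158) (nat_lit 0) (cs (lf (nat_lit 47) (nat_lit 135)) (nd (nat_lit 223) (nat_lit 0) (cs (lf (nat_lit 41) (nat_lit 157)) (nd (nat_lit 136) (nat_lit 0) (cs (lf (nat_lit 40) (nat_lit 135)) (nd (nat_lit 115) (nat_lit 0) (cs (lf (nat_lit 34) (nat_lit 114)) (nd (nat_lit 93) (nat_lit 0) (cs (lf (nat_lit 33) (nat_lit 92)) (rf (nat_lit 8)))))))))))))))) (cs (nd (nat_lit 135) (nat_lit 0) (cs (lf (nat_lit 45) (nat_lit 135)) (nd (nat_lit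 179) (nat_lit 0) (cs (lf (nat_lit 42) (nat_lit 157)) (lf (nat_lit 24) (nat_lit 113)))))) (nd (nat_lit 230) (nat_lit 0) (cs (lf (nat_lit 27) (nat_lit 186)) (nd (nat_lit 209) (nat_lit 0) (cs (lf (nat_lit 44) (nat_lit 186)) (nd (nat_lit 246) (nat_lit 0) (cs (lf (nat_lit 46) (nat_lit 157)) (nd (nat_lit 267) (nat_lit 0) (cs (lf (nat_lit 40) (nat_lit 179)) (nd (nat_lit 268) (nat_lit 0) (cs (lf (nat_lit 41) (nat_lit 201)) (nd (nat_lit 291) (nat_lit 0) (cs (lf (nat_lit 28) (nat_lit 202)) (nd (nat_lit 203) (nat_lit 0) (cs (lf (nat_lit 35) (nat_lit 180)) (nd (nat_lit 290) (nat_lit 0) (cs (lf (nat_lit 29) (nat_lit 224)) (lf (nat_lit 34) (nat_lit 202))))))))))))))))))))) (nd (nat_lit 159) (nat_lit 0) (cs (rf (nat_lit 9)) (cs (rf (nat_lit 10)) (nd (nat_lit 230) (nat_lit 0) (cs (lf (nat_lit 27) (nat_lit 186)) (nd (nat_lit 209) (nat_lit 0) (cs (lf (nat_lit 44) (nat_lit 186)) (nd (nat_lit 246) (nat_lit 0) (cs (lf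 (nat_lit 34) (nat_lit 158)) (nd (nat_lit 267) (nat_lit 0) (cs (lf (nat_lit 40) (nat_lit 179)) (nd (nat_lit 268) (nat_lit 0) (cs (lf (nat_lit 41) (nat_lit 201)) (nd (nat_lit 291) (nat_lit 0) (cs (lf (nat_lit 28) (nat_lit 202)) (nd (nat_lit 201) (nat_lit 0) (cs (lf (nat_lit 47) (nat_lit 179)) (nd (nat_lit 290) (nat_lit 0) (cs (lf (nat_lit 46) (nat_lit 201)) (lf (nat_lit 29) (nat_lit 224)))))))))))))))))))))))))))) q78022 (by decide +kernel)
def q78464 : Q := Q.p (nat_lit 0x880002680000100010400040000000000000000000000000000000000000000000000) (nat_lit 0xd00017e00103c0eeaf01e7bc0ebff0007f8001ff0001e0000580000200000000000000000) (nat_lit 11)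
theorem c78464 : QOK q78464 := cut [q75470, q75471, q35305, q44706, q75947, q77281, q78176, q78186, q69639, q78205, q78214, q78335, q78371, q78375, q78382, q78384, q78449, q48761, q77158, q77155, q78064, q77234, q78168] ⟨c75470, c75471, c35305, c44706, c75947, c77281, c78176, c78186, c69639, c78205, c78214, c78335, c78371, c78375, c78382, c78384, c78449, c48761, c77158, c77155, c78064, c77234, c78168, trivial⟩ (nd (nat_lit 203) (nat_lit 0) (cs (nd (nat_lit 204) (nat_lit 0) (cs (rf (nat_lit 0)) (cs (rf (nat_lit 1)) (cs (nd (nat_lit 201) (nat_lit 0) (cs (rf (nat_lit 2)) (nd (nat_lit 209) (nat_lit 0) (cs (lf (nat_lit 44) (nat_lit 186)) (nd (nat_lit 182) (nat_lit 0) (cs (lf (nat_lit 17) (nat_lit 179)) (nd (nat_lit 225) (nat_lit 0) (cs (lf (nat_lit 30) (nat_lit 181)) (rf (nat_lit 3)))))))))) (nd (nat_lit 182) (nat_lit 0) (cs (rf (nat_lit 4)) (nd (nat_lit 230) (nat_lit 0) (cs (lf (nat_lit 27) (nat_lit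 186)) (nd (nat_lit 225) (nat_lit 0) (cs (lf (nat_lit 30) (nat_lit 181)) (rf (nat_lit 5)))))))))))) (cs (nd (nat_lit 225) (nat_lit 0) (cs (rf (nat_lit 6)) (cs (rf (nat_lit 7)) (nd (nat_lit 181) (nat_lit 0) (cs (rf (nat_lit 8)) (cs (rf (nat_lit 9)) (nd (nat_lit 180) (nat_lit 0) (cs (lf (nat_lit 47) (nat_lit 158)) (nd (nat_lit 230) (nat_lit 0) (cs (lf (nat_lit 27) (nat_lit 186)) (nd (nat_lit 209) (nat_lit 0) (cs (lf (nat_lit 44) (nat_lit 186)) (nd (nat_lit 182) (nat_lit 0) (cs (lf (nat_lit 35) (nat_lit 159)) (nd (nat_lit 183) (nat_lit 0) (cs (lf (nat_lit 6) (nat_lit 180)) (nd (nat_lit 205) (nat_lit 0) (cs (lf (nat_lit 5) (nat_lit 180)) (rf (nat_lit 10)))))))))))))))))))) (cs (rf (nat_lit 11)) (cs (rf (nat_lit 12)) (cs (nd (nat_lit 201) (nat_lit 0) (cs (nd (nat_lit 200) (nat_lit 0) (cs (nd (nat_lit 209) (nat_lit 0) (cs (lf (nat_lit 44) (nat_lit 186)) (rf (nat_lit 13)))) (cs (nd (nat_lit 209) (nat_lit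 0) (cs (lf (nat_lit 44) (nat_lit 186)) (rf (nat_lit 14)))) (nd (nat_lit 199) (nat_lit 0) (cs (lf (nat_lit 5) (nat_lit 199)) (rf (nat_lit 15))))))) (cs (rf (nat_lit 16)) (cs (nd (nat_lit 200) (nat_lit 0) (cs (rf (nat_lit 14)) (cs (nd (nat_lit 230) (nat_lit 0) (cs (lf (nat_lit 27) (nat_lit 186)) (nd (nat_lit 181) (nat_lit 0) (cs (lf (nat_lit 17) (nat_lit 178)) (nd (nat_lit 199) (nat_lit 0) (cs (lf (nat_lit 16) (nat_lit 177)) (rf (nat_lit 15)))))))) (nd (nat_lit 181) (nat_lit 0) (cs (lf (nat_lit 17) (nat_lit 178)) (nd (nat_lit 199) (nat_lit 0) (cs (rf (nat_lit 17)) (lf (nat_lit 16) (nat_lit 177))))))))) (cs (nd (nat_lit 225) (nat_lit 0) (cs (rf (nat_lit 18)) (nd (nat_lit 230) (nat_lit 0) (cs (lf (nat_lit 27) (nat_lit 186)) (nd (nat_lit 200) (nat_lit 0) (cs (lf (nat_lit 0) (nat_lit 199)) (nd (nat_lit 158) (nat_lit 0) (cs (rf (nat_lit 19)) (lf (nat_lit 25) (nat_lit 158)))))))))) (nd (nat_lit 180) (nat_lit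 0) (cs (rf (nat_lit 20)) (cs (nd (nat_lit 225) (nat_lit 0) (cs (lf (nat_lit 42) (nat_lit 180)) (nd (nat_lit 200) (nat_lit 0) (cs (lf (nat_lit 0) (nat_lit 199)) (rf (nat_lit 21)))))) (nd (nat_lit 225) (nat_lit 0) (cs (lf (nat_lit 42) (nat_lit 180)) (lf (nat_lit 24) (nat_lit 158)))))))))))) (nd (nat_lit 225) (nat_lit 0) (cs (rf (nat_lit 18)) (nd (nat_lit 181) (nat_lit 0) (cs (rf (nat_lit 22)) (rf (nat_lit 9)))))))))))) q78464 (by decide +kernel)
def q78762 : Q := Q.p (nat_lit 0x2000008000030000000000000000000000000000000000000000000000000000) (nat_lit 0x140000780001f80001c00017c0000e0000bc000000000000000000000000000000000000000000000) (nat_lit 9)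
theorem c78762 : QOK q78762 := cut [q717, q732, q2958, q2938, q21989] ⟨c717, c732, c2958, c2938, c21989, trivial⟩ (nd (nat_lit 275) (nat_lit 0) (cs (rf (nat_lit 0)) (cs (rf (nat_lit 1)) (cs (rf (nat_lit 2)) (nd (nat_lit 207) (nat_lit 0) (cs (rf (nat_lit 3)) (cs (rf (nat_lit 4)) (nd (nat_lit 274) (nat_lit 0) (cs (lf (nat_lit 41) (nat_lit 208)) (nd (nat_lit 252) (nat_lit 0) (cs (lf (nat_lit 36) (nat_lit 186)) (nd (nat_lit 185) (nat_lit 0) (cs (lf (nat_lit 44) (nat_lit 185)) (nd (nat_lit 276) (nat_lit 0) (cs (lf (nat_lit 29) (nat_lit 209)) (nd (nat_lit 251) (nat_lit 0) (cs (lf (nat_lit 0) (nat_lit 250)) (lf (nat_lit 26) (nat_lit 185))))))))))))))))))) q78762 (by decide +kernel)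
def q78986 : Q := Q.p (nat_lit 0x2000000000010000040000100000000000000000000000000000000000000000) (nat_lit 0x200000e0000380001e000030000ee0003bf000ef8001ff000ff8000a800000000000000000000000) (nat_lit 15)
theorem c78986 : QOK q78986 := cut [q524, q559, q4880, q527, q530, q6788, q6790, q78956, q2411, q6787, q6789, q526, q529, q2412, q78945, q3851, q337, q4876, q4890, q7339, q616, q618, q18362, q57767, q66471, q18377, q4891, q596, q8023] ⟨c524, c559, c4880, c527, c530, c6788, c6790, c78956, c2411, c6787, c6789, c526, c529, c2412, c78945, c3851, c337, c4876, c4890, c7339, c616, c618, c18362, c57767, c66471, c18377, c4891, c596, c8023, trivial⟩ (nd (nat_lit 207) (nat_lit 0) (cs (rf (nat_lit 0)) (cs (rf (nat_lit 1)) (cs (rf (nat_lit 2)) (cs (nd (nat_lit 206) (nat_lit 0) (cs (rf (nat_lit 3)) (cs (rf (nat_lit 4)) (cs (nd (nat_lit 184) (nat_lit 0) (cs (rf (nat_lit 5)) (cs (rf (nat_lit 6)) (cs (rf (nat_lit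 7)) (nd (nat_lit 183) (nat_lit 0) (cs (rf (nat_lit 8)) (cs (rf (nat_lit 9)) (rf (nat_lit 10))))))))) (nd (nat_lit 187) (nat_lit 0) (cs (rf (nat_lit 11)) (cs (rf (nat_lit 12)) (nd (nat_lit 184) (nat_lit 0) (cs (rf (nat_lit 13)) (cs (rf (nat_lit 7)) (cs (nd (nat_lit 162) (nat_lit 0) (cs (rf (nat_lit 14)) (cs (nd (nat_lit 183) (nat_lit 0) (cs (lf (nat_lit 18) (nat_lit 183)) (nd (nat_lit 163) (nat_lit 0) (cs (lf (nat_lit 0) (nat_lit 161)) (lf (nat_lit 6) (nat_lit 161)))))) (nd (nat_lit 183) (nat_lit 0) (cs (lf (nat_lit 18) (nat_lit 183)) (nd (nat_lit 181) (nat_lit 0) (cs (lf (nat_lit 1) (nat_lit 181)) (rf (nat_lit 15))))))))) (cs (nd (nat_lit 183) (nat_lit 0) (cs (lf (nat_lit 18) (nat_lit 183)) (nd (nat_lit 165) (nat_lit 0) (cs (lf (nat_lit 14) (nat_lit 161)) (nd (nat_lit 121) (nat_lit 0) (cs (lf (nat_lit 37) (nat_lit 120)) (nd (nat_lit 162) (nat_lit 0) (cs (lf (nat_lit 8) (nat_lit 161)) (rf (nat_lit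 15)))))))))) (nd (nat_lit 185) (nat_lit 0) (cs (rf (nat_lit 16)) (rf (nat_lit 17)))))))))))))))) (nd (nat_lit 187) (nat_lit 0) (cs (rf (nat_lit 18)) (cs (rf (nat_lit 19)) (cs (nd (nat_lit 142) (nat_lit 0) (cs (rf (nat_lit 20)) (cs (rf (nat_lit 21)) (nd (nat_lit 141) (nat_lit 0) (cs (lf (nat_lit 47) (nat_lit 119)) (nd (nat_lit 140) (nat_lit 0) (cs (rf (nat_lit 22)) (cs (nd (nat_lit 205) (nat_lit 0) (cs (lf (nat_lit 13) (nat_lit 183)) (rf (nat_lit 23)))) (cs (nd (nat_lit 143) (nat_lit 0) (cs (lf (nat_lit 35) (nat_lit 120)) (nd (nat_lit 205) (nat_lit 0) (cs (lf (nat_lit 13) (nat_lit 183)) (nd (nat_lit 117) (nat_lit 0) (cs (lf (nat_lit 22) (nat_lit 117)) (nd (nat_lit 165) (nat_lit 0) (cs (lf (nat_lit 5) (nat_lit 140)) (rf (nat_lit 24)))))))))) (nd (nat_lit 205) (nat_lit 0) (cs (lf (nat_lit 13) (nat_lit 183)) (rf (nat_lit 25))))))))))))) (nd (nat_lit 188) (nat_lit 0) (cs (lf (nat_lit 6) (nat_lit 185))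 (nd (nat_lit 185) (nat_lit 0) (cs (nd (nat_lit 210) (nat_lit 0) (cs (lf (nat_lit 5) (nat_lit 185)) (nd (nat_lit 184) (nat_lit 0) (cs (rf (nat_lit 26)) (lf (nat_lit 19) (nat_lit 184)))))) (cs (nd (nat_lit 166) (nat_lit 0) (cs (lf (nat_lit 17) (nat_lit 163)) (nd (nat_lit 163) (nat_lit 0) (cs (rf (nat_lit 27)) (lf (nat_lit 23) (nat_lit 162)))))) (nd (nat_lit 210) (nat_lit 0) (cs (lf (nat_lit 5) (nat_lit 185)) (nd (nat_lit 184) (nat_lit 0) (cs (lf (nat_lit 19) (nat_lit 184)) (rf (nat_lit 28)))))))))))))))))))) q78986 (by decide +kernel)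
def q79257 : Q := Q.p (nat_lit 0x7000000000000000000000000000000000000000000000000000000000000000) (nat_lit 0xf80008c0007f8000cc000100000400000000000000000000000000000000000000000) (nat_lit 9)
theorem c79257 : QOK q79257 := cut [q79020, q79201, q79256] ⟨c79020, c79201, c79256, trivial⟩ (nd (nat_lit 251) (nat_lit 0) (cs (rf (nat_lit 0)) (cs (rf (nat_lit 1)) (rf (nat_lit 2))))) q79257 (by decide +kernel)
def q79553 : Q := Q.p (nat_lit 0x6000010000000000000000000000000000000000000000000000000000000000) (nat_lit 0xfc0003f0000ef00038c000ef0003fc0007f0001f80002000000000000000000000000000000000000) (nat_lit 14)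
theorem c79553 : QOK q79553 := cut [q79314, q79465, q79169, q79471, q79463, q79467, q79273, q79190, q79123, q79500, q79383, q79506, q79512, q79307, q79520, q79548] ⟨c79314, c79465, c79169, c79471, c79463, c79467, c79273, c79190, c79123, c79500, c79383, c79506, c79512, c79307, c79520, c79548, trivial⟩ (nd (nat_lit 231) (nat_lit 0) (cs (rf (nat_lit 0)) (cs (rf (nat_lit 1)) (cs (nd (nat_lit 275) (nat_lit 0) (cs (rf (nat_lit 2)) (cs (rf (nat_lit 3)) (nd (nat_lit 209) (nat_lit 0) (cs (rf (nat_lit 4)) (cs (rf (nat_lit 5)) (nd (nat_lit 210) (nat_lit 0) (cs (lf (nat_lit 36) (nat_lit 187)) (nd (nat_lit 274) (nat_lit 0) (cs (lf (nat_lit 41) (nat_lit 208)) (nd (nat_lit 272) (nat_lit 0) (cs (lf (nat_lit 13) (nat_lit 250)) (nd (nat_lit 255) (nat_lit 0) (cs (lf (nat_lit 6) (nat_lit 252)) (rf (nat_lit 6)))))))))))))))) (cs (nd (nat_lit 275) (nat_lit 0) (cs (rf (nat_lit 2)) (cs (rf (nat_lit 7)) (nd (nat_lit 209)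 (nat_lit 0) (cs (rf (nat_lit 4)) (cs (rf (nat_lit 5)) (nd (nat_lit 210) (nat_lit 0) (cs (rf (nat_lit 8)) (nd (nat_lit 208) (nat_lit 0) (cs (lf (nat_lit 47) (nat_lit 186)) (nd (nat_lit 274) (nat_lit 0) (cs (lf (nat_lit 41) (nat_lit 208)) (nd (nat_lit 207) (nat_lit 0) (cs (lf (nat_lit 0) (nat_lit 206)) (nd (nat_lit 272) (nat_lit 0) (cs (lf (nat_lit 13) (nat_lit 250)) (nd (nat_lit 184) (nat_lit 0) (cs (lf (nat_lit 22) (nat_lit 184)) (nd (nat_lit 255) (nat_lit 0) (cs (lf (nat_lit 6) (nat_lit 252)) (nd (nat_lit 229) (nat_lit 0) (cs (lf (nat_lit 11) (nat_lit 206)) (lf (nat_lit 1) (nat_lit 229)))))))))))))))))))))))) (cs (rf (nat_lit 9)) (nd (nat_lit 233) (nat_lit 0) (cs (rf (nat_lit 10)) (cs (nd (nat_lit 255) (nat_lit 0) (cs (nd (nat_lit 230) (nat_lit 0) (cs (lf (nat_lit 5) (nat_lit 230)) (lf (nat_lit 0) (nat_lit 229)))) (cs (rf (nat_lit 11)) (rf (nat_lit 12))))) (cs (nd (nat_lit 234) (nat_lit 0) (cs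 (lf (nat_lit 6) (nat_lit 231)) (nd (nat_lit 212) (nat_lit 0) (cs (lf (nat_lit 17) (nat_lit 209)) (nd (nat_lit 230) (nat_lit 0) (cs (rf (nat_lit 13)) (lf (nat_lit 16) (nat_lit 208)))))))) (cs (nd (nat_lit 255) (nat_lit 0) (cs (rf (nat_lit 12)) (cs (rf (nat_lit 14)) (cs (nd (nat_lit 234) (nat_lit 0) (cs (lf (nat_lit 6) (nat_lit 231)) (nd (nat_lit 212) (nat_lit 0) (cs (lf (nat_lit 17) (nat_lit 209)) (nd (nat_lit 168) (nat_lit 0) (cs (nd (nat_lit 277) (nat_lit 0) (cs (lf (nat_lit 30) (nat_lit 211)) (nd (nat_lit 210) (nat_lit 0) (cs (lf (nat_lit 24) (nat_lit 188)) (nd (nat_lit 275) (nat_lit 0) (cs (lf (nat_lit 30) (nat_lit 209)) (nd (nat_lit 256) (nat_lit 0) (cs (lf (nat_lit 5) (nat_lit 231)) (lf (nat_lit 11) (nat_lit 252)))))))))) (lf (nat_lit 37) (nat_lit 167)))))))) (nd (nat_lit 234) (nat_lit 0) (cs (lf (nat_lit 6) (nat_lit 231)) (nd (nat_lit 212) (nat_lit 0) (cs (lf (nat_lit 17) (nat_lit 209)) (nd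 (nat_lit 168) (nat_lit 0) (cs (lf (nat_lit 37) (nat_lit 167)) (nd (nat_lit 256) (nat_lit 0) (cs (lf (nat_lit 18) (nat_lit 231)) (nd (nat_lit 278) (nat_lit 0) (cs (lf (nat_lit 5) (nat_lit 253)) (nd (nat_lit 211) (nat_lit 0) (cs (lf (nat_lit 42) (nat_lit 211)) (lf (nat_lit 47) (nat_lit 189)))))))))))))))))) (cs (nd (nat_lit 234) (nat_lit 0) (cs (lf (nat_lit 6) (nat_lit 231)) (nd (nat_lit 256) (nat_lit 0) (cs (lf (nat_lit 5) (nat_lit 231)) (nd (nat_lit 255) (nat_lit 0) (cs (nd (nat_lit 278) (nat_lit 0) (cs (lf (nat_lit 5) (nat_lit 253)) (nd (nat_lit 300) (nat_lit 0) (cs (lf (nat_lit 42) (nat_lit 233)) (nd (nat_lit 274) (nat_lit 0) (cs (lf (nat_lit 10) (nat_lit 252)) (nd (nat_lit 301) (nat_lit 0) (cs (lf (nat_lit 29) (nat_lit 234)) (nd (nat_lit 299) (nat_lit 0) (cs (lf (nat_lit 41) (nat_lit 233)) (nd (nat_lit 212) (nat_lit 0) (cs (lf (nat_lit 17) (nat_lit 209)) (lf (nat_lit 40) (nat_lit 211))))))))))))))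 (lf (nat_lit 0) (nat_lit 230)))))))) (nd (nat_lit 234) (nat_lit 0) (cs (lf (nat_lit 6) (nat_lit 231)) (nd (nat_lit 256) (nat_lit 0) (cs (lf (nat_lit 5) (nat_lit 231)) (nd (nat_lit 230) (nat_lit 0) (cs (lf (nat_lit 4) (nat_lit 230)) (rf (nat_lit 15)))))))))))))))))))) q79553 (by decide +kernel)
def q80071 : Q := Q.p (nat_lit 0x800002000018000060000000000000000000000000000000000000000000000000000) (nat_lit 0x700039c000e70000000000000000000000000000000000000000000000) (nat_lit 8)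
theorem c80071 : QOK q80071 := cut [q80070] ⟨c80070, trivial⟩ (nd (nat_lit 208) (nat_lit 0) (cs (lf (nat_lit 47) (nat_lit 186)) (rf (nat_lit 0)))) q80071 (by decide +kernel)
def q80363 : Q := Q.p (nat_lit 0x6000010000000000000000000000000000000000000000000000000000000000) (nat_lit 0x8000060000380001fc0007f00001c0000f0000fc0003f0000e00002800000000000000000000000000000000000) (nat_lit 16)
theorem c80363 : QOK q80363 := cut [q79123, q79128, q79160, q79597, q79583, q79590, q79961, q80344, q80360] ⟨c79123, c79128, c79160, c79597, c79583, c79590, c79961, c80344, c80360, trivial⟩ (nd (nat_lit 210) (nat_lit 0) (cs (rf (nat_lit 0)) (cs (rf (nat_lit 1)) (cs (rf (nat_lit 2)) (cs (rf (nat_lit 3)) (nd (nat_lit 276) (nat_lit 0) (cs (rf (nat_lit 4)) (cs (rf (nat_lit 5)) (cs (rf (nat_lit 6)) (cs (rf (nat_lit 7)) (nd (nat_lit 275) (nat_lit 0) (cs (lf (nat_lit 41) (nat_lit 209)) (rf (nat_lit 8)))))))))))))) q80363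 (by decide +kernel)
def q80969 : Q := Q.p (nat_lit 0x6000000000000000000000000000000000000000000000000000000000000000) (nat_lit 0x3e0000fc0003f0001ff000390001ff0003fc000fe0003f80009c00005000000000000000000000000000000) (nat_lit 16)
theorem c80969 : QOK q80969 := cut [q80725, q80721, q80737, q80743, q80724, q80731, q80750, q80754, q80757, q80820, q80853, q80819, q80763, q80806, q80817, q80858, q80871, q80872, q80811, q79506, q80069, q80874, q80878, q79465, q79520, q80885, q80710, q80715, q80728, q80890, q80893, q80563, q79304, q80895, q80765, q80766, q80902, q80905, q80932, q80931, q80848, q80727, q80889, q80942, q80708, q80719, q80968] ⟨c80725, c80721, c80737, c80743, c80724, c80731, c80750, c80754, c80757, c80820, c80853, c80819, c80763, c80806, c80817, c80858, c80871, c80872, c80811, c79506, c80069, c80874, c80878, c79465, c79520, c80885, c80710, c80715, c80728, c80890, c80893, c80563, c79304,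 c80895, c80765, c80766, c80902, c80905, c80932, c80931, c80848, c80727, c80889, c80942, c80708, c80719, c80968, trivial⟩ (nd (nat_lit 231) (nat_lit 0) (cs (nd (nat_lit 209) (nat_lit 0) (cs (rf (nat_lit 0)) (cs (nd (nat_lit 275) (nat_lit 0) (cs (rf (nat_lit 1)) (cs (nd (nat_lit 276) (nat_lit 0) (cs (lf (nat_lit 29) (nat_lit 209)) (nd (nat_lit 188) (nat_lit 0) (cs (lf (nat_lit 34) (nat_lit 187)) (rf (nat_lit 2)))))) (nd (nat_lit 276) (nat_lit 0) (cs (lf (nat_lit 29) (nat_lit 209)) (nd (nat_lit 274) (nat_lit 0) (cs (lf (nat_lit 41) (nat_lit 208)) (nd (nat_lit 272) (nat_lit 0) (cs (lf (nat_lit 13) (nat_lit 250)) (rf (nat_lit 3))))))))))) (cs (nd (nat_lit 187) (nat_lit 0) (cs (rf (nat_lit 4)) (cs (rf (nat_lit 5)) (rf (nat_lit 6))))) (cs (rf (nat_lit 7)) (rf (nat_lit 8))))))) (cs (rf (nat_lit 9)) (cs (rf (nat_lit 10)) (cs (nd (nat_lit 255) (nat_lit 0) (cs (rf (nat_lit 11)) (cs (nd (nat_lit 277) (nat_lit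 0) (cs (rf (nat_lit 12)) (cs (rf (nat_lit 13)) (cs (rf (nat_lit 14)) (rf (nat_lit 15)))))) (cs (rf (nat_lit 16)) (rf (nat_lit 17)))))) (cs (nd (nat_lit 255) (nat_lit 0) (cs (rf (nat_lit 11)) (cs (rf (nat_lit 16)) (cs (rf (nat_lit 17)) (nd (nat_lit 233) (nat_lit 0) (cs (rf (nat_lit 18)) (cs (nd (nat_lit 232) (nat_lit 0) (cs (rf (nat_lit 19)) (cs (rf (nat_lit 20)) (cs (rf (nat_lit 21)) (rf (nat_lit 22)))))) (cs (nd (nat_lit 232) (nat_lit 0) (cs (rf (nat_lit 23)) (cs (rf (nat_lit 19)) (rf (nat_lit 24))))) (rf (nat_lit 25)))))))))) (cs (nd (nat_lit 209) (nat_lit 0) (cs (nd (nat_lit 275) (nat_lit 0) (cs (nd (nat_lit 186) (nat_lit 0) (cs (lf (nat_lit 46) (nat_lit 186)) (rf (nat_lit 26)))) (cs (nd (nat_lit 276) (nat_lit 0) (cs (lf (nat_lit 29) (nat_lit 209)) (nd (nat_lit 186) (nat_lit 0) (cs (lf (nat_lit 46) (nat_lit 186)) (rf (nat_lit 27)))))) (rf (nat_lit 1))))) (cs (rf (nat_lit 28)) (cs (nd (nat_lit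 187) (nat_lit 0) (cs (lf (nat_lit 29) (nat_lit 187)) (nd (nat_lit 252) (nat_lit 0) (cs (lf (nat_lit 41) (nat_lit 186)) (rf (nat_lit 6)))))) (cs (rf (nat_lit 29)) (rf (nat_lit 30))))))) (cs (nd (nat_lit 255) (nat_lit 0) (cs (rf (nat_lit 31)) (cs (rf (nat_lit 17)) (nd (nat_lit 233) (nat_lit 0) (cs (rf (nat_lit 18)) (cs (rf (nat_lit 25)) (cs (nd (nat_lit 232) (nat_lit 0) (cs (rf (nat_lit 32)) (cs (rf (nat_lit 24)) (rf (nat_lit 33))))) (nd (nat_lit 230) (nat_lit 0) (cs (rf (nat_lit 34)) (cs (rf (nat_lit 35)) (nd (nat_lit 276) (nat_lit 0) (cs (rf (nat_lit 36)) (rf (nat_lit 37)))))))))))))) (cs (nd (nat_lit 255) (nat_lit 0) (cs (rf (nat_lit 11)) (cs (rf (nat_lit 16)) (cs (rf (nat_lit 17)) (rf (nat_lit 38)))))) (cs (nd (nat_lit 209) (nat_lit 0) (cs (rf (nat_lit 28)) (cs (rf (nat_lit 7)) (cs (rf (nat_lit 39)) (cs (nd (nat_lit 275) (nat_lit 0) (cs (rf (nat_lit 26)) (cs (rf (nat_lit 3)) (rf (nat_lit 40)))))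 (nd (nat_lit 187) (nat_lit 0) (cs (rf (nat_lit 41)) (cs (rf (nat_lit 6)) (cs (rf (nat_lit 42)) (rf (nat_lit 43))))))))))) (cs (nd (nat_lit 255) (nat_lit 0) (cs (rf (nat_lit 11)) (cs (rf (nat_lit 16)) (cs (rf (nat_lit 17)) (nd (nat_lit 209) (nat_lit 0) (cs (rf (nat_lit 44)) (cs (rf (nat_lit 28)) (nd (nat_lit 275) (nat_lit 0) (cs (rf (nat_lit 3)) (nd (nat_lit 274) (nat_lit 0) (cs (lf (nat_lit 41) (nat_lit 208)) (rf (nat_lit 45))))))))))))) (rf (nat_lit 46))))))))))))) q80969 (by decide +kernel)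
def q81353 : Q := Q.p (nat_lit 0x7000000000000000000000000000000000000000000000000000000000000000) (nat_lit 0xff80038e001ddc00000000000000000000000000000000000000000000000000000000) (nat_lit 8)
theorem c81353 : QOK q81353 := cut [q81343, q81348, q81352] ⟨c81343, c81348, c81352, trivial⟩ (nd (nat_lit 273) (nat_lit 0) (cs (rf (nat_lit 0)) (cs (nd (nat_lit 255) (nat_lit 0) (cs (lf (nat_lit 10) (nat_lit 251)) (rf (nat_lit 1)))) (rf (nat_lit 2))))) q81353 (by decide +kernel)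
def q81635 : Q := Q.p (nat_lit 0x6000000000000000000000000000000000000000000000000000000000000000) (nat_lit 0x150000fc0003f0007fb800f9c007ff8003fc000ff8003f00005400000000000000000000000000000000000) (nat_lit 17)
theorem c81635 : QOK q81635 := cut [q80543, q80702, q81304, q81514, q80500, q80542, q81094, q81555, q81567, q81627, q80645, q81303, q80632, q80862, q81298] ⟨c80543, c80702, c81304, c81514, c80500, c80542, c81094, c81555, c81567, c81627, c80645, c81303, c80632, c80862, c81298, trivial⟩ (nd (nat_lit 255) (nat_lit 0) (cs (rf (nat_lit 0)) (cs (rf (nat_lit 1)) (cs (rf (nat_lit 2)) (cs (rf (nat_lit 3)) (cs (nd (nat_lit 256) (nat_lit 0) (cs (rf (nat_lit 4)) (cs (rf (nat_lit 5)) (cs (rf (nat_lit 6)) (nd (nat_lit 278) (nat_lit 0) (cs (lf (nat_lit 5) (nat_lit 253)) (nd (nat_lit 230) (nat_lit 0) (cs (lf (nat_lit 22) (nat_lit 230)) (nd (nat_lit 252) (nat_lit 0) (cs (lf (nat_lit 23) (nat_lit 229)) (nd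 (nat_lit 233) (nat_lit 0) (cs (lf (nat_lit 17) (nat_lit 230)) (nd (nat_lit 300) (nat_lit 0) (cs (lf (nat_lit 42) (nat_lit 233)) (nd (nat_lit 211) (nat_lit 0) (cs (lf (nat_lit 24) (nat_lit 189)) (nd (nat_lit 232) (nat_lit 0) (cs (lf (nat_lit 12) (nat_lit 229)) (nd (nat_lit 257) (nat_lit 0) (cs (lf (nat_lit 18) (nat_lit 232)) (nd (nat_lit 276) (nat_lit 0) (cs (lf (nat_lit 30) (nat_lit 210)) (lf (nat_lit 11) (nat_lit 253)))))))))))))))))))))))) (cs (rf (nat_lit 7)) (cs (rf (nat_lit 8)) (cs (rf (nat_lit 9)) (cs (nd (nat_lit 256) (nat_lit 0) (cs (rf (nat_lit 10)) (cs (rf (nat_lit 11)) (nd (nat_lit 230) (nat_lit 0) (cs (lf (nat_lit 22) (nat_lit 230)) (nd (nat_lit 252) (nat_lit 0) (cs (lf (nat_lit 23) (nat_lit 229)) (nd (nat_lit 277) (nat_lit 0) (cs (lf (nat_lit 5) (nat_lit 252)) (nd (nat_lit 276) (nat_lit 0) (cs (lf (nat_lit 0) (nat_lit 251)) (nd (nat_lit 257) (nat_lit 0) (cs (lf (nat_lit 6) (nat_lit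 254)) (lf (nat_lit 11) (nat_lit 253))))))))))))))) (nd (nat_lit 256) (nat_lit 0) (cs (nd (nat_lit 231) (nat_lit 0) (cs (lf (nat_lit 23) (nat_lit 230)) (nd (nat_lit 278) (nat_lit 0) (cs (lf (nat_lit 5) (nat_lit 253)) (nd (nat_lit 257) (nat_lit 0) (cs (nd (nat_lit 236) (nat_lit 0) (cs (nd (nat_lit 258) (nat_lit 0) (cs (lf (nat_lit 17) (nat_lit 233)) (rf (nat_lit 12)))) (lf (nat_lit 16) (nat_lit 232)))) (lf (nat_lit 22) (nat_lit 231)))))))) (cs (rf (nat_lit 10)) (cs (rf (nat_lit 13)) (rf (nat_lit 14)))))))))))))))) q81635 (by decide +kernel)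
def q81754 : Q := Q.p (nat_lit 0x6000000000000000000000000000000000000000000000000000000000000000) (nat_lit 0xf80003e0000fc001dfe0079f003ffe01ffc001ff0001f80006a00000000000000000000000000000000000) (nat_lit 19)
theorem c81754 : QOK q81754 := cut [q80466, q79028, q81644, q81655, q80971, q81334, q81657, q81660, q81661, q79201, q81024, q81663, q81665, q81671, q81675, q81714, q81726, q79914, q81730, q79199, q80383, q79128, q80331, q81084, q81744, q81753] ⟨c80466, c79028, c81644, c81655, c80971, c81334, c81657, c81660, c81661, c79201, c81024, c81663, c81665, c81671, c81675, c81714, c81726, c79914, c81730, c79199, c80383, c79128, c80331, c81084, c81744, c81753, trivial⟩ (nd (nat_lit 252) (nat_lit 0) (cs (rf (nat_lit 0)) (cs (nd (nat_lit 230) (nat_lit 0) (cs (rf (nat_lit 1)) (cs (rf (nat_lit 2)) (cs (rf (nat_lit 3)) (nd (nat_lit 274) (nat_lit 0) (cs (rf (nat_lit 4)) (cs (rf (nat_lit 5)) (rf (nat_lit 6)))))))))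 (cs (rf (nat_lit 7)) (cs (rf (nat_lit 8)) (cs (nd (nat_lit 251) (nat_lit 0) (cs (rf (nat_lit 9)) (cs (rf (nat_lit 10)) (cs (rf (nat_lit 11)) (cs (rf (nat_lit 12)) (cs (rf (nat_lit 13)) (rf (nat_lit 14)))))))) (cs (rf (nat_lit 15)) (cs (rf (nat_lit 16)) (cs (nd (nat_lit 232) (nat_lit 0) (cs (rf (nat_lit 17)) (cs (rf (nat_lit 18)) (nd (nat_lit 275) (nat_lit 0) (cs (rf (nat_lit 19)) (cs (rf (nat_lit 20)) (nd (nat_lit 210) (nat_lit 0) (cs (rf (nat_lit 21)) (nd (nat_lit 251) (nat_lit 0) (cs (rf (nat_lit 9)) (cs (rf (nat_lit 22)) (cs (rf (nat_lit 23)) (rf (nat_lit 24)))))))))))))) (rf (nat_lit 25))))))))))) q81754 (by decide +kernel)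
def q81989 : Q := Q.p (nat_lit 0x6000000000000000000000000000000000000000000000000000000000000000) (nat_lit 0x400001f80007e0003fc007ff800f9c003bf8007f0000fe0001f00003c00000000000000000000000000000000000) (nat_lit 14)
theorem c81989 : QOK q81989 := cut [q80564, q81098, q81555, q81908, q79210, q79214, q79217, q80574, q80690, q81875, q81911, q81917, q81924, q80763, q81928, q80777, q80805, q80796, q80799, q29967, q81940, q81945, q80789, q81061, q81064, q81951, q80867, q81027, q79165, q79216, q81730, q81956, q81959, q81961, q79123, q79128, q79160, q79913, q79439, q81973, q81980, q80548, q81986, q81988] ⟨c80564, c81098, c81555, c81908, c79210, c79214, c79217, c80574, c80690, c81875, c81911, c81917, c81924, c80763, c81928, c80777, c80805, c80796, c80799, c29967, c81940, c81945, c80789, c81061, c81064, c81951, c80867, c81027, c79165, c79216, c81730, c81956, c81959, c81961, c79123, c79128, c79160, c79913,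 c79439, c81973, c81980, c80548, c81986, c81988, trivial⟩ (nd (nat_lit 255) (nat_lit 0) (cs (rf (nat_lit 0)) (cs (rf (nat_lit 1)) (cs (rf (nat_lit 2)) (cs (rf (nat_lit 3)) (cs (nd (nat_lit 252) (nat_lit 0) (cs (rf (nat_lit 4)) (cs (rf (nat_lit 5)) (cs (rf (nat_lit 6)) (rf (nat_lit 7)))))) (cs (nd (nat_lit 252) (nat_lit 0) (cs (rf (nat_lit 4)) (cs (rf (nat_lit 8)) (cs (rf (nat_lit 9)) (cs (rf (nat_lit 10)) (cs (rf (nat_lit 11)) (rf (nat_lit 12)))))))) (cs (nd (nat_lit 277) (nat_lit 0) (cs (rf (nat_lit 13)) (cs (rf (nat_lit 14)) (cs (nd (nat_lit 299) (nat_lit 0) (cs (rf (nat_lit 15)) (cs (rf (nat_lit 16)) (cs (nd (nat_lit 233) (nat_lit 0) (cs (rf (nat_lit 17)) (cs (rf (nat_lit 18)) (cs (nd (nat_lit 300) (nat_lit 0) (cs (lf (nat_lit 29) (nat_lit 233)) (nd (nat_lit 275) (nat_lit 0) (cs (nd (nat_lit 274) (nat_lit 0) (cs (lf (nat_lit 2) (nat_lit 274)) (nd (nat_lit 298) (nat_lit 0) (cs (lf (nat_lit 41)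 (nat_lit 232)) (lf (nat_lit 21) (nat_lit 274)))))) (cs (nd (nat_lit 210) (nat_lit 0) (cs (lf (nat_lit 46) (nat_lit 210)) (nd (nat_lit 298) (nat_lit 0) (cs (lf (nat_lit 41) (nat_lit 232)) (nd (nat_lit 297) (nat_lit 0) (cs (lf (nat_lit 23) (nat_lit 274)) (rf (nat_lit 19)))))))) (cs (nd (nat_lit 298) (nat_lit 0) (cs (lf (nat_lit 41) (nat_lit 232)) (nd (nat_lit 276) (nat_lit 0) (cs (lf (nat_lit 18) (nat_lit 275)) (nd (nat_lit 278) (nat_lit 0) (cs (lf (nat_lit 18) (nat_lit 253)) (nd (nat_lit 210) (nat_lit 0) (cs (lf (nat_lit 25) (nat_lit 210)) (nd (nat_lit 297) (nat_lit 0) (cs (lf (nat_lit 12) (nat_lit 274)) (nd (nat_lit 319) (nat_lit 0) (cs (lf (nat_lit 11) (nat_lit 296)) (lf (nat_lit 30) (nat_lit 253)))))))))))))) (nd (nat_lit 210) (nat_lit 0) (cs (lf (nat_lit 46) (nat_lit 210)) (nd (nat_lit 276) (nat_lit 0) (cs (lf (nat_lit 0) (nat_lit 274)) (rf (nat_lit 20)))))))))))) (rf (nat_lit 21)))))) (nd (nat_lit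 320) (nat_lit 0) (cs (rf (nat_lit 22)) (cs (rf (nat_lit 23)) (cs (rf (nat_lit 24)) (rf (nat_lit 25)))))))))) (nd (nat_lit 232) (nat_lit 0) (cs (rf (nat_lit 26)) (cs (rf (nat_lit 27)) (cs (nd (nat_lit 299) (nat_lit 0) (cs (lf (nat_lit 42) (nat_lit 232)) (nd (nat_lit 252) (nat_lit 0) (cs (rf (nat_lit 28)) (cs (rf (nat_lit 29)) (cs (rf (nat_lit 30)) (nd (nat_lit 275) (nat_lit 0) (cs (rf (nat_lit 31)) (cs (rf (nat_lit 32)) (nd (nat_lit 274) (nat_lit 0) (cs (lf (nat_lit 11) (nat_lit 251)) (nd (nat_lit 229) (nat_lit 0) (cs (lf (nat_lit 22) (nat_lit 229)) (nd (nat_lit 276) (nat_lit 0) (cs (lf (nat_lit 5) (nat_lit 274)) (nd (nat_lit 296) (nat_lit 0) (cs (lf (nat_lit 11) (nat_lit 273)) (nd (nat_lit 297) (nat_lit 0) (cs (lf (nat_lit 30) (nat_lit 231)) (rf (nat_lit 33))))))))))))))))))))) (nd (nat_lit 210) (nat_lit 0) (cs (rf (nat_lit 34)) (cs (rf (nat_lit 35)) (cs (rf (nat_lit 36)) (cs (rf (nat_lit 37)) (nd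 (nat_lit 276) (nat_lit 0) (cs (rf (nat_lit 38)) (cs (nd (nat_lit 187) (nat_lit 0) (cs (lf (nat_lit 46) (nat_lit 187)) (nd (nat_lit 252) (nat_lit 0) (cs (lf (nat_lit 0) (nat_lit 251)) (rf (nat_lit 39)))))) (rf (nat_lit 40)))))))))))))))))) (cs (nd (nat_lit 252) (nat_lit 0) (cs (rf (nat_lit 41)) (cs (rf (nat_lit 9)) (cs (rf (nat_lit 10)) (cs (rf (nat_lit 11)) (rf (nat_lit 42))))))) (rf (nat_lit 43))))))))))) q81989 (by decide +kernel)
def q82067 : Q := Q.p (nat_lit 0x7000000000000000000000000000000000000000000000000000000000000000) (nat_lit 0x380007e0001f8001fc000780003ffc001fe0007fc001f80001a00000000000000000000000000000000000) (nat_lit 14)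
theorem c82067 : QOK q82067 := cut [q79028, q82024, q6259, q79029, q79041, q79066, q79058, q22352, q82028, q82032, q82038, q82042, q82046, q79078, q79112, q80460, q81355, q81019, q81028, q81047, q82058, q79095, q79108, q81389, q82063] ⟨c79028, c82024, c6259, c79029, c79041, c79066, c79058, c22352, c82028, c82032, c82038, c82042, c82046, c79078, c79112, c80460, c81355, c81019, c81028, c81047, c82058, c79095, c79108, c81389, c82063, trivial⟩ (nd (nat_lit 230) (nat_lit 0) (cs (rf (nat_lit 0)) (cs (rf (nat_lit 1)) (cs (nd (nat_lit 208) (nat_lit 0) (cs (rf (nat_lit 2)) (cs (rf (nat_lit 3)) (cs (rf (nat_lit 4)) (cs (rf (nat_lit 5)) (nd (nat_lit 274) (nat_lit 0) (cs (rf (nat_lit 6)) (cs (nd (nat_lit 207) (nat_lit 0) (cs (lf (nat_lit 47) (nat_lit 185)) (nd (nat_lit 187) (nat_lit 0) (cs (lf (nat_lit 34) (nat_lit 186)) (nd (nat_lit 275) (nat_lit 0) (cs (lf (nat_lit 29) (nat_lit 208)) (rf (nat_lit 7))))))))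 (cs (nd (nat_lit 207) (nat_lit 0) (cs (lf (nat_lit 47) (nat_lit 185)) (nd (nat_lit 232) (nat_lit 0) (cs (rf (nat_lit 8)) (cs (nd (nat_lit 275) (nat_lit 0) (cs (lf (nat_lit 29) (nat_lit 208)) (nd (nat_lit 209) (nat_lit 0) (cs (lf (nat_lit 35) (nat_lit 186)) (nd (nat_lit 210) (nat_lit 0) (cs (lf (nat_lit 5) (nat_lit 207)) (lf (nat_lit 36) (nat_lit 187)))))))) (nd (nat_lit 275) (nat_lit 0) (cs (lf (nat_lit 29) (nat_lit 208)) (nd (nat_lit 188) (nat_lit 0) (cs (lf (nat_lit 37) (nat_lit 187)) (rf (nat_lit 9))))))))))) (cs (nd (nat_lit 185) (nat_lit 0) (cs (lf (nat_lit 46) (nat_lit 185)) (nd (nat_lit 297) (nat_lit 0) (cs (lf (nat_lit 28) (nat_lit 208)) (rf (nat_lit 10)))))) (cs (nd (nat_lit 185) (nat_lit 0) (cs (lf (nat_lit 46) (nat_lit 185)) (nd (nat_lit 209) (nat_lit 0) (cs (lf (nat_lit 35) (nat_lit 186)) (nd (nat_lit 231) (nat_lit 0) (cs (lf (nat_lit 30) (nat_lit 208)) (rf (nat_lit 11)))))))) (nd (nat_lit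 185) (nat_lit 0) (cs (lf (nat_lit 46) (nat_lit 185)) (nd (nat_lit 209) (nat_lit 0) (cs (lf (nat_lit 35) (nat_lit 186)) (nd (nat_lit 296) (nat_lit 0) (cs (lf (nat_lit 34) (nat_lit 208)) (nd (nat_lit 317) (nat_lit 0) (cs (lf (nat_lit 40) (nat_lit 229)) (nd (nat_lit 319) (nat_lit 0) (cs (lf (nat_lit 28) (nat_lit 230)) (rf (nat_lit 12))))))))))))))))))))))) (nd (nat_lit 275) (nat_lit 0) (cs (rf (nat_lit 13)) (cs (rf (nat_lit 14)) (cs (nd (nat_lit 208) (nat_lit 0) (cs (rf (nat_lit 3)) (nd (nat_lit 255) (nat_lit 0) (cs (rf (nat_lit 15)) (cs (rf (nat_lit 16)) (nd (nat_lit 232) (nat_lit 0) (cs (rf (nat_lit 17)) (cs (rf (nat_lit 18)) (cs (rf (nat_lit 19)) (rf (nat_lit 20))))))))))) (nd (nat_lit 297) (nat_lit 0) (cs (lf (nat_lit 42) (nat_lit 230)) (nd (nat_lit 231) (nat_lit 0) (cs (rf (nat_lit 21)) (cs (rf (nat_lit 22)) (cs (rf (nat_lit 23)) (rf (nat_lit 24)))))))))))))))) q82067 (by decide +kernel)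
def q82206 : Q := Q.p (nat_lit 0x3800002000000000000000000000000000000000000000000000000000000000) (nat_lit 0xe70003c0001f9000000000000000000000000000000000000000000000000000000000) (nat_lit 9)
theorem c82206 : QOK q82206 := cut [q82205] ⟨c82205, trivial⟩ (nd (nat_lit 254) (nat_lit 0) (cs (lf (nat_lit 23) (nat_lit 228)) (rf (nat_lit 0)))) q82206 (by decide +kernel)
def q82247 : Q := Q.p (nat_lit 0x3800000000000000000000000000000000000000000000000000000000000000) (nat_lit 0x5c000460003fc00066000080000200000000000000000000000000000000000000000) (nat_lit 9)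
theorem c82247 : QOK q82247 := cut [q2623, q23543, q82185, q82244] ⟨c2623, c23543, c82185, c82244, trivial⟩ (nd (nat_lit 250) (nat_lit 0) (cs (rf (nat_lit 0)) (cs (rf (nat_lit 1)) (cs (rf (nat_lit 2)) (nd (nat_lit 232) (nat_lit 0) (cs (lf (nat_lit 16) (nat_lit 228)) (nd (nat_lit 271) (nat_lit 0) (cs (lf (nat_lit 10) (nat_lit 249)) (rf (nat_lit 3)))))))))) q82247 (by decide +kernel)
def q83132 : Q := Q.p (nat_lit 0x40000000000000003c00000000000000000000000000000000000000000000000000000000000000) (nat_lit 0xa0000380003f8000fc001ffc007be001ffc0009c000430003ae00000000000000000000000000000000000000000000000000000000) (nat_lit 16)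
theorem c83132 : QOK q83132 := cut [q82819, q82809, q41847, q41867, q82991, q83001, q83005, q82788, q83008, q43036, q25254, q83025, q41854, q83032, q42203, q83118, q83127, q83131] ⟨c82819, c82809, c41847, c41867, c82991, c83001, c83005, c82788, c83008, c43036, c25254, c83025, c41854, c83032, c42203, c83118, c83127, c83131, trivial⟩ (nd (nat_lit 316) (nat_lit 0) (cs (rf (nat_lit 0)) (cs (nd (nat_lit 272) (nat_lit 0) (cs (lf (nat_lit 11) (nat_lit 249)) (nd (nat_lit 231) (nat_lit 0) (cs (lf (nat_lit 17) (nat_lit 228)) (nd (nat_lit 294) (nat_lit 0) (cs (lf (nat_lit 35) (nat_lit 228)) (nd (nat_lit 227) (nat_lit 0) (cs (lf (nat_lit 46) (nat_lit 227)) (rf (nat_lit 1)))))))))) (cs (nd (nat_lit 315) (nat_lit 0) (cs (rf (nat_lit 2)) (cs (nd (nat_lit 317) (nat_lit 0) (cs (rf (nat_lit 3)) (cs (rf (nat_lit 4)) (nd (nat_lit 297) (nat_lit 0) (cs (lf (nat_lit 16) (nat_lit 293)) (nd (nat_lit 271) (nat_lit 0) (cs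 (lf (nat_lit 10) (nat_lit 249)) (nd (nat_lit 249) (nat_lit 0) (cs (lf (nat_lit 11) (nat_lit 248)) (nd (nat_lit 226) (nat_lit 0) (cs (lf (nat_lit 22) (nat_lit 226)) (nd (nat_lit 225) (nat_lit 0) (cs (lf (nat_lit 21) (nat_lit 225)) (nd (nat_lit 319) (nat_lit 0) (cs (lf (nat_lit 17) (nat_lit 294)) (nd (nat_lit 340) (nat_lit 0) (cs (lf (nat_lit 5) (nat_lit 315)) (lf (nat_lit 37) (nat_lit 252))))))))))))))))))) (nd (nat_lit 317) (nat_lit 0) (cs (rf (nat_lit 4)) (cs (nd (nat_lit 231) (nat_lit 0) (cs (lf (nat_lit 17) (nat_lit 228)) (rf (nat_lit 5)))) (rf (nat_lit 6)))))))) (cs (nd (nat_lit 232) (nat_lit 0) (cs (lf (nat_lit 16) (nat_lit 228)) (nd (nat_lit 233) (nat_lit 0) (cs (lf (nat_lit 15) (nat_lit 229)) (nd (nat_lit 317) (nat_lit 0) (cs (nd (nat_lit 319) (nat_lit 0) (cs (rf (nat_lit 7)) (nd (nat_lit 294) (nat_lit 0) (cs (lf (nat_lit 23) (nat_lit 293)) (rf (nat_lit 8)))))) (cs (nd (nat_lit 315) (nat_lit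 0) (cs (rf (nat_lit 9)) (cs (rf (nat_lit 6)) (nd (nat_lit 337) (nat_lit 0) (cs (lf (nat_lit 11) (nat_lit 314)) (nd (nat_lit 294) (nat_lit 0) (cs (lf (nat_lit 37) (nat_lit 249)) (nd (nat_lit 359) (nat_lit 0) (cs (lf (nat_lit 30) (nat_lit 293)) (nd (nat_lit 340) (nat_lit 0) (cs (lf (nat_lit 5) (nat_lit 315)) (nd (nat_lit 293) (nat_lit 0) (cs (lf (nat_lit 23) (nat_lit 292)) (nd (nat_lit 296) (nat_lit 0) (cs (lf (nat_lit 17) (nat_lit 293)) (nd (nat_lit 360) (nat_lit 0) (cs (lf (nat_lit 29) (nat_lit 293)) (nd (nat_lit 358) (nat_lit 0) (cs (lf (nat_lit 41) (nat_lit 292)) (nd (nat_lit 339) (nat_lit 0) (cs (lf (nat_lit 15) (nat_lit 336)) (lf (nat_lit 8) (nat_lit 336))))))))))))))))))))))) (cs (nd (nat_lit 315) (nat_lit 0) (cs (rf (nat_lit 10)) (cs (rf (nat_lit 5)) (nd (nat_lit 340) (nat_lit 0) (cs (lf (nat_lit 5) (nat_lit 315)) (rf (nat_lit 11))))))) (cs (nd (nat_lit 315) (nat_lit 0) (cs (rf (nat_lit 10))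 (cs (rf (nat_lit 12)) (nd (nat_lit 293) (nat_lit 0) (cs (lf (nat_lit 23) (nat_lit 292)) (nd (nat_lit 340) (nat_lit 0) (cs (lf (nat_lit 5) (nat_lit 315)) (nd (nat_lit 294) (nat_lit 0) (cs (lf (nat_lit 18) (nat_lit 293)) (rf (nat_lit 8))))))))))) (cs (rf (nat_lit 13)) (nd (nat_lit 315) (nat_lit 0) (cs (rf (nat_lit 10)) (cs (rf (nat_lit 9)) (cs (rf (nat_lit 11)) (nd (nat_lit 336) (nat_lit 0) (cs (lf (nat_lit 10) (nat_lit 314)) (nd (nat_lit 292) (nat_lit 0) (cs (lf (nat_lit 22) (nat_lit 292)) (nd (nat_lit 297) (nat_lit 0) (cs (lf (nat_lit 16) (nat_lit 293)) (nd (nat_lit 319) (nat_lit 0) (cs (lf (nat_lit 17) (nat_lit 294)) (nd (nat_lit 275) (nat_lit 0) (cs (lf (nat_lit 41) (nat_lit 252)) (nd (nat_lit 320) (nat_lit 0) (cs (lf (nat_lit 29) (nat_lit 253)) (nd (nat_lit 294) (nat_lit 0) (cs (lf (nat_lit 22) (nat_lit 294)) (rf (nat_lit 14)))))))))))))))))))))))))))))) (cs (rf (nat_lit 15)) (cs (rf (nat_lit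 16)) (rf (nat_lit 17))))))))) q83132 (by decide +kernel)
def q83440 : Q := Q.p (nat_lit 0x3c00000000000000020000000000000000000000000000000000000000000000) (nat_lit 0x40000100000dc00042000390001fe0003d8001ff0003f8000e80003a000000000000000000000000) (nat_lit 16)
theorem c83440 : QOK q83440 := cut [q83337, q19282, q83349, q83352, q83359, q83369, q83370, q83383, q83419, q83410, q19291, q80141] ⟨c83337, c19282, c83349, c83352, c83359, c83369, c83370, c83383, c83419, c83410, c19291, c80141, trivial⟩ (nd (nat_lit 271) (nat_lit 0) (cs (lf (nat_lit 10) (nat_lit 249)) (nd (nat_lit 249) (nat_lit 0) (cs (lf (nat_lit 11) (nat_lit 248)) (nd (nat_lit 187) (nat_lit 0) (cs (nd (nat_lit 231) (nat_lit 0) (cs (lf (nat_lit 17) (nat_lit 228)) (nd (nat_lit 274) (nat_lit 0) (cs (lf (nat_lit 37) (nat_lit 186)) (lf (nat_lit 5) (nat_lit 249)))))) (cs (nd (nat_lit 186) (nat_lit 0) (cs (nd (nat_lit 188) (nat_lit 0) (cs (rf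 (nat_lit 0)) (cs (nd (nat_lit 166) (nat_lit 0) (cs (lf (nat_lit 17) (nat_lit 163)) (nd (nat_lit 210) (nat_lit 0) (cs (lf (nat_lit 5) (nat_lit 185)) (nd (nat_lit 162) (nat_lit 0) (cs (lf (nat_lit 22) (nat_lit 162)) (nd (nat_lit 275) (nat_lit 0) (cs (lf (nat_lit 4) (nat_lit 249)) (nd (nat_lit 206) (nat_lit 0) (cs (lf (nat_lit 10) (nat_lit 184)) (nd (nat_lit 232) (nat_lit 0) (cs (nd (nat_lit 143) (nat_lit 0) (cs (lf (nat_lit 46) (nat_lit 143)) (rf (nat_lit 1)))) (lf (nat_lit 39) (nat_lit 187)))))))))))))) (rf (nat_lit 2))))) (cs (rf (nat_lit 3)) (cs (rf (nat_lit 4)) (cs (rf (nat_lit 5)) (rf (nat_lit 6))))))) (cs (nd (nat_lit 188) (nat_lit 0) (cs (nd (nat_lit 232) (nat_lit 0) (cs (lf (nat_lit 16) (nat_lit 228)) (nd (nat_lit 254) (nat_lit 0) (cs (lf (nat_lit 17) (nat_lit 229)) (nd (nat_lit 210) (nat_lit 0) (cs (lf (nat_lit 47) (nat_lit 165)) (nd (nat_lit 167) (nat_lit 0) (cs (lf (nat_lit 34) (nat_lit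 166)) (nd (nat_lit 186) (nat_lit 0) (cs (lf (nat_lit 16) (nat_lit 163)) (lf (nat_lit 5) (nat_lit 185)))))))))))) (cs (nd (nat_lit 186) (nat_lit 0) (cs (rf (nat_lit 2)) (cs (nd (nat_lit 231) (nat_lit 0) (cs (lf (nat_lit 17) (nat_lit 228)) (nd (nat_lit 206) (nat_lit 0) (cs (lf (nat_lit 10) (nat_lit 184)) (nd (nat_lit 184) (nat_lit 0) (cs (lf (nat_lit 11) (nat_lit 183)) (lf (nat_lit 38) (nat_lit 183)))))))) (nd (nat_lit 166) (nat_lit 0) (cs (lf (nat_lit 17) (nat_lit 163)) (nd (nat_lit 165) (nat_lit 0) (cs (lf (nat_lit 12) (nat_lit 162)) (nd (nat_lit 231) (nat_lit 0) (cs (lf (nat_lit 17) (nat_lit 228)) (nd (nat_lit 274) (nat_lit 0) (cs (lf (nat_lit 5) (nat_lit 249)) (nd (nat_lit 296) (nat_lit 0) (cs (lf (nat_lit 30) (nat_lit 230)) (rf (nat_lit 7))))))))))))))) (cs (nd (nat_lit 275) (nat_lit 0) (cs (lf (nat_lit 4) (nat_lit 249)) (nd (nat_lit 232) (nat_lit 0) (cs (lf (nat_lit 16) (nat_lit 228)) (nd (nat_lit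 254) (nat_lit 0) (cs (lf (nat_lit 17) (nat_lit 229)) (lf (nat_lit 37) (nat_lit 187)))))))) (nd (nat_lit 186) (nat_lit 0) (cs (rf (nat_lit 0)) (cs (rf (nat_lit 2)) (rf (nat_lit 5))))))))) (cs (rf (nat_lit 8)) (cs (nd (nat_lit 231) (nat_lit 0) (cs (lf (nat_lit 17) (nat_lit 228)) (nd (nat_lit 209) (nat_lit 0) (cs (lf (nat_lit 41) (nat_lit 186)) (rf (nat_lit 9)))))) (nd (nat_lit 188) (nat_lit 0) (cs (nd (nat_lit 231) (nat_lit 0) (cs (lf (nat_lit 17) (nat_lit 228)) (nd (nat_lit 166) (nat_lit 0) (cs (lf (nat_lit 32) (nat_lit 165)) (nd (nat_lit 186) (nat_lit 0) (cs (lf (nat_lit 17) (nat_lit 163)) (nd (nat_lit 165) (nat_lit 0) (cs (lf (nat_lit 12) (nat_lit 162)) (nd (nat_lit 206) (nat_lit 0) (cs (lf (nat_lit 10) (nat_lit 184)) (rf (nat_lit 7)))))))))))) (cs (nd (nat_lit 231) (nat_lit 0) (cs (lf (nat_lit 17) (nat_lit 228)) (nd (nat_lit 166) (nat_lit 0) (cs (lf (nat_lit 32) (nat_lit 165)) (nd (nat_lit 186)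 (nat_lit 0) (cs (lf (nat_lit 17) (nat_lit 163)) (nd (nat_lit 162) (nat_lit 0) (cs (lf (nat_lit 22) (nat_lit 162)) (nd (nat_lit 210) (nat_lit 0) (cs (lf (nat_lit 5) (nat_lit 185)) (nd (nat_lit 206) (nat_lit 0) (cs (lf (nat_lit 10) (nat_lit 184)) (nd (nat_lit 184) (nat_lit 0) (cs (lf (nat_lit 23) (nat_lit 161)) (lf (nat_lit 38) (nat_lit 183)))))))))))))))) (cs (nd (nat_lit 186) (nat_lit 0) (cs (rf (nat_lit 10)) (cs (rf (nat_lit 0)) (rf (nat_lit 2))))) (nd (nat_lit 232) (nat_lit 0) (cs (lf (nat_lit 16) (nat_lit 228)) (nd (nat_lit 254) (nat_lit 0) (cs (lf (nat_lit 17) (nat_lit 229)) (rf (nat_lit 11)))))))))))))))))))) q83440 (by decide +kernel)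
def q83617 : Q := Q.p (nat_lit 0x3800000000000000000000000000000000000000000000000000000000000000) (nat_lit 0xef0003c7001fb800000000000000000000000000000000000000000000000000000000) (nat_lit 9)
theorem c83617 : QOK q83617 := cut [q81085, q82205, q83616] ⟨c81085, c82205, c83616, trivial⟩ (nd (nat_lit 254) (nat_lit 0) (cs (rf (nat_lit 0)) (cs (rf (nat_lit 1)) (rf (nat_lit 2))))) q83617 (by decide +kernel)
def q84294 : Q := Q.p (nat_lit 0x3000000000000000000000000000000000000000000000000000000000000000) (nat_lit 0x280000f80003f4001ffc003fe001ffc00efe001cf800f7e000ff8007fc001ff8000200000000000000000000000000000000000) (nat_lit 19)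
theorem c84294 : QOK q84294 := cut [q83729, q83737, q83750, q83728, q83731, q83751, q83813, q83814, q83816, q83832, q83838, q83912, q83915, q42098, q42162, q42165, q83835, q83936, q83952, q83960, q83695, q83705, q83707, q83710, q81729, q83699, q83962, q83972, q83975, q83979, q83980, q83984, q84074, q84164, q83839, q84073, q84151, q84157, q84199, q84196, q84203, q4049, q84293] ⟨c83729, c83737, c83750, c83728, c83731, c83751, c83813, c83814, c83816, c83832, c83838, c83912, c83915, c42098, c42162, c42165, c83835, c83936, c83952, c83960, c83695, c83705, c83707, c83710, c81729, c83699, c83962, c83972, c83975, c83979, c83980, c83984, c84074, c84164, c83839, c84073, c84151, c84157, c84199, c84196, c84203, c4049, c84293, trivial⟩ (nd (nat_lit 274) (nat_lit 0) (cs (nd (nat_lit 230) (nat_lit 0) (cs (rf (nat_lit 0)) (cs (rf (nat_lit 1)) (cs (rf (nat_lit 2)) (cs (nd (nat_lit 296) (nat_lit 0) (cs (rf (nat_lit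 3)) (cs (rf (nat_lit 4)) (cs (nd (nat_lit 317) (nat_lit 0) (cs (lf (nat_lit 40) (nat_lit 229)) (nd (nat_lit 318) (nat_lit 0) (cs (lf (nat_lit 41) (nat_lit 251)) (nd (nat_lit 229) (nat_lit 0) (cs (lf (nat_lit 46) (nat_lit 229)) (nd (nat_lit 254) (nat_lit 0) (cs (lf (nat_lit 18) (nat_lit 229)) (nd (nat_lit 227) (nat_lit 0) (cs (lf (nat_lit 1) (nat_lit 227)) (rf (nat_lit 5)))))))))))) (cs (rf (nat_lit 6)) (rf (nat_lit 7))))))) (rf (nat_lit 8))))))) (cs (nd (nat_lit 296) (nat_lit 0) (cs (rf (nat_lit 9)) (cs (rf (nat_lit 10)) (cs (rf (nat_lit 11)) (cs (rf (nat_lit 12)) (cs (nd (nat_lit 318) (nat_lit 0) (cs (rf (nat_lit 13)) (cs (rf (nat_lit 14)) (cs (rf (nat_lit 15)) (nd (nat_lit 317) (nat_lit 0) (cs (lf (nat_lit 41) (nat_lit 251)) (nd (nat_lit 319) (nat_lit 0) (cs (lf (nat_lit 29) (nat_lit 252)) (nd (nat_lit 230) (nat_lit 0) (cs (lf (nat_lit 28) (nat_lit 230)) (rf (nat_lit 16)))))))))))) (cs (rf (nat_lit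 17)) (rf (nat_lit 18))))))))) (cs (rf (nat_lit 19)) (cs (nd (nat_lit 254) (nat_lit 0) (cs (rf (nat_lit 20)) (cs (rf (nat_lit 21)) (cs (rf (nat_lit 22)) (cs (rf (nat_lit 23)) (nd (nat_lit 251) (nat_lit 0) (cs (rf (nat_lit 24)) (cs (rf (nat_lit 25)) (cs (nd (nat_lit 232) (nat_lit 0) (cs (lf (nat_lit 17) (nat_lit 229)) (rf (nat_lit 26)))) (cs (rf (nat_lit 27)) (rf (nat_lit 28)))))))))))) (cs (nd (nat_lit 254) (nat_lit 0) (cs (rf (nat_lit 21)) (cs (rf (nat_lit 29)) (cs (nd (nat_lit 251) (nat_lit 0) (cs (rf (nat_lit 25)) (cs (rf (nat_lit 26)) (cs (rf (nat_lit 28)) (rf (nat_lit 30)))))) (rf (nat_lit 31)))))) (cs (rf (nat_lit 32)) (cs (rf (nat_lit 33)) (cs (nd (nat_lit 273) (nat_lit 0) (cs (rf (nat_lit 34)) (cs (rf (nat_lit 35)) (cs (nd (nat_lit 230) (nat_lit 0) (cs (rf (nat_lit 36)) (cs (rf (nat_lit 37)) (rf (nat_lit 38))))) (nd (nat_lit 230) (nat_lit 0) (cs (rf (nat_lit 36)) (cs (rf (nat_lit 37)) (nd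 (nat_lit 296) (nat_lit 0) (cs (rf (nat_lit 39)) (cs (rf (nat_lit 40)) (nd (nat_lit 207) (nat_lit 0) (cs (lf (nat_lit 46) (nat_lit 207)) (nd (nat_lit 271) (nat_lit 0) (cs (lf (nat_lit 13) (nat_lit 249)) (nd (nat_lit 317) (nat_lit 0) (cs (lf (nat_lit 40) (nat_lit 229)) (nd (nat_lit 318) (nat_lit 0) (cs (rf (nat_lit 41)) (lf (nat_lit 41) (nat_lit 251)))))))))))))))))))) (rf (nat_lit 42))))))))))) q84294 (by decide +kernel)
def q84500 : Q := Q.p (nat_lit 0x3000008000000000000000000000000000000000000000000000000000000000) (nat_lit 0x3e0001f80006f8001c6000778001de0003e0000f80000000000000000000000000000000000000000) (nat_lit 15)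
theorem c84500 : QOK q84500 := cut [q84430, q84439, q84442, q84449, q57663, q84458, q79548, q81488, q84480, q84495, q84498] ⟨c84430, c84439, c84442, c84449, c57663, c84458, c79548, c81488, c84480, c84495, c84498, trivial⟩ (nd (nat_lit 230) (nat_lit 0) (cs (rf (nat_lit 0)) (cs (rf (nat_lit 1)) (cs (rf (nat_lit 2)) (cs (rf (nat_lit 3)) (nd (nat_lit 232) (nat_lit 0) (cs (rf (nat_lit 4)) (cs (rf (nat_lit 5)) (cs (nd (nat_lit 254) (nat_lit 0) (cs (rf (nat_lit 6)) (cs (rf (nat_lit 7)) (nd (nat_lit 255) (nat_lit 0) (cs (lf (nat_lit 18) (nat_lit 230)) (nd (nat_lit 277) (nat_lit 0) (cs (lf (nat_lit 5) (nat_lit 252)) (nd (nat_lit 299) (nat_lit 0) (cs (lf (nat_lit 42) (nat_lit 232)) (nd (nat_lit 188) (nat_lit 0) (cs (lf (nat_lit 25) (nat_lit 188)) (nd (nat_lit 274) (nat_lit 0) (cs (lf (nat_lit 11) (nat_lit 251)) (nd (nat_lit 296) (nat_lit 0) (cs (lf (nat_lit 30) (nat_lit 230)) (nd (nat_lit 297) (nat_lit 0)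 (cs (lf (nat_lit 29) (nat_lit 230)) (nd (nat_lit 275) (nat_lit 0) (cs (lf (nat_lit 47) (nat_lit 208)) (nd (nat_lit 298) (nat_lit 0) (cs (lf (nat_lit 29) (nat_lit 231)) (lf (nat_lit 18) (nat_lit 274))))))))))))))))))))))) (cs (rf (nat_lit 8)) (cs (rf (nat_lit 9)) (rf (nat_lit 10))))))))))))) q84500 (by decide +kernel)
def q84962 : Q := Q.p (nat_lit 0x3000008000000000000000000000000000000000000000000000000000000000) (nat_lit 0x340001ff800ffc003ef800fc6003f7801fee007ff001ff8001f40006c000000000000000000000000000000) (nat_lit 18)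
theorem c84962 : QOK q84962 := cut [q82301, q82309, q84332, q84644, q7464, q84830, q84831, q84509, q84834, q84835, q84822, q84840, q84825, q84848, q84911, q80576, q84913, q84919, q84925, q82259, q84643, q84929, q84946, q84951, q84953, q84910, q84431, q84958, q82395] ⟨c82301, c82309, c84332, c84644, c7464, c84830, c84831, c84509, c84834, c84835, c84822, c84840, c84825, c84848, c84911, c80576, c84913, c84919, c84925, c82259, c84643, c84929, c84946, c84951, c84953, c84910, c84431, c84958, c82395, trivial⟩ (nd (nat_lit 255) (nat_lit 0) (cs (nd (nat_lit 209) (nat_lit 0) (cs (rf (nat_lit 0)) (cs (rf (nat_lit 1)) (cs (rf (nat_lit 2)) (nd (nat_lit 296) (nat_lit 0) (cs (rf (nat_lit 3)) (cs (nd (nat_lit 210) (nat_lit 0) (cs (rf (nat_lit 4)) (cs (rf (nat_lit 5)) (cs (nd (nat_lit 275) (nat_lit 0) (cs (lf (nat_lit 35) (nat_lit 187)) (rf (nat_lit 6)))) (nd (nat_lit 211) (nat_lit 0) (cs (rf (nat_lit 7)) (cs (nd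 (nat_lit 233) (nat_lit 0) (cs (rf (nat_lit 8)) (nd (nat_lit 232) (nat_lit 0) (cs (lf (nat_lit 6) (nat_lit 230)) (rf (nat_lit 9)))))) (cs (nd (nat_lit 212) (nat_lit 0) (cs (lf (nat_lit 11) (nat_lit 208)) (nd (nat_lit 234) (nat_lit 0) (cs (lf (nat_lit 5) (nat_lit 209)) (rf (nat_lit 10)))))) (nd (nat_lit 233) (nat_lit 0) (cs (rf (nat_lit 8)) (cs (nd (nat_lit 232) (nat_lit 0) (cs (lf (nat_lit 6) (nat_lit 230)) (rf (nat_lit 11)))) (nd (nat_lit 232) (nat_lit 0) (cs (lf (nat_lit 6) (nat_lit 230)) (nd (nat_lit 212) (nat_lit 0) (cs (lf (nat_lit 6) (nat_lit 209)) (nd (nat_lit 190) (nat_lit 0) (cs (lf (nat_lit 17) (nat_lit 187)) (rf (nat_lit 12))))))))))))))))))) (cs (rf (nat_lit 13)) (nd (nat_lit 274) (nat_lit 0) (cs (lf (nat_lit 30) (nat_lit 230)) (lf (nat_lit 39) (nat_lit 208)))))))))))) (cs (rf (nat_lit 14)) (cs (nd (nat_lit 254) (nat_lit 0) (cs (rf (nat_lit 15)) (cs (nd (nat_lit 277) (nat_lit 0) (cs (lf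 (nat_lit 5) (nat_lit 252)) (nd (nat_lit 210) (nat_lit 0) (cs (nd (nat_lit 229) (nat_lit 0) (cs (lf (nat_lit 22) (nat_lit 229)) (nd (nat_lit 233) (nat_lit 0) (cs (lf (nat_lit 17) (nat_lit 230)) (nd (nat_lit 188) (nat_lit 0) (cs (lf (nat_lit 45) (nat_lit 188)) (rf (nat_lit 16)))))))) (cs (nd (nat_lit 229) (nat_lit 0) (cs (lf (nat_lit 22) (nat_lit 229)) (nd (nat_lit 233) (nat_lit 0) (cs (lf (nat_lit 17) (nat_lit 230)) (rf (nat_lit 17)))))) (nd (nat_lit 188) (nat_lit 0) (cs (lf (nat_lit 26) (nat_lit 188)) (rf (nat_lit 16))))))))) (rf (nat_lit 18))))) (cs (nd (nat_lit 254) (nat_lit 0) (cs (rf (nat_lit 15)) (cs (rf (nat_lit 19)) (rf (nat_lit 20))))) (cs (nd (nat_lit 232) (nat_lit 0) (cs (rf (nat_lit 21)) (cs (rf (nat_lit 22)) (cs (rf (nat_lit 23)) (cs (nd (nat_lit 233) (nat_lit 0) (cs (lf (nat_lit 6) (nat_lit 230)) (nd (nat_lit 230) (nat_lit 0) (cs (lf (nat_lit 5) (nat_lit 230)) (rf (nat_lit 24))))))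 (nd (nat_lit 254) (nat_lit 0) (cs (rf (nat_lit 19)) (cs (rf (nat_lit 18)) (nd (nat_lit 230) (nat_lit 0) (cs (rf (nat_lit 25)) (nd (nat_lit 277) (nat_lit 0) (cs (lf (nat_lit 5) (nat_lit 252)) (nd (nat_lit 299) (nat_lit 0) (cs (lf (nat_lit 42) (nat_lit 232)) (nd (nat_lit 210) (nat_lit 0) (cs (lf (nat_lit 24) (nat_lit 188)) (nd (nat_lit 274) (nat_lit 0) (cs (lf (nat_lit 11) (nat_lit 251)) (nd (nat_lit 297) (nat_lit 0) (cs (rf (nat_lit 26)) (lf (nat_lit 31) (nat_lit 209)))))))))))))))))))))) (cs (nd (nat_lit 254) (nat_lit 0) (cs (rf (nat_lit 15)) (rf (nat_lit 27)))) (cs (nd (nat_lit 254) (nat_lit 0) (cs (rf (nat_lit 19)) (cs (rf (nat_lit 28)) (rf (nat_lit 27))))) (nd (nat_lit 254) (nat_lit 0) (cs (rf (nat_lit 20)) (rf (nat_lit 18)))))))))))) q84962 (by decide +kernel)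
def q85064 : Q := Q.p (nat_lit 0x3000008000000000000000000000000000000000000000000000000000000000) (nat_lit 0xe0000f8000678001c6000778001fe0007f8000f80000000000000000000000000000000000000000) (nat_lit 12)
theorem c85064 : QOK q85064 := cut [q84449, q85012, q85020, q85030, q79097, q85031, q84624, q85039, q85040, q85044, q57663, q84488, q84629, q85050, q85063] ⟨c84449, c85012, c85020, c85030, c79097, c85031, c84624, c85039, c85040, c85044, c57663, c84488, c84629, c85050, c85063, trivial⟩ (nd (nat_lit 230) (nat_lit 0) (cs (rf (nat_lit 0)) (cs (rf (nat_lit 1)) (cs (rf (nat_lit 2)) (cs (rf (nat_lit 3)) (cs (nd (nat_lit 274) (nat_lit 0) (cs (rf (nat_lit 4)) (cs (rf (nat_lit 5)) (nd (nat_lit 208) (nat_lit 0) (cs (rf (nat_lit 6)) (cs (rf (nat_lit 7)) (nd (nat_lit 273) (nat_lit 0) (cs (lf (nat_lit 41) (nat_lit 207)) (rf (nat_lit 8)))))))))) (cs (nd (nat_lit 274) (nat_lit 0) (cs (rf (nat_lit 4)) (cs (rf (nat_lit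 9)) (nd (nat_lit 232) (nat_lit 0) (cs (rf (nat_lit 10)) (cs (rf (nat_lit 11)) (cs (rf (nat_lit 12)) (cs (rf (nat_lit 13)) (nd (nat_lit 187) (nat_lit 0) (cs (lf (nat_lit 37) (nat_lit 186)) (nd (nat_lit 233) (nat_lit 0) (cs (lf (nat_lit 6) (nat_lit 230)) (nd (nat_lit 211) (nat_lit 0) (cs (lf (nat_lit 17) (nat_lit 208)) (nd (nat_lit 210) (nat_lit 0) (cs (lf (nat_lit 12) (nat_lit 207)) (nd (nat_lit 188) (nat_lit 0) (cs (lf (nat_lit 36) (nat_lit 165)) (nd (nat_lit 165) (nat_lit 0) (cs (nd (nat_lit 186) (nat_lit 0) (cs (lf (nat_lit 0) (nat_lit 185)) (lf (nat_lit 32) (nat_lit 164)))) (lf (nat_lit 42) (nat_lit 165)))))))))))))))))))))) (rf (nat_lit 14))))))))) q85064 (by decide +kernel)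
def q85186 : Q := Q.p (nat_lit 0x3000008000000000000000000000000000000000000000000000000000000000) (nat_lit 0x1e0001f80006f0001c0003f7c00fff007fb8001f80007c0001d000050000000000000000000000000) (nat_lit 18)
theorem c85186 : QOK q85186 := cut [q82300, q84406, q84566, q7464, q85120, q84304, q84315, q84324, q84555, q85123, q85124, q85128, q85132, q85138, q85142, q84327, q84434, q85148, q85150, q1388, q2952, q85160, q85165, q85172, q85179, q85185] ⟨c82300, c84406, c84566, c7464, c85120, c84304, c84315, c84324, c84555, c85123, c85124, c85128, c85132, c85138, c85142, c84327, c84434, c85148, c85150, c1388, c2952, c85160, c85165, c85172, c85179, c85185, trivial⟩ (nd (nat_lit 209) (nat_lit 0) (cs (rf (nat_lit 0)) (cs (rf (nat_lit 1)) (cs (rf (nat_lit 2)) (cs (nd (nat_lit 210) (nat_lit 0) (cs (rf (nat_lit 3)) (cs (nd (nat_lit 275) (nat_lit 0) (cs (lf (nat_lit 35) (nat_lit 187)) (nd (nat_lit 296) (nat_lit 0)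 (cs (lf (nat_lit 40) (nat_lit 208)) (rf (nat_lit 4)))))) (cs (nd (nat_lit 211) (nat_lit 0) (cs (rf (nat_lit 5)) (cs (rf (nat_lit 6)) (cs (rf (nat_lit 7)) (cs (rf (nat_lit 8)) (nd (nat_lit 233) (nat_lit 0) (cs (rf (nat_lit 9)) (cs (rf (nat_lit 10)) (cs (nd (nat_lit 232) (nat_lit 0) (cs (rf (nat_lit 11)) (cs (nd (nat_lit 230) (nat_lit 0) (cs (lf (nat_lit 12) (nat_lit 207)) (rf (nat_lit 12)))) (rf (nat_lit 13))))) (rf (nat_lit 14))))))))))) (nd (nat_lit 230) (nat_lit 0) (cs (rf (nat_lit 15)) (cs (nd (nat_lit 208) (nat_lit 0) (cs (rf (nat_lit 16)) (cs (rf (nat_lit 17)) (nd (nat_lit 211) (nat_lit 0) (cs (lf (nat_lit 6) (nat_lit 208)) (nd (nat_lit 233) (nat_lit 0) (cs (lf (nat_lit 5) (nat_lit 208)) (nd (nat_lit 189) (nat_lit 0) (cs (lf (nat_lit 17) (nat_lit 186)) (rf (nat_lit 18))))))))))) (cs (nd (nat_lit 207) (nat_lit 0) (cs (nd (nat_lit 228) (nat_lit 0) (cs (lf (nat_lit 13) (nat_lit 206)) (nd (nat_lit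 274) (nat_lit 0) (cs (lf (nat_lit 30) (nat_lit 208)) (nd (nat_lit 208) (nat_lit 0) (cs (lf (nat_lit 47) (nat_lit 185)) (rf (nat_lit 19)))))))) (cs (nd (nat_lit 274) (nat_lit 0) (cs (lf (nat_lit 30) (nat_lit 208)) (nd (nat_lit 208) (nat_lit 0) (cs (lf (nat_lit 47) (nat_lit 185)) (rf (nat_lit 20)))))) (cs (nd (nat_lit 229) (nat_lit 0) (cs (lf (nat_lit 12) (nat_lit 206)) (nd (nat_lit 255) (nat_lit 0) (cs (lf (nat_lit 19) (nat_lit 229)) (nd (nat_lit 163) (nat_lit 0) (cs (lf (nat_lit 25) (nat_lit 163)) (nd (nat_lit 232) (nat_lit 0) (cs (lf (nat_lit 23) (nat_lit 206)) (rf (nat_lit 21)))))))))) (cs (nd (nat_lit 228) (nat_lit 0) (cs (lf (nat_lit 13) (nat_lit 206)) (nd (nat_lit 274) (nat_lit 0) (cs (lf (nat_lit 30) (nat_lit 208)) (nd (nat_lit 208) (nat_lit 0) (cs (lf (nat_lit 47) (nat_lit 185)) (nd (nat_lit 275) (nat_lit 0) (cs (lf (nat_lit 29) (nat_lit 208)) (rf (nat_lit 22)))))))))) (nd (nat_lit 229) (nat_lit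 0) (cs (lf (nat_lit 12) (nat_lit 206)) (nd (nat_lit 274) (nat_lit 0) (cs (lf (nat_lit 30) (nat_lit 208)) (rf (nat_lit 23))))))))))) (rf (nat_lit 24)))))))))) (rf (nat_lit 25))))))) q85186 (by decide +kernel)
def q85222 : Q := Q.p (nat_lit 0x3000008000000000000000000000000000000000000000000000000000000000) (nat_lit 0x200000c000000000f7c001fe0007dc000700001400000000000000000000000000000000000) (nat_lit 10)
theorem c85222 : QOK q85222 := cut [q82300, q82301, q82309, q1563, q85065, q85220] ⟨c82300, c82301, c82309, c1563, c85065, c85220, trivial⟩ (nd (nat_lit 209) (nat_lit 0) (cs (rf (nat_lit 0)) (cs (rf (nat_lit 1)) (cs (rf (nat_lit 2)) (nd (nat_lit 208) (nat_lit 0) (cs (rf (nat_lit 3)) (cs (rf (nat_lit 4)) (rf (nat_lit 5))))))))) q85222 (by decide +kernel)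
def q85418 : Q := Q.p (nat_lit 0x3800002000000000000000000000000000000000000000000000000000000000) (nat_lit 0x100000700001d0000bc000030007df003ff800fff0007e0001f00005800004000000000000000000000000) (nat_lit 14)
theorem c85418 : QOK q85418 := cut [q85314, q5481, q11483, q80449, q85319, q85353, q85374, q85380, q1857, q85403, q85404, q85409, q85412, q85415] ⟨c85314, c5481, c11483, c80449, c85319, c85353, c85374, c85380, c1857, c85403, c85404, c85409, c85412, c85415, trivial⟩ (nd (nat_lit 207) (nat_lit 0) (cs (rf (nat_lit 0)) (cs (nd (nat_lit 185) (nat_lit 0) (cs (rf (nat_lit 1)) (cs (rf (nat_lit 2)) (cs (rf (nat_lit 3)) (rf (nat_lit 4)))))) (cs (rf (nat_lit 5)) (cs (rf (nat_lit 6)) (cs (rf (nat_lit 7)) (cs (nd (nat_lit 208) (nat_lit 0) (cs (rf (nat_lit 8)) (cs (rf (nat_lit 9)) (rf (nat_lit 10))))) (nd (nat_lit 185) (nat_lit 0) (cs (rf (nat_lit 1)) (cs (rf (nat_lit 2)) (cs (rf (nat_lit 3)) (nd (nat_lit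 208) (nat_lit 0) (cs (rf (nat_lit 9)) (cs (rf (nat_lit 11)) (cs (rf (nat_lit 12)) (rf (nat_lit 13))))))))))))))))) q85418 (by decide +kernel)
def q85496 : Q := Q.p (nat_lit 0x3800008000000000000000000000000000000000000000000000000000000000) (nat_lit 0x500001e000278000cb8003c6000e60003fc000ff8003f8000b400000000000000000000000000000000000) (nat_lit 13)
theorem c85496 : QOK q85496 := cut [q82295, q84332, q84608, q85459, q85461, q85464, q85466, q85469, q82266, q85473, q82350, q84981, q85483, q84701, q85488] ⟨c82295, c84332, c84608, c85459, c85461, c85464, c85466, c85469, c82266, c85473, c82350, c84981, c85483, c84701, c85488, trivial⟩ (nd (nat_lit 230) (nat_lit 0) (cs (rf (nat_lit 0)) (cs (nd (nat_lit 250) (nat_lit 0) (cs (lf (nat_lit 12) (nat_lit 227)) (nd (nat_lit 209) (nat_lit 0) (cs (rf (nat_lit 1)) (cs (rf (nat_lit 2)) (cs (nd (nat_lit 271) (nat_lit 0) (cs (lf (nat_lit 10) (nat_lit 249)) (rf (nat_lit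 3)))) (cs (rf (nat_lit 4)) (cs (nd (nat_lit 271) (nat_lit 0) (cs (lf (nat_lit 10) (nat_lit 249)) (rf (nat_lit 5)))) (rf (nat_lit 6)))))))))) (cs (rf (nat_lit 7)) (nd (nat_lit 209) (nat_lit 0) (cs (rf (nat_lit 8)) (cs (rf (nat_lit 1)) (cs (rf (nat_lit 5)) (cs (rf (nat_lit 6)) (cs (nd (nat_lit 249) (nat_lit 0) (cs (lf (nat_lit 13) (nat_lit 227)) (rf (nat_lit 9)))) (nd (nat_lit 275) (nat_lit 0) (cs (rf (nat_lit 10)) (cs (nd (nat_lit 250) (nat_lit 0) (cs (lf (nat_lit 12) (nat_lit 227)) (nd (nat_lit 272) (nat_lit 0) (cs (lf (nat_lit 11) (nat_lit 249)) (nd (nat_lit 273) (nat_lit 0) (cs (lf (nat_lit 6) (nat_lit 250)) (nd (nat_lit 188) (nat_lit 0) (cs (lf (nat_lit 34) (nat_lit 187)) (nd (nat_lit 295) (nat_lit 0) (cs (lf (nat_lit 30) (nat_lit 229)) (nd (nat_lit 297) (nat_lit 0) (cs (lf (nat_lit 42) (nat_lit 230)) (nd (nat_lit 296) (nat_lit 0) (cs (lf (nat_lit 41) (nat_lit 230)) (lf (nat_lit 18) (nat_lit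 272)))))))))))))))) (nd (nat_lit 210) (nat_lit 0) (cs (lf (nat_lit 35) (nat_lit 187)) (nd (nat_lit 234) (nat_lit 0) (cs (nd (nat_lit 211) (nat_lit 0) (cs (lf (nat_lit 6) (nat_lit 208)) (rf (nat_lit 11)))) (cs (nd (nat_lit 250) (nat_lit 0) (cs (lf (nat_lit 12) (nat_lit 227)) (nd (nat_lit 272) (nat_lit 0) (cs (lf (nat_lit 11) (nat_lit 249)) (nd (nat_lit 254) (nat_lit 0) (cs (lf (nat_lit 10) (nat_lit 250)) (rf (nat_lit 12)))))))) (nd (nat_lit 212) (nat_lit 0) (cs (lf (nat_lit 7) (nat_lit 208)) (nd (nat_lit 256) (nat_lit 0) (cs (rf (nat_lit 13)) (nd (nat_lit 254) (nat_lit 0) (cs (lf (nat_lit 19) (nat_lit 230)) (rf (nat_lit 14)))))))))))))))))))))))))) q85496 (by decide +kernel)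
def q85521 : Q := Q.p (nat_lit 0x3800008000000000000000000000000000000000000000000000000000000000) (nat_lit 0xa0000280000b0001c0000760003ff000ff8001ff0003400008000000000000000000000000000000) (nat_lit 17)
theorem c85521 : QOK q85521 := cut [q85469, q81488, q82274, q12221, q79250, q85502, q85508, q82266, q84332, q84605, q85464, q85473, q82378, q85510, q79996, q85008, q12210, q85515] ⟨c85469, c81488, c82274, c12221, c79250, c85502, c85508, c82266, c84332, c84605, c85464, c85473, c82378, c85510, c79996, c85008, c12210, c85515, trivial⟩ (nd (nat_lit 230) (nat_lit 0) (cs (rf (nat_lit 0)) (cs (nd (nat_lit 254) (nat_lit 0) (cs (rf (nat_lit 1)) (cs (nd (nat_lit 273) (nat_lit 0) (cs (lf (nat_lit 11) (nat_lit 250)) (nd (nat_lit 295) (nat_lit 0) (cs (lf (nat_lit 30) (nat_lit 229)) (nd (nat_lit 232) (nat_lit 0) (cs (rf (nat_lit 2)) (nd (nat_lit 210) (nat_lit 0) (cs (rf (nat_lit 3)) (rf (nat_lit 4))))))))))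 (rf (nat_lit 5))))) (cs (rf (nat_lit 6)) (cs (nd (nat_lit 209) (nat_lit 0) (cs (rf (nat_lit 7)) (cs (rf (nat_lit 8)) (cs (rf (nat_lit 9)) (cs (rf (nat_lit 10)) (cs (rf (nat_lit 11)) (nd (nat_lit 208) (nat_lit 0) (cs (rf (nat_lit 12)) (nd (nat_lit 233) (nat_lit 0) (cs (lf (nat_lit 7) (nat_lit 229)) (nd (nat_lit 275) (nat_lit 0) (cs (lf (nat_lit 42) (nat_lit 208)) (rf (nat_lit 13)))))))))))))) (nd (nat_lit 208) (nat_lit 0) (cs (rf (nat_lit 14)) (cs (rf (nat_lit 15)) (nd (nat_lit 210) (nat_lit 0) (cs (rf (nat_lit 16)) (cs (nd (nat_lit 275) (nat_lit 0) (cs (lf (nat_lit 42) (nat_lit 208)) (nd (nat_lit 232) (nat_lit 0) (cs (lf (nat_lit 6) (nat_lit 229)) (rf (nat_lit 17)))))) (nd (nat_lit 232) (nat_lit 0) (cs (lf (nat_lit 6) (nat_lit 229)) (rf (nat_lit 3))))))))))))))) q85521 (by decide +kernel)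

end Crest.Agent.H3.Snaky.CR
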