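import Crest.Agent.H3.Snaky.Cert
import Crest.Agent.H3.Snaky.CR.CR0
import Crest.Agent.H3.Snaky.CR.CR1
import Crest.Agent.H3.Snaky.CR.CR2
import Crest.Agent.H3.Snaky.CR.CR3
import Crest.Agent.H3.Snaky.CR.CR4
import Crest.Agent.H3.Snaky.CR.CR5
import Crest.Agent.H3.Snaky.CR.CR6
import Crest.Agent.H3.Snaky.CR.CR9
import Crest.Agent.H3.Snaky.CR.CR10
import Crest.Agent.H3.Snaky.CR.CR11
import Crest.Agent.H3.Snaky.CR.CR12
import Crest.Agent.H3.Snaky.CR.CR13
import Crest.Agent.H3.Snaky.CR.CR14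
import Crest.Agent.H3.Snaky.CR.CR15
import Crest.Agent.H3.Snaky.CR.CR16
import Crest.Agent.H3.Snaky.CR.CR17
import Crest.Agent.H3.Snaky.CR.CR18
import Crest.Agent.H3.Snaky.CR.CR19
import Crest.Agent.H3.Snaky.CR.CR20
import Crest.Agent.H3.Snaky.CR.CR21
import Crest.Agent.H3.Snaky.CR.CR22
import Crest.Agent.H3.Snaky.CR.CR23
import Crest.Agent.H3.Snaky.CR.CR24
import Crest.Agent.H3.Snaky.CR.CR25
import Crest.Agent.H3.Snaky.CR.CR26
import Crest.Agent.H3.Snaky.CR.CR27
import Crest.Agent.H3.Snaky.CR.CR28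
import Crest.Agent.H3.Snaky.CR.CR29
import Crest.Agent.H3.Snaky.CR.CR30
import Crest.Agent.H3.Snaky.CR.CR33
import Crest.Agent.H3.Snaky.CR.CR34
import Crest.Agent.H3.Snaky.CR.CR35
import Crest.Agent.H3.Snaky.CR.CR36
import Crest.Agent.H3.Snaky.CR.CR37
import Crest.Agent.H3.Snaky.CR.CR38
import Crest.Agent.H3.Snaky.CR.CR39
import Crest.Agent.H3.Snaky.CR.CR40
import Crest.Agent.H3.Snaky.CR.CR41
import Crest.Agent.H3.Snaky.CR.CR42
import Crest.Agent.H3.Snaky.CR.CR44
import Crest.Agent.H3.Snaky.CR.CR45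
import Crest.Agent.H3.Snaky.CR.CR48
import Crest.Agent.H3.Snaky.CR.CR49
import Crest.Agent.H3.Snaky.CR.CR50
import Crest.Agent.H3.Snaky.CR.CR51
import Crest.Agent.H3.Snaky.CR.CR52
import Crest.Agent.H3.Snaky.CR.CR53
import Crest.Agent.H3.Snaky.CR.CR54
import Crest.Agent.H3.Snaky.CR.CR55
import Crest.Agent.H3.Snaky.CR.CR56
import Crest.Agent.H3.Snaky.CR.CR57
import Crest.Agent.H3.Snaky.CR.CR59
import Crest.Agent.H3.Snaky.CR.CR60
import Crest.Agent.H3.Snaky.CR.CR61
import Crest.Agent.H3.Snaky.CR.CR62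
import Crest.Agent.H3.Snaky.CR.CR63
import Crest.Agent.H3.Snaky.CR.CR64
import Crest.Agent.H3.Snaky.CR.CR65
import Crest.Agent.H3.Snaky.CR.CR67
import Crest.Agent.H3.Snaky.CR.CR68
import Crest.Agent.H3.Snaky.CR.CR69
import Crest.Agent.H3.Snaky.CR.CR70
import Crest.Agent.H3.Snaky.CR.CR71
import Crest.Agent.H3.Snaky.CR.CR72
import Crest.Agent.H3.Snaky.CR.CR73
import Crest.Agent.H3.Snaky.CR.CR74

set_option autoImplicit false
set_option maxRecDepth 100000

namespace Crest.Agent.H3.Snaky.CR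

open T

def q85576 : Q := Q.p (nat_lit 0x3800000000000000000000000000000000000000000000000000000000000000) (nat_lit 0x20000280000b0000460007fc001fc0007f8000780001400000000000000000000000000000000000) (nat_lit 11)
theorem c85576 : QOK q85576 := cut [q12247, q82278, q85469, q85575] ⟨c12247, c82278, c85469, c85575, trivial⟩ (nd (nat_lit 250) (nat_lit 0) (cs (rf (nat_lit 0)) (cs (nd (nat_lit 231) (nat_lit 0) (cs (rf (nat_lit 1)) (nd (nat_lit 230) (nat_lit 0) (cs (lf (nat_lit 12) (nat_lit 227)) (rf (nat_lit 2)))))) (rf (nat_lit 3))))) q85576 (by decide +kernel)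
def q85748 : Q := Q.p (nat_lit 0x400003000000000000000000000000000000000000000000000000000000000000000) (nat_lit 0xa000038000ae800ebe001cf800fde003ff001ffe007fe000ff8001fc00078000000000000000000000000) (nat_lit 18)
theorem c85748 : QOK q85748 := cut [q80524, q85149, q83705, q83979, q83984, q79118, q85239, q85673, q85674, q42, q79159, q85592, q85620, q83700, q79123, q79128, q85687, q84398, q85690, q85711, q85716, q85742, q81803, q85714] ⟨c80524, c85149, c83705, c83979, c83984, c79118, c85239, c85673, c85674, c42, c79159, c85592, c85620, c83700, c79123, c79128, c85687, c84398, c85690, c85711, c85716, c85742, c81803, c85714, trivial⟩ (nd (nat_lit 208) (nat_lit 0) (cs (nd (nat_lit 230) (nat_lit 0) (cs (rf (nat_lit 0)) (rf (nat_lit 1)))) (cs (nd (nat_lit 254) (nat_lit 0) (cs (rf (nat_lit 2)) (cs (rf (nat_lit 3)) (cs (rf (nat_lit 4)) (nd (nat_lit 272) (nat_lit 0) (cs (nd (nat_lit 273) (nat_lit 0) (cs (lf (nat_lit 12) (nat_lit 249))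 (lf (nat_lit 9) (nat_lit 250)))) (cs (nd (nat_lit 232) (nat_lit 0) (cs (rf (nat_lit 5)) (cs (nd (nat_lit 188) (nat_lit 0) (cs (rf (nat_lit 6)) (cs (nd (nat_lit 250) (nat_lit 0) (cs (nd (nat_lit 251) (nat_lit 0) (cs (lf (nat_lit 11) (nat_lit 249)) (lf (nat_lit 16) (nat_lit 228)))) (cs (nd (nat_lit 251) (nat_lit 0) (cs (lf (nat_lit 16) (nat_lit 228)) (nd (nat_lit 227) (nat_lit 0) (cs (lf (nat_lit 22) (nat_lit 227)) (nd (nat_lit 249) (nat_lit 0) (cs (lf (nat_lit 23) (nat_lit 226)) (lf (nat_lit 5) (nat_lit 249)))))))) (cs (rf (nat_lit 7)) (rf (nat_lit 8)))))) (cs (nd (nat_lit 210) (nat_lit 0) (cs (lf (nat_lit 41) (nat_lit 187)) (nd (nat_lit 189) (nat_lit 0) (cs (lf (nat_lit 35) (nat_lit 166)) (nd (nat_lit 165) (nat_lit 0) (cs (lf (nat_lit 46) (nat_lit 165)) (nd (nat_lit 209) (nat_lit 0) (cs (rf (nat_lit 9)) (lf (nat_lit 12) (nat_lit 185)))))))))) (cs (nd (nat_lit 210) (nat_lit 0) (cs (lf (nat_lit 41) (nat_lit 187)) (rf (nat_lit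 10)))) (nd (nat_lit 187) (nat_lit 0) (cs (rf (nat_lit 11)) (cs (rf (nat_lit 12)) (nd (nat_lit 210) (nat_lit 0) (cs (lf (nat_lit 47) (nat_lit 165)) (nd (nat_lit 231) (nat_lit 0) (cs (lf (nat_lit 36) (nat_lit 165)) (lf (nat_lit 37) (nat_lit 186)))))))))))))) (cs (nd (nat_lit 251) (nat_lit 0) (cs (lf (nat_lit 17) (nat_lit 229)) (nd (nat_lit 250) (nat_lit 0) (cs (lf (nat_lit 11) (nat_lit 249)) (rf (nat_lit 13)))))) (nd (nat_lit 210) (nat_lit 0) (cs (rf (nat_lit 14)) (cs (rf (nat_lit 15)) (cs (nd (nat_lit 209) (nat_lit 0) (cs (rf (nat_lit 16)) (nd (nat_lit 231) (nat_lit 0) (cs (lf (nat_lit 36) (nat_lit 186)) (rf (nat_lit 17)))))) (nd (nat_lit 209) (nat_lit 0) (cs (rf (nat_lit 16)) (nd (nat_lit 187) (nat_lit 0) (cs (lf (nat_lit 38) (nat_lit 186)) (rf (nat_lit 18)))))))))))))) (cs (nd (nat_lit 273) (nat_lit 0) (cs (lf (nat_lit 15) (nat_lit 250)) (lf (nat_lit 9) (nat_lit 250)))) (nd (nat_lit 273) (nat_lit 0) (cs (lf (nat_lit 12) (nat_lit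 249)) (lf (nat_lit 15) (nat_lit 250)))))))))))) (cs (nd (nat_lit 230) (nat_lit 0) (cs (rf (nat_lit 1)) (cs (rf (nat_lit 19)) (cs (rf (nat_lit 20)) (rf (nat_lit 21)))))) (cs (nd (nat_lit 230) (nat_lit 0) (cs (rf (nat_lit 0)) (cs (rf (nat_lit 22)) (rf (nat_lit 19))))) (cs (nd (nat_lit 230) (nat_lit 0) (cs (rf (nat_lit 0)) (rf (nat_lit 23)))) (cs (nd (nat_lit 230) (nat_lit 0) (cs (rf (nat_lit 0)) (cs (rf (nat_lit 22)) (rf (nat_lit 21))))) (nd (nat_lit 230) (nat_lit 0) (cs (rf (nat_lit 22)) (rf (nat_lit 23))))))))))) q85748 (by decide +kernel)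
def q86253 : Q := Q.p (nat_lit 0x400003000020000000000000000000000000000000000000000000000000000000000) (nat_lit 0xa0001f80007f8001fe000e82001c38004ce001ffc00ffe007ffc007fe003ff80040e00002800000000000000000) (nat_lit 17)
theorem c86253 : QOK q86253 := cut [q83915, q81803, q1412, q4748, q85909, q86043, q86045, q12652, q85886, q86008, q86049, q2923, q17226, q83296, q83490, q27029, q86068, q1231, q6563, q86149, q86231, q86247, q17544] ⟨c83915, c81803, c1412, c4748, c85909, c86043, c86045, c12652, c85886, c86008, c86049, c2923, c17226, c83296, c83490, c27029, c86068, c1231, c6563, c86149, c86231, c86247, c17544, trivial⟩ (nd (nat_lit 209) (nat_lit 0) (cs (nd (nat_lit 296) (nat_lit 0) (cs (rf (nat_lit 0)) (cs (nd (nat_lit 231) (nat_lit 0) (cs (lf (nat_lit 39) (nat_lit 208)) (lf (nat_lit 33) (nat_lit 208)))) (nd (nat_lit 231) (nat_lit 0) (cs (lf (nat_lit 30) (nat_lit 230)) (lf (nat_lit 33) (nat_lit 208))))))) (cs (nd (nat_lit 208)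 (nat_lit 0) (cs (nd (nat_lit 230) (nat_lit 0) (cs (lf (nat_lit 35) (nat_lit 186)) (rf (nat_lit 1)))) (cs (nd (nat_lit 185) (nat_lit 0) (cs (nd (nat_lit 207) (nat_lit 0) (cs (lf (nat_lit 44) (nat_lit 185)) (rf (nat_lit 2)))) (cs (nd (nat_lit 211) (nat_lit 0) (cs (nd (nat_lit 210) (nat_lit 0) (cs (lf (nat_lit 5) (nat_lit 208)) (lf (nat_lit 22) (nat_lit 185)))) (cs (nd (nat_lit 186) (nat_lit 0) (cs (lf (nat_lit 19) (nat_lit 185)) (rf (nat_lit 3)))) (cs (nd (nat_lit 255) (nat_lit 0) (cs (rf (nat_lit 4)) (cs (rf (nat_lit 5)) (cs (rf (nat_lit 6)) (nd (nat_lit 254) (nat_lit 0) (cs (lf (nat_lit 17) (nat_lit 230)) (nd (nat_lit 275) (nat_lit 0) (cs (rf (nat_lit 7)) (lf (nat_lit 6) (nat_lit 252)))))))))) (nd (nat_lit 255) (nat_lit 0) (cs (rf (nat_lit 8)) (cs (rf (nat_lit 9)) (rf (nat_lit 10))))))))) (cs (nd (nat_lit 184) (nat_lit 0) (cs (nd (nat_lit 210) (nat_lit 0) (cs (lf (nat_lit 21) (nat_lit 184)) (rf (nat_lit 11)))) (cs (nd (nat_lit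 183) (nat_lit 0) (cs (lf (nat_lit 3) (nat_lit 183)) (nd (nat_lit 182) (nat_lit 0) (cs (rf (nat_lit 12)) (cs (rf (nat_lit 13)) (cs (rf (nat_lit 14)) (nd (nat_lit 160) (nat_lit 0) (cs (lf (nat_lit 23) (nat_lit 159)) (nd (nat_lit 138) (nat_lit 0) (cs (nd (nat_lit 116) (nat_lit 0) (cs (lf (nat_lit 29) (nat_lit 116)) (nd (nat_lit 95) (nat_lit 0) (cs (lf (nat_lit 34) (nat_lit 94)) (nd (nat_lit 94) (nat_lit 0) (cs (lf (nat_lit 35) (nat_lit 72)) (lf (nat_lit 28) (nat_lit 94)))))))) (cs (nd (nat_lit 204) (nat_lit 0) (cs (lf (nat_lit 11) (nat_lit 181)) (nd (nat_lit 163) (nat_lit 0) (cs (lf (nat_lit 17) (nat_lit 160)) (nd (nat_lit 115) (nat_lit 0) (cs (lf (nat_lit 46) (nat_lit 115)) (nd (nat_lit 117) (nat_lit 0) (cs (lf (nat_lit 34) (nat_lit 116)) (nd (nat_lit 227) (nat_lit 0) (cs (nd (nat_lit 226) (nat_lit 0) (cs (lf (nat_lit 29) (nat_lit 160)) (nd (nat_lit 247) (nat_lit 0) (cs (lf (nat_lit 40) (nat_lit 159)) (nd (nat_lit 248) (nat_lit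 0) (cs (lf (nat_lit 41) (nat_lit 181)) (lf (nat_lit 35) (nat_lit 160)))))))) (lf (nat_lit 28) (nat_lit 138)))))))))))) (cs (nd (nat_lit 204) (nat_lit 0) (cs (lf (nat_lit 11) (nat_lit 181)) (nd (nat_lit 163) (nat_lit 0) (cs (lf (nat_lit 17) (nat_lit 160)) (rf (nat_lit 15)))))) (nd (nat_lit 163) (nat_lit 0) (cs (lf (nat_lit 17) (nat_lit 160)) (nd (nat_lit 203) (nat_lit 0) (cs (lf (nat_lit 10) (nat_lit 181)) (nd (nat_lit 116) (nat_lit 0) (cs (lf (nat_lit 29) (nat_lit 116)) (rf (nat_lit 16)))))))))))))))))))) (nd (nat_lit 207) (nat_lit 0) (cs (lf (nat_lit 18) (nat_lit 184)) (rf (nat_lit 17))))))) (nd (nat_lit 230) (nat_lit 0) (cs (lf (nat_lit 46) (nat_lit 185)) (rf (nat_lit 18)))))))) (cs (rf (nat_lit 19)) (cs (rf (nat_lit 20)) (nd (nat_lit 187) (nat_lit 0) (cs (lf (nat_lit 32) (nat_lit 186)) (rf (nat_lit 21))))))))) (cs (nd (nat_lit 187) (nat_lit 0) (cs (lf (nat_lit 38) (nat_lit 186)) (nd (nat_lit 208) (nat_lit 0) (cs (lf (nat_lit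 32) (nat_lit 186)) (rf (nat_lit 21)))))) (nd (nat_lit 231) (nat_lit 0) (cs (lf (nat_lit 36) (nat_lit 186)) (rf (nat_lit 22)))))))) q86253 (by decide +kernel)
def q86790 : Q := Q.p (nat_lit 0x3000000000000000000000000000000000000000000000000000000000000000) (nat_lit 0xa0001fc0007fc001ff000efe007cf801ffe001ec0003f0000fc0001400000000000000000000000000000000000) (nat_lit 19)
theorem c86790 : QOK q86790 := cut [q79013, q81085, q81729, q86699, q86703, q86708, q86710, q83707, q86720, q86723, q80881, q82280, q86735, q81008, q11750, q83825, q81834, q82395, q86746, q86761, q86768, q86769, q86786, q86789] ⟨c79013, c81085, c81729, c86699, c86703, c86708, c86710, c83707, c86720, c86723, c80881, c82280, c86735, c81008, c11750, c83825, c81834, c82395, c86746, c86761, c86768, c86769, c86786, c86789, trivial⟩ (nd (nat_lit 254) (nat_lit 0) (cs (nd (nat_lit 251) (nat_lit 0) (cs (rf (nat_lit 0)) (cs (rf (nat_lit 1)) (cs (rf (nat_lit 2)) (nd (nat_lit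 229) (nat_lit 0) (cs (lf (nat_lit 23) (nat_lit 228)) (nd (nat_lit 296) (nat_lit 0) (cs (rf (nat_lit 3)) (cs (rf (nat_lit 4)) (cs (rf (nat_lit 5)) (rf (nat_lit 6)))))))))))) (cs (nd (nat_lit 274) (nat_lit 0) (cs (rf (nat_lit 7)) (cs (rf (nat_lit 8)) (cs (rf (nat_lit 9)) (cs (nd (nat_lit 231) (nat_lit 0) (cs (rf (nat_lit 10)) (cs (rf (nat_lit 11)) (cs (rf (nat_lit 12)) (nd (nat_lit 296) (nat_lit 0) (cs (lf (nat_lit 30) (nat_lit 230)) (nd (nat_lit 230) (nat_lit 0) (cs (rf (nat_lit 13)) (nd (nat_lit 297) (nat_lit 0) (cs (lf (nat_lit 29) (nat_lit 230)) (nd (nat_lit 295) (nat_lit 0) (cs (lf (nat_lit 41) (nat_lit 229)) (nd (nat_lit 294) (nat_lit 0) (cs (rf (nat_lit 14)) (cs (rf (nat_lit 15)) (cs (nd (nat_lit 255) (nat_lit 0) (cs (rf (nat_lit 16)) (cs (rf (nat_lit 17)) (nd (nat_lit 277) (nat_lit 0) (cs (lf (nat_lit 5) (nat_lit 252)) (nd (nat_lit 232) (nat_lit 0) (cs (nd (nat_lit 210) (nat_lit 0) (cs (lf (nat_lit 24) (nat_lit 188)) (lf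 (nat_lit 31) (nat_lit 209)))) (cs (nd (nat_lit 315) (nat_lit 0) (cs (lf (nat_lit 10) (nat_lit 293)) (nd (nat_lit 233) (nat_lit 0) (cs (lf (nat_lit 6) (nat_lit 230)) (nd (nat_lit 211) (nat_lit 0) (cs (lf (nat_lit 17) (nat_lit 208)) (nd (nat_lit 167) (nat_lit 0) (cs (lf (nat_lit 37) (nat_lit 166)) (nd (nat_lit 299) (nat_lit 0) (cs (lf (nat_lit 42) (nat_lit 232)) (nd (nat_lit 298) (nat_lit 0) (cs (lf (nat_lit 41) (nat_lit 232)) (nd (nat_lit 300) (nat_lit 0) (cs (lf (nat_lit 29) (nat_lit 233)) (lf (nat_lit 22) (nat_lit 274)))))))))))))))) (nd (nat_lit 271) (nat_lit 0) (cs (lf (nat_lit 22) (nat_lit 271)) (nd (nat_lit 188) (nat_lit 0) (cs (lf (nat_lit 25) (nat_lit 188)) (nd (nat_lit 315) (nat_lit 0) (cs (lf (nat_lit 10) (nat_lit 293)) (rf (nat_lit 18)))))))))))))))) (nd (nat_lit 271) (nat_lit 0) (cs (lf (nat_lit 22) (nat_lit 271)) (nd (nat_lit 293) (nat_lit 0) (cs (lf (nat_lit 23) (nat_lit 270)) (lf (nat_lit 17) (nat_lit 271))))))))))))))))))))))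 (nd (nat_lit 255) (nat_lit 0) (cs (lf (nat_lit 11) (nat_lit 251)) (nd (nat_lit 233) (nat_lit 0) (cs (lf (nat_lit 17) (nat_lit 230)) (rf (nat_lit 19))))))))))) (cs (rf (nat_lit 20)) (cs (rf (nat_lit 21)) (cs (rf (nat_lit 22)) (rf (nat_lit 23)))))))) q86790 (by decide +kernel)
def q86932 : Q := Q.p (nat_lit 0x3000018000000000000000000000000000000000000000000000000000000000) (nat_lit 0x3e0001f80006e0001c0000660003f0000300000c00000000000000000000000000000000000000000) (nat_lit 14)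
theorem c86932 : QOK q86932 := cut [q57663, q84480, q84495, q84498, q12221, q84455] ⟨c57663, c84480, c84495, c84498, c12221, c84455, trivial⟩ (nd (nat_lit 230) (nat_lit 0) (cs (rf (nat_lit 0)) (cs (rf (nat_lit 1)) (cs (rf (nat_lit 2)) (cs (rf (nat_lit 3)) (nd (nat_lit 210) (nat_lit 0) (cs (rf (nat_lit 4)) (rf (nat_lit 5))))))))) q86932 (by decide +kernel)
def q87015 : Q := Q.p (nat_lit 0x3000008000000000000000000000000000000000000000000000000000000000) (nat_lit 0xe000038000278001ce000760003fe0007f8000fe0000800002000000000000000000000000000000) (nat_lit 14)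
theorem c87015 : QOK q87015 := cut [q85012, q85063, q79097, q85031, q86959, q57663, q86313, q81488, q86774, q12221, q86970, q86979, q426, q82295, q85508, q84073, q22191, q86988, q20853, q86995, q87009] ⟨c85012, c85063, c79097, c85031, c86959, c57663, c86313, c81488, c86774, c12221, c86970, c86979, c426, c82295, c85508, c84073, c22191, c86988, c20853, c86995, c87009, trivial⟩ (nd (nat_lit 230) (nat_lit 0) (cs (rf (nat_lit 0)) (cs (rf (nat_lit 1)) (cs (nd (nat_lit 274) (nat_lit 0) (cs (rf (nat_lit 2)) (cs (rf (nat_lit 3)) (rf (nat_lit 4))))) (cs (nd (nat_lit 232) (nat_lit 0) (cs (rf (nat_lit 5)) (cs (rf (nat_lit 6)) (nd (nat_lit 254) (nat_lit 0) (cs (rf (nat_lit 7)) (cs (rf (nat_lit 8)) (nd (nat_lit 210) (nat_lit 0) (cs (rf (nat_lit 9)) (cs (nd (nat_lit 250) (nat_lit 0) (cs (lf (nat_lit 13) (nat_lit 228)) (nd (nat_lit 188) (nat_lit 0) (cs (lf (nat_lit 36) (nat_lit 165)) (nd (nat_lit 167) (nat_lit 0) (cs (lf (nat_lit 34) (nat_lit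 166)) (nd (nat_lit 187) (nat_lit 0) (cs (lf (nat_lit 47) (nat_lit 165)) (nd (nat_lit 209) (nat_lit 0) (cs (lf (nat_lit 41) (nat_lit 186)) (nd (nat_lit 186) (nat_lit 0) (cs (lf (nat_lit 47) (nat_lit 164)) (nd (nat_lit 185) (nat_lit 0) (cs (lf (nat_lit 0) (nat_lit 184)) (nd (nat_lit 207) (nat_lit 0) (cs (lf (nat_lit 11) (nat_lit 184)) (nd (nat_lit 163) (nat_lit 0) (cs (lf (nat_lit 23) (nat_lit 162)) (lf (nat_lit 27) (nat_lit 163)))))))))))))))))))) (cs (nd (nat_lit 188) (nat_lit 0) (cs (lf (nat_lit 36) (nat_lit 165)) (nd (nat_lit 250) (nat_lit 0) (cs (lf (nat_lit 13) (nat_lit 228)) (nd (nat_lit 167) (nat_lit 0) (cs (lf (nat_lit 34) (nat_lit 166)) (nd (nat_lit 187) (nat_lit 0) (cs (lf (nat_lit 47) (nat_lit 165)) (nd (nat_lit 209) (nat_lit 0) (cs (lf (nat_lit 41) (nat_lit 186)) (nd (nat_lit 211) (nat_lit 0) (cs (lf (nat_lit 6) (nat_lit 208)) (rf (nat_lit 10)))))))))))))) (nd (nat_lit 166) (nat_lit 0) (cs (lf (nat_lit 37) (nat_lit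 165)) (rf (nat_lit 11)))))))))))))) (cs (nd (nat_lit 251) (nat_lit 0) (cs (rf (nat_lit 12)) (cs (rf (nat_lit 13)) (rf (nat_lit 14))))) (cs (nd (nat_lit 274) (nat_lit 0) (cs (rf (nat_lit 2)) (nd (nat_lit 273) (nat_lit 0) (cs (rf (nat_lit 15)) (nd (nat_lit 208) (nat_lit 0) (cs (lf (nat_lit 41) (nat_lit 207)) (rf (nat_lit 16)))))))) (nd (nat_lit 232) (nat_lit 0) (cs (rf (nat_lit 5)) (cs (rf (nat_lit 6)) (nd (nat_lit 210) (nat_lit 0) (cs (rf (nat_lit 9)) (cs (rf (nat_lit 11)) (cs (nd (nat_lit 187) (nat_lit 0) (cs (rf (nat_lit 17)) (cs (nd (nat_lit 250) (nat_lit 0) (cs (lf (nat_lit 13) (nat_lit 228)) (nd (nat_lit 188) (nat_lit 0) (cs (lf (nat_lit 36) (nat_lit 165)) (nd (nat_lit 165) (nat_lit 0) (cs (lf (nat_lit 42) (nat_lit 165)) (nd (nat_lit 121) (nat_lit 0) (cs (lf (nat_lit 25) (nat_lit 121)) (nd (nat_lit 186) (nat_lit 0) (cs (lf (nat_lit 32) (nat_lit 164)) (nd (nat_lit 185) (nat_lit 0) (cs (lf (nat_lit 5) (nat_lit 185)) (rf (nat_lit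 18)))))))))))))) (nd (nat_lit 166) (nat_lit 0) (cs (lf (nat_lit 37) (nat_lit 165)) (nd (nat_lit 209) (nat_lit 0) (cs (lf (nat_lit 41) (nat_lit 186)) (nd (nat_lit 211) (nat_lit 0) (cs (lf (nat_lit 6) (nat_lit 208)) (nd (nat_lit 250) (nat_lit 0) (cs (lf (nat_lit 13) (nat_lit 228)) (rf (nat_lit 19))))))))))))) (nd (nat_lit 187) (nat_lit 0) (cs (rf (nat_lit 17)) (cs (nd (nat_lit 250) (nat_lit 0) (cs (lf (nat_lit 13) (nat_lit 228)) (nd (nat_lit 188) (nat_lit 0) (cs (lf (nat_lit 36) (nat_lit 165)) (nd (nat_lit 254) (nat_lit 0) (cs (lf (nat_lit 47) (nat_lit 165)) (nd (nat_lit 255) (nat_lit 0) (cs (lf (nat_lit 0) (nat_lit 229)) (lf (nat_lit 29) (nat_lit 188)))))))))) (nd (nat_lit 188) (nat_lit 0) (cs (lf (nat_lit 36) (nat_lit 165)) (nd (nat_lit 250) (nat_lit 0) (cs (lf (nat_lit 13) (nat_lit 228)) (rf (nat_lit 20))))))))))))))))))))))) q87015 (by decide +kernel)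
def q87100 : Q := Q.p (nat_lit 0x3000008000000000000000000000000000000000000000000000000000000000) (nat_lit 0x280000e0000fc0003f8000ff800efc003cf001f6e0003e0000e0000000000000000000000000000000000000000000000) (nat_lit 12)
theorem c87100 : QOK q87100 := cut [q82275, q82278, q86882, q82233, q87069, q80881, q82280, q87049, q87075, q82292, q84199, q84227, q85505, q87084, q87089, q84218, q79097, q84634, q87096, q87098] ⟨c82275, c82278, c86882, c82233, c87069, c80881, c82280, c87049, c87075, c82292, c84199, c84227, c85505, c87084, c87089, c84218, c79097, c84634, c87096, c87098, trivial⟩ (nd (nat_lit 251) (nat_lit 0) (cs (rf (nat_lit 0)) (cs (rf (nat_lit 1)) (cs (rf (nat_lit 2)) (nd (nat_lit 273) (nat_lit 0) (cs (rf (nat_lit 3)) (cs (rf (nat_lit 4)) (cs (nd (nat_lit 274) (nat_lit 0) (cs (rf (nat_lit 5)) (cs (rf (nat_lit 6)) (cs (nd (nat_lit 208) (nat_lit 0) (cs (rf (nat_lit 7)) (cs (nd (nat_lit 209) (nat_lit 0) (cs (lf (nat_lit 36)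 (nat_lit 186)) (nd (nat_lit 254) (nat_lit 0) (cs (lf (nat_lit 6) (nat_lit 251)) (nd (nat_lit 232) (nat_lit 0) (cs (lf (nat_lit 17) (nat_lit 229)) (nd (nat_lit 207) (nat_lit 0) (cs (lf (nat_lit 0) (nat_lit 206)) (nd (nat_lit 186) (nat_lit 0) (cs (lf (nat_lit 42) (nat_lit 186)) (lf (nat_lit 32) (nat_lit 185)))))))))))) (nd (nat_lit 187) (nat_lit 0) (cs (lf (nat_lit 37) (nat_lit 186)) (nd (nat_lit 230) (nat_lit 0) (cs (lf (nat_lit 41) (nat_lit 207)) (nd (nat_lit 275) (nat_lit 0) (cs (lf (nat_lit 42) (nat_lit 208)) (nd (nat_lit 232) (nat_lit 0) (cs (lf (nat_lit 6) (nat_lit 229)) (nd (nat_lit 254) (nat_lit 0) (cs (lf (nat_lit 6) (nat_lit 251)) (rf (nat_lit 8))))))))))))))) (nd (nat_lit 230) (nat_lit 0) (cs (rf (nat_lit 9)) (cs (rf (nat_lit 10)) (rf (nat_lit 11))))))))) (cs (nd (nat_lit 230) (nat_lit 0) (cs (rf (nat_lit 12)) (cs (nd (nat_lit 296) (nat_lit 0) (cs (rf (nat_lit 13)) (cs (rf (nat_lit 14)) (nd (nat_lit 295) (nat_lit 0)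 (cs (lf (nat_lit 30) (nat_lit 229)) (nd (nat_lit 274) (nat_lit 0) (cs (lf (nat_lit 35) (nat_lit 208)) (nd (nat_lit 207) (nat_lit 0) (cs (lf (nat_lit 25) (nat_lit 207)) (nd (nat_lit 297) (nat_lit 0) (cs (lf (nat_lit 29) (nat_lit 230)) (rf (nat_lit 15))))))))))))) (cs (nd (nat_lit 274) (nat_lit 0) (cs (rf (nat_lit 16)) (rf (nat_lit 17)))) (rf (nat_lit 18)))))) (rf (nat_lit 19))))))))))) q87100 (by decide +kernel)
def q87162 : Q := Q.p (nat_lit 0x3000004000000000000000000000000000000000000000000000000000000000) (nat_lit 0x60000380000f0001c80007b8001ee0001b00006c0000000000000000000000000000000000000000) (nat_lit 11)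
theorem c87162 : QOK q87162 := cut [q83712, q87145, q87153, q84419, q87143, q87155, q84418, q84422, q87159, q87161] ⟨c83712, c87145, c87153, c84419, c87143, c87155, c84418, c84422, c87159, c87161, trivial⟩ (nd (nat_lit 229) (nat_lit 0) (cs (rf (nat_lit 0)) (cs (rf (nat_lit 1)) (cs (nd (nat_lit 232) (nat_lit 0) (cs (nd (nat_lit 254) (nat_lit 0) (cs (lf (nat_lit 18) (nat_lit 229)) (rf (nat_lit 2)))) (cs (nd (nat_lit 231) (nat_lit 0) (cs (rf (nat_lit 3)) (cs (rf (nat_lit 4)) (nd (nat_lit 254) (nat_lit 0) (cs (lf (nat_lit 5) (nat_lit 229)) (rf (nat_lit 5))))))) (cs (nd (nat_lit 231) (nat_lit 0) (cs (rf (nat_lit 6)) (cs (rf (nat_lit 3)) (rf (nat_lit 7))))) (rf (nat_lit 8)))))) (rf (nat_lit 9)))))) q87162 (by decide +kernel)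
def q87243 : Q := Q.p (nat_lit 0x3000004000030000000000000000000000000000000000000000000000000000) (nat_lit 0x300000c000000000fbc001ce00073c000400001000000000000000000000000000000000000) (nat_lit 9)
theorem c87243 : QOK q87243 := cut [q85212, q85220, q87241] ⟨c85212, c85220, c87241, trivial⟩ (nd (nat_lit 231) (nat_lit 0) (cs (rf (nat_lit 0)) (cs (rf (nat_lit 1)) (nd (nat_lit 275) (nat_lit 0) (cs (lf (nat_lit 42) (nat_lit 208)) (rf (nat_lit 2))))))) q87243 (by decide +kernel)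
def q87457 : Q := Q.p (nat_lit 0x3000004000000000000000000000000000000000000000000000000000000000) (nat_lit 0x90000edc001cf000fbc001ec0007e0001f80002800000000000000000000000000000000000) (nat_lit 14)
theorem c87457 : QOK q87457 := cut [q79028, q81409, q87444, q87168, q87170, q87445, q81018, q86766, q86970] ⟨c79028, c81409, c87444, c87168, c87170, c87445, c81018, c86766, c86970, trivial⟩ (nd (nat_lit 254) (nat_lit 0) (cs (rf (nat_lit 0)) (cs (rf (nat_lit 1)) (cs (rf (nat_lit 2)) (nd (nat_lit 233) (nat_lit 0) (cs (rf (nat_lit 3)) (cs (rf (nat_lit 4)) (cs (rf (nat_lit 5)) (nd (nat_lit 232) (nat_lit 0) (cs (lf (nat_lit 12) (nat_lit 229)) (nd (nat_lit 255) (nat_lit 0) (cs (rf (nat_lit 6)) (cs (rf (nat_lit 7)) (nd (nat_lit 231) (nat_lit 0) (cs (lf (nat_lit 18) (nat_lit 230)) (nd (nat_lit 211) (nat_lit 0) (cs (lf (nat_lit 17) (nat_lit 208)) (nd (nat_lit 189) (nat_lit 0) (cs (lf (nat_lit 36) (nat_lit 166)) (nd (nat_lit 168) (nat_lit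 0) (cs (lf (nat_lit 34) (nat_lit 167)) (nd (nat_lit 188) (nat_lit 0) (cs (lf (nat_lit 47) (nat_lit 166)) (nd (nat_lit 210) (nat_lit 0) (cs (lf (nat_lit 41) (nat_lit 187)) (nd (nat_lit 187) (nat_lit 0) (cs (lf (nat_lit 47) (nat_lit 165)) (nd (nat_lit 209) (nat_lit 0) (cs (lf (nat_lit 41) (nat_lit 186)) (rf (nat_lit 8))))))))))))))))))))))))))))))) q87457 (by decide +kernel)
def q87696 : Q := Q.p (nat_lit 0x3000004000000000000000000000000000000000000000000000000000000000) (nat_lit 0x4000010000050001ce0007b8001fe0007f8000fc0000a00000000000000000000000000000000000) (nat_lit 14)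
theorem c87696 : QOK q87696 := cut [q85020, q85030, q87681, q85008, q85011, q87244, q87526, q87680, q10803, q84998, q87683, q83712, q84852, q81488, q84418, q87471, q87009, q84909, q84422, q84444] ⟨c85020, c85030, c87681, c85008, c85011, c87244, c87526, c87680, c10803, c84998, c87683, c83712, c84852, c81488, c84418, c87471, c87009, c84909, c84422, c84444, trivial⟩ (nd (nat_lit 231) (nat_lit 0) (cs (rf (nat_lit 0)) (cs (rf (nat_lit 1)) (cs (rf (nat_lit 2)) (cs (nd (nat_lit 208) (nat_lit 0) (cs (rf (nat_lit 3)) (cs (rf (nat_lit 4)) (cs (rf (nat_lit 5)) (cs (rf (nat_lit 6)) (cs (rf (nat_lit 7)) (nd (nat_lit 209) (nat_lit 0) (cs (rf (nat_lit 8)) (cs (rf (nat_lit 9)) (rf (nat_lit 10))))))))))) (cs (nd (nat_lit 229) (nat_lit 0) (cs (rf (nat_lit 11)) (cs (rf (nat_lit 12)) (nd (nat_lit 254) (nat_lit 0) (cs (rf (nat_lit 13)) (nd (nat_lit 232) (nat_lit 0) (cs (rf (nat_lit 14)) (cs (rf (nat_lit 15)) (nd (nat_lit 210) (nat_lit 0) (cs (lf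 (nat_lit 17) (nat_lit 207)) (nd (nat_lit 188) (nat_lit 0) (cs (lf (nat_lit 36) (nat_lit 165)) (nd (nat_lit 250) (nat_lit 0) (cs (lf (nat_lit 13) (nat_lit 228)) (nd (nat_lit 167) (nat_lit 0) (cs (lf (nat_lit 34) (nat_lit 166)) (nd (nat_lit 187) (nat_lit 0) (cs (lf (nat_lit 47) (nat_lit 165)) (rf (nat_lit 16)))))))))))))))))))) (nd (nat_lit 229) (nat_lit 0) (cs (rf (nat_lit 11)) (cs (rf (nat_lit 17)) (nd (nat_lit 232) (nat_lit 0) (cs (rf (nat_lit 18)) (rf (nat_lit 19))))))))))))) q87696 (by decide +kernel)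
def q87769 : Q := Q.p (nat_lit 0x3000004000000000000000000000000000000000000000000000000000000000) (nat_lit 0x90000edc001cf000fbc001de000fe0007f80007e00000000000000000000000000000000000) (nat_lit 18)
theorem c87769 : QOK q87769 := cut [q25, q79028, q81409, q87444, q87168, q87170, q87445, q81018, q86766, q499, q87731, q84453, q87131, q84417, q84952, q87648, q84418, q84422, q16398, q86978, q79032] ⟨c25, c79028, c81409, c87444, c87168, c87170, c87445, c81018, c86766, c499, c87731, c84453, c87131, c84417, c84952, c87648, c84418, c84422, c16398, c86978, c79032, trivial⟩ (nd (nat_lit 186) (nat_lit 0) (cs (nd (nat_lit 208) (nat_lit 0) (cs (lf (nat_lit 29) (nat_lit 186)) (rf (nat_lit 0)))) (cs (nd (nat_lit 254) (nat_lit 0) (cs (rf (nat_lit 1)) (cs (rf (nat_lit 2)) (cs (rf (nat_lit 3)) (nd (nat_lit 233) (nat_lit 0) (cs (rf (nat_lit 4)) (cs (rf (nat_lit 5)) (cs (rf (nat_lit 6)) (nd (nat_lit 232) (nat_lit 0) (cs (lf (nat_lit 12) (nat_lit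 229)) (nd (nat_lit 255) (nat_lit 0) (cs (rf (nat_lit 7)) (cs (rf (nat_lit 8)) (nd (nat_lit 231) (nat_lit 0) (cs (lf (nat_lit 18) (nat_lit 230)) (nd (nat_lit 211) (nat_lit 0) (cs (lf (nat_lit 17) (nat_lit 208)) (nd (nat_lit 189) (nat_lit 0) (cs (lf (nat_lit 36) (nat_lit 166)) (nd (nat_lit 168) (nat_lit 0) (cs (lf (nat_lit 34) (nat_lit 167)) (nd (nat_lit 188) (nat_lit 0) (cs (lf (nat_lit 47) (nat_lit 166)) (nd (nat_lit 210) (nat_lit 0) (cs (lf (nat_lit 41) (nat_lit 187)) (nd (nat_lit 187) (nat_lit 0) (cs (lf (nat_lit 0) (nat_lit 185)) (lf (nat_lit 47) (nat_lit 165))))))))))))))))))))))))))))) (cs (nd (nat_lit 208) (nat_lit 0) (cs (lf (nat_lit 29) (nat_lit 186)) (rf (nat_lit 9)))) (cs (nd (nat_lit 231) (nat_lit 0) (cs (rf (nat_lit 10)) (cs (nd (nat_lit 232) (nat_lit 0) (cs (rf (nat_lit 11)) (cs (rf (nat_lit 12)) (nd (nat_lit 229) (nat_lit 0) (cs (rf (nat_lit 13)) (cs (rf (nat_lit 14)) (nd (nat_lit 208) (nat_lit 0) (cs (lf (nat_lit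 24) (nat_lit 164)) (nd (nat_lit 250) (nat_lit 0) (cs (lf (nat_lit 13) (nat_lit 228)) (nd (nat_lit 207) (nat_lit 0) (cs (lf (nat_lit 23) (nat_lit 206)) (nd (nat_lit 274) (nat_lit 0) (cs (lf (nat_lit 42) (nat_lit 207)) (nd (nat_lit 254) (nat_lit 0) (cs (lf (nat_lit 18) (nat_lit 229)) (nd (nat_lit 210) (nat_lit 0) (cs (lf (nat_lit 17) (nat_lit 207)) (nd (nat_lit 188) (nat_lit 0) (cs (lf (nat_lit 36) (nat_lit 165)) (nd (nat_lit 187) (nat_lit 0) (cs (lf (nat_lit 35) (nat_lit 164)) (lf (nat_lit 6) (nat_lit 185)))))))))))))))))))))))) (cs (nd (nat_lit 229) (nat_lit 0) (cs (rf (nat_lit 13)) (cs (rf (nat_lit 15)) (nd (nat_lit 232) (nat_lit 0) (cs (rf (nat_lit 16)) (cs (rf (nat_lit 17)) (nd (nat_lit 165) (nat_lit 0) (cs (nd (nat_lit 208) (nat_lit 0) (cs (lf (nat_lit 34) (nat_lit 164)) (lf (nat_lit 24) (nat_lit 164)))) (cs (nd (nat_lit 210) (nat_lit 0) (cs (lf (nat_lit 17) (nat_lit 207)) (nd (nat_lit 188) (nat_lit 0) (cs (lf (nat_lit 36)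 (nat_lit 165)) (nd (nat_lit 254) (nat_lit 0) (cs (lf (nat_lit 18) (nat_lit 229)) (lf (nat_lit 46) (nat_lit 165)))))))) (nd (nat_lit 164) (nat_lit 0) (cs (lf (nat_lit 26) (nat_lit 164)) (nd (nat_lit 254) (nat_lit 0) (cs (lf (nat_lit 18) (nat_lit 229)) (nd (nat_lit 210) (nat_lit 0) (cs (lf (nat_lit 17) (nat_lit 207)) (nd (nat_lit 166) (nat_lit 0) (cs (lf (nat_lit 37) (nat_lit 165)) (nd (nat_lit 167) (nat_lit 0) (cs (lf (nat_lit 11) (nat_lit 163)) (nd (nat_lit 145) (nat_lit 0) (cs (lf (nat_lit 17) (nat_lit 142)) (nd (nat_lit 144) (nat_lit 0) (cs (lf (nat_lit 12) (nat_lit 141)) (nd (nat_lit 141) (nat_lit 0) (cs (lf (nat_lit 22) (nat_lit 141)) (nd (nat_lit 250) (nat_lit 0) (cs (lf (nat_lit 13) (nat_lit 228)) (rf (nat_lit 18))))))))))))))))))))))))))))) (cs (nd (nat_lit 208) (nat_lit 0) (cs (lf (nat_lit 24) (nat_lit 164)) (nd (nat_lit 187) (nat_lit 0) (cs (lf (nat_lit 35) (nat_lit 164)) (nd (nat_lit 185) (nat_lit 0) (cs (lf (nat_lit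 47) (nat_lit 163)) (nd (nat_lit 207) (nat_lit 0) (cs (lf (nat_lit 42) (nat_lit 185)) (nd (nat_lit 188) (nat_lit 0) (cs (lf (nat_lit 6) (nat_lit 185)) (nd (nat_lit 210) (nat_lit 0) (cs (lf (nat_lit 5) (nat_lit 185)) (nd (nat_lit 232) (nat_lit 0) (cs (lf (nat_lit 36) (nat_lit 165)) (lf (nat_lit 18) (nat_lit 207)))))))))))))))) (nd (nat_lit 229) (nat_lit 0) (cs (rf (nat_lit 13)) (nd (nat_lit 232) (nat_lit 0) (cs (rf (nat_lit 16)) (rf (nat_lit 19))))))))))) (nd (nat_lit 208) (nat_lit 0) (cs (lf (nat_lit 29) (nat_lit 186)) (rf (nat_lit 20))))))))) q87769 (by decide +kernel)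
def q87942 : Q := Q.p (nat_lit 0x3000004000000000000000000000000000000000000000000000000000000000) (nat_lit 0x4a001ffc003fe001eff0018f8007bf001ee0001f80007e0001680000000000000000000000000000000000) (nat_lit 16)
theorem c87942 : QOK q87942 := cut [q87815, q87084, q87131, q86855, q11750, q87820, q11781, q87827, q87836, q70300, q87819, q22136, q87848, q12207, q84646, q84648, q84717, q87865, q84808, q87868, q87869, q80169, q84332, q87906, q7464, q87903, q87936, q87813, q87940] ⟨c87815, c87084, c87131, c86855, c11750, c87820, c11781, c87827, c87836, c70300, c87819, c22136, c87848, c12207, c84646, c84648, c84717, c87865, c84808, c87868, c87869, c80169, c84332, c87906, c7464, c87903, c87936, c87813, c87940, trivial⟩ (nd (nat_lit 231) (nat_lit 0) (cs (rf (nat_lit 0)) (cs (nd (nat_lit 296) (nat_lit 0) (cs (rf (nat_lit 1)) (cs (nd (nat_lit 232) (nat_lit 0) (cs (rf (nat_lit 2)) (cs (nd (nat_lit 297) (nat_lit 0) (cs (nd (nat_lit 295) (nat_lit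 0) (cs (nd (nat_lit 251) (nat_lit 0) (cs (lf (nat_lit 12) (nat_lit 228)) (nd (nat_lit 273) (nat_lit 0) (cs (lf (nat_lit 30) (nat_lit 229)) (rf (nat_lit 3)))))) (cs (nd (nat_lit 294) (nat_lit 0) (cs (rf (nat_lit 4)) (cs (rf (nat_lit 5)) (nd (nat_lit 320) (nat_lit 0) (cs (lf (nat_lit 4) (nat_lit 294)) (nd (nat_lit 250) (nat_lit 0) (cs (lf (nat_lit 13) (nat_lit 228)) (nd (nat_lit 298) (nat_lit 0) (cs (rf (nat_lit 6)) (lf (nat_lit 5) (nat_lit 295))))))))))) (cs (nd (nat_lit 251) (nat_lit 0) (cs (lf (nat_lit 12) (nat_lit 228)) (nd (nat_lit 317) (nat_lit 0) (cs (nd (nat_lit 298) (nat_lit 0) (cs (lf (nat_lit 11) (nat_lit 294)) (nd (nat_lit 320) (nat_lit 0) (cs (lf (nat_lit 5) (nat_lit 295)) (nd (nat_lit 299) (nat_lit 0) (cs (lf (nat_lit 10) (nat_lit 295)) (rf (nat_lit 7)))))))) (lf (nat_lit 32) (nat_lit 229)))))) (cs (nd (nat_lit 294) (nat_lit 0) (cs (rf (nat_lit 4)) (cs (rf (nat_lit 5)) (cs (nd (nat_lit 250) (nat_lit 0) (cs (lf (nat_lit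 13) (nat_lit 228)) (rf (nat_lit 8)))) (nd (nat_lit 316) (nat_lit 0) (cs (lf (nat_lit 11) (nat_lit 293)) (nd (nat_lit 319) (nat_lit 0) (cs (lf (nat_lit 5) (nat_lit 294)) (nd (nat_lit 272) (nat_lit 0) (cs (lf (nat_lit 23) (nat_lit 271)) (nd (nat_lit 250) (nat_lit 0) (cs (lf (nat_lit 13) (nat_lit 228)) (rf (nat_lit 9)))))))))))))) (nd (nat_lit 294) (nat_lit 0) (cs (rf (nat_lit 4)) (cs (rf (nat_lit 10)) (cs (rf (nat_lit 8)) (nd (nat_lit 271) (nat_lit 0) (cs (lf (nat_lit 22) (nat_lit 271)) (nd (nat_lit 320) (nat_lit 0) (cs (lf (nat_lit 4) (nat_lit 294)) (nd (nat_lit 298) (nat_lit 0) (cs (lf (nat_lit 5) (nat_lit 295)) (rf (nat_lit 11))))))))))))))))) (cs (rf (nat_lit 12)) (nd (nat_lit 275) (nat_lit 0) (cs (lf (nat_lit 42) (nat_lit 230)) (lf (nat_lit 35) (nat_lit 209))))))) (nd (nat_lit 210) (nat_lit 0) (cs (rf (nat_lit 13)) (cs (nd (nat_lit 297) (nat_lit 0) (cs (rf (nat_lit 14)) (cs (rf (nat_lit 15)) (nd (nat_lit 233) (nat_lit 0)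 (cs (lf (nat_lit 6) (nat_lit 230)) (nd (nat_lit 299) (nat_lit 0) (cs (rf (nat_lit 16)) (nd (nat_lit 255) (nat_lit 0) (cs (lf (nat_lit 5) (nat_lit 230)) (lf (nat_lit 43) (nat_lit 210))))))))))) (nd (nat_lit 233) (nat_lit 0) (cs (lf (nat_lit 6) (nat_lit 230)) (nd (nat_lit 255) (nat_lit 0) (cs (lf (nat_lit 5) (nat_lit 230)) (nd (nat_lit 277) (nat_lit 0) (cs (lf (nat_lit 42) (nat_lit 210)) (nd (nat_lit 211) (nat_lit 0) (cs (lf (nat_lit 17) (nat_lit 208)) (lf (nat_lit 47) (nat_lit 188)))))))))))))))) (cs (nd (nat_lit 209) (nat_lit 0) (cs (lf (nat_lit 31) (nat_lit 208)) (rf (nat_lit 17)))) (nd (nat_lit 297) (nat_lit 0) (cs (rf (nat_lit 18)) (cs (rf (nat_lit 19)) (cs (rf (nat_lit 20)) (nd (nat_lit 274) (nat_lit 0) (cs (lf (nat_lit 30) (nat_lit 230)) (lf (nat_lit 29) (nat_lit 230)))))))))))) (cs (nd (nat_lit 209) (nat_lit 0) (cs (rf (nat_lit 21)) (cs (rf (nat_lit 22)) (rf (nat_lit 23))))) (cs (nd (nat_lit 209) (nat_lit 0) (cs (rf (nat_lit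 21)) (cs (rf (nat_lit 22)) (nd (nat_lit 210) (nat_lit 0) (cs (rf (nat_lit 24)) (cs (nd (nat_lit 296) (nat_lit 0) (cs (lf (nat_lit 31) (nat_lit 208)) (rf (nat_lit 25)))) (nd (nat_lit 274) (nat_lit 0) (cs (lf (nat_lit 30) (nat_lit 208)) (nd (nat_lit 211) (nat_lit 0) (cs (lf (nat_lit 6) (nat_lit 208)) (nd (nat_lit 232) (nat_lit 0) (cs (lf (nat_lit 12) (nat_lit 207)) (rf (nat_lit 2)))))))))))))) (cs (rf (nat_lit 26)) (nd (nat_lit 209) (nat_lit 0) (cs (rf (nat_lit 21)) (cs (rf (nat_lit 27)) (rf (nat_lit 28))))))))))) q87942 (by decide +kernel)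
def q88010 : Q := Q.p (nat_lit 0x3000004000000000000000000000000000000000000000000000000000000000) (nat_lit 0xa0001f8001fe0002ff0018f8007bf001fe0007b80006e0001280000000000000000000000000000000000) (nat_lit 16)
theorem c88010 : QOK q88010 := cut [q87815, q87936, q79097, q82289, q85470, q87979, q86527, q87994, q88001, q80169, q85459, q87906, q57663, q87131, q12207, q86979, q85473, q87813] ⟨c87815, c87936, c79097, c82289, c85470, c87979, c86527, c87994, c88001, c80169, c85459, c87906, c57663, c87131, c12207, c86979, c85473, c87813, trivial⟩ (nd (nat_lit 231) (nat_lit 0) (cs (rf (nat_lit 0)) (cs (rf (nat_lit 1)) (cs (nd (nat_lit 274) (nat_lit 0) (cs (rf (nat_lit 2)) (cs (rf (nat_lit 3)) (nd (nat_lit 275) (nat_lit 0) (cs (rf (nat_lit 4)) (cs (nd (nat_lit 273) (nat_lit 0) (cs (rf (nat_lit 5)) (cs (nd (nat_lit 272) (nat_lit 0) (cs (lf (nat_lit 12) (nat_lit 249)) (nd (nat_lit 293) (nat_lit 0) (cs (lf (nat_lit 10) (nat_lit 271)) (nd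 (nat_lit 250) (nat_lit 0) (cs (lf (nat_lit 23) (nat_lit 249)) (nd (nat_lit 251) (nat_lit 0) (cs (lf (nat_lit 17) (nat_lit 228)) (nd (nat_lit 187) (nat_lit 0) (cs (lf (nat_lit 37) (nat_lit 186)) (nd (nat_lit 228) (nat_lit 0) (cs (lf (nat_lit 23) (nat_lit 227)) (nd (nat_lit 206) (nat_lit 0) (cs (lf (nat_lit 24) (nat_lit 184)) (nd (nat_lit 207) (nat_lit 0) (cs (lf (nat_lit 35) (nat_lit 184)) (nd (nat_lit 205) (nat_lit 0) (cs (lf (nat_lit 47) (nat_lit 183)) (lf (nat_lit 3) (nat_lit 205)))))))))))))))))))) (cs (nd (nat_lit 272) (nat_lit 0) (cs (lf (nat_lit 12) (nat_lit 249)) (nd (nat_lit 187) (nat_lit 0) (cs (lf (nat_lit 37) (nat_lit 186)) (nd (nat_lit 293) (nat_lit 0) (cs (lf (nat_lit 10) (nat_lit 271)) (nd (nat_lit 250) (nat_lit 0) (cs (lf (nat_lit 23) (nat_lit 249)) (rf (nat_lit 6)))))))))) (nd (nat_lit 271) (nat_lit 0) (cs (lf (nat_lit 13) (nat_lit 249)) (nd (nat_lit 208) (nat_lit 0) (cs (lf (nat_lit 41) (nat_lit 207)) (rf (nat_lit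 7)))))))))) (nd (nat_lit 187) (nat_lit 0) (cs (lf (nat_lit 37) (nat_lit 186)) (nd (nat_lit 297) (nat_lit 0) (cs (lf (nat_lit 42) (nat_lit 230)) (rf (nat_lit 8)))))))))))) (cs (nd (nat_lit 209) (nat_lit 0) (cs (rf (nat_lit 9)) (cs (rf (nat_lit 10)) (rf (nat_lit 11))))) (cs (nd (nat_lit 232) (nat_lit 0) (cs (rf (nat_lit 12)) (cs (rf (nat_lit 13)) (nd (nat_lit 210) (nat_lit 0) (cs (rf (nat_lit 14)) (rf (nat_lit 15))))))) (nd (nat_lit 209) (nat_lit 0) (cs (rf (nat_lit 9)) (cs (rf (nat_lit 16)) (rf (nat_lit 17))))))))))) q88010 (by decide +kernel)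
def q88188 : Q := Q.p (nat_lit 0x3000004000000000000000000000000000000000000000000000000000000000) (nat_lit 0xa0000f80007f0002780018e0007b8001fe0007f80007e0000a00000000000000000000000000000000000) (nat_lit 14)
theorem c88188 : QOK q88188 := cut [q85063, q87681, q57663, q87131, q84952, q86978, q87908, q87974, q79097, q85031, q83958, q84624, q88133, q88136, q88151, q85044, q86536, q87882, q88152, q88155, q88156, q88159, q88162, q84852, q87922, q426, q88167, q82378, q85011, q88172, q11005, q10803, q756, q1178, q87531, q87925, q108] ⟨c85063, c87681, c57663, c87131, c84952, c86978, c87908, c87974, c79097, c85031, c83958, c84624, c88133, c88136, c88151, c85044, c86536, c87882, c88152, c88155, c88156, c88159, c88162, c84852, c87922, c426, c88167, c82378, c85011, c88172, c11005, c10803, c756, c1178, c87531, c87925, c108, trivial⟩ (nd (nat_lit 231) (nat_lit 0) (cs (rf (nat_lit 0)) (cs (rf (nat_lit 1)) (cs (nd (nat_lit 232) (nat_lit 0)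 (cs (rf (nat_lit 2)) (cs (rf (nat_lit 3)) (nd (nat_lit 229) (nat_lit 0) (cs (rf (nat_lit 4)) (cs (rf (nat_lit 5)) (rf (nat_lit 6)))))))) (cs (rf (nat_lit 7)) (cs (nd (nat_lit 274) (nat_lit 0) (cs (rf (nat_lit 8)) (cs (rf (nat_lit 9)) (nd (nat_lit 208) (nat_lit 0) (cs (rf (nat_lit 10)) (cs (rf (nat_lit 11)) (rf (nat_lit 12)))))))) (cs (nd (nat_lit 228) (nat_lit 0) (cs (rf (nat_lit 13)) (cs (rf (nat_lit 14)) (cs (nd (nat_lit 274) (nat_lit 0) (cs (rf (nat_lit 8)) (cs (rf (nat_lit 15)) (nd (nat_lit 250) (nat_lit 0) (cs (rf (nat_lit 16)) (cs (nd (nat_lit 272) (nat_lit 0) (cs (rf (nat_lit 17)) (cs (rf (nat_lit 18)) (cs (rf (nat_lit 19)) (nd (nat_lit 187) (nat_lit 0) (cs (lf (nat_lit 37) (nat_lit 186)) (rf (nat_lit 20)))))))) (rf (nat_lit 21)))))))) (rf (nat_lit 22)))))) (cs (nd (nat_lit 229) (nat_lit 0) (cs (rf (nat_lit 23)) (cs (rf (nat_lit 24)) (nd (nat_lit 251) (nat_lit 0) (cs (rf (nat_lit 25)) (cs (rf (nat_lit 26)) (nd (nat_lit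 208) (nat_lit 0) (cs (rf (nat_lit 27)) (cs (rf (nat_lit 28)) (rf (nat_lit 29))))))))))) (nd (nat_lit 208) (nat_lit 0) (cs (rf (nat_lit 30)) (cs (rf (nat_lit 28)) (nd (nat_lit 209) (nat_lit 0) (cs (rf (nat_lit 31)) (cs (nd (nat_lit 187) (nat_lit 0) (cs (lf (nat_lit 36) (nat_lit 164)) (nd (nat_lit 188) (nat_lit 0) (cs (lf (nat_lit 35) (nat_lit 165)) (nd (nat_lit 189) (nat_lit 0) (cs (lf (nat_lit 6) (nat_lit 186)) (nd (nat_lit 210) (nat_lit 0) (cs (lf (nat_lit 12) (nat_lit 185)) (rf (nat_lit 32)))))))))) (nd (nat_lit 229) (nat_lit 0) (cs (rf (nat_lit 33)) (cs (rf (nat_lit 34)) (cs (rf (nat_lit 35)) (nd (nat_lit 274) (nat_lit 0) (cs (lf (nat_lit 30) (nat_lit 208)) (nd (nat_lit 273) (nat_lit 0) (cs (lf (nat_lit 41) (nat_lit 207)) (nd (nat_lit 271) (nat_lit 0) (cs (lf (nat_lit 13) (nat_lit 249)) (nd (nat_lit 207) (nat_lit 0) (cs (lf (nat_lit 47) (nat_lit 185)) (nd (nat_lit 210) (nat_lit 0) (cs (rf (nat_lit 36)) (lf (nat_lit 6) (nat_lit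 207)))))))))))))))))))))))))))))) q88188 (by decide +kernel)
def q88198 : Q := Q.p (nat_lit 0x3000004000010000000000000000000000000000000000000000000000000000) (nat_lit 0xe0000380000600000e0007b8001ee0000c0000300000800000000000000000000000000000000000) (nat_lit 15)
theorem c88198 : QOK q88198 := cut [q79031, q79034, q87246, q88192] ⟨c79031, c79034, c87246, c88192, trivial⟩ (nd (nat_lit 187) (nat_lit 0) (cs (rf (nat_lit 0)) (cs (rf (nat_lit 1)) (cs (rf (nat_lit 2)) (nd (nat_lit 274) (nat_lit 0) (cs (lf (nat_lit 34) (nat_lit 186)) (nd (nat_lit 295) (nat_lit 0) (cs (lf (nat_lit 40) (nat_lit 207)) (nd (nat_lit 296) (nat_lit 0) (cs (lf (nat_lit 41) (nat_lit 229)) (nd (nat_lit 231) (nat_lit 0) (cs (lf (nat_lit 30) (nat_lit 230)) (nd (nat_lit 164) (nat_lit 0) (cs (lf (nat_lit 25) (nat_lit 164)) (rf (nat_lit 3)))))))))))))))) q88198 (by decide +kernel)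
def q88210 : Q := Q.p (nat_lit 0x3000000000000000000000000000000000000000000000000000000000000000) (nat_lit 0xa0000fc0007fc001ff000efe007cf801ffe0007c0001b00000c0000000000000000000000000000000000000000) (nat_lit 13)
theorem c88210 : QOK q88210 := cut [q86768, q86769, q86786, q86789, q79013, q81085, q81729, q86699, q86703, q86710, q85433, q83707, q86720, q86723, q79028, q80985, q4419, q83728, q87479] ⟨c86768, c86769, c86786, c86789, c79013, c81085, c81729, c86699, c86703, c86710, c85433, c83707, c86720, c86723, c79028, c80985, c4419, c83728, c87479, trivial⟩ (nd (nat_lit 254) (nat_lit 0) (cs (rf (nat_lit 0)) (cs (rf (nat_lit 1)) (cs (rf (nat_lit 2)) (cs (rf (nat_lit 3)) (cs (nd (nat_lit 251) (nat_lit 0) (cs (rf (nat_lit 4)) (cs (rf (nat_lit 5)) (cs (rf (nat_lit 6)) (nd (nat_lit 229) (nat_lit 0) (cs (lf (nat_lit 23) (nat_lit 228)) (nd (nat_lit 296) (nat_lit 0) (cs (rf (nat_lit 7)) (cs (rf (nat_lit 8)) (cs (rf (nat_lit 9)) (nd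 (nat_lit 232) (nat_lit 0) (cs (lf (nat_lit 17) (nat_lit 229)) (nd (nat_lit 273) (nat_lit 0) (cs (lf (nat_lit 11) (nat_lit 250)) (nd (nat_lit 207) (nat_lit 0) (cs (lf (nat_lit 28) (nat_lit 207)) (rf (nat_lit 10)))))))))))))))))) (nd (nat_lit 274) (nat_lit 0) (cs (rf (nat_lit 11)) (cs (rf (nat_lit 12)) (cs (rf (nat_lit 13)) (nd (nat_lit 230) (nat_lit 0) (cs (rf (nat_lit 14)) (cs (rf (nat_lit 15)) (nd (nat_lit 296) (nat_lit 0) (cs (rf (nat_lit 16)) (cs (rf (nat_lit 17)) (rf (nat_lit 18)))))))))))))))))) q88210 (by decide +kernel)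
def q88276 : Q := Q.p (nat_lit 0x3000000000000000000000000000000000000000000000000000000000000000) (nat_lit 0x1c000070002ac000efe007cf001ffc007fe000ffc003fc000ba00000000000000000000000000000000000) (nat_lit 17)
theorem c88276 : QOK q88276 := cut [q86768, q86769, q86789, q79013, q81085, q81729, q15359, q5313, q88273, q88275] ⟨c86768, c86769, c86789, c79013, c81085, c81729, c15359, c5313, c88273, c88275, trivial⟩ (nd (nat_lit 254) (nat_lit 0) (cs (rf (nat_lit 0)) (cs (rf (nat_lit 1)) (cs (rf (nat_lit 2)) (cs (nd (nat_lit 251) (nat_lit 0) (cs (rf (nat_lit 3)) (cs (rf (nat_lit 4)) (cs (rf (nat_lit 5)) (nd (nat_lit 273) (nat_lit 0) (cs (lf (nat_lit 11) (nat_lit 250)) (nd (nat_lit 208) (nat_lit 0) (cs (nd (nat_lit 230) (nat_lit 0) (cs (lf (nat_lit 36) (nat_lit 185)) (rf (nat_lit 6)))) (cs (nd (nat_lit 229) (nat_lit 0) (cs (lf (nat_lit 23) (nat_lit 228)) (nd (nat_lit 232) (nat_lit 0) (cs (lf (nat_lit 17) (nat_lit 229)) (nd (nat_lit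 207) (nat_lit 0) (cs (lf (nat_lit 35) (nat_lit 185)) (nd (nat_lit 185) (nat_lit 0) (cs (lf (nat_lit 29) (nat_lit 185)) (rf (nat_lit 7)))))))))) (cs (nd (nat_lit 232) (nat_lit 0) (cs (lf (nat_lit 17) (nat_lit 229)) (nd (nat_lit 229) (nat_lit 0) (cs (lf (nat_lit 23) (nat_lit 228)) (nd (nat_lit 295) (nat_lit 0) (cs (lf (nat_lit 34) (nat_lit 207)) (nd (nat_lit 316) (nat_lit 0) (cs (lf (nat_lit 40) (nat_lit 228)) (nd (nat_lit 317) (nat_lit 0) (cs (lf (nat_lit 41) (nat_lit 250)) (nd (nat_lit 318) (nat_lit 0) (cs (lf (nat_lit 29) (nat_lit 251)) (nd (nat_lit 274) (nat_lit 0) (cs (lf (nat_lit 30) (nat_lit 251)) (nd (nat_lit 207) (nat_lit 0) (cs (lf (nat_lit 24) (nat_lit 185)) (nd (nat_lit 206) (nat_lit 0) (cs (lf (nat_lit 47) (nat_lit 184)) (nd (nat_lit 209) (nat_lit 0) (cs (lf (nat_lit 4) (nat_lit 206)) (nd (nat_lit 188) (nat_lit 0) (cs (lf (nat_lit 16) (nat_lit 184)) (nd (nat_lit 210) (nat_lit 0) (cs (lf (nat_lit 17) (nat_lit 185))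 (lf (nat_lit 41) (nat_lit 187)))))))))))))))))))))))))) (nd (nat_lit 186) (nat_lit 0) (cs (lf (nat_lit 38) (nat_lit 185)) (nd (nat_lit 229) (nat_lit 0) (cs (lf (nat_lit 33) (nat_lit 185)) (lf (nat_lit 23) (nat_lit 228)))))))))))))))) (cs (rf (nat_lit 8)) (rf (nat_lit 9)))))))) q88276 (by decide +kernel)
def q88299 : Q := Q.p (nat_lit 0x3000000000000000000000000000000000000000000000000000000000000000) (nat_lit 0x80000e0000fe0007fc001ff000efe001cf000ff0001fc0003f0000f80000800000000000000000000000000000000000) (nat_lit 15)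
theorem c88299 : QOK q88299 := cut [q83695, q83705, q83707, q83710, q80246, q83972, q83980, q83933, q84168, q83934, q84171, q86601, q86667, q86697, q83915, q86310, q88281, q79013, q87304, q83696, q88294, q81014, q84215, q84221, q88290, q83838, q87372, q83832, q83936, q84226] ⟨c83695, c83705, c83707, c83710, c80246, c83972, c83980, c83933, c84168, c83934, c84171, c86601, c86667, c86697, c83915, c86310, c88281, c79013, c87304, c83696, c88294, c81014, c84215, c84221, c88290, c83838, c87372, c83832, c83936, c84226, trivial⟩ (nd (nat_lit 274) (nat_lit 0) (cs (nd (nat_lit 254) (nat_lit 0) (cs (rf (nat_lit 0)) (cs (rf (nat_lit 1)) (cs (rf (nat_lit 2)) (cs (rf (nat_lit 3)) (nd (nat_lit 251) (nat_lit 0) (cs (nd (nat_lit 229) (nat_lit 0) (cs (lf (nat_lit 23) (nat_lit 228)) (nd (nat_lit 232) (nat_lit 0) (cs (lf (nat_lit 17) (nat_lit 229)) (rf (nat_lit 4)))))) (cs (rf (nat_lit 5)) (cs (rf (nat_lit 6)) (nd (nat_lit 297) (nat_lit 0) (cs (nd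 (nat_lit 232) (nat_lit 0) (cs (lf (nat_lit 17) (nat_lit 229)) (nd (nat_lit 319) (nat_lit 0) (cs (lf (nat_lit 32) (nat_lit 231)) (nd (nat_lit 296) (nat_lit 0) (cs (lf (nat_lit 24) (nat_lit 230)) (rf (nat_lit 7)))))))) (cs (rf (nat_lit 8)) (nd (nat_lit 296) (nat_lit 0) (cs (rf (nat_lit 9)) (cs (nd (nat_lit 232) (nat_lit 0) (cs (lf (nat_lit 17) (nat_lit 229)) (nd (nat_lit 272) (nat_lit 0) (cs (lf (nat_lit 10) (nat_lit 250)) (nd (nat_lit 271) (nat_lit 0) (cs (lf (nat_lit 9) (nat_lit 249)) (nd (nat_lit 295) (nat_lit 0) (cs (lf (nat_lit 21) (nat_lit 271)) (rf (nat_lit 10)))))))))) (cs (nd (nat_lit 232) (nat_lit 0) (cs (lf (nat_lit 17) (nat_lit 229)) (nd (nat_lit 273) (nat_lit 0) (cs (lf (nat_lit 11) (nat_lit 250)) (nd (nat_lit 298) (nat_lit 0) (cs (lf (nat_lit 18) (nat_lit 273)) (nd (nat_lit 318) (nat_lit 0) (cs (lf (nat_lit 42) (nat_lit 251)) (nd (nat_lit 317) (nat_lit 0) (cs (lf (nat_lit 41) (nat_lit 251)) (nd (nat_lit 319) (nat_lit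 0) (cs (lf (nat_lit 12) (nat_lit 294)) (lf (nat_lit 29) (nat_lit 252)))))))))))))) (nd (nat_lit 230) (nat_lit 0) (cs (lf (nat_lit 29) (nat_lit 230)) (nd (nat_lit 295) (nat_lit 0) (cs (lf (nat_lit 41) (nat_lit 229)) (nd (nat_lit 273) (nat_lit 0) (cs (lf (nat_lit 11) (nat_lit 250)) (lf (nat_lit 36) (nat_lit 207)))))))))))))))))))))))) (cs (rf (nat_lit 11)) (cs (rf (nat_lit 12)) (cs (rf (nat_lit 13)) (cs (nd (nat_lit 296) (nat_lit 0) (cs (rf (nat_lit 14)) (cs (rf (nat_lit 15)) (rf (nat_lit 16))))) (cs (nd (nat_lit 254) (nat_lit 0) (cs (rf (nat_lit 0)) (cs (rf (nat_lit 1)) (cs (rf (nat_lit 2)) (cs (rf (nat_lit 3)) (nd (nat_lit 251) (nat_lit 0) (cs (rf (nat_lit 17)) (cs (rf (nat_lit 5)) (cs (rf (nat_lit 8)) (cs (rf (nat_lit 18)) (nd (nat_lit 228) (nat_lit 0) (cs (lf (nat_lit 22) (nat_lit 228)) (nd (nat_lit 232) (nat_lit 0) (cs (lf (nat_lit 17) (nat_lit 229)) (nd (nat_lit 250) (nat_lit 0) (cs (lf (nat_lit 16) (nat_lit 228)) (rf (nat_lit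 19)))))))))))))))))) (cs (rf (nat_lit 20)) (cs (nd (nat_lit 296) (nat_lit 0) (cs (rf (nat_lit 21)) (cs (rf (nat_lit 22)) (cs (rf (nat_lit 15)) (nd (nat_lit 230) (nat_lit 0) (cs (rf (nat_lit 23)) (rf (nat_lit 24)))))))) (cs (nd (nat_lit 296) (nat_lit 0) (cs (rf (nat_lit 21)) (cs (rf (nat_lit 25)) (cs (rf (nat_lit 26)) (rf (nat_lit 16)))))) (nd (nat_lit 296) (nat_lit 0) (cs (rf (nat_lit 27)) (cs (rf (nat_lit 14)) (cs (rf (nat_lit 28)) (cs (rf (nat_lit 29)) (rf (nat_lit 26))))))))))))))))) q88299 (by decide +kernel)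
def q88616 : Q := Q.p (nat_lit 0x3000000000000000000000000000000000000000000000000000000000000000) (nat_lit 0x80000380000e8000ff0007fc001ff000efe000cf8000fe000ff8003fe001ff8000380000e00000800000000000000000000000) (nat_lit 19)
theorem c88616 : QOK q88616 := cut [q84164, q87377, q87385, q88294, q88431, q83829, q86569, q80649, q83915, q85674, q88351, q88470, q15803, q88476, q88480, q88482, q88483, q17424, q88381, q88440, q56123, q86340, q86344, q25776, q45087, q45203, q48669, q22951, q22937, q42098, q83821, q84072, q88512, q88608, q81014, q83936, q88609, q84226, q84291, q87386, q83832, q83839, q84073, q84104, q84151, q86011, q86596, q86649] ⟨c84164, c87377, c87385, c88294, c88431, c83829, c86569, c80649, c83915, c85674, c88351, c88470, c15803, c88476, c88480, c88482, c88483, c17424, c88381, c88440, c56123, c86340, c86344, c25776, c45087, c45203, c48669, c22951, c22937, c42098, c83821, c84072, c88512, c88608, c81014, c83936, c88609,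 c84226, c84291, c87386, c83832, c83839, c84073, c84104, c84151, c86011, c86596, c86649, trivial⟩ (nd (nat_lit 274) (nat_lit 0) (cs (rf (nat_lit 0)) (cs (rf (nat_lit 1)) (cs (rf (nat_lit 2)) (cs (rf (nat_lit 3)) (cs (rf (nat_lit 4)) (cs (nd (nat_lit 272) (nat_lit 0) (cs (rf (nat_lit 5)) (cs (rf (nat_lit 6)) (cs (nd (nat_lit 296) (nat_lit 0) (cs (rf (nat_lit 7)) (cs (rf (nat_lit 8)) (cs (nd (nat_lit 250) (nat_lit 0) (cs (rf (nat_lit 9)) (cs (rf (nat_lit 10)) (cs (rf (nat_lit 11)) (cs (nd (nat_lit 294) (nat_lit 0) (cs (nd (nat_lit 251) (nat_lit 0) (cs (lf (nat_lit 11) (nat_lit 249)) (nd (nat_lit 249) (nat_lit 0) (cs (rf (nat_lit 12)) (lf (nat_lit 5) (nat_lit 249)))))) (cs (nd (nat_lit 316) (nat_lit 0) (cs (rf (nat_lit 13)) (cs (nd (nat_lit 249) (nat_lit 0) (cs (lf (nat_lit 47) (nat_lit 227)) (nd (nat_lit 251) (nat_lit 0) (cs (lf (nat_lit 35) (nat_lit 228)) (lf (nat_lit 5) (nat_lit 249)))))) (rf (nat_lit 14))))) (cs (rf (nat_lit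 15)) (rf (nat_lit 16)))))) (cs (nd (nat_lit 294) (nat_lit 0) (cs (rf (nat_lit 16)) (cs (nd (nat_lit 228) (nat_lit 0) (cs (rf (nat_lit 17)) (cs (rf (nat_lit 18)) (rf (nat_lit 19))))) (cs (nd (nat_lit 316) (nat_lit 0) (cs (rf (nat_lit 20)) (cs (rf (nat_lit 21)) (cs (rf (nat_lit 22)) (rf (nat_lit 14)))))) (cs (nd (nat_lit 228) (nat_lit 0) (cs (rf (nat_lit 23)) (cs (rf (nat_lit 24)) (rf (nat_lit 19))))) (nd (nat_lit 228) (nat_lit 0) (cs (rf (nat_lit 23)) (cs (nd (nat_lit 295) (nat_lit 0) (cs (lf (nat_lit 29) (nat_lit 228)) (nd (nat_lit 293) (nat_lit 0) (cs (lf (nat_lit 41) (nat_lit 227)) (lf (nat_lit 17) (nat_lit 271)))))) (rf (nat_lit 19)))))))))) (nd (nat_lit 294) (nat_lit 0) (cs (rf (nat_lit 15)) (cs (nd (nat_lit 293) (nat_lit 0) (cs (rf (nat_lit 25)) (rf (nat_lit 26)))) (cs (nd (nat_lit 316) (nat_lit 0) (cs (rf (nat_lit 27)) (cs (rf (nat_lit 21)) (cs (rf (nat_lit 13)) (nd (nat_lit 229) (nat_lit 0) (cs (lf (nat_lit 34) (nat_lit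 228)) (nd (nat_lit 317) (nat_lit 0) (cs (lf (nat_lit 29) (nat_lit 250)) (nd (nat_lit 228) (nat_lit 0) (cs (lf (nat_lit 35) (nat_lit 206)) (lf (nat_lit 28) (nat_lit 228)))))))))))) (nd (nat_lit 251) (nat_lit 0) (cs (lf (nat_lit 11) (nat_lit 249)) (nd (nat_lit 249) (nat_lit 0) (cs (rf (nat_lit 28)) (lf (nat_lit 5) (nat_lit 249)))))))))))))))) (nd (nat_lit 318) (nat_lit 0) (cs (lf (nat_lit 35) (nat_lit 230)) (nd (nat_lit 229) (nat_lit 0) (cs (lf (nat_lit 46) (nat_lit 229)) (rf (nat_lit 29)))))))))) (cs (nd (nat_lit 273) (nat_lit 0) (cs (rf (nat_lit 30)) (cs (rf (nat_lit 31)) (rf (nat_lit 32))))) (nd (nat_lit 273) (nat_lit 0) (cs (lf (nat_lit 12) (nat_lit 249)) (rf (nat_lit 32))))))))) (cs (rf (nat_lit 33)) (cs (nd (nat_lit 296) (nat_lit 0) (cs (rf (nat_lit 7)) (cs (rf (nat_lit 34)) (cs (rf (nat_lit 35)) (rf (nat_lit 36)))))) (cs (nd (nat_lit 296) (nat_lit 0) (cs (rf (nat_lit 7)) (cs (rf (nat_lit 37)) (rf (nat_lit 36))))) (cs (nd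 (nat_lit 296) (nat_lit 0) (cs (rf (nat_lit 7)) (cs (rf (nat_lit 38)) (rf (nat_lit 39))))) (cs (nd (nat_lit 296) (nat_lit 0) (cs (rf (nat_lit 7)) (cs (rf (nat_lit 34)) (rf (nat_lit 40))))) (nd (nat_lit 296) (nat_lit 0) (cs (rf (nat_lit 34)) (cs (rf (nat_lit 8)) (nd (nat_lit 273) (nat_lit 0) (cs (rf (nat_lit 41)) (cs (rf (nat_lit 42)) (nd (nat_lit 230) (nat_lit 0) (cs (rf (nat_lit 43)) (cs (rf (nat_lit 44)) (cs (rf (nat_lit 45)) (nd (nat_lit 295) (nat_lit 0) (cs (rf (nat_lit 46)) (rf (nat_lit 47)))))))))))))))))))))))))) q88616 (by decide +kernel)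
def q88681 : Q := Q.p (nat_lit 0x3000000000000000000000000000000000000000000000000000000000000000) (nat_lit 0x500001d40007f0001fe000efe007cf001ffc003f00003e0000e00002800000000000000000000000000000000000) (nat_lit 15)
theorem c88681 : QOK q88681 := cut [q86768, q86769, q86789, q88275, q88348, q79013, q81085, q81729, q80583, q82405, q79128, q80582, q79121, q79127, q79159, q79973, q88674] ⟨c86768, c86769, c86789, c88275, c88348, c79013, c81085, c81729, c80583, c82405, c79128, c80582, c79121, c79127, c79159, c79973, c88674, trivial⟩ (nd (nat_lit 254) (nat_lit 0) (cs (rf (nat_lit 0)) (cs (rf (nat_lit 1)) (cs (rf (nat_lit 2)) (cs (rf (nat_lit 3)) (cs (rf (nat_lit 4)) (nd (nat_lit 251) (nat_lit 0) (cs (rf (nat_lit 5)) (cs (rf (nat_lit 6)) (cs (rf (nat_lit 7)) (nd (nat_lit 273) (nat_lit 0) (cs (lf (nat_lit 11) (nat_lit 250)) (nd (nat_lit 295) (nat_lit 0) (cs (rf (nat_lit 8)) (cs (nd (nat_lit 229) (nat_lit 0) (cs (lf (nat_lit 23) (nat_lit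 228)) (rf (nat_lit 9)))) (nd (nat_lit 232) (nat_lit 0) (cs (lf (nat_lit 17) (nat_lit 229)) (nd (nat_lit 210) (nat_lit 0) (cs (rf (nat_lit 10)) (cs (nd (nat_lit 229) (nat_lit 0) (cs (lf (nat_lit 23) (nat_lit 228)) (nd (nat_lit 294) (nat_lit 0) (cs (lf (nat_lit 41) (nat_lit 228)) (nd (nat_lit 296) (nat_lit 0) (cs (lf (nat_lit 29) (nat_lit 229)) (nd (nat_lit 230) (nat_lit 0) (cs (lf (nat_lit 35) (nat_lit 207)) (nd (nat_lit 231) (nat_lit 0) (cs (lf (nat_lit 17) (nat_lit 207)) (nd (nat_lit 274) (nat_lit 0) (cs (lf (nat_lit 35) (nat_lit 208)) (nd (nat_lit 275) (nat_lit 0) (cs (lf (nat_lit 30) (nat_lit 209)) (lf (nat_lit 12) (nat_lit 271)))))))))))))))) (nd (nat_lit 230) (nat_lit 0) (cs (rf (nat_lit 11)) (cs (nd (nat_lit 188) (nat_lit 0) (cs (rf (nat_lit 12)) (cs (rf (nat_lit 13)) (cs (rf (nat_lit 14)) (nd (nat_lit 187) (nat_lit 0) (cs (lf (nat_lit 47) (nat_lit 165)) (nd (nat_lit 229) (nat_lit 0) (cs (lf (nat_lit 23) (nat_lit 228))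 (nd (nat_lit 167) (nat_lit 0) (cs (lf (nat_lit 34) (nat_lit 166)) (nd (nat_lit 211) (nat_lit 0) (cs (rf (nat_lit 15)) (lf (nat_lit 14) (nat_lit 207)))))))))))))) (rf (nat_lit 16))))))))))))))))))))))))) q88681 (by decide +kernel)
def q88921 : Q := Q.p (nat_lit 0x800003000008000020000000000000000000000000000000000000000000000000000) (nat_lit 0x38000078000000001400005e000160000000000000000000000000000000000000000000000) (nat_lit 9)
theorem c88921 : QOK q88921 := cut [q88920] ⟨c88920, trivial⟩ (nd (nat_lit 274) (nat_lit 0) (cs (lf (nat_lit 41) (nat_lit 208)) (rf (nat_lit 0)))) q88921 (by decide +kernel)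
def q89291 : Q := Q.p (nat_lit 0x200000000003000000000000000000000000000000000000000000000000000000000000000) (nat_lit 0x80000fa000ff8007fe003fff007df801f7f000460001f80003a0000a0000000000000000000000000000000000000000000000) (nat_lit 16)
theorem c89291 : QOK q89291 := cut [q89028, q89099, q81014, q83934, q88953, q88954, q89114, q89127, q89276, q88956, q89112, q14318, q89225, q42029, q89030, q28278, q42041, q88960] ⟨c89028, c89099, c81014, c83934, c88953, c88954, c89114, c89127, c89276, c88956, c89112, c14318, c89225, c42029, c89030, c28278, c42041, c88960, trivial⟩ (nd (nat_lit 296) (nat_lit 0) (cs (rf (nat_lit 0)) (cs (rf (nat_lit 1)) (cs (nd (nat_lit 274) (nat_lit 0) (cs (rf (nat_lit 2)) (cs (rf (nat_lit 3)) (cs (rf (nat_lit 4)) (nd (nat_lit 318) (nat_lit 0) (cs (lf (nat_lit 35) (nat_lit 230)) (rf (nat_lit 5)))))))) (cs (rf (nat_lit 6)) (cs (nd (nat_lit 274) (nat_lit 0) (cs (rf (nat_lit 2)) (cs (rf (nat_lit 3)) (cs (rf (nat_lit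 4)) (nd (nat_lit 318) (nat_lit 0) (cs (lf (nat_lit 35) (nat_lit 230)) (rf (nat_lit 7)))))))) (cs (rf (nat_lit 8)) (cs (nd (nat_lit 274) (nat_lit 0) (cs (rf (nat_lit 3)) (cs (rf (nat_lit 9)) (cs (rf (nat_lit 10)) (nd (nat_lit 318) (nat_lit 0) (cs (rf (nat_lit 11)) (cs (rf (nat_lit 5)) (cs (rf (nat_lit 7)) (cs (rf (nat_lit 12)) (nd (nat_lit 298) (nat_lit 0) (cs (rf (nat_lit 13)) (cs (rf (nat_lit 14)) (nd (nat_lit 295) (nat_lit 0) (cs (rf (nat_lit 15)) (cs (rf (nat_lit 16)) (cs (rf (nat_lit 17)) (nd (nat_lit 320) (nat_lit 0) (cs (lf (nat_lit 5) (nat_lit 295)) (nd (nat_lit 316) (nat_lit 0) (cs (lf (nat_lit 10) (nat_lit 294)) (nd (nat_lit 276) (nat_lit 0) (cs (lf (nat_lit 17) (nat_lit 273)) (nd (nat_lit 272) (nat_lit 0) (cs (lf (nat_lit 22) (nat_lit 272)) (nd (nat_lit 341) (nat_lit 0) (cs (lf (nat_lit 28) (nat_lit 252)) (nd (nat_lit 363) (nat_lit 0) (cs (lf (nat_lit 27) (nat_lit 274)) (lf (nat_lit 39) (nat_lit 275))))))))))))))))))))))))))))))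 (nd (nat_lit 274) (nat_lit 0) (cs (rf (nat_lit 2)) (cs (rf (nat_lit 9)) (nd (nat_lit 318) (nat_lit 0) (cs (lf (nat_lit 35) (nat_lit 230)) (rf (nat_lit 12))))))))))))))) q89291 (by decide +kernel)
def q89489 : Q := Q.p (nat_lit 0x200000000003000000000000000000000000000000000000000000000000000000000000000) (nat_lit 0x1e00007a0001f8000f7c003df800fff000460007f8001fe0003e0000f80000000000000000000000000000000000000000) (nat_lit 14)
theorem c89489 : QOK q89489 := cut [q89114, q89351, q89354, q89372, q89387, q89410, q89411, q89419, q21944, q79735, q89353, q89394, q22018, q89423, q84417, q79111, q88337, q89373, q89398, q11706, q89032, q89321, q89440, q89396, q89447, q89455, q87869, q89389, q89390, q89395, q84489, q86624, q89468, q11580, q89397, q89040, q89483, q87940] ⟨c89114, c89351, c89354, c89372, c89387, c89410, c89411, c89419, c21944, c79735, c89353, c89394, c22018, c89423, c84417, c79111, c88337, c89373, c89398, c11706, c89032,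 c89321, c89440, c89396, c89447, c89455, c87869, c89389, c89390, c89395, c84489, c86624, c89468, c11580, c89397, c89040, c89483, c87940, trivial⟩ (nd (nat_lit 296) (nat_lit 0) (cs (rf (nat_lit 0)) (cs (rf (nat_lit 1)) (cs (nd (nat_lit 275) (nat_lit 0) (cs (rf (nat_lit 2)) (cs (rf (nat_lit 3)) (rf (nat_lit 4))))) (cs (nd (nat_lit 275) (nat_lit 0) (cs (rf (nat_lit 3)) (cs (rf (nat_lit 5)) (rf (nat_lit 6))))) (cs (nd (nat_lit 275) (nat_lit 0) (cs (rf (nat_lit 4)) (cs (rf (nat_lit 5)) (cs (rf (nat_lit 7)) (cs (nd (nat_lit 231) (nat_lit 0) (cs (rf (nat_lit 8)) (cs (rf (nat_lit 9)) (cs (rf (nat_lit 10)) (rf (nat_lit 11)))))) (cs (nd (nat_lit 274) (nat_lit 0) (cs (rf (nat_lit 12)) (cs (nd (nat_lit 230) (nat_lit 0) (cs (lf (nat_lit 24) (nat_lit 208)) (nd (nat_lit 207) (nat_lit 0) (cs (lf (nat_lit 46) (nat_lit 207)) (rf (nat_lit 13)))))) (nd (nat_lit 230) (nat_lit 0) (cs (lf (nat_lit 24) (nat_lit 208)) (nd (nat_lit 229) (nat_lit 0) (cs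 (lf (nat_lit 47) (nat_lit 207)) (nd (nat_lit 231) (nat_lit 0) (cs (lf (nat_lit 35) (nat_lit 208)) (rf (nat_lit 14))))))))))) (cs (nd (nat_lit 230) (nat_lit 0) (cs (rf (nat_lit 15)) (cs (rf (nat_lit 16)) (nd (nat_lit 298) (nat_lit 0) (cs (nd (nat_lit 231) (nat_lit 0) (cs (lf (nat_lit 29) (nat_lit 231)) (rf (nat_lit 17)))) (cs (rf (nat_lit 18)) (cs (nd (nat_lit 299) (nat_lit 0) (cs (rf (nat_lit 19)) (cs (rf (nat_lit 20)) (cs (rf (nat_lit 21)) (rf (nat_lit 22)))))) (cs (nd (nat_lit 231) (nat_lit 0) (cs (rf (nat_lit 17)) (cs (rf (nat_lit 23)) (rf (nat_lit 24))))) (nd (nat_lit 231) (nat_lit 0) (cs (lf (nat_lit 29) (nat_lit 231)) (nd (nat_lit 209) (nat_lit 0) (cs (lf (nat_lit 28) (nat_lit 209)) (lf (nat_lit 31) (nat_lit 208)))))))))))))) (nd (nat_lit 274) (nat_lit 0) (cs (rf (nat_lit 12)) (rf (nat_lit 25))))))))))) (cs (nd (nat_lit 231) (nat_lit 0) (cs (rf (nat_lit 26)) (cs (rf (nat_lit 27)) (cs (rf (nat_lit 28)) (nd (nat_lit 230)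 (nat_lit 0) (cs (rf (nat_lit 29)) (cs (rf (nat_lit 23)) (cs (nd (nat_lit 232) (nat_lit 0) (cs (rf (nat_lit 30)) (cs (nd (nat_lit 233) (nat_lit 0) (cs (lf (nat_lit 6) (nat_lit 230)) (nd (nat_lit 211) (nat_lit 0) (cs (lf (nat_lit 17) (nat_lit 208)) (nd (nat_lit 210) (nat_lit 0) (cs (lf (nat_lit 12) (nat_lit 207)) (lf (nat_lit 31) (nat_lit 209)))))))) (cs (nd (nat_lit 233) (nat_lit 0) (cs (lf (nat_lit 6) (nat_lit 230)) (rf (nat_lit 31)))) (rf (nat_lit 32)))))) (nd (nat_lit 209) (nat_lit 0) (cs (lf (nat_lit 31) (nat_lit 208)) (nd (nat_lit 165) (nat_lit 0) (cs (lf (nat_lit 37) (nat_lit 164)) (nd (nat_lit 275) (nat_lit 0) (cs (rf (nat_lit 33)) (lf (nat_lit 47) (nat_lit 208)))))))))))))))) (cs (nd (nat_lit 231) (nat_lit 0) (cs (rf (nat_lit 26)) (cs (rf (nat_lit 27)) (cs (rf (nat_lit 28)) (nd (nat_lit 230) (nat_lit 0) (cs (rf (nat_lit 29)) (cs (rf (nat_lit 34)) (cs (nd (nat_lit 209) (nat_lit 0) (cs (lf (nat_lit 31) (nat_lit 208)) (nd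 (nat_lit 187) (nat_lit 0) (cs (lf (nat_lit 36) (nat_lit 164)) (nd (nat_lit 164) (nat_lit 0) (cs (lf (nat_lit 46) (nat_lit 164)) (nd (nat_lit 166) (nat_lit 0) (cs (lf (nat_lit 34) (nat_lit 165)) (nd (nat_lit 276) (nat_lit 0) (cs (lf (nat_lit 28) (nat_lit 187)) (nd (nat_lit 298) (nat_lit 0) (cs (lf (nat_lit 27) (nat_lit 209)) (rf (nat_lit 35)))))))))))))) (rf (nat_lit 36)))))))))) (nd (nat_lit 231) (nat_lit 0) (cs (rf (nat_lit 26)) (cs (rf (nat_lit 27)) (cs (rf (nat_lit 28)) (nd (nat_lit 230) (nat_lit 0) (cs (rf (nat_lit 29)) (cs (rf (nat_lit 34)) (cs (rf (nat_lit 36)) (nd (nat_lit 209) (nat_lit 0) (cs (lf (nat_lit 31) (nat_lit 208)) (rf (nat_lit 37)))))))))))))))))))) q89489 (by decide +kernel)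
def q89709 : Q := Q.p (nat_lit 0x800003800002000000000000000000000000000000000000000000000000000000000) (nat_lit 0x140003fe0007f0001fe000060000400001400001c0000700001c0000500000000000000000000000000000000000) (nat_lit 14)
theorem c89709 : QOK q89709 := cut [q5482, q11484, q80450, q88933, q89612, q89623, q89525, q11487, q89703, q82220, q89706, q89707] ⟨c5482, c11484, c80450, c88933, c89612, c89623, c89525, c11487, c89703, c82220, c89706, c89707, trivial⟩ (nd (nat_lit 207) (nat_lit 0) (cs (rf (nat_lit 0)) (cs (rf (nat_lit 1)) (cs (rf (nat_lit 2)) (cs (nd (nat_lit 297) (nat_lit 0) (cs (rf (nat_lit 3)) (cs (rf (nat_lit 4)) (cs (rf (nat_lit 5)) (nd (nat_lit 208) (nat_lit 0) (cs (rf (nat_lit 6)) (cs (nd (nat_lit 273) (nat_lit 0) (cs (lf (nat_lit 35) (nat_lit 185)) (nd (nat_lit 184) (nat_lit 0) (cs (lf (nat_lit 46) (nat_lit 184)) (nd (nat_lit 296) (nat_lit 0) (cs (lf (nat_lit 28) (nat_lit 207)) (nd (nat_lit 295) (nat_lit 0) (cs (lf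 (nat_lit 29) (nat_lit 229)) (nd (nat_lit 316) (nat_lit 0) (cs (lf (nat_lit 40) (nat_lit 228)) (nd (nat_lit 317) (nat_lit 0) (cs (lf (nat_lit 41) (nat_lit 250)) (lf (nat_lit 6) (nat_lit 294)))))))))))))) (cs (nd (nat_lit 274) (nat_lit 0) (cs (rf (nat_lit 7)) (lf (nat_lit 25) (nat_lit 208)))) (rf (nat_lit 8)))))))))) (nd (nat_lit 186) (nat_lit 0) (cs (rf (nat_lit 9)) (cs (rf (nat_lit 10)) (rf (nat_lit 11)))))))))) q89709 (by decide +kernel)
def q89991 : Q := Q.p (nat_lit 0x3000000000000000000000000000000000000000000000000000000000000000) (nat_lit 0x1c0003f8000ff00037f0004f8007fe000fe0007fe0007e0001500000000000000000000000000000000000) (nat_lit 19)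
theorem c89991 : QOK q89991 := cut [q89840, q89861, q89871, q89876, q82275, q82278, q89894, q89895, q80583, q86851, q89893, q85426, q89666, q89896, q89908, q88302, q88834, q89928, q89976, q89990] ⟨c89840, c89861, c89871, c89876, c82275, c82278, c89894, c89895, c80583, c86851, c89893, c85426, c89666, c89896, c89908, c88302, c88834, c89928, c89976, c89990, trivial⟩ (nd (nat_lit 251) (nat_lit 0) (cs (rf (nat_lit 0)) (cs (rf (nat_lit 1)) (cs (rf (nat_lit 2)) (cs (rf (nat_lit 3)) (cs (nd (nat_lit 231) (nat_lit 0) (cs (rf (nat_lit 4)) (cs (rf (nat_lit 5)) (cs (nd (nat_lit 273) (nat_lit 0) (cs (rf (nat_lit 6)) (cs (rf (nat_lit 7)) (nd (nat_lit 295) (nat_lit 0) (cs (rf (nat_lit 8)) (cs (rf (nat_lit 9)) (cs (rf (nat_lit 10)) (nd (nat_lit 229) (nat_lit 0) (cs (rf (nat_lit 11)) (cs (rf (nat_lit 12)) (cs (nd (nat_lit 230) (nat_lit 0) (cs (lf (nat_lit 35) (nat_lit 207)) (nd (nat_lit 296) (nat_lit 0) (cs (lf (nat_lit 29) (nat_lit 229)) (nd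 (nat_lit 274) (nat_lit 0) (cs (lf (nat_lit 35) (nat_lit 208)) (nd (nat_lit 271) (nat_lit 0) (cs (lf (nat_lit 13) (nat_lit 249)) (nd (nat_lit 297) (nat_lit 0) (cs (lf (nat_lit 29) (nat_lit 230)) (nd (nat_lit 298) (nat_lit 0) (cs (lf (nat_lit 18) (nat_lit 273)) (nd (nat_lit 320) (nat_lit 0) (cs (lf (nat_lit 5) (nat_lit 295)) (nd (nat_lit 276) (nat_lit 0) (cs (lf (nat_lit 17) (nat_lit 273)) (nd (nat_lit 249) (nat_lit 0) (cs (lf (nat_lit 13) (nat_lit 227)) (rf (nat_lit 13)))))))))))))))))))) (rf (nat_lit 14))))))))))))) (nd (nat_lit 273) (nat_lit 0) (cs (rf (nat_lit 15)) (cs (rf (nat_lit 16)) (cs (rf (nat_lit 6)) (nd (nat_lit 295) (nat_lit 0) (cs (rf (nat_lit 8)) (cs (rf (nat_lit 9)) (cs (rf (nat_lit 10)) (nd (nat_lit 229) (nat_lit 0) (cs (rf (nat_lit 11)) (cs (rf (nat_lit 12)) (cs (rf (nat_lit 14)) (nd (nat_lit 230) (nat_lit 0) (cs (lf (nat_lit 35) (nat_lit 207)) (nd (nat_lit 296) (nat_lit 0) (cs (lf (nat_lit 29) (nat_lit 229))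 (nd (nat_lit 274) (nat_lit 0) (cs (lf (nat_lit 35) (nat_lit 208)) (nd (nat_lit 271) (nat_lit 0) (cs (lf (nat_lit 13) (nat_lit 249)) (nd (nat_lit 297) (nat_lit 0) (cs (lf (nat_lit 29) (nat_lit 230)) (nd (nat_lit 298) (nat_lit 0) (cs (lf (nat_lit 18) (nat_lit 273)) (nd (nat_lit 320) (nat_lit 0) (cs (lf (nat_lit 5) (nat_lit 295)) (nd (nat_lit 276) (nat_lit 0) (cs (lf (nat_lit 17) (nat_lit 273)) (nd (nat_lit 232) (nat_lit 0) (cs (lf (nat_lit 6) (nat_lit 229)) (nd (nat_lit 210) (nat_lit 0) (cs (lf (nat_lit 17) (nat_lit 207)) (nd (nat_lit 166) (nat_lit 0) (cs (lf (nat_lit 37) (nat_lit 165)) (rf (nat_lit 13)))))))))))))))))))))))))))))))))))))))) (cs (rf (nat_lit 17)) (cs (rf (nat_lit 18)) (rf (nat_lit 19)))))))))) q89991 (by decide +kernel)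
def q90149 : Q := Q.p (nat_lit 0x3000000000000000000000000000000000000000000000000000000000000000) (nat_lit 0x40000580001f0000ff000ffe003ff8007ff0004f0003bc000ff0003f8000de0002000000000000000000000000000000000000) (nat_lit 16)
theorem c90149 : QOK q90149 := cut [q89827, q89928, q88302, q79123, q89993, q89999, q90000, q82584, q80585, q89658, q90014, q56399, q80587, q82588, q82591, q82632, q82585, q90020, q90032, q90136, q90144, q3764, q89927] ⟨c89827, c89928, c88302, c79123, c89993, c89999, c90000, c82584, c80585, c89658, c90014, c56399, c80587, c82588, c82591, c82632, c82585, c90020, c90032, c90136, c90144, c3764, c89927, trivial⟩ (nd (nat_lit 251) (nat_lit 0) (cs (rf (nat_lit 0)) (cs (rf (nat_lit 1)) (cs (nd (nat_lit 273) (nat_lit 0) (cs (rf (nat_lit 2)) (cs (nd (nat_lit 254) (nat_lit 0) (cs (lf (nat_lit 11) (nat_lit 250)) (nd (nat_lit 232) (nat_lit 0) (cs (lf (nat_lit 17) (nat_lit 229)) (nd (nat_lit 210) (nat_lit 0) (cs (rf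 (nat_lit 3)) (cs (rf (nat_lit 4)) (cs (rf (nat_lit 5)) (nd (nat_lit 276) (nat_lit 0) (cs (lf (nat_lit 5) (nat_lit 251)) (nd (nat_lit 189) (nat_lit 0) (cs (lf (nat_lit 34) (nat_lit 188)) (nd (nat_lit 167) (nat_lit 0) (cs (nd (nat_lit 228) (nat_lit 0) (cs (lf (nat_lit 22) (nat_lit 228)) (nd (nat_lit 209) (nat_lit 0) (cs (lf (nat_lit 47) (nat_lit 187)) (nd (nat_lit 298) (nat_lit 0) (cs (lf (nat_lit 46) (nat_lit 209)) (nd (nat_lit 319) (nat_lit 0) (cs (lf (nat_lit 40) (nat_lit 231)) (nd (nat_lit 321) (nat_lit 0) (cs (lf (nat_lit 28) (nat_lit 232)) (rf (nat_lit 6)))))))))))) (lf (nat_lit 33) (nat_lit 166)))))))))))))))) (cs (nd (nat_lit 229) (nat_lit 0) (cs (rf (nat_lit 7)) (cs (nd (nat_lit 207) (nat_lit 0) (cs (rf (nat_lit 8)) (cs (rf (nat_lit 9)) (nd (nat_lit 228) (nat_lit 0) (cs (lf (nat_lit 18) (nat_lit 228)) (nd (nat_lit 227) (nat_lit 0) (cs (lf (nat_lit 0) (nat_lit 226)) (nd (nat_lit 274) (nat_lit 0) (cs (lf (nat_lit 29) (nat_lit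 207)) (rf (nat_lit 10))))))))))) (cs (nd (nat_lit 295) (nat_lit 0) (cs (rf (nat_lit 11)) (cs (rf (nat_lit 12)) (cs (rf (nat_lit 13)) (rf (nat_lit 14)))))) (cs (nd (nat_lit 295) (nat_lit 0) (cs (rf (nat_lit 11)) (cs (rf (nat_lit 14)) (cs (nd (nat_lit 318) (nat_lit 0) (cs (lf (nat_lit 28) (nat_lit 229)) (nd (nat_lit 228) (nat_lit 0) (cs (lf (nat_lit 18) (nat_lit 228)) (nd (nat_lit 226) (nat_lit 0) (cs (lf (nat_lit 1) (nat_lit 226)) (rf (nat_lit 15)))))))) (nd (nat_lit 274) (nat_lit 0) (cs (rf (nat_lit 16)) (nd (nat_lit 254) (nat_lit 0) (cs (lf (nat_lit 23) (nat_lit 228)) (nd (nat_lit 232) (nat_lit 0) (cs (lf (nat_lit 17) (nat_lit 229)) (nd (nat_lit 276) (nat_lit 0) (cs (lf (nat_lit 5) (nat_lit 251)) (nd (nat_lit 275) (nat_lit 0) (cs (lf (nat_lit 11) (nat_lit 272)) (rf (nat_lit 17)))))))))))))))) (rf (nat_lit 18))))))) (rf (nat_lit 19)))))) (cs (rf (nat_lit 20)) (nd (nat_lit 250) (nat_lit 0) (cs (rf (nat_lit 21)) (cs (rf (nat_lit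 22)) (nd (nat_lit 276) (nat_lit 0) (cs (lf (nat_lit 4) (nat_lit 250)) (nd (nat_lit 232) (nat_lit 0) (cs (lf (nat_lit 16) (nat_lit 228)) (nd (nat_lit 254) (nat_lit 0) (cs (lf (nat_lit 5) (nat_lit 251)) (lf (nat_lit 17) (nat_lit 229)))))))))))))))) q90149 (by decide +kernel)
def q90256 : Q := Q.p (nat_lit 0x3000000000000000000000000000000000000000000000000000000000000000) (nat_lit 0x140003f0000fd0007bc0014f000fff003ff8007fe000ff0003f00005800004000000000000000000000000) (nat_lit 18)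
theorem c90256 : QOK q90256 := cut [q89757, q89876, q82198, q90169, q85421, q85433, q56399, q89674, q89711, q90173, q80585, q86705, q89720, q90198, q90202, q90204, q85302, q85306, q89707, q90209, q23552, q85321, q85352, q85322, q85341, q85343, q85316, q85330, q88832, q90221, q82220, q82221, q85379, q1857, q85404, q90234, q5481, q11483, q85444, q85409, q85412, q85415, q90246, q90247, q90255] ⟨c89757, c89876, c82198, c90169, c85421, c85433, c56399, c89674, c89711, c90173, c80585, c86705, c89720, c90198, c90202, c90204, c85302, c85306, c89707, c90209, c23552, c85321, c85352, c85322, c85341, c85343, c85316, c85330, c88832, c90221, c82220, c82221, c85379, c1857, c85404, c90234, c5481, c11483, c85444, c85409, c85412, c85415, c90246, c90247, c90255, trivial⟩ (nd (nat_lit 251) (nat_lit 0) (cs (rf (nat_lit 0)) (cs (rf (nat_lit 1)) (cs (nd (nat_lit 229) (nat_lit 0) (cs (rf (nat_lit 2)) (cs (rf (nat_lit 3)) (cs (nd (nat_lit 273) (nat_lit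 0) (cs (rf (nat_lit 4)) (cs (nd (nat_lit 272) (nat_lit 0) (cs (lf (nat_lit 6) (nat_lit 250)) (nd (nat_lit 270) (nat_lit 0) (cs (lf (nat_lit 13) (nat_lit 248)) (nd (nat_lit 207) (nat_lit 0) (cs (lf (nat_lit 41) (nat_lit 206)) (rf (nat_lit 5)))))))) (cs (nd (nat_lit 295) (nat_lit 0) (cs (rf (nat_lit 6)) (cs (rf (nat_lit 7)) (cs (rf (nat_lit 8)) (nd (nat_lit 296) (nat_lit 0) (cs (lf (nat_lit 29) (nat_lit 229)) (nd (nat_lit 294) (nat_lit 0) (cs (lf (nat_lit 41) (nat_lit 228)) (nd (nat_lit 208) (nat_lit 0) (cs (lf (nat_lit 34) (nat_lit 207)) (nd (nat_lit 254) (nat_lit 0) (cs (lf (nat_lit 11) (nat_lit 250)) (nd (nat_lit 232) (nat_lit 0) (cs (lf (nat_lit 17) (nat_lit 229)) (nd (nat_lit 276) (nat_lit 0) (cs (lf (nat_lit 5) (nat_lit 251)) (nd (nat_lit 275) (nat_lit 0) (cs (lf (nat_lit 15) (nat_lit 272)) (nd (nat_lit 210) (nat_lit 0) (cs (lf (nat_lit 36) (nat_lit 187)) (rf (nat_lit 9)))))))))))))))))))))) (cs (nd (nat_lit 207) (nat_lit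 0) (cs (rf (nat_lit 10)) (cs (rf (nat_lit 5)) (cs (rf (nat_lit 11)) (rf (nat_lit 12)))))) (cs (nd (nat_lit 207) (nat_lit 0) (cs (rf (nat_lit 10)) (cs (rf (nat_lit 11)) (cs (nd (nat_lit 254) (nat_lit 0) (cs (lf (nat_lit 11) (nat_lit 250)) (nd (nat_lit 232) (nat_lit 0) (cs (lf (nat_lit 17) (nat_lit 229)) (nd (nat_lit 276) (nat_lit 0) (cs (lf (nat_lit 5) (nat_lit 251)) (nd (nat_lit 186) (nat_lit 0) (cs (lf (nat_lit 34) (nat_lit 185)) (nd (nat_lit 185) (nat_lit 0) (cs (lf (nat_lit 35) (nat_lit 163)) (nd (nat_lit 163) (nat_lit 0) (cs (lf (nat_lit 28) (nat_lit 163)) (nd (nat_lit 162) (nat_lit 0) (cs (lf (nat_lit 47) (nat_lit 140)) (nd (nat_lit 160) (nat_lit 0) (cs (lf (nat_lit 1) (nat_lit 160)) (nd (nat_lit 187) (nat_lit 0) (cs (lf (nat_lit 18) (nat_lit 162)) (nd (nat_lit 209) (nat_lit 0) (cs (lf (nat_lit 26) (nat_lit 187)) (lf (nat_lit 45) (nat_lit 187)))))))))))))))))))))) (rf (nat_lit 13)))))) (rf (nat_lit 14)))))))) (nd (nat_lit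 207) (nat_lit 0) (cs (rf (nat_lit 15)) (cs (nd (nat_lit 186) (nat_lit 0) (cs (rf (nat_lit 16)) (cs (rf (nat_lit 17)) (cs (rf (nat_lit 18)) (rf (nat_lit 19)))))) (cs (nd (nat_lit 206) (nat_lit 0) (cs (rf (nat_lit 20)) (cs (rf (nat_lit 21)) (cs (rf (nat_lit 22)) (nd (nat_lit 230) (nat_lit 0) (cs (rf (nat_lit 23)) (cs (rf (nat_lit 24)) (cs (rf (nat_lit 25)) (nd (nat_lit 205) (nat_lit 0) (cs (lf (nat_lit 0) (nat_lit 204)) (nd (nat_lit 273) (nat_lit 0) (cs (rf (nat_lit 26)) (cs (rf (nat_lit 27)) (rf (nat_lit 28))))))))))))))) (cs (rf (nat_lit 29)) (cs (nd (nat_lit 186) (nat_lit 0) (cs (rf (nat_lit 30)) (cs (rf (nat_lit 31)) (cs (rf (nat_lit 32)) (rf (nat_lit 18)))))) (cs (nd (nat_lit 208) (nat_lit 0) (cs (rf (nat_lit 33)) (cs (rf (nat_lit 34)) (rf (nat_lit 35))))) (nd (nat_lit 185) (nat_lit 0) (cs (rf (nat_lit 36)) (cs (rf (nat_lit 37)) (cs (rf (nat_lit 38)) (nd (nat_lit 208) (nat_lit 0) (cs (rf (nat_lit 39)) (cs (rf (nat_lit 40))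 (cs (rf (nat_lit 41)) (rf (nat_lit 35))))))))))))))))))))) (cs (rf (nat_lit 42)) (cs (rf (nat_lit 43)) (rf (nat_lit 44)))))))) q90256 (by decide +kernel)
def q90370 : Q := Q.p (nat_lit 0x3000006000000000000000000000000000000000000000000000000000000000) (nat_lit 0x100000700001c0000bc0004a00001c0003f0003fc0003c0000f00000000000000000000000000000000000) (nat_lit 11)
theorem c90370 : QOK q90370 := cut [q82198, q90346, q90204, q12540, q90351, q420, q12635] ⟨c82198, c90346, c90204, c12540, c90351, c420, c12635, trivial⟩ (nd (nat_lit 251) (nat_lit 0) (cs (rf (nat_lit 0)) (cs (rf (nat_lit 1)) (nd (nat_lit 207) (nat_lit 0) (cs (rf (nat_lit 2)) (cs (nd (nat_lit 208) (nat_lit 0) (cs (nd (nat_lit 227) (nat_lit 0) (cs (lf (nat_lit 1) (nat_lit 227)) (nd (nat_lit 273) (nat_lit 0) (cs (lf (nat_lit 30) (nat_lit 207)) (nd (nat_lit 272) (nat_lit 0) (cs (lf (nat_lit 41) (nat_lit 206)) (nd (nat_lit 270) (nat_lit 0) (cs (rf (nat_lit 3)) (lf (nat_lit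 13) (nat_lit 248)))))))))) (rf (nat_lit 4)))) (cs (nd (nat_lit 227) (nat_lit 0) (cs (lf (nat_lit 1) (nat_lit 227)) (nd (nat_lit 185) (nat_lit 0) (cs (lf (nat_lit 24) (nat_lit 163)) (nd (nat_lit 162) (nat_lit 0) (cs (lf (nat_lit 46) (nat_lit 162)) (nd (nat_lit 186) (nat_lit 0) (cs (lf (nat_lit 35) (nat_lit 163)) (nd (nat_lit 208) (nat_lit 0) (cs (lf (nat_lit 29) (nat_lit 186)) (rf (nat_lit 5)))))))))))) (cs (nd (nat_lit 227) (nat_lit 0) (cs (lf (nat_lit 1) (nat_lit 227)) (nd (nat_lit 185) (nat_lit 0) (cs (lf (nat_lit 24) (nat_lit 163)) (nd (nat_lit 184) (nat_lit 0) (cs (lf (nat_lit 47) (nat_lit 162)) (nd (nat_lit 206) (nat_lit 0) (cs (lf (nat_lit 42) (nat_lit 184)) (nd (nat_lit 205) (nat_lit 0) (cs (lf (nat_lit 0) (nat_lit 204)) (nd (nat_lit 249) (nat_lit 0) (cs (lf (nat_lit 30) (nat_lit 183)) (nd (nat_lit 208) (nat_lit 0) (cs (lf (nat_lit 11) (nat_lit 204)) (rf (nat_lit 6)))))))))))))))) (nd (nat_lit 227) (nat_lit 0) (cs (lf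 (nat_lit 1) (nat_lit 227)) (nd (nat_lit 185) (nat_lit 0) (cs (lf (nat_lit 24) (nat_lit 163)) (nd (nat_lit 186) (nat_lit 0) (cs (lf (nat_lit 35) (nat_lit 163)) (nd (nat_lit 208) (nat_lit 0) (cs (lf (nat_lit 29) (nat_lit 186)) (lf (nat_lit 30) (nat_lit 185)))))))))))))))))) q90370 (by decide +kernel)
def q90482 : Q := Q.p (nat_lit 0x3000004000000000000000000000000000000000000000000000000000000000) (nat_lit 0x300000f00003c00007c000480003bc000fc0000f80003c0000500000000000000000000000000000000000) (nat_lit 12)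
theorem c90482 : QOK q90482 := cut [q87523, q90319, q80983, q87228, q81331, q88099, q90471, q90474, q81787, q82198, q89672, q81734, q89684, q90204] ⟨c87523, c90319, c80983, c87228, c81331, c88099, c90471, c90474, c81787, c82198, c89672, c81734, c89684, c90204, trivial⟩ (nd (nat_lit 229) (nat_lit 0) (cs (rf (nat_lit 0)) (cs (rf (nat_lit 1)) (cs (nd (nat_lit 274) (nat_lit 0) (cs (rf (nat_lit 2)) (cs (rf (nat_lit 3)) (cs (nd (nat_lit 208) (nat_lit 0) (cs (rf (nat_lit 4)) (cs (nd (nat_lit 207) (nat_lit 0) (cs (lf (nat_lit 47) (nat_lit 185)) (rf (nat_lit 5)))) (cs (rf (nat_lit 6)) (rf (nat_lit 7)))))) (nd (nat_lit 296) (nat_lit 0) (cs (rf (nat_lit 8)) (nd (nat_lit 319) (nat_lit 0) (cs (lf (nat_lit 28) (nat_lit 230)) (nd (nat_lit 318) (nat_lit 0) (cs (lf (nat_lit 29) (nat_lit 252)) (lf (nat_lit 46) (nat_lit 229)))))))))))) (nd (nat_lit 251) (nat_lit 0) (cs (rf (nat_lit 9)) (cs (rf (nat_lit 10)) (nd (nat_lit 207) (nat_lit 0) (cs (rf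 (nat_lit 11)) (cs (rf (nat_lit 12)) (rf (nat_lit 13)))))))))))) q90482 (by decide +kernel)
def q90600 : Q := Q.p (nat_lit 0x800003000000000000000000000000000000000000000000000000000000000000000) (nat_lit 0xfc0003f0000dc00077c0004e0003fc000ec0003f00001c0000500000000000000000000000000000000000) (nat_lit 14)
theorem c90600 : QOK q90600 := cut [q2091, q89735, q89876, q82198, q5482, q11484, q90204, q11856, q85316, q89713, q85371, q88302, q90202, q82585, q90588, q89815, q90271, q15386, q90596] ⟨c2091, c89735, c89876, c82198, c5482, c11484, c90204, c11856, c85316, c89713, c85371, c88302, c90202, c82585, c90588, c89815, c90271, c15386, c90596, trivial⟩ (nd (nat_lit 251) (nat_lit 0) (cs (rf (nat_lit 0)) (cs (rf (nat_lit 1)) (cs (rf (nat_lit 2)) (nd (nat_lit 229) (nat_lit 0) (cs (rf (nat_lit 3)) (cs (nd (nat_lit 207) (nat_lit 0) (cs (rf (nat_lit 4)) (cs (rf (nat_lit 5)) (cs (rf (nat_lit 6)) (nd (nat_lit 273) (nat_lit 0) (cs (rf (nat_lit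 7)) (cs (rf (nat_lit 8)) (cs (rf (nat_lit 9)) (nd (nat_lit 206) (nat_lit 0) (cs (lf (nat_lit 47) (nat_lit 184)) (nd (nat_lit 274) (nat_lit 0) (cs (lf (nat_lit 29) (nat_lit 207)) (nd (nat_lit 271) (nat_lit 0) (cs (lf (nat_lit 13) (nat_lit 249)) (nd (nat_lit 276) (nat_lit 0) (cs (lf (nat_lit 18) (nat_lit 251)) (nd (nat_lit 298) (nat_lit 0) (cs (lf (nat_lit 5) (nat_lit 273)) (nd (nat_lit 320) (nat_lit 0) (cs (lf (nat_lit 42) (nat_lit 253)) (nd (nat_lit 209) (nat_lit 0) (cs (lf (nat_lit 25) (nat_lit 209)) (rf (nat_lit 10)))))))))))))))))))))))) (cs (nd (nat_lit 273) (nat_lit 0) (cs (rf (nat_lit 11)) (cs (rf (nat_lit 12)) (cs (nd (nat_lit 274) (nat_lit 0) (cs (rf (nat_lit 13)) (nd (nat_lit 276) (nat_lit 0) (cs (lf (nat_lit 18) (nat_lit 251)) (rf (nat_lit 14)))))) (nd (nat_lit 274) (nat_lit 0) (cs (rf (nat_lit 13)) (cs (rf (nat_lit 15)) (rf (nat_lit 16))))))))) (nd (nat_lit 276) (nat_lit 0) (cs (rf (nat_lit 17)) (nd (nat_lit 254)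 (nat_lit 0) (cs (lf (nat_lit 23) (nat_lit 228)) (rf (nat_lit 18)))))))))))))) q90600 (by decide +kernel)
def q90828 : Q := Q.p (nat_lit 0x800003000000000000000000000000000000000000000000000000000000000000000) (nat_lit 0x4000070001ff0003fe001e7c0004e0007fc0005c000070000040000000000000000000000000000000000000000) (nat_lit 15)
theorem c90828 : QOK q90828 := cut [q88933, q88941, q89530, q89650, q90571, q90797, q2561, q82286, q88302, q82198, q82584, q90801, q90807, q90815, q90819, q87869, q89643] ⟨c88933, c88941, c89530, c89650, c90571, c90797, c2561, c82286, c88302, c82198, c82584, c90801, c90807, c90815, c90819, c87869, c89643, trivial⟩ (nd (nat_lit 297) (nat_lit 0) (cs (rf (nat_lit 0)) (cs (rf (nat_lit 1)) (cs (rf (nat_lit 2)) (nd (nat_lit 231) (nat_lit 0) (cs (rf (nat_lit 3)) (cs (rf (nat_lit 4)) (cs (nd (nat_lit 298) (nat_lit 0) (cs (lf (nat_lit 29) (nat_lit 231)) (nd (nat_lit 296) (nat_lit 0) (cs (lf (nat_lit 41) (nat_lit 230))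 (rf (nat_lit 5)))))) (nd (nat_lit 274) (nat_lit 0) (cs (nd (nat_lit 296) (nat_lit 0) (cs (lf (nat_lit 30) (nat_lit 230)) (rf (nat_lit 6)))) (cs (nd (nat_lit 251) (nat_lit 0) (cs (rf (nat_lit 7)) (cs (nd (nat_lit 273) (nat_lit 0) (cs (rf (nat_lit 8)) (cs (nd (nat_lit 229) (nat_lit 0) (cs (rf (nat_lit 9)) (cs (rf (nat_lit 10)) (nd (nat_lit 298) (nat_lit 0) (cs (lf (nat_lit 29) (nat_lit 231)) (nd (nat_lit 208) (nat_lit 0) (cs (lf (nat_lit 25) (nat_lit 208)) (rf (nat_lit 11))))))))) (nd (nat_lit 298) (nat_lit 0) (cs (lf (nat_lit 29) (nat_lit 231)) (lf (nat_lit 0) (nat_lit 272))))))) (cs (nd (nat_lit 250) (nat_lit 0) (cs (lf (nat_lit 0) (nat_lit 249)) (nd (nat_lit 298) (nat_lit 0) (cs (lf (nat_lit 29) (nat_lit 231)) (nd (nat_lit 299) (nat_lit 0) (cs (lf (nat_lit 18) (nat_lit 274)) (rf (nat_lit 12)))))))) (cs (nd (nat_lit 208) (nat_lit 0) (cs (lf (nat_lit 46) (nat_lit 208)) (nd (nat_lit 298) (nat_lit 0) (cs (lf (nat_lit 29) (nat_lit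 231)) (nd (nat_lit 299) (nat_lit 0) (cs (lf (nat_lit 18) (nat_lit 274)) (rf (nat_lit 13)))))))) (nd (nat_lit 250) (nat_lit 0) (cs (lf (nat_lit 0) (nat_lit 249)) (nd (nat_lit 208) (nat_lit 0) (cs (lf (nat_lit 25) (nat_lit 208)) (nd (nat_lit 227) (nat_lit 0) (cs (lf (nat_lit 22) (nat_lit 227)) (nd (nat_lit 272) (nat_lit 0) (cs (lf (nat_lit 11) (nat_lit 249)) (rf (nat_lit 14))))))))))))))) (nd (nat_lit 296) (nat_lit 0) (cs (rf (nat_lit 15)) (rf (nat_lit 16))))))))))))))) q90828 (by decide +kernel)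
def q90829 : Q := Q.p (nat_lit 0x800003000000000000000000000000000000000000000000000000000000000000000) (nat_lit 0x140000700001c00007000015c0004e0007fc00050000140000000000000000000000000000000000000000000000) (nat_lit 8)
theorem c90829 : QOK q90829 := cut [q2091, q89876, q90785] ⟨c2091, c89876, c90785, trivial⟩ (nd (nat_lit 251) (nat_lit 0) (cs (rf (nat_lit 0)) (cs (rf (nat_lit 1)) (rf (nat_lit 2))))) q90829 (by decide +kernel)
def q90830 : Q := Q.p (nat_lit 0x200000800003000000000000000000000000000000000000000000000000000000000000000) (nat_lit 0x200000800017c0004e0007dc00050000140000000000000000000000000000000000000000000000) (nat_lit 9)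
theorem c90830 : QOK q90830 := cut [q2091, q89871, q90784] ⟨c2091, c89871, c90784, trivial⟩ (nd (nat_lit 251) (nat_lit 0) (cs (rf (nat_lit 0)) (cs (rf (nat_lit 1)) (rf (nat_lit 2))))) q90830 (by decide +kernel)
def q90864 : Q := Q.p (nat_lit 0x800003000000000000000000000000000000000000000000000000000000000000000) (nat_lit 0x680001a0000fc00077c0004e0003dc00050000140000000000000000000000000000000000000000000000) (nat_lit 9)
theorem c90864 : QOK q90864 := cut [q2091, q89735, q89871, q88302, q89798, q90630, q88741, q87096, q90858, q90860] ⟨c2091, c89735, c89871, c88302, c89798, c90630, c88741, c87096, c90858, c90860, trivial⟩ (nd (nat_lit 251) (nat_lit 0) (cs (rf (nat_lit 0)) (cs (rf (nat_lit 1)) (cs (rf (nat_lit 2)) (nd (nat_lit 273) (nat_lit 0) (cs (rf (nat_lit 3)) (cs (rf (nat_lit 4)) (cs (rf (nat_lit 5)) (nd (nat_lit 276) (nat_lit 0) (cs (rf (nat_lit 6)) (nd (nat_lit 230) (nat_lit 0) (cs (rf (nat_lit 7)) (cs (nd (nat_lit 297)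 (nat_lit 0) (cs (lf (nat_lit 42) (nat_lit 230)) (rf (nat_lit 8)))) (rf (nat_lit 9))))))))))))))) q90864 (by decide +kernel)
def q90866 : Q := Q.p (nat_lit 0x800003000000000000000000000000000000000000000000000000000000000000000) (nat_lit 0x4000070000ff8001fc0007780004c0007c000050000040000000000000000000000000000000000000000000000) (nat_lit 12)
theorem c90866 : QOK q90866 := cut [q88933, q88941, q89530, q90571, q90745] ⟨c88933, c88941, c89530, c90571, c90745, trivial⟩ (nd (nat_lit 297) (nat_lit 0) (cs (rf (nat_lit 0)) (cs (rf (nat_lit 1)) (cs (rf (nat_lit 2)) (nd (nat_lit 231) (nat_lit 0) (cs (rf (nat_lit 3)) (rf (nat_lit 4)))))))) q90866 (by decide +kernel)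
def q90965 : Q := Q.p (nat_lit 0x3000000000000000000000000000000000000000000000000000000000000000) (nat_lit 0x1400007c0001f0000ef0007fc0004e000ffc003fe0003fc000fc0001700000000000000000000000000000000000) (nat_lit 15)
theorem c90965 : QOK q90965 := cut [q88874, q90905, q82301, q88751, q88772, q88775, q86316, q88916, q90876, q82275, q82278, q88808, q88302, q88785, q90909, q90911, q82300, q82309, q88756, q88771, q84965, q88743, q2091, q89735, q82198, q82581, q88840, q89975, q90937, q88872, q89974, q90777, q88895, q1563, q85065, q82345, q85212, q88744, q82378, q90964] ⟨c88874, c90905, c82301, c88751, c88772, c88775, c86316, c88916, c90876, c82275, c82278, c88808, c88302, c88785, c90909, c90911, c82300, c82309, c88756, c88771, c84965, c88743, c2091, c89735, c82198, c82581, c88840, c89975, c90937, c88872, c89974, c90777, c88895, c1563, c85065, c82345, c85212, c88744, c82378, c90964, trivial⟩ (nd (nat_lit 231) (nat_lit 0) (cs (rf (nat_lit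 0)) (cs (rf (nat_lit 1)) (cs (nd (nat_lit 209) (nat_lit 0) (cs (rf (nat_lit 2)) (cs (rf (nat_lit 3)) (cs (rf (nat_lit 4)) (cs (rf (nat_lit 5)) (nd (nat_lit 275) (nat_lit 0) (cs (rf (nat_lit 6)) (cs (rf (nat_lit 7)) (rf (nat_lit 8)))))))))) (cs (nd (nat_lit 251) (nat_lit 0) (cs (rf (nat_lit 9)) (cs (rf (nat_lit 10)) (cs (rf (nat_lit 11)) (nd (nat_lit 273) (nat_lit 0) (cs (rf (nat_lit 12)) (cs (rf (nat_lit 13)) (cs (rf (nat_lit 14)) (rf (nat_lit 15)))))))))) (cs (nd (nat_lit 209) (nat_lit 0) (cs (rf (nat_lit 16)) (cs (rf (nat_lit 17)) (cs (rf (nat_lit 18)) (cs (rf (nat_lit 19)) (nd (nat_lit 275) (nat_lit 0) (cs (rf (nat_lit 20)) (cs (rf (nat_lit 21)) (nd (nat_lit 251) (nat_lit 0) (cs (rf (nat_lit 22)) (cs (rf (nat_lit 23)) (nd (nat_lit 229) (nat_lit 0) (cs (rf (nat_lit 24)) (cs (nd (nat_lit 210) (nat_lit 0) (cs (lf (nat_lit 35) (nat_lit 187)) (nd (nat_lit 208) (nat_lit 0) (cs (lf (nat_lit 47) (nat_lit 186)) (nd (nat_lit 228) (nat_lit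 0) (cs (lf (nat_lit 9) (nat_lit 206)) (lf (nat_lit 18) (nat_lit 228)))))))) (cs (nd (nat_lit 188) (nat_lit 0) (cs (lf (nat_lit 34) (nat_lit 187)) (nd (nat_lit 208) (nat_lit 0) (cs (lf (nat_lit 47) (nat_lit 186)) (nd (nat_lit 230) (nat_lit 0) (cs (lf (nat_lit 42) (nat_lit 208)) (nd (nat_lit 273) (nat_lit 0) (cs (lf (nat_lit 30) (nat_lit 207)) (rf (nat_lit 12)))))))))) (nd (nat_lit 188) (nat_lit 0) (cs (lf (nat_lit 34) (nat_lit 187)) (nd (nat_lit 208) (nat_lit 0) (cs (lf (nat_lit 47) (nat_lit 186)) (nd (nat_lit 230) (nat_lit 0) (cs (lf (nat_lit 42) (nat_lit 208)) (nd (nat_lit 273) (nat_lit 0) (cs (lf (nat_lit 30) (nat_lit 207)) (nd (nat_lit 228) (nat_lit 0) (cs (lf (nat_lit 12) (nat_lit 205)) (nd (nat_lit 206) (nat_lit 0) (cs (lf (nat_lit 23) (nat_lit 205)) (rf (nat_lit 25))))))))))))))))))))))))))))) (cs (nd (nat_lit 251) (nat_lit 0) (cs (rf (nat_lit 9)) (cs (rf (nat_lit 10)) (cs (rf (nat_lit 26)) (rf (nat_lit 27)))))) (cs (rf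 (nat_lit 28)) (cs (nd (nat_lit 251) (nat_lit 0) (cs (rf (nat_lit 9)) (cs (rf (nat_lit 10)) (cs (rf (nat_lit 11)) (nd (nat_lit 229) (nat_lit 0) (cs (rf (nat_lit 29)) (cs (rf (nat_lit 30)) (rf (nat_lit 31))))))))) (cs (nd (nat_lit 251) (nat_lit 0) (cs (rf (nat_lit 9)) (cs (rf (nat_lit 10)) (cs (rf (nat_lit 26)) (nd (nat_lit 209) (nat_lit 0) (cs (rf (nat_lit 16)) (cs (rf (nat_lit 2)) (cs (rf (nat_lit 17)) (cs (rf (nat_lit 32)) (nd (nat_lit 208) (nat_lit 0) (cs (rf (nat_lit 33)) (cs (rf (nat_lit 34)) (cs (nd (nat_lit 230) (nat_lit 0) (cs (rf (nat_lit 35)) (cs (rf (nat_lit 36)) (nd (nat_lit 275) (nat_lit 0) (cs (lf (nat_lit 42) (nat_lit 208)) (nd (nat_lit 232) (nat_lit 0) (cs (lf (nat_lit 6) (nat_lit 229)) (nd (nat_lit 207) (nat_lit 0) (cs (lf (nat_lit 0) (nat_lit 206)) (nd (nat_lit 188) (nat_lit 0) (cs (lf (nat_lit 34) (nat_lit 187)) (nd (nat_lit 274) (nat_lit 0) (cs (lf (nat_lit 47) (nat_lit 185)) (rf (nat_lit 37)))))))))))))))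 (nd (nat_lit 230) (nat_lit 0) (cs (rf (nat_lit 35)) (rf (nat_lit 38))))))))))))))))) (rf (nat_lit 39)))))))))))) q90965 (by decide +kernel)
def q91080 : Q := Q.p (nat_lit 0x3000000000000000000000000000000000000000000000000000000000000000) (nat_lit 0x170001dc0007fc0014e001ffc00ffe001ffc000fe0003f00000000000000000000000000000000000) (nat_lit 17)
theorem c91080 : QOK q91080 := cut [q88886, q82275, q82278, q90778, q90999, q82301, q88772, q91006, q91033, q88840, q82198, q88872, q87951, q88862, q90346, q91035, q88830, q88869, q91043, q91055, q91061, q89664, q89672, q87917, q12242, q82309, q88751, q88756, q1563, q91031, q91056, q17544, q86313, q107] ⟨c88886, c82275, c82278, c90778, c90999, c82301, c88772, c91006, c91033, c88840, c82198, c88872, c87951, c88862, c90346, c91035, c88830, c88869, c91043, c91055, c91061, c89664, c89672, c87917, c12242, c82309, c88751, c88756, c1563, c91031, c91056, c17544, c86313, c107, trivial⟩ (nd (nat_lit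 231) (nat_lit 0) (cs (rf (nat_lit 0)) (cs (nd (nat_lit 251) (nat_lit 0) (cs (rf (nat_lit 1)) (cs (rf (nat_lit 2)) (rf (nat_lit 3))))) (cs (rf (nat_lit 4)) (cs (nd (nat_lit 209) (nat_lit 0) (cs (rf (nat_lit 5)) (cs (rf (nat_lit 6)) (rf (nat_lit 7))))) (cs (rf (nat_lit 8)) (cs (nd (nat_lit 251) (nat_lit 0) (cs (rf (nat_lit 1)) (cs (rf (nat_lit 2)) (cs (rf (nat_lit 9)) (nd (nat_lit 229) (nat_lit 0) (cs (rf (nat_lit 10)) (cs (rf (nat_lit 11)) (cs (nd (nat_lit 230) (nat_lit 0) (cs (rf (nat_lit 12)) (cs (rf (nat_lit 13)) (cs (rf (nat_lit 14)) (nd (nat_lit 232) (nat_lit 0) (cs (lf (nat_lit 6) (nat_lit 229)) (nd (nat_lit 210) (nat_lit 0) (cs (lf (nat_lit 17) (nat_lit 207)) (rf (nat_lit 15)))))))))) (nd (nat_lit 230) (nat_lit 0) (cs (rf (nat_lit 12)) (cs (rf (nat_lit 16)) (rf (nat_lit 17))))))))))))) (cs (rf (nat_lit 18)) (cs (rf (nat_lit 19)) (cs (rf (nat_lit 20)) (cs (nd (nat_lit 251) (nat_lit 0) (cs (rf (nat_lit 1)) (cs (rf (nat_lit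 2)) (cs (rf (nat_lit 9)) (nd (nat_lit 229) (nat_lit 0) (cs (rf (nat_lit 10)) (cs (rf (nat_lit 21)) (cs (rf (nat_lit 22)) (nd (nat_lit 230) (nat_lit 0) (cs (rf (nat_lit 23)) (cs (rf (nat_lit 16)) (nd (nat_lit 228) (nat_lit 0) (cs (lf (nat_lit 0) (nat_lit 227)) (nd (nat_lit 209) (nat_lit 0) (cs (lf (nat_lit 17) (nat_lit 206)) (nd (nat_lit 206) (nat_lit 0) (cs (lf (nat_lit 23) (nat_lit 205)) (nd (nat_lit 274) (nat_lit 0) (cs (lf (nat_lit 30) (nat_lit 208)) (nd (nat_lit 207) (nat_lit 0) (cs (lf (nat_lit 24) (nat_lit 185)) (rf (nat_lit 24))))))))))))))))))))))) (nd (nat_lit 209) (nat_lit 0) (cs (rf (nat_lit 25)) (cs (rf (nat_lit 26)) (cs (rf (nat_lit 27)) (nd (nat_lit 208) (nat_lit 0) (cs (rf (nat_lit 28)) (cs (rf (nat_lit 29)) (cs (rf (nat_lit 30)) (nd (nat_lit 274) (nat_lit 0) (cs (rf (nat_lit 31)) (nd (nat_lit 232) (nat_lit 0) (cs (rf (nat_lit 32)) (cs (nd (nat_lit 207) (nat_lit 0) (cs (lf (nat_lit 0) (nat_lit 206)) (nd (nat_lit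 250) (nat_lit 0) (cs (lf (nat_lit 13) (nat_lit 228)) (nd (nat_lit 185) (nat_lit 0) (cs (lf (nat_lit 44) (nat_lit 185)) (nd (nat_lit 210) (nat_lit 0) (cs (lf (nat_lit 23) (nat_lit 184)) (rf (nat_lit 33)))))))))) (nd (nat_lit 207) (nat_lit 0) (cs (lf (nat_lit 0) (nat_lit 206)) (nd (nat_lit 233) (nat_lit 0) (cs (lf (nat_lit 3) (nat_lit 207)) (lf (nat_lit 6) (nat_lit 230)))))))))))))))))))))))))))))) q91080 (by decide +kernel)
def q91205 : Q := Q.p (nat_lit 0x3000000000000000000000000000000000000000000000000000000000000000) (nat_lit 0x140000700001e0001f80007ee0004f000ffc003fe000ffc000fc0001700000000000000000000000000000000000) (nat_lit 15)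
theorem c91205 : QOK q91205 := cut [q88776, q90905, q90964, q91055, q91149, q91150, q82300, q82309, q88756, q88771, q84964, q88743, q91160, q91165, q91176, q91188, q82275, q82278, q88896, q85579, q82310, q91191, q82301, q91060, q91203, q89975, q91142] ⟨c88776, c90905, c90964, c91055, c91149, c91150, c82300, c82309, c88756, c88771, c84964, c88743, c91160, c91165, c91176, c91188, c82275, c82278, c88896, c85579, c82310, c91191, c82301, c91060, c91203, c89975, c91142, trivial⟩ (nd (nat_lit 231) (nat_lit 0) (cs (rf (nat_lit 0)) (cs (rf (nat_lit 1)) (cs (rf (nat_lit 2)) (cs (rf (nat_lit 3)) (cs (rf (nat_lit 4)) (cs (rf (nat_lit 5)) (cs (nd (nat_lit 209) (nat_lit 0) (cs (rf (nat_lit 6)) (cs (rf (nat_lit 7)) (cs (rf (nat_lit 8)) (cs (rf (nat_lit 9)) (nd (nat_lit 275) (nat_lit 0) (cs (rf (nat_lit 10)) (cs (rf (nat_lit 11)) (rf (nat_lit 12)))))))))) (cs (rf (nat_lit 13)) (cs (rf (nat_lit 14)) (cs (rf (nat_lit 15)) (cs (nd (nat_lit 251)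 (nat_lit 0) (cs (rf (nat_lit 16)) (cs (rf (nat_lit 17)) (cs (rf (nat_lit 18)) (nd (nat_lit 228) (nat_lit 0) (cs (rf (nat_lit 19)) (cs (nd (nat_lit 250) (nat_lit 0) (cs (lf (nat_lit 23) (nat_lit 227)) (rf (nat_lit 20)))) (cs (rf (nat_lit 21)) (nd (nat_lit 209) (nat_lit 0) (cs (rf (nat_lit 6)) (cs (rf (nat_lit 22)) (cs (rf (nat_lit 7)) (cs (rf (nat_lit 23)) (nd (nat_lit 229) (nat_lit 0) (cs (lf (nat_lit 18) (nat_lit 228)) (nd (nat_lit 210) (nat_lit 0) (cs (lf (nat_lit 14) (nat_lit 206)) (nd (nat_lit 207) (nat_lit 0) (cs (lf (nat_lit 8) (nat_lit 206)) (nd (nat_lit 188) (nat_lit 0) (cs (lf (nat_lit 30) (nat_lit 187)) (nd (nat_lit 144) (nat_lit 0) (cs (lf (nat_lit 37) (nat_lit 143)) (nd (nat_lit 185) (nat_lit 0) (cs (lf (nat_lit 29) (nat_lit 185)) (nd (nat_lit 164) (nat_lit 0) (cs (lf (nat_lit 34) (nat_lit 163)) (nd (nat_lit 163) (nat_lit 0) (cs (lf (nat_lit 35) (nat_lit 141)) (lf (nat_lit 41) (nat_lit 162)))))))))))))))))))))))))))))))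 (cs (rf (nat_lit 24)) (nd (nat_lit 251) (nat_lit 0) (cs (rf (nat_lit 16)) (cs (rf (nat_lit 17)) (cs (rf (nat_lit 25)) (rf (nat_lit 26))))))))))))))))))) q91205 (by decide +kernel)
def q91303 : Q := Q.p (nat_lit 0x3000000000000000000000000000000000000000000000000000000000000000) (nat_lit 0x140000700001c0001fc0007dc0004e000ffc003ff000ffc000ff0001700000000000000000000000000000000000) (nat_lit 16)
theorem c91303 : QOK q91303 := cut [q88776, q90905, q90964, q91165, q91176, q91188, q91203, q86313, q86631, q84458, q91168, q91171, q88864, q91239, q82198, q91143, q84444, q90288, q91247, q91282, q91295, q91297, q91302] ⟨c88776, c90905, c90964, c91165, c91176, c91188, c91203, c86313, c86631, c84458, c91168, c91171, c88864, c91239, c82198, c91143, c84444, c90288, c91247, c91282, c91295, c91297, c91302, trivial⟩ (nd (nat_lit 231) (nat_lit 0) (cs (rf (nat_lit 0)) (cs (rf (nat_lit 1)) (cs (rf (nat_lit 2)) (cs (rf (nat_lit 3)) (cs (rf (nat_lit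 4)) (cs (rf (nat_lit 5)) (cs (rf (nat_lit 6)) (cs (nd (nat_lit 232) (nat_lit 0) (cs (rf (nat_lit 7)) (cs (rf (nat_lit 8)) (cs (nd (nat_lit 230) (nat_lit 0) (cs (rf (nat_lit 9)) (cs (rf (nat_lit 10)) (cs (rf (nat_lit 11)) (nd (nat_lit 229) (nat_lit 0) (cs (rf (nat_lit 12)) (rf (nat_lit 13)))))))) (nd (nat_lit 229) (nat_lit 0) (cs (nd (nat_lit 251) (nat_lit 0) (cs (lf (nat_lit 12) (nat_lit 228)) (rf (nat_lit 14)))) (cs (nd (nat_lit 251) (nat_lit 0) (cs (lf (nat_lit 12) (nat_lit 228)) (rf (nat_lit 15)))) (cs (nd (nat_lit 230) (nat_lit 0) (cs (rf (nat_lit 12)) (nd (nat_lit 250) (nat_lit 0) (cs (lf (nat_lit 13) (nat_lit 228)) (rf (nat_lit 16)))))) (cs (nd (nat_lit 230) (nat_lit 0) (cs (rf (nat_lit 17)) (cs (rf (nat_lit 13)) (rf (nat_lit 18))))) (nd (nat_lit 230) (nat_lit 0) (cs (rf (nat_lit 12)) (rf (nat_lit 13))))))))))))) (cs (rf (nat_lit 19)) (cs (rf (nat_lit 20)) (cs (rf (nat_lit 21)) (rf (nat_lit 22)))))))))))))) q91303 (by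 decide +kernel)
def q91449 : Q := Q.p (nat_lit 0x3000000000000000000000000000000000000000000000000000000000000000) (nat_lit 0x480007e0001f8001fe0007fc0014e003ffc00ffe001fb8000ee0003100000000000000000000000000000000000) (nat_lit 19)
theorem c91449 : QOK q91449 := cut [q88886, q91188, q91338, q82275, q82278, q88840, q82274, q82277, q79182, q88863, q91339, q85430, q91410, q17601, q88751, q91006, q80089, q79170, q207, q91143, q91144, q11488, q80450, q91145, q80881, q88909, q88302, q90911, q90271, q88830, q91442, q82198, q88872, q88884, q87917, q87953, q81837, q85470, q88898, q82289] ⟨c88886, c91188, c91338, c82275, c82278, c88840, c82274, c82277, c79182, c88863, c91339, c85430, c91410, c17601, c88751, c91006, c80089, c79170, c207, c91143, c91144, c11488, c80450, c91145, c80881, c88909, c88302, c90911, c90271, c88830, c91442, c82198, c88872, c88884, c87917, c87953, c81837, c85470, c88898, c82289, trivial⟩ (nd (nat_lit 231) (nat_lit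 0) (cs (rf (nat_lit 0)) (cs (rf (nat_lit 1)) (cs (rf (nat_lit 2)) (cs (nd (nat_lit 251) (nat_lit 0) (cs (rf (nat_lit 3)) (cs (rf (nat_lit 4)) (cs (rf (nat_lit 5)) (nd (nat_lit 232) (nat_lit 0) (cs (rf (nat_lit 6)) (cs (rf (nat_lit 7)) (nd (nat_lit 254) (nat_lit 0) (cs (rf (nat_lit 8)) (nd (nat_lit 210) (nat_lit 0) (cs (rf (nat_lit 9)) (cs (nd (nat_lit 229) (nat_lit 0) (cs (lf (nat_lit 23) (nat_lit 228)) (nd (nat_lit 275) (nat_lit 0) (cs (lf (nat_lit 30) (nat_lit 209)) (nd (nat_lit 230) (nat_lit 0) (cs (lf (nat_lit 17) (nat_lit 207)) (nd (nat_lit 206) (nat_lit 0) (cs (lf (nat_lit 22) (nat_lit 206)) (rf (nat_lit 10)))))))))) (nd (nat_lit 273) (nat_lit 0) (cs (lf (nat_lit 11) (nat_lit 250)) (nd (nat_lit 166) (nat_lit 0) (cs (lf (nat_lit 37) (nat_lit 165)) (nd (nat_lit 229) (nat_lit 0) (cs (lf (nat_lit 23) (nat_lit 228)) (nd (nat_lit 230) (nat_lit 0) (cs (lf (nat_lit 17) (nat_lit 207)) (rf (nat_lit 11)))))))))))))))))))))) (cs (rf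 (nat_lit 12)) (cs (nd (nat_lit 209) (nat_lit 0) (cs (rf (nat_lit 13)) (cs (rf (nat_lit 14)) (cs (rf (nat_lit 15)) (nd (nat_lit 188) (nat_lit 0) (cs (nd (nat_lit 187) (nat_lit 0) (cs (lf (nat_lit 35) (nat_lit 165)) (nd (nat_lit 254) (nat_lit 0) (cs (lf (nat_lit 29) (nat_lit 187)) (nd (nat_lit 232) (nat_lit 0) (cs (lf (nat_lit 24) (nat_lit 165)) (rf (nat_lit 16)))))))) (cs (nd (nat_lit 275) (nat_lit 0) (cs (lf (nat_lit 34) (nat_lit 187)) (nd (nat_lit 276) (nat_lit 0) (cs (lf (nat_lit 29) (nat_lit 209)) (nd (nat_lit 254) (nat_lit 0) (cs (rf (nat_lit 17)) (lf (nat_lit 24) (nat_lit 187)))))))) (nd (nat_lit 210) (nat_lit 0) (cs (rf (nat_lit 18)) (lf (nat_lit 30) (nat_lit 187))))))))))) (cs (nd (nat_lit 251) (nat_lit 0) (cs (rf (nat_lit 3)) (cs (rf (nat_lit 4)) (cs (rf (nat_lit 5)) (nd (nat_lit 232) (nat_lit 0) (cs (rf (nat_lit 6)) (cs (rf (nat_lit 7)) (nd (nat_lit 229) (nat_lit 0) (cs (rf (nat_lit 19)) (cs (rf (nat_lit 20)) (nd (nat_lit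 207) (nat_lit 0) (cs (rf (nat_lit 21)) (cs (rf (nat_lit 22)) (rf (nat_lit 23))))))))))))))) (cs (nd (nat_lit 251) (nat_lit 0) (cs (rf (nat_lit 3)) (cs (rf (nat_lit 4)) (cs (rf (nat_lit 5)) (nd (nat_lit 274) (nat_lit 0) (cs (rf (nat_lit 24)) (cs (rf (nat_lit 25)) (nd (nat_lit 273) (nat_lit 0) (cs (rf (nat_lit 26)) (cs (rf (nat_lit 27)) (nd (nat_lit 229) (nat_lit 0) (cs (rf (nat_lit 28)) (nd (nat_lit 230) (nat_lit 0) (cs (rf (nat_lit 11)) (rf (nat_lit 29)))))))))))))))) (cs (rf (nat_lit 30)) (nd (nat_lit 251) (nat_lit 0) (cs (rf (nat_lit 3)) (cs (rf (nat_lit 4)) (cs (rf (nat_lit 5)) (nd (nat_lit 229) (nat_lit 0) (cs (rf (nat_lit 31)) (cs (rf (nat_lit 32)) (cs (rf (nat_lit 33)) (nd (nat_lit 230) (nat_lit 0) (cs (rf (nat_lit 34)) (cs (rf (nat_lit 35)) (nd (nat_lit 274) (nat_lit 0) (cs (rf (nat_lit 36)) (cs (nd (nat_lit 275) (nat_lit 0) (cs (rf (nat_lit 37)) (rf (nat_lit 38)))) (nd (nat_lit 227) (nat_lit 0) (cs (lf (nat_lit 1) (nat_lit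 227)) (rf (nat_lit 39)))))))))))))))))))))))))))) q91449 (by decide +kernel)
def q91488 : Q := Q.p (nat_lit 0x3000004000000000000000000000000000000000000000000000000000000000) (nat_lit 0x3b0001fc0007fc0004e0007bc001ee0001f80007e0001400000000000000000000000000000000000) (nat_lit 13)
theorem c91488 : QOK q91488 := cut [q91165, q82309, q90281, q91450, q89827, q89929, q89959, q82300, q90280, q88302, q91265, q11867, q91468, q80921, q91482, q84417, q90289, q87136, q90275, q87953, q82275, q87917] ⟨c91165, c82309, c90281, c91450, c89827, c89929, c89959, c82300, c90280, c88302, c91265, c11867, c91468, c80921, c91482, c84417, c90289, c87136, c90275, c87953, c82275, c87917, trivial⟩ (nd (nat_lit 231) (nat_lit 0) (cs (rf (nat_lit 0)) (cs (nd (nat_lit 209) (nat_lit 0) (cs (rf (nat_lit 1)) (nd (nat_lit 275) (nat_lit 0) (cs (rf (nat_lit 2)) (rf (nat_lit 3)))))) (cs (nd (nat_lit 251) (nat_lit 0) (cs (rf (nat_lit 4)) (cs (rf (nat_lit 5)) (cs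 (rf (nat_lit 6)) (cs (nd (nat_lit 209) (nat_lit 0) (cs (rf (nat_lit 7)) (cs (rf (nat_lit 8)) (nd (nat_lit 273) (nat_lit 0) (cs (rf (nat_lit 9)) (cs (nd (nat_lit 295) (nat_lit 0) (cs (lf (nat_lit 30) (nat_lit 229)) (nd (nat_lit 229) (nat_lit 0) (cs (rf (nat_lit 10)) (nd (nat_lit 294) (nat_lit 0) (cs (lf (nat_lit 41) (nat_lit 228)) (nd (nat_lit 297) (nat_lit 0) (cs (nd (nat_lit 296) (nat_lit 0) (cs (lf (nat_lit 31) (nat_lit 208)) (nd (nat_lit 320) (nat_lit 0) (cs (lf (nat_lit 4) (nat_lit 294)) (nd (nat_lit 298) (nat_lit 0) (cs (lf (nat_lit 5) (nat_lit 295)) (nd (nat_lit 276) (nat_lit 0) (cs (lf (nat_lit 17) (nat_lit 273)) (lf (nat_lit 45) (nat_lit 231)))))))))) (cs (nd (nat_lit 296) (nat_lit 0) (cs (lf (nat_lit 31) (nat_lit 208)) (nd (nat_lit 319) (nat_lit 0) (cs (lf (nat_lit 5) (nat_lit 294)) (lf (nat_lit 44) (nat_lit 230)))))) (cs (nd (nat_lit 296) (nat_lit 0) (cs (lf (nat_lit 31) (nat_lit 208)) (nd (nat_lit 276) (nat_lit 0)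 (cs (lf (nat_lit 16) (nat_lit 272)) (nd (nat_lit 277) (nat_lit 0) (cs (lf (nat_lit 15) (nat_lit 273)) (lf (nat_lit 3) (nat_lit 251)))))))) (nd (nat_lit 275) (nat_lit 0) (cs (lf (nat_lit 42) (nat_lit 230)) (rf (nat_lit 11)))))))))))))) (cs (nd (nat_lit 229) (nat_lit 0) (cs (rf (nat_lit 10)) (nd (nat_lit 274) (nat_lit 0) (cs (lf (nat_lit 30) (nat_lit 208)) (rf (nat_lit 12)))))) (nd (nat_lit 295) (nat_lit 0) (cs (lf (nat_lit 30) (nat_lit 229)) (nd (nat_lit 254) (nat_lit 0) (cs (lf (nat_lit 11) (nat_lit 250)) (nd (nat_lit 228) (nat_lit 0) (cs (lf (nat_lit 22) (nat_lit 228)) (nd (nat_lit 276) (nat_lit 0) (cs (lf (nat_lit 5) (nat_lit 251)) (rf (nat_lit 13))))))))))))))))) (rf (nat_lit 14))))))) (cs (nd (nat_lit 229) (nat_lit 0) (cs (rf (nat_lit 15)) (rf (nat_lit 16)))) (cs (nd (nat_lit 229) (nat_lit 0) (cs (rf (nat_lit 15)) (cs (rf (nat_lit 17)) (rf (nat_lit 18))))) (nd (nat_lit 229) (nat_lit 0) (cs (rf (nat_lit 15)) (cs (rf (nat_lit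 19)) (nd (nat_lit 251) (nat_lit 0) (cs (rf (nat_lit 20)) (cs (rf (nat_lit 21)) (rf (nat_lit 14)))))))))))))) q91488 (by decide +kernel)
def q91852 : Q := Q.p (nat_lit 0x3000000000000000000000000000000000000000000000000000000000000000) (nat_lit 0x40000700001f80007e0000ff0004f8007ff0007e0003fe0007e0001500000000000000000000000000000000000) (nat_lit 18)
theorem c91852 : QOK q91852 := cut [q89690, q89871, q89876, q89928, q89990, q91589, q82275, q82278, q88896, q88302, q89895, q82300, q82301, q82309, q91060, q84964, q10061, q44056, q91844, q6264, q88839, q89870] ⟨c89690, c89871, c89876, c89928, c89990, c91589, c82275, c82278, c88896, c88302, c89895, c82300, c82301, c82309, c91060, c84964, c10061, c44056, c91844, c6264, c88839, c89870, trivial⟩ (nd (nat_lit 251) (nat_lit 0) (cs (rf (nat_lit 0)) (cs (rf (nat_lit 1)) (cs (rf (nat_lit 2)) (cs (rf (nat_lit 3)) (cs (rf (nat_lit 4)) (cs (rf (nat_lit 5)) (cs (nd (nat_lit 231) (nat_lit 0)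 (cs (rf (nat_lit 6)) (cs (rf (nat_lit 7)) (cs (rf (nat_lit 8)) (nd (nat_lit 273) (nat_lit 0) (cs (rf (nat_lit 9)) (cs (rf (nat_lit 10)) (nd (nat_lit 209) (nat_lit 0) (cs (rf (nat_lit 11)) (cs (rf (nat_lit 12)) (cs (rf (nat_lit 13)) (cs (rf (nat_lit 14)) (nd (nat_lit 275) (nat_lit 0) (cs (rf (nat_lit 15)) (cs (nd (nat_lit 188) (nat_lit 0) (cs (lf (nat_lit 34) (nat_lit 187)) (nd (nat_lit 208) (nat_lit 0) (cs (lf (nat_lit 47) (nat_lit 186)) (nd (nat_lit 230) (nat_lit 0) (cs (lf (nat_lit 42) (nat_lit 208)) (rf (nat_lit 16)))))))) (cs (nd (nat_lit 296) (nat_lit 0) (cs (lf (nat_lit 40) (nat_lit 208)) (nd (nat_lit 318) (nat_lit 0) (cs (lf (nat_lit 39) (nat_lit 230)) (nd (nat_lit 295) (nat_lit 0) (cs (lf (nat_lit 24) (nat_lit 229)) (rf (nat_lit 17)))))))) (nd (nat_lit 274) (nat_lit 0) (cs (lf (nat_lit 41) (nat_lit 208)) (nd (nat_lit 249) (nat_lit 0) (cs (lf (nat_lit 1) (nat_lit 249)) (rf (nat_lit 18)))))))))))))))))))))) (nd (nat_lit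 250) (nat_lit 0) (cs (rf (nat_lit 19)) (cs (rf (nat_lit 20)) (rf (nat_lit 21))))))))))))) q91852 (by decide +kernel)
def q91861 : Q := Q.p (nat_lit 0x3000000000000000000000000000000000000000000000000000000000000000) (nat_lit 0x140000700001c0001f40007fc0004e000ffc003ff000ffc000ff0001500000000000000000000000000000000000) (nat_lit 16)
theorem c91861 : QOK q91861 := cut [q88776, q82275, q82278, q88840, q88896, q90905, q90937, q90964, q91043, q91149, q91282, q91295, q91302, q88808, q82274, q82277, q26315, q87016, q90602, q91304, q91853, q88912, q88936, q79202] ⟨c88776, c82275, c82278, c88840, c88896, c90905, c90937, c90964, c91043, c91149, c91282, c91295, c91302, c88808, c82274, c82277, c26315, c87016, c90602, c91304, c91853, c88912, c88936, c79202, trivial⟩ (nd (nat_lit 231) (nat_lit 0) (cs (rf (nat_lit 0)) (cs (nd (nat_lit 251) (nat_lit 0) (cs (rf (nat_lit 1)) (cs (rf (nat_lit 2)) (cs (rf (nat_lit 3)) (rf (nat_lit 4)))))) (cs (rf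 (nat_lit 5)) (cs (rf (nat_lit 6)) (cs (rf (nat_lit 7)) (cs (rf (nat_lit 8)) (cs (rf (nat_lit 9)) (cs (rf (nat_lit 10)) (cs (rf (nat_lit 11)) (cs (rf (nat_lit 12)) (nd (nat_lit 251) (nat_lit 0) (cs (rf (nat_lit 1)) (cs (rf (nat_lit 2)) (cs (rf (nat_lit 13)) (nd (nat_lit 232) (nat_lit 0) (cs (rf (nat_lit 14)) (cs (rf (nat_lit 15)) (nd (nat_lit 275) (nat_lit 0) (cs (rf (nat_lit 16)) (cs (rf (nat_lit 17)) (cs (nd (nat_lit 209) (nat_lit 0) (cs (rf (nat_lit 18)) (cs (rf (nat_lit 19)) (nd (nat_lit 186) (nat_lit 0) (cs (lf (nat_lit 46) (nat_lit 186)) (rf (nat_lit 20))))))) (nd (nat_lit 297) (nat_lit 0) (cs (rf (nat_lit 21)) (cs (rf (nat_lit 22)) (nd (nat_lit 254) (nat_lit 0) (cs (lf (nat_lit 30) (nat_lit 231)) (rf (nat_lit 23))))))))))))))))))))))))))))) q91861 (by decide +kernel)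
def q91881 : Q := Q.p (nat_lit 0x3000000000000000000000000000000000000000000000000000000000000000) (nat_lit 0xa00003e0000fc000ffc001ff000ffc0004f0003fc0003c0000f00003c0000a00000000000000000000000000000000000) (nat_lit 19)
theorem c91881 : QOK q91881 := cut [q91674, q91680, q91685, q91778, q91794, q91796, q91813, q91831, q91832, q91833, q91834, q90323, q91783, q91788, q91877, q88302, q90909, q91866, q91786] ⟨c91674, c91680, c91685, c91778, c91794, c91796, c91813, c91831, c91832, c91833, c91834, c90323, c91783, c91788, c91877, c88302, c90909, c91866, c91786, trivial⟩ (nd (nat_lit 274) (nat_lit 0) (cs (rf (nat_lit 0)) (cs (rf (nat_lit 1)) (cs (rf (nat_lit 2)) (cs (rf (nat_lit 3)) (cs (rf (nat_lit 4)) (cs (rf (nat_lit 5)) (cs (rf (nat_lit 6)) (cs (rf (nat_lit 7)) (cs (rf (nat_lit 8)) (cs (rf (nat_lit 9)) (cs (rf (nat_lit 10)) (cs (nd (nat_lit 273) (nat_lit 0) (cs (rf (nat_lit 11)) (cs (rf (nat_lit 12)) (cs (rf (nat_lit 13)) (cs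 (rf (nat_lit 14)) (nd (nat_lit 251) (nat_lit 0) (cs (rf (nat_lit 15)) (cs (rf (nat_lit 16)) (rf (nat_lit 17)))))))))) (nd (nat_lit 273) (nat_lit 0) (cs (rf (nat_lit 11)) (cs (rf (nat_lit 12)) (cs (rf (nat_lit 18)) (cs (rf (nat_lit 13)) (rf (nat_lit 14)))))))))))))))))))) q91881 (by decide +kernel)
def q92142 : Q := Q.p (nat_lit 0x3000000000000000000000000000000000000000000000000000000000000000) (nat_lit 0x1500007e0007f8001ff0007fc0000e0007fc001ff000ffc003fe0001e00000000000000000000000000000000000) (nat_lit 17)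
theorem c92142 : QOK q92142 := cut [q90964, q91061, q91442, q91896, q92009, q92066, q92097, q82300, q82301, q82309, q91060, q82318, q88914, q90993, q82275, q89827, q4090, q80750, q82299, q92102, q88932, q91430, q84611, q91440, q91882, q92113, q81477, q91971, q92114, q4198, q92120, q82380, q84964, q88739, q91160, q80881, q81837, q91409, q88898, q91380, q82342, q40802, q81820, q81007, q82288, q91682, q92131, q1563, q85065, q91044, q91056] ⟨c90964, c91061, c91442, c91896, c92009, c92066, c92097, c82300, c82301, c82309, c91060, c82318, c88914, c90993, c82275, c89827, c4090, c80750, c82299, c92102, c88932, c91430, c84611, c91440, c91882, c92113, c81477, c91971, c92114, c4198, c92120, c82380, c84964, c88739, c91160, c80881, c81837, c91409, c88898, c91380, c82342, c40802, c81820, c81007, c82288, c91682, c92131, c1563, c85065, c91044, c91056, trivial⟩ (nd (nat_lit 231) (nat_lit 0) (cs (rf (nat_lit 0)) (cs (rf (nat_lit 1)) (cs (rf (nat_lit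 2)) (cs (rf (nat_lit 3)) (cs (rf (nat_lit 4)) (cs (rf (nat_lit 5)) (cs (rf (nat_lit 6)) (cs (nd (nat_lit 209) (nat_lit 0) (cs (rf (nat_lit 7)) (cs (rf (nat_lit 8)) (cs (rf (nat_lit 9)) (cs (rf (nat_lit 10)) (nd (nat_lit 275) (nat_lit 0) (cs (rf (nat_lit 11)) (cs (rf (nat_lit 12)) (nd (nat_lit 210) (nat_lit 0) (cs (lf (nat_lit 35) (nat_lit 187)) (rf (nat_lit 13)))))))))))) (cs (nd (nat_lit 251) (nat_lit 0) (cs (rf (nat_lit 14)) (cs (rf (nat_lit 15)) (nd (nat_lit 209) (nat_lit 0) (cs (rf (nat_lit 8)) (cs (rf (nat_lit 9)) (cs (nd (nat_lit 187) (nat_lit 0) (cs (rf (nat_lit 16)) (cs (rf (nat_lit 17)) (cs (rf (nat_lit 18)) (nd (nat_lit 164) (nat_lit 0) (cs (lf (nat_lit 46) (nat_lit 164)) (rf (nat_lit 19)))))))) (nd (nat_lit 275) (nat_lit 0) (cs (rf (nat_lit 12)) (cs (rf (nat_lit 20)) (rf (nat_lit 21)))))))))))) (cs (nd (nat_lit 251) (nat_lit 0) (cs (rf (nat_lit 14)) (cs (rf (nat_lit 15)) (nd (nat_lit 274) (nat_lit 0) (cs (rf (nat_lit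 22)) (cs (rf (nat_lit 23)) (cs (nd (nat_lit 275) (nat_lit 0) (cs (nd (nat_lit 276) (nat_lit 0) (cs (lf (nat_lit 18) (nat_lit 251)) (nd (nat_lit 209) (nat_lit 0) (cs (lf (nat_lit 29) (nat_lit 209)) (rf (nat_lit 24)))))) (cs (rf (nat_lit 25)) (nd (nat_lit 230) (nat_lit 0) (cs (rf (nat_lit 26)) (cs (rf (nat_lit 27)) (nd (nat_lit 208) (nat_lit 0) (cs (lf (nat_lit 24) (nat_lit 186)) (nd (nat_lit 232) (nat_lit 0) (cs (lf (nat_lit 6) (nat_lit 229)) (nd (nat_lit 273) (nat_lit 0) (cs (lf (nat_lit 41) (nat_lit 207)) (rf (nat_lit 28)))))))))))))) (cs (nd (nat_lit 275) (nat_lit 0) (cs (rf (nat_lit 29)) (cs (rf (nat_lit 25)) (rf (nat_lit 30))))) (nd (nat_lit 296) (nat_lit 0) (cs (lf (nat_lit 30) (nat_lit 230)) (nd (nat_lit 230) (nat_lit 0) (cs (lf (nat_lit 35) (nat_lit 208)) (rf (nat_lit 31)))))))))))))) (cs (nd (nat_lit 209) (nat_lit 0) (cs (rf (nat_lit 7)) (cs (rf (nat_lit 8)) (cs (rf (nat_lit 9)) (cs (rf (nat_lit 10)) (nd (nat_lit 275)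 (nat_lit 0) (cs (rf (nat_lit 32)) (cs (rf (nat_lit 33)) (cs (rf (nat_lit 12)) (rf (nat_lit 34))))))))))) (cs (nd (nat_lit 251) (nat_lit 0) (cs (rf (nat_lit 14)) (cs (rf (nat_lit 15)) (nd (nat_lit 274) (nat_lit 0) (cs (rf (nat_lit 35)) (cs (rf (nat_lit 36)) (cs (rf (nat_lit 37)) (cs (nd (nat_lit 275) (nat_lit 0) (cs (rf (nat_lit 38)) (cs (rf (nat_lit 39)) (nd (nat_lit 209) (nat_lit 0) (cs (lf (nat_lit 36) (nat_lit 186)) (rf (nat_lit 40))))))) (nd (nat_lit 296) (nat_lit 0) (cs (rf (nat_lit 41)) (cs (rf (nat_lit 42)) (nd (nat_lit 230) (nat_lit 0) (cs (rf (nat_lit 43)) (cs (rf (nat_lit 44)) (cs (rf (nat_lit 45)) (nd (nat_lit 229) (nat_lit 0) (cs (lf (nat_lit 47) (nat_lit 207)) (nd (nat_lit 297) (nat_lit 0) (cs (lf (nat_lit 29) (nat_lit 230)) (nd (nat_lit 228) (nat_lit 0) (cs (lf (nat_lit 0) (nat_lit 227)) (nd (nat_lit 295) (nat_lit 0) (cs (lf (nat_lit 41) (nat_lit 229)) (rf (nat_lit 46))))))))))))))))))))))))) (nd (nat_lit 209)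 (nat_lit 0) (cs (rf (nat_lit 7)) (cs (rf (nat_lit 8)) (cs (rf (nat_lit 9)) (cs (rf (nat_lit 10)) (nd (nat_lit 208) (nat_lit 0) (cs (rf (nat_lit 47)) (cs (rf (nat_lit 48)) (cs (rf (nat_lit 49)) (rf (nat_lit 50)))))))))))))))))))))))) q92142 (by decide +kernel)
def q92344 : Q := Q.p (nat_lit 0x7000000000000000000000000000000000000000000000000000000000000000) (nat_lit 0x1780008c0007f8000ec000380000e00000000000000000000000000000000000000000) (nat_lit 12)
theorem c92344 : QOK q92344 := cut [q81729, q92239, q92334] ⟨c81729, c92239, c92334, trivial⟩ (nd (nat_lit 251) (nat_lit 0) (cs (rf (nat_lit 0)) (cs (rf (nat_lit 1)) (rf (nat_lit 2))))) q92344 (by decide +kernel)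
def q92609 : Q := Q.p (nat_lit 0x3000000000000000000000000000000000000000000000000000000000000000) (nat_lit 0x1080007e0007ff001ff8007ff007ff800fff001ff000cfc00fbf001ff0003f8000fe0002a80000000000000000000000000000000000) (nat_lit 19)
theorem c92609 : QOK q92609 := cut [q89928, q92346, q92391, q92392, q92393, q82566, q44162, q86356, q64700, q92457, q92570, q82567, q82570, q25255, q92588, q92592, q92600, q92601, q81729, q92239, q92604, q92608] ⟨c89928, c92346, c92391, c92392, c92393, c82566, c44162, c86356, c64700, c92457, c92570, c82567, c82570, c25255, c92588, c92592, c92600, c92601, c81729, c92239, c92604, c92608, trivial⟩ (nd (nat_lit 251) (nat_lit 0) (cs (rf (nat_lit 0)) (cs (nd (nat_lit 273) (nat_lit 0) (cs (rf (nat_lit 1)) (cs (rf (nat_lit 2)) (cs (nd (nat_lit 316) (nat_lit 0) (cs (nd (nat_lit 229) (nat_lit 0) (cs (rf (nat_lit 3)) (cs (nd (nat_lit 294) (nat_lit 0) (cs (lf (nat_lit 39) (nat_lit 228)) (rf (nat_lit 4)))) (nd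 (nat_lit 295) (nat_lit 0) (cs (lf (nat_lit 40) (nat_lit 228)) (rf (nat_lit 5))))))) (cs (nd (nat_lit 294) (nat_lit 0) (cs (nd (nat_lit 229) (nat_lit 0) (cs (lf (nat_lit 39) (nat_lit 228)) (rf (nat_lit 4)))) (cs (nd (nat_lit 338) (nat_lit 0) (cs (lf (nat_lit 33) (nat_lit 250)) (nd (nat_lit 360) (nat_lit 0) (cs (rf (nat_lit 6)) (cs (nd (nat_lit 381) (nat_lit 0) (cs (lf (nat_lit 40) (nat_lit 293)) (nd (nat_lit 293) (nat_lit 0) (cs (lf (nat_lit 47) (nat_lit 271)) (rf (nat_lit 7)))))) (cs (nd (nat_lit 361) (nat_lit 0) (cs (lf (nat_lit 29) (nat_lit 294)) (nd (nat_lit 336) (nat_lit 0) (cs (nd (nat_lit 271) (nat_lit 0) (cs (lf (nat_lit 46) (nat_lit 271)) (nd (nat_lit 335) (nat_lit 0) (cs (nd (nat_lit 359) (nat_lit 0) (cs (lf (nat_lit 41) (nat_lit 293)) (lf (nat_lit 21) (nat_lit 335)))) (lf (nat_lit 2) (nat_lit 335)))))) (cs (nd (nat_lit 271) (nat_lit 0) (cs (lf (nat_lit 46) (nat_lit 271)) (nd (nat_lit 359) (nat_lit 0) (cs (lf (nat_lit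 41) (nat_lit 293)) (nd (nat_lit 358) (nat_lit 0) (cs (lf (nat_lit 23) (nat_lit 335)) (nd (nat_lit 339) (nat_lit 0) (cs (lf (nat_lit 12) (nat_lit 335)) (lf (nat_lit 17) (nat_lit 336)))))))))) (cs (nd (nat_lit 271) (nat_lit 0) (cs (lf (nat_lit 46) (nat_lit 271)) (nd (nat_lit 359) (nat_lit 0) (cs (lf (nat_lit 41) (nat_lit 293)) (nd (nat_lit 362) (nat_lit 0) (cs (lf (nat_lit 22) (nat_lit 336)) (nd (nat_lit 384) (nat_lit 0) (cs (lf (nat_lit 5) (nat_lit 359)) (nd (nat_lit 340) (nat_lit 0) (cs (lf (nat_lit 17) (nat_lit 337)) (nd (nat_lit 339) (nat_lit 0) (cs (lf (nat_lit 12) (nat_lit 336)) (nd (nat_lit 406) (nat_lit 0) (cs (lf (nat_lit 42) (nat_lit 339)) (lf (nat_lit 47) (nat_lit 317)))))))))))))))) (nd (nat_lit 337) (nat_lit 0) (cs (lf (nat_lit 0) (nat_lit 335)) (nd (nat_lit 362) (nat_lit 0) (cs (lf (nat_lit 18) (nat_lit 337)) (lf (nat_lit 3) (nat_lit 336)))))))))))) (nd (nat_lit 383) (nat_lit 0) (cs (lf (nat_lit 28) (nat_lit 294))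 (nd (nat_lit 382) (nat_lit 0) (cs (lf (nat_lit 29) (nat_lit 316)) (nd (nat_lit 293) (nat_lit 0) (cs (lf (nat_lit 47) (nat_lit 271)) (lf (nat_lit 46) (nat_lit 293)))))))))))))) (nd (nat_lit 295) (nat_lit 0) (cs (lf (nat_lit 36) (nat_lit 228)) (rf (nat_lit 8))))))) (cs (rf (nat_lit 9)) (cs (rf (nat_lit 10)) (nd (nat_lit 295) (nat_lit 0) (cs (rf (nat_lit 11)) (cs (nd (nat_lit 317) (nat_lit 0) (cs (lf (nat_lit 41) (nat_lit 250)) (rf (nat_lit 12)))) (nd (nat_lit 317) (nat_lit 0) (cs (lf (nat_lit 41) (nat_lit 250)) (nd (nat_lit 315) (nat_lit 0) (cs (rf (nat_lit 13)) (cs (nd (nat_lit 296) (nat_lit 0) (cs (lf (nat_lit 12) (nat_lit 292)) (nd (nat_lit 297) (nat_lit 0) (cs (lf (nat_lit 6) (nat_lit 294)) (lf (nat_lit 9) (nat_lit 293)))))) (nd (nat_lit 318) (nat_lit 0) (cs (lf (nat_lit 29) (nat_lit 251)) (nd (nat_lit 292) (nat_lit 0) (cs (lf (nat_lit 22) (nat_lit 292)) (nd (nat_lit 336) (nat_lit 0) (cs (lf (nat_lit 10) (nat_lit 314)) (nd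 (nat_lit 297) (nat_lit 0) (cs (lf (nat_lit 16) (nat_lit 293)) (nd (nat_lit 319) (nat_lit 0) (cs (lf (nat_lit 17) (nat_lit 294)) (nd (nat_lit 320) (nat_lit 0) (cs (lf (nat_lit 23) (nat_lit 294)) (nd (nat_lit 342) (nat_lit 0) (cs (lf (nat_lit 4) (nat_lit 316)) (lf (nat_lit 25) (nat_lit 253))))))))))))))))))))))))))))) (rf (nat_lit 14)))))) (cs (rf (nat_lit 15)) (cs (rf (nat_lit 16)) (cs (rf (nat_lit 17)) (cs (nd (nat_lit 254) (nat_lit 0) (cs (rf (nat_lit 18)) (cs (rf (nat_lit 19)) (rf (nat_lit 20))))) (rf (nat_lit 21))))))))) q92609 (by decide +kernel)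
def q92763 : Q := Q.p (nat_lit 0x3000008000000000000000000000000000000000000000000000000000000000) (nat_lit 0x7e0001fe0001f8001c6000778001de0001e0000780000800000000000000000000000000000000000) (nat_lit 15)
theorem c92763 : QOK q92763 := cut [q92712, q6259, q92713, q92725, q92728, q85044, q91962, q92731, q92734, q92730, q92742, q92757, q92761] ⟨c92712, c6259, c92713, c92725, c92728, c85044, c91962, c92731, c92734, c92730, c92742, c92757, c92761, trivial⟩ (nd (nat_lit 230) (nat_lit 0) (cs (rf (nat_lit 0)) (cs (nd (nat_lit 208) (nat_lit 0) (cs (rf (nat_lit 1)) (rf (nat_lit 2)))) (cs (rf (nat_lit 3)) (cs (rf (nat_lit 4)) (nd (nat_lit 274) (nat_lit 0) (cs (rf (nat_lit 5)) (cs (rf (nat_lit 6)) (cs (rf (nat_lit 7)) (cs (nd (nat_lit 296) (nat_lit 0) (cs (lf (nat_lit 30) (nat_lit 230)) (nd (nat_lit 297) (nat_lit 0) (cs (lf (nat_lit 29) (nat_lit 230)) (nd (nat_lit 275) (nat_lit 0) (cs (lf (nat_lit 47) (nat_lit 208)) (nd (nat_lit 298)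 (nat_lit 0) (cs (lf (nat_lit 29) (nat_lit 231)) (rf (nat_lit 8)))))))))) (cs (nd (nat_lit 275) (nat_lit 0) (cs (rf (nat_lit 9)) (cs (rf (nat_lit 10)) (cs (nd (nat_lit 296) (nat_lit 0) (cs (lf (nat_lit 30) (nat_lit 230)) (nd (nat_lit 295) (nat_lit 0) (cs (lf (nat_lit 41) (nat_lit 229)) (nd (nat_lit 293) (nat_lit 0) (cs (lf (nat_lit 13) (nat_lit 271)) (nd (nat_lit 297) (nat_lit 0) (cs (lf (nat_lit 42) (nat_lit 230)) (nd (nat_lit 298) (nat_lit 0) (cs (lf (nat_lit 29) (nat_lit 231)) (nd (nat_lit 299) (nat_lit 0) (cs (lf (nat_lit 18) (nat_lit 274)) (nd (nat_lit 321) (nat_lit 0) (cs (lf (nat_lit 5) (nat_lit 296)) (nd (nat_lit 232) (nat_lit 0) (cs (lf (nat_lit 35) (nat_lit 209)) (nd (nat_lit 233) (nat_lit 0) (cs (lf (nat_lit 6) (nat_lit 230)) (nd (nat_lit 255) (nat_lit 0) (cs (lf (nat_lit 5) (nat_lit 230)) (nd (nat_lit 254) (nat_lit 0) (cs (lf (nat_lit 23) (nat_lit 229)) (lf (nat_lit 26) (nat_lit 232)))))))))))))))))))))))) (rf (nat_lit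 11)))))) (rf (nat_lit 12))))))))))))) q92763 (by decide +kernel)
def q92966 : Q := Q.p (nat_lit 0x3000008000000000000000000000000000000000000000000000000000000000) (nat_lit 0xe000078000178001c6000778001ff0007f8000fc0001000000000000000000000000000000000000) (nat_lit 14)
theorem c92966 : QOK q92966 := cut [q92712, q92854, q92922, q84417, q84429, q84418, q92726, q80237, q79097, q85044, q84624, q92920, q92926, q92942, q84629, q85050, q92943, q92958, q92963] ⟨c92712, c92854, c92922, c84417, c84429, c84418, c92726, c80237, c79097, c85044, c84624, c92920, c92926, c92942, c84629, c85050, c92943, c92958, c92963, trivial⟩ (nd (nat_lit 230) (nat_lit 0) (cs (rf (nat_lit 0)) (cs (rf (nat_lit 1)) (cs (rf (nat_lit 2)) (cs (nd (nat_lit 229) (nat_lit 0) (cs (rf (nat_lit 3)) (cs (rf (nat_lit 4)) (nd (nat_lit 232) (nat_lit 0) (cs (rf (nat_lit 5)) (cs (rf (nat_lit 6)) (nd (nat_lit 254) (nat_lit 0) (cs (lf (nat_lit 5) (nat_lit 229)) (rf (nat_lit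 7)))))))))) (cs (nd (nat_lit 274) (nat_lit 0) (cs (rf (nat_lit 8)) (cs (rf (nat_lit 9)) (nd (nat_lit 208) (nat_lit 0) (cs (rf (nat_lit 10)) (cs (rf (nat_lit 11)) (rf (nat_lit 12)))))))) (cs (rf (nat_lit 13)) (nd (nat_lit 274) (nat_lit 0) (cs (rf (nat_lit 8)) (cs (rf (nat_lit 9)) (nd (nat_lit 232) (nat_lit 0) (cs (rf (nat_lit 14)) (cs (rf (nat_lit 15)) (cs (nd (nat_lit 187) (nat_lit 0) (cs (lf (nat_lit 37) (nat_lit 186)) (nd (nat_lit 233) (nat_lit 0) (cs (lf (nat_lit 6) (nat_lit 230)) (nd (nat_lit 255) (nat_lit 0) (cs (lf (nat_lit 5) (nat_lit 230)) (nd (nat_lit 211) (nat_lit 0) (cs (lf (nat_lit 17) (nat_lit 208)) (nd (nat_lit 210) (nat_lit 0) (cs (lf (nat_lit 12) (nat_lit 207)) (nd (nat_lit 188) (nat_lit 0) (cs (lf (nat_lit 24) (nat_lit 166)) (nd (nat_lit 186) (nat_lit 0) (cs (lf (nat_lit 0) (nat_lit 185)) (rf (nat_lit 16)))))))))))))))) (cs (rf (nat_lit 17)) (rf (nat_lit 18))))))))))))))))) q92966 (by decide +kernel)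
def q93177 : Q := Q.p (nat_lit 0x3000008000000000000000000000000000000000000000000000000000000000) (nat_lit 0x60000580001f0001c0001f7000ffe001ff8000f00003400000000000000000000000000000000000) (nat_lit 13)
theorem c93177 : QOK q93177 := cut [q82309, q92707, q92710, q7464, q85101, q85105, q90969, q84970, q79043, q93174, q84304, q84315, q84320] ⟨c82309, c92707, c92710, c7464, c85101, c85105, c90969, c84970, c79043, c93174, c84304, c84315, c84320, trivial⟩ (nd (nat_lit 209) (nat_lit 0) (cs (rf (nat_lit 0)) (cs (rf (nat_lit 1)) (cs (rf (nat_lit 2)) (nd (nat_lit 210) (nat_lit 0) (cs (rf (nat_lit 3)) (cs (nd (nat_lit 211) (nat_lit 0) (cs (rf (nat_lit 4)) (cs (rf (nat_lit 5)) (cs (rf (nat_lit 6)) (cs (nd (nat_lit 275) (nat_lit 0) (cs (lf (nat_lit 35) (nat_lit 187)) (nd (nat_lit 208) (nat_lit 0) (cs (lf (nat_lit 47) (nat_lit 186)) (nd (nat_lit 276) (nat_lit 0) (cs (lf (nat_lit 29) (nat_lit 209)) (nd (nat_lit 190) (nat_lit 0) (cs (lf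 (nat_lit 16) (nat_lit 186)) (nd (nat_lit 274) (nat_lit 0) (cs (lf (nat_lit 41) (nat_lit 208)) (rf (nat_lit 7)))))))))))) (nd (nat_lit 275) (nat_lit 0) (cs (lf (nat_lit 35) (nat_lit 187)) (nd (nat_lit 208) (nat_lit 0) (cs (lf (nat_lit 47) (nat_lit 186)) (nd (nat_lit 276) (nat_lit 0) (cs (lf (nat_lit 29) (nat_lit 209)) (nd (nat_lit 189) (nat_lit 0) (cs (lf (nat_lit 17) (nat_lit 186)) (nd (nat_lit 233) (nat_lit 0) (cs (lf (nat_lit 5) (nat_lit 208)) (nd (nat_lit 254) (nat_lit 0) (cs (lf (nat_lit 39) (nat_lit 188)) (nd (nat_lit 230) (nat_lit 0) (cs (lf (nat_lit 11) (nat_lit 207)) (nd (nat_lit 274) (nat_lit 0) (cs (lf (nat_lit 41) (nat_lit 208)) (rf (nat_lit 8))))))))))))))))))))))) (cs (rf (nat_lit 9)) (nd (nat_lit 211) (nat_lit 0) (cs (rf (nat_lit 10)) (cs (rf (nat_lit 11)) (cs (rf (nat_lit 12)) (rf (nat_lit 6)))))))))))))) q93177 (by decide +kernel)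
def q93548 : Q := Q.p (nat_lit 0x3000000000000000000000000000000000000000000000000000000000000000) (nat_lit 0x1c0000f00007d0001bf000cf800fff003fff00fff800fff003fe0007f80007e00005800000000000000000) (nat_lit 19)
theorem c93548 : QOK q93548 := cut [q89928, q92671, q82198, q92392, q93286, q18041, q18528, q32769, q27362, q27366, q27377, q27380, q2019, q93385, q93479, q85295, q3175, q83513, q83522, q83525, q85353, q85380, q90204, q82219, q85302, q85306, q90209, q93494, q1857, q85404, q93498, q5481, q11483, q85444, q85409, q85412, q85415, q93505, q93509, q93525, q93526, q93536, q93539, q89874, q90250, q93545, q79013, q79256, q81729, q92263] ⟨c89928, c92671, c82198, c92392, c93286, c18041, c18528, c32769, c27362, c27366, c27377, c27380, c2019, c93385, c93479, c85295, c3175, c83513, c83522, c83525, c85353, c85380, c90204, c82219, c85302, c85306, c90209, c93494, c1857, c85404, c93498, c5481, c11483, c85444, c85409, c85412, c85415, c93505,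 c93509, c93525, c93526, c93536, c93539, c89874, c90250, c93545, c79013, c79256, c81729, c92263, trivial⟩ (nd (nat_lit 251) (nat_lit 0) (cs (rf (nat_lit 0)) (cs (rf (nat_lit 1)) (cs (nd (nat_lit 229) (nat_lit 0) (cs (rf (nat_lit 2)) (cs (nd (nat_lit 184) (nat_lit 0) (cs (nd (nat_lit 273) (nat_lit 0) (cs (rf (nat_lit 3)) (cs (nd (nat_lit 206) (nat_lit 0) (cs (lf (nat_lit 45) (nat_lit 184)) (rf (nat_lit 4)))) (nd (nat_lit 272) (nat_lit 0) (cs (lf (nat_lit 6) (nat_lit 250)) (nd (nat_lit 207) (nat_lit 0) (cs (lf (nat_lit 41) (nat_lit 206)) (lf (nat_lit 46) (nat_lit 184))))))))) (cs (nd (nat_lit 206) (nat_lit 0) (cs (nd (nat_lit 273) (nat_lit 0) (cs (lf (nat_lit 45) (nat_lit 184)) (rf (nat_lit 4)))) (cs (nd (nat_lit 162) (nat_lit 0) (cs (lf (nat_lit 27) (nat_lit 162)) (nd (nat_lit 140) (nat_lit 0) (cs (rf (nat_lit 5)) (cs (rf (nat_lit 6)) (cs (rf (nat_lit 7)) (nd (nat_lit 141) (nat_lit 0) (cs (lf (nat_lit 35) (nat_lit 118)) (nd (nat_lit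 160) (nat_lit 0) (cs (rf (nat_lit 8)) (cs (rf (nat_lit 9)) (cs (rf (nat_lit 10)) (nd (nat_lit 205) (nat_lit 0) (cs (lf (nat_lit 41) (nat_lit 139)) (rf (nat_lit 11)))))))))))))))) (nd (nat_lit 207) (nat_lit 0) (cs (lf (nat_lit 42) (nat_lit 184)) (rf (nat_lit 12))))))) (cs (nd (nat_lit 254) (nat_lit 0) (cs (lf (nat_lit 23) (nat_lit 228)) (rf (nat_lit 13)))) (cs (rf (nat_lit 14)) (nd (nat_lit 207) (nat_lit 0) (cs (rf (nat_lit 15)) (cs (nd (nat_lit 185) (nat_lit 0) (cs (lf (nat_lit 47) (nat_lit 162)) (nd (nat_lit 186) (nat_lit 0) (cs (lf (nat_lit 35) (nat_lit 163)) (nd (nat_lit 208) (nat_lit 0) (cs (lf (nat_lit 30) (nat_lit 185)) (rf (nat_lit 16)))))))) (nd (nat_lit 185) (nat_lit 0) (cs (lf (nat_lit 47) (nat_lit 162)) (nd (nat_lit 183) (nat_lit 0) (cs (rf (nat_lit 17)) (cs (rf (nat_lit 18)) (rf (nat_lit 19))))))))))))))) (cs (nd (nat_lit 207) (nat_lit 0) (cs (rf (nat_lit 20)) (cs (rf (nat_lit 21)) (cs (rf (nat_lit 22)) (cs (nd (nat_lit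 186) (nat_lit 0) (cs (rf (nat_lit 23)) (cs (rf (nat_lit 24)) (cs (rf (nat_lit 25)) (rf (nat_lit 26)))))) (cs (rf (nat_lit 27)) (cs (nd (nat_lit 208) (nat_lit 0) (cs (rf (nat_lit 28)) (cs (rf (nat_lit 29)) (rf (nat_lit 30))))) (nd (nat_lit 185) (nat_lit 0) (cs (rf (nat_lit 31)) (cs (rf (nat_lit 32)) (cs (rf (nat_lit 33)) (nd (nat_lit 208) (nat_lit 0) (cs (rf (nat_lit 34)) (cs (rf (nat_lit 35)) (cs (rf (nat_lit 36)) (rf (nat_lit 30))))))))))))))))) (rf (nat_lit 37)))))) (cs (rf (nat_lit 38)) (cs (rf (nat_lit 39)) (cs (rf (nat_lit 40)) (cs (rf (nat_lit 41)) (cs (rf (nat_lit 42)) (cs (nd (nat_lit 250) (nat_lit 0) (cs (rf (nat_lit 43)) (cs (rf (nat_lit 44)) (rf (nat_lit 45))))) (nd (nat_lit 254) (nat_lit 0) (cs (rf (nat_lit 46)) (cs (rf (nat_lit 47)) (cs (rf (nat_lit 48)) (rf (nat_lit 49)))))))))))))))) q93548 (by decide +kernel)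
def q93671 : Q := Q.p (nat_lit 0x3000004000000000000000000000000000000000000000000000000000000000) (nat_lit 0x300001f0001fe0001f80018e0007b8001ee0001f00007c0000400000000000000000000000000000000000) (nat_lit 16)
theorem c93671 : QOK q93671 := cut [q82309, q87865, q93564, q93573, q92842, q92994, q91408, q93574, q12665, q93580, q93588, q93602, q93633, q93010, q87115, q93644, q93670] ⟨c82309, c87865, c93564, c93573, c92842, c92994, c91408, c93574, c12665, c93580, c93588, c93602, c93633, c93010, c87115, c93644, c93670, trivial⟩ (nd (nat_lit 231) (nat_lit 0) (cs (nd (nat_lit 209) (nat_lit 0) (cs (rf (nat_lit 0)) (cs (rf (nat_lit 1)) (rf (nat_lit 2))))) (cs (rf (nat_lit 3)) (cs (nd (nat_lit 209) (nat_lit 0) (cs (rf (nat_lit 0)) (cs (rf (nat_lit 1)) (nd (nat_lit 275) (nat_lit 0) (cs (rf (nat_lit 4)) (cs (rf (nat_lit 5)) (cs (nd (nat_lit 274) (nat_lit 0) (cs (rf (nat_lit 6)) (nd (nat_lit 273) (nat_lit 0) (cs (nd (nat_lit 276) (nat_lit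 0) (cs (lf (nat_lit 29) (nat_lit 209)) (nd (nat_lit 251) (nat_lit 0) (cs (lf (nat_lit 0) (nat_lit 250)) (rf (nat_lit 7)))))) (cs (nd (nat_lit 276) (nat_lit 0) (cs (lf (nat_lit 29) (nat_lit 209)) (nd (nat_lit 188) (nat_lit 0) (cs (lf (nat_lit 34) (nat_lit 187)) (rf (nat_lit 8)))))) (cs (nd (nat_lit 188) (nat_lit 0) (cs (lf (nat_lit 34) (nat_lit 187)) (nd (nat_lit 272) (nat_lit 0) (cs (lf (nat_lit 12) (nat_lit 249)) (rf (nat_lit 9)))))) (nd (nat_lit 272) (nat_lit 0) (cs (lf (nat_lit 12) (nat_lit 249)) (nd (nat_lit 276) (nat_lit 0) (cs (lf (nat_lit 29) (nat_lit 209)) (nd (nat_lit 250) (nat_lit 0) (cs (lf (nat_lit 23) (nat_lit 249)) (lf (nat_lit 1) (nat_lit 250)))))))))))))) (nd (nat_lit 274) (nat_lit 0) (cs (lf (nat_lit 30) (nat_lit 208)) (rf (nat_lit 10))))))))))) (cs (rf (nat_lit 11)) (cs (nd (nat_lit 209) (nat_lit 0) (cs (rf (nat_lit 0)) (cs (rf (nat_lit 1)) (rf (nat_lit 12))))) (cs (nd (nat_lit 209) (nat_lit 0) (cs (rf (nat_lit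 0)) (cs (rf (nat_lit 1)) (nd (nat_lit 275) (nat_lit 0) (cs (rf (nat_lit 13)) (cs (rf (nat_lit 10)) (nd (nat_lit 274) (nat_lit 0) (cs (lf (nat_lit 30) (nat_lit 208)) (nd (nat_lit 276) (nat_lit 0) (cs (lf (nat_lit 29) (nat_lit 209)) (nd (nat_lit 251) (nat_lit 0) (cs (lf (nat_lit 0) (nat_lit 250)) (nd (nat_lit 232) (nat_lit 0) (cs (lf (nat_lit 6) (nat_lit 229)) (rf (nat_lit 14)))))))))))))))) (cs (rf (nat_lit 15)) (rf (nat_lit 16)))))))))) q93671 (by decide +kernel)
def q93758 : Q := Q.p (nat_lit 0x3000004000000000000000000000000000000000000000000000000000000000) (nat_lit 0x280001f0001fe0001f80018e0007b8001fe0001b00006c0000000000000000000000000000000000000000) (nat_lit 16)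
theorem c93758 : QOK q93758 := cut [q93573, q93602, q93644, q93670, q85470, q92842, q79097, q91956, q87979, q80169, q93633, q93692, q93564] ⟨c93573, c93602, c93644, c93670, c85470, c92842, c79097, c91956, c87979, c80169, c93633, c93692, c93564, trivial⟩ (nd (nat_lit 231) (nat_lit 0) (cs (rf (nat_lit 0)) (cs (rf (nat_lit 1)) (cs (rf (nat_lit 2)) (cs (rf (nat_lit 3)) (cs (nd (nat_lit 275) (nat_lit 0) (cs (rf (nat_lit 4)) (cs (rf (nat_lit 5)) (nd (nat_lit 274) (nat_lit 0) (cs (rf (nat_lit 6)) (cs (nd (nat_lit 296) (nat_lit 0) (cs (lf (nat_lit 30) (nat_lit 230)) (nd (nat_lit 295) (nat_lit 0) (cs (lf (nat_lit 41) (nat_lit 229)) (nd (nat_lit 293) (nat_lit 0) (cs (lf (nat_lit 13) (nat_lit 271)) (nd (nat_lit 273) (nat_lit 0) (cs (lf (nat_lit 36) (nat_lit 207)) (rf (nat_lit 7)))))))))) (nd (nat_lit 273) (nat_lit 0) (cs (rf (nat_lit 7)) (cs (nd (nat_lit 187) (nat_lit 0) (cs (lf (nat_lit 37) (nat_lit 186)) (nd (nat_lit 272) (nat_lit 0)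 (cs (lf (nat_lit 12) (nat_lit 249)) (nd (nat_lit 294) (nat_lit 0) (cs (lf (nat_lit 11) (nat_lit 271)) (nd (nat_lit 295) (nat_lit 0) (cs (lf (nat_lit 6) (nat_lit 272)) (lf (nat_lit 36) (nat_lit 207)))))))))) (nd (nat_lit 187) (nat_lit 0) (cs (lf (nat_lit 37) (nat_lit 186)) (rf (nat_lit 8))))))))))))) (cs (nd (nat_lit 209) (nat_lit 0) (cs (rf (nat_lit 9)) (cs (rf (nat_lit 10)) (rf (nat_lit 11))))) (nd (nat_lit 209) (nat_lit 0) (cs (rf (nat_lit 9)) (cs (rf (nat_lit 12)) (rf (nat_lit 11)))))))))))) q93758 (by decide +kernel)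
def q93814 : Q := Q.p (nat_lit 0x3000004000000000000000000000000000000000000000000000000000000000) (nat_lit 0xf00007c0000780018e0007b8003ff001ff8003fc0001400000000000000000000000000000000000) (nat_lit 14)
theorem c93814 : QOK q93814 := cut [q92942, q93644, q93695, q87526, q92012, q93759, q79097, q85044, q84624, q92920, q93761, q93764, q93765, q87131, q93790, q93793, q93595, q91239, q93600, q93809, q93813] ⟨c92942, c93644, c93695, c87526, c92012, c93759, c79097, c85044, c84624, c92920, c93761, c93764, c93765, c87131, c93790, c93793, c93595, c91239, c93600, c93809, c93813, trivial⟩ (nd (nat_lit 231) (nat_lit 0) (cs (rf (nat_lit 0)) (cs (rf (nat_lit 1)) (cs (rf (nat_lit 2)) (cs (nd (nat_lit 208) (nat_lit 0) (cs (rf (nat_lit 3)) (cs (rf (nat_lit 4)) (rf (nat_lit 5))))) (cs (nd (nat_lit 274) (nat_lit 0) (cs (rf (nat_lit 6)) (cs (rf (nat_lit 7)) (nd (nat_lit 208) (nat_lit 0) (cs (rf (nat_lit 8)) (cs (rf (nat_lit 9)) (rf (nat_lit 10))))))))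 (cs (nd (nat_lit 274) (nat_lit 0) (cs (rf (nat_lit 6)) (cs (rf (nat_lit 7)) (nd (nat_lit 186) (nat_lit 0) (cs (rf (nat_lit 11)) (cs (rf (nat_lit 12)) (cs (nd (nat_lit 232) (nat_lit 0) (cs (rf (nat_lit 13)) (cs (nd (nat_lit 187) (nat_lit 0) (cs (lf (nat_lit 37) (nat_lit 186)) (nd (nat_lit 233) (nat_lit 0) (cs (lf (nat_lit 6) (nat_lit 230)) (nd (nat_lit 255) (nat_lit 0) (cs (lf (nat_lit 5) (nat_lit 230)) (nd (nat_lit 211) (nat_lit 0) (cs (lf (nat_lit 17) (nat_lit 208)) (nd (nat_lit 210) (nat_lit 0) (cs (lf (nat_lit 12) (nat_lit 207)) (nd (nat_lit 188) (nat_lit 0) (cs (lf (nat_lit 36) (nat_lit 165)) (lf (nat_lit 0) (nat_lit 185)))))))))))))) (rf (nat_lit 14))))) (rf (nat_lit 15))))))))) (cs (nd (nat_lit 232) (nat_lit 0) (cs (rf (nat_lit 13)) (cs (rf (nat_lit 16)) (nd (nat_lit 229) (nat_lit 0) (cs (rf (nat_lit 17)) (cs (rf (nat_lit 18)) (rf (nat_lit 19)))))))) (rf (nat_lit 20)))))))))) q93814 (by decide +kernel)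
def q93920 : Q := Q.p (nat_lit 0x3800000000000000000000000000000000000000000000000000000000000000) (nat_lit 0x140000700001c00007c000c00007ff0001f80007f0001c0000500000000000000000000000000000000000) (nat_lit 12)
theorem c93920 : QOK q93920 := cut [q82198, q93505, q93918, q5482, q11484, q80450, q93494] ⟨c82198, c93505, c93918, c5482, c11484, c80450, c93494, trivial⟩ (nd (nat_lit 229) (nat_lit 0) (cs (rf (nat_lit 0)) (cs (rf (nat_lit 1)) (cs (rf (nat_lit 2)) (nd (nat_lit 207) (nat_lit 0) (cs (rf (nat_lit 3)) (cs (rf (nat_lit 4)) (cs (rf (nat_lit 5)) (rf (nat_lit 6)))))))))) q93920 (by decide +kernel)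
def q94047 : Q := Q.p (nat_lit 0x3800000000000000000000000000000000000000000000000000000000000000) (nat_lit 0x8000178000c40003f0000fc0003c0000e00000000000000000000000000000000000000000) (nat_lit 12)
theorem c94047 : QOK q94047 := cut [q79013, q92326, q92334] ⟨c79013, c92326, c92334, trivial⟩ (nd (nat_lit 254) (nat_lit 0) (cs (rf (nat_lit 0)) (cs (rf (nat_lit 1)) (rf (nat_lit 2))))) q94047 (by decide +kernel)
def q94158 : Q := Q.p (nat_lit 0x3000000000000000000000000000000000000000000000000000000000000000) (nat_lit 0xa0000380001e0000f8001df8007c8003ffe001ff0007fe000fc0003a00000000000000000000000000000000000) (nat_lit 15)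
theorem c94158 : QOK q94158 := cut [q93727, q94053, q94061, q94102, q94113, q83723, q94114, q94115, q87229, q80524, q94116, q88311, q94123, q6259, q79029, q79066, q93563, q94127, q1409, q6561, q88122, q85149, q93555, q93825, q93830, q93911, q10803, q87238, q94131, q92712, q92798, q2953, q94157] ⟨c93727, c94053, c94061, c94102, c94113, c83723, c94114, c94115, c87229, c80524, c94116, c88311, c94123, c6259, c79029, c79066, c93563, c94127, c1409, c6561, c88122, c85149, c93555, c93825, c93830, c93911, c10803, c87238, c94131, c92712, c92798, c2953, c94157, trivial⟩ (nd (nat_lit 230) (nat_lit 0) (cs (rf (nat_lit 0)) (cs (rf (nat_lit 1)) (cs (rf (nat_lit 2)) (cs (rf (nat_lit 3)) (cs (rf (nat_lit 4)) (cs (nd (nat_lit 229) (nat_lit 0) (cs (rf (nat_lit 5)) (cs (rf (nat_lit 6)) (cs (rf (nat_lit 7)) (nd (nat_lit 274) (nat_lit 0) (cs (rf (nat_lit 8)) (cs (nd (nat_lit 208) (nat_lit 0) (cs (rf (nat_lit 9)) (cs (nd (nat_lit 254) (nat_lit 0)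 (cs (lf (nat_lit 18) (nat_lit 229)) (nd (nat_lit 185) (nat_lit 0) (cs (lf (nat_lit 46) (nat_lit 185)) (nd (nat_lit 187) (nat_lit 0) (cs (lf (nat_lit 34) (nat_lit 186)) (rf (nat_lit 10)))))))) (nd (nat_lit 254) (nat_lit 0) (cs (lf (nat_lit 18) (nat_lit 229)) (nd (nat_lit 273) (nat_lit 0) (cs (lf (nat_lit 41) (nat_lit 207)) (rf (nat_lit 11))))))))) (rf (nat_lit 12))))))))) (cs (nd (nat_lit 208) (nat_lit 0) (cs (rf (nat_lit 13)) (cs (rf (nat_lit 14)) (cs (rf (nat_lit 15)) (cs (rf (nat_lit 16)) (rf (nat_lit 17))))))) (cs (nd (nat_lit 208) (nat_lit 0) (cs (rf (nat_lit 18)) (cs (rf (nat_lit 19)) (cs (rf (nat_lit 15)) (cs (rf (nat_lit 20)) (nd (nat_lit 274) (nat_lit 0) (cs (rf (nat_lit 21)) (cs (rf (nat_lit 22)) (cs (rf (nat_lit 23)) (rf (nat_lit 24))))))))))) (cs (nd (nat_lit 208) (nat_lit 0) (cs (rf (nat_lit 13)) (cs (rf (nat_lit 14)) (cs (rf (nat_lit 15)) (cs (rf (nat_lit 25)) (nd (nat_lit 209) (nat_lit 0) (cs (rf (nat_lit 26))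 (cs (rf (nat_lit 27)) (cs (rf (nat_lit 28)) (nd (nat_lit 231) (nat_lit 0) (cs (rf (nat_lit 29)) (cs (rf (nat_lit 30)) (nd (nat_lit 274) (nat_lit 0) (cs (lf (nat_lit 30) (nat_lit 208)) (nd (nat_lit 275) (nat_lit 0) (cs (lf (nat_lit 29) (nat_lit 208)) (nd (nat_lit 276) (nat_lit 0) (cs (lf (nat_lit 29) (nat_lit 209)) (rf (nat_lit 31)))))))))))))))))))) (rf (nat_lit 32)))))))))))) q94158 (by decide +kernel)
def q94334 : Q := Q.p (nat_lit 0x800003000000000000000000000000000000000000000000000000000000000000000) (nat_lit 0xfc0007fc003df001d7c003ce001fdc003fc001ff8003f0000bc00000000000000000000000000000000000) (nat_lit 18)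
theorem c94334 : QOK q94334 := cut [q2091, q93915, q92239, q94178, q94244, q94212, q94222, q94260, q24703, q94332] ⟨c2091, c93915, c92239, c94178, c94244, c94212, c94222, c94260, c24703, c94332, trivial⟩ (nd (nat_lit 251) (nat_lit 0) (cs (rf (nat_lit 0)) (cs (rf (nat_lit 1)) (nd (nat_lit 254) (nat_lit 0) (cs (rf (nat_lit 2)) (cs (rf (nat_lit 3)) (cs (rf (nat_lit 4)) (cs (nd (nat_lit 273) (nat_lit 0) (cs (lf (nat_lit 11) (nat_lit 250)) (nd (nat_lit 255) (nat_lit 0) (cs (lf (nat_lit 10) (nat_lit 251)) (nd (nat_lit 234) (nat_lit 0) (cs (lf (nat_lit 16) (nat_lit 230)) (nd (nat_lit 256) (nat_lit 0) (cs (lf (nat_lit 17) (nat_lit 231)) (nd (nat_lit 230) (nat_lit 0) (cs (lf (nat_lit 22) (nat_lit 230)) (nd (nat_lit 186) (nat_lit 0) (cs (lf (nat_lit 25) (nat_lit 186)) (nd (nat_lit 295) (nat_lit 0) (cs (lf (nat_lit 30) (nat_lit 229)) (rf (nat_lit 5)))))))))))))))) (cs (nd (nat_lit 231) (nat_lit 0) (cs (rf (nat_lit 6)) (cs (nd (nat_lit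 273) (nat_lit 0) (cs (lf (nat_lit 11) (nat_lit 250)) (nd (nat_lit 255) (nat_lit 0) (cs (lf (nat_lit 10) (nat_lit 251)) (nd (nat_lit 256) (nat_lit 0) (cs (lf (nat_lit 23) (nat_lit 230)) (nd (nat_lit 257) (nat_lit 0) (cs (lf (nat_lit 10) (nat_lit 253)) (lf (nat_lit 22) (nat_lit 231)))))))))) (cs (rf (nat_lit 7)) (nd (nat_lit 273) (nat_lit 0) (cs (lf (nat_lit 11) (nat_lit 250)) (nd (nat_lit 274) (nat_lit 0) (cs (rf (nat_lit 8)) (lf (nat_lit 6) (nat_lit 251)))))))))) (rf (nat_lit 9))))))))))) q94334 (by decide +kernel)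
def q94504 : Q := Q.p (nat_lit 0x800003000000000000000000000000000000000000000000000000000000000000000) (nat_lit 0xf80007f8001ff001d78003ce000f90001f8000fc0000700001400000000000000000000000000000000000) (nat_lit 14)
theorem c94504 : QOK q94504 := cut [q94383, q24703, q92120, q52527, q93137, q94363, q79061, q80250, q24869, q84408, q91956, q82301, q92707, q92792, q79079, q94464, q86317, q94160, q41455, q94380, q14764, q24867, q94471, q94474, q94487, q86717, q22293, q25883, q80089, q94500] ⟨c94383, c24703, c92120, c52527, c93137, c94363, c79061, c80250, c24869, c84408, c91956, c82301, c92707, c92792, c79079, c94464, c86317, c94160, c41455, c94380, c14764, c24867, c94471, c94474, c94487, c86717, c22293, c25883, c80089, c94500, trivial⟩ (nd (nat_lit 274) (nat_lit 0) (cs (rf (nat_lit 0)) (cs (nd (nat_lit 231) (nat_lit 0) (cs (rf (nat_lit 1)) (cs (rf (nat_lit 2)) (nd (nat_lit 209) (nat_lit 0) (cs (lf (nat_lit 36) (nat_lit 186)) (nd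 (nat_lit 186) (nat_lit 0) (cs (rf (nat_lit 3)) (lf (nat_lit 46) (nat_lit 186))))))))) (cs (nd (nat_lit 231) (nat_lit 0) (cs (rf (nat_lit 1)) (cs (nd (nat_lit 254) (nat_lit 0) (cs (rf (nat_lit 4)) (cs (rf (nat_lit 5)) (nd (nat_lit 273) (nat_lit 0) (cs (rf (nat_lit 6)) (nd (nat_lit 276) (nat_lit 0) (cs (rf (nat_lit 7)) (nd (nat_lit 318) (nat_lit 0) (cs (lf (nat_lit 31) (nat_lit 230)) (nd (nat_lit 251) (nat_lit 0) (cs (lf (nat_lit 23) (nat_lit 250)) (rf (nat_lit 8))))))))))))) (nd (nat_lit 273) (nat_lit 0) (cs (rf (nat_lit 9)) (cs (rf (nat_lit 10)) (nd (nat_lit 209) (nat_lit 0) (cs (rf (nat_lit 11)) (cs (rf (nat_lit 12)) (cs (rf (nat_lit 13)) (nd (nat_lit 210) (nat_lit 0) (cs (lf (nat_lit 35) (nat_lit 187)) (nd (nat_lit 254) (nat_lit 0) (cs (rf (nat_lit 14)) (rf (nat_lit 15)))))))))))))))) (cs (nd (nat_lit 231) (nat_lit 0) (cs (rf (nat_lit 1)) (cs (rf (nat_lit 16)) (nd (nat_lit 297) (nat_lit 0) (cs (rf (nat_lit 17)) (nd (nat_lit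 296) (nat_lit 0) (cs (lf (nat_lit 30) (nat_lit 230)) (rf (nat_lit 18))))))))) (cs (nd (nat_lit 273) (nat_lit 0) (cs (rf (nat_lit 9)) (cs (rf (nat_lit 19)) (nd (nat_lit 295) (nat_lit 0) (cs (rf (nat_lit 20)) (cs (nd (nat_lit 318) (nat_lit 0) (cs (rf (nat_lit 21)) (cs (nd (nat_lit 254) (nat_lit 0) (cs (lf (nat_lit 6) (nat_lit 251)) (rf (nat_lit 22)))) (nd (nat_lit 317) (nat_lit 0) (cs (lf (nat_lit 30) (nat_lit 251)) (rf (nat_lit 23))))))) (cs (nd (nat_lit 318) (nat_lit 0) (cs (rf (nat_lit 21)) (cs (rf (nat_lit 22)) (nd (nat_lit 231) (nat_lit 0) (cs (lf (nat_lit 31) (nat_lit 230)) (nd (nat_lit 209) (nat_lit 0) (cs (lf (nat_lit 36) (nat_lit 186)) (nd (nat_lit 317) (nat_lit 0) (cs (lf (nat_lit 30) (nat_lit 251)) (nd (nat_lit 188) (nat_lit 0) (cs (lf (nat_lit 34) (nat_lit 187)) (nd (nat_lit 186) (nat_lit 0) (cs (lf (nat_lit 46) (nat_lit 186)) (nd (nat_lit 254) (nat_lit 0) (cs (lf (nat_lit 6) (nat_lit 251)) (nd (nat_lit 298) (nat_lit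 0) (cs (lf (nat_lit 28) (nat_lit 209)) (nd (nat_lit 297) (nat_lit 0) (cs (lf (nat_lit 29) (nat_lit 231)) (nd (nat_lit 319) (nat_lit 0) (cs (lf (nat_lit 42) (nat_lit 252)) (lf (nat_lit 12) (nat_lit 294))))))))))))))))))))))) (nd (nat_lit 317) (nat_lit 0) (cs (lf (nat_lit 30) (nat_lit 251)) (nd (nat_lit 276) (nat_lit 0) (cs (lf (nat_lit 11) (nat_lit 272)) (nd (nat_lit 254) (nat_lit 0) (cs (lf (nat_lit 17) (nat_lit 251)) (rf (nat_lit 24))))))))))))))) (nd (nat_lit 254) (nat_lit 0) (cs (rf (nat_lit 14)) (cs (rf (nat_lit 5)) (nd (nat_lit 297) (nat_lit 0) (cs (rf (nat_lit 25)) (cs (nd (nat_lit 296) (nat_lit 0) (cs (rf (nat_lit 26)) (cs (rf (nat_lit 27)) (nd (nat_lit 272) (nat_lit 0) (cs (lf (nat_lit 13) (nat_lit 250)) (nd (nat_lit 231) (nat_lit 0) (cs (lf (nat_lit 36) (nat_lit 208)) (nd (nat_lit 298) (nat_lit 0) (cs (lf (nat_lit 29) (nat_lit 231)) (nd (nat_lit 299) (nat_lit 0) (cs (lf (nat_lit 18) (nat_lit 274)) (nd (nat_lit 321)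 (nat_lit 0) (cs (lf (nat_lit 5) (nat_lit 296)) (nd (nat_lit 232) (nat_lit 0) (cs (rf (nat_lit 28)) (lf (nat_lit 26) (nat_lit 232))))))))))))))))) (nd (nat_lit 272) (nat_lit 0) (cs (lf (nat_lit 13) (nat_lit 250)) (rf (nat_lit 29)))))))))))))))) q94504 (by decide +kernel)
def q94704 : Q := Q.p (nat_lit 0x3000000000000000000000000000000000000000000000000000000000000000) (nat_lit 0x500001c0000780007f0001fe001ddc007ce003ffc003ff001ffc0007e0001f80000000000000000000000000000000000) (nat_lit 16)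
theorem c94704 : QOK q94704 := cut [q94173, q94441, q94445, q94538, q94553, q94617, q94160, q94618, q21970, q94159, q12206, q85515, q6232, q83621, q94631, q94638, q81901, q82301, q92707, q92792, q92793, q92785, q94647, q26315, q94694, q94701, q88933, q88941, q94527, q81706, q82063, q88940, q94699] ⟨c94173, c94441, c94445, c94538, c94553, c94617, c94160, c94618, c21970, c94159, c12206, c85515, c6232, c83621, c94631, c94638, c81901, c82301, c92707, c92792, c92793, c92785, c94647, c26315, c94694, c94701, c88933, c88941, c94527, c81706, c82063, c88940, c94699, trivial⟩ (nd (nat_lit 275) (nat_lit 0) (cs (rf (nat_lit 0)) (cs (rf (nat_lit 1)) (cs (rf (nat_lit 2)) (cs (rf (nat_lit 3)) (cs (rf (nat_lit 4)) (cs (rf (nat_lit 5)) (cs (nd (nat_lit 231) (nat_lit 0) (cs (nd (nat_lit 297) (nat_lit 0) (cs (rf (nat_lit 6)) (cs (nd (nat_lit 298) (nat_lit 0) (cs (lf (nat_lit 29) (nat_lit 231)) (nd (nat_lit 318) (nat_lit 0) (cs (lf (nat_lit 40)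 (nat_lit 230)) (nd (nat_lit 319) (nat_lit 0) (cs (lf (nat_lit 41) (nat_lit 252)) (nd (nat_lit 316) (nat_lit 0) (cs (lf (nat_lit 13) (nat_lit 294)) (nd (nat_lit 299) (nat_lit 0) (cs (lf (nat_lit 6) (nat_lit 296)) (nd (nat_lit 341) (nat_lit 0) (cs (lf (nat_lit 46) (nat_lit 252)) (rf (nat_lit 7)))))))))))))) (nd (nat_lit 318) (nat_lit 0) (cs (lf (nat_lit 40) (nat_lit 230)) (nd (nat_lit 210) (nat_lit 0) (cs (lf (nat_lit 34) (nat_lit 209)) (nd (nat_lit 319) (nat_lit 0) (cs (lf (nat_lit 41) (nat_lit 252)) (rf (nat_lit 8))))))))))) (cs (nd (nat_lit 232) (nat_lit 0) (cs (rf (nat_lit 9)) (cs (nd (nat_lit 251) (nat_lit 0) (cs (lf (nat_lit 12) (nat_lit 228)) (nd (nat_lit 210) (nat_lit 0) (cs (rf (nat_lit 10)) (cs (rf (nat_lit 11)) (nd (nat_lit 209) (nat_lit 0) (cs (rf (nat_lit 12)) (cs (nd (nat_lit 274) (nat_lit 0) (cs (lf (nat_lit 41) (nat_lit 208)) (nd (nat_lit 276) (nat_lit 0) (cs (lf (nat_lit 29) (nat_lit 209)) (rf (nat_lit 13))))))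 (nd (nat_lit 186) (nat_lit 0) (cs (lf (nat_lit 46) (nat_lit 186)) (nd (nat_lit 187) (nat_lit 0) (cs (lf (nat_lit 47) (nat_lit 164)) (rf (nat_lit 14)))))))))))))) (cs (nd (nat_lit 209) (nat_lit 0) (cs (rf (nat_lit 12)) (cs (nd (nat_lit 250) (nat_lit 0) (cs (lf (nat_lit 13) (nat_lit 228)) (rf (nat_lit 15)))) (nd (nat_lit 233) (nat_lit 0) (cs (lf (nat_lit 6) (nat_lit 230)) (nd (nat_lit 276) (nat_lit 0) (cs (lf (nat_lit 29) (nat_lit 209)) (nd (nat_lit 250) (nat_lit 0) (cs (lf (nat_lit 1) (nat_lit 250)) (rf (nat_lit 16))))))))))) (nd (nat_lit 209) (nat_lit 0) (cs (rf (nat_lit 17)) (cs (rf (nat_lit 18)) (cs (rf (nat_lit 19)) (cs (rf (nat_lit 20)) (rf (nat_lit 15))))))))))) (cs (nd (nat_lit 209) (nat_lit 0) (cs (rf (nat_lit 17)) (cs (rf (nat_lit 18)) (cs (rf (nat_lit 21)) (rf (nat_lit 20)))))) (cs (rf (nat_lit 22)) (nd (nat_lit 232) (nat_lit 0) (cs (rf (nat_lit 23)) (rf (nat_lit 9))))))))) (cs (rf (nat_lit 24)) (cs (rf (nat_lit 25))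 (nd (nat_lit 297) (nat_lit 0) (cs (rf (nat_lit 26)) (cs (rf (nat_lit 27)) (cs (rf (nat_lit 28)) (nd (nat_lit 231) (nat_lit 0) (cs (rf (nat_lit 29)) (cs (rf (nat_lit 30)) (cs (rf (nat_lit 31)) (rf (nat_lit 32)))))))))))))))))))) q94704 (by decide +kernel)
def q94721 : Q := Q.p (nat_lit 0x3800008000000000000000000000000000000000000000000000000000000000) (nat_lit 0xe0000380001f8001c6000060000180000e0000380000800000000000000000000000000000000000) (nat_lit 9)
theorem c94721 : QOK q94721 := cut [q82295, q92725, q81478] ⟨c82295, c92725, c81478, trivial⟩ (nd (nat_lit 230) (nat_lit 0) (cs (rf (nat_lit 0)) (cs (rf (nat_lit 1)) (nd (nat_lit 250) (nat_lit 0) (cs (lf (nat_lit 12) (nat_lit 227)) (rf (nat_lit 2))))))) q94721 (by decide +kernel)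
def q94839 : Q := Q.p (nat_lit 0x3000008000000000000000000000000000000000000000000000000000000000) (nat_lit 0x300001e0000780001e000000000760001fe0001f8000700001400000000000000000000000000000000000) (nat_lit 11)
theorem c94839 : QOK q94839 := cut [q82300, q82301, q82309, q93014, q91882, q92994, q93174] ⟨c82300, c82301, c82309, c93014, c91882, c92994, c93174, trivial⟩ (nd (nat_lit 209) (nat_lit 0) (cs (rf (nat_lit 0)) (cs (rf (nat_lit 1)) (cs (rf (nat_lit 2)) (cs (rf (nat_lit 3)) (nd (nat_lit 275) (nat_lit 0) (cs (rf (nat_lit 4)) (cs (rf (nat_lit 5)) (nd (nat_lit 210) (nat_lit 0) (cs (lf (nat_lit 35) (nat_lit 187)) (rf (nat_lit 6)))))))))))) q94839 (by decide +kernel)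
def q94878 : Q := Q.p (nat_lit 0x3000008000000000000000000000000000000000000000000000000000000000) (nat_lit 0x700005e000dfe003cf001f6e001fe000ff8000700001400000000000000000000000000000000000) (nat_lit 13)
theorem c94878 : QOK q94878 := cut [q82309, q92707, q92710, q82275, q82278, q41784, q85540, q82285, q84626, q87068, q92239, q93926, q94264, q94757, q1563, q94861, q94869, q10061] ⟨c82309, c92707, c92710, c82275, c82278, c41784, c85540, c82285, c84626, c87068, c92239, c93926, c94264, c94757, c1563, c94861, c94869, c10061, trivial⟩ (nd (nat_lit 209) (nat_lit 0) (cs (rf (nat_lit 0)) (cs (rf (nat_lit 1)) (cs (rf (nat_lit 2)) (nd (nat_lit 251) (nat_lit 0) (cs (rf (nat_lit 3)) (cs (rf (nat_lit 4)) (cs (nd (nat_lit 250) (nat_lit 0) (cs (rf (nat_lit 5)) (cs (rf (nat_lit 6)) (cs (nd (nat_lit 275) (nat_lit 0) (cs (lf (nat_lit 5) (nat_lit 250)) (nd (nat_lit 274) (nat_lit 0) (cs (lf (nat_lit 41) (nat_lit 208)) (nd (nat_lit 186) (nat_lit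 0) (cs (lf (nat_lit 46) (nat_lit 186)) (nd (nat_lit 188) (nat_lit 0) (cs (lf (nat_lit 34) (nat_lit 187)) (rf (nat_lit 7)))))))))) (nd (nat_lit 230) (nat_lit 0) (cs (lf (nat_lit 12) (nat_lit 227)) (nd (nat_lit 274) (nat_lit 0) (cs (lf (nat_lit 30) (nat_lit 208)) (nd (nat_lit 275) (nat_lit 0) (cs (lf (nat_lit 5) (nat_lit 250)) (nd (nat_lit 188) (nat_lit 0) (cs (lf (nat_lit 34) (nat_lit 187)) (rf (nat_lit 8)))))))))))))) (nd (nat_lit 254) (nat_lit 0) (cs (rf (nat_lit 9)) (cs (rf (nat_lit 10)) (cs (rf (nat_lit 11)) (cs (rf (nat_lit 12)) (cs (rf (nat_lit 13)) (nd (nat_lit 208) (nat_lit 0) (cs (rf (nat_lit 14)) (cs (nd (nat_lit 232) (nat_lit 0) (cs (lf (nat_lit 17) (nat_lit 229)) (nd (nat_lit 276) (nat_lit 0) (cs (lf (nat_lit 42) (nat_lit 209)) (nd (nat_lit 207) (nat_lit 0) (cs (lf (nat_lit 0) (nat_lit 206)) (nd (nat_lit 272) (nat_lit 0) (cs (lf (nat_lit 10) (nat_lit 250)) (nd (nat_lit 186) (nat_lit 0) (cs (lf (nat_lit 42) (nat_lit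 186)) (nd (nat_lit 164) (nat_lit 0) (cs (lf (nat_lit 24) (nat_lit 142)) (nd (nat_lit 185) (nat_lit 0) (cs (lf (nat_lit 31) (nat_lit 163)) (rf (nat_lit 15)))))))))))))))) (cs (rf (nat_lit 16)) (nd (nat_lit 232) (nat_lit 0) (cs (lf (nat_lit 17) (nat_lit 229)) (nd (nat_lit 276) (nat_lit 0) (cs (lf (nat_lit 42) (nat_lit 209)) (nd (nat_lit 206) (nat_lit 0) (cs (lf (nat_lit 1) (nat_lit 206)) (nd (nat_lit 273) (nat_lit 0) (cs (lf (nat_lit 11) (nat_lit 250)) (nd (nat_lit 230) (nat_lit 0) (cs (lf (nat_lit 36) (nat_lit 185)) (rf (nat_lit 17)))))))))))))))))))))))))))))) q94878 (by decide +kernel)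
def q95197 : Q := Q.p (nat_lit 0x3000000000000000000000000000000000000000000000000000000000000000) (nat_lit 0x500001f8003ff0007fc001ff0001fe000cf0000fe000ff0000f80003e0000a80000000000000000000000000000000000) (nat_lit 19)
theorem c95197 : QOK q95197 := cut [q94959, q94998, q95097, q95098, q95102, q95139, q46633, q84222, q87376, q83839, q85713, q87979, q83724, q83840, q1409, q3991, q22313, q79029, q84112, q95148, q95150, q95154, q95157, q95171, q81014, q86596, q84218, q86434, q95179, q91766, q84408, q95095, q14914, q89097, q95187, q80649, q81805, q84257] ⟨c94959, c94998, c95097, c95098, c95102, c95139, c46633, c84222, c87376, c83839, c85713, c87979, c83724, c83840, c1409, c3991, c22313, c79029, c84112, c95148, c95150, c95154, c95157, c95171, c81014, c86596, c84218, c86434, c95179, c91766, c84408, c95095, c14914, c89097, c95187, c80649, c81805, c84257, trivial⟩ (nd (nat_lit 274) (nat_lit 0) (cs (rf (nat_lit 0)) (cs (rf (nat_lit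 1)) (cs (rf (nat_lit 2)) (cs (rf (nat_lit 3)) (cs (rf (nat_lit 4)) (cs (rf (nat_lit 5)) (cs (nd (nat_lit 296) (nat_lit 0) (cs (rf (nat_lit 6)) (cs (rf (nat_lit 7)) (rf (nat_lit 8))))) (cs (nd (nat_lit 273) (nat_lit 0) (cs (rf (nat_lit 9)) (cs (rf (nat_lit 10)) (cs (nd (nat_lit 230) (nat_lit 0) (cs (rf (nat_lit 11)) (cs (nd (nat_lit 296) (nat_lit 0) (cs (rf (nat_lit 12)) (nd (nat_lit 295) (nat_lit 0) (cs (lf (nat_lit 41) (nat_lit 229)) (nd (nat_lit 319) (nat_lit 0) (cs (lf (nat_lit 28) (nat_lit 230)) (nd (nat_lit 318) (nat_lit 0) (cs (lf (nat_lit 29) (nat_lit 252)) (rf (nat_lit 13)))))))))) (cs (nd (nat_lit 208) (nat_lit 0) (cs (rf (nat_lit 14)) (cs (rf (nat_lit 15)) (cs (rf (nat_lit 16)) (rf (nat_lit 17)))))) (nd (nat_lit 254) (nat_lit 0) (cs (lf (nat_lit 6) (nat_lit 251)) (rf (nat_lit 18)))))))) (rf (nat_lit 19)))))) (cs (nd (nat_lit 296) (nat_lit 0) (cs (rf (nat_lit 6)) (cs (rf (nat_lit 20)) (rf (nat_lit 21))))) (cs (rf (nat_lit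 22)) (cs (rf (nat_lit 23)) (cs (nd (nat_lit 296) (nat_lit 0) (cs (rf (nat_lit 6)) (cs (rf (nat_lit 24)) (cs (rf (nat_lit 21)) (nd (nat_lit 297) (nat_lit 0) (cs (nd (nat_lit 295) (nat_lit 0) (cs (rf (nat_lit 25)) (cs (nd (nat_lit 273) (nat_lit 0) (cs (rf (nat_lit 26)) (cs (rf (nat_lit 10)) (nd (nat_lit 254) (nat_lit 0) (cs (lf (nat_lit 6) (nat_lit 251)) (nd (nat_lit 298) (nat_lit 0) (cs (lf (nat_lit 18) (nat_lit 273)) (nd (nat_lit 320) (nat_lit 0) (cs (lf (nat_lit 5) (nat_lit 295)) (nd (nat_lit 231) (nat_lit 0) (cs (lf (nat_lit 26) (nat_lit 231)) (lf (nat_lit 44) (nat_lit 231))))))))))))) (nd (nat_lit 230) (nat_lit 0) (cs (lf (nat_lit 41) (nat_lit 229)) (rf (nat_lit 12))))))) (cs (nd (nat_lit 275) (nat_lit 0) (cs (rf (nat_lit 27)) (cs (nd (nat_lit 273) (nat_lit 0) (cs (rf (nat_lit 28)) (nd (nat_lit 209) (nat_lit 0) (cs (lf (nat_lit 37) (nat_lit 208)) (nd (nat_lit 272) (nat_lit 0) (cs (lf (nat_lit 12) (nat_lit 249)) (rf (nat_lit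 29)))))))) (cs (nd (nat_lit 273) (nat_lit 0) (cs (rf (nat_lit 30)) (cs (rf (nat_lit 31)) (rf (nat_lit 28))))) (nd (nat_lit 209) (nat_lit 0) (cs (lf (nat_lit 37) (nat_lit 208)) (rf (nat_lit 32)))))))) (cs (nd (nat_lit 230) (nat_lit 0) (cs (lf (nat_lit 29) (nat_lit 230)) (rf (nat_lit 33)))) (rf (nat_lit 34)))))))))) (nd (nat_lit 296) (nat_lit 0) (cs (rf (nat_lit 35)) (cs (rf (nat_lit 20)) (nd (nat_lit 229) (nat_lit 0) (cs (nd (nat_lit 207) (nat_lit 0) (cs (lf (nat_lit 45) (nat_lit 207)) (nd (nat_lit 251) (nat_lit 0) (cs (lf (nat_lit 24) (nat_lit 185)) (lf (nat_lit 42) (nat_lit 229)))))) (cs (nd (nat_lit 230) (nat_lit 0) (cs (lf (nat_lit 47) (nat_lit 207)) (nd (nat_lit 227) (nat_lit 0) (cs (lf (nat_lit 1) (nat_lit 227)) (rf (nat_lit 36)))))) (nd (nat_lit 251) (nat_lit 0) (cs (lf (nat_lit 42) (nat_lit 229)) (rf (nat_lit 37))))))))))))))))))))))) q95197 (by decide +kernel)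
def q95342 : Q := Q.p (nat_lit 0x3000004000000000000000000000000000000000000000000000000000000000) (nat_lit 0x80000380000e0000380001e0000ce0003bc0003f0000f00003c0000a00000000000000000000000000000000000) (nat_lit 12)
theorem c95342 : QOK q95342 := cut [q6259, q79029, q79066, q93563, q83723, q94114, q95306, q79048, q90322, q93555, q93741, q5305, q90196] ⟨c6259, c79029, c79066, c93563, c83723, c94114, c95306, c79048, c90322, c93555, c93741, c5305, c90196, trivial⟩ (nd (nat_lit 208) (nat_lit 0) (cs (rf (nat_lit 0)) (cs (rf (nat_lit 1)) (cs (rf (nat_lit 2)) (cs (rf (nat_lit 3)) (nd (nat_lit 229) (nat_lit 0) (cs (rf (nat_lit 4)) (cs (rf (nat_lit 5)) (cs (rf (nat_lit 6)) (nd (nat_lit 274) (nat_lit 0) (cs (rf (nat_lit 7)) (cs (rf (nat_lit 8)) (cs (rf (nat_lit 9)) (cs (rf (nat_lit 10)) (nd (nat_lit 251) (nat_lit 0) (cs (rf (nat_lit 11)) (nd (nat_lit 207) (nat_lit 0) (cs (lf (nat_lit 24) (nat_lit 185)) (nd (nat_lit 254) (nat_lit 0) (cs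 (lf (nat_lit 18) (nat_lit 229)) (nd (nat_lit 273) (nat_lit 0) (cs (lf (nat_lit 41) (nat_lit 207)) (rf (nat_lit 12)))))))))))))))))))))))) q95342 (by decide +kernel)
def q95548 : Q := Q.p (nat_lit 0x3000004000000000000000000000000000000000000000000000000000000000) (nat_lit 0xa0000280001fe001cf000fbe000ff00037e000fc0003a00002000000000000000000000000000000) (nat_lit 15)
theorem c95548 : QOK q95548 := cut [q1409, q6561, q79066, q95521, q1411, q95486, q84623, q1298, q4032, q85717, q81488, q95464, q95511, q79028, q94055, q4172, q83723, q87550, q94114, q95300, q87790, q87466] ⟨c1409, c6561, c79066, c95521, c1411, c95486, c84623, c1298, c4032, c85717, c81488, c95464, c95511, c79028, c94055, c4172, c83723, c87550, c94114, c95300, c87790, c87466, trivial⟩ (nd (nat_lit 208) (nat_lit 0) (cs (rf (nat_lit 0)) (cs (rf (nat_lit 1)) (cs (rf (nat_lit 2)) (cs (rf (nat_lit 3)) (nd (nat_lit 207) (nat_lit 0) (cs (rf (nat_lit 4)) (cs (rf (nat_lit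 5)) (cs (nd (nat_lit 231) (nat_lit 0) (cs (rf (nat_lit 6)) (cs (nd (nat_lit 275) (nat_lit 0) (cs (rf (nat_lit 7)) (nd (nat_lit 206) (nat_lit 0) (cs (rf (nat_lit 8)) (cs (rf (nat_lit 9)) (nd (nat_lit 254) (nat_lit 0) (cs (rf (nat_lit 10)) (cs (rf (nat_lit 11)) (nd (nat_lit 255) (nat_lit 0) (cs (lf (nat_lit 18) (nat_lit 230)) (nd (nat_lit 233) (nat_lit 0) (cs (lf (nat_lit 17) (nat_lit 230)) (rf (nat_lit 12)))))))))))))) (cs (nd (nat_lit 254) (nat_lit 0) (cs (rf (nat_lit 13)) (cs (rf (nat_lit 14)) (rf (nat_lit 11))))) (nd (nat_lit 275) (nat_lit 0) (cs (lf (nat_lit 42) (nat_lit 208)) (nd (nat_lit 206) (nat_lit 0) (cs (lf (nat_lit 0) (nat_lit 205)) (rf (nat_lit 15)))))))))) (nd (nat_lit 229) (nat_lit 0) (cs (rf (nat_lit 16)) (cs (rf (nat_lit 17)) (cs (rf (nat_lit 18)) (cs (rf (nat_lit 19)) (nd (nat_lit 232) (nat_lit 0) (cs (rf (nat_lit 20)) (cs (nd (nat_lit 163) (nat_lit 0) (cs (lf (nat_lit 25) (nat_lit 163)) (nd (nat_lit 254) (nat_lit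 0) (cs (lf (nat_lit 18) (nat_lit 229)) (nd (nat_lit 233) (nat_lit 0) (cs (lf (nat_lit 12) (nat_lit 229)) (nd (nat_lit 234) (nat_lit 0) (cs (lf (nat_lit 6) (nat_lit 231)) (nd (nat_lit 210) (nat_lit 0) (cs (lf (nat_lit 2) (nat_lit 207)) (rf (nat_lit 21)))))))))))) (nd (nat_lit 254) (nat_lit 0) (cs (lf (nat_lit 18) (nat_lit 229)) (nd (nat_lit 206) (nat_lit 0) (cs (lf (nat_lit 19) (nat_lit 206)) (nd (nat_lit 205) (nat_lit 0) (cs (lf (nat_lit 0) (nat_lit 204)) (nd (nat_lit 163) (nat_lit 0) (cs (lf (nat_lit 25) (nat_lit 163)) (nd (nat_lit 226) (nat_lit 0) (cs (lf (nat_lit 10) (nat_lit 204)) (nd (nat_lit 183) (nat_lit 0) (cs (lf (nat_lit 23) (nat_lit 182)) (nd (nat_lit 209) (nat_lit 0) (cs (lf (nat_lit 22) (nat_lit 183)) (nd (nat_lit 210) (nat_lit 0) (cs (lf (nat_lit 6) (nat_lit 207)) (nd (nat_lit 188) (nat_lit 0) (cs (lf (nat_lit 17) (nat_lit 185)) (lf (nat_lit 41) (nat_lit 187))))))))))))))))))))))))))))))))))))) q95548 (by decide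 +kernel)
def q95776 : Q := Q.p (nat_lit 0x7000000000000000000000000000000000000000000000000000000000000000) (nat_lit 0xf80003e0000fc001df00078c003fc0003f00003c0000e00000800000000000000000000000000000000000) (nat_lit 18)
theorem c95776 : QOK q95776 := cut [q79118, q81677, q92272, q92260, q95740, q80881, q84611, q86581, q95753, q95755, q81707, q87016, q88820, q95766, q82280, q95752, q95769, q79250, q95616] ⟨c79118, c81677, c92272, c92260, c95740, c80881, c84611, c86581, c95753, c95755, c81707, c87016, c88820, c95766, c82280, c95752, c95769, c79250, c95616, trivial⟩ (nd (nat_lit 232) (nat_lit 0) (cs (rf (nat_lit 0)) (cs (rf (nat_lit 1)) (cs (rf (nat_lit 2)) (nd (nat_lit 274) (nat_lit 0) (cs (rf (nat_lit 3)) (cs (rf (nat_lit 4)) (cs (nd (nat_lit 231) (nat_lit 0) (cs (rf (nat_lit 5)) (cs (rf (nat_lit 6)) (cs (nd (nat_lit 297) (nat_lit 0) (cs (rf (nat_lit 7)) (cs (nd (nat_lit 233) (nat_lit 0) (cs (lf (nat_lit 6) (nat_lit 230)) (nd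 (nat_lit 296) (nat_lit 0) (cs (lf (nat_lit 30) (nat_lit 230)) (nd (nat_lit 230) (nat_lit 0) (cs (lf (nat_lit 29) (nat_lit 230)) (nd (nat_lit 295) (nat_lit 0) (cs (lf (nat_lit 41) (nat_lit 229)) (nd (nat_lit 211) (nat_lit 0) (cs (lf (nat_lit 17) (nat_lit 208)) (nd (nat_lit 167) (nat_lit 0) (cs (lf (nat_lit 37) (nat_lit 166)) (nd (nat_lit 298) (nat_lit 0) (cs (lf (nat_lit 31) (nat_lit 210)) (nd (nat_lit 273) (nat_lit 0) (cs (lf (nat_lit 23) (nat_lit 272)) (lf (nat_lit 36) (nat_lit 207)))))))))))))))))) (rf (nat_lit 8))))) (cs (rf (nat_lit 9)) (nd (nat_lit 275) (nat_lit 0) (cs (rf (nat_lit 10)) (cs (rf (nat_lit 11)) (nd (nat_lit 209) (nat_lit 0) (cs (lf (nat_lit 36) (nat_lit 186)) (nd (nat_lit 273) (nat_lit 0) (cs (lf (nat_lit 12) (nat_lit 250)) (nd (nat_lit 276) (nat_lit 0) (cs (lf (nat_lit 42) (nat_lit 209)) (nd (nat_lit 294) (nat_lit 0) (cs (lf (nat_lit 10) (nat_lit 272)) (nd (nat_lit 186) (nat_lit 0) (cs (lf (nat_lit 46) (nat_lit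 186)) (nd (nat_lit 233) (nat_lit 0) (cs (lf (nat_lit 6) (nat_lit 230)) (nd (nat_lit 210) (nat_lit 0) (cs (lf (nat_lit 35) (nat_lit 187)) (rf (nat_lit 12)))))))))))))))))))))))) (cs (rf (nat_lit 13)) (nd (nat_lit 231) (nat_lit 0) (cs (rf (nat_lit 5)) (cs (rf (nat_lit 14)) (cs (rf (nat_lit 6)) (cs (nd (nat_lit 297) (nat_lit 0) (cs (rf (nat_lit 7)) (cs (rf (nat_lit 15)) (nd (nat_lit 233) (nat_lit 0) (cs (lf (nat_lit 6) (nat_lit 230)) (rf (nat_lit 16))))))) (nd (nat_lit 210) (nat_lit 0) (cs (rf (nat_lit 17)) (nd (nat_lit 209) (nat_lit 0) (cs (lf (nat_lit 36) (nat_lit 186)) (rf (nat_lit 18)))))))))))))))))))) q95776 (by decide +kernel)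
def q95841 : Q := Q.p (nat_lit 0x3000008000000000000000000000000000000000000000000000000000000000) (nat_lit 0x10000064001dfc003ce001f7c003f8000f20000c00000000000000000000000000000000000000000) (nat_lit 13)
theorem c95841 : QOK q95841 := cut [q82275, q92608, q87068, q92239, q92267, q94264, q94757, q82277, q79250, q79894] ⟨c82275, c92608, c87068, c92239, c92267, c94264, c94757, c82277, c79250, c79894, trivial⟩ (nd (nat_lit 251) (nat_lit 0) (cs (rf (nat_lit 0)) (cs (rf (nat_lit 1)) (nd (nat_lit 254) (nat_lit 0) (cs (rf (nat_lit 2)) (cs (rf (nat_lit 3)) (cs (rf (nat_lit 4)) (cs (rf (nat_lit 5)) (cs (rf (nat_lit 6)) (nd (nat_lit 232) (nat_lit 0) (cs (rf (nat_lit 7)) (nd (nat_lit 210) (nat_lit 0) (cs (rf (nat_lit 8)) (cs (nd (nat_lit 228) (nat_lit 0) (cs (lf (nat_lit 22) (nat_lit 228)) (nd (nat_lit 272) (nat_lit 0) (cs (lf (nat_lit 10) (nat_lit 250)) (nd (nat_lit 188) (nat_lit 0) (cs (lf (nat_lit 36) (nat_lit 165)) (nd (nat_lit 189)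 (nat_lit 0) (cs (lf (nat_lit 35) (nat_lit 166)) (nd (nat_lit 211) (nat_lit 0) (cs (lf (nat_lit 30) (nat_lit 188)) (nd (nat_lit 212) (nat_lit 0) (cs (lf (nat_lit 6) (nat_lit 209)) (nd (nat_lit 209) (nat_lit 0) (cs (lf (nat_lit 11) (nat_lit 208)) (nd (nat_lit 190) (nat_lit 0) (cs (lf (nat_lit 17) (nat_lit 187)) (lf (nat_lit 12) (nat_lit 186)))))))))))))))))) (nd (nat_lit 275) (nat_lit 0) (cs (lf (nat_lit 30) (nat_lit 209)) (nd (nat_lit 229) (nat_lit 0) (cs (lf (nat_lit 23) (nat_lit 228)) (nd (nat_lit 272) (nat_lit 0) (cs (lf (nat_lit 10) (nat_lit 250)) (nd (nat_lit 211) (nat_lit 0) (cs (lf (nat_lit 13) (nat_lit 207)) (nd (nat_lit 212) (nat_lit 0) (cs (lf (nat_lit 6) (nat_lit 209)) (nd (nat_lit 276) (nat_lit 0) (cs (lf (nat_lit 35) (nat_lit 188)) (rf (nat_lit 9)))))))))))))))))))))))))))) q95841 (by decide +kernel)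
def q95939 : Q := Q.p (nat_lit 0x3800000000000000000000000000000000000000000000000000000000000000) (nat_lit 0x500007c0001f0000ff0000fc000c70007ee000ff0001fc0007c0000400000000000000000000000000000000000) (nat_lit 18)
theorem c95939 : QOK q95939 := cut [q89895, q92346, q85505, q89866, q87151, q79252, q95344, q79097, q87075, q94724, q82275, q94893, q929, q11855, q80881, q91409, q87049, q95922, q95927, q86851, q94801] ⟨c89895, c92346, c85505, c89866, c87151, c79252, c95344, c79097, c87075, c94724, c82275, c94893, c929, c11855, c80881, c91409, c87049, c95922, c95927, c86851, c94801, trivial⟩ (nd (nat_lit 273) (nat_lit 0) (cs (rf (nat_lit 0)) (cs (rf (nat_lit 1)) (cs (nd (nat_lit 230) (nat_lit 0) (cs (rf (nat_lit 2)) (cs (rf (nat_lit 3)) (cs (nd (nat_lit 229) (nat_lit 0) (cs (rf (nat_lit 4)) (cs (nd (nat_lit 254) (nat_lit 0) (cs (lf (nat_lit 18) (nat_lit 229)) (nd (nat_lit 232) (nat_lit 0) (cs (lf (nat_lit 17) (nat_lit 229)) (nd (nat_lit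 231) (nat_lit 0) (cs (lf (nat_lit 12) (nat_lit 228)) (rf (nat_lit 5)))))))) (nd (nat_lit 254) (nat_lit 0) (cs (lf (nat_lit 18) (nat_lit 229)) (nd (nat_lit 295) (nat_lit 0) (cs (lf (nat_lit 30) (nat_lit 229)) (nd (nat_lit 296) (nat_lit 0) (cs (lf (nat_lit 29) (nat_lit 229)) (nd (nat_lit 294) (nat_lit 0) (cs (lf (nat_lit 41) (nat_lit 228)) (nd (nat_lit 232) (nat_lit 0) (cs (lf (nat_lit 17) (nat_lit 229)) (nd (nat_lit 231) (nat_lit 0) (cs (lf (nat_lit 12) (nat_lit 228)) (nd (nat_lit 209) (nat_lit 0) (cs (lf (nat_lit 31) (nat_lit 208)) (nd (nat_lit 165) (nat_lit 0) (cs (rf (nat_lit 6)) (lf (nat_lit 25) (nat_lit 165))))))))))))))))))))) (nd (nat_lit 274) (nat_lit 0) (cs (nd (nat_lit 254) (nat_lit 0) (cs (lf (nat_lit 6) (nat_lit 251)) (nd (nat_lit 232) (nat_lit 0) (cs (lf (nat_lit 17) (nat_lit 229)) (nd (nat_lit 231) (nat_lit 0) (cs (lf (nat_lit 12) (nat_lit 228)) (rf (nat_lit 7)))))))) (cs (nd (nat_lit 208) (nat_lit 0) (cs (lf (nat_lit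 36) (nat_lit 185)) (nd (nat_lit 187) (nat_lit 0) (cs (lf (nat_lit 34) (nat_lit 186)) (nd (nat_lit 297) (nat_lit 0) (cs (lf (nat_lit 28) (nat_lit 208)) (nd (nat_lit 185) (nat_lit 0) (cs (lf (nat_lit 46) (nat_lit 185)) (nd (nat_lit 296) (nat_lit 0) (cs (lf (nat_lit 29) (nat_lit 230)) (nd (nat_lit 318) (nat_lit 0) (cs (lf (nat_lit 42) (nat_lit 251)) (lf (nat_lit 47) (nat_lit 229)))))))))))))) (cs (nd (nat_lit 254) (nat_lit 0) (cs (lf (nat_lit 6) (nat_lit 251)) (nd (nat_lit 232) (nat_lit 0) (cs (lf (nat_lit 17) (nat_lit 229)) (nd (nat_lit 231) (nat_lit 0) (cs (lf (nat_lit 12) (nat_lit 228)) (nd (nat_lit 187) (nat_lit 0) (cs (lf (nat_lit 37) (nat_lit 186)) (nd (nat_lit 208) (nat_lit 0) (cs (lf (nat_lit 36) (nat_lit 185)) (nd (nat_lit 275) (nat_lit 0) (cs (lf (nat_lit 42) (nat_lit 208)) (nd (nat_lit 188) (nat_lit 0) (cs (lf (nat_lit 37) (nat_lit 187)) (rf (nat_lit 8)))))))))))))))) (nd (nat_lit 186) (nat_lit 0) (cs (lf (nat_lit 37)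 (nat_lit 185)) (nd (nat_lit 254) (nat_lit 0) (cs (lf (nat_lit 6) (nat_lit 251)) (nd (nat_lit 232) (nat_lit 0) (cs (lf (nat_lit 17) (nat_lit 229)) (nd (nat_lit 231) (nat_lit 0) (cs (lf (nat_lit 12) (nat_lit 228)) (nd (nat_lit 296) (nat_lit 0) (cs (lf (nat_lit 30) (nat_lit 230)) (rf (nat_lit 9)))))))))))))))))))) (nd (nat_lit 231) (nat_lit 0) (cs (rf (nat_lit 10)) (cs (rf (nat_lit 11)) (cs (nd (nat_lit 250) (nat_lit 0) (cs (lf (nat_lit 17) (nat_lit 228)) (nd (nat_lit 271) (nat_lit 0) (cs (lf (nat_lit 10) (nat_lit 249)) (nd (nat_lit 249) (nat_lit 0) (cs (lf (nat_lit 11) (nat_lit 248)) (nd (nat_lit 274) (nat_lit 0) (cs (lf (nat_lit 0) (nat_lit 248)) (lf (nat_lit 5) (nat_lit 249)))))))))) (nd (nat_lit 272) (nat_lit 0) (cs (rf (nat_lit 12)) (cs (rf (nat_lit 13)) (nd (nat_lit 274) (nat_lit 0) (cs (rf (nat_lit 14)) (cs (rf (nat_lit 15)) (cs (nd (nat_lit 208) (nat_lit 0) (cs (rf (nat_lit 16)) (cs (rf (nat_lit 17)) (cs (nd (nat_lit 187)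 (nat_lit 0) (cs (lf (nat_lit 37) (nat_lit 186)) (rf (nat_lit 18)))) (nd (nat_lit 186) (nat_lit 0) (cs (lf (nat_lit 38) (nat_lit 185)) (nd (nat_lit 209) (nat_lit 0) (cs (lf (nat_lit 42) (nat_lit 186)) (lf (nat_lit 36) (nat_lit 186)))))))))) (nd (nat_lit 295) (nat_lit 0) (cs (rf (nat_lit 19)) (cs (rf (nat_lit 20)) (nd (nat_lit 296) (nat_lit 0) (cs (lf (nat_lit 30) (nat_lit 230)) (nd (nat_lit 297) (nat_lit 0) (cs (lf (nat_lit 18) (nat_lit 272)) (nd (nat_lit 230) (nat_lit 0) (cs (lf (nat_lit 29) (nat_lit 230)) (lf (nat_lit 36) (nat_lit 207)))))))))))))))))))))))))) q95939 (by decide +kernel)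
def q96132 : Q := Q.p (nat_lit 0x3000008000000000000000000000000000000000000000000000000000000000) (nat_lit 0x40000580001f00007f0007fe001ff8001ff0004f00077c000dd000170000540000000000000000000000000000000000000000) (nat_lit 16)
theorem c96132 : QOK q96132 := cut [q82275, q92608, q88301, q88302, q92391, q86851, q90043, q2581, q79251] ⟨c82275, c92608, c88301, c88302, c92391, c86851, c90043, c2581, c79251, trivial⟩ (nd (nat_lit 251) (nat_lit 0) (cs (rf (nat_lit 0)) (cs (rf (nat_lit 1)) (nd (nat_lit 273) (nat_lit 0) (cs (rf (nat_lit 2)) (cs (rf (nat_lit 3)) (cs (rf (nat_lit 4)) (nd (nat_lit 295) (nat_lit 0) (cs (rf (nat_lit 5)) (cs (rf (nat_lit 6)) (cs (nd (nat_lit 254) (nat_lit 0) (cs (lf (nat_lit 11) (nat_lit 250)) (nd (nat_lit 232) (nat_lit 0) (cs (lf (nat_lit 17) (nat_lit 229)) (nd (nat_lit 317) (nat_lit 0) (cs (lf (nat_lit 35) (nat_lit 229)) (nd (nat_lit 318) (nat_lit 0) (cs (lf (nat_lit 29) (nat_lit 251)) (nd (nat_lit 338)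 (nat_lit 0) (cs (lf (nat_lit 40) (nat_lit 250)) (nd (nat_lit 339) (nat_lit 0) (cs (lf (nat_lit 41) (nat_lit 272)) (nd (nat_lit 336) (nat_lit 0) (cs (lf (nat_lit 13) (nat_lit 314)) (nd (nat_lit 319) (nat_lit 0) (cs (lf (nat_lit 6) (nat_lit 316)) (nd (nat_lit 297) (nat_lit 0) (cs (lf (nat_lit 32) (nat_lit 231)) (nd (nat_lit 298) (nat_lit 0) (cs (rf (nat_lit 7)) (lf (nat_lit 38) (nat_lit 231)))))))))))))))))))))) (nd (nat_lit 254) (nat_lit 0) (cs (lf (nat_lit 11) (nat_lit 250)) (nd (nat_lit 232) (nat_lit 0) (cs (lf (nat_lit 17) (nat_lit 229)) (nd (nat_lit 229) (nat_lit 0) (cs (lf (nat_lit 23) (nat_lit 228)) (nd (nat_lit 294) (nat_lit 0) (cs (lf (nat_lit 41) (nat_lit 228)) (nd (nat_lit 230) (nat_lit 0) (cs (lf (nat_lit 35) (nat_lit 207)) (nd (nat_lit 296) (nat_lit 0) (cs (lf (nat_lit 29) (nat_lit 229)) (rf (nat_lit 8))))))))))))))))))))))))) q96132 (by decide +kernel)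
def q96207 : Q := Q.p (nat_lit 0x3000008000000000000000000000000000000000000000000000000000000000) (nat_lit 0x500001c0000700005c00017c0004e00077c0007e0001f0000740001400000000000000000000000000000000000) (nat_lit 12)
theorem c96207 : QOK q96207 := cut [q82275, q82278, q95807, q82300, q92707, q82274, q82277, q88301, q88302, q86851, q12808, q82405, q85505, q89866, q91265, q93612, q4090, q92706] ⟨c82275, c82278, c95807, c82300, c92707, c82274, c82277, c88301, c88302, c86851, c12808, c82405, c85505, c89866, c91265, c93612, c4090, c92706, trivial⟩ (nd (nat_lit 251) (nat_lit 0) (cs (rf (nat_lit 0)) (cs (rf (nat_lit 1)) (cs (rf (nat_lit 2)) (nd (nat_lit 209) (nat_lit 0) (cs (rf (nat_lit 3)) (cs (rf (nat_lit 4)) (cs (nd (nat_lit 232) (nat_lit 0) (cs (rf (nat_lit 5)) (cs (rf (nat_lit 6)) (nd (nat_lit 273) (nat_lit 0) (cs (rf (nat_lit 7)) (cs (rf (nat_lit 8)) (cs (nd (nat_lit 295) (nat_lit 0) (cs (rf (nat_lit 9)) (cs (nd (nat_lit 254)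 (nat_lit 0) (cs (lf (nat_lit 11) (nat_lit 250)) (nd (nat_lit 276) (nat_lit 0) (cs (lf (nat_lit 42) (nat_lit 209)) (nd (nat_lit 317) (nat_lit 0) (cs (rf (nat_lit 10)) (lf (nat_lit 35) (nat_lit 229)))))))) (cs (nd (nat_lit 254) (nat_lit 0) (cs (lf (nat_lit 11) (nat_lit 250)) (nd (nat_lit 229) (nat_lit 0) (cs (lf (nat_lit 23) (nat_lit 228)) (nd (nat_lit 276) (nat_lit 0) (cs (lf (nat_lit 42) (nat_lit 209)) (nd (nat_lit 208) (nat_lit 0) (cs (lf (nat_lit 34) (nat_lit 207)) (nd (nat_lit 207) (nat_lit 0) (cs (lf (nat_lit 0) (nat_lit 206)) (lf (nat_lit 35) (nat_lit 185)))))))))))) (nd (nat_lit 254) (nat_lit 0) (cs (lf (nat_lit 11) (nat_lit 250)) (nd (nat_lit 229) (nat_lit 0) (cs (lf (nat_lit 23) (nat_lit 228)) (nd (nat_lit 276) (nat_lit 0) (cs (lf (nat_lit 42) (nat_lit 209)) (rf (nat_lit 11)))))))))))) (nd (nat_lit 230) (nat_lit 0) (cs (rf (nat_lit 12)) (cs (rf (nat_lit 13)) (nd (nat_lit 229) (nat_lit 0) (cs (rf (nat_lit 14)) (rf (nat_lit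 15)))))))))))))) (nd (nat_lit 232) (nat_lit 0) (cs (rf (nat_lit 5)) (cs (rf (nat_lit 6)) (nd (nat_lit 187) (nat_lit 0) (cs (rf (nat_lit 16)) (cs (rf (nat_lit 17)) (nd (nat_lit 186) (nat_lit 0) (cs (lf (nat_lit 47) (nat_lit 164)) (nd (nat_lit 166) (nat_lit 0) (cs (lf (nat_lit 34) (nat_lit 165)) (nd (nat_lit 254) (nat_lit 0) (cs (lf (nat_lit 29) (nat_lit 187)) (nd (nat_lit 273) (nat_lit 0) (cs (lf (nat_lit 11) (nat_lit 250)) (nd (nat_lit 229) (nat_lit 0) (cs (lf (nat_lit 23) (nat_lit 228)) (nd (nat_lit 208) (nat_lit 0) (cs (lf (nat_lit 38) (nat_lit 185)) (lf (nat_lit 33) (nat_lit 185)))))))))))))))))))))))))))) q96207 (by decide +kernel)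
def q96389 : Q := Q.p (nat_lit 0x3000008000000000000000000000000000000000000000000000000000000000) (nat_lit 0xe0000780007f8001c6000778001de0003e0000f80000000000000000000000000000000000000000) (nat_lit 13)
theorem c96389 : QOK q96389 := cut [q92712, q96352, q96354, q96355, q57663, q84458, q79548, q81488, q96364, q96363, q94096, q86746, q96387] ⟨c92712, c96352, c96354, c96355, c57663, c84458, c79548, c81488, c96364, c96363, c94096, c86746, c96387, trivial⟩ (nd (nat_lit 230) (nat_lit 0) (cs (rf (nat_lit 0)) (cs (rf (nat_lit 1)) (cs (rf (nat_lit 2)) (cs (rf (nat_lit 3)) (nd (nat_lit 232) (nat_lit 0) (cs (rf (nat_lit 4)) (cs (rf (nat_lit 5)) (cs (nd (nat_lit 254) (nat_lit 0) (cs (rf (nat_lit 6)) (cs (rf (nat_lit 7)) (rf (nat_lit 8))))) (cs (nd (nat_lit 233) (nat_lit 0) (cs (lf (nat_lit 6) (nat_lit 230)) (nd (nat_lit 255) (nat_lit 0) (cs (lf (nat_lit 5) (nat_lit 230)) (nd (nat_lit 254) (nat_lit 0) (cs (lf (nat_lit 0) (nat_lit 229))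 (rf (nat_lit 9)))))))) (cs (nd (nat_lit 254) (nat_lit 0) (cs (rf (nat_lit 10)) (cs (rf (nat_lit 8)) (cs (nd (nat_lit 233) (nat_lit 0) (cs (lf (nat_lit 6) (nat_lit 230)) (nd (nat_lit 211) (nat_lit 0) (cs (lf (nat_lit 17) (nat_lit 208)) (nd (nat_lit 167) (nat_lit 0) (cs (lf (nat_lit 37) (nat_lit 166)) (nd (nat_lit 276) (nat_lit 0) (cs (lf (nat_lit 30) (nat_lit 210)) (nd (nat_lit 255) (nat_lit 0) (cs (lf (nat_lit 18) (nat_lit 230)) (nd (nat_lit 277) (nat_lit 0) (cs (lf (nat_lit 5) (nat_lit 252)) (nd (nat_lit 274) (nat_lit 0) (cs (lf (nat_lit 11) (nat_lit 251)) (nd (nat_lit 296) (nat_lit 0) (cs (lf (nat_lit 30) (nat_lit 230)) (nd (nat_lit 295) (nat_lit 0) (cs (lf (nat_lit 41) (nat_lit 229)) (lf (nat_lit 8) (nat_lit 273)))))))))))))))))))) (nd (nat_lit 255) (nat_lit 0) (cs (lf (nat_lit 18) (nat_lit 230)) (nd (nat_lit 277) (nat_lit 0) (cs (lf (nat_lit 5) (nat_lit 252)) (nd (nat_lit 188) (nat_lit 0) (cs (lf (nat_lit 25) (nat_lit 188))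 (nd (nat_lit 273) (nat_lit 0) (cs (lf (nat_lit 10) (nat_lit 251)) (rf (nat_lit 11)))))))))))))) (rf (nat_lit 12))))))))))))) q96389 (by decide +kernel)
def q96442 : Q := Q.p (nat_lit 0x3000008000000000000000000000000000000000000000000000000000000000) (nat_lit 0xe00007e0003f80018e000778001de0001f8000780000000000000000000000000000000000000000) (nat_lit 14)
theorem c96442 : QOK q96442 := cut [q96352, q57663, q87131, q96406, q96409, q79996, q84438, q57679, q92723, q96411, q96415, q96422, q84491, q84220, q96430, q96431, q91962, q87955] ⟨c96352, c57663, c87131, c96406, c96409, c79996, c84438, c57679, c92723, c96411, c96415, c96422, c84491, c84220, c96430, c96431, c91962, c87955, trivial⟩ (nd (nat_lit 230) (nat_lit 0) (cs (rf (nat_lit 0)) (cs (nd (nat_lit 232) (nat_lit 0) (cs (rf (nat_lit 1)) (cs (rf (nat_lit 2)) (rf (nat_lit 3))))) (cs (rf (nat_lit 4)) (cs (nd (nat_lit 208) (nat_lit 0) (cs (rf (nat_lit 5)) (cs (rf (nat_lit 6)) (nd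 (nat_lit 274) (nat_lit 0) (cs (rf (nat_lit 7)) (cs (rf (nat_lit 8)) (nd (nat_lit 275) (nat_lit 0) (cs (lf (nat_lit 42) (nat_lit 208)) (rf (nat_lit 9)))))))))) (cs (nd (nat_lit 232) (nat_lit 0) (cs (rf (nat_lit 1)) (cs (rf (nat_lit 2)) (rf (nat_lit 10))))) (cs (nd (nat_lit 208) (nat_lit 0) (cs (rf (nat_lit 5)) (cs (rf (nat_lit 6)) (nd (nat_lit 274) (nat_lit 0) (cs (rf (nat_lit 7)) (cs (rf (nat_lit 8)) (nd (nat_lit 275) (nat_lit 0) (cs (lf (nat_lit 42) (nat_lit 208)) (rf (nat_lit 11)))))))))) (nd (nat_lit 232) (nat_lit 0) (cs (rf (nat_lit 1)) (cs (rf (nat_lit 2)) (nd (nat_lit 274) (nat_lit 0) (cs (rf (nat_lit 12)) (cs (nd (nat_lit 296) (nat_lit 0) (cs (lf (nat_lit 30) (nat_lit 230)) (nd (nat_lit 297) (nat_lit 0) (cs (lf (nat_lit 29) (nat_lit 230)) (nd (nat_lit 250) (nat_lit 0) (cs (lf (nat_lit 13) (nat_lit 228)) (rf (nat_lit 13)))))))) (cs (nd (nat_lit 275) (nat_lit 0) (cs (rf (nat_lit 14)) (rf (nat_lit 15)))) (cs (nd (nat_lit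 250) (nat_lit 0) (cs (lf (nat_lit 13) (nat_lit 228)) (rf (nat_lit 16)))) (nd (nat_lit 296) (nat_lit 0) (cs (lf (nat_lit 30) (nat_lit 230)) (nd (nat_lit 297) (nat_lit 0) (cs (lf (nat_lit 29) (nat_lit 230)) (nd (nat_lit 210) (nat_lit 0) (cs (lf (nat_lit 31) (nat_lit 209)) (nd (nat_lit 166) (nat_lit 0) (cs (lf (nat_lit 37) (nat_lit 165)) (nd (nat_lit 295) (nat_lit 0) (cs (lf (nat_lit 41) (nat_lit 229)) (nd (nat_lit 250) (nat_lit 0) (cs (lf (nat_lit 13) (nat_lit 228)) (rf (nat_lit 17))))))))))))))))))))))))))))) q96442 (by decide +kernel)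
def q96454 : Q := Q.p (nat_lit 0x7000008000000000000000000000000000000000000000000000000000000000) (nat_lit 0xe0000380000f000180000070000180000e0000380000000000000000000000000000000000000000) (nat_lit 9)
theorem c96454 : QOK q96454 := cut [q81488, q96355, q91962, q79996, q86677, q79044, q96452] ⟨c81488, c96355, c91962, c79996, c86677, c79044, c96452, trivial⟩ (nd (nat_lit 230) (nat_lit 0) (cs (rf (nat_lit 0)) (cs (rf (nat_lit 1)) (nd (nat_lit 274) (nat_lit 0) (cs (rf (nat_lit 2)) (cs (nd (nat_lit 208) (nat_lit 0) (cs (rf (nat_lit 3)) (cs (nd (nat_lit 228) (nat_lit 0) (cs (lf (nat_lit 1) (nat_lit 228)) (nd (nat_lit 273) (nat_lit 0) (cs (lf (nat_lit 41) (nat_lit 207)) (rf (nat_lit 4)))))) (nd (nat_lit 185) (nat_lit 0) (cs (lf (nat_lit 46) (nat_lit 185)) (nd (nat_lit 228) (nat_lit 0) (cs (lf (nat_lit 1) (nat_lit 228)) (rf (nat_lit 5))))))))) (rf (nat_lit 6)))))))) q96454 (by decide +kernel)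
def q96607 : Q := Q.p (nat_lit 0x3000008000000000000000000000000000000000000000000000000000000000) (nat_lit 0x1c0001f00007c0003fc0004e00077c001dc000370000c80000000000000000000000000000000000000000) (nat_lit 14)
theorem c96607 : QOK q96607 := cut [q82275, q82278, q88808, q88302, q86851, q96345, q96601, q80583, q96603, q88800, q89666, q89846] ⟨c82275, c82278, c88808, c88302, c86851, c96345, c96601, c80583, c96603, c88800, c89666, c89846, trivial⟩ (nd (nat_lit 251) (nat_lit 0) (cs (rf (nat_lit 0)) (cs (rf (nat_lit 1)) (cs (rf (nat_lit 2)) (nd (nat_lit 273) (nat_lit 0) (cs (rf (nat_lit 3)) (cs (nd (nat_lit 295) (nat_lit 0) (cs (rf (nat_lit 4)) (cs (nd (nat_lit 254) (nat_lit 0) (cs (lf (nat_lit 11) (nat_lit 250)) (nd (nat_lit 232) (nat_lit 0) (cs (lf (nat_lit 17) (nat_lit 229)) (nd (nat_lit 276) (nat_lit 0) (cs (lf (nat_lit 5) (nat_lit 251)) (nd (nat_lit 298) (nat_lit 0) (cs (lf (nat_lit 42) (nat_lit 231)) (nd (nat_lit 297) (nat_lit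 0) (cs (lf (nat_lit 41) (nat_lit 231)) (nd (nat_lit 210) (nat_lit 0) (cs (lf (nat_lit 40) (nat_lit 209)) (nd (nat_lit 166) (nat_lit 0) (cs (lf (nat_lit 37) (nat_lit 165)) (nd (nat_lit 189) (nat_lit 0) (cs (lf (nat_lit 34) (nat_lit 188)) (nd (nat_lit 317) (nat_lit 0) (cs (lf (nat_lit 35) (nat_lit 229)) (nd (nat_lit 316) (nat_lit 0) (cs (lf (nat_lit 8) (nat_lit 294)) (lf (nat_lit 41) (nat_lit 250)))))))))))))))))))))) (nd (nat_lit 254) (nat_lit 0) (cs (lf (nat_lit 11) (nat_lit 250)) (rf (nat_lit 5))))))) (cs (rf (nat_lit 6)) (nd (nat_lit 295) (nat_lit 0) (cs (rf (nat_lit 7)) (cs (rf (nat_lit 4)) (cs (rf (nat_lit 8)) (nd (nat_lit 229) (nat_lit 0) (cs (rf (nat_lit 9)) (cs (rf (nat_lit 10)) (rf (nat_lit 11))))))))))))))))) q96607 (by decide +kernel)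
def q96645 : Q := Q.p (nat_lit 0x300000a000000000000000000000000000000000000000000000000000000000) (nat_lit 0xe0000380000f0001c0000740001dc0001e0000780000000000000000000000000000000000000000) (nat_lit 9)
theorem c96645 : QOK q96645 := cut [q92711, q96353, q96355] ⟨c92711, c96353, c96355, trivial⟩ (nd (nat_lit 230) (nat_lit 0) (cs (rf (nat_lit 0)) (cs (rf (nat_lit 1)) (rf (nat_lit 2))))) q96645 (by decide +kernel)
def q96712 : Q := Q.p (nat_lit 0x2000008000060000000000000000000000000000000000000000000000000000) (nat_lit 0x8000000000f780019c000678000100000400000000000000000000000000000000000) (nat_lit 9)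
theorem c96712 : QOK q96712 := cut [q1563, q85116, q96711] ⟨c1563, c85116, c96711, trivial⟩ (nd (nat_lit 208) (nat_lit 0) (cs (rf (nat_lit 0)) (cs (rf (nat_lit 1)) (rf (nat_lit 2))))) q96712 (by decide +kernel)
def q96820 : Q := Q.p (nat_lit 0x200000c000000000000000000000000000000000000000000000000000000000) (nat_lit 0x1e000078000f78003de000718001fe0007e0001f80001000000000000000000000000000000000000) (nat_lit 13)
theorem c96820 : QOK q96820 := cut [q82275, q96298, q96576, q96772, q96778, q96781, q96786, q79097, q89933, q86677, q92919, q92920, q426, q96792, q81382, q96796, q96797, q96798, q96800, q96568, q80019, q94095, q80204] ⟨c82275, c96298, c96576, c96772, c96778, c96781, c96786, c79097, c89933, c86677, c92919, c92920, c426, c96792, c81382, c96796, c96797, c96798, c96800, c96568, c80019, c94095, c80204, trivial⟩ (nd (nat_lit 252) (nat_lit 0) (cs (nd (nat_lit 251) (nat_lit 0) (cs (rf (nat_lit 0)) (cs (nd (nat_lit 254) (nat_lit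 0) (cs (rf (nat_lit 1)) (cs (rf (nat_lit 2)) (nd (nat_lit 232) (nat_lit 0) (cs (lf (nat_lit 6) (nat_lit 229)) (rf (nat_lit 3))))))) (rf (nat_lit 4))))) (cs (rf (nat_lit 5)) (cs (rf (nat_lit 6)) (cs (nd (nat_lit 274) (nat_lit 0) (cs (rf (nat_lit 7)) (cs (rf (nat_lit 8)) (nd (nat_lit 208) (nat_lit 0) (cs (rf (nat_lit 9)) (cs (rf (nat_lit 10)) (rf (nat_lit 11)))))))) (cs (nd (nat_lit 251) (nat_lit 0) (cs (rf (nat_lit 12)) (cs (rf (nat_lit 4)) (rf (nat_lit 13))))) (nd (nat_lit 254) (nat_lit 0) (cs (rf (nat_lit 14)) (cs (rf (nat_lit 15)) (cs (rf (nat_lit 16)) (cs (rf (nat_lit 17)) (cs (nd (nat_lit 255) (nat_lit 0) (cs (lf (nat_lit 18) (nat_lit 230)) (nd (nat_lit 233) (nat_lit 0) (cs (lf (nat_lit 17) (nat_lit 230)) (nd (nat_lit 232) (nat_lit 0) (cs (lf (nat_lit 12) (nat_lit 229)) (nd (nat_lit 207) (nat_lit 0) (cs (lf (nat_lit 22) (nat_lit 207)) (nd (nat_lit 211) (nat_lit 0) (cs (lf (nat_lit 17) (nat_lit 208)) (nd (nat_lit 189) (nat_lit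 0) (cs (lf (nat_lit 36) (nat_lit 166)) (rf (nat_lit 18)))))))))))))) (nd (nat_lit 233) (nat_lit 0) (cs (rf (nat_lit 19)) (cs (nd (nat_lit 232) (nat_lit 0) (cs (lf (nat_lit 6) (nat_lit 230)) (rf (nat_lit 20)))) (nd (nat_lit 232) (nat_lit 0) (cs (rf (nat_lit 20)) (cs (rf (nat_lit 21)) (cs (nd (nat_lit 255) (nat_lit 0) (cs (lf (nat_lit 18) (nat_lit 230)) (nd (nat_lit 208) (nat_lit 0) (cs (lf (nat_lit 23) (nat_lit 207)) (nd (nat_lit 277) (nat_lit 0) (cs (lf (nat_lit 5) (nat_lit 252)) (nd (nat_lit 188) (nat_lit 0) (cs (lf (nat_lit 25) (nat_lit 188)) (rf (nat_lit 22)))))))))) (nd (nat_lit 207) (nat_lit 0) (cs (lf (nat_lit 22) (nat_lit 207)) (nd (nat_lit 211) (nat_lit 0) (cs (lf (nat_lit 17) (nat_lit 208)) (nd (nat_lit 189) (nat_lit 0) (cs (lf (nat_lit 36) (nat_lit 166)) (nd (nat_lit 255) (nat_lit 0) (cs (lf (nat_lit 18) (nat_lit 230)) (nd (nat_lit 168) (nat_lit 0) (cs (lf (nat_lit 34) (nat_lit 167)) (rf (nat_lit 18)))))))))))))))))))))))))))))))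 q96820 (by decide +kernel)
def q97013 : Q := Q.p (nat_lit 0x200000c000000000000000000000000000000000000000000000000000000000) (nat_lit 0x2000058000778001dc000f20003fe000fe0000f80001000000000000000000000000000000000000) (nat_lit 12)
theorem c97013 : QOK q97013 := cut [q96990, q96993, q96994, q96995, q96999, q79994, q94095, q80206, q80207, q87131, q89464, q97009, q86774, q96786, q96796] ⟨c96990, c96993, c96994, c96995, c96999, c79994, c94095, c80206, c80207, c87131, c89464, c97009, c86774, c96786, c96796, trivial⟩ (nd (nat_lit 254) (nat_lit 0) (cs (rf (nat_lit 0)) (cs (rf (nat_lit 1)) (cs (nd (nat_lit 232) (nat_lit 0) (cs (rf (nat_lit 2)) (cs (rf (nat_lit 3)) (rf (nat_lit 4))))) (cs (nd (nat_lit 232) (nat_lit 0) (cs (rf (nat_lit 3)) (cs (nd (nat_lit 233) (nat_lit 0) (cs (rf (nat_lit 5)) (rf (nat_lit 6)))) (cs (nd (nat_lit 252) (nat_lit 0) (cs (rf (nat_lit 7)) (cs (rf (nat_lit 8)) (rf (nat_lit 9))))) (nd (nat_lit 252) (nat_lit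 0) (cs (rf (nat_lit 9)) (cs (nd (nat_lit 233) (nat_lit 0) (cs (lf (nat_lit 6) (nat_lit 230)) (nd (nat_lit 211) (nat_lit 0) (cs (lf (nat_lit 17) (nat_lit 208)) (nd (nat_lit 210) (nat_lit 0) (cs (lf (nat_lit 12) (nat_lit 207)) (nd (nat_lit 166) (nat_lit 0) (cs (lf (nat_lit 37) (nat_lit 165)) (nd (nat_lit 167) (nat_lit 0) (cs (lf (nat_lit 37) (nat_lit 166)) (rf (nat_lit 10)))))))))))) (rf (nat_lit 11))))))))) (nd (nat_lit 252) (nat_lit 0) (cs (rf (nat_lit 12)) (cs (rf (nat_lit 13)) (rf (nat_lit 14)))))))))) q97013 (by decide +kernel)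
def q97023 : Q := Q.p (nat_lit 0x200000c000000000000000000000000000000000000000000000000000000000) (nat_lit 0x100003d7000f38001fe000f80000e00000000000000000000000000000000000000000) (nat_lit 11)
theorem c97023 : QOK q97023 := cut [q96758, q96764, q96768, q97022] ⟨c96758, c96764, c96768, c97022, trivial⟩ (nd (nat_lit 229) (nat_lit 0) (cs (rf (nat_lit 0)) (cs (rf (nat_lit 1)) (cs (rf (nat_lit 2)) (rf (nat_lit 3)))))) q97023 (by decide +kernel)
def q97121 : Q := Q.p (nat_lit 0x200000c000000000000000000000000000000000000000000000000000000000) (nat_lit 0x100003d8000f38001ff000fd8000f00000c00000000000000000000000000000000000) (nat_lit 11)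
theorem c97121 : QOK q97121 := cut [q96769, q96846, q97022, q97118, q97120] ⟨c96769, c96846, c97022, c97118, c97120, trivial⟩ (nd (nat_lit 229) (nat_lit 0) (cs (rf (nat_lit 0)) (cs (rf (nat_lit 1)) (cs (rf (nat_lit 2)) (cs (rf (nat_lit 3)) (rf (nat_lit 4))))))) q97121 (by decide +kernel)
def q97782 : Q := Q.p (nat_lit 0x800002000008000000000000000000000000000000000000000000000000000000000) (nat_lit 0x100000e00003c000f70003df000f78003ee0003f0000fc0000400000000000000000000000000000000000) (nat_lit 15)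
theorem c97782 : QOK q97782 := cut [q26315, q87016, q86631, q94159, q97704, q96387, q97707, q97709, q97715, q97717, q79196, q96551, q97727, q86860, q97347, q97741, q97320, q97337, q97321, q97331, q97749, q97751, q97333, q97766, q79383, q97774, q79994, q97344, q97775] ⟨c26315, c87016, c86631, c94159, c97704, c96387, c97707, c97709, c97715, c97717, c79196, c96551, c97727, c86860, c97347, c97741, c97320, c97337, c97321, c97331, c97749, c97751, c97333, c97766, c79383, c97774, c79994, c97344, c97775, trivial⟩ (nd (nat_lit 232) (nat_lit 0) (cs (rf (nat_lit 0)) (cs (rf (nat_lit 1)) (cs (nd (nat_lit 252) (nat_lit 0) (cs (rf (nat_lit 2)) (cs (rf (nat_lit 3)) (cs (nd (nat_lit 296) (nat_lit 0) (cs (rf (nat_lit 4)) (cs (nd (nat_lit 230) (nat_lit 0) (cs (rf (nat_lit 5)) (cs (rf (nat_lit 6)) (cs (rf (nat_lit 7)) (rf (nat_lit 8)))))) (rf (nat_lit 9))))) (nd (nat_lit 254) (nat_lit 0) (cs (rf (nat_lit 10)) (cs (rf (nat_lit 11)) (cs (rf (nat_lit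 12)) (nd (nat_lit 297) (nat_lit 0) (cs (lf (nat_lit 30) (nat_lit 231)) (nd (nat_lit 296) (nat_lit 0) (cs (lf (nat_lit 41) (nat_lit 230)) (nd (nat_lit 209) (nat_lit 0) (cs (lf (nat_lit 40) (nat_lit 208)) (nd (nat_lit 165) (nat_lit 0) (cs (lf (nat_lit 25) (nat_lit 165)) (nd (nat_lit 251) (nat_lit 0) (cs (lf (nat_lit 12) (nat_lit 228)) (nd (nat_lit 272) (nat_lit 0) (cs (lf (nat_lit 10) (nat_lit 250)) (nd (nat_lit 229) (nat_lit 0) (cs (lf (nat_lit 23) (nat_lit 228)) (nd (nat_lit 255) (nat_lit 0) (cs (lf (nat_lit 22) (nat_lit 229)) (rf (nat_lit 13)))))))))))))))))))))))))) (nd (nat_lit 274) (nat_lit 0) (cs (rf (nat_lit 14)) (cs (rf (nat_lit 15)) (cs (nd (nat_lit 254) (nat_lit 0) (cs (rf (nat_lit 16)) (cs (rf (nat_lit 17)) (cs (nd (nat_lit 251) (nat_lit 0) (cs (rf (nat_lit 18)) (cs (rf (nat_lit 19)) (rf (nat_lit 20))))) (nd (nat_lit 252) (nat_lit 0) (cs (rf (nat_lit 2)) (cs (nd (nat_lit 255) (nat_lit 0) (cs (lf (nat_lit 6) (nat_lit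 252)) (nd (nat_lit 277) (nat_lit 0) (cs (lf (nat_lit 5) (nat_lit 252)) (nd (nat_lit 188) (nat_lit 0) (cs (lf (nat_lit 25) (nat_lit 188)) (nd (nat_lit 230) (nat_lit 0) (cs (lf (nat_lit 0) (nat_lit 229)) (rf (nat_lit 21)))))))))) (nd (nat_lit 296) (nat_lit 0) (cs (lf (nat_lit 30) (nat_lit 230)) (nd (nat_lit 188) (nat_lit 0) (cs (lf (nat_lit 37) (nat_lit 187)) (nd (nat_lit 255) (nat_lit 0) (cs (lf (nat_lit 6) (nat_lit 252)) (nd (nat_lit 277) (nat_lit 0) (cs (lf (nat_lit 5) (nat_lit 252)) (nd (nat_lit 251) (nat_lit 0) (cs (lf (nat_lit 12) (nat_lit 228)) (lf (nat_lit 19) (nat_lit 251))))))))))))))))))) (nd (nat_lit 254) (nat_lit 0) (cs (rf (nat_lit 16)) (cs (rf (nat_lit 17)) (cs (nd (nat_lit 251) (nat_lit 0) (cs (rf (nat_lit 18)) (cs (rf (nat_lit 22)) (cs (nd (nat_lit 210) (nat_lit 0) (cs (lf (nat_lit 36) (nat_lit 187)) (nd (nat_lit 273) (nat_lit 0) (cs (lf (nat_lit 12) (nat_lit 250)) (nd (nat_lit 276) (nat_lit 0) (cs (lf (nat_lit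 23) (nat_lit 250)) (rf (nat_lit 23)))))))) (nd (nat_lit 272) (nat_lit 0) (cs (lf (nat_lit 13) (nat_lit 250)) (nd (nat_lit 233) (nat_lit 0) (cs (rf (nat_lit 24)) (lf (nat_lit 13) (nat_lit 229)))))))))) (cs (rf (nat_lit 25)) (nd (nat_lit 233) (nat_lit 0) (cs (rf (nat_lit 26)) (cs (rf (nat_lit 27)) (nd (nat_lit 188) (nat_lit 0) (cs (lf (nat_lit 37) (nat_lit 187)) (nd (nat_lit 251) (nat_lit 0) (cs (lf (nat_lit 13) (nat_lit 229)) (nd (nat_lit 255) (nat_lit 0) (cs (lf (nat_lit 6) (nat_lit 252)) (rf (nat_lit 28)))))))))))))))))))))))) q97782 (by decide +kernel)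
def q97808 : Q := Q.p (nat_lit 0x2000008000000000000000000000000000000000000000000000000000000000) (nat_lit 0x500001f00077c000ffc003de000f7c000be0003f0000740001400000000000000000000000000000000000) (nat_lit 15)
theorem c97808 : QOK q97808 := cut [q96308, q97264, q97238, q97785, q97786, q94017, q96503, q80728, q96473, q97788, q10519, q88774, q23499, q97807] ⟨c96308, c97264, c97238, c97785, c97786, c94017, c96503, c80728, c96473, c97788, c10519, c88774, c23499, c97807, trivial⟩ (nd (nat_lit 209) (nat_lit 0) (cs (rf (nat_lit 0)) (cs (rf (nat_lit 1)) (cs (nd (nat_lit 275) (nat_lit 0) (cs (rf (nat_lit 2)) (cs (rf (nat_lit 3)) (rf (nat_lit 4))))) (cs (nd (nat_lit 252) (nat_lit 0) (cs (rf (nat_lit 5)) (cs (rf (nat_lit 6)) (nd (nat_lit 254) (nat_lit 0) (cs (rf (nat_lit 7)) (cs (rf (nat_lit 8)) (rf (nat_lit 9)))))))) (cs (nd (nat_lit 187) (nat_lit 0) (cs (rf (nat_lit 10)) (cs (rf (nat_lit 11)) (nd (nat_lit 164) (nat_lit 0) (cs (lf (nat_lit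 46) (nat_lit 164)) (nd (nat_lit 276) (nat_lit 0) (cs (lf (nat_lit 28) (nat_lit 187)) (nd (nat_lit 166) (nat_lit 0) (cs (lf (nat_lit 34) (nat_lit 165)) (nd (nat_lit 275) (nat_lit 0) (cs (lf (nat_lit 29) (nat_lit 209)) (rf (nat_lit 12))))))))))))) (rf (nat_lit 13)))))))) q97808 (by decide +kernel)
def q97832 : Q := Q.p (nat_lit 0x2000008000020000000000000000000000000000000000000000000000000000) (nat_lit 0x50000f78003de001f7c000d0000380000e00001000000000000000000000000000000000000) (nat_lit 11)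
theorem c97832 : QOK q97832 := cut [q80728, q80757, q80819, q96570, q81100, q97811, q97822, q97825, q96472, q80616, q82300, q97788, q80727] ⟨c80728, c80757, c80819, c96570, c81100, c97811, c97822, c97825, c96472, c80616, c82300, c97788, c80727, trivial⟩ (nd (nat_lit 254) (nat_lit 0) (cs (rf (nat_lit 0)) (cs (rf (nat_lit 1)) (cs (nd (nat_lit 255) (nat_lit 0) (cs (rf (nat_lit 2)) (cs (rf (nat_lit 3)) (cs (nd (nat_lit 234) (nat_lit 0) (cs (nd (nat_lit 233) (nat_lit 0) (cs (lf (nat_lit 12) (nat_lit 230)) (rf (nat_lit 4)))) (cs (nd (nat_lit 256) (nat_lit 0) (cs (lf (nat_lit 17) (nat_lit 231)) (nd (nat_lit 232) (nat_lit 0) (cs (lf (nat_lit 18) (nat_lit 231)) (nd (nat_lit 276) (nat_lit 0) (cs (lf (nat_lit 42) (nat_lit 209)) (nd (nat_lit 278) (nat_lit 0) (cs (lf (nat_lit 5) (nat_lit 253)) (nd (nat_lit 252) (nat_lit 0) (cs (lf (nat_lit 4) (nat_lit 252)) (rf (nat_lit 5)))))))))))) (cs (nd (nat_lit 233) (nat_lit 0) (cs (lf (nat_lit 12)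 (nat_lit 230)) (nd (nat_lit 208) (nat_lit 0) (cs (lf (nat_lit 20) (nat_lit 208)) (nd (nat_lit 211) (nat_lit 0) (cs (lf (nat_lit 2) (nat_lit 208)) (nd (nat_lit 189) (nat_lit 0) (cs (lf (nat_lit 41) (nat_lit 188)) (nd (nat_lit 256) (nat_lit 0) (cs (lf (nat_lit 29) (nat_lit 189)) (lf (nat_lit 24) (nat_lit 167)))))))))))) (cs (nd (nat_lit 233) (nat_lit 0) (cs (lf (nat_lit 12) (nat_lit 230)) (rf (nat_lit 6)))) (rf (nat_lit 7))))))) (nd (nat_lit 252) (nat_lit 0) (cs (rf (nat_lit 8)) (nd (nat_lit 230) (nat_lit 0) (cs (lf (nat_lit 23) (nat_lit 229)) (rf (nat_lit 9)))))))))) (nd (nat_lit 252) (nat_lit 0) (cs (rf (nat_lit 10)) (cs (rf (nat_lit 11)) (nd (nat_lit 187) (nat_lit 0) (cs (lf (nat_lit 41) (nat_lit 186)) (rf (nat_lit 12))))))))))) q97832 (by decide +kernel)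
def q98062 : Q := Q.p (nat_lit 0x2000008000000000000000000000000000000000000000000000000000000000) (nat_lit 0x500001c00017c0007b0007df000f7c001ff000ff8001fc0000c00002000000000000000000000000000000) (nat_lit 17)
theorem c98062 : QOK q98062 := cut [q96847, q97108, q97222, q96758, q96764, q97957, q97285, q97589, q97982, q94775, q96310, q97984, q98013, q97593, q98028, q96768, q96769, q96836, q96971, q96974, q96986, q98031, q98036, q98051, q98058, q98061] ⟨c96847, c97108, c97222, c96758, c96764, c97957, c97285, c97589, c97982, c94775, c96310, c97984, c98013, c97593, c98028, c96768, c96769, c96836, c96971, c96974, c96986, c98031, c98036, c98051, c98058, c98061, trivial⟩ (nd (nat_lit 230) (nat_lit 0) (cs (rf (nat_lit 0)) (cs (rf (nat_lit 1)) (cs (rf (nat_lit 2)) (cs (nd (nat_lit 229) (nat_lit 0) (cs (rf (nat_lit 3)) (cs (rf (nat_lit 4)) (cs (nd (nat_lit 275) (nat_lit 0) (cs (rf (nat_lit 5)) (cs (nd (nat_lit 297) (nat_lit 0) (cs (rf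 (nat_lit 6)) (cs (rf (nat_lit 7)) (rf (nat_lit 8))))) (nd (nat_lit 209) (nat_lit 0) (cs (rf (nat_lit 9)) (cs (rf (nat_lit 10)) (rf (nat_lit 11)))))))) (rf (nat_lit 12)))))) (cs (nd (nat_lit 275) (nat_lit 0) (cs (rf (nat_lit 13)) (cs (rf (nat_lit 5)) (rf (nat_lit 14))))) (cs (nd (nat_lit 229) (nat_lit 0) (cs (rf (nat_lit 3)) (cs (rf (nat_lit 15)) (cs (rf (nat_lit 16)) (cs (rf (nat_lit 17)) (nd (nat_lit 232) (nat_lit 0) (cs (rf (nat_lit 18)) (cs (rf (nat_lit 19)) (cs (rf (nat_lit 20)) (nd (nat_lit 206) (nat_lit 0) (cs (lf (nat_lit 22) (nat_lit 206)) (rf (nat_lit 21))))))))))))) (cs (rf (nat_lit 22)) (cs (rf (nat_lit 23)) (cs (rf (nat_lit 24)) (rf (nat_lit 25)))))))))))) q98062 (by decide +kernel)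
def q98072 : Q := Q.p (nat_lit 0x2000008000030000000000000000000000000000000000000000000000000000) (nat_lit 0x8000000000f78001cc000f38000400001000000000000000000000000000000000000) (nat_lit 9)
theorem c98072 : QOK q98072 := cut [q7463, q7464, q96711] ⟨c7463, c7464, c96711, trivial⟩ (nd (nat_lit 210) (nat_lit 0) (cs (rf (nat_lit 0)) (cs (rf (nat_lit 1)) (rf (nat_lit 2))))) q98072 (by decide +kernel)
def q98312 : Q := Q.p (nat_lit 0x2000008000000000000000000000000000000000000000000000000000000000) (nat_lit 0x400001c0000780001f00077e000ff8007df000f780007f0001f00007c0001f00005400000000000000000000000000000) (nat_lit 16)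
theorem c98312 : QOK q98312 := cut [q97532, q97587, q97588, q97593, q97683, q97702, q97951, q97976, q97956, q97957, q96758, q96769, q96836, q97207, q80199, q96903, q97014, q98294, q87016, q97604, q98308] ⟨c97532, c97587, c97588, c97593, c97683, c97702, c97951, c97976, c97956, c97957, c96758, c96769, c96836, c97207, c80199, c96903, c97014, c98294, c87016, c97604, c98308, trivial⟩ (nd (nat_lit 275) (nat_lit 0) (cs (rf (nat_lit 0)) (cs (rf (nat_lit 1)) (cs (rf (nat_lit 2)) (cs (rf (nat_lit 3)) (cs (rf (nat_lit 4)) (cs (rf (nat_lit 5)) (cs (rf (nat_lit 6)) (cs (rf (nat_lit 7)) (nd (nat_lit 230) (nat_lit 0) (cs (rf (nat_lit 8)) (cs (rf (nat_lit 9)) (cs (nd (nat_lit 229) (nat_lit 0) (cs (rf (nat_lit 10)) (cs (rf (nat_lit 11)) (cs (rf (nat_lit 12)) (cs (rf (nat_lit 13)) (nd (nat_lit 232) (nat_lit 0) (cs (rf (nat_lit 14)) (cs (rf (nat_lit 15)) (cs (rf (nat_lit 16)) (cs (rf (nat_lit 17)) (nd (nat_lit 206) (nat_lit 0) (cs (lf (nat_lit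 22) (nat_lit 206)) (nd (nat_lit 254) (nat_lit 0) (cs (lf (nat_lit 5) (nat_lit 229)) (nd (nat_lit 188) (nat_lit 0) (cs (lf (nat_lit 37) (nat_lit 187)) (nd (nat_lit 251) (nat_lit 0) (cs (lf (nat_lit 11) (nat_lit 228)) (nd (nat_lit 252) (nat_lit 0) (cs (lf (nat_lit 17) (nat_lit 229)) (nd (nat_lit 276) (nat_lit 0) (cs (lf (nat_lit 5) (nat_lit 251)) (nd (nat_lit 298) (nat_lit 0) (cs (lf (nat_lit 42) (nat_lit 231)) (nd (nat_lit 273) (nat_lit 0) (cs (lf (nat_lit 11) (nat_lit 250)) (nd (nat_lit 295) (nat_lit 0) (cs (lf (nat_lit 30) (nat_lit 229)) (nd (nat_lit 294) (nat_lit 0) (cs (lf (nat_lit 41) (nat_lit 228)) (lf (nat_lit 8) (nat_lit 272)))))))))))))))))))))))))))))))) (nd (nat_lit 232) (nat_lit 0) (cs (rf (nat_lit 18)) (cs (rf (nat_lit 19)) (nd (nat_lit 229) (nat_lit 0) (cs (rf (nat_lit 10)) (cs (rf (nat_lit 11)) (cs (rf (nat_lit 12)) (cs (rf (nat_lit 13)) (rf (nat_lit 20))))))))))))))))))))))) q98312 (by decide +kernel)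
def q98676 : Q := Q.p (nat_lit 0x100000c00003000004000000000000000000000000000000000000000000000000000000000) (nat_lit 0x200000e0000000000e0007b8001ee000080000000000000000000000000000000000000000000000) (nat_lit 11)
theorem c98676 : QOK q98676 := cut [q24703, q98675] ⟨c24703, c98675, trivial⟩ (nd (nat_lit 231) (nat_lit 0) (cs (rf (nat_lit 0)) (rf (nat_lit 1)))) q98676 (by decide +kernel)
def q98761 : Q := Q.p (nat_lit 0x800003000000000000000000000000000000000000000000000000000000000000000) (nat_lit 0x50000740000ce0007fc000fe0003f0000300000000000000000000000000000000000000000) (nat_lit 14)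
theorem c98761 : QOK q98761 := cut [q2091, q98519, q98752, q98758, q2090, q23550, q89874] ⟨c2091, c98519, c98752, c98758, c2090, c23550, c89874, trivial⟩ (nd (nat_lit 251) (nat_lit 0) (cs (rf (nat_lit 0)) (cs (rf (nat_lit 1)) (cs (rf (nat_lit 2)) (cs (rf (nat_lit 3)) (nd (nat_lit 250) (nat_lit 0) (cs (rf (nat_lit 4)) (cs (rf (nat_lit 5)) (rf (nat_lit 6)))))))))) q98761 (by decide +kernel)
def q98799 : Q := Q.p (nat_lit 0x800002000008000000000000000000000000000000000000000000000000000000000) (nat_lit 0x50000ff8001fc0007780004000014000050000000000000000000000000000000000000000000000000000) (nat_lit 13)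
theorem c98799 : QOK q98799 := cut [q84365, q98790, q98795, q98797] ⟨c84365, c98790, c98795, c98797, trivial⟩ (nd (nat_lit 297) (nat_lit 0) (cs (rf (nat_lit 0)) (cs (rf (nat_lit 1)) (cs (rf (nat_lit 2)) (nd (nat_lit 208) (nat_lit 0) (cs (lf (nat_lit 46) (nat_lit 208)) (rf (nat_lit 3)))))))) q98799 (by decide +kernel)
def q98956 : Q := Q.p (nat_lit 0xc00002000000000000000000000000000000000000000000000000000000000000000) (nat_lit 0x1f80007f8001fe00071c000de00077c000f80001e0000000000000000000000000000000000000000000000) (nat_lit 14)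
theorem c98956 : QOK q98956 := cut [q1999, q98543, q82198, q91583, q98865, q98874, q91655, q98510, q98740, q98875, q98881, q98944, q98947, q98955] ⟨c1999, c98543, c82198, c91583, c98865, c98874, c91655, c98510, c98740, c98875, c98881, c98944, c98947, c98955, trivial⟩ (nd (nat_lit 252) (nat_lit 0) (cs (nd (nat_lit 251) (nat_lit 0) (cs (rf (nat_lit 0)) (cs (rf (nat_lit 1)) (nd (nat_lit 229) (nat_lit 0) (cs (rf (nat_lit 2)) (cs (rf (nat_lit 3)) (nd (nat_lit 277) (nat_lit 0) (cs (lf (nat_lit 19) (nat_lit 251)) (nd (nat_lit 185) (nat_lit 0) (cs (lf (nat_lit 25) (nat_lit 185)) (nd (nat_lit 296) (nat_lit 0) (cs (lf (nat_lit 42) (nat_lit 229)) (nd (nat_lit 254) (nat_lit 0) (cs (lf (nat_lit 23) (nat_lit 228)) (rf (nat_lit 4)))))))))))))))) (cs (rf (nat_lit 5)) (cs (nd (nat_lit 251) (nat_lit 0) (cs (rf (nat_lit 0)) (cs (rf (nat_lit 6)) (nd (nat_lit 254) (nat_lit 0) (cs (rf (nat_lit 7)) (cs (rf (nat_lit 8)) (cs (nd (nat_lit 232) (nat_lit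 0) (cs (lf (nat_lit 17) (nat_lit 229)) (nd (nat_lit 188) (nat_lit 0) (cs (lf (nat_lit 37) (nat_lit 187)) (nd (nat_lit 297) (nat_lit 0) (cs (lf (nat_lit 30) (nat_lit 231)) (nd (nat_lit 230) (nat_lit 0) (cs (lf (nat_lit 24) (nat_lit 208)) (rf (nat_lit 9)))))))))) (nd (nat_lit 228) (nat_lit 0) (cs (lf (nat_lit 22) (nat_lit 228)) (rf (nat_lit 10))))))))))) (cs (nd (nat_lit 251) (nat_lit 0) (cs (rf (nat_lit 0)) (cs (rf (nat_lit 6)) (rf (nat_lit 11))))) (cs (rf (nat_lit 12)) (rf (nat_lit 13)))))))) q98956 (by decide +kernel)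
def q98986 : Q := Q.p (nat_lit 0xe00002000000000000000000000000000000000000000000000000000000000000000) (nat_lit 0x60000180000ec000110000c0000300000c0000300000000000000000000000000000000000000000000000) (nat_lit 10)
theorem c98986 : QOK q98986 := cut [q98847] ⟨c98847, trivial⟩ (nd (nat_lit 254) (nat_lit 0) (cs (lf (nat_lit 12) (nat_lit 250)) (nd (nat_lit 276) (nat_lit 0) (cs (lf (nat_lit 17) (nat_lit 251)) (rf (nat_lit 0)))))) q98986 (by decide +kernel)
def q99040 : Q := Q.p (nat_lit 0xc00003000004000000000000000000000000000000000000000000000000000000000) (nat_lit 0x380000f80007e0000380000e0000380000e000000000000000000000000000000000000000000000000000) (nat_lit 12)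
theorem c99040 : QOK q99040 := cut [q83734, q98862, q99039] ⟨c83734, c98862, c99039, trivial⟩ (nd (nat_lit 296) (nat_lit 0) (cs (rf (nat_lit 0)) (cs (rf (nat_lit 1)) (rf (nat_lit 2))))) q99040 (by decide +kernel)
def q99100 : Q := Q.p (nat_lit 0xc00002000000000000000000000000000000000000000000000000000000000000000) (nat_lit 0x1f80007f8001fe000720000de000778000f80003e0000000000000000000000000000000000000000000000) (nat_lit 14)
theorem c99100 : QOK q99100 := cut [q98874, q98947, q98955, q1257, q98695, q97540, q87285, q98387, q99087, q99094, q5304, q98562, q98944] ⟨c98874, c98947, c98955, c1257, c98695, c97540, c87285, c98387, c99087, c99094, c5304, c98562, c98944, trivial⟩ (nd (nat_lit 252) (nat_lit 0) (cs (rf (nat_lit 0)) (cs (rf (nat_lit 1)) (cs (rf (nat_lit 2)) (cs (nd (nat_lit 276) (nat_lit 0) (cs (rf (nat_lit 3)) (cs (rf (nat_lit 4)) (nd (nat_lit 254) (nat_lit 0) (cs (nd (nat_lit 255) (nat_lit 0) (cs (lf (nat_lit 12) (nat_lit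 251)) (nd (nat_lit 229) (nat_lit 0) (cs (lf (nat_lit 22) (nat_lit 229)) (rf (nat_lit 5)))))) (cs (nd (nat_lit 251) (nat_lit 0) (cs (lf (nat_lit 0) (nat_lit 250)) (nd (nat_lit 232) (nat_lit 0) (cs (lf (nat_lit 17) (nat_lit 229)) (nd (nat_lit 188) (nat_lit 0) (cs (lf (nat_lit 37) (nat_lit 187)) (nd (nat_lit 229) (nat_lit 0) (cs (lf (nat_lit 23) (nat_lit 228)) (nd (nat_lit 207) (nat_lit 0) (cs (lf (nat_lit 24) (nat_lit 185)) (nd (nat_lit 230) (nat_lit 0) (cs (lf (nat_lit 42) (nat_lit 207)) (lf (nat_lit 18) (nat_lit 229)))))))))))))) (cs (nd (nat_lit 251) (nat_lit 0) (cs (lf (nat_lit 0) (nat_lit 250)) (nd (nat_lit 232) (nat_lit 0) (cs (lf (nat_lit 17) (nat_lit 229)) (nd (nat_lit 188) (nat_lit 0) (cs (lf (nat_lit 37) (nat_lit 187)) (rf (nat_lit 6)))))))) (nd (nat_lit 250) (nat_lit 0) (cs (lf (nat_lit 1) (nat_lit 250)) (nd (nat_lit 273) (nat_lit 0) (cs (lf (nat_lit 17) (nat_lit 251)) (rf (nat_lit 7))))))))))))) (cs (nd (nat_lit 254)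 (nat_lit 0) (cs (nd (nat_lit 255) (nat_lit 0) (cs (lf (nat_lit 11) (nat_lit 251)) (nd (nat_lit 233) (nat_lit 0) (cs (lf (nat_lit 17) (nat_lit 230)) (nd (nat_lit 277) (nat_lit 0) (cs (lf (nat_lit 5) (nat_lit 252)) (rf (nat_lit 8)))))))) (cs (rf (nat_lit 9)) (nd (nat_lit 255) (nat_lit 0) (cs (lf (nat_lit 11) (nat_lit 251)) (nd (nat_lit 229) (nat_lit 0) (cs (lf (nat_lit 22) (nat_lit 229)) (nd (nat_lit 251) (nat_lit 0) (cs (rf (nat_lit 10)) (lf (nat_lit 23) (nat_lit 228))))))))))) (nd (nat_lit 251) (nat_lit 0) (cs (rf (nat_lit 10)) (cs (rf (nat_lit 11)) (rf (nat_lit 12))))))))))) q99100 (by decide +kernel)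
def q99212 : Q := Q.p (nat_lit 0xe00002800000000000000000000000000000000000000000000000000000000000000) (nat_lit 0x380000e00003c000300000d000037c000f80001e0000000000000000000000000000000000000000000000) (nat_lit 8)
theorem c99212 : QOK q99212 := cut [q98679, q98947, q99066] ⟨c98679, c98947, c99066, trivial⟩ (nd (nat_lit 252) (nat_lit 0) (cs (rf (nat_lit 0)) (cs (rf (nat_lit 1)) (nd (nat_lit 276) (nat_lit 0) (cs (lf (nat_lit 18) (nat_lit 251)) (nd (nat_lit 294) (nat_lit 0) (cs (lf (nat_lit 10) (nat_lit 272)) (rf (nat_lit 2))))))))) q99212 (by decide +kernel)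
def q99466 : Q := Q.p (nat_lit 0x800002000000000000000000000000000000000000000000000000000000000000000) (nat_lit 0x140000fc001ff8003fe001f7c000de000ffc001dc0001700001c0000500000000000000000000000000000000000) (nat_lit 16)
theorem c99466 : QOK q99466 := cut [q98541, q99372, q99375, q1999, q2066, q2091, q98378, q79020, q98881, q99376, q99399, q88933, q99273, q90752, q96004, q90750, q90853, q2560, q98948, q25883, q90842, q98697, q99409, q98510, q98740, q79169, q99274, q79111, q88337, q90838, q90835, q99045, q99454, q98540, q98766, q98781, q89807, q90790, q98679, q99463] ⟨c98541, c99372, c99375, c1999, c2066, c2091, c98378, c79020, c98881, c99376, c99399, c88933, c99273, c90752, c96004, c90750, c90853, c2560, c98948, c25883, c90842, c98697, c99409, c98510, c98740, c79169, c99274, c79111, c88337, c90838, c90835, c99045, c99454, c98540, c98766, c98781, c89807, c90790, c98679, c99463, trivial⟩ (nd (nat_lit 252) (nat_lit 0) (cs (rf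 (nat_lit 0)) (cs (rf (nat_lit 1)) (cs (rf (nat_lit 2)) (cs (nd (nat_lit 251) (nat_lit 0) (cs (rf (nat_lit 3)) (cs (rf (nat_lit 4)) (cs (rf (nat_lit 5)) (cs (rf (nat_lit 6)) (nd (nat_lit 254) (nat_lit 0) (cs (rf (nat_lit 7)) (cs (rf (nat_lit 8)) (nd (nat_lit 228) (nat_lit 0) (cs (lf (nat_lit 22) (nat_lit 228)) (nd (nat_lit 276) (nat_lit 0) (cs (lf (nat_lit 5) (nat_lit 251)) (nd (nat_lit 273) (nat_lit 0) (cs (lf (nat_lit 11) (nat_lit 250)) (rf (nat_lit 9)))))))))))))))) (cs (rf (nat_lit 10)) (cs (nd (nat_lit 297) (nat_lit 0) (cs (rf (nat_lit 11)) (cs (rf (nat_lit 12)) (cs (nd (nat_lit 296) (nat_lit 0) (cs (rf (nat_lit 13)) (cs (rf (nat_lit 14)) (cs (nd (nat_lit 298) (nat_lit 0) (cs (rf (nat_lit 15)) (cs (rf (nat_lit 16)) (nd (nat_lit 274) (nat_lit 0) (cs (rf (nat_lit 17)) (rf (nat_lit 18))))))) (nd (nat_lit 274) (nat_lit 0) (cs (rf (nat_lit 19)) (cs (rf (nat_lit 20)) (rf (nat_lit 21))))))))) (rf (nat_lit 22)))))) (cs (nd (nat_lit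 251) (nat_lit 0) (cs (rf (nat_lit 3)) (cs (rf (nat_lit 6)) (nd (nat_lit 254) (nat_lit 0) (cs (rf (nat_lit 23)) (cs (rf (nat_lit 24)) (nd (nat_lit 228) (nat_lit 0) (cs (lf (nat_lit 22) (nat_lit 228)) (nd (nat_lit 232) (nat_lit 0) (cs (lf (nat_lit 17) (nat_lit 229)) (rf (nat_lit 25)))))))))))) (cs (nd (nat_lit 297) (nat_lit 0) (cs (rf (nat_lit 11)) (cs (rf (nat_lit 26)) (nd (nat_lit 296) (nat_lit 0) (cs (rf (nat_lit 13)) (cs (rf (nat_lit 14)) (cs (nd (nat_lit 230) (nat_lit 0) (cs (rf (nat_lit 27)) (cs (rf (nat_lit 28)) (nd (nat_lit 276) (nat_lit 0) (cs (rf (nat_lit 29)) (cs (nd (nat_lit 295) (nat_lit 0) (cs (lf (nat_lit 12) (nat_lit 272)) (nd (nat_lit 250) (nat_lit 0) (cs (lf (nat_lit 1) (nat_lit 250)) (rf (nat_lit 30)))))) (nd (nat_lit 251) (nat_lit 0) (cs (lf (nat_lit 0) (nat_lit 250)) (nd (nat_lit 277) (nat_lit 0) (cs (lf (nat_lit 6) (nat_lit 274)) (lf (nat_lit 3) (nat_lit 251)))))))))))) (nd (nat_lit 274) (nat_lit 0) (cs (rf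 (nat_lit 19)) (rf (nat_lit 31))))))))))) (cs (rf (nat_lit 32)) (nd (nat_lit 251) (nat_lit 0) (cs (rf (nat_lit 3)) (cs (rf (nat_lit 4)) (cs (rf (nat_lit 5)) (cs (rf (nat_lit 33)) (nd (nat_lit 273) (nat_lit 0) (cs (rf (nat_lit 34)) (cs (rf (nat_lit 35)) (cs (nd (nat_lit 254) (nat_lit 0) (cs (lf (nat_lit 11) (nat_lit 250)) (nd (nat_lit 276) (nat_lit 0) (cs (lf (nat_lit 5) (nat_lit 251)) (rf (nat_lit 9)))))) (cs (nd (nat_lit 274) (nat_lit 0) (cs (rf (nat_lit 36)) (cs (rf (nat_lit 37)) (rf (nat_lit 38))))) (rf (nat_lit 39)))))))))))))))))))))) q99466 (by decide +kernel)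
def q99516 : Q := Q.p (nat_lit 0x800003800000000000000000000000000000000000000000000000000000000000000) (nat_lit 0x1900006c00007c000060007fc001fe0007f0000200000800000000000000000000000000000000000) (nat_lit 15)
theorem c99516 : QOK q99516 := cut [q79078, q99497, q426, q99318, q87919, q99498, q99515] ⟨c79078, c99497, c426, c99318, c87919, c99498, c99515, trivial⟩ (nd (nat_lit 230) (nat_lit 0) (cs (rf (nat_lit 0)) (cs (rf (nat_lit 1)) (cs (nd (nat_lit 231) (nat_lit 0) (cs (rf (nat_lit 2)) (cs (rf (nat_lit 3)) (nd (nat_lit 229) (nat_lit 0) (cs (rf (nat_lit 4)) (nd (nat_lit 297) (nat_lit 0) (cs (lf (nat_lit 42) (nat_lit 230)) (nd (nat_lit 228) (nat_lit 0) (cs (lf (nat_lit 0) (nat_lit 227)) (rf (nat_lit 5))))))))))) (rf (nat_lit 6)))))) q99516 (by decide +kernel)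
def q99667 : Q := Q.p (nat_lit 0x800002000000000000000000000000000000000000000000000000000000000000000) (nat_lit 0x100000700001e0003bf000f7c000df000ffe003ff8003f0000f00003c00005000000000000000000000000000000) (nat_lit 13)
theorem c99667 : QOK q99667 := cut [q98821, q97957, q98121, q98347, q99594, q99596, q99623, q99629, q56839, q98134, q98349, q98355, q98984, q99215, q11768, q99193, q99630, q98546, q98562, q99631, q1206, q15536, q81901, q96324, q91450, q84994, q99639, q99646, q97971, q98170, q99649, q99665, q96325, q96741] ⟨c98821, c97957, c98121, c98347, c99594, c99596, c99623, c99629, c56839, c98134, c98349, c98355, c98984, c99215, c11768, c99193, c99630, c98546, c98562, c99631, c1206, c15536, c81901, c96324, c91450, c84994, c99639, c99646, c97971, c98170, c99649, c99665, c96325, c96741, trivial⟩ (nd (nat_lit 231) (nat_lit 0) (cs (rf (nat_lit 0)) (cs (nd (nat_lit 230) (nat_lit 0) (cs (rf (nat_lit 1)) (cs (rf (nat_lit 2)) (cs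 (rf (nat_lit 3)) (rf (nat_lit 4)))))) (cs (rf (nat_lit 5)) (cs (rf (nat_lit 6)) (cs (rf (nat_lit 7)) (cs (nd (nat_lit 274) (nat_lit 0) (cs (rf (nat_lit 8)) (cs (rf (nat_lit 9)) (cs (nd (nat_lit 273) (nat_lit 0) (cs (rf (nat_lit 10)) (cs (rf (nat_lit 11)) (cs (rf (nat_lit 12)) (cs (rf (nat_lit 13)) (nd (nat_lit 251) (nat_lit 0) (cs (rf (nat_lit 14)) (cs (rf (nat_lit 15)) (cs (rf (nat_lit 16)) (nd (nat_lit 252) (nat_lit 0) (cs (rf (nat_lit 17)) (cs (rf (nat_lit 18)) (rf (nat_lit 19)))))))))))))) (cs (nd (nat_lit 273) (nat_lit 0) (cs (rf (nat_lit 13)) (cs (nd (nat_lit 272) (nat_lit 0) (cs (rf (nat_lit 20)) (lf (nat_lit 17) (nat_lit 250)))) (nd (nat_lit 209) (nat_lit 0) (cs (rf (nat_lit 21)) (cs (rf (nat_lit 22)) (cs (rf (nat_lit 23)) (nd (nat_lit 230) (nat_lit 0) (cs (rf (nat_lit 24)) (cs (nd (nat_lit 208) (nat_lit 0) (cs (lf (nat_lit 47) (nat_lit 186)) (nd (nat_lit 188) (nat_lit 0) (cs (lf (nat_lit 34) (nat_lit 187)) (nd (nat_lit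 252) (nat_lit 0) (cs (lf (nat_lit 41) (nat_lit 207)) (rf (nat_lit 25)))))))) (nd (nat_lit 208) (nat_lit 0) (cs (lf (nat_lit 47) (nat_lit 186)) (nd (nat_lit 252) (nat_lit 0) (cs (lf (nat_lit 41) (nat_lit 207)) (nd (nat_lit 254) (nat_lit 0) (cs (lf (nat_lit 6) (nat_lit 251)) (rf (nat_lit 26)))))))))))))))))) (rf (nat_lit 27))))))) (cs (nd (nat_lit 209) (nat_lit 0) (cs (rf (nat_lit 22)) (cs (rf (nat_lit 28)) (cs (rf (nat_lit 29)) (rf (nat_lit 30)))))) (cs (rf (nat_lit 31)) (nd (nat_lit 209) (nat_lit 0) (cs (rf (nat_lit 32)) (cs (rf (nat_lit 33)) (rf (nat_lit 30)))))))))))))) q99667 (by decide +kernel)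
def q100162 : Q := Q.p (nat_lit 0x800002000000000000000000000000000000000000000000000000000000000000000) (nat_lit 0x40000740001f8001ff001ffe003f7000edc001ff0007e80003c0000700000400000000000000000000000000000000000) (nat_lit 16)
theorem c100162 : QOK q100162 := cut [q99785, q99820, q99839, q99906, q99942, q15512, q99922, q99945, q99948, q99950, q99976, q99987, q100002, q16715, q99782, q100018, q100092, q100143, q100120, q99842, q99845, q99901, q99771, q99841, q99844, q81362, q99846, q94411, q99261, q100070, q99857, q99905] ⟨c99785, c99820, c99839, c99906, c99942, c15512, c99922, c99945, c99948, c99950, c99976, c99987, c100002, c16715, c99782, c100018, c100092, c100143, c100120, c99842, c99845, c99901, c99771, c99841, c99844, c81362, c99846, c94411, c99261, c100070, c99857, c99905, trivial⟩ (nd (nat_lit 276) (nat_lit 0) (cs (rf (nat_lit 0)) (cs (rf (nat_lit 1)) (cs (rf (nat_lit 2)) (cs (rf (nat_lit 3)) (cs (rf (nat_lit 4)) (cs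 (nd (nat_lit 298) (nat_lit 0) (cs (rf (nat_lit 5)) (cs (rf (nat_lit 6)) (cs (nd (nat_lit 297) (nat_lit 0) (cs (rf (nat_lit 7)) (cs (rf (nat_lit 8)) (rf (nat_lit 9))))) (rf (nat_lit 10)))))) (cs (nd (nat_lit 298) (nat_lit 0) (cs (rf (nat_lit 5)) (cs (rf (nat_lit 6)) (cs (rf (nat_lit 10)) (nd (nat_lit 297) (nat_lit 0) (cs (rf (nat_lit 7)) (cs (rf (nat_lit 8)) (cs (nd (nat_lit 231) (nat_lit 0) (cs (lf (nat_lit 24) (nat_lit 209)) (nd (nat_lit 210) (nat_lit 0) (cs (lf (nat_lit 34) (nat_lit 209)) (rf (nat_lit 11)))))) (cs (nd (nat_lit 231) (nat_lit 0) (cs (lf (nat_lit 24) (nat_lit 209)) (nd (nat_lit 296) (nat_lit 0) (cs (lf (nat_lit 41) (nat_lit 230)) (nd (nat_lit 295) (nat_lit 0) (cs (lf (nat_lit 12) (nat_lit 272)) (nd (nat_lit 273) (nat_lit 0) (cs (lf (nat_lit 23) (nat_lit 272)) (nd (nat_lit 316) (nat_lit 0) (cs (lf (nat_lit 10) (nat_lit 294)) (nd (nat_lit 274) (nat_lit 0) (cs (lf (nat_lit 5) (nat_lit 273)) (nd (nat_lit 254) (nat_lit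 0) (cs (lf (nat_lit 17) (nat_lit 251)) (nd (nat_lit 319) (nat_lit 0) (cs (lf (nat_lit 30) (nat_lit 253)) (nd (nat_lit 230) (nat_lit 0) (cs (nd (nat_lit 229) (nat_lit 0) (cs (lf (nat_lit 0) (nat_lit 228)) (nd (nat_lit 251) (nat_lit 0) (cs (lf (nat_lit 23) (nat_lit 250)) (lf (nat_lit 24) (nat_lit 207)))))) (lf (nat_lit 25) (nat_lit 230)))))))))))))))))))) (nd (nat_lit 231) (nat_lit 0) (cs (lf (nat_lit 24) (nat_lit 209)) (nd (nat_lit 296) (nat_lit 0) (cs (lf (nat_lit 41) (nat_lit 230)) (nd (nat_lit 294) (nat_lit 0) (cs (lf (nat_lit 13) (nat_lit 272)) (nd (nat_lit 232) (nat_lit 0) (cs (lf (nat_lit 35) (nat_lit 209)) (nd (nat_lit 254) (nat_lit 0) (cs (lf (nat_lit 30) (nat_lit 231)) (rf (nat_lit 12))))))))))))))))))))) (cs (nd (nat_lit 277) (nat_lit 0) (cs (rf (nat_lit 13)) (cs (rf (nat_lit 14)) (cs (rf (nat_lit 15)) (rf (nat_lit 16)))))) (cs (rf (nat_lit 17)) (cs (nd (nat_lit 277) (nat_lit 0) (cs (rf (nat_lit 13)) (cs (rf (nat_lit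 14)) (cs (rf (nat_lit 18)) (nd (nat_lit 299) (nat_lit 0) (cs (rf (nat_lit 19)) (cs (rf (nat_lit 20)) (cs (rf (nat_lit 21)) (nd (nat_lit 274) (nat_lit 0) (cs (rf (nat_lit 22)) (cs (rf (nat_lit 23)) (cs (rf (nat_lit 24)) (nd (nat_lit 254) (nat_lit 0) (cs (rf (nat_lit 25)) (cs (rf (nat_lit 26)) (cs (nd (nat_lit 298) (nat_lit 0) (cs (rf (nat_lit 27)) (cs (nd (nat_lit 252) (nat_lit 0) (cs (lf (nat_lit 23) (nat_lit 251)) (nd (nat_lit 296) (nat_lit 0) (cs (lf (nat_lit 11) (nat_lit 273)) (nd (nat_lit 209) (nat_lit 0) (cs (lf (nat_lit 37) (nat_lit 208)) (nd (nat_lit 321) (nat_lit 0) (cs (lf (nat_lit 42) (nat_lit 254)) (nd (nat_lit 297) (nat_lit 0) (cs (lf (nat_lit 5) (nat_lit 296)) (rf (nat_lit 28)))))))))))) (nd (nat_lit 321) (nat_lit 0) (cs (lf (nat_lit 42) (nat_lit 254)) (rf (nat_lit 29))))))) (nd (nat_lit 232) (nat_lit 0) (cs (lf (nat_lit 24) (nat_lit 210)) (nd (nat_lit 251) (nat_lit 0) (cs (lf (nat_lit 1) (nat_lit 251)) (nd (nat_lit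 297) (nat_lit 0) (cs (lf (nat_lit 30) (nat_lit 231)) (nd (nat_lit 296) (nat_lit 0) (cs (lf (nat_lit 11) (nat_lit 273)) (nd (nat_lit 231) (nat_lit 0) (cs (lf (nat_lit 36) (nat_lit 208)) (nd (nat_lit 298) (nat_lit 0) (cs (lf (nat_lit 42) (nat_lit 231)) (rf (nat_lit 30)))))))))))))))))))))))))))))) (nd (nat_lit 277) (nat_lit 0) (cs (rf (nat_lit 13)) (cs (rf (nat_lit 14)) (cs (rf (nat_lit 31)) (rf (nat_lit 18))))))))))))))))) q100162 (by decide +kernel)
def q100303 : Q := Q.p (nat_lit 0x1800002000000000000000000000000000000000000000000000000000000000000000) (nat_lit 0x500003fc0007f8001be000678000de0003f8000380000e0000000000000000000000000000000000000000000000) (nat_lit 15)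
theorem c100303 : QOK q100303 := cut [q88742, q88915, q100270, q94710, q92610, q100279, q100289, q100290] ⟨c88742, c88915, c100270, c94710, c92610, c100279, c100289, c100290, trivial⟩ (nd (nat_lit 252) (nat_lit 0) (cs (rf (nat_lit 0)) (cs (rf (nat_lit 1)) (cs (rf (nat_lit 2)) (nd (nat_lit 273) (nat_lit 0) (cs (nd (nat_lit 251) (nat_lit 0) (cs (lf (nat_lit 0) (nat_lit 250)) (nd (nat_lit 254) (nat_lit 0) (cs (lf (nat_lit 11) (nat_lit 250)) (nd (nat_lit 232) (nat_lit 0) (cs (lf (nat_lit 17) (nat_lit 229)) (nd (nat_lit 297) (nat_lit 0) (cs (lf (nat_lit 30) (nat_lit 231)) (rf (nat_lit 3)))))))))) (cs (nd (nat_lit 251) (nat_lit 0) (cs (lf (nat_lit 0) (nat_lit 250)) (nd (nat_lit 254) (nat_lit 0) (cs (lf (nat_lit 11) (nat_lit 250)) (nd (nat_lit 232) (nat_lit 0) (cs (lf (nat_lit 17) (nat_lit 229)) (nd (nat_lit 297) (nat_lit 0) (cs (lf (nat_lit 30) (nat_lit 231)) (rf (nat_lit 4)))))))))) (cs (rf (nat_lit 5)) (cs (rf (nat_lit 6)) (cs (rf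 (nat_lit 7)) (nd (nat_lit 251) (nat_lit 0) (cs (lf (nat_lit 0) (nat_lit 250)) (nd (nat_lit 254) (nat_lit 0) (cs (lf (nat_lit 11) (nat_lit 250)) (nd (nat_lit 232) (nat_lit 0) (cs (lf (nat_lit 17) (nat_lit 229)) (nd (nat_lit 297) (nat_lit 0) (cs (lf (nat_lit 30) (nat_lit 231)) (nd (nat_lit 228) (nat_lit 0) (cs (lf (nat_lit 22) (nat_lit 228)) (nd (nat_lit 274) (nat_lit 0) (cs (lf (nat_lit 17) (nat_lit 251)) (nd (nat_lit 295) (nat_lit 0) (cs (lf (nat_lit 11) (nat_lit 272)) (nd (nat_lit 317) (nat_lit 0) (cs (lf (nat_lit 30) (nat_lit 251)) (nd (nat_lit 316) (nat_lit 0) (cs (lf (nat_lit 41) (nat_lit 250)) (nd (nat_lit 318) (nat_lit 0) (cs (lf (nat_lit 29) (nat_lit 251)) (nd (nat_lit 296) (nat_lit 0) (cs (lf (nat_lit 35) (nat_lit 230)) (lf (nat_lit 12) (nat_lit 293)))))))))))))))))))))))))))))))))) q100303 (by decide +kernel)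
def q100380 : Q := Q.p (nat_lit 0x1800002000000000000000000000000000000000000000000000000000000000000000) (nat_lit 0x380003e0001de00067c000de0003fc0003c0001f0000780001000000000000000000000000000000000000) (nat_lit 14)
theorem c100380 : QOK q100380 := cut [q88742, q88915, q100355, q100321, q100337, q100348, q100363, q2091, q24207, q96325, q98314, q98814, q88842, q12665, q80025] ⟨c88742, c88915, c100355, c100321, c100337, c100348, c100363, c2091, c24207, c96325, c98314, c98814, c88842, c12665, c80025, trivial⟩ (nd (nat_lit 252) (nat_lit 0) (cs (rf (nat_lit 0)) (cs (rf (nat_lit 1)) (cs (rf (nat_lit 2)) (nd (nat_lit 231) (nat_lit 0) (cs (rf (nat_lit 3)) (cs (rf (nat_lit 4)) (cs (rf (nat_lit 5)) (cs (rf (nat_lit 6)) (nd (nat_lit 251) (nat_lit 0) (cs (rf (nat_lit 7)) (cs (rf (nat_lit 8)) (nd (nat_lit 209) (nat_lit 0) (cs (rf (nat_lit 9)) (cs (rf (nat_lit 10)) (cs (rf (nat_lit 11)) (nd (nat_lit 273) (nat_lit 0) (cs (nd (nat_lit 186)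 (nat_lit 0) (cs (lf (nat_lit 46) (nat_lit 186)) (nd (nat_lit 254) (nat_lit 0) (cs (lf (nat_lit 11) (nat_lit 250)) (nd (nat_lit 232) (nat_lit 0) (cs (lf (nat_lit 17) (nat_lit 229)) (nd (nat_lit 229) (nat_lit 0) (cs (lf (nat_lit 23) (nat_lit 228)) (nd (nat_lit 230) (nat_lit 0) (cs (lf (nat_lit 5) (nat_lit 229)) (rf (nat_lit 12)))))))))))) (cs (nd (nat_lit 274) (nat_lit 0) (cs (lf (nat_lit 41) (nat_lit 208)) (rf (nat_lit 13)))) (nd (nat_lit 274) (nat_lit 0) (cs (lf (nat_lit 41) (nat_lit 208)) (nd (nat_lit 294) (nat_lit 0) (cs (lf (nat_lit 10) (nat_lit 272)) (nd (nat_lit 254) (nat_lit 0) (cs (lf (nat_lit 6) (nat_lit 251)) (nd (nat_lit 232) (nat_lit 0) (cs (lf (nat_lit 17) (nat_lit 229)) (nd (nat_lit 229) (nat_lit 0) (cs (lf (nat_lit 23) (nat_lit 228)) (nd (nat_lit 186) (nat_lit 0) (cs (lf (nat_lit 46) (nat_lit 186)) (rf (nat_lit 14))))))))))))))))))))))))))))))))) q100380 (by decide +kernel)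
def q100636 : Q := Q.p (nat_lit 0x800002000000000000000000000000000000000000000000000000000000000000000) (nat_lit 0x600007c0003f8001ff801ffe003f7800edf0002f8001ff0001f00005c0000000000000000000000000000000000000000) (nat_lit 19)
theorem c100636 : QOK q100636 := cut [q99839, q91107, q100461, q97286, q100456, q88742, q100469, q100527, q88915, q100270, q100279, q100289, q100290, q100529, q14849, q100538, q100355, q98387, q100541, q98742, q99596, q100321, q100391, q100384, q100513, q100610, q16715, q99782, q100018, q99772, q700, q98947, q99779, q99844, q81970, q100635] ⟨c99839, c91107, c100461, c97286, c100456, c88742, c100469, c100527, c88915, c100270, c100279, c100289, c100290, c100529, c14849, c100538, c100355, c98387, c100541, c98742, c99596, c100321, c100391, c100384, c100513, c100610, c16715, c99782, c100018, c99772, c700, c98947, c99779, c99844, c81970, c100635, trivial⟩ (nd (nat_lit 276) (nat_lit 0) (cs (rf (nat_lit 0)) (cs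 (nd (nat_lit 231) (nat_lit 0) (cs (rf (nat_lit 1)) (cs (rf (nat_lit 2)) (cs (nd (nat_lit 297) (nat_lit 0) (cs (rf (nat_lit 3)) (cs (rf (nat_lit 4)) (nd (nat_lit 298) (nat_lit 0) (cs (lf (nat_lit 29) (nat_lit 231)) (nd (nat_lit 230) (nat_lit 0) (cs (lf (nat_lit 47) (nat_lit 208)) (nd (nat_lit 252) (nat_lit 0) (cs (lf (nat_lit 42) (nat_lit 230)) (rf (nat_lit 5))))))))))) (rf (nat_lit 6)))))) (cs (rf (nat_lit 7)) (cs (nd (nat_lit 252) (nat_lit 0) (cs (rf (nat_lit 5)) (cs (rf (nat_lit 8)) (cs (rf (nat_lit 9)) (nd (nat_lit 273) (nat_lit 0) (cs (rf (nat_lit 10)) (cs (rf (nat_lit 11)) (cs (rf (nat_lit 12)) (cs (rf (nat_lit 13)) (cs (nd (nat_lit 251) (nat_lit 0) (cs (lf (nat_lit 0) (nat_lit 250)) (nd (nat_lit 254) (nat_lit 0) (cs (lf (nat_lit 11) (nat_lit 250)) (nd (nat_lit 228) (nat_lit 0) (cs (lf (nat_lit 22) (nat_lit 228)) (nd (nat_lit 274) (nat_lit 0) (cs (lf (nat_lit 17) (nat_lit 251)) (nd (nat_lit 295) (nat_lit 0) (cs (lf (nat_lit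 11) (nat_lit 272)) (nd (nat_lit 317) (nat_lit 0) (cs (lf (nat_lit 30) (nat_lit 251)) (nd (nat_lit 318) (nat_lit 0) (cs (lf (nat_lit 29) (nat_lit 251)) (nd (nat_lit 296) (nat_lit 0) (cs (lf (nat_lit 35) (nat_lit 230)) (rf (nat_lit 14)))))))))))))))))) (rf (nat_lit 15)))))))))))) (cs (nd (nat_lit 252) (nat_lit 0) (cs (rf (nat_lit 5)) (cs (rf (nat_lit 8)) (cs (rf (nat_lit 16)) (nd (nat_lit 273) (nat_lit 0) (cs (rf (nat_lit 10)) (cs (rf (nat_lit 12)) (cs (rf (nat_lit 13)) (cs (rf (nat_lit 15)) (cs (nd (nat_lit 274) (nat_lit 0) (cs (rf (nat_lit 17)) (nd (nat_lit 250) (nat_lit 0) (cs (lf (nat_lit 1) (nat_lit 250)) (rf (nat_lit 18)))))) (nd (nat_lit 251) (nat_lit 0) (cs (lf (nat_lit 0) (nat_lit 250)) (nd (nat_lit 254) (nat_lit 0) (cs (lf (nat_lit 11) (nat_lit 250)) (nd (nat_lit 228) (nat_lit 0) (cs (lf (nat_lit 22) (nat_lit 228)) (rf (nat_lit 19)))))))))))))))))) (cs (nd (nat_lit 231) (nat_lit 0) (cs (rf (nat_lit 20)) (cs (rf (nat_lit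 21)) (cs (rf (nat_lit 22)) (nd (nat_lit 297) (nat_lit 0) (cs (rf (nat_lit 3)) (cs (rf (nat_lit 23)) (nd (nat_lit 298) (nat_lit 0) (cs (lf (nat_lit 29) (nat_lit 231)) (nd (nat_lit 230) (nat_lit 0) (cs (lf (nat_lit 47) (nat_lit 208)) (nd (nat_lit 319) (nat_lit 0) (cs (lf (nat_lit 46) (nat_lit 230)) (rf (nat_lit 24))))))))))))))) (cs (rf (nat_lit 25)) (cs (nd (nat_lit 277) (nat_lit 0) (cs (rf (nat_lit 26)) (cs (rf (nat_lit 27)) (cs (rf (nat_lit 28)) (nd (nat_lit 274) (nat_lit 0) (cs (rf (nat_lit 29)) (nd (nat_lit 252) (nat_lit 0x2000000000000000000000000000000000000000000000000000000000000000000000) (cs (rf (nat_lit 30)) (rf (nat_lit 31)))))))))) (cs (nd (nat_lit 277) (nat_lit 0) (cs (rf (nat_lit 26)) (cs (nd (nat_lit 296) (nat_lit 0) (cs (nd (nat_lit 274) (nat_lit 0) (cs (lf (nat_lit 11) (nat_lit 273)) (nd (nat_lit 318) (nat_lit 0) (cs (lf (nat_lit 30) (nat_lit 252)) (nd (nat_lit 297) (nat_lit 0) (cs (lf (nat_lit 6) (nat_lit 274))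 (lf (nat_lit 36) (nat_lit 230)))))))) (cs (nd (nat_lit 274) (nat_lit 0) (cs (lf (nat_lit 11) (nat_lit 273)) (nd (nat_lit 318) (nat_lit 0) (cs (lf (nat_lit 30) (nat_lit 252)) (rf (nat_lit 29)))))) (nd (nat_lit 278) (nat_lit 0) (cs (lf (nat_lit 10) (nat_lit 274)) (rf (nat_lit 32))))))) (cs (rf (nat_lit 27)) (nd (nat_lit 274) (nat_lit 0) (cs (rf (nat_lit 29)) (cs (rf (nat_lit 33)) (nd (nat_lit 252) (nat_lit 0) (cs (lf (nat_lit 23) (nat_lit 251)) (nd (nat_lit 299) (nat_lit 0) (cs (lf (nat_lit 5) (nat_lit 274)) (rf (nat_lit 34))))))))))))) (rf (nat_lit 35)))))))))))) q100636 (by decide +kernel)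
def q100722 : Q := Q.p (nat_lit 0x800002000000000000000000000000000000000000000000000000000000000000000) (nat_lit 0x700001e00007c000ef0003fe00077c000df0007fc001fe0007f0000700000800000000000000000000000000000000000) (nat_lit 17)
theorem c100722 : QOK q100722 := cut [q1999, q24207, q98378, q98752, q99375, q99586, q100683, q2066, q2091, q79020, q98881, q2034, q79078, q99497, q81390, q99318, q100641, q100698, q22295, q22313, q100653, q99515, q426, q99584, q81385, q99567, q89642, q98540, q98764, q98766, q98781, q98138, q98679, q83685, q2059, q99030, q88933, q88941, q100670, q100682, q79188, q90852, q98318] ⟨c1999, c24207, c98378, c98752, c99375, c99586, c100683, c2066, c2091, c79020, c98881, c2034, c79078, c99497, c81390, c99318, c100641, c100698, c22295, c22313, c100653, c99515, c426, c99584, c81385, c99567, c89642, c98540, c98764, c98766, c98781, c98138, c98679, c83685, c2059, c99030, c88933, c88941, c100670, c100682, c79188, c90852,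 c98318, trivial⟩ (nd (nat_lit 252) (nat_lit 0) (cs (nd (nat_lit 251) (nat_lit 0) (cs (rf (nat_lit 0)) (cs (rf (nat_lit 1)) (cs (rf (nat_lit 2)) (rf (nat_lit 3)))))) (cs (rf (nat_lit 4)) (cs (rf (nat_lit 5)) (cs (rf (nat_lit 6)) (cs (nd (nat_lit 251) (nat_lit 0) (cs (rf (nat_lit 0)) (cs (rf (nat_lit 7)) (cs (rf (nat_lit 8)) (cs (rf (nat_lit 2)) (nd (nat_lit 254) (nat_lit 0) (cs (rf (nat_lit 9)) (cs (rf (nat_lit 10)) (nd (nat_lit 228) (nat_lit 0) (cs (lf (nat_lit 22) (nat_lit 228)) (nd (nat_lit 276) (nat_lit 0) (cs (lf (nat_lit 5) (nat_lit 251)) (nd (nat_lit 273) (nat_lit 0) (cs (lf (nat_lit 11) (nat_lit 250)) (nd (nat_lit 274) (nat_lit 0) (cs (lf (nat_lit 17) (nat_lit 251)) (nd (nat_lit 295) (nat_lit 0) (cs (lf (nat_lit 11) (nat_lit 272)) (nd (nat_lit 298) (nat_lit 0) (cs (lf (nat_lit 5) (nat_lit 273)) (nd (nat_lit 209) (nat_lit 0) (cs (lf (nat_lit 25) (nat_lit 209)) (rf (nat_lit 11)))))))))))))))))))))))) (cs (nd (nat_lit 251)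 (nat_lit 0) (cs (rf (nat_lit 8)) (cs (rf (nat_lit 1)) (cs (nd (nat_lit 230) (nat_lit 0) (cs (rf (nat_lit 12)) (cs (rf (nat_lit 13)) (cs (nd (nat_lit 231) (nat_lit 0) (cs (rf (nat_lit 14)) (cs (rf (nat_lit 15)) (cs (rf (nat_lit 16)) (rf (nat_lit 17)))))) (nd (nat_lit 208) (nat_lit 0) (cs (lf (nat_lit 24) (nat_lit 186)) (nd (nat_lit 274) (nat_lit 0) (cs (rf (nat_lit 18)) (cs (rf (nat_lit 19)) (rf (nat_lit 20))))))))))) (nd (nat_lit 230) (nat_lit 0) (cs (rf (nat_lit 12)) (cs (rf (nat_lit 13)) (cs (rf (nat_lit 21)) (nd (nat_lit 231) (nat_lit 0) (cs (rf (nat_lit 22)) (rf (nat_lit 14)))))))))))) (cs (nd (nat_lit 230) (nat_lit 0) (cs (rf (nat_lit 12)) (cs (rf (nat_lit 13)) (cs (rf (nat_lit 23)) (nd (nat_lit 231) (nat_lit 0) (cs (rf (nat_lit 24)) (cs (rf (nat_lit 25)) (nd (nat_lit 297) (nat_lit 0) (cs (lf (nat_lit 42) (nat_lit 230)) (nd (nat_lit 296) (nat_lit 0) (cs (lf (nat_lit 41) (nat_lit 230)) (nd (nat_lit 274) (nat_lit 0) (cs (lf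 (nat_lit 36) (nat_lit 208)) (rf (nat_lit 26))))))))))))))) (cs (nd (nat_lit 251) (nat_lit 0) (cs (rf (nat_lit 0)) (cs (rf (nat_lit 7)) (cs (rf (nat_lit 8)) (cs (rf (nat_lit 27)) (nd (nat_lit 273) (nat_lit 0) (cs (rf (nat_lit 28)) (cs (rf (nat_lit 29)) (cs (rf (nat_lit 30)) (cs (nd (nat_lit 274) (nat_lit 0) (cs (rf (nat_lit 31)) (cs (rf (nat_lit 32)) (nd (nat_lit 276) (nat_lit 0) (cs (lf (nat_lit 18) (nat_lit 251)) (nd (nat_lit 298) (nat_lit 0) (cs (lf (nat_lit 5) (nat_lit 273)) (nd (nat_lit 209) (nat_lit 0) (cs (lf (nat_lit 25) (nat_lit 209)) (nd (nat_lit 254) (nat_lit 0) (cs (lf (nat_lit 17) (nat_lit 251)) (nd (nat_lit 294) (nat_lit 0) (cs (lf (nat_lit 10) (nat_lit 272)) (rf (nat_lit 33))))))))))))))) (nd (nat_lit 274) (nat_lit 0) (cs (rf (nat_lit 34)) (cs (rf (nat_lit 31)) (rf (nat_lit 35))))))))))))))) (nd (nat_lit 297) (nat_lit 0) (cs (rf (nat_lit 36)) (cs (rf (nat_lit 37)) (cs (rf (nat_lit 38)) (cs (rf (nat_lit 39)) (nd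 (nat_lit 231) (nat_lit 0) (cs (rf (nat_lit 40)) (cs (rf (nat_lit 41)) (rf (nat_lit 42))))))))))))))))))) q100722 (by decide +kernel)
def q100770 : Q := Q.p (nat_lit 0x800002000000000000000000000000000000000000000000000000000000000000000) (nat_lit 0x140000700001c00007000037c000de000ffc003ff000140000400000000000000000000000000000000000000000) (nat_lit 12)
theorem c100770 : QOK q100770 := cut [q99238, q99273, q99274, q99276, q2579, q98129, q99246, q2066, q2091, q98540] ⟨c99238, c99273, c99274, c99276, c2579, c98129, c99246, c2066, c2091, c98540, trivial⟩ (nd (nat_lit 297) (nat_lit 0) (cs (rf (nat_lit 0)) (cs (rf (nat_lit 1)) (cs (rf (nat_lit 2)) (cs (rf (nat_lit 3)) (nd (nat_lit 319) (nat_lit 0) (cs (rf (nat_lit 4)) (cs (rf (nat_lit 5)) (cs (rf (nat_lit 6)) (nd (nat_lit 254) (nat_lit 0) (cs (lf (nat_lit 35) (nat_lit 231)) (nd (nat_lit 252) (nat_lit 0) (cs (lf (nat_lit 47) (nat_lit 230)) (nd (nat_lit 251) (nat_lit 0) (cs (rf (nat_lit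 7)) (cs (rf (nat_lit 8)) (cs (rf (nat_lit 9)) (nd (nat_lit 318) (nat_lit 0) (cs (lf (nat_lit 41) (nat_lit 252)) (nd (nat_lit 273) (nat_lit 0) (cs (lf (nat_lit 11) (nat_lit 250)) (nd (nat_lit 276) (nat_lit 0) (cs (lf (nat_lit 5) (nat_lit 251)) (nd (nat_lit 255) (nat_lit 0) (cs (lf (nat_lit 10) (nat_lit 251)) (nd (nat_lit 233) (nat_lit 0) (cs (lf (nat_lit 17) (nat_lit 230)) (nd (nat_lit 320) (nat_lit 0) (cs (lf (nat_lit 29) (nat_lit 253)) (lf (nat_lit 31) (nat_lit 232))))))))))))))))))))))))))))))) q100770 (by decide +kernel)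
def q100911 : Q := Q.p (nat_lit 0x3000008000000000000000000000000000000000000000000000000000000000) (nat_lit 0x7e0001fe0003f8001c6000778001de0001e0000780000000000000000000000000000000000000000) (nat_lit 13)
theorem c100911 : QOK q100911 := cut [q92712, q96352, q96354, q96355, q85044, q91962, q92731, q92761, q100902, q89453] ⟨c92712, c96352, c96354, c96355, c85044, c91962, c92731, c92761, c100902, c89453, trivial⟩ (nd (nat_lit 230) (nat_lit 0) (cs (rf (nat_lit 0)) (cs (rf (nat_lit 1)) (cs (rf (nat_lit 2)) (cs (rf (nat_lit 3)) (nd (nat_lit 274) (nat_lit 0) (cs (rf (nat_lit 4)) (cs (rf (nat_lit 5)) (cs (rf (nat_lit 6)) (cs (rf (nat_lit 7)) (cs (rf (nat_lit 8)) (nd (nat_lit 296) (nat_lit 0) (cs (lf (nat_lit 30) (nat_lit 230)) (nd (nat_lit 297) (nat_lit 0) (cs (lf (nat_lit 29) (nat_lit 230)) (nd (nat_lit 275) (nat_lit 0) (cs (lf (nat_lit 47) (nat_lit 208)) (nd (nat_lit 298) (nat_lit 0) (cs (lf (nat_lit 29) (nat_lit 231)) (nd (nat_lit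 299) (nat_lit 0) (cs (lf (nat_lit 18) (nat_lit 274)) (nd (nat_lit 321) (nat_lit 0) (cs (lf (nat_lit 5) (nat_lit 296)) (nd (nat_lit 210) (nat_lit 0) (cs (lf (nat_lit 34) (nat_lit 209)) (rf (nat_lit 9))))))))))))))))))))))))))) q100911 (by decide +kernel)
def q101040 : Q := Q.p (nat_lit 0x3000008000000000000000000000000000000000000000000000000000000000) (nat_lit 0x1f00007e0003f8001ce0006780001e0001f80007e0000280000000000000000000000000000000000) (nat_lit 15)
theorem c101040 : QOK q101040 := cut [q96355, q100923, q100925, q100927, q100944, q100961, q100963, q81477, q100973, q100978, q101003, q100941, q101005, q101015, q101019, q79996, q84438, q57679, q92723, q84417, q101025, q85470, q22803, q81488, q100951, q97008] ⟨c96355, c100923, c100925, c100927, c100944, c100961, c100963, c81477, c100973, c100978, c101003, c100941, c101005, c101015, c101019, c79996, c84438, c57679, c92723, c84417, c101025, c85470, c22803, c81488, c100951,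 c97008, trivial⟩ (nd (nat_lit 230) (nat_lit 0) (cs (rf (nat_lit 0)) (cs (nd (nat_lit 251) (nat_lit 0) (cs (rf (nat_lit 1)) (cs (rf (nat_lit 2)) (rf (nat_lit 3))))) (cs (rf (nat_lit 4)) (cs (rf (nat_lit 5)) (cs (nd (nat_lit 250) (nat_lit 0) (cs (rf (nat_lit 6)) (cs (nd (nat_lit 275) (nat_lit 0) (cs (rf (nat_lit 7)) (cs (rf (nat_lit 8)) (rf (nat_lit 9))))) (cs (rf (nat_lit 10)) (cs (nd (nat_lit 251) (nat_lit 0) (cs (lf (nat_lit 12) (nat_lit 227)) (rf (nat_lit 11)))) (cs (rf (nat_lit 12)) (rf (nat_lit 13)))))))) (cs (rf (nat_lit 14)) (cs (nd (nat_lit 208) (nat_lit 0) (cs (rf (nat_lit 15)) (cs (rf (nat_lit 16)) (nd (nat_lit 274) (nat_lit 0) (cs (rf (nat_lit 17)) (cs (rf (nat_lit 18)) (nd (nat_lit 229) (nat_lit 0) (cs (rf (nat_lit 19)) (cs (rf (nat_lit 20)) (nd (nat_lit 275) (nat_lit 0) (cs (rf (nat_lit 21)) (nd (nat_lit 185) (nat_lit 0) (cs (lf (nat_lit 46) (nat_lit 185)) (nd (nat_lit 228) (nat_lit 0) (cs (lf (nat_lit 0) (nat_lit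 227)) (nd (nat_lit 273) (nat_lit 0) (cs (lf (nat_lit 41) (nat_lit 207)) (nd (nat_lit 206) (nat_lit 0) (cs (lf (nat_lit 23) (nat_lit 205)) (nd (nat_lit 250) (nat_lit 0) (cs (lf (nat_lit 11) (nat_lit 227)) (rf (nat_lit 22))))))))))))))))))))))) (nd (nat_lit 254) (nat_lit 0) (cs (rf (nat_lit 23)) (cs (rf (nat_lit 24)) (nd (nat_lit 251) (nat_lit 0) (cs (rf (nat_lit 2)) (cs (rf (nat_lit 3)) (nd (nat_lit 228) (nat_lit 0) (cs (lf (nat_lit 1) (nat_lit 228)) (nd (nat_lit 276) (nat_lit 0) (cs (lf (nat_lit 5) (nat_lit 251)) (nd (nat_lit 298) (nat_lit 0) (cs (lf (nat_lit 42) (nat_lit 231)) (rf (nat_lit 25)))))))))))))))))))))) q101040 (by decide +kernel)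
def q101058 : Q := Q.p (nat_lit 0x3000008000000000000000000000000000000000000000000000000000000000) (nat_lit 0x1f0001fe0003f80018e000778001de0001f8000780000000000000000000000000000000000000000) (nat_lit 14)
theorem c101058 : QOK q101058 := cut [q96352, q101019, q57663, q86631, q96406, q79996, q84438, q57679, q92723, q85470, q96411, q87908, q91239, q87919, q88846, q100925, q101048, q85044, q91962, q92761, q81477, q92730, q96430, q87955] ⟨c96352, c101019, c57663, c86631, c96406, c79996, c84438, c57679, c92723, c85470, c96411, c87908, c91239, c87919, c88846, c100925, c101048, c85044, c91962, c92761, c81477, c92730, c96430, c87955, trivial⟩ (nd (nat_lit 230) (nat_lit 0) (cs (rf (nat_lit 0)) (cs (rf (nat_lit 1)) (cs (nd (nat_lit 232) (nat_lit 0) (cs (rf (nat_lit 2)) (cs (rf (nat_lit 3)) (rf (nat_lit 4))))) (cs (nd (nat_lit 208) (nat_lit 0) (cs (rf (nat_lit 5)) (cs (rf (nat_lit 6)) (nd (nat_lit 274) (nat_lit 0) (cs (rf (nat_lit 7))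 (cs (rf (nat_lit 8)) (nd (nat_lit 275) (nat_lit 0) (cs (rf (nat_lit 9)) (rf (nat_lit 10)))))))))) (cs (nd (nat_lit 232) (nat_lit 0) (cs (rf (nat_lit 2)) (cs (rf (nat_lit 3)) (nd (nat_lit 229) (nat_lit 0) (cs (rf (nat_lit 11)) (cs (rf (nat_lit 12)) (nd (nat_lit 251) (nat_lit 0) (cs (rf (nat_lit 13)) (cs (rf (nat_lit 14)) (rf (nat_lit 15))))))))))) (cs (rf (nat_lit 16)) (nd (nat_lit 232) (nat_lit 0) (cs (rf (nat_lit 2)) (cs (rf (nat_lit 3)) (nd (nat_lit 274) (nat_lit 0) (cs (rf (nat_lit 17)) (cs (rf (nat_lit 18)) (cs (rf (nat_lit 19)) (cs (nd (nat_lit 275) (nat_lit 0) (cs (rf (nat_lit 20)) (cs (rf (nat_lit 21)) (rf (nat_lit 22))))) (nd (nat_lit 250) (nat_lit 0) (cs (lf (nat_lit 13) (nat_lit 228)) (nd (nat_lit 296) (nat_lit 0) (cs (lf (nat_lit 30) (nat_lit 230)) (nd (nat_lit 297) (nat_lit 0) (cs (lf (nat_lit 29) (nat_lit 230)) (nd (nat_lit 210) (nat_lit 0) (cs (lf (nat_lit 31) (nat_lit 209)) (nd (nat_lit 166) (nat_lit 0) (cs (lf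 (nat_lit 37) (nat_lit 165)) (nd (nat_lit 295) (nat_lit 0) (cs (lf (nat_lit 41) (nat_lit 229)) (rf (nat_lit 23))))))))))))))))))))))))))))) q101058 (by decide +kernel)
def q101167 : Q := Q.p (nat_lit 0x3000008000000000000000000000000000000000000000000000000000000000) (nat_lit 0x360000d80003f8003ce001f7c001dc0003700004c0000000000000000000000000000000000000000) (nat_lit 12)
theorem c101167 : QOK q101167 := cut [q82275, q82278, q101100, q92239, q100868, q101095, q101137, q96573] ⟨c82275, c82278, c101100, c92239, c100868, c101095, c101137, c96573, trivial⟩ (nd (nat_lit 251) (nat_lit 0) (cs (rf (nat_lit 0)) (cs (rf (nat_lit 1)) (cs (rf (nat_lit 2)) (nd (nat_lit 254) (nat_lit 0) (cs (rf (nat_lit 3)) (cs (rf (nat_lit 4)) (cs (rf (nat_lit 5)) (cs (nd (nat_lit 273) (nat_lit 0) (cs (lf (nat_lit 11) (nat_lit 250)) (rf (nat_lit 6)))) (cs (nd (nat_lit 276) (nat_lit 0) (cs (lf (nat_lit 5) (nat_lit 251)) (nd (nat_lit 298) (nat_lit 0) (cs (lf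 (nat_lit 42) (nat_lit 231)) (nd (nat_lit 228) (nat_lit 0) (cs (lf (nat_lit 22) (nat_lit 228)) (nd (nat_lit 233) (nat_lit 0) (cs (lf (nat_lit 16) (nat_lit 229)) (nd (nat_lit 255) (nat_lit 0) (cs (lf (nat_lit 17) (nat_lit 230)) (nd (nat_lit 189) (nat_lit 0) (cs (lf (nat_lit 37) (nat_lit 188)) (nd (nat_lit 256) (nat_lit 0) (cs (lf (nat_lit 23) (nat_lit 230)) (nd (nat_lit 275) (nat_lit 0) (cs (lf (nat_lit 11) (nat_lit 252)) (lf (nat_lit 6) (nat_lit 253)))))))))))))))))) (nd (nat_lit 232) (nat_lit 0) (cs (lf (nat_lit 17) (nat_lit 229)) (nd (nat_lit 272) (nat_lit 0) (cs (lf (nat_lit 10) (nat_lit 250)) (nd (nat_lit 276) (nat_lit 0) (cs (lf (nat_lit 5) (nat_lit 251)) (nd (nat_lit 298) (nat_lit 0) (cs (lf (nat_lit 42) (nat_lit 231)) (nd (nat_lit 229) (nat_lit 0) (cs (lf (nat_lit 23) (nat_lit 228)) (nd (nat_lit 299) (nat_lit 0) (cs (lf (nat_lit 29) (nat_lit 232)) (rf (nat_lit 7)))))))))))))))))))))))) q101167 (by decide +kernel)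
def q101419 : Q := Q.p (nat_lit 0x200000c000000000000000000000000000000000000000000000000000000000) (nat_lit 0x1f00007c000378001de000638001fe0007f80007e0001000000000000000000000000000000000000) (nat_lit 15)
theorem c101419 : QOK q101419 := cut [q100944, q101311, q81488, q101315, q96850, q100959, q101387, q101391, q87526, q96868, q96869, q96873, q84998, q96307, q101342, q82295, q89959, q100923, q100943, q101320, q101406, q11016, q82300, q87207, q85049, q101415] ⟨c100944, c101311, c81488, c101315, c96850, c100959, c101387, c101391, c87526, c96868, c96869, c96873, c84998, c96307, c101342, c82295, c89959, c100923, c100943, c101320, c101406, c11016, c82300, c87207, c85049, c101415, trivial⟩ (nd (nat_lit 252) (nat_lit 0) (cs (rf (nat_lit 0)) (cs (rf (nat_lit 1)) (cs (nd (nat_lit 254) (nat_lit 0) (cs (rf (nat_lit 2)) (cs (rf (nat_lit 3)) (nd (nat_lit 251) (nat_lit 0) (cs (rf (nat_lit 4)) (cs (rf (nat_lit 5)) (rf (nat_lit 6))))))))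 (cs (rf (nat_lit 7)) (cs (nd (nat_lit 208) (nat_lit 0) (cs (rf (nat_lit 8)) (cs (rf (nat_lit 9)) (cs (rf (nat_lit 10)) (cs (rf (nat_lit 11)) (nd (nat_lit 209) (nat_lit 0) (cs (rf (nat_lit 12)) (cs (rf (nat_lit 13)) (rf (nat_lit 14)))))))))) (cs (nd (nat_lit 251) (nat_lit 0) (cs (rf (nat_lit 15)) (cs (rf (nat_lit 16)) (cs (rf (nat_lit 17)) (cs (rf (nat_lit 18)) (cs (rf (nat_lit 19)) (nd (nat_lit 250) (nat_lit 0) (cs (lf (nat_lit 12) (nat_lit 227)) (nd (nat_lit 228) (nat_lit 0) (cs (lf (nat_lit 23) (nat_lit 227)) (nd (nat_lit 271) (nat_lit 0) (cs (lf (nat_lit 10) (nat_lit 249)) (nd (nat_lit 229) (nat_lit 0) (cs (lf (nat_lit 5) (nat_lit 228)) (nd (nat_lit 209) (nat_lit 0) (cs (lf (nat_lit 17) (nat_lit 206)) (nd (nat_lit 165) (nat_lit 0) (cs (lf (nat_lit 37) (nat_lit 164)) (nd (nat_lit 206) (nat_lit 0) (cs (lf (nat_lit 23) (nat_lit 205)) (nd (nat_lit 184) (nat_lit 0) (cs (lf (nat_lit 24) (nat_lit 162)) (nd (nat_lit 185) (nat_lit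 0) (cs (lf (nat_lit 35) (nat_lit 162)) (nd (nat_lit 183) (nat_lit 0) (cs (lf (nat_lit 47) (nat_lit 161)) (nd (nat_lit 186) (nat_lit 0) (cs (lf (nat_lit 16) (nat_lit 161)) (lf (nat_lit 4) (nat_lit 183)))))))))))))))))))))))))))))) (cs (nd (nat_lit 208) (nat_lit 0) (cs (rf (nat_lit 8)) (cs (rf (nat_lit 20)) (nd (nat_lit 186) (nat_lit 0) (cs (lf (nat_lit 24) (nat_lit 164)) (nd (nat_lit 163) (nat_lit 0) (cs (lf (nat_lit 46) (nat_lit 163)) (nd (nat_lit 251) (nat_lit 0) (cs (lf (nat_lit 41) (nat_lit 185)) (nd (nat_lit 250) (nat_lit 0) (cs (lf (nat_lit 12) (nat_lit 227)) (nd (nat_lit 272) (nat_lit 0) (cs (lf (nat_lit 11) (nat_lit 249)) (nd (nat_lit 228) (nat_lit 0) (cs (lf (nat_lit 23) (nat_lit 227)) (nd (nat_lit 229) (nat_lit 0) (cs (rf (nat_lit 21)) (lf (nat_lit 18) (nat_lit 228))))))))))))))))))) (nd (nat_lit 209) (nat_lit 0) (cs (rf (nat_lit 22)) (cs (rf (nat_lit 13)) (nd (nat_lit 274) (nat_lit 0) (cs (rf (nat_lit 23)) (nd (nat_lit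 254) (nat_lit 0) (cs (rf (nat_lit 2)) (cs (rf (nat_lit 24)) (rf (nat_lit 25)))))))))))))))))) q101419 (by decide +kernel)
def q101483 : Q := Q.p (nat_lit 0x200000c000000000000000000000000000000000000000000000000000000000) (nat_lit 0x300000c0000300003d7000f38000fe000380000e00000000000000000000000000000000000000000) (nat_lit 11)
theorem c101483 : QOK q101483 := cut [q96758, q96764, q96768, q101482] ⟨c96758, c96764, c96768, c101482, trivial⟩ (nd (nat_lit 229) (nat_lit 0) (cs (rf (nat_lit 0)) (cs (rf (nat_lit 1)) (cs (rf (nat_lit 2)) (rf (nat_lit 3)))))) q101483 (by decide +kernel)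
def q101501 : Q := Q.p (nat_lit 0x200000c000000000000000000000000000000000000000000000000000000000) (nat_lit 0x300000c0000300003d8000f38000ff0003d8000f00000c00000000000000000000000000000000000) (nat_lit 11)
theorem c101501 : QOK q101501 := cut [q96769, q96846, q97118, q97120, q101482] ⟨c96769, c96846, c97118, c97120, c101482, trivial⟩ (nd (nat_lit 229) (nat_lit 0) (cs (rf (nat_lit 0)) (cs (rf (nat_lit 1)) (cs (rf (nat_lit 2)) (cs (rf (nat_lit 3)) (rf (nat_lit 4))))))) q101501 (by decide +kernel)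
def q101715 : Q := Q.p (nat_lit 0x2000008000000000000000000000000000000000000000000000000000000000) (nat_lit 0x50000ff8003fe0003f8007df000f78007ff0001780005c0000700001400000000000000000000000000000) (nat_lit 16)
theorem c101715 : QOK q101715 := cut [q98061, q101439, q101627, q96836, q96837, q101628, q101631, q97957, q101562, q97347, q97408, q97409, q3985, q96420, q101640, q101644, q101647, q101657, q96758, q96768, q96769, q96986, q98031, q101447, q101456, q101662, q101588, q3983, q7954, q98040, q12454, q97207, q101667, q96764, q101672, q97118, q97173, q97188, q101516, q101521, q87919, q100922, q100925, q101676, q101707, q101684, q101550, q101710, q80199, q96903, q97021, q101425] ⟨c98061, c101439, c101627, c96836, c96837, c101628, c101631, c97957, c101562, c97347, c97408, c97409, c3985, c96420, c101640, c101644, c101647, c101657, c96758, c96768, c96769, c96986, c98031, c101447, c101456, c101662, c101588, c3983, c7954, c98040,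 c12454, c97207, c101667, c96764, c101672, c97118, c97173, c97188, c101516, c101521, c87919, c100922, c100925, c101676, c101707, c101684, c101550, c101710, c80199, c96903, c97021, c101425, trivial⟩ (nd (nat_lit 230) (nat_lit 0) (cs (rf (nat_lit 0)) (cs (rf (nat_lit 1)) (cs (rf (nat_lit 2)) (cs (nd (nat_lit 229) (nat_lit 0) (cs (rf (nat_lit 3)) (cs (rf (nat_lit 4)) (cs (rf (nat_lit 5)) (rf (nat_lit 6)))))) (cs (nd (nat_lit 275) (nat_lit 0) (cs (rf (nat_lit 7)) (cs (rf (nat_lit 8)) (cs (nd (nat_lit 274) (nat_lit 0) (cs (rf (nat_lit 9)) (cs (nd (nat_lit 273) (nat_lit 0) (cs (rf (nat_lit 10)) (cs (rf (nat_lit 11)) (cs (nd (nat_lit 208) (nat_lit 0) (cs (rf (nat_lit 12)) (nd (nat_lit 252) (nat_lit 0) (cs (lf (nat_lit 41) (nat_lit 207)) (nd (nat_lit 185) (nat_lit 0) (cs (lf (nat_lit 46) (nat_lit 185)) (rf (nat_lit 13)))))))) (rf (nat_lit 14)))))) (cs (rf (nat_lit 15)) (rf (nat_lit 16)))))) (rf (nat_lit 17)))))) (cs (nd (nat_lit 229)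 (nat_lit 0) (cs (rf (nat_lit 18)) (cs (rf (nat_lit 19)) (cs (rf (nat_lit 20)) (cs (rf (nat_lit 3)) (nd (nat_lit 232) (nat_lit 0) (cs (rf (nat_lit 21)) (cs (rf (nat_lit 22)) (cs (rf (nat_lit 23)) (cs (rf (nat_lit 24)) (nd (nat_lit 206) (nat_lit 0) (cs (lf (nat_lit 22) (nat_lit 206)) (rf (nat_lit 25)))))))))))))) (cs (nd (nat_lit 275) (nat_lit 0) (cs (rf (nat_lit 7)) (cs (rf (nat_lit 26)) (nd (nat_lit 208) (nat_lit 0) (cs (rf (nat_lit 27)) (cs (rf (nat_lit 12)) (nd (nat_lit 232) (nat_lit 0) (cs (rf (nat_lit 28)) (cs (rf (nat_lit 29)) (cs (nd (nat_lit 229) (nat_lit 0) (cs (rf (nat_lit 30)) (rf (nat_lit 31)))) (rf (nat_lit 32)))))))))))) (cs (nd (nat_lit 229) (nat_lit 0) (cs (rf (nat_lit 18)) (cs (rf (nat_lit 33)) (cs (rf (nat_lit 19)) (rf (nat_lit 34)))))) (cs (nd (nat_lit 229) (nat_lit 0) (cs (rf (nat_lit 20)) (cs (rf (nat_lit 35)) (cs (rf (nat_lit 6)) (rf (nat_lit 34)))))) (cs (nd (nat_lit 229) (nat_lit 0) (cs (rf (nat_lit 18))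 (cs (rf (nat_lit 20)) (cs (rf (nat_lit 3)) (cs (rf (nat_lit 31)) (nd (nat_lit 251) (nat_lit 0) (cs (rf (nat_lit 36)) (cs (rf (nat_lit 37)) (cs (rf (nat_lit 38)) (cs (rf (nat_lit 39)) (cs (nd (nat_lit 252) (nat_lit 0) (cs (rf (nat_lit 40)) (cs (rf (nat_lit 41)) (rf (nat_lit 42))))) (rf (nat_lit 43))))))))))))) (cs (rf (nat_lit 44)) (cs (nd (nat_lit 275) (nat_lit 0) (cs (rf (nat_lit 7)) (cs (rf (nat_lit 8)) (cs (rf (nat_lit 17)) (nd (nat_lit 274) (nat_lit 0) (cs (rf (nat_lit 9)) (cs (rf (nat_lit 15)) (cs (rf (nat_lit 16)) (rf (nat_lit 45)))))))))) (cs (nd (nat_lit 275) (nat_lit 0) (cs (rf (nat_lit 7)) (cs (rf (nat_lit 46)) (cs (rf (nat_lit 17)) (nd (nat_lit 229) (nat_lit 0) (cs (rf (nat_lit 33)) (cs (rf (nat_lit 20)) (cs (rf (nat_lit 31)) (rf (nat_lit 47)))))))))) (nd (nat_lit 229) (nat_lit 0) (cs (rf (nat_lit 33)) (cs (rf (nat_lit 19)) (cs (rf (nat_lit 20)) (nd (nat_lit 232) (nat_lit 0) (cs (rf (nat_lit 48)) (cs (rf (nat_lit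 49)) (cs (rf (nat_lit 50)) (rf (nat_lit 51)))))))))))))))))))))))) q101715 (by decide +kernel)
def q101917 : Q := Q.p (nat_lit 0x2000008000000000000000000000000000000000000000000000000000000000) (nat_lit 0x14000070000ff0003fe0003f8007df003f78007ee0007f0001fc0005400000000000000000000000000000000000) (nat_lit 17)
theorem c101917 : QOK q101917 := cut [q101564, q101588, q101733, q101742, q97584, q97586, q28145, q101751, q101840, q26315, q87016, q101871, q97347, q97741, q97320, q97774, q97321, q97749, q101882, q101887, q12206, q85515, q97319, q101898, q97681, q101561, q101906, q101910, q52527, q96312, q98315, q21953, q101548, q101738] ⟨c101564, c101588, c101733, c101742, c97584, c97586, c28145, c101751, c101840, c26315, c87016, c101871, c97347, c97741, c97320, c97774, c97321, c97749, c101882, c101887, c12206, c85515, c97319, c101898, c97681, c101561, c101906, c101910, c52527, c96312, c98315, c21953, c101548, c101738, trivial⟩ (nd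 (nat_lit 275) (nat_lit 0) (cs (rf (nat_lit 0)) (cs (rf (nat_lit 1)) (cs (rf (nat_lit 2)) (cs (rf (nat_lit 3)) (cs (nd (nat_lit 296) (nat_lit 0) (cs (rf (nat_lit 4)) (cs (rf (nat_lit 5)) (nd (nat_lit 297) (nat_lit 0) (cs (lf (nat_lit 41) (nat_lit 230)) (nd (nat_lit 298) (nat_lit 0) (cs (lf (nat_lit 29) (nat_lit 231)) (nd (nat_lit 276) (nat_lit 0) (cs (lf (nat_lit 24) (nat_lit 209)) (rf (nat_lit 6))))))))))) (cs (rf (nat_lit 7)) (cs (rf (nat_lit 8)) (cs (nd (nat_lit 232) (nat_lit 0) (cs (rf (nat_lit 9)) (cs (rf (nat_lit 10)) (cs (rf (nat_lit 11)) (nd (nat_lit 274) (nat_lit 0) (cs (rf (nat_lit 12)) (cs (rf (nat_lit 13)) (cs (nd (nat_lit 254) (nat_lit 0) (cs (rf (nat_lit 14)) (cs (rf (nat_lit 15)) (cs (nd (nat_lit 251) (nat_lit 0) (cs (rf (nat_lit 16)) (cs (rf (nat_lit 17)) (nd (nat_lit 272) (nat_lit 0) (cs (lf (nat_lit 13) (nat_lit 250)) (nd (nat_lit 233) (nat_lit 0) (cs (lf (nat_lit 13) (nat_lit 229)) (nd (nat_lit 234) (nat_lit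 0) (cs (lf (nat_lit 6) (nat_lit 231)) (nd (nat_lit 256) (nat_lit 0) (cs (lf (nat_lit 5) (nat_lit 231)) (nd (nat_lit 212) (nat_lit 0) (cs (lf (nat_lit 17) (nat_lit 209)) (nd (nat_lit 211) (nat_lit 0) (cs (lf (nat_lit 12) (nat_lit 208)) (nd (nat_lit 189) (nat_lit 0) (cs (lf (nat_lit 24) (nat_lit 167)) (nd (nat_lit 210) (nat_lit 0) (cs (lf (nat_lit 36) (nat_lit 187)) (lf (nat_lit 30) (nat_lit 188))))))))))))))))))))) (cs (nd (nat_lit 188) (nat_lit 0) (cs (lf (nat_lit 37) (nat_lit 187)) (rf (nat_lit 18)))) (rf (nat_lit 19))))))) (nd (nat_lit 210) (nat_lit 0) (cs (rf (nat_lit 20)) (cs (rf (nat_lit 21)) (nd (nat_lit 254) (nat_lit 0) (cs (rf (nat_lit 22)) (cs (rf (nat_lit 15)) (cs (rf (nat_lit 18)) (cs (rf (nat_lit 19)) (rf (nat_lit 23)))))))))))))))))) (cs (nd (nat_lit 297) (nat_lit 0) (cs (rf (nat_lit 24)) (cs (rf (nat_lit 25)) (cs (rf (nat_lit 26)) (rf (nat_lit 27)))))) (cs (nd (nat_lit 209) (nat_lit 0) (cs (rf (nat_lit 28)) (cs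 (rf (nat_lit 29)) (rf (nat_lit 30))))) (nd (nat_lit 297) (nat_lit 0) (cs (rf (nat_lit 31)) (cs (rf (nat_lit 32)) (cs (rf (nat_lit 25)) (nd (nat_lit 296) (nat_lit 0) (cs (lf (nat_lit 41) (nat_lit 230)) (nd (nat_lit 209) (nat_lit 0) (cs (lf (nat_lit 40) (nat_lit 208)) (nd (nat_lit 210) (nat_lit 0) (cs (lf (nat_lit 34) (nat_lit 209)) (rf (nat_lit 33))))))))))))))))))))))) q101917 (by decide +kernel)
def q101951 : Q := Q.p (nat_lit 0x800002000008000000000000000000000000000000000000000000000000000000000) (nat_lit 0x1a000068000378001df0007780003f0000f00003c0000700001400000000000000000000000000000) (nat_lit 15)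
theorem c101951 : QOK q101951 := cut [q81896, q97957, q90300, q426, q100927, q81488, q101303, q81735, q101935, q80169, q12193, q101950] ⟨c81896, c97957, c90300, c426, c100927, c81488, c101303, c81735, c101935, c80169, c12193, c101950, trivial⟩ (nd (nat_lit 230) (nat_lit 0) (cs (rf (nat_lit 0)) (cs (rf (nat_lit 1)) (cs (nd (nat_lit 252) (nat_lit 0) (cs (rf (nat_lit 2)) (cs (nd (nat_lit 251) (nat_lit 0) (cs (rf (nat_lit 3)) (cs (rf (nat_lit 4)) (nd (nat_lit 254) (nat_lit 0) (cs (rf (nat_lit 5)) (cs (rf (nat_lit 6)) (nd (nat_lit 229) (nat_lit 0) (cs (lf (nat_lit 23) (nat_lit 228)) (nd (nat_lit 232) (nat_lit 0) (cs (lf (nat_lit 17) (nat_lit 229)) (nd (nat_lit 297) (nat_lit 0) (cs (lf (nat_lit 30) (nat_lit 231)) (nd (nat_lit 298) (nat_lit 0) (cs (lf (nat_lit 29) (nat_lit 231)) (rf (nat_lit 7)))))))))))))))) (cs (nd (nat_lit 297) (nat_lit 0) (cs (lf (nat_lit 42) (nat_lit 230)) (nd (nat_lit 298) (nat_lit 0) (cs (lf (nat_lit 29) (nat_lit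 231)) (nd (nat_lit 276) (nat_lit 0) (cs (lf (nat_lit 24) (nat_lit 209)) (rf (nat_lit 8)))))))) (cs (nd (nat_lit 276) (nat_lit 0) (cs (rf (nat_lit 8)) (nd (nat_lit 209) (nat_lit 0) (cs (lf (nat_lit 29) (nat_lit 209)) (rf (nat_lit 9)))))) (nd (nat_lit 251) (nat_lit 0) (cs (rf (nat_lit 10)) (cs (rf (nat_lit 4)) (nd (nat_lit 254) (nat_lit 0) (cs (rf (nat_lit 5)) (cs (rf (nat_lit 6)) (nd (nat_lit 297) (nat_lit 0) (cs (lf (nat_lit 42) (nat_lit 230)) (nd (nat_lit 232) (nat_lit 0) (cs (lf (nat_lit 6) (nat_lit 229)) (nd (nat_lit 272) (nat_lit 0) (cs (lf (nat_lit 10) (nat_lit 250)) (nd (nat_lit 229) (nat_lit 0) (cs (lf (nat_lit 23) (nat_lit 228)) (nd (nat_lit 276) (nat_lit 0) (cs (lf (nat_lit 5) (nat_lit 251)) (nd (nat_lit 187) (nat_lit 0) (cs (lf (nat_lit 25) (nat_lit 187)) (rf (nat_lit 7))))))))))))))))))))))))) (rf (nat_lit 11)))))) q101951 (by decide +kernel)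
def q102296 : Q := Q.p (nat_lit 0x2000008000000000000000000000000000000000000000000000000000000000) (nat_lit 0x100001e0003f8001fe0003fc003de001f7c00ffe000fb8000fe0003c00001000000000000000000000000000000) (nat_lit 16)
theorem c102296 : QOK q102296 := cut [q100919, q102226, q82275, q82278, q101100, q96341, q100892, q101093, q102227, q101061, q102267, q96402, q80881, q82280, q90684, q91431, q102215, q102276, q1999, q95561, q85120, q97717, q91180, q100868, q101095, q102284, q82300, q91187, q97866, q102037, q102287, q717, q52527, q91030, q101214, q82198, q93918, q84852, q87928, q92711, q96353, q102292] ⟨c100919, c102226, c82275, c82278, c101100, c96341, c100892, c101093, c102227, c101061, c102267, c96402, c80881, c82280, c90684, c91431, c102215, c102276, c1999, c95561, c85120, c97717, c91180, c100868, c101095, c102284, c82300, c91187, c97866, c102037, c102287, c717, c52527, c91030, c101214, c82198, c93918, c84852, c87928, c92711,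 c96353, c102292, trivial⟩ (nd (nat_lit 252) (nat_lit 0) (cs (rf (nat_lit 0)) (cs (rf (nat_lit 1)) (cs (nd (nat_lit 251) (nat_lit 0) (cs (rf (nat_lit 2)) (cs (rf (nat_lit 3)) (cs (rf (nat_lit 4)) (nd (nat_lit 254) (nat_lit 0) (cs (rf (nat_lit 5)) (cs (rf (nat_lit 6)) (cs (rf (nat_lit 7)) (cs (nd (nat_lit 228) (nat_lit 0) (cs (lf (nat_lit 22) (nat_lit 228)) (nd (nat_lit 272) (nat_lit 0) (cs (lf (nat_lit 10) (nat_lit 250)) (rf (nat_lit 8)))))) (nd (nat_lit 232) (nat_lit 0) (cs (lf (nat_lit 17) (nat_lit 229)) (rf (nat_lit 9))))))))))))) (cs (rf (nat_lit 10)) (cs (nd (nat_lit 251) (nat_lit 0) (cs (rf (nat_lit 2)) (cs (rf (nat_lit 11)) (cs (nd (nat_lit 274) (nat_lit 0) (cs (rf (nat_lit 12)) (cs (rf (nat_lit 13)) (cs (nd (nat_lit 275) (nat_lit 0) (cs (rf (nat_lit 14)) (cs (rf (nat_lit 15)) (rf (nat_lit 16))))) (rf (nat_lit 17)))))) (nd (nat_lit 275) (nat_lit 0) (cs (rf (nat_lit 18)) (cs (rf (nat_lit 19)) (nd (nat_lit 296) (nat_lit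 0) (cs (rf (nat_lit 20)) (cs (rf (nat_lit 21)) (nd (nat_lit 209) (nat_lit 0) (cs (lf (nat_lit 40) (nat_lit 208)) (rf (nat_lit 22)))))))))))))) (cs (nd (nat_lit 251) (nat_lit 0) (cs (rf (nat_lit 2)) (cs (rf (nat_lit 3)) (cs (rf (nat_lit 4)) (nd (nat_lit 254) (nat_lit 0) (cs (rf (nat_lit 23)) (cs (rf (nat_lit 24)) (rf (nat_lit 25))))))))) (cs (nd (nat_lit 209) (nat_lit 0) (cs (rf (nat_lit 26)) (cs (rf (nat_lit 27)) (cs (nd (nat_lit 188) (nat_lit 0) (cs (rf (nat_lit 28)) (cs (rf (nat_lit 29)) (rf (nat_lit 30))))) (nd (nat_lit 275) (nat_lit 0) (cs (rf (nat_lit 31)) (cs (rf (nat_lit 32)) (cs (rf (nat_lit 33)) (rf (nat_lit 34)))))))))) (nd (nat_lit 251) (nat_lit 0) (cs (rf (nat_lit 2)) (cs (rf (nat_lit 3)) (cs (rf (nat_lit 4)) (nd (nat_lit 229) (nat_lit 0) (cs (rf (nat_lit 35)) (cs (rf (nat_lit 36)) (cs (nd (nat_lit 230) (nat_lit 0) (cs (rf (nat_lit 37)) (cs (rf (nat_lit 38)) (rf (nat_lit 39))))) (nd (nat_lit 230) (nat_lit 0) (cs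 (rf (nat_lit 39)) (cs (rf (nat_lit 40)) (rf (nat_lit 41))))))))))))))))))))) q102296 (by decide +kernel)
def q102308 : Q := Q.p (nat_lit 0x2000008000020000000000000000000000000000000000000000000000000000) (nat_lit 0x10000058000378001de000f7c0005c0000f0000380000400000000000000000000000000000000000) (nat_lit 11)
theorem c102308 : QOK q102308 := cut [q82309, q88775, q82275, q82278, q100863, q100865, q100868, q80922, q80931, q80723, q101100, q102306] ⟨c82309, c88775, c82275, c82278, c100863, c100865, c100868, c80922, c80931, c80723, c101100, c102306, trivial⟩ (nd (nat_lit 252) (nat_lit 0) (cs (rf (nat_lit 0)) (cs (rf (nat_lit 1)) (cs (nd (nat_lit 251) (nat_lit 0) (cs (rf (nat_lit 2)) (cs (rf (nat_lit 3)) (cs (rf (nat_lit 4)) (nd (nat_lit 254) (nat_lit 0) (cs (rf (nat_lit 5)) (cs (rf (nat_lit 6)) (nd (nat_lit 228) (nat_lit 0) (cs (lf (nat_lit 22) (nat_lit 228)) (nd (nat_lit 276) (nat_lit 0) (cs (lf (nat_lit 5) (nat_lit 251)) (rf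 (nat_lit 7))))))))))))) (nd (nat_lit 254) (nat_lit 0) (cs (rf (nat_lit 8)) (cs (nd (nat_lit 187) (nat_lit 0) (cs (lf (nat_lit 29) (nat_lit 187)) (rf (nat_lit 9)))) (cs (nd (nat_lit 251) (nat_lit 0) (cs (rf (nat_lit 5)) (rf (nat_lit 10)))) (rf (nat_lit 11)))))))))) q102308 (by decide +kernel)
def q102376 : Q := Q.p (nat_lit 0x2000008000020000000000000000000000000000000000000000000000000000) (nat_lit 0x1c0001f80003f0007de001f7c007df800e7e000180000600000000000000000000000000000000000) (nat_lit 14)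
theorem c102376 : QOK q102376 := cut [q1563, q102324, q119, q2935, q2938, q102325, q1125, q101485, q102108, q102338, q1383, q16685, q102351, q80821, q102360, q10753, q79298, q717, q102040, q91029, q102046, q84409, q22601, q101800, q84452, q102066, q102086, q93185] ⟨c1563, c102324, c119, c2935, c2938, c102325, c1125, c101485, c102108, c102338, c1383, c16685, c102351, c80821, c102360, c10753, c79298, c717, c102040, c91029, c102046, c84409, c22601, c101800, c84452, c102066, c102086, c93185, trivial⟩ (nd (nat_lit 208) (nat_lit 0) (cs (rf (nat_lit 0)) (cs (rf (nat_lit 1)) (cs (nd (nat_lit 207) (nat_lit 0) (cs (rf (nat_lit 2)) (cs (rf (nat_lit 3)) (cs (rf (nat_lit 4)) (cs (nd (nat_lit 229) (nat_lit 0) (cs (rf (nat_lit 5)) (cs (nd (nat_lit 230) (nat_lit 0) (cs (rf (nat_lit 6)) (cs (rf (nat_lit 7)) (cs (nd (nat_lit 210) (nat_lit 0) (cs (lf (nat_lit 6) (nat_lit 207)) (nd (nat_lit 184) (nat_lit 0) (cs (lf (nat_lit 22) (nat_lit 184)) (nd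 (nat_lit 186) (nat_lit 0) (cs (lf (nat_lit 24) (nat_lit 164)) (nd (nat_lit 251) (nat_lit 0) (cs (lf (nat_lit 30) (nat_lit 185)) (nd (nat_lit 232) (nat_lit 0) (cs (lf (nat_lit 5) (nat_lit 207)) (lf (nat_lit 11) (nat_lit 228)))))))))))) (nd (nat_lit 210) (nat_lit 0) (cs (lf (nat_lit 6) (nat_lit 207)) (nd (nat_lit 164) (nat_lit 0) (cs (lf (nat_lit 25) (nat_lit 164)) (nd (nat_lit 232) (nat_lit 0) (cs (lf (nat_lit 18) (nat_lit 207)) (nd (nat_lit 254) (nat_lit 0) (cs (lf (nat_lit 5) (nat_lit 229)) (nd (nat_lit 276) (nat_lit 0) (cs (lf (nat_lit 42) (nat_lit 209)) (nd (nat_lit 251) (nat_lit 0) (cs (lf (nat_lit 11) (nat_lit 228)) (rf (nat_lit 8)))))))))))))))))) (cs (nd (nat_lit 230) (nat_lit 0) (cs (rf (nat_lit 7)) (cs (rf (nat_lit 9)) (nd (nat_lit 227) (nat_lit 0) (cs (lf (nat_lit 13) (nat_lit 205)) (nd (nat_lit 232) (nat_lit 0) (cs (lf (nat_lit 18) (nat_lit 207)) (nd (nat_lit 164) (nat_lit 0) (cs (lf (nat_lit 25) (nat_lit 164)) (nd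 (nat_lit 251) (nat_lit 0) (cs (lf (nat_lit 11) (nat_lit 228)) (nd (nat_lit 273) (nat_lit 0) (cs (lf (nat_lit 30) (nat_lit 207)) (nd (nat_lit 274) (nat_lit 0) (cs (lf (nat_lit 29) (nat_lit 207)) (nd (nat_lit 185) (nat_lit 0) (cs (rf (nat_lit 10)) (lf (nat_lit 28) (nat_lit 185))))))))))))))))))) (cs (nd (nat_lit 210) (nat_lit 0) (cs (lf (nat_lit 11) (nat_lit 206)) (nd (nat_lit 184) (nat_lit 0) (cs (lf (nat_lit 22) (nat_lit 184)) (nd (nat_lit 211) (nat_lit 0) (cs (lf (nat_lit 10) (nat_lit 207)) (rf (nat_lit 11)))))))) (cs (rf (nat_lit 12)) (nd (nat_lit 210) (nat_lit 0) (cs (lf (nat_lit 11) (nat_lit 206)) (nd (nat_lit 184) (nat_lit 0) (cs (lf (nat_lit 22) (nat_lit 184)) (nd (nat_lit 211) (nat_lit 0) (cs (lf (nat_lit 10) (nat_lit 207)) (nd (nat_lit 190) (nat_lit 0) (cs (lf (nat_lit 16) (nat_lit 186)) (nd (nat_lit 212) (nat_lit 0) (cs (lf (nat_lit 17) (nat_lit 187)) (rf (nat_lit 13)))))))))))))))))) (rf (nat_lit 14))))))) (nd (nat_lit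 232) (nat_lit 0) (cs (rf (nat_lit 15)) (cs (rf (nat_lit 16)) (cs (nd (nat_lit 207) (nat_lit 0) (cs (rf (nat_lit 2)) (cs (rf (nat_lit 3)) (cs (rf (nat_lit 4)) (nd (nat_lit 275) (nat_lit 0) (cs (rf (nat_lit 17)) (cs (rf (nat_lit 18)) (nd (nat_lit 252) (nat_lit 0) (cs (rf (nat_lit 19)) (cs (nd (nat_lit 276) (nat_lit 0) (cs (lf (nat_lit 29) (nat_lit 209)) (nd (nat_lit 251) (nat_lit 0) (cs (lf (nat_lit 0) (nat_lit 250)) (nd (nat_lit 254) (nat_lit 0) (cs (lf (nat_lit 5) (nat_lit 251)) (rf (nat_lit 20)))))))) (nd (nat_lit 274) (nat_lit 0) (cs (lf (nat_lit 41) (nat_lit 208)) (nd (nat_lit 230) (nat_lit 0) (cs (lf (nat_lit 47) (nat_lit 185)) (rf (nat_lit 21)))))))))))))))) (nd (nat_lit 233) (nat_lit 0) (cs (rf (nat_lit 22)) (cs (rf (nat_lit 23)) (nd (nat_lit 230) (nat_lit 0) (cs (rf (nat_lit 24)) (cs (rf (nat_lit 25)) (cs (rf (nat_lit 26)) (nd (nat_lit 255) (nat_lit 0) (cs (lf (nat_lit 5) (nat_lit 230)) (nd (nat_lit 252) (nat_lit 0) (cs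 (lf (nat_lit 11) (nat_lit 229)) (nd (nat_lit 211) (nat_lit 0) (cs (lf (nat_lit 17) (nat_lit 208)) (rf (nat_lit 27))))))))))))))))))))))) q102376 (by decide +kernel)
def q102485 : Q := Q.p (nat_lit 0x2000018000000000000000000000000000000000000000000000000000000000) (nat_lit 0xe00003c0003fc001de00067c001be0002f0000bc0000100000000000000000000000000000000000) (nat_lit 11)
theorem c102485 : QOK q102485 := cut [q86631, q94159, q96352, q96355, q97706, q96383, q96402, q101100, q101133, q82198, q93916, q80881, q91145, q88879] ⟨c86631, c94159, c96352, c96355, c97706, c96383, c96402, c101100, c101133, c82198, c93916, c80881, c91145, c88879, trivial⟩ (nd (nat_lit 252) (nat_lit 0) (cs (rf (nat_lit 0)) (cs (rf (nat_lit 1)) (cs (nd (nat_lit 230) (nat_lit 0) (cs (rf (nat_lit 2)) (cs (rf (nat_lit 3)) (cs (rf (nat_lit 4)) (nd (nat_lit 233) (nat_lit 0) (cs (lf (nat_lit 6) (nat_lit 230)) (nd (nat_lit 255) (nat_lit 0) (cs (lf (nat_lit 5) (nat_lit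 230)) (nd (nat_lit 254) (nat_lit 0) (cs (lf (nat_lit 0) (nat_lit 229)) (rf (nat_lit 5)))))))))))) (nd (nat_lit 251) (nat_lit 0) (cs (rf (nat_lit 6)) (cs (rf (nat_lit 7)) (cs (rf (nat_lit 8)) (nd (nat_lit 229) (nat_lit 0) (cs (rf (nat_lit 9)) (cs (nd (nat_lit 254) (nat_lit 0) (cs (lf (nat_lit 23) (nat_lit 228)) (nd (nat_lit 276) (nat_lit 0) (cs (lf (nat_lit 5) (nat_lit 251)) (nd (nat_lit 187) (nat_lit 0) (cs (lf (nat_lit 25) (nat_lit 187)) (rf (nat_lit 10)))))))) (cs (nd (nat_lit 274) (nat_lit 0) (cs (rf (nat_lit 11)) (nd (nat_lit 207) (nat_lit 0) (cs (lf (nat_lit 24) (nat_lit 185)) (rf (nat_lit 12)))))) (nd (nat_lit 274) (nat_lit 0) (cs (rf (nat_lit 11)) (rf (nat_lit 13)))))))))))))))) q102485 (by decide +kernel)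
def q102661 : Q := Q.p (nat_lit 0x2000008000000000000000000000000000000000000000000000000000000000) (nat_lit 0x400001e0000780002f8007df000f7c003ff800ffe000fc0003c00007000014000000000000000000000000) (nat_lit 17)
theorem c102661 : QOK q102661 := cut [q98083, q100881, q101234, q102137, q102390, q1563, q93250, q100846, q7463, q7464, q102028, q102589, q102638, q82309, q94017, q82275, q82278, q100863, q82198, q93918, q88829, q102292, q87928, q92711, q102176, q94159, q1580, q80723, q82299, q102648, q96982, q102459, q92716, q97705, q10546, q102653, q80724, q80731, q84607] ⟨c98083, c100881, c101234, c102137, c102390, c1563, c93250, c100846, c7463, c7464, c102028, c102589, c102638, c82309, c94017, c82275, c82278, c100863, c82198, c93918, c88829, c102292, c87928, c92711, c102176, c94159, c1580, c80723, c82299, c102648, c96982, c102459, c92716, c97705, c10546, c102653, c80724, c80731, c84607, trivial⟩ (nd (nat_lit 209) (nat_lit 0) (cs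 (rf (nat_lit 0)) (cs (rf (nat_lit 1)) (cs (rf (nat_lit 2)) (cs (rf (nat_lit 3)) (cs (rf (nat_lit 4)) (cs (nd (nat_lit 208) (nat_lit 0) (cs (rf (nat_lit 5)) (cs (rf (nat_lit 6)) (cs (rf (nat_lit 7)) (nd (nat_lit 210) (nat_lit 0) (cs (rf (nat_lit 8)) (cs (rf (nat_lit 9)) (rf (nat_lit 10))))))))) (cs (rf (nat_lit 11)) (cs (rf (nat_lit 12)) (cs (nd (nat_lit 252) (nat_lit 0) (cs (rf (nat_lit 13)) (cs (rf (nat_lit 14)) (cs (nd (nat_lit 251) (nat_lit 0) (cs (rf (nat_lit 15)) (cs (rf (nat_lit 16)) (cs (rf (nat_lit 17)) (nd (nat_lit 229) (nat_lit 0) (cs (rf (nat_lit 18)) (cs (rf (nat_lit 19)) (cs (nd (nat_lit 230) (nat_lit 0) (cs (rf (nat_lit 20)) (rf (nat_lit 21)))) (nd (nat_lit 230) (nat_lit 0) (cs (rf (nat_lit 22)) (cs (rf (nat_lit 23)) (rf (nat_lit 24))))))))))))) (nd (nat_lit 232) (nat_lit 0) (cs (rf (nat_lit 25)) (cs (nd (nat_lit 251) (nat_lit 0) (cs (lf (nat_lit 12) (nat_lit 228)) (nd (nat_lit 187) (nat_lit 0) (cs (rf (nat_lit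 26)) (cs (rf (nat_lit 27)) (cs (rf (nat_lit 28)) (rf (nat_lit 29)))))))) (nd (nat_lit 233) (nat_lit 0) (cs (rf (nat_lit 30)) (cs (rf (nat_lit 31)) (nd (nat_lit 230) (nat_lit 0) (cs (rf (nat_lit 32)) (cs (rf (nat_lit 33)) (cs (nd (nat_lit 211) (nat_lit 0) (cs (lf (nat_lit 17) (nat_lit 208)) (nd (nat_lit 210) (nat_lit 0) (cs (lf (nat_lit 12) (nat_lit 207)) (nd (nat_lit 208) (nat_lit 0) (cs (lf (nat_lit 0) (nat_lit 207)) (rf (nat_lit 34)))))))) (nd (nat_lit 165) (nat_lit 0) (cs (lf (nat_lit 37) (nat_lit 164)) (nd (nat_lit 255) (nat_lit 0) (cs (lf (nat_lit 5) (nat_lit 230)) (rf (nat_lit 35)))))))))))))))))))) (nd (nat_lit 187) (nat_lit 0) (cs (rf (nat_lit 36)) (cs (rf (nat_lit 37)) (rf (nat_lit 38))))))))))))))) q102661 (by decide +kernel)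
def q102716 : Q := Q.p (nat_lit 0x2000008000000000000000000000000000000000000000000000000000000000) (nat_lit 0x100001c00007c0001fe0003f8003de003f7c007f0003fc0001f00005400000000000000000000000000000000000) (nat_lit 15)
theorem c102716 : QOK q102716 := cut [q96725, q100880, q100887, q101216, q101233, q101234, q80754, q80931, q80819, q96570, q81101, q80393, q81176, q102102, q80787, q102668, q80797, q102678, q79554, q84860, q102705, q81100, q97822, q79210, q81054, q98248, q80854, q94017, q102306, q82278, q101095, q101100] ⟨c96725, c100880, c100887, c101216, c101233, c101234, c80754, c80931, c80819, c96570, c81101, c80393, c81176, c102102, c80787, c102668, c80797, c102678, c79554, c84860, c102705, c81100, c97822, c79210, c81054, c98248, c80854, c94017, c102306, c82278, c101095, c101100, trivial⟩ (nd (nat_lit 209) (nat_lit 0) (cs (rf (nat_lit 0)) (cs (rf (nat_lit 1)) (cs (rf (nat_lit 2)) (cs (rf (nat_lit 3)) (cs (rf (nat_lit 4)) (cs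 (rf (nat_lit 5)) (nd (nat_lit 254) (nat_lit 0) (cs (rf (nat_lit 6)) (cs (rf (nat_lit 7)) (cs (nd (nat_lit 255) (nat_lit 0) (cs (rf (nat_lit 8)) (cs (rf (nat_lit 9)) (cs (nd (nat_lit 233) (nat_lit 0) (cs (rf (nat_lit 10)) (cs (nd (nat_lit 211) (nat_lit 0) (cs (rf (nat_lit 11)) (cs (rf (nat_lit 12)) (cs (rf (nat_lit 13)) (cs (nd (nat_lit 277) (nat_lit 0) (cs (nd (nat_lit 298) (nat_lit 0) (cs (lf (nat_lit 40) (nat_lit 210)) (nd (nat_lit 299) (nat_lit 0) (cs (lf (nat_lit 41) (nat_lit 232)) (nd (nat_lit 321) (nat_lit 0) (cs (rf (nat_lit 14)) (lf (nat_lit 47) (nat_lit 232)))))))) (cs (nd (nat_lit 190) (nat_lit 0) (cs (lf (nat_lit 34) (nat_lit 189)) (nd (nat_lit 210) (nat_lit 0) (cs (lf (nat_lit 47) (nat_lit 188)) (nd (nat_lit 299) (nat_lit 0) (cs (lf (nat_lit 46) (nat_lit 210)) (rf (nat_lit 15)))))))) (cs (nd (nat_lit 299) (nat_lit 0) (cs (rf (nat_lit 16)) (cs (rf (nat_lit 15)) (cs (nd (nat_lit 188) (nat_lit 0) (cs (lf (nat_lit 46)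 (nat_lit 188)) (nd (nat_lit 322) (nat_lit 0) (cs (lf (nat_lit 28) (nat_lit 233)) (nd (nat_lit 190) (nat_lit 0) (cs (lf (nat_lit 34) (nat_lit 189)) (nd (nat_lit 321) (nat_lit 0) (cs (lf (nat_lit 29) (nat_lit 255)) (nd (nat_lit 276) (nat_lit 0) (cs (lf (nat_lit 41) (nat_lit 210)) (lf (nat_lit 42) (nat_lit 254)))))))))))) (nd (nat_lit 190) (nat_lit 0) (cs (lf (nat_lit 34) (nat_lit 189)) (nd (nat_lit 188) (nat_lit 0) (cs (lf (nat_lit 46) (nat_lit 188)) (rf (nat_lit 17)))))))))) (cs (nd (nat_lit 210) (nat_lit 0) (cs (lf (nat_lit 47) (nat_lit 188)) (nd (nat_lit 276) (nat_lit 0) (cs (lf (nat_lit 41) (nat_lit 210)) (nd (nat_lit 251) (nat_lit 0) (cs (lf (nat_lit 1) (nat_lit 251)) (nd (nat_lit 212) (nat_lit 0) (cs (lf (nat_lit 35) (nat_lit 189)) (nd (nat_lit 213) (nat_lit 0) (cs (lf (nat_lit 10) (nat_lit 209)) (nd (nat_lit 192) (nat_lit 0) (cs (lf (nat_lit 16) (nat_lit 188)) (nd (nat_lit 214) (nat_lit 0) (cs (lf (nat_lit 17) (nat_lit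 189)) (rf (nat_lit 18)))))))))))))))) (nd (nat_lit 190) (nat_lit 0) (cs (lf (nat_lit 34) (nat_lit 189)) (nd (nat_lit 210) (nat_lit 0) (cs (lf (nat_lit 47) (nat_lit 188)) (nd (nat_lit 299) (nat_lit 0) (cs (lf (nat_lit 46) (nat_lit 210)) (rf (nat_lit 17))))))))))))) (nd (nat_lit 189) (nat_lit 0) (cs (rf (nat_lit 19)) (cs (nd (nat_lit 166) (nat_lit 0) (cs (lf (nat_lit 46) (nat_lit 166)) (nd (nat_lit 167) (nat_lit 0) (cs (lf (nat_lit 47) (nat_lit 144)) (lf (nat_lit 40) (nat_lit 166)))))) (nd (nat_lit 166) (nat_lit 0) (cs (lf (nat_lit 46) (nat_lit 166)) (nd (nat_lit 190) (nat_lit 0) (cs (lf (nat_lit 35) (nat_lit 167)) (nd (nat_lit 210) (nat_lit 0) (cs (lf (nat_lit 12) (nat_lit 186)) (nd (nat_lit 191) (nat_lit 0) (cs (lf (nat_lit 15) (nat_lit 187)) (lf (nat_lit 6) (nat_lit 188)))))))))))))))))) (cs (nd (nat_lit 234) (nat_lit 0) (cs (lf (nat_lit 12) (nat_lit 230)) (rf (nat_lit 20)))) (nd (nat_lit 234) (nat_lit 0) (cs (rf (nat_lit 21))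 (cs (rf (nat_lit 22)) (rf (nat_lit 20))))))))) (nd (nat_lit 252) (nat_lit 0) (cs (rf (nat_lit 23)) (cs (rf (nat_lit 24)) (cs (rf (nat_lit 25)) (nd (nat_lit 233) (nat_lit 0) (cs (lf (nat_lit 17) (nat_lit 230)) (nd (nat_lit 274) (nat_lit 0) (cs (lf (nat_lit 11) (nat_lit 251)) (rf (nat_lit 26)))))))))))))) (nd (nat_lit 252) (nat_lit 0) (cs (rf (nat_lit 27)) (cs (rf (nat_lit 28)) (nd (nat_lit 251) (nat_lit 0) (cs (rf (nat_lit 29)) (cs (rf (nat_lit 30)) (rf (nat_lit 31))))))))))))))))))) q102716 (by decide +kernel)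
def q102721 : Q := Q.p (nat_lit 0x2000008000000000000000000000000000000000000000000000000000000000) (nat_lit 0x80000700003e0001dc00077c001ff8007fe001ff0001400000000000000000000000000000000000) (nat_lit 16)
theorem c102721 : QOK q102721 := cut [q1563, q2990, q100846, q10753, q79298, q96263, q96270, q96273, q96280, q96293, q100880, q100881, q98315, q98359, q100882, q96330, q100886, q100887, q101232] ⟨c1563, c2990, c100846, c10753, c79298, c96263, c96270, c96273, c96280, c96293, c100880, c100881, c98315, c98359, c100882, c96330, c100886, c100887, c101232, trivial⟩ (nd (nat_lit 209) (nat_lit 0) (cs (nd (nat_lit 208) (nat_lit 0) (cs (rf (nat_lit 0)) (cs (rf (nat_lit 1)) (cs (rf (nat_lit 2)) (nd (nat_lit 232) (nat_lit 0) (cs (rf (nat_lit 3)) (cs (rf (nat_lit 4)) (cs (rf (nat_lit 5)) (nd (nat_lit 230) (nat_lit 0) (cs (rf (nat_lit 6)) (cs (rf (nat_lit 7)) (cs (rf (nat_lit 8)) (cs (rf (nat_lit 9)) (nd (nat_lit 275) (nat_lit 0) (cs (lf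 (nat_lit 42) (nat_lit 208)) (nd (nat_lit 188) (nat_lit 0) (cs (lf (nat_lit 34) (nat_lit 187)) (nd (nat_lit 276) (nat_lit 0) (cs (lf (nat_lit 29) (nat_lit 209)) (nd (nat_lit 274) (nat_lit 0) (cs (lf (nat_lit 41) (nat_lit 208)) (nd (nat_lit 233) (nat_lit 0) (cs (lf (nat_lit 18) (nat_lit 208)) (nd (nat_lit 211) (nat_lit 0) (cs (lf (nat_lit 17) (nat_lit 208)) (nd (nat_lit 255) (nat_lit 0) (cs (lf (nat_lit 5) (nat_lit 230)) (nd (nat_lit 189) (nat_lit 0) (cs (lf (nat_lit 47) (nat_lit 166)) (lf (nat_lit 40) (nat_lit 188))))))))))))))))))))))))))))))) (cs (rf (nat_lit 10)) (cs (rf (nat_lit 11)) (cs (nd (nat_lit 275) (nat_lit 0) (cs (rf (nat_lit 12)) (cs (rf (nat_lit 13)) (cs (rf (nat_lit 14)) (nd (nat_lit 276) (nat_lit 0) (cs (lf (nat_lit 29) (nat_lit 209)) (nd (nat_lit 274) (nat_lit 0) (cs (lf (nat_lit 41) (nat_lit 208)) (rf (nat_lit 15)))))))))) (cs (rf (nat_lit 16)) (cs (rf (nat_lit 17)) (rf (nat_lit 18))))))))) q102721 (by decide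 +kernel)
def q102877 : Q := Q.p (nat_lit 0xf000010000000000000000000000000000000000000000000000000000000000) (nat_lit 0x300000c000076000000000e6000180000600001800000000000000000000000000000000000000000) (nat_lit 10)
theorem c102877 : QOK q102877 := cut [q80981, q102875] ⟨c80981, c102875, trivial⟩ (nd (nat_lit 233) (nat_lit 0) (cs (rf (nat_lit 0)) (nd (nat_lit 229) (nat_lit 0) (cs (lf (nat_lit 22) (nat_lit 229)) (rf (nat_lit 1)))))) q102877 (by decide +kernel)
def q103084 : Q := Q.p (nat_lit 0x6000010000000000000000000000000000000000000000000000000000000000) (nat_lit 0xfc000ff000398000e00000e0000380000e00002800000000000000000000000000000000000) (nat_lit 11)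
theorem c103084 : QOK q103084 := cut [q79128, q102805, q102821, q102829, q102958] ⟨c79128, c102805, c102821, c102829, c102958, trivial⟩ (nd (nat_lit 210) (nat_lit 0) (cs (rf (nat_lit 0)) (cs (rf (nat_lit 1)) (cs (rf (nat_lit 2)) (cs (rf (nat_lit 3)) (rf (nat_lit 4))))))) q103084 (by decide +kernel)
def q103396 : Q := Q.p (nat_lit 0x6000010000000000000000000000000000000000000000000000000000000000) (nat_lit 0x1c0000f0000fe00078c000ef0007bc0007c0001f00000000000000000000000000000000000000000) (nat_lit 13)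
theorem c103396 : QOK q103396 := cut [q103340, q103342, q103352, q103356, q102740, q79626, q80895, q103368, q103367, q79520, q80863] ⟨c103340, c103342, c103352, c103356, c102740, c79626, c80895, c103368, c103367, c79520, c80863, trivial⟩ (nd (nat_lit 231) (nat_lit 0) (cs (rf (nat_lit 0)) (cs (rf (nat_lit 1)) (cs (rf (nat_lit 2)) (cs (rf (nat_lit 3)) (nd (nat_lit 233) (nat_lit 0) (cs (rf (nat_lit 4)) (cs (nd (nat_lit 234) (nat_lit 0) (cs (lf (nat_lit 6) (nat_lit 231)) (nd (nat_lit 212) (nat_lit 0) (cs (lf (nat_lit 17) (nat_lit 209)) (nd (nat_lit 211) (nat_lit 0) (cs (lf (nat_lit 12) (nat_lit 208)) (nd (nat_lit 189) (nat_lit 0) (cs (lf (nat_lit 36) (nat_lit 166)) (nd (nat_lit 276) (nat_lit 0) (cs (lf (nat_lit 30) (nat_lit 210)) (lf (nat_lit 39) (nat_lit 188)))))))))))) (cs (nd (nat_lit 255) (nat_lit 0) (cs (rf (nat_lit 5)) (cs (rf (nat_lit 6)) (rf (nat_lit 7))))) (cs (nd (nat_lit 234) (nat_lit 0) (cs (lf (nat_lit 6) (nat_lit 231))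 (nd (nat_lit 256) (nat_lit 0) (cs (lf (nat_lit 5) (nat_lit 231)) (nd (nat_lit 255) (nat_lit 0) (cs (lf (nat_lit 0) (nat_lit 230)) (rf (nat_lit 8)))))))) (cs (nd (nat_lit 255) (nat_lit 0) (cs (rf (nat_lit 9)) (cs (rf (nat_lit 7)) (cs (nd (nat_lit 234) (nat_lit 0) (cs (lf (nat_lit 6) (nat_lit 231)) (nd (nat_lit 212) (nat_lit 0) (cs (lf (nat_lit 17) (nat_lit 209)) (nd (nat_lit 168) (nat_lit 0) (cs (lf (nat_lit 37) (nat_lit 167)) (nd (nat_lit 277) (nat_lit 0) (cs (lf (nat_lit 30) (nat_lit 211)) (nd (nat_lit 256) (nat_lit 0) (cs (lf (nat_lit 18) (nat_lit 231)) (nd (nat_lit 278) (nat_lit 0) (cs (lf (nat_lit 5) (nat_lit 253)) (nd (nat_lit 275) (nat_lit 0) (cs (lf (nat_lit 11) (nat_lit 252)) (nd (nat_lit 297) (nat_lit 0) (cs (lf (nat_lit 30) (nat_lit 231)) (nd (nat_lit 296) (nat_lit 0) (cs (lf (nat_lit 41) (nat_lit 230)) (lf (nat_lit 8) (nat_lit 274)))))))))))))))))))) (nd (nat_lit 256) (nat_lit 0) (cs (lf (nat_lit 18) (nat_lit 231))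 (nd (nat_lit 278) (nat_lit 0) (cs (lf (nat_lit 5) (nat_lit 253)) (nd (nat_lit 189) (nat_lit 0) (cs (lf (nat_lit 25) (nat_lit 189)) (nd (nat_lit 274) (nat_lit 0) (cs (lf (nat_lit 10) (nat_lit 252)) (nd (nat_lit 234) (nat_lit 0) (cs (lf (nat_lit 6) (nat_lit 231)) (nd (nat_lit 212) (nat_lit 0) (cs (lf (nat_lit 17) (nat_lit 209)) (nd (nat_lit 190) (nat_lit 0) (cs (lf (nat_lit 36) (nat_lit 167)) (lf (nat_lit 47) (nat_lit 167)))))))))))))))))))) (nd (nat_lit 234) (nat_lit 0) (cs (lf (nat_lit 6) (nat_lit 231)) (nd (nat_lit 256) (nat_lit 0) (cs (lf (nat_lit 5) (nat_lit 231)) (nd (nat_lit 255) (nat_lit 0) (cs (lf (nat_lit 0) (nat_lit 230)) (nd (nat_lit 278) (nat_lit 0) (cs (lf (nat_lit 5) (nat_lit 253)) (nd (nat_lit 274) (nat_lit 0) (cs (lf (nat_lit 10) (nat_lit 252)) (rf (nat_lit 10))))))))))))))))))))))) q103396 (by decide +kernel)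
def q103482 : Q := Q.p (nat_lit 0x6000010000000000000000000000000000000000000000000000000000000000) (nat_lit 0x3c0000fc000ff00039c000cf00013c0005f00007c0000500000000000000000000000000000000000) (nat_lit 14)
theorem c103482 : QOK q103482 := cut [q103356, q103410, q103422, q103430, q103437, q103472, q103481] ⟨c103356, c103410, c103422, c103430, c103437, c103472, c103481, trivial⟩ (nd (nat_lit 231) (nat_lit 0) (cs (rf (nat_lit 0)) (cs (rf (nat_lit 1)) (cs (rf (nat_lit 2)) (cs (rf (nat_lit 3)) (cs (rf (nat_lit 4)) (cs (rf (nat_lit 5)) (rf (nat_lit 6))))))))) q103482 (by decide +kernel)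
def q103584 : Q := Q.p (nat_lit 0x6000030000000000000000000000000000000000000000000000000000000000) (nat_lit 0x3c0000f0001fe0007900000e0007b80007c0001f00000000000000000000000000000000000000000) (nat_lit 15)
theorem c103584 : QOK q103584 := cut [q79626, q80878, q80685, q79236, q103552, q80895, q103356, q85968, q103543] ⟨c79626, c80878, c80685, c79236, c103552, c80895, c103356, c85968, c103543, trivial⟩ (nd (nat_lit 255) (nat_lit 0) (cs (nd (nat_lit 231) (nat_lit 0) (cs (rf (nat_lit 0)) (cs (rf (nat_lit 1)) (nd (nat_lit 256) (nat_lit 0) (cs (lf (nat_lit 18) (nat_lit 231)) (rf (nat_lit 2))))))) (cs (nd (nat_lit 211) (nat_lit 0) (cs (rf (nat_lit 3)) (cs (nd (nat_lit 189) (nat_lit 0) (cs (lf (nat_lit 36) (nat_lit 166)) (rf (nat_lit 4)))) (nd (nat_lit 230) (nat_lit 0) (cs (nd (nat_lit 231) (nat_lit 0) (cs (lf (nat_lit 17) (nat_lit 208)) (lf (nat_lit 0) (nat_lit 229)))) (cs (nd (nat_lit 298) (nat_lit 0) (cs (lf (nat_lit 31) (nat_lit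 210)) (nd (nat_lit 252) (nat_lit 0) (cs (lf (nat_lit 23) (nat_lit 229)) (nd (nat_lit 273) (nat_lit 0) (cs (lf (nat_lit 10) (nat_lit 251)) (nd (nat_lit 277) (nat_lit 0) (cs (lf (nat_lit 5) (nat_lit 252)) (nd (nat_lit 299) (nat_lit 0) (cs (lf (nat_lit 41) (nat_lit 232)) (lf (nat_lit 42) (nat_lit 232)))))))))))) (nd (nat_lit 212) (nat_lit 0) (cs (nd (nat_lit 213) (nat_lit 0) (cs (lf (nat_lit 6) (nat_lit 210)) (nd (nat_lit 276) (nat_lit 0) (cs (lf (nat_lit 30) (nat_lit 210)) (nd (nat_lit 277) (nat_lit 0) (cs (lf (nat_lit 35) (nat_lit 189)) (nd (nat_lit 278) (nat_lit 0) (cs (lf (nat_lit 18) (nat_lit 253)) (lf (nat_lit 0) (nat_lit 252)))))))))) (lf (nat_lit 13) (nat_lit 208)))))))))) (cs (nd (nat_lit 231) (nat_lit 0) (cs (rf (nat_lit 0)) (cs (rf (nat_lit 5)) (rf (nat_lit 6))))) (cs (nd (nat_lit 256) (nat_lit 0) (cs (rf (nat_lit 2)) (cs (rf (nat_lit 7)) (rf (nat_lit 8))))) (nd (nat_lit 231) (nat_lit 0) (cs (rf (nat_lit 0)) (cs (rf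 (nat_lit 5)) (nd (nat_lit 256) (nat_lit 0) (cs (lf (nat_lit 18) (nat_lit 231)) (nd (nat_lit 278) (nat_lit 0) (cs (lf (nat_lit 5) (nat_lit 253)) (nd (nat_lit 277) (nat_lit 0) (cs (lf (nat_lit 0) (nat_lit 252)) (nd (nat_lit 189) (nat_lit 0) (cs (lf (nat_lit 25) (nat_lit 189)) (nd (nat_lit 299) (nat_lit 0) (cs (lf (nat_lit 42) (nat_lit 232)) (nd (nat_lit 298) (nat_lit 0) (cs (lf (nat_lit 41) (nat_lit 232)) (nd (nat_lit 296) (nat_lit 0) (cs (nd (nat_lit 209) (nat_lit 0) (cs (lf (nat_lit 43) (nat_lit 209)) (nd (nat_lit 187) (nat_lit 0) (cs (lf (nat_lit 24) (nat_lit 165)) (nd (nat_lit 186) (nat_lit 0) (cs (lf (nat_lit 47) (nat_lit 164)) (nd (nat_lit 208) (nat_lit 0) (cs (lf (nat_lit 42) (nat_lit 186)) (nd (nat_lit 188) (nat_lit 0) (cs (lf (nat_lit 11) (nat_lit 185)) (lf (nat_lit 35) (nat_lit 165)))))))))))) (lf (nat_lit 13) (nat_lit 274)))))))))))))))))))))))) q103584 (by decide +kernel)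
def q103777 : Q := Q.p (nat_lit 0x6000018000000000000000000000000000000000000000000000000000000000) (nat_lit 0xc0000f0000180000060003f00003f0000f00000000000000000000000000000000000000000) (nat_lit 8)
theorem c103777 : QOK q103777 := cut [q98253, q103773, q103774, q103776] ⟨c98253, c103773, c103774, c103776, trivial⟩ (nd (nat_lit 210) (nat_lit 0) (cs (rf (nat_lit 0)) (cs (rf (nat_lit 1)) (cs (rf (nat_lit 2)) (rf (nat_lit 3)))))) q103777 (by decide +kernel)
def q103889 : Q := Q.p (nat_lit 0x6000010000000000000000000000000000000000000000000000000000000000) (nat_lit 0xc00003c0000fc000ff00078c000ef0007fc000ec0000b00000000000000000000000000000000000000000) (nat_lit 16)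
theorem c103889 : QOK q103889 := cut [q79734, q79739, q79771, q79754, q103823, q79422, q80551, q103836, q79768, q103887, q79196, q103342, q103344, q103348] ⟨c79734, c79739, c79771, c79754, c103823, c79422, c80551, c103836, c79768, c103887, c79196, c103342, c103344, c103348, trivial⟩ (nd (nat_lit 275) (nat_lit 0) (cs (rf (nat_lit 0)) (cs (rf (nat_lit 1)) (cs (nd (nat_lit 276) (nat_lit 0) (cs (rf (nat_lit 2)) (cs (nd (nat_lit 277) (nat_lit 0) (cs (rf (nat_lit 3)) (cs (nd (nat_lit 278) (nat_lit 0) (cs (lf (nat_lit 18) (nat_lit 253)) (nd (nat_lit 256) (nat_lit 0) (cs (lf (nat_lit 17) (nat_lit 253)) (nd (nat_lit 255) (nat_lit 0) (cs (lf (nat_lit 12) (nat_lit 252)) (rf (nat_lit 4)))))))) (nd (nat_lit 278) (nat_lit 0) (cs (lf (nat_lit 18) (nat_lit 253)) (nd (nat_lit 256) (nat_lit 0) (cs (lf (nat_lit 17) (nat_lit 253)) (nd (nat_lit 255) (nat_lit 0) (cs (lf (nat_lit 12) (nat_lit 252)) (nd (nat_lit 234) (nat_lit 0) (cs (lf (nat_lit 17)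 (nat_lit 231)) (nd (nat_lit 212) (nat_lit 0) (cs (lf (nat_lit 36) (nat_lit 189)) (nd (nat_lit 213) (nat_lit 0) (cs (lf (nat_lit 35) (nat_lit 190)) (nd (nat_lit 211) (nat_lit 0) (cs (lf (nat_lit 47) (nat_lit 189)) (nd (nat_lit 233) (nat_lit 0) (cs (lf (nat_lit 41) (nat_lit 210)) (lf (nat_lit 6) (nat_lit 210))))))))))))))))))))) (nd (nat_lit 298) (nat_lit 0) (cs (rf (nat_lit 5)) (cs (nd (nat_lit 255) (nat_lit 0) (cs (rf (nat_lit 6)) (cs (nd (nat_lit 297) (nat_lit 0) (cs (lf (nat_lit 30) (nat_lit 231)) (nd (nat_lit 299) (nat_lit 0) (cs (lf (nat_lit 29) (nat_lit 232)) (nd (nat_lit 273) (nat_lit 0) (cs (lf (nat_lit 1) (nat_lit 273)) (nd (nat_lit 233) (nat_lit 0) (cs (lf (nat_lit 35) (nat_lit 210)) (nd (nat_lit 234) (nat_lit 0) (cs (lf (nat_lit 6) (nat_lit 231)) (nd (nat_lit 277) (nat_lit 0) (cs (lf (nat_lit 35) (nat_lit 211)) (rf (nat_lit 7)))))))))))))) (nd (nat_lit 297) (nat_lit 0) (cs (lf (nat_lit 30) (nat_lit 231)) (nd (nat_lit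 211) (nat_lit 0) (cs (lf (nat_lit 34) (nat_lit 210)) (nd (nat_lit 299) (nat_lit 0) (cs (lf (nat_lit 29) (nat_lit 232)) (nd (nat_lit 256) (nat_lit 0) (cs (lf (nat_lit 6) (nat_lit 253)) (nd (nat_lit 234) (nat_lit 0) (cs (lf (nat_lit 17) (nat_lit 231)) (nd (nat_lit 278) (nat_lit 0) (cs (lf (nat_lit 5) (nat_lit 253)) (nd (nat_lit 212) (nat_lit 0) (cs (lf (nat_lit 47) (nat_lit 189)) (lf (nat_lit 40) (nat_lit 211))))))))))))))))))) (nd (nat_lit 297) (nat_lit 0) (cs (lf (nat_lit 30) (nat_lit 231)) (rf (nat_lit 8)))))))))) (cs (rf (nat_lit 9)) (nd (nat_lit 231) (nat_lit 0) (cs (rf (nat_lit 10)) (cs (rf (nat_lit 11)) (cs (rf (nat_lit 12)) (rf (nat_lit 13))))))))))) q103889 (by decide +kernel)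
def q103951 : Q := Q.p (nat_lit 0x6000010000000000000000000000000000000000000000000000000000000000) (nat_lit 0x80000600003e0000f0000ff000380000ec00037c000fc0000e00002800000000000000000000000000000000000) (nat_lit 13)
theorem c103951 : QOK q103951 := cut [q79128, q102805, q102828, q103950] ⟨c79128, c102805, c102828, c103950, trivial⟩ (nd (nat_lit 210) (nat_lit 0) (cs (rf (nat_lit 0)) (cs (rf (nat_lit 1)) (cs (rf (nat_lit 2)) (rf (nat_lit 3)))))) q103951 (by decide +kernel)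
def q103980 : Q := Q.p (nat_lit 0x6000010000060000000000000000000000000000000000000000000000000000) (nat_lit 0x300000f0001800006f80039c000ef8000b00000000000000000000000000000000000000000) (nat_lit 11)
theorem c103980 : QOK q103980 := cut [q17112, q103967, q103771, q103956, q103968, q80070, q173] ⟨c17112, c103967, c103771, c103956, c103968, c80070, c173, trivial⟩ (nd (nat_lit 208) (nat_lit 0) (cs (rf (nat_lit 0)) (cs (rf (nat_lit 1)) (cs (nd (nat_lit 231) (nat_lit 0) (cs (rf (nat_lit 2)) (cs (rf (nat_lit 3)) (nd (nat_lit 233) (nat_lit 0) (cs (lf (nat_lit 18) (nat_lit 208)) (nd (nat_lit 275) (nat_lit 0) (cs (lf (nat_lit 30) (nat_lit 209)) (nd (nat_lit 274) (nat_lit 0) (cs (lf (nat_lit 41) (nat_lit 208)) (nd (nat_lit 255) (nat_lit 0) (cs (lf (nat_lit 6) (nat_lit 252)) (nd (nat_lit 230) (nat_lit 0) (cs (lf (nat_lit 0) (nat_lit 229)) (nd (nat_lit 272) (nat_lit 0) (cs (lf (nat_lit 13) (nat_lit 250)) (nd (nat_lit 211) (nat_lit 0) (cs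 (lf (nat_lit 17) (nat_lit 208)) (rf (nat_lit 4))))))))))))))))))) (cs (nd (nat_lit 231) (nat_lit 0) (cs (rf (nat_lit 5)) (rf (nat_lit 3)))) (nd (nat_lit 207) (nat_lit 0) (cs (lf (nat_lit 5) (nat_lit 207)) (nd (nat_lit 206) (nat_lit 0) (cs (rf (nat_lit 6)) (lf (nat_lit 4) (nat_lit 206))))))))))) q103980 (by decide +kernel)
def q104066 : Q := Q.p (nat_lit 0x2000018000000000000000000000000000000000000000000000000000000000) (nat_lit 0x3c0000fc000ff0003dc000c700013c0005f00007c0000500000000000000000000000000000000000) (nat_lit 14)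
theorem c104066 : QOK q104066 := cut [q103356, q103410, q103422, q103430, q103437, q103472, q103481] ⟨c103356, c103410, c103422, c103430, c103437, c103472, c103481, trivial⟩ (nd (nat_lit 254) (nat_lit 0) (cs (rf (nat_lit 0)) (cs (rf (nat_lit 1)) (cs (rf (nat_lit 2)) (cs (rf (nat_lit 3)) (cs (rf (nat_lit 4)) (cs (rf (nat_lit 5)) (rf (nat_lit 6))))))))) q104066 (by decide +kernel)
def q104117 : Q := Q.p (nat_lit 0x2000018000040000000000000000000000000000000000000000000000000000) (nat_lit 0x8000000000070003bc000ff0000700001c00000000000000000000000000000000000) (nat_lit 9)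
theorem c104117 : QOK q104117 := cut [q95343, q1595, q80070, q104116] ⟨c95343, c1595, c80070, c104116, trivial⟩ (nd (nat_lit 209) (nat_lit 0) (cs (rf (nat_lit 0)) (cs (nd (nat_lit 208) (nat_lit 0) (cs (rf (nat_lit 1)) (rf (nat_lit 2)))) (rf (nat_lit 3))))) q104117 (by decide +kernel)
def q104433 : Q := Q.p (nat_lit 0x2000010000000000000000000000000000000000000000000000000000000000) (nat_lit 0xf00003e0000fc003ff8007dc003ef8001dc0007e0001e80002800000000000000000000000000000000000) (nat_lit 13)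
theorem c104433 : QOK q104433 := cut [q103609, q103914, q104412, q79128, q79988, q104410, q102810, q104414, q102954, q103516, q102860, q102864, q103661, q81973, q104422, q104432] ⟨c103609, c103914, c104412, c79128, c79988, c104410, c102810, c104414, c102954, c103516, c102860, c102864, c103661, c81973, c104422, c104432, trivial⟩ (nd (nat_lit 254) (nat_lit 0) (cs (rf (nat_lit 0)) (cs (rf (nat_lit 1)) (cs (rf (nat_lit 2)) (cs (nd (nat_lit 210) (nat_lit 0) (cs (rf (nat_lit 3)) (cs (rf (nat_lit 4)) (cs (rf (nat_lit 5)) (nd (nat_lit 276) (nat_lit 0) (cs (rf (nat_lit 6)) (cs (nd (nat_lit 189) (nat_lit 0) (cs (lf (nat_lit 34) (nat_lit 188)) (nd (nat_lit 297) (nat_lit 0) (cs (lf (nat_lit 40) (nat_lit 209)) (rf (nat_lit 7)))))) (nd (nat_lit 252) (nat_lit 0) (cs (rf (nat_lit 8)) (cs (rf (nat_lit 9)) (nd (nat_lit 255) (nat_lit 0) (cs (rf (nat_lit 10)) (cs (rf (nat_lit 11)) (cs (rf (nat_lit 12)) (nd (nat_lit 277) (nat_lit 0) (cs (lf (nat_lit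 5) (nat_lit 252)) (rf (nat_lit 13)))))))))))))))))) (cs (rf (nat_lit 14)) (rf (nat_lit 15)))))))) q104433 (by decide +kernel)
def q104568 : Q := Q.p (nat_lit 0x2000010000000000000000000000000000000000000000000000000000000000) (nat_lit 0x500001c0000f0000fe000fd7003ef8007fe000ff0003f00007000014000000000000000000000000000000) (nat_lit 13)
theorem c104568 : QOK q104568 := cut [q102765, q102769, q103311, q104326, q97307, q101804, q102740, q102742, q102748, q80875, q84452, q97461, q102535, q102734, q103156, q81896, q79237, q104567] ⟨c102765, c102769, c103311, c104326, c97307, c101804, c102740, c102742, c102748, c80875, c84452, c97461, c102535, c102734, c103156, c81896, c79237, c104567, trivial⟩ (nd (nat_lit 231) (nat_lit 0) (cs (rf (nat_lit 0)) (cs (rf (nat_lit 1)) (cs (rf (nat_lit 2)) (cs (rf (nat_lit 3)) (cs (nd (nat_lit 233) (nat_lit 0) (cs (rf (nat_lit 4)) (cs (rf (nat_lit 5)) (cs (rf (nat_lit 6)) (cs (rf (nat_lit 7)) (cs (rf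 (nat_lit 8)) (nd (nat_lit 230) (nat_lit 0) (cs (rf (nat_lit 9)) (rf (nat_lit 10)))))))))) (cs (nd (nat_lit 233) (nat_lit 0) (cs (rf (nat_lit 11)) (cs (rf (nat_lit 12)) (cs (rf (nat_lit 6)) (cs (rf (nat_lit 7)) (nd (nat_lit 230) (nat_lit 0) (cs (rf (nat_lit 13)) (cs (nd (nat_lit 211) (nat_lit 0) (cs (lf (nat_lit 17) (nat_lit 208)) (nd (nat_lit 255) (nat_lit 0) (cs (lf (nat_lit 5) (nat_lit 230)) (nd (nat_lit 229) (nat_lit 0) (cs (lf (nat_lit 4) (nat_lit 229)) (rf (nat_lit 14)))))))) (nd (nat_lit 275) (nat_lit 0) (cs (rf (nat_lit 15)) (nd (nat_lit 255) (nat_lit 0) (cs (lf (nat_lit 5) (nat_lit 230)) (nd (nat_lit 254) (nat_lit 0) (cs (rf (nat_lit 16)) (lf (nat_lit 0) (nat_lit 229)))))))))))))))) (rf (nat_lit 17))))))))) q104568 (by decide +kernel)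
def q104617 : Q := Q.p (nat_lit 0x2000010000000000000000000000000000000000000000000000000000000000) (nat_lit 0x500001c0000f00007c00075c000ef0007fe0007f0000f80001400000000000000000000000000000000000) (nat_lit 14)
theorem c104617 : QOK q104617 := cut [q102765, q102769, q103311, q104344, q103131, q102740, q102742, q103129, q22592, q102398, q102583, q97957, q102401, q22541, q104575, q104607, q104616] ⟨c102765, c102769, c103311, c104344, c103131, c102740, c102742, c103129, c22592, c102398, c102583, c97957, c102401, c22541, c104575, c104607, c104616, trivial⟩ (nd (nat_lit 231) (nat_lit 0) (cs (rf (nat_lit 0)) (cs (rf (nat_lit 1)) (cs (rf (nat_lit 2)) (cs (rf (nat_lit 3)) (cs (nd (nat_lit 275) (nat_lit 0) (cs (rf (nat_lit 4)) (cs (nd (nat_lit 233) (nat_lit 0) (cs (rf (nat_lit 5)) (cs (rf (nat_lit 6)) (cs (rf (nat_lit 7)) (nd (nat_lit 230) (nat_lit 0) (cs (rf (nat_lit 8)) (cs (rf (nat_lit 9)) (rf (nat_lit 10))))))))) (nd (nat_lit 230)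 (nat_lit 0) (cs (rf (nat_lit 11)) (cs (rf (nat_lit 12)) (nd (nat_lit 251) (nat_lit 0) (cs (nd (nat_lit 250) (nat_lit 0) (cs (lf (nat_lit 14) (nat_lit 228)) (lf (nat_lit 9) (nat_lit 228)))) (cs (nd (nat_lit 229) (nat_lit 0) (cs (lf (nat_lit 11) (nat_lit 228)) (nd (nat_lit 228) (nat_lit 0) (cs (rf (nat_lit 13)) (lf (nat_lit 5) (nat_lit 228)))))) (nd (nat_lit 233) (nat_lit 0) (cs (lf (nat_lit 10) (nat_lit 229)) (rf (nat_lit 14))))))))))))) (cs (rf (nat_lit 15)) (rf (nat_lit 16))))))))) q104617 (by decide +kernel)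
def q104904 : Q := Q.p (nat_lit 0x2000010000000000000000000000000000000000000000000000000000000000) (nat_lit 0x280000e00003e0000fc001ff0007dc003ec0007fe001ff0007f8000f80000a000000000000000000000000000000) (nat_lit 15)
theorem c104904 : QOK q104904 := cut [q102851, q103667, q103911, q103914, q103961, q104455, q104466, q104474, q79128, q102829, q102812, q104454, q104873, q85968, q103601, q104352, q104880, q97306, q102534, q103152, q104891, q79121, q95738, q104895, q81864, q102803, q81677, q103623, q103666, q104436] ⟨c102851, c103667, c103911, c103914, c103961, c104455, c104466, c104474, c79128, c102829, c102812, c104454, c104873, c85968, c103601, c104352, c104880, c97306, c102534, c103152, c104891, c79121, c95738, c104895, c81864, c102803, c81677, c103623, c103666, c104436, trivial⟩ (nd (nat_lit 254) (nat_lit 0) (cs (rf (nat_lit 0)) (cs (rf (nat_lit 1)) (cs (rf (nat_lit 2)) (cs (rf (nat_lit 3)) (cs (rf (nat_lit 4)) (cs (rf (nat_lit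 5)) (cs (rf (nat_lit 6)) (cs (rf (nat_lit 7)) (cs (nd (nat_lit 210) (nat_lit 0) (cs (rf (nat_lit 8)) (cs (rf (nat_lit 9)) (cs (nd (nat_lit 233) (nat_lit 0) (cs (rf (nat_lit 10)) (cs (rf (nat_lit 11)) (cs (nd (nat_lit 255) (nat_lit 0) (cs (rf (nat_lit 12)) (cs (nd (nat_lit 256) (nat_lit 0) (cs (rf (nat_lit 13)) (cs (rf (nat_lit 14)) (nd (nat_lit 277) (nat_lit 0) (cs (lf (nat_lit 42) (nat_lit 210)) (nd (nat_lit 274) (nat_lit 0) (cs (lf (nat_lit 10) (nat_lit 252)) (nd (nat_lit 231) (nat_lit 0) (cs (lf (nat_lit 23) (nat_lit 230)) (rf (nat_lit 15))))))))))) (nd (nat_lit 252) (nat_lit 0) (cs (lf (nat_lit 12) (nat_lit 229)) (rf (nat_lit 16))))))) (cs (nd (nat_lit 234) (nat_lit 0) (cs (lf (nat_lit 6) (nat_lit 231)) (nd (nat_lit 231) (nat_lit 0) (cs (rf (nat_lit 17)) (cs (rf (nat_lit 18)) (cs (rf (nat_lit 19)) (nd (nat_lit 209) (nat_lit 0) (cs (lf (nat_lit 23) (nat_lit 208)) (nd (nat_lit 165) (nat_lit 0) (cs (lf (nat_lit 25) (nat_lit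 165)) (nd (nat_lit 212) (nat_lit 0) (cs (lf (nat_lit 17) (nat_lit 209)) (nd (nat_lit 256) (nat_lit 0) (cs (lf (nat_lit 5) (nat_lit 231)) (nd (nat_lit 275) (nat_lit 0) (cs (lf (nat_lit 30) (nat_lit 209)) (nd (nat_lit 274) (nat_lit 0) (cs (lf (nat_lit 41) (nat_lit 208)) (lf (nat_lit 7) (nat_lit 252)))))))))))))))))))) (nd (nat_lit 252) (nat_lit 0) (cs (lf (nat_lit 12) (nat_lit 229)) (rf (nat_lit 20))))))))) (nd (nat_lit 255) (nat_lit 0) (cs (nd (nat_lit 188) (nat_lit 0) (cs (rf (nat_lit 21)) (lf (nat_lit 29) (nat_lit 188)))) (cs (nd (nat_lit 234) (nat_lit 0) (cs (rf (nat_lit 22)) (cs (rf (nat_lit 23)) (nd (nat_lit 252) (nat_lit 0) (cs (lf (nat_lit 16) (nat_lit 230)) (nd (nat_lit 273) (nat_lit 0) (cs (lf (nat_lit 10) (nat_lit 251)) (nd (nat_lit 251) (nat_lit 0) (cs (lf (nat_lit 11) (nat_lit 250)) (rf (nat_lit 24))))))))))) (nd (nat_lit 188) (nat_lit 0) (cs (lf (nat_lit 29) (nat_lit 188)) (rf (nat_lit 25))))))))))) (nd (nat_lit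 252) (nat_lit 0) (cs (rf (nat_lit 26)) (cs (rf (nat_lit 27)) (cs (rf (nat_lit 28)) (rf (nat_lit 29)))))))))))))))) q104904 (by decide +kernel)
def q104914 : Q := Q.p (nat_lit 0x2000010000000000000000000000000000000000000000000000000000000000) (nat_lit 0x700003e0000fc003ff8007dc003ef8003fc0007f0001b80000e00000000000000000000000000000000000) (nat_lit 15)
theorem c104914 : QOK q104914 := cut [q102874, q103083, q103609, q103613, q103712, q102837, q104907, q104908, q79199, q79739, q104796, q104749, q104788, q79729, q102898] ⟨c102874, c103083, c103609, c103613, c103712, c102837, c104907, c104908, c79199, c79739, c104796, c104749, c104788, c79729, c102898, trivial⟩ (nd (nat_lit 254) (nat_lit 0) (cs (rf (nat_lit 0)) (cs (rf (nat_lit 1)) (cs (rf (nat_lit 2)) (cs (rf (nat_lit 3)) (cs (rf (nat_lit 4)) (cs (nd (nat_lit 210) (nat_lit 0) (cs (rf (nat_lit 5)) (cs (rf (nat_lit 6)) (rf (nat_lit 7))))) (cs (nd (nat_lit 275) (nat_lit 0) (cs (rf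 (nat_lit 8)) (cs (rf (nat_lit 9)) (cs (rf (nat_lit 10)) (nd (nat_lit 276) (nat_lit 0) (cs (rf (nat_lit 11)) (cs (rf (nat_lit 12)) (nd (nat_lit 210) (nat_lit 0) (cs (lf (nat_lit 36) (nat_lit 187)) (rf (nat_lit 13))))))))))) (nd (nat_lit 210) (nat_lit 0) (cs (rf (nat_lit 14)) (cs (rf (nat_lit 6)) (rf (nat_lit 7))))))))))))) q104914 (by decide +kernel)
def q105091 : Q := Q.p (nat_lit 0x2000010000000000000000000000000000000000000000000000000000000000) (nat_lit 0x80000f00003e0000fc001ff8007dc003ef8007f8001fa0001e0000780000a000000000000000000000000000000) (nat_lit 16)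
theorem c105091 : QOK q105091 := cut [q102899, q103613, q104437, q104455, q104805, q104860, q104871, q79128, q79988, q102837, q103987, q103081, q104833] ⟨c102899, c103613, c104437, c104455, c104805, c104860, c104871, c79128, c79988, c102837, c103987, c103081, c104833, trivial⟩ (nd (nat_lit 254) (nat_lit 0) (cs (rf (nat_lit 0)) (cs (rf (nat_lit 1)) (cs (rf (nat_lit 2)) (cs (rf (nat_lit 3)) (cs (rf (nat_lit 4)) (cs (rf (nat_lit 5)) (cs (rf (nat_lit 6)) (cs (nd (nat_lit 210) (nat_lit 0) (cs (rf (nat_lit 7)) (cs (rf (nat_lit 8)) (cs (rf (nat_lit 9)) (rf (nat_lit 10)))))) (nd (nat_lit 210) (nat_lit 0) (cs (rf (nat_lit 7)) (cs (rf (nat_lit 8)) (cs (rf (nat_lit 11)) (rf (nat_lit 12))))))))))))))) q105091 (by decide +kernel)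
def q105110 : Q := Q.p (nat_lit 0x2000010000000000000000000000000000000000000000000000000000000000) (nat_lit 0x280000e00003e0000fc001ff8007dc003ef8007f0001fe0001e00002800000000000000000000000000000000000) (nat_lit 14)
theorem c105110 : QOK q105110 := cut [q79128, q102805, q102821, q102828, q102829, q103613, q103911, q104412, q104455, q104860, q81677, q81730, q102862, q105101, q79199, q79739, q102855, q103606, q104807, q104830, q104548, q79237] ⟨c79128, c102805, c102821, c102828, c102829, c103613, c103911, c104412, c104455, c104860, c81677, c81730, c102862, c105101, c79199, c79739, c102855, c103606, c104807, c104830, c104548, c79237, trivial⟩ (nd (nat_lit 254) (nat_lit 0) (cs (nd (nat_lit 210) (nat_lit 0) (cs (rf (nat_lit 0)) (cs (rf (nat_lit 1)) (cs (rf (nat_lit 2)) (cs (rf (nat_lit 3)) (rf (nat_lit 4))))))) (cs (rf (nat_lit 5)) (cs (rf (nat_lit 6)) (cs (rf (nat_lit 7)) (cs (rf (nat_lit 8)) (cs (rf (nat_lit 9)) (cs (nd (nat_lit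 252) (nat_lit 0) (cs (rf (nat_lit 10)) (cs (rf (nat_lit 11)) (cs (rf (nat_lit 12)) (rf (nat_lit 13)))))) (nd (nat_lit 252) (nat_lit 0) (cs (rf (nat_lit 10)) (cs (rf (nat_lit 11)) (cs (rf (nat_lit 13)) (nd (nat_lit 275) (nat_lit 0) (cs (rf (nat_lit 14)) (cs (rf (nat_lit 15)) (nd (nat_lit 255) (nat_lit 0) (cs (rf (nat_lit 16)) (cs (rf (nat_lit 17)) (cs (rf (nat_lit 18)) (cs (rf (nat_lit 19)) (nd (nat_lit 231) (nat_lit 0) (cs (rf (nat_lit 20)) (nd (nat_lit 230) (nat_lit 0) (cs (lf (nat_lit 23) (nat_lit 229)) (nd (nat_lit 186) (nat_lit 0) (cs (lf (nat_lit 25) (nat_lit 186)) (nd (nat_lit 233) (nat_lit 0) (cs (lf (nat_lit 6) (nat_lit 230)) (rf (nat_lit 21)))))))))))))))))))))))))))))) q105110 (by decide +kernel)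
def q105156 : Q := Q.p (nat_lit 0x3800000000000000000000000000000000000000000000000000000000000000) (nat_lit 0x10000070000fc0007fc000c00003fc0003e0003f00003c0000500000000000000000000000000000000000) (nat_lit 14)
theorem c105156 : QOK q105156 := cut [q82198, q105131, q105134, q93916, q5482, q11484, q80450, q105136, q105144, q105153] ⟨c82198, c105131, c105134, c93916, c5482, c11484, c80450, c105136, c105144, c105153, trivial⟩ (nd (nat_lit 229) (nat_lit 0) (cs (rf (nat_lit 0)) (cs (rf (nat_lit 1)) (cs (rf (nat_lit 2)) (nd (nat_lit 254) (nat_lit 0) (cs (rf (nat_lit 3)) (cs (nd (nat_lit 207) (nat_lit 0) (cs (rf (nat_lit 4)) (cs (rf (nat_lit 5)) (cs (rf (nat_lit 6)) (cs (nd (nat_lit 276) (nat_lit 0) (cs (lf (nat_lit 5) (nat_lit 251)) (nd (nat_lit 273) (nat_lit 0) (cs (lf (nat_lit 11) (nat_lit 250)) (nd (nat_lit 232) (nat_lit 0) (cs (lf (nat_lit 17) (nat_lit 229)) (nd (nat_lit 186) (nat_lit 0) (cs (lf (nat_lit 34) (nat_lit 185)) (nd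 (nat_lit 164) (nat_lit 0) (cs (lf (nat_lit 33) (nat_lit 163)) (rf (nat_lit 7)))))))))))) (nd (nat_lit 232) (nat_lit 0) (cs (lf (nat_lit 17) (nat_lit 229)) (nd (nat_lit 276) (nat_lit 0) (cs (lf (nat_lit 5) (nat_lit 251)) (nd (nat_lit 273) (nat_lit 0) (cs (lf (nat_lit 11) (nat_lit 250)) (nd (nat_lit 274) (nat_lit 0) (cs (lf (nat_lit 29) (nat_lit 207)) (nd (nat_lit 184) (nat_lit 0) (cs (lf (nat_lit 46) (nat_lit 184)) (nd (nat_lit 208) (nat_lit 0) (cs (lf (nat_lit 35) (nat_lit 185)) (nd (nat_lit 230) (nat_lit 0) (cs (lf (nat_lit 41) (nat_lit 207)) (rf (nat_lit 8))))))))))))))))))))) (nd (nat_lit 232) (nat_lit 0) (cs (lf (nat_lit 17) (nat_lit 229)) (rf (nat_lit 9))))))))))) q105156 (by decide +kernel)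
def q105204 : Q := Q.p (nat_lit 0x3800000000000000000000000000000000000000000000000000000000000000) (nat_lit 0x7c000460003fc00066000080000200000000000000000000000000000000000000000) (nat_lit 9)
theorem c105204 : QOK q105204 := cut [q2065, q82185, q89927] ⟨c2065, c82185, c89927, trivial⟩ (nd (nat_lit 250) (nat_lit 0) (cs (rf (nat_lit 0)) (cs (rf (nat_lit 1)) (rf (nat_lit 2))))) q105204 (by decide +kernel)
def q105297 : Q := Q.p (nat_lit 0x800003000000000000000000000000000000000000000000000000000000000000000) (nat_lit 0xf80003e0001de000778001c60007f8001fe0003e0000000000000000000000000000000000000000000000) (nat_lit 16)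
theorem c105297 : QOK q105297 := cut [q105251, q11506, q98392, q80993, q98462, q105226, q105262, q105268, q98468, q98471, q105276, q105279, q98479, q105275, q105286, q105291, q105227, q24703, q98472, q105293, q105295] ⟨c105251, c11506, c98392, c80993, c98462, c105226, c105262, c105268, c98468, c98471, c105276, c105279, c98479, c105275, c105286, c105291, c105227, c24703, c98472, c105293, c105295, trivial⟩ (nd (nat_lit 274) (nat_lit 0) (cs (rf (nat_lit 0)) (cs (nd (nat_lit 296) (nat_lit 0) (cs (rf (nat_lit 1)) (cs (rf (nat_lit 2)) (nd (nat_lit 230) (nat_lit 0) (cs (rf (nat_lit 3)) (cs (rf (nat_lit 4)) (rf (nat_lit 5)))))))) (cs (nd (nat_lit 296) (nat_lit 0) (cs (rf (nat_lit 1)) (cs (rf (nat_lit 2)) (rf (nat_lit 6))))) (cs (rf (nat_lit 7)) (cs (nd (nat_lit 230) (nat_lit 0) (cs (rf (nat_lit 8)) (cs (rf (nat_lit 9)) (cs (rf (nat_lit 10)) (cs (rf (nat_lit 11)) (cs (nd (nat_lit 231) (nat_lit 0) (cs (rf (nat_lit 12)) (cs (rf (nat_lit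 13)) (rf (nat_lit 14))))) (rf (nat_lit 15)))))))) (nd (nat_lit 230) (nat_lit 0) (cs (rf (nat_lit 8)) (cs (rf (nat_lit 16)) (cs (nd (nat_lit 231) (nat_lit 0) (cs (rf (nat_lit 17)) (cs (rf (nat_lit 18)) (rf (nat_lit 19))))) (rf (nat_lit 20)))))))))))) q105297 (by decide +kernel)
def q105307 : Q := Q.p (nat_lit 0xe00003000000000000000000000000000000000000000000000000000000000000000) (nat_lit 0x60000180001ec000700001c0000300000c0000300000000000000000000000000000000000000000000000) (nat_lit 10)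
theorem c105307 : QOK q105307 := cut [q1310, q105248, q79079, q98847] ⟨c1310, c105248, c79079, c98847, trivial⟩ (nd (nat_lit 276) (nat_lit 0) (cs (rf (nat_lit 0)) (cs (rf (nat_lit 1)) (nd (nat_lit 254) (nat_lit 0) (cs (rf (nat_lit 2)) (rf (nat_lit 3))))))) q105307 (by decide +kernel)
def q105467 : Q := Q.p (nat_lit 0x800003000008000000000000000000000000000000000000000000000000000000000) (nat_lit 0x40000100001de000778001c600000000020000080000000000000000000000000000000000000000000000) (nat_lit 9)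
theorem c105467 : QOK q105467 := cut [q24703, q105268] ⟨c24703, c105268, trivial⟩ (nd (nat_lit 274) (nat_lit 0) (cs (rf (nat_lit 0)) (rf (nat_lit 1)))) q105467 (by decide +kernel)
def q105482 : Q := Q.p (nat_lit 0x200000800003000008000000000000000000000000000000000000000000000000000000000) (nat_lit 0x1c0000778003de000140000400000000000000000000000000000000000000000) (nat_lit 8)
theorem c105482 : QOK q105482 := cut [q81477, q105466] ⟨c81477, c105466, trivial⟩ (nd (nat_lit 230) (nat_lit 0x200000000000000000000000000000000000000000000000000000000000000000000000000) (cs (rf (nat_lit 0)) (rf (nat_lit 1)))) q105482 (by decide +kernel)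
def q105498 : Q := Q.p (nat_lit 0x800003000000000000000000000000000000000000000000000000000000000000000) (nat_lit 0x300000c0000f80003f8001fe000778001c60000f8000380000e0000000000000000000000000000000000000000000000) (nat_lit 14)
theorem c105498 : QOK q105498 := cut [q88933, q94444, q90752, q94505, q11666, q11728, q25883, q94506, q105452, q89422, q105262, q105268, q105332, q105494, q105497] ⟨c88933, c94444, c90752, c94505, c11666, c11728, c25883, c94506, c105452, c89422, c105262, c105268, c105332, c105494, c105497, trivial⟩ (nd (nat_lit 297) (nat_lit 0) (cs (rf (nat_lit 0)) (cs (rf (nat_lit 1)) (cs (nd (nat_lit 296) (nat_lit 0) (cs (rf (nat_lit 2)) (cs (rf (nat_lit 3)) (cs (nd (nat_lit 295) (nat_lit 0) (cs (rf (nat_lit 4)) (cs (rf (nat_lit 5)) (cs (nd (nat_lit 274) (nat_lit 0) (cs (rf (nat_lit 6)) (cs (rf (nat_lit 7)) (nd (nat_lit 318) (nat_lit 0) (cs (lf (nat_lit 30) (nat_lit 252)) (nd (nat_lit 276) (nat_lit 0) (cs (lf (nat_lit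 6) (nat_lit 273)) (nd (nat_lit 230) (nat_lit 0) (cs (lf (nat_lit 24) (nat_lit 208)) (nd (nat_lit 229) (nat_lit 0) (cs (lf (nat_lit 47) (nat_lit 207)) (nd (nat_lit 227) (nat_lit 0) (cs (lf (nat_lit 1) (nat_lit 227)) (nd (nat_lit 254) (nat_lit 0) (cs (lf (nat_lit 18) (nat_lit 229)) (rf (nat_lit 8))))))))))))))))) (nd (nat_lit 274) (nat_lit 0) (cs (rf (nat_lit 9)) (rf (nat_lit 7)))))))) (nd (nat_lit 274) (nat_lit 0) (cs (rf (nat_lit 10)) (cs (rf (nat_lit 11)) (cs (rf (nat_lit 12)) (rf (nat_lit 13)))))))))) (rf (nat_lit 14)))))) q105498 (by decide +kernel)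
def q105562 : Q := Q.p (nat_lit 0x400003000000000000000000000000000000000000000000000000000000000000000) (nat_lit 0x700001e0001ee0007b80018e0007f8001fe0001f8000000000000000000000000000000000000000000000) (nat_lit 16)
theorem c105562 : QOK q105562 := cut [q105520, q88933, q105522, q89353, q91959, q105526, q98731, q105402, q105530, q105532, q22908, q88001, q58912, q700, q14689, q105542, q105545, q81477, q98479, q87998, q105549, q105293, q96411, q96420, q96422] ⟨c105520, c88933, c105522, c89353, c91959, c105526, c98731, c105402, c105530, c105532, c22908, c88001, c58912, c700, c14689, c105542, c105545, c81477, c98479, c87998, c105549, c105293, c96411, c96420, c96422, trivial⟩ (nd (nat_lit 275) (nat_lit 0) (cs (rf (nat_lit 0)) (cs (nd (nat_lit 297) (nat_lit 0) (cs (rf (nat_lit 1)) (cs (rf (nat_lit 2)) (nd (nat_lit 231) (nat_lit 0) (cs (rf (nat_lit 3)) (rf (nat_lit 4))))))) (cs (rf (nat_lit 5)) (cs (nd (nat_lit 231) (nat_lit 0) (cs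 (rf (nat_lit 6)) (cs (rf (nat_lit 7)) (cs (rf (nat_lit 8)) (rf (nat_lit 9)))))) (cs (nd (nat_lit 297) (nat_lit 0) (cs (rf (nat_lit 1)) (cs (rf (nat_lit 2)) (nd (nat_lit 231) (nat_lit 0) (cs (rf (nat_lit 10)) (cs (nd (nat_lit 230) (nat_lit 0) (cs (lf (nat_lit 24) (nat_lit 208)) (rf (nat_lit 11)))) (nd (nat_lit 208) (nat_lit 0) (cs (lf (nat_lit 46) (nat_lit 208)) (rf (nat_lit 12)))))))))) (cs (nd (nat_lit 276) (nat_lit 0) (cs (rf (nat_lit 13)) (cs (rf (nat_lit 14)) (rf (nat_lit 15))))) (nd (nat_lit 231) (nat_lit 0) (cs (rf (nat_lit 7)) (cs (nd (nat_lit 209) (nat_lit 0) (cs (lf (nat_lit 36) (nat_lit 186)) (rf (nat_lit 16)))) (cs (nd (nat_lit 230) (nat_lit 0) (cs (rf (nat_lit 17)) (cs (rf (nat_lit 18)) (nd (nat_lit 297) (nat_lit 0) (cs (lf (nat_lit 42) (nat_lit 230)) (rf (nat_lit 19))))))) (cs (rf (nat_lit 20)) (cs (nd (nat_lit 230) (nat_lit 0) (cs (rf (nat_lit 18)) (cs (rf (nat_lit 21)) (cs (nd (nat_lit 187) (nat_lit 0) (cs (lf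 (nat_lit 37) (nat_lit 186)) (nd (nat_lit 208) (nat_lit 0) (cs (lf (nat_lit 24) (nat_lit 186)) (rf (nat_lit 22)))))) (nd (nat_lit 208) (nat_lit 0) (cs (lf (nat_lit 24) (nat_lit 186)) (nd (nat_lit 185) (nat_lit 0) (cs (lf (nat_lit 46) (nat_lit 185)) (nd (nat_lit 273) (nat_lit 0) (cs (lf (nat_lit 41) (nat_lit 207)) (nd (nat_lit 187) (nat_lit 0) (cs (lf (nat_lit 37) (nat_lit 186)) (rf (nat_lit 23)))))))))))))) (nd (nat_lit 209) (nat_lit 0) (cs (lf (nat_lit 36) (nat_lit 186)) (nd (nat_lit 188) (nat_lit 0) (cs (lf (nat_lit 34) (nat_lit 187)) (nd (nat_lit 208) (nat_lit 0) (cs (lf (nat_lit 47) (nat_lit 186)) (nd (nat_lit 230) (nat_lit 0) (cs (lf (nat_lit 42) (nat_lit 208)) (rf (nat_lit 24))))))))))))))))))))))) q105562 (by decide +kernel)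
def q105580 : Q := Q.p (nat_lit 0x400003000000000000000000000000000000000000000000000000000000000000000) (nat_lit 0x40000780001e0001fe0007b80018e0007bc000fc0001f0000000000000000000000000000000000000000000000) (nat_lit 11)
theorem c105580 : QOK q105580 := cut [q105520, q24703, q105402, q82283, q105352, q105353, q105349, q90752, q105566, q105571, q91956, q105572, q105575, q14866, q98353] ⟨c105520, c24703, c105402, c82283, c105352, c105353, c105349, c90752, c105566, c105571, c91956, c105572, c105575, c14866, c98353, trivial⟩ (nd (nat_lit 275) (nat_lit 0) (cs (rf (nat_lit 0)) (cs (nd (nat_lit 231) (nat_lit 0) (cs (rf (nat_lit 1)) (cs (rf (nat_lit 2)) (nd (nat_lit 297) (nat_lit 0) (cs (rf (nat_lit 3)) (cs (rf (nat_lit 4)) (rf (nat_lit 5)))))))) (cs (nd (nat_lit 231) (nat_lit 0) (cs (rf (nat_lit 1)) (cs (rf (nat_lit 6)) (nd (nat_lit 297) (nat_lit 0) (cs (rf (nat_lit 3)) (cs (rf (nat_lit 4)) (nd (nat_lit 296) (nat_lit 0) (cs (rf (nat_lit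 7)) (nd (nat_lit 298) (nat_lit 0) (cs (lf (nat_lit 29) (nat_lit 231)) (rf (nat_lit 8)))))))))))) (cs (rf (nat_lit 9)) (nd (nat_lit 231) (nat_lit 0) (cs (rf (nat_lit 1)) (cs (rf (nat_lit 2)) (nd (nat_lit 273) (nat_lit 0) (cs (rf (nat_lit 10)) (cs (rf (nat_lit 11)) (cs (rf (nat_lit 12)) (cs (nd (nat_lit 296) (nat_lit 0) (cs (lf (nat_lit 30) (nat_lit 230)) (rf (nat_lit 13)))) (nd (nat_lit 272) (nat_lit 0) (cs (lf (nat_lit 12) (nat_lit 249)) (rf (nat_lit 14))))))))))))))))) q105580 (by decide +kernel)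
def q105602 : Q := Q.p (nat_lit 0x400003000000000000000000000000000000000000000000000000000000000000000) (nat_lit 0x780001f8001fe0007b80018e000078000fe0001f80000a0000000000000000000000000000000000000000) (nat_lit 15)
theorem c105602 : QOK q105602 := cut [q105300, q105526, q105571, q98468, q98863, q83734, q105298, q15076, q99110, q99140, q99144, q99145, q99154, q105589, q5304, q99161, q45111, q105601] ⟨c105300, c105526, c105571, c98468, c98863, c83734, c105298, c15076, c99110, c99140, c99144, c99145, c99154, c105589, c5304, c99161, c45111, c105601, trivial⟩ (nd (nat_lit 275) (nat_lit 0) (cs (rf (nat_lit 0)) (cs (rf (nat_lit 1)) (cs (rf (nat_lit 2)) (cs (nd (nat_lit 230) (nat_lit 0) (cs (rf (nat_lit 3)) (cs (rf (nat_lit 4)) (nd (nat_lit 296) (nat_lit 0) (cs (rf (nat_lit 5)) (cs (rf (nat_lit 6)) (nd (nat_lit 297) (nat_lit 0) (cs (lf (nat_lit 42) (nat_lit 230)) (nd (nat_lit 207) (nat_lit 0) (cs (lf (nat_lit 46) (nat_lit 207)) (nd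 (nat_lit 295) (nat_lit 0) (cs (lf (nat_lit 41) (nat_lit 229)) (nd (nat_lit 294) (nat_lit 0) (cs (lf (nat_lit 12) (nat_lit 271)) (nd (nat_lit 315) (nat_lit 0) (cs (lf (nat_lit 10) (nat_lit 293)) (nd (nat_lit 272) (nat_lit 0) (cs (lf (nat_lit 23) (nat_lit 271)) (rf (nat_lit 7)))))))))))))))))))) (cs (nd (nat_lit 272) (nat_lit 0) (cs (rf (nat_lit 8)) (cs (rf (nat_lit 9)) (cs (rf (nat_lit 10)) (cs (rf (nat_lit 11)) (cs (rf (nat_lit 12)) (rf (nat_lit 13)))))))) (cs (nd (nat_lit 230) (nat_lit 0) (cs (rf (nat_lit 3)) (cs (rf (nat_lit 4)) (nd (nat_lit 296) (nat_lit 0) (cs (rf (nat_lit 5)) (cs (rf (nat_lit 6)) (nd (nat_lit 251) (nat_lit 0) (cs (rf (nat_lit 14)) (cs (rf (nat_lit 15)) (nd (nat_lit 297) (nat_lit 0) (cs (lf (nat_lit 42) (nat_lit 230)) (nd (nat_lit 207) (nat_lit 0) (cs (lf (nat_lit 46) (nat_lit 207)) (nd (nat_lit 250) (nat_lit 0) (cs (lf (nat_lit 0) (nat_lit 249)) (nd (nat_lit 295) (nat_lit 0) (cs (lf (nat_lit 41) (nat_lit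 229)) (nd (nat_lit 228) (nat_lit 0) (cs (lf (nat_lit 23) (nat_lit 227)) (nd (nat_lit 272) (nat_lit 0) (cs (lf (nat_lit 11) (nat_lit 249)) (rf (nat_lit 16))))))))))))))))))))))) (rf (nat_lit 17))))))))) q105602 (by decide +kernel)
def q105708 : Q := Q.p (nat_lit 0x100000400003000000000000000000000000000000000000000000000000000000000000000) (nat_lit 0x80000200000800000e0007f8001fe0000e0000000000000000000000000000000000000000000000) (nat_lit 10)
theorem c105708 : QOK q105708 := cut [q86011, q91682, q105707] ⟨c86011, c91682, c105707, trivial⟩ (nd (nat_lit 230) (nat_lit 0) (cs (rf (nat_lit 0)) (cs (rf (nat_lit 1)) (rf (nat_lit 2))))) q105708 (by decide +kernel)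
def q105711 : Q := Q.p (nat_lit 0x100000400003000000000000000000000000000000000000000000000000000000000000000) (nat_lit 0x20000080000200000e0007f8001fe0000a0000000000000000000000000000000000000000000000) (nat_lit 10)
theorem c105711 : QOK q105711 := cut [q81007, q81787, q105707] ⟨c81007, c81787, c105707, trivial⟩ (nd (nat_lit 230) (nat_lit 0) (cs (rf (nat_lit 0)) (cs (rf (nat_lit 1)) (rf (nat_lit 2))))) q105711 (by decide +kernel)
def q105886 : Q := Q.p (nat_lit 0x300000c000000000000000000000000000000000000000000000000000000000) (nat_lit 0xe000038000078000c00001000003e0000e0000380000000000000000000000000000000000000000) (nat_lit 9)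
theorem c105886 : QOK q105886 := cut [q79097, q89933, q105885] ⟨c79097, c89933, c105885, trivial⟩ (nd (nat_lit 274) (nat_lit 0) (cs (rf (nat_lit 0)) (cs (rf (nat_lit 1)) (rf (nat_lit 2))))) q105886 (by decide +kernel)
def q105922 : Q := Q.p (nat_lit 0x3000008000000000000000000000000000000000000000000000000000000000) (nat_lit 0xf00007c0002780018e000778003fe001ff8003fc0001400000000000000000000000000000000000) (nat_lit 14)
theorem c105922 : QOK q105922 := cut [q96409, q96786, q105884, q84852, q93643, q105911, q105914, q57663, q87131, q84952, q87908, q87972, q79097, q85044, q93764, q93765, q93793, q93790, q93809] ⟨c96409, c96786, c105884, c84852, c93643, c105911, c105914, c57663, c87131, c84952, c87908, c87972, c79097, c85044, c93764, c93765, c93793, c93790, c93809, trivial⟩ (nd (nat_lit 230) (nat_lit 0) (cs (rf (nat_lit 0)) (cs (rf (nat_lit 1)) (cs (rf (nat_lit 2)) (cs (nd (nat_lit 229) (nat_lit 0) (cs (rf (nat_lit 3)) (cs (rf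 (nat_lit 4)) (rf (nat_lit 5))))) (cs (rf (nat_lit 6)) (cs (nd (nat_lit 232) (nat_lit 0) (cs (rf (nat_lit 7)) (cs (rf (nat_lit 8)) (nd (nat_lit 229) (nat_lit 0) (cs (rf (nat_lit 9)) (cs (rf (nat_lit 10)) (rf (nat_lit 11)))))))) (cs (nd (nat_lit 274) (nat_lit 0) (cs (rf (nat_lit 12)) (cs (rf (nat_lit 13)) (nd (nat_lit 186) (nat_lit 0) (cs (rf (nat_lit 14)) (cs (rf (nat_lit 15)) (cs (rf (nat_lit 16)) (nd (nat_lit 232) (nat_lit 0) (cs (rf (nat_lit 7)) (cs (rf (nat_lit 8)) (rf (nat_lit 17)))))))))))) (nd (nat_lit 232) (nat_lit 0) (cs (rf (nat_lit 7)) (cs (rf (nat_lit 8)) (nd (nat_lit 229) (nat_lit 0) (cs (rf (nat_lit 3)) (cs (rf (nat_lit 9)) (rf (nat_lit 18)))))))))))))))) q105922 (by decide +kernel)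
def q106022 : Q := Q.p (nat_lit 0x3000008000000000000000000000000000000000000000000000000000000000) (nat_lit 0xd8000f70003c8000f70003fc0003e0000f80001400000000000000000000000000000000000) (nat_lit 11)
theorem c106022 : QOK q106022 := cut [q82301, q82309, q96505, q105996, q105990, q105999, q106003, q92800, q85049, q87227, q80089, q104180, q105987, q106016, q80728, q93045, q105858, q106018, q98377] ⟨c82301, c82309, c96505, c105996, c105990, c105999, c106003, c92800, c85049, c87227, c80089, c104180, c105987, c106016, c80728, c93045, c105858, c106018, c98377, trivial⟩ (nd (nat_lit 209) (nat_lit 0) (cs (rf (nat_lit 0)) (cs (rf (nat_lit 1)) (cs (nd (nat_lit 232) (nat_lit 0) (cs (rf (nat_lit 2)) (cs (rf (nat_lit 3)) (cs (nd (nat_lit 254) (nat_lit 0) (cs (rf (nat_lit 4)) (cs (rf (nat_lit 5)) (cs (rf (nat_lit 6)) (nd (nat_lit 230) (nat_lit 0) (cs (rf (nat_lit 7)) (cs (nd (nat_lit 274) (nat_lit 0) (cs (lf (nat_lit 30) (nat_lit 208)) (rf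 (nat_lit 8)))) (nd (nat_lit 229) (nat_lit 0) (cs (lf (nat_lit 0) (nat_lit 228)) (nd (nat_lit 274) (nat_lit 0) (cs (lf (nat_lit 30) (nat_lit 208)) (nd (nat_lit 207) (nat_lit 0) (cs (lf (nat_lit 23) (nat_lit 206)) (rf (nat_lit 9))))))))))))))) (cs (nd (nat_lit 254) (nat_lit 0) (cs (rf (nat_lit 10)) (cs (rf (nat_lit 5)) (nd (nat_lit 255) (nat_lit 0) (cs (rf (nat_lit 11)) (rf (nat_lit 12))))))) (rf (nat_lit 13))))))) (nd (nat_lit 254) (nat_lit 0) (cs (rf (nat_lit 14)) (cs (rf (nat_lit 15)) (nd (nat_lit 233) (nat_lit 0) (cs (rf (nat_lit 16)) (cs (rf (nat_lit 17)) (nd (nat_lit 251) (nat_lit 0) (cs (lf (nat_lit 16) (nat_lit 229)) (rf (nat_lit 18)))))))))))))) q106022 (by decide +kernel)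
def q106208 : Q := Q.p (nat_lit 0x3000000000000000000000000000000000000000000000000000000000000000) (nat_lit 0x100001e0000fe000ff8001c8000ff8003fe0007f8000fc0003e00000000000000000000000000000000000) (nat_lit 17)
theorem c106208 : QOK q106208 := cut [q79029, q87163, q87165, q22313, q85714, q79028, q105823, q106098, q6561, q90553, q100795, q93555, q90519, q106107, q106136, q81409, q79118, q96534, q82309, q106003, q106138, q97055, q80232, q105884, q105914, q106147, q106151, q106153, q87128, q87201, q94051, q106156, q106163, q79548, q106115, q80000, q106135, q106170, q106189, q6259, q79066, q94050, q98470, q106207] ⟨c79029, c87163, c87165, c22313, c85714, c79028, c105823, c106098, c6561, c90553, c100795, c93555, c90519, c106107, c106136, c81409, c79118, c96534, c82309, c106003, c106138, c97055, c80232, c105884, c105914, c106147, c106151, c106153, c87128, c87201, c94051, c106156, c106163, c79548, c106115, c80000, c106135, c106170,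 c106189, c6259, c79066, c94050, c98470, c106207, trivial⟩ (nd (nat_lit 230) (nat_lit 0) (cs (nd (nat_lit 208) (nat_lit 0) (cs (rf (nat_lit 0)) (cs (rf (nat_lit 1)) (cs (rf (nat_lit 2)) (nd (nat_lit 274) (nat_lit 0) (cs (rf (nat_lit 3)) (rf (nat_lit 4)))))))) (cs (nd (nat_lit 254) (nat_lit 0) (cs (rf (nat_lit 5)) (cs (rf (nat_lit 6)) (rf (nat_lit 7))))) (cs (nd (nat_lit 208) (nat_lit 0) (cs (rf (nat_lit 8)) (cs (rf (nat_lit 0)) (cs (nd (nat_lit 274) (nat_lit 0) (cs (rf (nat_lit 3)) (cs (nd (nat_lit 207) (nat_lit 0) (cs (lf (nat_lit 47) (nat_lit 185)) (nd (nat_lit 275) (nat_lit 0) (cs (rf (nat_lit 9)) (rf (nat_lit 10)))))) (cs (nd (nat_lit 273) (nat_lit 0) (cs (lf (nat_lit 41) (nat_lit 207)) (nd (nat_lit 271) (nat_lit 0) (cs (lf (nat_lit 13) (nat_lit 249)) (rf (nat_lit 11)))))) (nd (nat_lit 273) (nat_lit 0) (cs (lf (nat_lit 41) (nat_lit 207)) (nd (nat_lit 271) (nat_lit 0) (cs (lf (nat_lit 13) (nat_lit 249)) (rf (nat_lit 12))))))))))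 (rf (nat_lit 13)))))) (cs (rf (nat_lit 14)) (cs (nd (nat_lit 254) (nat_lit 0) (cs (rf (nat_lit 5)) (cs (rf (nat_lit 15)) (cs (nd (nat_lit 232) (nat_lit 0) (cs (rf (nat_lit 16)) (cs (nd (nat_lit 231) (nat_lit 0) (cs (rf (nat_lit 17)) (cs (nd (nat_lit 209) (nat_lit 0x4000000000000000000000000000000000000000000000000000000000) (cs (rf (nat_lit 18)) (rf (nat_lit 19)))) (cs (rf (nat_lit 20)) (nd (nat_lit 229) (nat_lit 0) (cs (lf (nat_lit 0) (nat_lit 228)) (nd (nat_lit 207) (nat_lit 0) (cs (lf (nat_lit 23) (nat_lit 206)) (nd (nat_lit 163) (nat_lit 0) (cs (lf (nat_lit 25) (nat_lit 163)) (nd (nat_lit 274) (nat_lit 0) (cs (lf (nat_lit 42) (nat_lit 207)) (nd (nat_lit 209) (nat_lit 0) (cs (lf (nat_lit 36) (nat_lit 186)) (nd (nat_lit 276) (nat_lit 0) (cs (lf (nat_lit 42) (nat_lit 209)) (nd (nat_lit 251) (nat_lit 0) (cs (lf (nat_lit 5) (nat_lit 251)) (rf (nat_lit 21)))))))))))))))))))) (cs (nd (nat_lit 231) (nat_lit 0) (cs (rf (nat_lit 22))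 (cs (rf (nat_lit 23)) (cs (rf (nat_lit 24)) (rf (nat_lit 25)))))) (rf (nat_lit 26)))))) (rf (nat_lit 27)))))) (cs (nd (nat_lit 208) (nat_lit 0) (cs (rf (nat_lit 0)) (cs (rf (nat_lit 28)) (cs (rf (nat_lit 29)) (cs (nd (nat_lit 274) (nat_lit 0) (cs (rf (nat_lit 4)) (cs (rf (nat_lit 12)) (rf (nat_lit 30))))) (rf (nat_lit 31))))))) (cs (nd (nat_lit 254) (nat_lit 0) (cs (rf (nat_lit 5)) (cs (rf (nat_lit 15)) (cs (rf (nat_lit 27)) (nd (nat_lit 232) (nat_lit 0) (cs (rf (nat_lit 16)) (cs (rf (nat_lit 26)) (cs (rf (nat_lit 32)) (nd (nat_lit 231) (nat_lit 0) (cs (rf (nat_lit 33)) (cs (rf (nat_lit 34)) (nd (nat_lit 233) (nat_lit 0) (cs (lf (nat_lit 6) (nat_lit 230)) (rf (nat_lit 35))))))))))))))) (cs (nd (nat_lit 254) (nat_lit 0) (cs (rf (nat_lit 5)) (cs (rf (nat_lit 15)) (cs (rf (nat_lit 36)) (rf (nat_lit 37)))))) (cs (rf (nat_lit 38)) (cs (nd (nat_lit 208) (nat_lit 0) (cs (rf (nat_lit 39)) (cs (rf (nat_lit 0)) (cs (rf (nat_lit 40)) (cs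 (rf (nat_lit 31)) (nd (nat_lit 274) (nat_lit 0) (cs (rf (nat_lit 3)) (cs (rf (nat_lit 41)) (rf (nat_lit 42)))))))))) (rf (nat_lit 43))))))))))))) q106208 (by decide +kernel)
def q106397 : Q := Q.p (nat_lit 0x7000000000000000000000000000000000000000000000000000000000000000) (nat_lit 0xa0000f80003e0000fc001df80038e000fc0003fe0003e0000f80000000000000000000000000000000000000000) (nat_lit 18)
theorem c106397 : QOK q106397 := cut [q80881, q81837, q106018, q106308, q79239, q103431, q105402, q106330, q106333, q106340, q106344, q79118, q106358, q106364, q106365, q87016, q105549, q106370, q79061, q85712, q79199, q80292, q106376, q11506, q105737, q106377, q106386, q106388, q106391, q106396] ⟨c80881, c81837, c106018, c106308, c79239, c103431, c105402, c106330, c106333, c106340, c106344, c79118, c106358, c106364, c106365, c87016, c105549, c106370, c79061, c85712, c79199, c80292, c106376, c11506, c105737, c106377, c106386, c106388, c106391,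 c106396, trivial⟩ (nd (nat_lit 274) (nat_lit 0) (cs (nd (nat_lit 231) (nat_lit 0) (cs (rf (nat_lit 0)) (cs (rf (nat_lit 1)) (cs (nd (nat_lit 233) (nat_lit 0) (cs (rf (nat_lit 2)) (cs (rf (nat_lit 3)) (nd (nat_lit 230) (nat_lit 0) (cs (nd (nat_lit 232) (nat_lit 0) (cs (lf (nat_lit 12) (nat_lit 229)) (nd (nat_lit 255) (nat_lit 0) (cs (lf (nat_lit 5) (nat_lit 230)) (rf (nat_lit 4)))))) (cs (nd (nat_lit 255) (nat_lit 0) (cs (lf (nat_lit 18) (nat_lit 230)) (rf (nat_lit 5)))) (nd (nat_lit 296) (nat_lit 0) (cs (lf (nat_lit 30) (nat_lit 230)) (nd (nat_lit 297) (nat_lit 0) (cs (lf (nat_lit 29) (nat_lit 230)) (nd (nat_lit 295) (nat_lit 0) (cs (lf (nat_lit 41) (nat_lit 229)) (nd (nat_lit 232) (nat_lit 0) (cs (lf (nat_lit 11) (nat_lit 229)) (nd (nat_lit 211) (nat_lit 0) (cs (lf (nat_lit 17) (nat_lit 208)) (nd (nat_lit 167) (nat_lit 0) (cs (lf (nat_lit 37) (nat_lit 166)) (nd (nat_lit 276) (nat_lit 0) (cs (lf (nat_lit 30) (nat_lit 210)) (nd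 (nat_lit 275) (nat_lit 0) (cs (lf (nat_lit 12) (nat_lit 272)) (lf (nat_lit 36) (nat_lit 209)))))))))))))))))))))))) (nd (nat_lit 275) (nat_lit 0) (cs (rf (nat_lit 6)) (cs (rf (nat_lit 7)) (cs (rf (nat_lit 8)) (cs (rf (nat_lit 9)) (cs (nd (nat_lit 209) (nat_lit 0) (cs (lf (nat_lit 36) (nat_lit 186)) (nd (nat_lit 255) (nat_lit 0) (cs (lf (nat_lit 6) (nat_lit 252)) (nd (nat_lit 276) (nat_lit 0) (cs (lf (nat_lit 29) (nat_lit 209)) (rf (nat_lit 10)))))))) (nd (nat_lit 255) (nat_lit 0) (cs (lf (nat_lit 6) (nat_lit 252)) (nd (nat_lit 233) (nat_lit 0) (cs (lf (nat_lit 17) (nat_lit 230)) (nd (nat_lit 232) (nat_lit 0) (cs (lf (nat_lit 12) (nat_lit 229)) (nd (nat_lit 297) (nat_lit 0) (cs (lf (nat_lit 30) (nat_lit 231)) (nd (nat_lit 298) (nat_lit 0) (cs (lf (nat_lit 29) (nat_lit 231)) (nd (nat_lit 209) (nat_lit 0) (cs (lf (nat_lit 36) (nat_lit 186)) (lf (nat_lit 43) (nat_lit 209)))))))))))))))))))))))) (cs (nd (nat_lit 232) (nat_lit 0)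 (cs (rf (nat_lit 11)) (cs (rf (nat_lit 12)) (cs (nd (nat_lit 231) (nat_lit 0) (cs (rf (nat_lit 0)) (cs (rf (nat_lit 1)) (cs (rf (nat_lit 13)) (cs (rf (nat_lit 14)) (nd (nat_lit 275) (nat_lit 0) (cs (rf (nat_lit 15)) (cs (rf (nat_lit 16)) (rf (nat_lit 17)))))))))) (nd (nat_lit 273) (nat_lit 0) (cs (rf (nat_lit 18)) (cs (rf (nat_lit 19)) (nd (nat_lit 275) (nat_lit 0) (cs (rf (nat_lit 20)) (cs (rf (nat_lit 21)) (cs (rf (nat_lit 22)) (nd (nat_lit 296) (nat_lit 0) (cs (rf (nat_lit 23)) (cs (rf (nat_lit 24)) (rf (nat_lit 25)))))))))))))))) (cs (rf (nat_lit 26)) (cs (rf (nat_lit 27)) (cs (rf (nat_lit 28)) (rf (nat_lit 29)))))))) q106397 (by decide +kernel)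
def q106550 : Q := Q.p (nat_lit 0x3000000000000000000000000000000000000000000000000000000000000000) (nat_lit 0x300000c00007e0001f8000fe0007fe001cf000efe0007f0001f00007c0000f00000000000000000000000000000000000) (nat_lit 16)
theorem c106550 : QOK q106550 := cut [q105202, q105851, q106414, q106418, q106425, q106506, q2066, q2091, q106514, q106480, q106526, q6561, q79029, q22295, q106528, q106532, q106548, q106549] ⟨c105202, c105851, c106414, c106418, c106425, c106506, c2066, c2091, c106514, c106480, c106526, c6561, c79029, c22295, c106528, c106532, c106548, c106549, trivial⟩ (nd (nat_lit 251) (nat_lit 0) (cs (rf (nat_lit 0)) (cs (rf (nat_lit 1)) (cs (rf (nat_lit 2)) (cs (rf (nat_lit 3)) (cs (rf (nat_lit 4)) (cs (rf (nat_lit 5)) (cs (nd (nat_lit 275) (nat_lit 0) (cs (rf (nat_lit 6)) (cs (rf (nat_lit 7)) (cs (rf (nat_lit 8)) (nd (nat_lit 230) (nat_lit 0) (cs (rf (nat_lit 9)) (cs (nd (nat_lit 297) (nat_lit 0) (cs (lf (nat_lit 42)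 (nat_lit 230)) (rf (nat_lit 10)))) (nd (nat_lit 208) (nat_lit 0) (cs (rf (nat_lit 11)) (cs (rf (nat_lit 12)) (nd (nat_lit 274) (nat_lit 0) (cs (rf (nat_lit 13)) (cs (nd (nat_lit 295) (nat_lit 0) (cs (lf (nat_lit 40) (nat_lit 207)) (nd (nat_lit 249) (nat_lit 0) (cs (lf (nat_lit 1) (nat_lit 249)) (rf (nat_lit 14)))))) (nd (nat_lit 249) (nat_lit 0) (cs (lf (nat_lit 1) (nat_lit 249)) (nd (nat_lit 207) (nat_lit 0) (cs (lf (nat_lit 47) (nat_lit 185)) (nd (nat_lit 187) (nat_lit 0) (cs (lf (nat_lit 34) (nat_lit 186)) (rf (nat_lit 15))))))))))))))))))))) (cs (rf (nat_lit 16)) (rf (nat_lit 17))))))))))) q106550 (by decide +kernel)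
def q106624 : Q := Q.p (nat_lit 0x3800002000000000000000000000000000000000000000000000000000000000) (nat_lit 0x100000700003c0000fc000000000d8000fe0003f00003c0000500000000000000000000000000000000000) (nat_lit 12)
theorem c106624 : QOK q106624 := cut [q5482, q11484, q80450, q82226, q11856, q82211, q106622] ⟨c5482, c11484, c80450, c82226, c11856, c82211, c106622, trivial⟩ (nd (nat_lit 207) (nat_lit 0) (cs (rf (nat_lit 0)) (cs (rf (nat_lit 1)) (cs (rf (nat_lit 2)) (cs (rf (nat_lit 3)) (nd (nat_lit 273) (nat_lit 0) (cs (rf (nat_lit 4)) (cs (rf (nat_lit 5)) (rf (nat_lit 6)))))))))) q106624 (by decide +kernel)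
def q106742 : Q := Q.p (nat_lit 0x3000000000000000000000000000000000000000000000000000000000000000) (nat_lit 0x500001e0001fc0007fc0004e0007fc001fe0003f8000fc0001d00000000000000000000000000000000000) (nat_lit 14)
theorem c106742 : QOK q106742 := cut [q106035, q82301, q88751, q88775, q106691, q106692, q82275, q96402, q106034, q82274, q82277, q82198, q91146, q101059, q5482, q11484, q88878, q82300, q82309, q91882, q105170, q106705, q88764, q2624, q88872, q88847, q88862, q88865, q106710, q88869, q106030, q90440, q106727, q106675, q88930, q106060, q83666, q91409, q106730, q88739, q105545, q80881, q106738] ⟨c106035, c82301, c88751, c88775, c106691, c106692, c82275, c96402, c106034, c82274, c82277, c82198, c91146, c101059, c5482, c11484, c88878, c82300, c82309, c91882, c105170, c106705, c88764, c2624, c88872, c88847, c88862, c88865, c106710, c88869, c106030, c90440, c106727, c106675, c88930, c106060, c83666, c91409, c106730, c88739,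 c105545, c80881, c106738, trivial⟩ (nd (nat_lit 231) (nat_lit 0) (cs (rf (nat_lit 0)) (cs (nd (nat_lit 209) (nat_lit 0) (cs (rf (nat_lit 1)) (cs (rf (nat_lit 2)) (cs (rf (nat_lit 3)) (cs (rf (nat_lit 4)) (rf (nat_lit 5))))))) (cs (nd (nat_lit 251) (nat_lit 0) (cs (rf (nat_lit 6)) (cs (rf (nat_lit 7)) (cs (rf (nat_lit 8)) (nd (nat_lit 232) (nat_lit 0) (cs (rf (nat_lit 9)) (cs (rf (nat_lit 10)) (nd (nat_lit 229) (nat_lit 0) (cs (rf (nat_lit 11)) (cs (rf (nat_lit 12)) (cs (nd (nat_lit 254) (nat_lit 0) (cs (lf (nat_lit 23) (nat_lit 228)) (rf (nat_lit 13)))) (nd (nat_lit 207) (nat_lit 0) (cs (rf (nat_lit 14)) (cs (rf (nat_lit 15)) (rf (nat_lit 16)))))))))))))))) (cs (nd (nat_lit 209) (nat_lit 0) (cs (rf (nat_lit 17)) (cs (rf (nat_lit 18)) (cs (rf (nat_lit 5)) (nd (nat_lit 275) (nat_lit 0) (cs (rf (nat_lit 19)) (cs (rf (nat_lit 20)) (cs (rf (nat_lit 21)) (nd (nat_lit 276) (nat_lit 0) (cs (lf (nat_lit 29) (nat_lit 209)) (nd (nat_lit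 277) (nat_lit 0) (cs (lf (nat_lit 18) (nat_lit 252)) (rf (nat_lit 22)))))))))))))) (cs (nd (nat_lit 251) (nat_lit 0) (cs (rf (nat_lit 23)) (cs (rf (nat_lit 6)) (cs (rf (nat_lit 8)) (nd (nat_lit 229) (nat_lit 0) (cs (rf (nat_lit 11)) (cs (rf (nat_lit 24)) (cs (nd (nat_lit 230) (nat_lit 0) (cs (rf (nat_lit 25)) (cs (rf (nat_lit 26)) (cs (rf (nat_lit 27)) (rf (nat_lit 28)))))) (nd (nat_lit 230) (nat_lit 0) (cs (rf (nat_lit 25)) (cs (rf (nat_lit 29)) (cs (rf (nat_lit 30)) (nd (nat_lit 227) (nat_lit 0) (cs (lf (nat_lit 1) (nat_lit 227)) (nd (nat_lit 232) (nat_lit 0) (cs (lf (nat_lit 6) (nat_lit 229)) (rf (nat_lit 31)))))))))))))))))) (cs (rf (nat_lit 32)) (cs (nd (nat_lit 251) (nat_lit 0) (cs (rf (nat_lit 23)) (cs (rf (nat_lit 6)) (cs (rf (nat_lit 8)) (rf (nat_lit 33)))))) (cs (nd (nat_lit 209) (nat_lit 0) (cs (rf (nat_lit 17)) (cs (rf (nat_lit 18)) (cs (rf (nat_lit 34)) (rf (nat_lit 4)))))) (cs (nd (nat_lit 251) (nat_lit 0) (cs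 (rf (nat_lit 6)) (cs (rf (nat_lit 7)) (cs (rf (nat_lit 8)) (nd (nat_lit 229) (nat_lit 0) (cs (rf (nat_lit 11)) (cs (rf (nat_lit 24)) (cs (rf (nat_lit 35)) (nd (nat_lit 232) (nat_lit 0) (cs (rf (nat_lit 9)) (cs (rf (nat_lit 10)) (nd (nat_lit 274) (nat_lit 0) (cs (rf (nat_lit 36)) (cs (rf (nat_lit 37)) (rf (nat_lit 38)))))))))))))))) (cs (nd (nat_lit 209) (nat_lit 0) (cs (rf (nat_lit 17)) (cs (rf (nat_lit 18)) (cs (rf (nat_lit 5)) (nd (nat_lit 275) (nat_lit 0) (cs (rf (nat_lit 39)) (cs (rf (nat_lit 20)) (rf (nat_lit 40))))))))) (nd (nat_lit 251) (nat_lit 0) (cs (rf (nat_lit 6)) (cs (rf (nat_lit 7)) (nd (nat_lit 274) (nat_lit 0) (cs (rf (nat_lit 41)) (cs (rf (nat_lit 42)) (nd (nat_lit 229) (nat_lit 0) (cs (rf (nat_lit 11)) (rf (nat_lit 36))))))))))))))))))))) q106742 (by decide +kernel)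
def q106746 : Q := Q.p (nat_lit 0x3800000000000000000000000000000000000000000000000000000000000000) (nat_lit 0x300000c0000700001e0000fc0003fc000060007e0000700001c0000500000000000000000000000000000000000000000) (nat_lit 10)
theorem c106746 : QOK q106746 := cut [q1999, q24207, q106514, q82275, q106743, q106744] ⟨c1999, c24207, c106514, c82275, c106743, c106744, trivial⟩ (nd (nat_lit 275) (nat_lit 0) (cs (rf (nat_lit 0)) (cs (rf (nat_lit 1)) (cs (rf (nat_lit 2)) (nd (nat_lit 231) (nat_lit 0) (cs (rf (nat_lit 3)) (cs (rf (nat_lit 4)) (rf (nat_lit 5))))))))) q106746 (by decide +kernel)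
def q106882 : Q := Q.p (nat_lit 0x3000000000000000000000000000000000000000000000000000000000000000) (nat_lit 0xa0000780003f0000fe000fee003cf001ffe000ff0003f0000fc0001500000000000000000000000000000000000) (nat_lit 17)
theorem c106882 : QOK q106882 := cut [q105772, q106506, q106665, q106812, q82275, q96402, q105168, q2091, q106744, q106820, q79024, q79260, q105771, q81085, q105203, q105827, q82198, q106836, q5482, q11484, q80450, q82226, q1832, q92647, q92654, q105124, q106844, q90351, q106852, q83666, q91583, q105153, q106427, q88833, q102227, q106860, q106863, q80649, q81014, q105737, q106876, q81675, q81752, q79256, q105190] ⟨c105772, c106506, c106665, c106812, c82275, c96402, c105168, c2091, c106744, c106820, c79024, c79260, c105771, c81085, c105203, c105827, c82198, c106836, c5482, c11484, c80450, c82226, c1832, c92647, c92654, c105124, c106844, c90351, c106852, c83666, c91583, c105153, c106427, c88833, c102227, c106860,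 c106863, c80649, c81014, c105737, c106876, c81675, c81752, c79256, c105190, trivial⟩ (nd (nat_lit 251) (nat_lit 0) (cs (rf (nat_lit 0)) (cs (rf (nat_lit 1)) (cs (rf (nat_lit 2)) (cs (rf (nat_lit 3)) (cs (nd (nat_lit 231) (nat_lit 0) (cs (rf (nat_lit 4)) (cs (rf (nat_lit 5)) (cs (rf (nat_lit 6)) (nd (nat_lit 275) (nat_lit 0) (cs (rf (nat_lit 7)) (cs (rf (nat_lit 8)) (rf (nat_lit 9))))))))) (cs (nd (nat_lit 254) (nat_lit 0) (cs (rf (nat_lit 10)) (cs (rf (nat_lit 11)) (rf (nat_lit 12))))) (cs (nd (nat_lit 254) (nat_lit 0) (cs (rf (nat_lit 13)) (cs (rf (nat_lit 14)) (rf (nat_lit 15))))) (cs (nd (nat_lit 229) (nat_lit 0) (cs (rf (nat_lit 16)) (cs (rf (nat_lit 17)) (cs (nd (nat_lit 207) (nat_lit 0) (cs (rf (nat_lit 18)) (cs (rf (nat_lit 19)) (cs (rf (nat_lit 20)) (cs (rf (nat_lit 21)) (nd (nat_lit 208) (nat_lit 0) (cs (rf (nat_lit 22)) (cs (rf (nat_lit 23)) (cs (nd (nat_lit 230) (nat_lit 0) (cs (rf (nat_lit 24)) (cs (nd (nat_lit 274)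 (nat_lit 0) (cs (lf (nat_lit 42) (nat_lit 207)) (nd (nat_lit 273) (nat_lit 0) (cs (lf (nat_lit 41) (nat_lit 207)) (rf (nat_lit 25)))))) (rf (nat_lit 26))))) (nd (nat_lit 230) (nat_lit 0) (cs (rf (nat_lit 27)) (cs (rf (nat_lit 26)) (rf (nat_lit 28)))))))))))))) (nd (nat_lit 274) (nat_lit 0) (cs (rf (nat_lit 29)) (cs (rf (nat_lit 30)) (cs (nd (nat_lit 207) (nat_lit 0) (cs (rf (nat_lit 18)) (cs (rf (nat_lit 19)) (nd (nat_lit 254) (nat_lit 0) (cs (rf (nat_lit 31)) (cs (rf (nat_lit 12)) (cs (rf (nat_lit 32)) (nd (nat_lit 231) (nat_lit 0) (cs (rf (nat_lit 33)) (cs (rf (nat_lit 34)) (cs (rf (nat_lit 35)) (rf (nat_lit 36))))))))))))) (nd (nat_lit 296) (nat_lit 0) (cs (rf (nat_lit 37)) (cs (rf (nat_lit 38)) (cs (rf (nat_lit 39)) (rf (nat_lit 40)))))))))))))) (cs (nd (nat_lit 254) (nat_lit 0) (cs (rf (nat_lit 11)) (cs (rf (nat_lit 41)) (rf (nat_lit 42))))) (nd (nat_lit 254) (nat_lit 0) (cs (rf (nat_lit 43)) (cs (rf (nat_lit 44)) (rf (nat_lit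 15))))))))))))))) q106882 (by decide +kernel)
def q107024 : Q := Q.p (nat_lit 0xe00002000008000000000000000000000000000000000000000000000000000000000) (nat_lit 0x40001de0007180001f00016000008000020000000000000000000000000000000000000000000000) (nat_lit 9)
theorem c107024 : QOK q107024 := cut [q22115, q22204, q22214, q97944, q107023] ⟨c22115, c22204, c22214, c97944, c107023, trivial⟩ (nd (nat_lit 250) (nat_lit 0) (cs (rf (nat_lit 0)) (cs (rf (nat_lit 1)) (cs (rf (nat_lit 2)) (cs (rf (nat_lit 3)) (rf (nat_lit 4))))))) q107024 (by decide +kernel)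
def q107114 : Q := Q.p (nat_lit 0x3000008000000000000000000000000000000000000000000000000000000000) (nat_lit 0x1e0001fe0007f8001cf0006780001f0001f80007e0000280000000000000000000000000000000000) (nat_lit 15)
theorem c107114 : QOK q107114 := cut [q96355, q107085, q100925, q100927, q87928, q96769, q100922, q102009, q105925, q105930, q107098, q100963, q101003, q101005, q101015, q97957, q100973, q100978, q100938, q79996, q84438, q57679, q92723, q96758, q101025, q85470, q1312] ⟨c96355, c107085, c100925, c100927, c87928, c96769, c100922, c102009, c105925, c105930, c107098, c100963, c101003, c101005, c101015, c97957, c100973, c100978, c100938, c79996, c84438, c57679, c92723, c96758, c101025, c85470, c1312, trivial⟩ (nd (nat_lit 230) (nat_lit 0) (cs (rf (nat_lit 0)) (cs (rf (nat_lit 1)) (cs (nd (nat_lit 251) (nat_lit 0) (cs (rf (nat_lit 2)) (cs (rf (nat_lit 3)) (nd (nat_lit 229) (nat_lit 0) (cs (rf (nat_lit 4)) (cs (rf (nat_lit 5)) (rf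 (nat_lit 6)))))))) (cs (nd (nat_lit 254) (nat_lit 0) (cs (rf (nat_lit 7)) (cs (rf (nat_lit 8)) (rf (nat_lit 9))))) (cs (rf (nat_lit 10)) (cs (nd (nat_lit 250) (nat_lit 0) (cs (rf (nat_lit 11)) (cs (rf (nat_lit 12)) (cs (rf (nat_lit 13)) (cs (rf (nat_lit 14)) (cs (nd (nat_lit 275) (nat_lit 0) (cs (rf (nat_lit 15)) (cs (rf (nat_lit 16)) (rf (nat_lit 17))))) (nd (nat_lit 251) (nat_lit 0) (cs (lf (nat_lit 12) (nat_lit 227)) (nd (nat_lit 271) (nat_lit 0) (cs (lf (nat_lit 10) (nat_lit 249)) (nd (nat_lit 228) (nat_lit 0) (cs (lf (nat_lit 23) (nat_lit 227)) (nd (nat_lit 229) (nat_lit 0) (cs (lf (nat_lit 18) (nat_lit 228)) (rf (nat_lit 18)))))))))))))))) (nd (nat_lit 208) (nat_lit 0) (cs (rf (nat_lit 19)) (cs (rf (nat_lit 20)) (nd (nat_lit 274) (nat_lit 0) (cs (rf (nat_lit 21)) (cs (rf (nat_lit 22)) (nd (nat_lit 229) (nat_lit 0) (cs (rf (nat_lit 23)) (cs (rf (nat_lit 5)) (cs (rf (nat_lit 24)) (nd (nat_lit 275) (nat_lit 0) (cs (rf (nat_lit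 25)) (nd (nat_lit 185) (nat_lit 0) (cs (lf (nat_lit 46) (nat_lit 185)) (nd (nat_lit 228) (nat_lit 0) (cs (lf (nat_lit 0) (nat_lit 227)) (nd (nat_lit 273) (nat_lit 0) (cs (lf (nat_lit 41) (nat_lit 207)) (nd (nat_lit 205) (nat_lit 0) (cs (lf (nat_lit 22) (nat_lit 205)) (nd (nat_lit 250) (nat_lit 0) (cs (lf (nat_lit 11) (nat_lit 227)) (rf (nat_lit 26))))))))))))))))))))))))))))))) q107114 (by decide +kernel)
def q107138 : Q := Q.p (nat_lit 0x3000008000000000000000000000000000000000000000000000000000000000) (nat_lit 0x3e0000f8000ff0001c8000770001dc0007e0001f80000000000000000000000000000000000000000) (nat_lit 12)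
theorem c107138 : QOK q107138 := cut [q96505, q96512, q80089, q96514, q81028, q81878, q80976, q79307, q96534, q107130, q88781, q106114, q79601, q80216, q96355, q94098, q96303] ⟨c96505, c96512, c80089, c96514, c81028, c81878, c80976, c79307, c96534, c107130, c88781, c106114, c79601, c80216, c96355, c94098, c96303, trivial⟩ (nd (nat_lit 232) (nat_lit 0) (cs (rf (nat_lit 0)) (cs (rf (nat_lit 1)) (cs (nd (nat_lit 254) (nat_lit 0) (cs (rf (nat_lit 2)) (cs (rf (nat_lit 3)) (nd (nat_lit 255) (nat_lit 0) (cs (rf (nat_lit 4)) (cs (nd (nat_lit 233) (nat_lit 0) (cs (lf (nat_lit 6) (nat_lit 230)) (nd (nat_lit 274) (nat_lit 0) (cs (lf (nat_lit 11) (nat_lit 251)) (nd (nat_lit 296) (nat_lit 0) (cs (lf (nat_lit 30) (nat_lit 230)) (nd (nat_lit 275) (nat_lit 0) (cs (lf (nat_lit 6) (nat_lit 252)) (rf (nat_lit 5)))))))))) (nd (nat_lit 273) (nat_lit 0) (cs (lf (nat_lit 10) (nat_lit 251)) (nd (nat_lit 233) (nat_lit 0) (cs (lf (nat_lit 17) (nat_lit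 230)) (rf (nat_lit 6)))))))))))) (cs (nd (nat_lit 254) (nat_lit 0) (cs (nd (nat_lit 230) (nat_lit 0) (cs (rf (nat_lit 7)) (cs (rf (nat_lit 8)) (rf (nat_lit 9))))) (cs (nd (nat_lit 276) (nat_lit 0) (cs (rf (nat_lit 10)) (cs (rf (nat_lit 11)) (nd (nat_lit 277) (nat_lit 0) (cs (lf (nat_lit 0) (nat_lit 251)) (nd (nat_lit 210) (nat_lit 0) (cs (lf (nat_lit 29) (nat_lit 210)) (rf (nat_lit 12))))))))) (nd (nat_lit 230) (nat_lit 0) (cs (rf (nat_lit 7)) (cs (rf (nat_lit 13)) (rf (nat_lit 14)))))))) (nd (nat_lit 230) (nat_lit 0) (cs (rf (nat_lit 15)) (cs (rf (nat_lit 16)) (rf (nat_lit 14)))))))))) q107138 (by decide +kernel)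
def q107155 : Q := Q.p (nat_lit 0x3000008000000000000000000000000000000000000000000000000000000000) (nat_lit 0x1c00017c000fe0003f8000ce00017c0001e000070000140000000000000000000000000000000000000000) (nat_lit 12)
theorem c107155 : QOK q107155 := cut [q96402, q96502, q96582, q101171, q101192, q101181, q107153] ⟨c96402, c96502, c96582, c101171, c101192, c101181, c107153, trivial⟩ (nd (nat_lit 251) (nat_lit 0) (cs (rf (nat_lit 0)) (cs (rf (nat_lit 1)) (cs (rf (nat_lit 2)) (nd (nat_lit 273) (nat_lit 0) (cs (rf (nat_lit 3)) (cs (rf (nat_lit 4)) (cs (nd (nat_lit 254) (nat_lit 0) (cs (lf (nat_lit 11) (nat_lit 250)) (nd (nat_lit 276) (nat_lit 0) (cs (lf (nat_lit 5) (nat_lit 251)) (nd (nat_lit 274) (nat_lit 0) (cs (lf (nat_lit 6) (nat_lit 251)) (nd (nat_lit 296) (nat_lit 0) (cs (lf (nat_lit 30) (nat_lit 230)) (rf (nat_lit 5)))))))))) (rf (nat_lit 6)))))))))) q107155 (by decide +kernel)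
def q107175 : Q := Q.p (nat_lit 0x3000008000000000000000000000000000000000000000000000000000000000) (nat_lit 0x1c0003f0000fc0003fc0004e00077c001dc000370000dc0000000000000000000000000000000000000000) (nat_lit 15)
theorem c107175 : QOK q107175 := cut [q82275, q82278, q88808, q88302, q107153, q86851, q107158, q107173] ⟨c82275, c82278, c88808, c88302, c107153, c86851, c107158, c107173, trivial⟩ (nd (nat_lit 251) (nat_lit 0) (cs (rf (nat_lit 0)) (cs (rf (nat_lit 1)) (cs (rf (nat_lit 2)) (nd (nat_lit 273) (nat_lit 0) (cs (rf (nat_lit 3)) (cs (rf (nat_lit 4)) (cs (nd (nat_lit 295) (nat_lit 0) (cs (rf (nat_lit 5)) (cs (nd (nat_lit 254) (nat_lit 0) (cs (lf (nat_lit 11) (nat_lit 250)) (nd (nat_lit 232) (nat_lit 0) (cs (lf (nat_lit 17) (nat_lit 229)) (nd (nat_lit 276) (nat_lit 0) (cs (lf (nat_lit 5) (nat_lit 251)) (nd (nat_lit 298) (nat_lit 0) (cs (lf (nat_lit 42) (nat_lit 231)) (nd (nat_lit 230) (nat_lit 0) (cs (lf (nat_lit 30) (nat_lit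 229)) (nd (nat_lit 186) (nat_lit 0) (cs (lf (nat_lit 37) (nat_lit 185)) (rf (nat_lit 6)))))))))))))) (nd (nat_lit 254) (nat_lit 0) (cs (lf (nat_lit 11) (nat_lit 250)) (nd (nat_lit 232) (nat_lit 0) (cs (lf (nat_lit 17) (nat_lit 229)) (nd (nat_lit 276) (nat_lit 0) (cs (lf (nat_lit 5) (nat_lit 251)) (nd (nat_lit 298) (nat_lit 0) (cs (lf (nat_lit 42) (nat_lit 231)) (nd (nat_lit 228) (nat_lit 0) (cs (lf (nat_lit 22) (nat_lit 228)) (rf (nat_lit 6))))))))))))))) (rf (nat_lit 7)))))))))) q107175 (by decide +kernel)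
def q107224 : Q := Q.p (nat_lit 0x200000c000000000000000000000000000000000000000000000000000000000) (nat_lit 0x3e0000f8000778001de000718001fe0007e0000f80000000000000000000000000000000000000000) (nat_lit 13)
theorem c107224 : QOK q107224 := cut [q82275, q96778, q79020, q105829, q107130, q107199, q107202, q79097, q85044, q105885, q107205, q81382, q96796, q96797, q96798, q94096, q104284, q84483, q107212, q107222] ⟨c82275, c96778, c79020, c105829, c107130, c107199, c107202, c79097, c85044, c105885, c107205, c81382, c96796, c96797, c96798, c94096, c104284, c84483, c107212, c107222, trivial⟩ (nd (nat_lit 252) (nat_lit 0) (cs (nd (nat_lit 251) (nat_lit 0) (cs (rf (nat_lit 0)) (cs (rf (nat_lit 1)) (nd (nat_lit 254) (nat_lit 0) (cs (rf (nat_lit 2)) (cs (rf (nat_lit 3)) (cs (rf (nat_lit 4)) (nd (nat_lit 276) (nat_lit 0) (cs (lf (nat_lit 5) (nat_lit 251)) (nd (nat_lit 298) (nat_lit 0) (cs (lf (nat_lit 42) (nat_lit 231)) (nd (nat_lit 232)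 (nat_lit 0) (cs (lf (nat_lit 17) (nat_lit 229)) (nd (nat_lit 297) (nat_lit 0) (cs (lf (nat_lit 41) (nat_lit 231)) (nd (nat_lit 273) (nat_lit 0) (cs (lf (nat_lit 11) (nat_lit 250)) (nd (nat_lit 186) (nat_lit 0) (cs (lf (nat_lit 37) (nat_lit 185)) (nd (nat_lit 317) (nat_lit 0) (cs (lf (nat_lit 31) (nat_lit 229)) (nd (nat_lit 299) (nat_lit 0) (cs (lf (nat_lit 29) (nat_lit 232)) (nd (nat_lit 296) (nat_lit 0) (cs (lf (nat_lit 22) (nat_lit 273)) (lf (nat_lit 10) (nat_lit 295))))))))))))))))))))))))))) (cs (rf (nat_lit 5)) (cs (rf (nat_lit 6)) (cs (nd (nat_lit 274) (nat_lit 0) (cs (rf (nat_lit 7)) (cs (rf (nat_lit 8)) (rf (nat_lit 9))))) (cs (rf (nat_lit 10)) (nd (nat_lit 254) (nat_lit 0) (cs (rf (nat_lit 11)) (cs (rf (nat_lit 12)) (cs (rf (nat_lit 13)) (cs (rf (nat_lit 14)) (cs (nd (nat_lit 232) (nat_lit 0) (cs (rf (nat_lit 15)) (cs (rf (nat_lit 16)) (cs (nd (nat_lit 233) (nat_lit 0) (cs (lf (nat_lit 6) (nat_lit 230)) (nd (nat_lit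 211) (nat_lit 0) (cs (lf (nat_lit 17) (nat_lit 208)) (nd (nat_lit 167) (nat_lit 0) (cs (lf (nat_lit 37) (nat_lit 166)) (nd (nat_lit 207) (nat_lit 0) (cs (lf (nat_lit 22) (nat_lit 207)) (nd (nat_lit 255) (nat_lit 0) (cs (lf (nat_lit 18) (nat_lit 230)) (rf (nat_lit 17)))))))))))) (nd (nat_lit 255) (nat_lit 0) (cs (lf (nat_lit 18) (nat_lit 230)) (nd (nat_lit 277) (nat_lit 0) (cs (lf (nat_lit 5) (nat_lit 252)) (nd (nat_lit 299) (nat_lit 0) (cs (lf (nat_lit 42) (nat_lit 232)) (nd (nat_lit 233) (nat_lit 0) (cs (lf (nat_lit 17) (nat_lit 230)) (rf (nat_lit 18)))))))))))))) (rf (nat_lit 19)))))))))))))) q107224 (by decide +kernel)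
def q107226 : Q := Q.p (nat_lit 0x200000e000000000000000000000000000000000000000000000000000000000) (nat_lit 0x300000c0000320000cc000300000fc0003c0000f00000000000000000000000000000000000000000) (nat_lit 10)
theorem c107226 : QOK q107226 := cut [q80199, q107225] ⟨c80199, c107225, trivial⟩ (nd (nat_lit 232) (nat_lit 0) (cs (rf (nat_lit 0)) (rf (nat_lit 1)))) q107226 (by decide +kernel)
def q107275 : Q := Q.p (nat_lit 0x200000c000000000000000000000000000000000000000000000000000000000) (nat_lit 0x3e0000f8000778001dc000f20003fe0003e0000f00000000000000000000000000000000000000000) (nat_lit 10)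
theorem c107275 : QOK q107275 := cut [q96990, q96993, q96994, q96999, q7963, q101299, q87131, q94096, q96772, q12221, q101295, q97009, q107258, q93190, q86774, q96798, q107130] ⟨c96990, c96993, c96994, c96999, c7963, c101299, c87131, c94096, c96772, c12221, c101295, c97009, c107258, c93190, c86774, c96798, c107130, trivial⟩ (nd (nat_lit 254) (nat_lit 0) (cs (rf (nat_lit 0)) (cs (rf (nat_lit 1)) (cs (nd (nat_lit 232) (nat_lit 0) (cs (rf (nat_lit 2)) (cs (rf (nat_lit 3)) (nd (nat_lit 210) (nat_lit 0) (cs (rf (nat_lit 4)) (rf (nat_lit 5))))))) (cs (nd (nat_lit 232) (nat_lit 0) (cs (nd (nat_lit 252) (nat_lit 0) (cs (rf (nat_lit 6)) (cs (rf (nat_lit 7)) (nd (nat_lit 251) (nat_lit 0) (cs (lf (nat_lit 12) (nat_lit 228)) (rf (nat_lit 8))))))) (cs (nd (nat_lit 210) (nat_lit 0) (cs (rf (nat_lit 9)) (cs (rf (nat_lit 5)) (nd (nat_lit 211) (nat_lit 0) (cs (lf (nat_lit 12) (nat_lit 207)) (nd (nat_lit 212) (nat_lit 0) (cs (lf (nat_lit 6) (nat_lit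 209)) (nd (nat_lit 276) (nat_lit 0) (cs (lf (nat_lit 35) (nat_lit 188)) (rf (nat_lit 10))))))))))) (cs (nd (nat_lit 252) (nat_lit 0) (cs (rf (nat_lit 6)) (cs (rf (nat_lit 11)) (rf (nat_lit 12))))) (nd (nat_lit 252) (nat_lit 0) (cs (rf (nat_lit 11)) (nd (nat_lit 233) (nat_lit 0) (cs (lf (nat_lit 6) (nat_lit 230)) (nd (nat_lit 211) (nat_lit 0) (cs (lf (nat_lit 17) (nat_lit 208)) (nd (nat_lit 210) (nat_lit 0) (cs (lf (nat_lit 12) (nat_lit 207)) (rf (nat_lit 13)))))))))))))) (nd (nat_lit 252) (nat_lit 0) (cs (rf (nat_lit 14)) (cs (rf (nat_lit 15)) (rf (nat_lit 16)))))))))) q107275 (by decide +kernel)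
def q107280 : Q := Q.p (nat_lit 0x200000e000000000000000000000000000000000000000000000000000000000) (nat_lit 0x300000c0000300000d0000f00007fc000380000e00000000000000000000000000000000000000000) (nat_lit 10)
theorem c107280 : QOK q107280 := cut [q97014, q107225, q101442] ⟨c97014, c107225, c101442, trivial⟩ (nd (nat_lit 232) (nat_lit 0) (cs (rf (nat_lit 0)) (cs (rf (nat_lit 1)) (nd (nat_lit 210) (nat_lit 0) (cs (lf (nat_lit 17) (nat_lit 207)) (nd (nat_lit 166) (nat_lit 0) (cs (lf (nat_lit 37) (nat_lit 165)) (nd (nat_lit 207) (nat_lit 0) (cs (lf (nat_lit 23) (nat_lit 206)) (nd (nat_lit 233) (nat_lit 0) (cs (lf (nat_lit 22) (nat_lit 207)) (rf (nat_lit 2))))))))))))) q107280 (by decide +kernel)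
def q107282 : Q := Q.p (nat_lit 0x200000e000000000000000000000000000000000000000000000000000000000) (nat_lit 0x300000c0000300000dc000300001e0000380000e00000000000000000000000000000000000000000) (nat_lit 10)
theorem c107282 : QOK q107282 := cut [q96971, q98323, q107225] ⟨c96971, c98323, c107225, trivial⟩ (nd (nat_lit 232) (nat_lit 0) (cs (rf (nat_lit 0)) (cs (rf (nat_lit 1)) (rf (nat_lit 2))))) q107282 (by decide +kernel)
def q107352 : Q := Q.p (nat_lit 0x800002000008000000000000000000000000000000000000000000000000000000000) (nat_lit 0x50000ff8001fc000778000c000017000050000000000000000000000000000000000000000000000000000) (nat_lit 11)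
theorem c107352 : QOK q107352 := cut [q84365, q107039, q107351] ⟨c84365, c107039, c107351, trivial⟩ (nd (nat_lit 297) (nat_lit 0) (cs (rf (nat_lit 0)) (cs (rf (nat_lit 1)) (rf (nat_lit 2))))) q107352 (by decide +kernel)
def q107385 : Q := Q.p (nat_lit 0x800002000008000000000000000000000000000000000000000000000000000000000) (nat_lit 0x50000ff8001fc0007780001000014000050000000000000000000000000000000000000000000000000000) (nat_lit 11)
theorem c107385 : QOK q107385 := cut [q84365, q99300, q101582, q107351] ⟨c84365, c99300, c101582, c107351, trivial⟩ (nd (nat_lit 297) (nat_lit 0) (cs (rf (nat_lit 0)) (cs (rf (nat_lit 1)) (cs (rf (nat_lit 2)) (rf (nat_lit 3)))))) q107385 (by decide +kernel)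
def q107389 : Q := Q.p (nat_lit 0x800002000008000020000000000000000000000000000000000000000000000000000) (nat_lit 0x5000014000090001f78003dc000f78001000004000000000000000000000000000000000000) (nat_lit 11)
theorem c107389 : QOK q107389 := cut [q80837, q86947, q99308, q107387] ⟨c80837, c86947, c99308, c107387, trivial⟩ (nd (nat_lit 210) (nat_lit 0) (cs (lf (nat_lit 35) (nat_lit 187)) (nd (nat_lit 211) (nat_lit 0) (cs (rf (nat_lit 0)) (cs (rf (nat_lit 1)) (cs (rf (nat_lit 2)) (rf (nat_lit 3)))))))) q107389 (by decide +kernel)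
def q107424 : Q := Q.p (nat_lit 0xc00002000018000000000000000000000000000000000000000000000000000000000) (nat_lit 0x10000140001de000738001df00000000000000000000000000000000000000000000000000000000000000) (nat_lit 10)
theorem c107424 : QOK q107424 := cut [q97408, q97409, q107020, q22115, q22198, q22214, q107023] ⟨c97408, c97409, c107020, c22115, c22198, c22214, c107023, trivial⟩ (nd (nat_lit 273) (nat_lit 0) (cs (rf (nat_lit 0)) (cs (rf (nat_lit 1)) (cs (rf (nat_lit 2)) (nd (nat_lit 250) (nat_lit 0) (cs (rf (nat_lit 3)) (cs (rf (nat_lit 4)) (cs (rf (nat_lit 5)) (rf (nat_lit 6)))))))))) q107424 (by decide +kernel)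
def q107660 : Q := Q.p (nat_lit 0x6000008000000000000000000000000000000000000000000000000000000000) (nat_lit 0xd8000ff000018000f7e003ff0007fe000700001400000000000000000000000000000000000) (nat_lit 15)
theorem c107660 : QOK q107660 := cut [q80708, q107347, q107403, q1563, q119, q98238, q98240, q186, q79959, q107656, q10753, q79283, q107657] ⟨c80708, c107347, c107403, c1563, c119, c98238, c98240, c186, c79959, c107656, c10753, c79283, c107657, trivial⟩ (nd (nat_lit 209) (nat_lit 0) (cs (rf (nat_lit 0)) (cs (rf (nat_lit 1)) (cs (rf (nat_lit 2)) (nd (nat_lit 208) (nat_lit 0) (cs (rf (nat_lit 3)) (cs (nd (nat_lit 207) (nat_lit 0) (cs (rf (nat_lit 4)) (cs (rf (nat_lit 5)) (cs (rf (nat_lit 6)) (cs (nd (nat_lit 275) (nat_lit 0) (cs (lf (nat_lit 47) (nat_lit 186)) (nd (nat_lit 210) (nat_lit 0) (cs (lf (nat_lit 35) (nat_lit 187)) (nd (nat_lit 276) (nat_lit 0) (cs (rf (nat_lit 7)) (lf (nat_lit 29) (nat_lit 209)))))))) (nd (nat_lit 275)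 (nat_lit 0) (cs (lf (nat_lit 47) (nat_lit 186)) (nd (nat_lit 210) (nat_lit 0) (cs (lf (nat_lit 35) (nat_lit 187)) (nd (nat_lit 276) (nat_lit 0) (cs (lf (nat_lit 29) (nat_lit 209)) (nd (nat_lit 274) (nat_lit 0) (cs (lf (nat_lit 41) (nat_lit 208)) (nd (nat_lit 184) (nat_lit 0) (cs (lf (nat_lit 22) (nat_lit 184)) (nd (nat_lit 272) (nat_lit 0) (cs (lf (nat_lit 13) (nat_lit 250)) (nd (nat_lit 232) (nat_lit 0) (cs (lf (nat_lit 5) (nat_lit 207)) (nd (nat_lit 189) (nat_lit 0) (cs (lf (nat_lit 34) (nat_lit 188)) (nd (nat_lit 228) (nat_lit 0) (cs (lf (nat_lit 10) (nat_lit 206)) (rf (nat_lit 8))))))))))))))))))))))))) (cs (rf (nat_lit 9)) (nd (nat_lit 232) (nat_lit 0) (cs (rf (nat_lit 10)) (cs (rf (nat_lit 11)) (rf (nat_lit 12))))))))))))) q107660 (by decide +kernel)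
def q107672 : Q := Q.p (nat_lit 0x6000008000000000000000000000000000000000000000000000000000000000) (nat_lit 0xc0000f800019e001f70003f80007c0000f00001400000000000000000000000000000000000) (nat_lit 12)
theorem c107672 : QOK q107672 := cut [q80728, q80754, q80931, q98196, q80819, q80872, q97825, q103468, q85102, q80765, q80766, q81381, q96472, q96795, q107221, q94096, q94098, q107657] ⟨c80728, c80754, c80931, c98196, c80819, c80872, c97825, c103468, c85102, c80765, c80766, c81381, c96472, c96795, c107221, c94096, c94098, c107657, trivial⟩ (nd (nat_lit 209) (nat_lit 0) (cs (rf (nat_lit 0)) (cs (rf (nat_lit 1)) (cs (rf (nat_lit 2)) (cs (rf (nat_lit 3)) (nd (nat_lit 255) (nat_lit 0) (cs (rf (nat_lit 4)) (cs (rf (nat_lit 5)) (cs (nd (nat_lit 234) (nat_lit 0) (cs (rf (nat_lit 6)) (cs (nd (nat_lit 256) (nat_lit 0) (cs (lf (nat_lit 17) (nat_lit 231)) (rf (nat_lit 7)))) (nd (nat_lit 233) (nat_lit 0) (cs (lf (nat_lit 12) (nat_lit 230))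 (nd (nat_lit 208) (nat_lit 0) (cs (lf (nat_lit 20) (nat_lit 208)) (nd (nat_lit 210) (nat_lit 0) (cs (lf (nat_lit 3) (nat_lit 208)) (rf (nat_lit 8))))))))))) (nd (nat_lit 230) (nat_lit 0) (cs (rf (nat_lit 9)) (cs (rf (nat_lit 10)) (nd (nat_lit 252) (nat_lit 0) (cs (rf (nat_lit 11)) (cs (rf (nat_lit 12)) (cs (rf (nat_lit 13)) (cs (rf (nat_lit 14)) (nd (nat_lit 232) (nat_lit 0) (cs (rf (nat_lit 15)) (cs (rf (nat_lit 16)) (rf (nat_lit 17)))))))))))))))))))))) q107672 (by decide +kernel)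
def q107783 : Q := Q.p (nat_lit 0x2000008000000000000000000000000000000000000000000000000000000000) (nat_lit 0xfc0003f0001fc000ffc001de000f7c001ee0003f0000fc0001400000000000000000000000000000000000) (nat_lit 15)
theorem c107783 : QOK q107783 := cut [q107079, q82275, q96402, q82301, q82309, q107722, q717, q91430, q105164, q107743, q107324, q107749, q107751, q107753, q107771, q107780, q107781] ⟨c107079, c82275, c96402, c82301, c82309, c107722, c717, c91430, c105164, c107743, c107324, c107749, c107751, c107753, c107771, c107780, c107781, trivial⟩ (nd (nat_lit 252) (nat_lit 0) (cs (rf (nat_lit 0)) (cs (nd (nat_lit 251) (nat_lit 0) (cs (rf (nat_lit 1)) (cs (rf (nat_lit 2)) (cs (nd (nat_lit 209) (nat_lit 0) (cs (rf (nat_lit 3)) (cs (rf (nat_lit 4)) (cs (rf (nat_lit 5)) (nd (nat_lit 275) (nat_lit 0) (cs (rf (nat_lit 6)) (cs (rf (nat_lit 7)) (nd (nat_lit 188) (nat_lit 0) (cs (lf (nat_lit 34) (nat_lit 187)) (rf (nat_lit 8)))))))))))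 (rf (nat_lit 9)))))) (cs (nd (nat_lit 209) (nat_lit 0) (cs (rf (nat_lit 4)) (cs (rf (nat_lit 10)) (cs (rf (nat_lit 5)) (rf (nat_lit 11)))))) (cs (rf (nat_lit 12)) (cs (rf (nat_lit 13)) (cs (rf (nat_lit 14)) (cs (rf (nat_lit 15)) (nd (nat_lit 209) (nat_lit 0) (cs (rf (nat_lit 4)) (cs (rf (nat_lit 10)) (cs (rf (nat_lit 5)) (rf (nat_lit 16)))))))))))))) q107783 (by decide +kernel)
def q107917 : Q := Q.p (nat_lit 0x2000008000000000000000000000000000000000000000000000000000000000) (nat_lit 0xfc0003f0001fc000ffc001de000f7c001fe0003b0000ec0001000000000000000000000000000000000000) (nat_lit 15)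
theorem c107917 : QOK q107917 := cut [q107079, q107751, q107753, q107771, q107780, q82275, q96402, q107743, q80881, q82280, q102276, q90684, q91431, q86873, q91378, q82300, q91187, q107345, q107749, q107914, q107781] ⟨c107079, c107751, c107753, c107771, c107780, c82275, c96402, c107743, c80881, c82280, c102276, c90684, c91431, c86873, c91378, c82300, c91187, c107345, c107749, c107914, c107781, trivial⟩ (nd (nat_lit 252) (nat_lit 0) (cs (rf (nat_lit 0)) (cs (rf (nat_lit 1)) (cs (rf (nat_lit 2)) (cs (rf (nat_lit 3)) (cs (rf (nat_lit 4)) (cs (nd (nat_lit 251) (nat_lit 0) (cs (rf (nat_lit 5)) (cs (rf (nat_lit 6)) (cs (rf (nat_lit 7)) (nd (nat_lit 274) (nat_lit 0) (cs (rf (nat_lit 8)) (cs (rf (nat_lit 9)) (cs (rf (nat_lit 10)) (nd (nat_lit 275) (nat_lit 0) (cs (rf (nat_lit 11)) (cs (rf (nat_lit 12)) (nd (nat_lit 297) (nat_lit 0) (cs (rf (nat_lit 13)) (rf (nat_lit 14))))))))))))))) (cs (nd (nat_lit 209) (nat_lit 0) (cs (rf (nat_lit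 15)) (cs (rf (nat_lit 16)) (cs (rf (nat_lit 17)) (cs (rf (nat_lit 18)) (rf (nat_lit 19))))))) (nd (nat_lit 209) (nat_lit 0) (cs (rf (nat_lit 15)) (cs (rf (nat_lit 16)) (cs (rf (nat_lit 17)) (cs (rf (nat_lit 20)) (rf (nat_lit 19))))))))))))))) q107917 (by decide +kernel)
def q107926 : Q := Q.p (nat_lit 0x3000008000020000000000000000000000000000000000000000000000000000) (nat_lit 0x40000f38001ce000f7c000800002c0000300000400000000000000000000000000000000000) (nat_lit 9)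
theorem c107926 : QOK q107926 := cut [q80931, q107759, q107925] ⟨c80931, c107759, c107925, trivial⟩ (nd (nat_lit 254) (nat_lit 0) (cs (rf (nat_lit 0)) (cs (rf (nat_lit 1)) (rf (nat_lit 2))))) q107926 (by decide +kernel)
def q108003 : Q := Q.p (nat_lit 0x2000008000020000000000000000000000000000000000000000000000000000) (nat_lit 0xe8000fa0001de00077e003df000efc000b80002e00000000000000000000000000000000000) (nat_lit 15)
theorem c108003 : QOK q108003 := cut [q1563, q1595, q10753, q79283, q102039, q102041, q107933, q79959, q80713, q102052, q98090, q107960, q108002] ⟨c1563, c1595, c10753, c79283, c102039, c102041, c107933, c79959, c80713, c102052, c98090, c107960, c108002, trivial⟩ (nd (nat_lit 208) (nat_lit 0) (cs (rf (nat_lit 0)) (cs (rf (nat_lit 1)) (cs (nd (nat_lit 232) (nat_lit 0) (cs (rf (nat_lit 2)) (cs (rf (nat_lit 3)) (cs (nd (nat_lit 276) (nat_lit 0) (cs (rf (nat_lit 4)) (cs (nd (nat_lit 206) (nat_lit 0) (cs (lf (nat_lit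 1) (nat_lit 206)) (rf (nat_lit 5)))) (nd (nat_lit 229) (nat_lit 0) (cs (rf (nat_lit 6)) (cs (nd (nat_lit 254) (nat_lit 0) (cs (lf (nat_lit 24) (nat_lit 187)) (nd (nat_lit 207) (nat_lit 0) (cs (lf (nat_lit 0) (nat_lit 206)) (nd (nat_lit 210) (nat_lit 0) (cs (lf (nat_lit 11) (nat_lit 206)) (nd (nat_lit 189) (nat_lit 0) (cs (lf (nat_lit 34) (nat_lit 188)) (nd (nat_lit 275) (nat_lit 0) (cs (lf (nat_lit 41) (nat_lit 209)) (nd (nat_lit 184) (nat_lit 0) (cs (lf (nat_lit 22) (nat_lit 184)) (rf (nat_lit 7)))))))))))))) (cs (nd (nat_lit 254) (nat_lit 0) (cs (lf (nat_lit 24) (nat_lit 187)) (nd (nat_lit 230) (nat_lit 0) (cs (lf (nat_lit 5) (nat_lit 229)) (nd (nat_lit 250) (nat_lit 0) (cs (lf (nat_lit 10) (nat_lit 228)) (nd (nat_lit 275) (nat_lit 0) (cs (lf (nat_lit 42) (nat_lit 208)) (nd (nat_lit 210) (nat_lit 0) (cs (lf (nat_lit 6) (nat_lit 207)) (rf (nat_lit 8)))))))))))) (nd (nat_lit 254) (nat_lit 0) (cs (lf (nat_lit 24) (nat_lit 187))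 (rf (nat_lit 9))))))))))) (nd (nat_lit 230) (nat_lit 0) (cs (rf (nat_lit 10)) (cs (nd (nat_lit 275) (nat_lit 0) (cs (lf (nat_lit 42) (nat_lit 208)) (nd (nat_lit 276) (nat_lit 0) (cs (lf (nat_lit 29) (nat_lit 209)) (nd (nat_lit 233) (nat_lit 0) (cs (lf (nat_lit 18) (nat_lit 208)) (nd (nat_lit 211) (nat_lit 0) (cs (lf (nat_lit 17) (nat_lit 208)) (nd (nat_lit 210) (nat_lit 0) (cs (lf (nat_lit 12) (nat_lit 207)) (nd (nat_lit 189) (nat_lit 0) (cs (lf (nat_lit 17) (nat_lit 186)) (nd (nat_lit 145) (nat_lit 0) (cs (lf (nat_lit 37) (nat_lit 144)) (nd (nat_lit 255) (nat_lit 0) (cs (lf (nat_lit 5) (nat_lit 230)) (nd (nat_lit 252) (nat_lit 0) (cs (lf (nat_lit 11) (nat_lit 229)) (nd (nat_lit 277) (nat_lit 0) (cs (lf (nat_lit 18) (nat_lit 252)) (lf (nat_lit 42) (nat_lit 210)))))))))))))))))))))) (rf (nat_lit 11))))))))) (rf (nat_lit 12)))))) q108003 (by decide +kernel)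
def q108038 : Q := Q.p (nat_lit 0x2000008000020000000000000000000000000000000000000000000000000000) (nat_lit 0x100000700003c0001fc0007f8001de000f7c003df800e7e000980002600000000000000000000000000000000000) (nat_lit 15)
theorem c108038 : QOK q108038 := cut [q1563, q102324, q119, q2935, q2938, q102360, q102325, q102351, q1125, q107307, q7581, q2354, q102338, q696, q10753, q79283, q717, q96729, q98132, q97550, q101778, q86634, q107959, q103184, q93185] ⟨c1563, c102324, c119, c2935, c2938, c102360, c102325, c102351, c1125, c107307, c7581, c2354, c102338, c696, c10753, c79283, c717, c96729, c98132, c97550, c101778, c86634, c107959, c103184, c93185, trivial⟩ (nd (nat_lit 208) (nat_lit 0) (cs (rf (nat_lit 0)) (cs (rf (nat_lit 1)) (cs (nd (nat_lit 207) (nat_lit 0) (cs (rf (nat_lit 2)) (cs (rf (nat_lit 3)) (cs (rf (nat_lit 4)) (cs (rf (nat_lit 5)) (nd (nat_lit 229) (nat_lit 0) (cs (rf (nat_lit 6)) (cs (rf (nat_lit 7)) (cs (nd (nat_lit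 230) (nat_lit 0) (cs (rf (nat_lit 8)) (cs (rf (nat_lit 9)) (nd (nat_lit 232) (nat_lit 0) (cs (lf (nat_lit 18) (nat_lit 207)) (nd (nat_lit 254) (nat_lit 0) (cs (lf (nat_lit 5) (nat_lit 229)) (nd (nat_lit 276) (nat_lit 0) (cs (lf (nat_lit 42) (nat_lit 209)) (nd (nat_lit 210) (nat_lit 0) (cs (lf (nat_lit 17) (nat_lit 207)) (rf (nat_lit 10))))))))))))) (cs (nd (nat_lit 230) (nat_lit 0) (cs (rf (nat_lit 11)) (cs (rf (nat_lit 12)) (rf (nat_lit 9))))) (nd (nat_lit 210) (nat_lit 0) (cs (lf (nat_lit 11) (nat_lit 206)) (nd (nat_lit 184) (nat_lit 0) (cs (lf (nat_lit 22) (nat_lit 184)) (rf (nat_lit 13)))))))))))))))) (nd (nat_lit 232) (nat_lit 0) (cs (rf (nat_lit 14)) (cs (rf (nat_lit 15)) (cs (nd (nat_lit 207) (nat_lit 0) (cs (rf (nat_lit 2)) (cs (rf (nat_lit 4)) (nd (nat_lit 275) (nat_lit 0) (cs (rf (nat_lit 16)) (cs (rf (nat_lit 17)) (cs (rf (nat_lit 18)) (nd (nat_lit 252) (nat_lit 0) (cs (nd (nat_lit 276) (nat_lit 0) (cs (lf (nat_lit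 29) (nat_lit 209)) (rf (nat_lit 19)))) (cs (nd (nat_lit 276) (nat_lit 0) (cs (lf (nat_lit 29) (nat_lit 209)) (nd (nat_lit 274) (nat_lit 0) (cs (lf (nat_lit 41) (nat_lit 208)) (nd (nat_lit 185) (nat_lit 0) (cs (lf (nat_lit 44) (nat_lit 185)) (nd (nat_lit 184) (nat_lit 0) (cs (lf (nat_lit 18) (nat_lit 184)) (nd (nat_lit 182) (nat_lit 0) (cs (lf (nat_lit 1) (nat_lit 182)) (nd (nat_lit 277) (nat_lit 0) (cs (lf (nat_lit 18) (nat_lit 252)) (nd (nat_lit 255) (nat_lit 0) (cs (lf (nat_lit 17) (nat_lit 252)) (nd (nat_lit 254) (nat_lit 0) (cs (lf (nat_lit 12) (nat_lit 251)) (rf (nat_lit 20)))))))))))))))))) (nd (nat_lit 250) (nat_lit 0) (cs (lf (nat_lit 13) (nat_lit 228)) (nd (nat_lit 274) (nat_lit 0) (cs (lf (nat_lit 41) (nat_lit 208)) (rf (nat_lit 21)))))))))))))))) (nd (nat_lit 233) (nat_lit 0) (cs (lf (nat_lit 18) (nat_lit 208)) (nd (nat_lit 230) (nat_lit 0) (cs (rf (nat_lit 22)) (cs (nd (nat_lit 275) (nat_lit 0) (cs (lf (nat_lit 42)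 (nat_lit 208)) (nd (nat_lit 255) (nat_lit 0) (cs (lf (nat_lit 5) (nat_lit 230)) (nd (nat_lit 276) (nat_lit 0) (cs (lf (nat_lit 29) (nat_lit 209)) (nd (nat_lit 274) (nat_lit 0) (cs (lf (nat_lit 41) (nat_lit 208)) (rf (nat_lit 23)))))))))) (nd (nat_lit 252) (nat_lit 0) (cs (lf (nat_lit 11) (nat_lit 229)) (nd (nat_lit 255) (nat_lit 0) (cs (lf (nat_lit 5) (nat_lit 230)) (nd (nat_lit 275) (nat_lit 0) (cs (lf (nat_lit 42) (nat_lit 208)) (rf (nat_lit 24))))))))))))))))))))) q108038 (by decide +kernel)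
def q108108 : Q := Q.p (nat_lit 0x2000008000000000000000000000000000000000000000000000000000000000) (nat_lit 0x400001e0000780002f8001de001f7c003ff800ffe001fc0007c00007000014000000000000000000000000) (nat_lit 15)
theorem c108108 : QOK q108108 := cut [q102390, q107343, q108051, q1568, q80756, q84607, q108078, q82300, q82301, q82309, q82275, q82278, q96646, q82198, q93918, q92711, q101510, q107777, q85551, q87928, q91265, q86313, q4090, q80750, q82299, q102648, q97498, q107421, q107422, q107453, q92716, q97451, q102653, q96750, q98082, q94159, q107340, q101264, q80731] ⟨c102390, c107343, c108051, c1568, c80756, c84607, c108078, c82300, c82301, c82309, c82275, c82278, c96646, c82198, c93918, c92711, c101510, c107777, c85551, c87928, c91265, c86313, c4090, c80750, c82299, c102648, c97498, c107421, c107422, c107453, c92716, c97451, c102653, c96750, c98082, c94159, c107340, c101264, c80731, trivial⟩ (nd (nat_lit 209) (nat_lit 0) (cs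 (rf (nat_lit 0)) (cs (rf (nat_lit 1)) (cs (rf (nat_lit 2)) (cs (nd (nat_lit 187) (nat_lit 0) (cs (rf (nat_lit 3)) (cs (rf (nat_lit 4)) (rf (nat_lit 5))))) (cs (rf (nat_lit 6)) (cs (nd (nat_lit 252) (nat_lit 0) (cs (rf (nat_lit 7)) (cs (rf (nat_lit 8)) (cs (rf (nat_lit 9)) (cs (nd (nat_lit 251) (nat_lit 0) (cs (rf (nat_lit 10)) (cs (rf (nat_lit 11)) (cs (rf (nat_lit 12)) (nd (nat_lit 229) (nat_lit 0) (cs (rf (nat_lit 13)) (cs (rf (nat_lit 14)) (cs (nd (nat_lit 230) (nat_lit 0) (cs (rf (nat_lit 15)) (cs (rf (nat_lit 16)) (cs (rf (nat_lit 17)) (nd (nat_lit 274) (nat_lit 0) (cs (lf (nat_lit 30) (nat_lit 208)) (nd (nat_lit 232) (nat_lit 0) (cs (lf (nat_lit 6) (nat_lit 229)) (nd (nat_lit 210) (nat_lit 0) (cs (lf (nat_lit 17) (nat_lit 207)) (nd (nat_lit 166) (nat_lit 0) (cs (lf (nat_lit 37) (nat_lit 165)) (rf (nat_lit 18)))))))))))))) (nd (nat_lit 230) (nat_lit 0) (cs (rf (nat_lit 19)) (cs (rf (nat_lit 20)) (rf (nat_lit 15)))))))))))))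 (nd (nat_lit 232) (nat_lit 0) (cs (rf (nat_lit 21)) (cs (nd (nat_lit 251) (nat_lit 0) (cs (lf (nat_lit 12) (nat_lit 228)) (nd (nat_lit 187) (nat_lit 0) (cs (rf (nat_lit 22)) (cs (rf (nat_lit 23)) (cs (rf (nat_lit 24)) (rf (nat_lit 25)))))))) (nd (nat_lit 233) (nat_lit 0) (cs (rf (nat_lit 26)) (cs (rf (nat_lit 27)) (cs (rf (nat_lit 28)) (cs (rf (nat_lit 29)) (nd (nat_lit 230) (nat_lit 0) (cs (rf (nat_lit 30)) (cs (rf (nat_lit 31)) (rf (nat_lit 32)))))))))))))))))) (cs (nd (nat_lit 187) (nat_lit 0) (cs (rf (nat_lit 3)) (cs (rf (nat_lit 33)) (cs (rf (nat_lit 34)) (nd (nat_lit 252) (nat_lit 0) (cs (lf (nat_lit 41) (nat_lit 186)) (nd (nat_lit 186) (nat_lit 0) (cs (lf (nat_lit 47) (nat_lit 164)) (nd (nat_lit 275) (nat_lit 0) (cs (lf (nat_lit 46) (nat_lit 186)) (nd (nat_lit 210) (nat_lit 0) (cs (lf (nat_lit 35) (nat_lit 187)) (nd (nat_lit 211) (nat_lit 0) (cs (lf (nat_lit 18) (nat_lit 186)) (nd (nat_lit 184) (nat_lit 0) (cs (lf (nat_lit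 1) (nat_lit 184)) (nd (nat_lit 232) (nat_lit 0) (cs (lf (nat_lit 30) (nat_lit 209)) (nd (nat_lit 229) (nat_lit 0) (cs (lf (nat_lit 13) (nat_lit 207)) (rf (nat_lit 35)))))))))))))))))))))) (cs (nd (nat_lit 187) (nat_lit 0) (cs (rf (nat_lit 5)) (cs (rf (nat_lit 33)) (cs (rf (nat_lit 36)) (nd (nat_lit 166) (nat_lit 0) (cs (lf (nat_lit 34) (nat_lit 165)) (nd (nat_lit 165) (nat_lit 0) (cs (lf (nat_lit 35) (nat_lit 143)) (nd (nat_lit 232) (nat_lit 0) (cs (lf (nat_lit 29) (nat_lit 165)) (nd (nat_lit 143) (nat_lit 0) (cs (lf (nat_lit 28) (nat_lit 143)) (rf (nat_lit 37)))))))))))))) (nd (nat_lit 187) (nat_lit 0) (cs (rf (nat_lit 3)) (cs (rf (nat_lit 38)) (rf (nat_lit 5)))))))))))))) q108108 (by decide +kernel)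
def q108224 : Q := Q.p (nat_lit 0x2000008000000000000000000000000000000000000000000000000000000000) (nat_lit 0x140000700001e0003bf000ff8001df000f78003ff0007e0001f00001c00005000000000000000000000000000000) (nat_lit 17)
theorem c108224 : QOK q108224 := cut [q98133, q107050, q107382, q108129, q1593, q81901, q96679, q100882, q108185, q56839, q98134, q97408, q97409, q108182, q11768, q108190, q83686, q98138, q82275, q101882, q15536, q97948, q98151, q98155, q98157, q96506, q98160, q97875, q98177, q107381, q108207, q97975, q108217, q99649, q107347, q107371, q97804, q108046, q108223] ⟨c98133, c107050, c107382, c108129, c1593, c81901, c96679, c100882, c108185, c56839, c98134, c97408, c97409, c108182, c11768, c108190, c83686, c98138, c82275, c101882, c15536, c97948, c98151, c98155, c98157, c96506, c98160, c97875, c98177, c107381, c108207, c97975, c108217, c99649, c107347, c107371, c97804, c108046, c108223, trivial⟩ (nd (nat_lit 275) (nat_lit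 0) (cs (rf (nat_lit 0)) (cs (rf (nat_lit 1)) (cs (rf (nat_lit 2)) (cs (rf (nat_lit 3)) (cs (nd (nat_lit 209) (nat_lit 0) (cs (rf (nat_lit 4)) (cs (rf (nat_lit 5)) (cs (rf (nat_lit 6)) (rf (nat_lit 7)))))) (cs (rf (nat_lit 8)) (cs (nd (nat_lit 274) (nat_lit 0) (cs (rf (nat_lit 9)) (cs (rf (nat_lit 10)) (cs (nd (nat_lit 273) (nat_lit 0) (cs (rf (nat_lit 11)) (cs (rf (nat_lit 12)) (cs (rf (nat_lit 13)) (nd (nat_lit 251) (nat_lit 0) (cs (rf (nat_lit 14)) (cs (rf (nat_lit 15)) (cs (nd (nat_lit 252) (nat_lit 0) (cs (rf (nat_lit 16)) (rf (nat_lit 17)))) (nd (nat_lit 252) (nat_lit 0) (cs (rf (nat_lit 18)) (rf (nat_lit 16)))))))))))) (nd (nat_lit 254) (nat_lit 0) (cs (rf (nat_lit 19)) (cs (nd (nat_lit 273) (nat_lit 0) (cs (lf (nat_lit 12) (nat_lit 250)) (nd (nat_lit 209) (nat_lit 0) (cs (rf (nat_lit 20)) (cs (rf (nat_lit 5)) (cs (rf (nat_lit 21)) (rf (nat_lit 22)))))))) (nd (nat_lit 255) (nat_lit 0) (cs (lf (nat_lit 6) (nat_lit 252))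 (nd (nat_lit 252) (nat_lit 0) (cs (rf (nat_lit 23)) (cs (rf (nat_lit 24)) (cs (nd (nat_lit 233) (nat_lit 0) (cs (lf (nat_lit 17) (nat_lit 230)) (nd (nat_lit 232) (nat_lit 0) (cs (lf (nat_lit 12) (nat_lit 229)) (nd (nat_lit 230) (nat_lit 0) (cs (lf (nat_lit 0) (nat_lit 229)) (rf (nat_lit 25)))))))) (nd (nat_lit 187) (nat_lit 0) (cs (lf (nat_lit 37) (nat_lit 186)) (nd (nat_lit 277) (nat_lit 0) (cs (lf (nat_lit 5) (nat_lit 252)) (rf (nat_lit 26))))))))))))))))))) (cs (nd (nat_lit 209) (nat_lit 0) (cs (rf (nat_lit 4)) (cs (rf (nat_lit 27)) (cs (rf (nat_lit 28)) (cs (rf (nat_lit 29)) (nd (nat_lit 274) (nat_lit 0) (cs (lf (nat_lit 41) (nat_lit 208)) (rf (nat_lit 30))))))))) (cs (nd (nat_lit 209) (nat_lit 0) (cs (rf (nat_lit 27)) (cs (rf (nat_lit 31)) (cs (rf (nat_lit 7)) (rf (nat_lit 32)))))) (cs (nd (nat_lit 209) (nat_lit 0) (cs (rf (nat_lit 31)) (cs (rf (nat_lit 28)) (cs (rf (nat_lit 33)) (cs (rf (nat_lit 34)) (rf (nat_lit 35)))))))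 (cs (nd (nat_lit 209) (nat_lit 0) (cs (rf (nat_lit 36)) (cs (rf (nat_lit 33)) (rf (nat_lit 37))))) (rf (nat_lit 38)))))))))))))) q108224 (by decide +kernel)
def q108385 : Q := Q.p (nat_lit 0xc00003000000000000000000000000000000000000000000000000000000000000000) (nat_lit 0x380000e00003c00030000000000060000380000e0000000000000000000000000000000000000000000000) (nat_lit 8)
theorem c108385 : QOK q108385 := cut [q79068, q108382, q83734, q98860, q108383] ⟨c79068, c108382, c83734, c98860, c108383, trivial⟩ (nd (nat_lit 230) (nat_lit 0) (cs (rf (nat_lit 0)) (cs (rf (nat_lit 1)) (nd (nat_lit 296) (nat_lit 0) (cs (rf (nat_lit 2)) (cs (rf (nat_lit 3)) (rf (nat_lit 4)))))))) q108385 (by decide +kernel)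
def q108415 : Q := Q.p (nat_lit 0xc00003000000000000000000000000000000000000000000000000000000000000000) (nat_lit 0x380000f80007e0000380000e0000780003e0000e0000000000000000000000000000000000000000000000) (nat_lit 13)
theorem c108415 : QOK q108415 := cut [q79068, q108382, q83734, q99039, q108383] ⟨c79068, c108382, c83734, c99039, c108383, trivial⟩ (nd (nat_lit 230) (nat_lit 0) (cs (rf (nat_lit 0)) (cs (rf (nat_lit 1)) (nd (nat_lit 296) (nat_lit 0) (cs (rf (nat_lit 2)) (cs (rf (nat_lit 3)) (rf (nat_lit 4)))))))) q108415 (by decide +kernel)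
def q108745 : Q := Q.p (nat_lit 0x800003000000000000000000000000000000000000000000000000000000000000000) (nat_lit 0xf80003e0001de000778001c60007f8001f80003e0000000000000000000000000000000000000000000000) (nat_lit 13)
theorem c108745 : QOK q108745 := cut [q97408, q98384, q14689, q98695, q108391, q108707, q108710, q11506, q25707, q98394, q98468, q105261, q94114, q84408, q1310, q98380, q108718, q91098, q79079, q94412, q108727, q108731, q99093, q108736, q108743] ⟨c97408, c98384, c14689, c98695, c108391, c108707, c108710, c11506, c25707, c98394, c98468, c105261, c94114, c84408, c1310, c98380, c108718, c91098, c79079, c94412, c108727, c108731, c99093, c108736, c108743, trivial⟩ (nd (nat_lit 274) (nat_lit 0) (cs (nd (nat_lit 273) (nat_lit 0) (cs (rf (nat_lit 0)) (cs (rf (nat_lit 1)) (nd (nat_lit 276) (nat_lit 0) (cs (rf (nat_lit 2)) (cs (rf (nat_lit 3)) (cs (rf (nat_lit 4)) (nd (nat_lit 298) (nat_lit 0) (cs (lf (nat_lit 5) (nat_lit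 273)) (nd (nat_lit 320) (nat_lit 0) (cs (lf (nat_lit 42) (nat_lit 253)) (nd (nat_lit 254) (nat_lit 0) (cs (lf (nat_lit 17) (nat_lit 251)) (nd (nat_lit 319) (nat_lit 0) (cs (lf (nat_lit 41) (nat_lit 253)) (nd (nat_lit 295) (nat_lit 0) (cs (lf (nat_lit 11) (nat_lit 272)) (nd (nat_lit 208) (nat_lit 0) (cs (lf (nat_lit 37) (nat_lit 207)) (nd (nat_lit 339) (nat_lit 0) (cs (lf (nat_lit 31) (nat_lit 251)) (nd (nat_lit 321) (nat_lit 0) (cs (lf (nat_lit 29) (nat_lit 254)) (nd (nat_lit 318) (nat_lit 0) (cs (lf (nat_lit 22) (nat_lit 295)) (lf (nat_lit 10) (nat_lit 317))))))))))))))))))))))))))) (cs (rf (nat_lit 5)) (cs (rf (nat_lit 6)) (cs (nd (nat_lit 296) (nat_lit 0) (cs (rf (nat_lit 7)) (cs (rf (nat_lit 8)) (nd (nat_lit 230) (nat_lit 0) (cs (rf (nat_lit 9)) (cs (rf (nat_lit 10)) (cs (rf (nat_lit 11)) (nd (nat_lit 186) (nat_lit 0) (cs (lf (nat_lit 25) (nat_lit 186)) (nd (nat_lit 295) (nat_lit 0) (cs (lf (nat_lit 41) (nat_lit 229)) (nd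 (nat_lit 293) (nat_lit 0) (cs (lf (nat_lit 13) (nat_lit 271)) (nd (nat_lit 276) (nat_lit 0) (cs (lf (nat_lit 6) (nat_lit 273)) (nd (nat_lit 229) (nat_lit 0) (cs (lf (nat_lit 47) (nat_lit 207)) (rf (nat_lit 12))))))))))))))))))) (cs (nd (nat_lit 273) (nat_lit 0) (cs (rf (nat_lit 13)) (cs (rf (nat_lit 1)) (nd (nat_lit 276) (nat_lit 0) (cs (rf (nat_lit 14)) (cs (rf (nat_lit 15)) (nd (nat_lit 255) (nat_lit 0) (cs (lf (nat_lit 7) (nat_lit 251)) (rf (nat_lit 16)))))))))) (nd (nat_lit 276) (nat_lit 0) (cs (rf (nat_lit 2)) (cs (rf (nat_lit 17)) (cs (nd (nat_lit 254) (nat_lit 0) (cs (rf (nat_lit 18)) (cs (nd (nat_lit 273) (nat_lit 0) (cs (lf (nat_lit 12) (nat_lit 250)) (rf (nat_lit 19)))) (rf (nat_lit 20))))) (cs (nd (nat_lit 277) (nat_lit 0) (cs (lf (nat_lit 18) (nat_lit 252)) (rf (nat_lit 21)))) (cs (nd (nat_lit 254) (nat_lit 0) (cs (rf (nat_lit 22)) (cs (rf (nat_lit 20)) (rf (nat_lit 23))))) (rf (nat_lit 24)))))))))))))) q108745 (by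 decide +kernel)
def q108747 : Q := Q.p (nat_lit 0x800003800000000000000000000000000000000000000000000000000000000000000) (nat_lit 0xc0000300000c8000330000c00003f0000f00003c0000000000000000000000000000000000000000000000) (nat_lit 10)
theorem c108747 : QOK q108747 := cut [q98377, q108746] ⟨c98377, c108746, trivial⟩ (nd (nat_lit 254) (nat_lit 0) (cs (rf (nat_lit 0)) (rf (nat_lit 1)))) q108747 (by decide +kernel)
def q108755 : Q := Q.p (nat_lit 0x100000c00003000004000000000000000000000000000000000000000000000000000000000) (nat_lit 0x200000e0000000000e0007b8001ee000080000000000000000000000000000000000000000000000) (nat_lit 11)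
theorem c108755 : QOK q108755 := cut [q79097, q98675] ⟨c79097, c98675, trivial⟩ (nd (nat_lit 231) (nat_lit 0) (cs (rf (nat_lit 0)) (rf (nat_lit 1)))) q108755 (by decide +kernel)
def q108870 : Q := Q.p (nat_lit 0x800003800000000000000000000000000000000000000000000000000000000000000) (nat_lit 0xc0000300000c0000340003c0001ff0000e0000380000000000000000000000000000000000000000000000) (nat_lit 10)
theorem c108870 : QOK q108870 := cut [q108746, q108864, q106826] ⟨c108746, c108864, c106826, trivial⟩ (nd (nat_lit 254) (nat_lit 0) (cs (rf (nat_lit 0)) (cs (rf (nat_lit 1)) (nd (nat_lit 232) (nat_lit 0) (cs (lf (nat_lit 17) (nat_lit 229)) (nd (nat_lit 188) (nat_lit 0) (cs (lf (nat_lit 37) (nat_lit 187)) (nd (nat_lit 229) (nat_lit 0) (cs (lf (nat_lit 23) (nat_lit 228)) (nd (nat_lit 255) (nat_lit 0) (cs (lf (nat_lit 22) (nat_lit 229)) (nd (nat_lit 256) (nat_lit 0) (cs (lf (nat_lit 11) (nat_lit 252)) (rf (nat_lit 2))))))))))))))) q108870 (by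 decide +kernel)
def q108911 : Q := Q.p (nat_lit 0x800003800000000000000000000000000000000000000000000000000000000000000) (nat_lit 0xc0000300000c0000370000c0000780000e0000380000000000000000000000000000000000000000000000) (nat_lit 10)
theorem c108911 : QOK q108911 := cut [q79020, q108746, q108825] ⟨c79020, c108746, c108825, trivial⟩ (nd (nat_lit 254) (nat_lit 0) (cs (rf (nat_lit 0)) (cs (rf (nat_lit 1)) (rf (nat_lit 2))))) q108911 (by decide +kernel)
def q108996 : Q := Q.p (nat_lit 0x800002000008000000000000000000000000000000000000000000000000000000000) (nat_lit 0x50000ff8001fc0007780004000014000050000000000000000000000000000000000000000000000000000) (nat_lit 13)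
theorem c108996 : QOK q108996 := cut [q98790, q98797, q101546, q108995] ⟨c98790, c98797, c101546, c108995, trivial⟩ (nd (nat_lit 297) (nat_lit 0) (cs (rf (nat_lit 0)) (cs (rf (nat_lit 1)) (cs (rf (nat_lit 2)) (rf (nat_lit 3)))))) q108996 (by decide +kernel)
def q109027 : Q := Q.p (nat_lit 0x800002000000000000000000000000000000000000000000000000000000000000000) (nat_lit 0x140003fe0007f0001fe000700001df0007f8001ff0001c0000500000000000000000000000000000000000000000) (nat_lit 16)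
theorem c109027 : QOK q109027 := cut [q108313, q108319, q108321, q108324, q108327, q109008, q109023, q109024, q109025, q109026] ⟨c108313, c108319, c108321, c108324, c108327, c109008, c109023, c109024, c109025, c109026, trivial⟩ (nd (nat_lit 297) (nat_lit 0) (cs (rf (nat_lit 0)) (cs (nd (nat_lit 319) (nat_lit 0) (cs (rf (nat_lit 1)) (cs (nd (nat_lit 320) (nat_lit 0) (cs (lf (nat_lit 29) (nat_lit 253)) (rf (nat_lit 2)))) (cs (nd (nat_lit 320) (nat_lit 0) (cs (lf (nat_lit 29) (nat_lit 253)) (rf (nat_lit 3)))) (nd (nat_lit 318) (nat_lit 0) (cs (lf (nat_lit 41) (nat_lit 252)) (nd (nat_lit 320) (nat_lit 0) (cs (lf (nat_lit 29) (nat_lit 253)) (rf (nat_lit 4)))))))))) (cs (rf (nat_lit 5)) (cs (rf (nat_lit 6)) (cs (rf (nat_lit 7)) (cs (rf (nat_lit 8)) (rf (nat_lit 9))))))))) q109027 (by decide +kernel)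
def q109451 : Q := Q.p (nat_lit 0x800002000000000000000000000000000000000000000000000000000000000000000) (nat_lit 0x58000370003fe00077c007df800ffc003ff8003f00005c0000500000000000000000000000000000000000) (nat_lit 16)
theorem c109451 : QOK q109451 := cut [q16715, q99782, q109258, q2187, q14688, q109256, q235, q109265, q91107, q100321, q100461, q100469, q109273, q109279, q109280, q109299, q87016, q109313, q107536, q109278, q109316, q79394, q100391, q109006, q109056, q97957, q109347, q109372, q80735, q107016, q109373, q88742, q104510, q108969, q91101, q108710, q108743, q109395, q109419, q97350, q103134, q109422, q15996, q109449, q100471, q24566, q15801, q97409, q108364, q15514] ⟨c16715, c99782, c109258, c2187, c14688, c109256, c235, c109265, c91107, c100321, c100461, c100469, c109273, c109279, c109280, c109299, c87016, c109313, c107536, c109278, c109316, c79394, c100391, c109006, c109056, c97957, c109347, c109372, c80735, c107016,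 c109373, c88742, c104510, c108969, c91101, c108710, c108743, c109395, c109419, c97350, c103134, c109422, c15996, c109449, c100471, c24566, c15801, c97409, c108364, c15514, trivial⟩ (nd (nat_lit 276) (nat_lit 0) (cs (nd (nat_lit 277) (nat_lit 0) (cs (rf (nat_lit 0)) (cs (rf (nat_lit 1)) (cs (rf (nat_lit 2)) (nd (nat_lit 274) (nat_lit 0) (cs (rf (nat_lit 3)) (cs (rf (nat_lit 4)) (cs (rf (nat_lit 5)) (nd (nat_lit 299) (nat_lit 0) (cs (lf (nat_lit 5) (nat_lit 274)) (nd (nat_lit 252) (nat_lit 0) (cs (rf (nat_lit 6)) (rf (nat_lit 7)))))))))))))) (cs (nd (nat_lit 231) (nat_lit 0) (cs (rf (nat_lit 8)) (cs (rf (nat_lit 9)) (cs (rf (nat_lit 10)) (cs (rf (nat_lit 11)) (nd (nat_lit 232) (nat_lit 0) (cs (rf (nat_lit 12)) (cs (rf (nat_lit 13)) (rf (nat_lit 14)))))))))) (cs (rf (nat_lit 15)) (cs (nd (nat_lit 231) (nat_lit 0) (cs (rf (nat_lit 8)) (cs (rf (nat_lit 9)) (cs (rf (nat_lit 10)) (cs (rf (nat_lit 11)) (nd (nat_lit 232) (nat_lit 0)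 (cs (rf (nat_lit 16)) (cs (rf (nat_lit 14)) (cs (rf (nat_lit 17)) (nd (nat_lit 254) (nat_lit 0) (cs (rf (nat_lit 18)) (cs (rf (nat_lit 19)) (cs (nd (nat_lit 210) (nat_lit 0) (cs (lf (nat_lit 36) (nat_lit 187)) (nd (nat_lit 277) (nat_lit 0) (cs (lf (nat_lit 29) (nat_lit 210)) (rf (nat_lit 20)))))) (nd (nat_lit 298) (nat_lit 0) (cs (lf (nat_lit 42) (nat_lit 231)) (nd (nat_lit 188) (nat_lit 0) (cs (lf (nat_lit 37) (nat_lit 187)) (nd (nat_lit 233) (nat_lit 0) (cs (rf (nat_lit 21)) (lf (nat_lit 35) (nat_lit 210))))))))))))))))))))) (cs (nd (nat_lit 231) (nat_lit 0) (cs (rf (nat_lit 22)) (cs (rf (nat_lit 23)) (cs (rf (nat_lit 24)) (nd (nat_lit 230) (nat_lit 0) (cs (rf (nat_lit 25)) (cs (rf (nat_lit 26)) (cs (rf (nat_lit 27)) (nd (nat_lit 254) (nat_lit 0) (cs (rf (nat_lit 28)) (cs (rf (nat_lit 29)) (rf (nat_lit 30))))))))))))) (cs (nd (nat_lit 252) (nat_lit 0) (cs (rf (nat_lit 31)) (cs (rf (nat_lit 32)) (cs (rf (nat_lit 33)) (nd (nat_lit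 274) (nat_lit 0) (cs (rf (nat_lit 34)) (cs (rf (nat_lit 35)) (rf (nat_lit 36))))))))) (cs (rf (nat_lit 37)) (cs (rf (nat_lit 38)) (cs (nd (nat_lit 231) (nat_lit 0) (cs (rf (nat_lit 22)) (cs (rf (nat_lit 23)) (cs (rf (nat_lit 24)) (nd (nat_lit 232) (nat_lit 0) (cs (rf (nat_lit 16)) (cs (rf (nat_lit 13)) (cs (rf (nat_lit 14)) (nd (nat_lit 298) (nat_lit 0) (cs (rf (nat_lit 39)) (cs (rf (nat_lit 40)) (nd (nat_lit 252) (nat_lit 0) (cs (rf (nat_lit 32)) (rf (nat_lit 41))))))))))))))) (cs (nd (nat_lit 277) (nat_lit 0) (cs (rf (nat_lit 0)) (cs (rf (nat_lit 1)) (cs (rf (nat_lit 2)) (nd (nat_lit 274) (nat_lit 0) (cs (rf (nat_lit 4)) (cs (rf (nat_lit 5)) (nd (nat_lit 251) (nat_lit 0) (cs (lf (nat_lit 22) (nat_lit 251)) (nd (nat_lit 296) (nat_lit 0) (cs (lf (nat_lit 11) (nat_lit 273)) (nd (nat_lit 299) (nat_lit 0) (cs (lf (nat_lit 5) (nat_lit 274)) (rf (nat_lit 42))))))))))))))) (cs (rf (nat_lit 43)) (nd (nat_lit 231) (nat_lit 0) (cs (rf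 (nat_lit 22)) (cs (rf (nat_lit 11)) (cs (rf (nat_lit 24)) (nd (nat_lit 298) (nat_lit 0) (cs (rf (nat_lit 39)) (cs (rf (nat_lit 40)) (nd (nat_lit 274) (nat_lit 0) (cs (rf (nat_lit 44)) (cs (nd (nat_lit 277) (nat_lit 0) (cs (rf (nat_lit 45)) (nd (nat_lit 296) (nat_lit 0) (cs (lf (nat_lit 11) (nat_lit 273)) (rf (nat_lit 46)))))) (nd (nat_lit 273) (nat_lit 0) (cs (rf (nat_lit 47)) (cs (rf (nat_lit 48)) (nd (nat_lit 272) (nat_lit 0) (cs (lf (nat_lit 4) (nat_lit 272)) (rf (nat_lit 49))))))))))))))))))))))))))))) q109451 (by decide +kernel)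
def q109524 : Q := Q.p (nat_lit 0x800002000000000000000000000000000000000000000000000000000000000000000) (nat_lit 0x3f0000fc0007f0003ff000778003df0007b8000fc0003f0000500000000000000000000000000000000000000000) (nat_lit 15)
theorem c109524 : QOK q109524 := cut [q108394, q97408, q98972, q99646, q109454, q84365, q109456, q86571, q109460, q109479, q108994, q109491, q109493, q109497, q109517, q109521, q109522] ⟨c108394, c97408, c98972, c99646, c109454, c84365, c109456, c86571, c109460, c109479, c108994, c109491, c109493, c109497, c109517, c109521, c109522, trivial⟩ (nd (nat_lit 274) (nat_lit 0) (cs (rf (nat_lit 0)) (cs (nd (nat_lit 273) (nat_lit 0) (cs (rf (nat_lit 1)) (cs (rf (nat_lit 2)) (cs (nd (nat_lit 231) (nat_lit 0) (cs (rf (nat_lit 3)) (cs (rf (nat_lit 4)) (cs (nd (nat_lit 297) (nat_lit 0) (cs (rf (nat_lit 5)) (cs (rf (nat_lit 6)) (nd (nat_lit 210) (nat_lit 0) (cs (lf (nat_lit 34) (nat_lit 209)) (nd (nat_lit 296) (nat_lit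 0) (cs (lf (nat_lit 41) (nat_lit 230)) (rf (nat_lit 7))))))))) (rf (nat_lit 8)))))) (rf (nat_lit 9)))))) (cs (nd (nat_lit 231) (nat_lit 0) (cs (rf (nat_lit 3)) (cs (rf (nat_lit 10)) (cs (rf (nat_lit 4)) (rf (nat_lit 11)))))) (cs (rf (nat_lit 12)) (cs (rf (nat_lit 13)) (cs (rf (nat_lit 14)) (cs (rf (nat_lit 15)) (nd (nat_lit 231) (nat_lit 0) (cs (rf (nat_lit 3)) (cs (rf (nat_lit 10)) (cs (rf (nat_lit 4)) (rf (nat_lit 16)))))))))))))) q109524 (by decide +kernel)
def q109624 : Q := Q.p (nat_lit 0x800002000000000000000000000000000000000000000000000000000000000000000) (nat_lit 0x500003c0001fc000ff8001fe00077c003de000efc000f80003e0000500000000000000000000000000000000000000000) (nat_lit 16)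
theorem c109624 : QOK q109624 := cut [q109024, q109528, q109529, q2579, q108319, q109536, q88933, q88941, q88742, q104510, q109557, q2190, q14689, q86433, q109567, q1999, q2066, q2091, q108923, q15386, q88741, q88936, q99285, q100391, q109446, q109583, q109591, q98766, q98781, q108918, q108922, q109592, q109609, q91097, q109256, q109612, q99749, q99765, q109534, q109581, q109622, q89625, q99280] ⟨c109024, c109528, c109529, c2579, c108319, c109536, c88933, c88941, c88742, c104510, c109557, c2190, c14689, c86433, c109567, c1999, c2066, c2091, c108923, c15386, c88741, c88936, c99285, c100391, c109446, c109583, c109591, c98766, c98781, c108918, c108922, c109592, c109609, c91097, c109256, c109612, c99749, c99765, c109534, c109581, c109622, c89625, c99280, trivial⟩ (nd (nat_lit 297) (nat_lit 0) (cs (rf (nat_lit 0)) (cs (rf (nat_lit 1)) (cs (rf (nat_lit 2)) (cs (nd (nat_lit 319) (nat_lit 0) (cs (rf (nat_lit 3)) (cs (rf (nat_lit 4))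 (rf (nat_lit 5))))) (cs (nd (nat_lit 252) (nat_lit 0) (cs (rf (nat_lit 6)) (cs (rf (nat_lit 7)) (cs (nd (nat_lit 276) (nat_lit 0) (cs (rf (nat_lit 8)) (cs (rf (nat_lit 9)) (cs (rf (nat_lit 10)) (nd (nat_lit 274) (nat_lit 0) (cs (rf (nat_lit 11)) (cs (rf (nat_lit 12)) (cs (rf (nat_lit 13)) (rf (nat_lit 14)))))))))) (nd (nat_lit 251) (nat_lit 0) (cs (rf (nat_lit 15)) (cs (rf (nat_lit 16)) (cs (rf (nat_lit 17)) (cs (rf (nat_lit 18)) (nd (nat_lit 276) (nat_lit 0) (cs (rf (nat_lit 19)) (cs (rf (nat_lit 20)) (nd (nat_lit 231) (nat_lit 0) (cs (rf (nat_lit 21)) (cs (rf (nat_lit 22)) (cs (rf (nat_lit 23)) (rf (nat_lit 24)))))))))))))))))) (cs (rf (nat_lit 25)) (cs (nd (nat_lit 252) (nat_lit 0) (cs (rf (nat_lit 6)) (cs (rf (nat_lit 26)) (cs (nd (nat_lit 251) (nat_lit 0) (cs (rf (nat_lit 15)) (cs (rf (nat_lit 16)) (cs (rf (nat_lit 17)) (cs (rf (nat_lit 18)) (nd (nat_lit 273) (nat_lit 0) (cs (rf (nat_lit 27)) (cs (rf (nat_lit 28)) (cs (rf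 (nat_lit 29)) (cs (rf (nat_lit 30)) (rf (nat_lit 31)))))))))))) (nd (nat_lit 276) (nat_lit 0) (cs (rf (nat_lit 8)) (cs (rf (nat_lit 9)) (cs (rf (nat_lit 32)) (nd (nat_lit 277) (nat_lit 0) (cs (lf (nat_lit 18) (nat_lit 252)) (nd (nat_lit 274) (nat_lit 0) (cs (rf (nat_lit 33)) (cs (rf (nat_lit 34)) (rf (nat_lit 35))))))))))))))) (cs (nd (nat_lit 319) (nat_lit 0) (cs (rf (nat_lit 3)) (cs (rf (nat_lit 36)) (cs (rf (nat_lit 37)) (cs (rf (nat_lit 38)) (rf (nat_lit 39))))))) (cs (rf (nat_lit 40)) (nd (nat_lit 319) (nat_lit 0) (cs (rf (nat_lit 41)) (cs (rf (nat_lit 42)) (rf (nat_lit 5))))))))))))))) q109624 (by decide +kernel)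
def q109692 : Q := Q.p (nat_lit 0x800002000000000000000000000000000000000000000000000000000000000000000) (nat_lit 0x3f0000fc0007f0003ff000778003df0007f8000ec0003b0000400000000000000000000000000000000000000000) (nat_lit 15)
theorem c109692 : QOK q109692 := cut [q108394, q109493, q109497, q109517, q109521, q97408, q98972, q109479, q15829, q15996, q23322, q14913, q108171, q109456, q94342, q95151, q83989, q56839, q109004, q109491, q109688, q109689, q109522] ⟨c108394, c109493, c109497, c109517, c109521, c97408, c98972, c109479, c15829, c15996, c23322, c14913, c108171, c109456, c94342, c95151, c83989, c56839, c109004, c109491, c109688, c109689, c109522, trivial⟩ (nd (nat_lit 274) (nat_lit 0) (cs (rf (nat_lit 0)) (cs (rf (nat_lit 1)) (cs (rf (nat_lit 2)) (cs (rf (nat_lit 3)) (cs (rf (nat_lit 4)) (cs (nd (nat_lit 273) (nat_lit 0) (cs (rf (nat_lit 5)) (cs (rf (nat_lit 6)) (cs (rf (nat_lit 7)) (nd (nat_lit 296) (nat_lit 0) (cs (rf (nat_lit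 8)) (cs (rf (nat_lit 9)) (cs (nd (nat_lit 297) (nat_lit 0) (cs (rf (nat_lit 10)) (cs (nd (nat_lit 319) (nat_lit 0) (cs (rf (nat_lit 11)) (rf (nat_lit 12)))) (nd (nat_lit 231) (nat_lit 0) (cs (lf (nat_lit 36) (nat_lit 208)) (rf (nat_lit 13))))))) (nd (nat_lit 318) (nat_lit 0) (cs (lf (nat_lit 30) (nat_lit 252)) (nd (nat_lit 252) (nat_lit 0) (cs (rf (nat_lit 14)) (cs (nd (nat_lit 229) (nat_lit 0) (cs (lf (nat_lit 46) (nat_lit 229)) (rf (nat_lit 15)))) (nd (nat_lit 317) (nat_lit 0) (cs (lf (nat_lit 41) (nat_lit 251)) (nd (nat_lit 319) (nat_lit 0) (cs (lf (nat_lit 29) (nat_lit 252)) (nd (nat_lit 229) (nat_lit 0) (cs (lf (nat_lit 46) (nat_lit 229)) (nd (nat_lit 254) (nat_lit 0) (cs (lf (nat_lit 6) (nat_lit 251)) (nd (nat_lit 297) (nat_lit 0) (cs (lf (nat_lit 35) (nat_lit 231)) (rf (nat_lit 16))))))))))))))))))))))))) (cs (nd (nat_lit 231) (nat_lit 0) (cs (rf (nat_lit 17)) (cs (rf (nat_lit 18)) (cs (rf (nat_lit 19)) (cs (rf (nat_lit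 20)) (rf (nat_lit 21))))))) (nd (nat_lit 231) (nat_lit 0) (cs (rf (nat_lit 17)) (cs (rf (nat_lit 18)) (cs (rf (nat_lit 22)) (cs (rf (nat_lit 20)) (rf (nat_lit 21))))))))))))))) q109692 (by decide +kernel)
def q109705 : Q := Q.p (nat_lit 0xc00002000008000000000000000000000000000000000000000000000000000000000) (nat_lit 0x100003ce000738003df000200000b00000c0000100000000000000000000000000000000000000000) (nat_lit 9)
theorem c109705 : QOK q109705 := cut [q100321, q109503, q109704] ⟨c100321, c109503, c109704, trivial⟩ (nd (nat_lit 276) (nat_lit 0) (cs (rf (nat_lit 0)) (cs (rf (nat_lit 1)) (rf (nat_lit 2))))) q109705 (by decide +kernel)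
def q109827 : Q := Q.p (nat_lit 0x800002000008000000000000000000000000000000000000000000000000000000000) (nat_lit 0xe0000bc000778003de000f78003ee0003a0000e00000000000000000000000000000000000000000) (nat_lit 14)
theorem c109827 : QOK q109827 := cut [q26315, q87016, q86313, q86631, q91239, q89454, q97711, q79196, q81708, q109810, q56839, q97741, q99609, q109818, q79079, q108396, q98272, q12206, q85515, q97319, q97774, q101882, q101898, q109823] ⟨c26315, c87016, c86313, c86631, c91239, c89454, c97711, c79196, c81708, c109810, c56839, c97741, c99609, c109818, c79079, c108396, c98272, c12206, c85515, c97319, c97774, c101882, c101898, c109823, trivial⟩ (nd (nat_lit 232) (nat_lit 0) (cs (rf (nat_lit 0)) (cs (rf (nat_lit 1)) (cs (nd (nat_lit 252) (nat_lit 0) (cs (rf (nat_lit 2)) (cs (rf (nat_lit 3)) (cs (nd (nat_lit 230) (nat_lit 0) (cs (nd (nat_lit 233) (nat_lit 0) (cs (lf (nat_lit 6) (nat_lit 230)) (nd (nat_lit 255) (nat_lit 0) (cs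 (lf (nat_lit 5) (nat_lit 230)) (nd (nat_lit 229) (nat_lit 0) (cs (lf (nat_lit 4) (nat_lit 229)) (rf (nat_lit 4)))))))) (cs (nd (nat_lit 297) (nat_lit 0) (cs (lf (nat_lit 42) (nat_lit 230)) (nd (nat_lit 296) (nat_lit 0) (cs (lf (nat_lit 41) (nat_lit 230)) (nd (nat_lit 274) (nat_lit 0) (cs (lf (nat_lit 35) (nat_lit 208)) (rf (nat_lit 5)))))))) (nd (nat_lit 297) (nat_lit 0) (cs (lf (nat_lit 42) (nat_lit 230)) (nd (nat_lit 233) (nat_lit 0) (cs (lf (nat_lit 6) (nat_lit 230)) (nd (nat_lit 255) (nat_lit 0) (cs (lf (nat_lit 5) (nat_lit 230)) (nd (nat_lit 296) (nat_lit 0) (cs (lf (nat_lit 41) (nat_lit 230)) (nd (nat_lit 274) (nat_lit 0) (cs (lf (nat_lit 35) (nat_lit 208)) (rf (nat_lit 6))))))))))))))) (nd (nat_lit 254) (nat_lit 0) (cs (rf (nat_lit 7)) (cs (nd (nat_lit 251) (nat_lit 0) (cs (lf (nat_lit 12) (nat_lit 228)) (nd (nat_lit 272) (nat_lit 0) (cs (lf (nat_lit 10) (nat_lit 250)) (nd (nat_lit 277) (nat_lit 0) (cs (lf (nat_lit 4)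 (nat_lit 251)) (nd (nat_lit 228) (nat_lit 0) (cs (lf (nat_lit 22) (nat_lit 228)) (nd (nat_lit 255) (nat_lit 0) (cs (lf (nat_lit 5) (nat_lit 252)) (rf (nat_lit 8)))))))))))) (rf (nat_lit 9))))))))) (nd (nat_lit 274) (nat_lit 0) (cs (rf (nat_lit 10)) (cs (rf (nat_lit 11)) (cs (rf (nat_lit 12)) (cs (nd (nat_lit 252) (nat_lit 0) (cs (rf (nat_lit 2)) (cs (rf (nat_lit 3)) (cs (rf (nat_lit 13)) (nd (nat_lit 254) (nat_lit 0) (cs (rf (nat_lit 14)) (cs (rf (nat_lit 15)) (nd (nat_lit 255) (nat_lit 0) (cs (lf (nat_lit 6) (nat_lit 252)) (rf (nat_lit 16))))))))))) (nd (nat_lit 210) (nat_lit 0) (cs (rf (nat_lit 17)) (cs (rf (nat_lit 18)) (nd (nat_lit 254) (nat_lit 0) (cs (rf (nat_lit 19)) (cs (rf (nat_lit 20)) (cs (rf (nat_lit 21)) (cs (rf (nat_lit 22)) (rf (nat_lit 23))))))))))))))))))) q109827 (by decide +kernel)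
def q109970 : Q := Q.p (nat_lit 0x800002000000000000000000000000000000000000000000000000000000000000000) (nat_lit 0x500001c000078000efc003fe00077c003de000ffc001f80007c0000700001400000000000000000000000000000000000) (nat_lit 17)
theorem c109970 : QOK q109970 := cut [q108341, q109025, q109583, q109862, q79736, q81211, q89353, q101546, q109914, q89354, q89411, q11666, q11728, q99736, q109885, q109916, q108642, q109917, q97408, q108302, q21944, q79735, q109922, q109924, q10704, q101204, q108306, q108309, q109934, q97689, q99269, q109946, q109954, q107861, q109959, q99252, q108258, q109006, q109576, q109784, q109969] ⟨c108341, c109025, c109583, c109862, c79736, c81211, c89353, c101546, c109914, c89354, c89411, c11666, c11728, c99736, c109885, c109916, c108642, c109917, c97408, c108302, c21944, c79735, c109922, c109924, c10704, c101204, c108306, c108309, c109934, c97689, c99269, c109946, c109954, c107861, c109959, c99252, c108258,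 c109006, c109576, c109784, c109969, trivial⟩ (nd (nat_lit 297) (nat_lit 0) (cs (rf (nat_lit 0)) (cs (rf (nat_lit 1)) (cs (rf (nat_lit 2)) (cs (rf (nat_lit 3)) (cs (nd (nat_lit 231) (nat_lit 0) (cs (rf (nat_lit 4)) (cs (rf (nat_lit 5)) (cs (rf (nat_lit 6)) (rf (nat_lit 7)))))) (cs (rf (nat_lit 8)) (cs (nd (nat_lit 296) (nat_lit 0) (cs (rf (nat_lit 9)) (cs (rf (nat_lit 10)) (cs (nd (nat_lit 295) (nat_lit 0) (cs (rf (nat_lit 11)) (cs (rf (nat_lit 12)) (cs (rf (nat_lit 13)) (nd (nat_lit 273) (nat_lit 0) (cs (rf (nat_lit 14)) (cs (rf (nat_lit 15)) (cs (nd (nat_lit 274) (nat_lit 0) (cs (rf (nat_lit 16)) (rf (nat_lit 17)))) (nd (nat_lit 274) (nat_lit 0) (cs (rf (nat_lit 18)) (rf (nat_lit 16)))))))))))) (nd (nat_lit 276) (nat_lit 0) (cs (rf (nat_lit 19)) (cs (nd (nat_lit 295) (nat_lit 0) (cs (lf (nat_lit 12) (nat_lit 272)) (nd (nat_lit 231) (nat_lit 0) (cs (rf (nat_lit 20)) (cs (rf (nat_lit 21)) (cs (rf (nat_lit 6)) (nd (nat_lit 252)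 (nat_lit 0) (cs (nd (nat_lit 251) (nat_lit 0) (cs (lf (nat_lit 0) (nat_lit 250)) (rf (nat_lit 22)))) (cs (rf (nat_lit 23)) (nd (nat_lit 230) (nat_lit 0) (cs (lf (nat_lit 47) (nat_lit 208)) (nd (nat_lit 250) (nat_lit 0) (cs (lf (nat_lit 1) (nat_lit 250)) (nd (nat_lit 274) (nat_lit 0) (cs (lf (nat_lit 41) (nat_lit 229)) (nd (nat_lit 210) (nat_lit 0) (cs (lf (nat_lit 34) (nat_lit 209)) (nd (nat_lit 229) (nat_lit 0) (cs (rf (nat_lit 24)) (lf (nat_lit 47) (nat_lit 207))))))))))))))))))))) (nd (nat_lit 277) (nat_lit 0) (cs (lf (nat_lit 6) (nat_lit 274)) (nd (nat_lit 274) (nat_lit 0) (cs (nd (nat_lit 299) (nat_lit 0) (cs (lf (nat_lit 5) (nat_lit 274)) (nd (nat_lit 273) (nat_lit 0) (cs (lf (nat_lit 19) (nat_lit 273)) (rf (nat_lit 25)))))) (cs (rf (nat_lit 26)) (cs (nd (nat_lit 255) (nat_lit 0) (cs (lf (nat_lit 17) (nat_lit 252)) (nd (nat_lit 254) (nat_lit 0) (cs (lf (nat_lit 12) (nat_lit 251)) (nd (nat_lit 252) (nat_lit 0) (cs (lf (nat_lit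 0) (nat_lit 251)) (rf (nat_lit 27)))))))) (nd (nat_lit 209) (nat_lit 0) (cs (lf (nat_lit 37) (nat_lit 208)) (nd (nat_lit 299) (nat_lit 0) (cs (lf (nat_lit 5) (nat_lit 274)) (rf (nat_lit 28))))))))))))))))))) (cs (nd (nat_lit 231) (nat_lit 0) (cs (rf (nat_lit 5)) (cs (rf (nat_lit 29)) (cs (rf (nat_lit 30)) (cs (rf (nat_lit 31)) (nd (nat_lit 296) (nat_lit 0) (cs (lf (nat_lit 41) (nat_lit 230)) (rf (nat_lit 32))))))))) (cs (nd (nat_lit 231) (nat_lit 0) (cs (rf (nat_lit 4)) (cs (rf (nat_lit 29)) (cs (rf (nat_lit 33)) (nd (nat_lit 296) (nat_lit 0) (cs (lf (nat_lit 41) (nat_lit 230)) (nd (nat_lit 230) (nat_lit 0) (cs (lf (nat_lit 47) (nat_lit 208)) (nd (nat_lit 319) (nat_lit 0) (cs (lf (nat_lit 46) (nat_lit 230)) (nd (nat_lit 254) (nat_lit 0) (cs (lf (nat_lit 35) (nat_lit 231)) (nd (nat_lit 255) (nat_lit 0) (cs (lf (nat_lit 18) (nat_lit 230)) (nd (nat_lit 228) (nat_lit 0) (cs (lf (nat_lit 1) (nat_lit 228)) (rf (nat_lit 34))))))))))))))))))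 (cs (nd (nat_lit 231) (nat_lit 0) (cs (rf (nat_lit 35)) (cs (rf (nat_lit 33)) (cs (rf (nat_lit 36)) (cs (rf (nat_lit 37)) (rf (nat_lit 31))))))) (cs (nd (nat_lit 231) (nat_lit 0) (cs (rf (nat_lit 36)) (cs (rf (nat_lit 38)) (rf (nat_lit 39))))) (rf (nat_lit 40)))))))))))))) q109970 (by decide +kernel)
def q110192 : Q := Q.p (nat_lit 0x7000004000000000000000000000000000000000000000000000000000000000) (nat_lit 0x200000e0000380000f0000000000a0000180000e0000380000a00000000000000000000000000000000000) (nat_lit 10)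
theorem c110192 : QOK q110192 := cut [q6259, q110190, q79044, q84155, q110042] ⟨c6259, c110190, c79044, c84155, c110042, trivial⟩ (nd (nat_lit 208) (nat_lit 0) (cs (rf (nat_lit 0)) (cs (rf (nat_lit 1)) (nd (nat_lit 274) (nat_lit 0) (cs (rf (nat_lit 2)) (cs (rf (nat_lit 3)) (rf (nat_lit 4)))))))) q110192 (by decide +kernel)
def q110246 : Q := Q.p (nat_lit 0x800007000004000000000000000000000000000000000000000000000000000000000) (nat_lit 0x8000060001dc000770000000001b0000f80001a0000000000000000000000000000000000000000000000) (nat_lit 9)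
theorem c110246 : QOK q110246 := cut [q110238, q110243, q79097, q96452, q110244] ⟨c110238, c110243, c79097, c96452, c110244, trivial⟩ (nd (nat_lit 274) (nat_lit 0) (cs (rf (nat_lit 0)) (cs (rf (nat_lit 1)) (nd (nat_lit 231) (nat_lit 0) (cs (rf (nat_lit 2)) (cs (rf (nat_lit 3)) (rf (nat_lit 4)))))))) q110246 (by decide +kernel)
def q110283 : Q := Q.p (nat_lit 0x3000004000000000000000000000000000000000000000000000000000000000) (nat_lit 0x980003f8001fe0007f0001c00007b8001f8000360000000000000000000000000000000000000000000000) (nat_lit 14)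
theorem c110283 : QOK q110283 := cut [q79028, q79077, q110226, q79078, q79112, q110277, q110281] ⟨c79028, c79077, c110226, c79078, c79112, c110277, c110281, trivial⟩ (nd (nat_lit 254) (nat_lit 0) (cs (rf (nat_lit 0)) (cs (rf (nat_lit 1)) (cs (rf (nat_lit 2)) (nd (nat_lit 275) (nat_lit 0) (cs (rf (nat_lit 3)) (cs (rf (nat_lit 4)) (cs (rf (nat_lit 5)) (rf (nat_lit 6)))))))))) q110283 (by decide +kernel)
def q110309 : Q := Q.p (nat_lit 0x3000004000000000000000000000000000000000000000000000000000000000) (nat_lit 0x80000b80002e0001f80007f8001c0000780000f80003e0000380000a00000000000000000000000000000000000) (nat_lit 16)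
theorem c110309 : QOK q110309 := cut [q6259, q79029, q79066, q110190, q79048, q110039, q110232, q110306] ⟨c6259, c79029, c79066, c110190, c79048, c110039, c110232, c110306, trivial⟩ (nd (nat_lit 208) (nat_lit 0) (cs (rf (nat_lit 0)) (cs (rf (nat_lit 1)) (cs (rf (nat_lit 2)) (cs (rf (nat_lit 3)) (nd (nat_lit 274) (nat_lit 0) (cs (rf (nat_lit 4)) (cs (rf (nat_lit 5)) (cs (rf (nat_lit 6)) (nd (nat_lit 185) (nat_lit 0) (cs (lf (nat_lit 46) (nat_lit 185)) (rf (nat_lit 7))))))))))))) q110309 (by decide +kernel)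
def q110314 : Q := Q.p (nat_lit 0x3000004000000000000000000000000000000000000000000000000000000000) (nat_lit 0x900003f8001fe0007f0001c00007b8001f00003c0000200000000000000000000000000000000000000000) (nat_lit 14)
theorem c110314 : QOK q110314 := cut [q79028, q79077, q110226, q110313] ⟨c79028, c79077, c110226, c110313, trivial⟩ (nd (nat_lit 254) (nat_lit 0) (cs (rf (nat_lit 0)) (cs (rf (nat_lit 1)) (cs (rf (nat_lit 2)) (rf (nat_lit 3)))))) q110314 (by decide +kernel)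
def q110315 : Q := Q.p (nat_lit 0x3000004000000000000000000000000000000000000000000000000000000000) (nat_lit 0x200000e0000380000f8000c00000a0000380000e0000380000a00000000000000000000000000000000000) (nat_lit 10)
theorem c110315 : QOK q110315 := cut [q6259, q79066, q110041, q110190] ⟨c6259, c79066, c110041, c110190, trivial⟩ (nd (nat_lit 208) (nat_lit 0) (cs (rf (nat_lit 0)) (cs (rf (nat_lit 1)) (cs (rf (nat_lit 2)) (rf (nat_lit 3)))))) q110315 (by decide +kernel)
def q110374 : Q := Q.p (nat_lit 0x800003000000000000000000000000000000000000000000000000000000000000000) (nat_lit 0x780007f8001fe0007780018e000078000fe0001f80000a0000000000000000000000000000000000000000) (nat_lit 15)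
theorem c110374 : QOK q110374 := cut [q24756, q94337, q14914, q88933, q89455, q84212, q110349, q79068, q22351, q98860, q105298, q110353, q110355, q110358, q99110, q99144, q99145, q99154, q105589, q110365, q86873, q99038, q110371] ⟨c24756, c94337, c14914, c88933, c89455, c84212, c110349, c79068, c22351, c98860, c105298, c110353, c110355, c110358, c99110, c99144, c99145, c99154, c105589, c110365, c86873, c99038, c110371, trivial⟩ (nd (nat_lit 274) (nat_lit 0) (cs (nd (nat_lit 296) (nat_lit 0) (cs (rf (nat_lit 0)) (cs (rf (nat_lit 1)) (cs (nd (nat_lit 297) (nat_lit 0) (cs (rf (nat_lit 2)) (cs (rf (nat_lit 3)) (rf (nat_lit 4))))) (nd (nat_lit 318) (nat_lit 0) (cs (lf (nat_lit 30) (nat_lit 252)) (rf (nat_lit 5)))))))) (cs (rf (nat_lit 6)) (cs (nd (nat_lit 230) (nat_lit 0) (cs (rf (nat_lit 7)) (cs (nd (nat_lit 296) (nat_lit 0) (cs (rf (nat_lit 8)) (cs (rf (nat_lit 9)) (rf (nat_lit 10))))) (rf (nat_lit 11))))) (cs (rf (nat_lit 12))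 (cs (rf (nat_lit 13)) (cs (nd (nat_lit 272) (nat_lit 0) (cs (rf (nat_lit 14)) (cs (rf (nat_lit 15)) (cs (rf (nat_lit 16)) (cs (rf (nat_lit 17)) (cs (rf (nat_lit 18)) (rf (nat_lit 19)))))))) (cs (nd (nat_lit 230) (nat_lit 0) (cs (rf (nat_lit 7)) (cs (rf (nat_lit 11)) (nd (nat_lit 296) (nat_lit 0) (cs (rf (nat_lit 8)) (cs (rf (nat_lit 10)) (nd (nat_lit 297) (nat_lit 0) (cs (rf (nat_lit 20)) (rf (nat_lit 21)))))))))) (nd (nat_lit 230) (nat_lit 0) (cs (rf (nat_lit 7)) (cs (rf (nat_lit 11)) (nd (nat_lit 296) (nat_lit 0) (cs (rf (nat_lit 8)) (cs (rf (nat_lit 10)) (rf (nat_lit 22)))))))))))))))) q110374 (by decide +kernel)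
def q110442 : Q := Q.p (nat_lit 0x800003000000000000000000000000000000000000000000000000000000000000000) (nat_lit 0x140000740001d00006e00017c0000e0007fc001fe0001e0000380000a00000000000000000000000000000000000) (nat_lit 13)
theorem c110442 : QOK q110442 := cut [q1999, q24207, q110431, q110441] ⟨c1999, c24207, c110431, c110441, trivial⟩ (nd (nat_lit 251) (nat_lit 0) (cs (rf (nat_lit 0)) (cs (rf (nat_lit 1)) (cs (rf (nat_lit 2)) (rf (nat_lit 3)))))) q110442 (by decide +kernel)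
def q110468 : Q := Q.p (nat_lit 0x800003000000000000000000000000000000000000000000000000000000000000000) (nat_lit 0x40001b0000fe00037c0000e0007fc001fe0001e0000780000a00000000000000000000000000000000000) (nat_lit 13)
theorem c110468 : QOK q110468 := cut [q2091, q24207, q110441, q79078, q79112, q95670, q90300, q91971, q87940, q105164, q110466] ⟨c2091, c24207, c110441, c79078, c79112, c95670, c90300, c91971, c87940, c105164, c110466, trivial⟩ (nd (nat_lit 251) (nat_lit 0) (cs (rf (nat_lit 0)) (cs (rf (nat_lit 1)) (cs (rf (nat_lit 2)) (nd (nat_lit 230) (nat_lit 0) (cs (rf (nat_lit 3)) (cs (rf (nat_lit 4)) (cs (rf (nat_lit 5)) (cs (nd (nat_lit 231) (nat_lit 0) (cs (rf (nat_lit 6)) (cs (rf (nat_lit 7)) (nd (nat_lit 209) (nat_lit 0) (cs (rf (nat_lit 8)) (rf (nat_lit 9))))))) (rf (nat_lit 10))))))))))) q110468 (by decide +kernel)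
def q110762 : Q := Q.p (nat_lit 0x3000000000000000000000000000000000000000000000000000000000000000) (nat_lit 0x1c00007e0007f8001fe001ffe003cf000efe000ff0001f00007c0000f00000000000000000000000000000000000) (nat_lit 16)
theorem c110762 : QOK q110762 := cut [q105202, q106418, q106425, q106549, q98764, q98766, q106413, q96391, q80583, q86851, q106410, q82543, q88619, q89846, q2065, q85540, q85544, q85549, q85555, q98539, q110737, q2066, q2091, q88933, q88941, q110461, q90752, q91138, q89455, q106510, q110743, q106507, q15961, q94337, q79078, q100796, q90950, q106526, q110759] ⟨c105202, c106418, c106425, c106549, c98764, c98766, c106413, c96391, c80583, c86851, c106410, c82543, c88619, c89846, c2065, c85540, c85544, c85549, c85555, c98539, c110737, c2066, c2091, c88933, c88941, c110461, c90752, c91138, c89455, c106510, c110743, c106507, c15961, c94337, c79078, c100796, c90950, c106526, c110759, trivial⟩ (nd (nat_lit 251) (nat_lit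 0) (cs (rf (nat_lit 0)) (cs (rf (nat_lit 1)) (cs (rf (nat_lit 2)) (cs (rf (nat_lit 3)) (cs (nd (nat_lit 273) (nat_lit 0) (cs (rf (nat_lit 4)) (cs (rf (nat_lit 5)) (cs (rf (nat_lit 6)) (cs (nd (nat_lit 254) (nat_lit 0) (cs (lf (nat_lit 11) (nat_lit 250)) (nd (nat_lit 276) (nat_lit 0) (cs (lf (nat_lit 5) (nat_lit 251)) (nd (nat_lit 255) (nat_lit 0) (cs (lf (nat_lit 10) (nat_lit 251)) (nd (nat_lit 234) (nat_lit 0) (cs (lf (nat_lit 16) (nat_lit 230)) (nd (nat_lit 256) (nat_lit 0) (cs (lf (nat_lit 17) (nat_lit 231)) (nd (nat_lit 230) (nat_lit 0) (cs (lf (nat_lit 22) (nat_lit 230)) (nd (nat_lit 186) (nat_lit 0) (cs (lf (nat_lit 37) (nat_lit 185)) (nd (nat_lit 295) (nat_lit 0) (cs (lf (nat_lit 30) (nat_lit 229)) (rf (nat_lit 7)))))))))))))))))) (nd (nat_lit 295) (nat_lit 0) (cs (rf (nat_lit 8)) (cs (rf (nat_lit 9)) (cs (rf (nat_lit 10)) (nd (nat_lit 229) (nat_lit 0) (cs (rf (nat_lit 11)) (cs (rf (nat_lit 12)) (rf (nat_lit 13))))))))))))))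 (cs (nd (nat_lit 250) (nat_lit 0) (cs (rf (nat_lit 14)) (cs (rf (nat_lit 15)) (cs (rf (nat_lit 16)) (cs (rf (nat_lit 17)) (cs (rf (nat_lit 18)) (rf (nat_lit 19)))))))) (cs (rf (nat_lit 20)) (nd (nat_lit 275) (nat_lit 0) (cs (rf (nat_lit 21)) (cs (rf (nat_lit 22)) (cs (nd (nat_lit 297) (nat_lit 0) (cs (rf (nat_lit 23)) (cs (rf (nat_lit 24)) (cs (rf (nat_lit 25)) (nd (nat_lit 296) (nat_lit 0) (cs (rf (nat_lit 26)) (cs (rf (nat_lit 27)) (cs (nd (nat_lit 274) (nat_lit 0) (cs (rf (nat_lit 28)) (cs (rf (nat_lit 29)) (cs (nd (nat_lit 209) (nat_lit 0) (cs (lf (nat_lit 37) (nat_lit 208)) (rf (nat_lit 30)))) (nd (nat_lit 208) (nat_lit 0) (cs (lf (nat_lit 25) (nat_lit 208)) (nd (nat_lit 276) (nat_lit 0) (cs (lf (nat_lit 18) (nat_lit 251)) (nd (nat_lit 231) (nat_lit 0) (cs (lf (nat_lit 36) (nat_lit 208)) (rf (nat_lit 31)))))))))))) (nd (nat_lit 274) (nat_lit 0) (cs (rf (nat_lit 32)) (cs (rf (nat_lit 28)) (rf (nat_lit 33))))))))))))) (nd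 (nat_lit 230) (nat_lit 0) (cs (rf (nat_lit 34)) (cs (rf (nat_lit 35)) (cs (nd (nat_lit 297) (nat_lit 0) (cs (rf (nat_lit 36)) (rf (nat_lit 37)))) (rf (nat_lit 38)))))))))))))))))) q110762 (by decide +kernel)
def q110807 : Q := Q.p (nat_lit 0x3000000000000000000000000000000000000000000000000000000000000000) (nat_lit 0xa00007c0001f0001fdc007ce003ffc001fe0007e0001f80002a00000000000000000000000000000000000) (nat_lit 17)
theorem c110807 : QOK q110807 := cut [q81726, q110533, q110767, q110768, q80464, q106815, q107554, q110772, q79028, q110780, q6259, q79029, q79041, q79066, q10803, q87238, q110104, q110782, q79054, q79093, q110292, q79078, q79112, q110256, q81355, q106598, q106606, q110793, q81724, q81867, q81872, q86779, q110805, q105822, q110546] ⟨c81726, c110533, c110767, c110768, c80464, c106815, c107554, c110772, c79028, c110780, c6259, c79029, c79041, c79066, c10803, c87238, c110104, c110782, c79054, c79093, c110292, c79078,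 c79112, c110256, c81355, c106598, c106606, c110793, c81724, c81867, c81872, c86779, c110805, c105822, c110546, trivial⟩ (nd (nat_lit 254) (nat_lit 0) (cs (rf (nat_lit 0)) (cs (rf (nat_lit 1)) (cs (rf (nat_lit 2)) (cs (rf (nat_lit 3)) (cs (nd (nat_lit 255) (nat_lit 0) (cs (rf (nat_lit 4)) (cs (rf (nat_lit 5)) (rf (nat_lit 6))))) (cs (rf (nat_lit 7)) (cs (nd (nat_lit 230) (nat_lit 0) (cs (rf (nat_lit 8)) (cs (rf (nat_lit 9)) (cs (nd (nat_lit 208) (nat_lit 0) (cs (rf (nat_lit 10)) (cs (rf (nat_lit 11)) (cs (rf (nat_lit 12)) (cs (rf (nat_lit 13)) (nd (nat_lit 209) (nat_lit 0) (cs (rf (nat_lit 14)) (cs (rf (nat_lit 15)) (cs (nd (nat_lit 231) (nat_lit 0) (cs (rf (nat_lit 16)) (cs (rf (nat_lit 17)) (nd (nat_lit 274) (nat_lit 0) (cs (lf (nat_lit 30) (nat_lit 208)) (nd (nat_lit 275) (nat_lit 0) (cs (lf (nat_lit 29) (nat_lit 208)) (rf (nat_lit 18))))))))) (nd (nat_lit 231) (nat_lit 0) (cs (rf (nat_lit 19)) (cs (rf (nat_lit 16)) (rf (nat_lit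 20)))))))))))))) (nd (nat_lit 275) (nat_lit 0) (cs (rf (nat_lit 21)) (cs (rf (nat_lit 22)) (cs (rf (nat_lit 23)) (nd (nat_lit 208) (nat_lit 0) (cs (rf (nat_lit 10)) (cs (rf (nat_lit 11)) (nd (nat_lit 255) (nat_lit 0) (cs (rf (nat_lit 24)) (cs (rf (nat_lit 6)) (nd (nat_lit 232) (nat_lit 0) (cs (rf (nat_lit 25)) (cs (rf (nat_lit 26)) (rf (nat_lit 27))))))))))))))))))) (cs (nd (nat_lit 255) (nat_lit 0) (cs (rf (nat_lit 28)) (cs (rf (nat_lit 29)) (cs (rf (nat_lit 30)) (nd (nat_lit 278) (nat_lit 0) (cs (lf (nat_lit 4) (nat_lit 252)) (nd (nat_lit 256) (nat_lit 0) (cs (lf (nat_lit 5) (nat_lit 253)) (nd (nat_lit 274) (nat_lit 0) (cs (lf (nat_lit 10) (nat_lit 252)) (nd (nat_lit 231) (nat_lit 0) (cs (lf (nat_lit 23) (nat_lit 230)) (nd (nat_lit 296) (nat_lit 0) (cs (lf (nat_lit 30) (nat_lit 230)) (rf (nat_lit 31)))))))))))))))) (cs (rf (nat_lit 32)) (nd (nat_lit 255) (nat_lit 0) (cs (rf (nat_lit 33)) (cs (rf (nat_lit 5)) (rf (nat_lit 34)))))))))))))))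 q110807 (by decide +kernel)
def q110865 : Q := Q.p (nat_lit 0x3000000000000000000000000000000000000000000000000000000000000000) (nat_lit 0x1400007c0003f8000ff001ffe003cf001fee001fe0001f8000780001e00000000000000000000000000000000000) (nat_lit 19)
theorem c110865 : QOK q110865 := cut [q106425, q106748, q106812, q110543, q1999, q24207, q110431, q110483, q79013, q103009, q105203, q110812, q106756, q80583, q86907, q106782, q106758, q106759, q106771, q110814, q83637, q106762, q106767, q85505, q89866, q106794, q15386, q110822, q110825, q98880, q106786, q110835, q103007, q110840, q110862, q79009, q81492, q81494, q110864] ⟨c106425, c106748, c106812, c110543, c1999, c24207, c110431, c110483, c79013, c103009, c105203, c110812, c106756, c80583, c86907, c106782, c106758, c106759, c106771, c110814, c83637, c106762, c106767, c85505, c89866, c106794, c15386, c110822, c110825, c98880, c106786, c110835, c103007, c110840, c110862, c79009, c81492,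 c81494, c110864, trivial⟩ (nd (nat_lit 251) (nat_lit 0) (cs (rf (nat_lit 0)) (cs (rf (nat_lit 1)) (cs (rf (nat_lit 2)) (cs (rf (nat_lit 3)) (cs (nd (nat_lit 275) (nat_lit 0) (cs (rf (nat_lit 4)) (cs (rf (nat_lit 5)) (cs (rf (nat_lit 6)) (rf (nat_lit 7)))))) (cs (nd (nat_lit 254) (nat_lit 0) (cs (rf (nat_lit 8)) (cs (rf (nat_lit 9)) (rf (nat_lit 10))))) (cs (rf (nat_lit 11)) (cs (nd (nat_lit 273) (nat_lit 0) (cs (rf (nat_lit 12)) (cs (nd (nat_lit 295) (nat_lit 0) (cs (rf (nat_lit 13)) (cs (rf (nat_lit 14)) (cs (rf (nat_lit 15)) (nd (nat_lit 296) (nat_lit 0) (cs (rf (nat_lit 16)) (cs (rf (nat_lit 17)) (cs (rf (nat_lit 18)) (cs (rf (nat_lit 19)) (nd (nat_lit 274) (nat_lit 0) (cs (rf (nat_lit 20)) (cs (rf (nat_lit 21)) (rf (nat_lit 22)))))))))))))) (cs (nd (nat_lit 230) (nat_lit 0) (cs (rf (nat_lit 23)) (cs (rf (nat_lit 24)) (cs (nd (nat_lit 295) (nat_lit 0) (cs (lf (nat_lit 30) (nat_lit 229)) (nd (nat_lit 276) (nat_lit 0) (cs (nd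 (nat_lit 254) (nat_lit 0) (cs (lf (nat_lit 5) (nat_lit 251)) (rf (nat_lit 25)))) (cs (nd (nat_lit 275) (nat_lit 0) (cs (rf (nat_lit 26)) (cs (nd (nat_lit 277) (nat_lit 0) (cs (lf (nat_lit 18) (nat_lit 252)) (nd (nat_lit 297) (nat_lit 0) (cs (lf (nat_lit 42) (nat_lit 230)) (nd (nat_lit 296) (nat_lit 0) (cs (lf (nat_lit 12) (nat_lit 272)) (lf (nat_lit 15) (nat_lit 273)))))))) (rf (nat_lit 27))))) (cs (nd (nat_lit 254) (nat_lit 0) (cs (lf (nat_lit 5) (nat_lit 251)) (rf (nat_lit 28)))) (nd (nat_lit 254) (nat_lit 0) (cs (rf (nat_lit 25)) (cs (rf (nat_lit 28)) (nd (nat_lit 275) (nat_lit 0) (cs (rf (nat_lit 29)) (cs (rf (nat_lit 27)) (nd (nat_lit 274) (nat_lit 0) (cs (lf (nat_lit 11) (nat_lit 272)) (nd (nat_lit 232) (nat_lit 0) (cs (lf (nat_lit 17) (nat_lit 229)) (nd (nat_lit 188) (nat_lit 0) (cs (lf (nat_lit 37) (nat_lit 187)) (rf (nat_lit 30)))))))))))))))))))) (rf (nat_lit 31)))))) (cs (nd (nat_lit 254) (nat_lit 0) (cs (lf (nat_lit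 11) (nat_lit 250)) (nd (nat_lit 232) (nat_lit 0) (cs (lf (nat_lit 17) (nat_lit 229)) (nd (nat_lit 277) (nat_lit 0) (cs (lf (nat_lit 4) (nat_lit 251)) (rf (nat_lit 32)))))))) (nd (nat_lit 254) (nat_lit 0) (cs (lf (nat_lit 11) (nat_lit 250)) (nd (nat_lit 232) (nat_lit 0) (cs (lf (nat_lit 17) (nat_lit 229)) (nd (nat_lit 255) (nat_lit 0) (cs (lf (nat_lit 10) (nat_lit 251)) (nd (nat_lit 230) (nat_lit 0) (cs (lf (nat_lit 23) (nat_lit 229)) (nd (nat_lit 295) (nat_lit 0) (cs (lf (nat_lit 30) (nat_lit 229)) (nd (nat_lit 186) (nat_lit 0) (cs (lf (nat_lit 37) (nat_lit 185)) (rf (nat_lit 33))))))))))))))))))) (cs (rf (nat_lit 34)) (cs (nd (nat_lit 254) (nat_lit 0) (cs (rf (nat_lit 35)) (cs (rf (nat_lit 36)) (cs (rf (nat_lit 37)) (rf (nat_lit 9)))))) (rf (nat_lit 38))))))))))))) q110865 (by decide +kernel)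
def q110951 : Q := Q.p (nat_lit 0x3000000000000000000000000000000000000000000000000000000000000000) (nat_lit 0xa00003f0001fc001ffc003cf001dfe001ff0007fe000ff0000f00003000008000000000000000000000000) (nat_lit 16)
theorem c110951 : QOK q110951 := cut [q110051, q110185, q6259, q79029, q79066, q83712, q94114, q93528, q106445, q110866, q84908, q92217, q1100, q6271, q91553, q110878, q2065, q3187, q87929, q110190, q79048, q110039, q110888, q110937, q79028, q81409, q110944, q79009, q79024, q82198, q106076, q110584, q110771, q110564] ⟨c110051, c110185, c6259, c79029, c79066, c83712, c94114, c93528, c106445, c110866, c84908, c92217, c1100, c6271, c91553, c110878, c2065, c3187, c87929, c110190, c79048, c110039, c110888, c110937, c79028, c81409, c110944, c79009, c79024, c82198, c106076, c110584, c110771, c110564, trivial⟩ (nd (nat_lit 230) (nat_lit 0) (cs (rf (nat_lit 0)) (cs (rf (nat_lit 1)) (cs (nd (nat_lit 208) (nat_lit 0) (cs (rf (nat_lit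 2)) (cs (rf (nat_lit 3)) (cs (rf (nat_lit 4)) (cs (nd (nat_lit 229) (nat_lit 0) (cs (rf (nat_lit 5)) (cs (rf (nat_lit 6)) (cs (nd (nat_lit 251) (nat_lit 0) (cs (rf (nat_lit 7)) (cs (rf (nat_lit 8)) (rf (nat_lit 9))))) (nd (nat_lit 228) (nat_lit 0) (cs (lf (nat_lit 0) (nat_lit 227)) (nd (nat_lit 231) (nat_lit 0) (cs (rf (nat_lit 10)) (cs (nd (nat_lit 206) (nat_lit 0) (cs (lf (nat_lit 23) (nat_lit 205)) (nd (nat_lit 275) (nat_lit 0) (cs (lf (nat_lit 42) (nat_lit 208)) (nd (nat_lit 207) (nat_lit 0) (cs (lf (nat_lit 18) (nat_lit 206)) (nd (nat_lit 209) (nat_lit 0) (cs (lf (nat_lit 6) (nat_lit 206)) (rf (nat_lit 11)))))))))) (nd (nat_lit 250) (nat_lit 0) (cs (lf (nat_lit 11) (nat_lit 227)) (nd (nat_lit 209) (nat_lit 0) (cs (lf (nat_lit 17) (nat_lit 206)) (nd (nat_lit 165) (nat_lit 0) (cs (rf (nat_lit 12)) (lf (nat_lit 37) (nat_lit 164))))))))))))))))) (nd (nat_lit 251) (nat_lit 0) (cs (rf (nat_lit 13)) (cs (rf (nat_lit 14)) (cs (rf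 (nat_lit 15)) (nd (nat_lit 250) (nat_lit 0) (cs (rf (nat_lit 16)) (cs (rf (nat_lit 17)) (nd (nat_lit 228) (nat_lit 0) (cs (lf (nat_lit 23) (nat_lit 227)) (nd (nat_lit 231) (nat_lit 0) (cs (lf (nat_lit 17) (nat_lit 228)) (nd (nat_lit 229) (nat_lit 0) (cs (lf (nat_lit 5) (nat_lit 228)) (nd (nat_lit 209) (nat_lit 0) (cs (lf (nat_lit 17) (nat_lit 206)) (nd (nat_lit 165) (nat_lit 0) (cs (lf (nat_lit 37) (nat_lit 164)) (nd (nat_lit 164) (nat_lit 0) (cs (lf (nat_lit 37) (nat_lit 163)) (rf (nat_lit 18)))))))))))))))))))))))))) (cs (nd (nat_lit 208) (nat_lit 0) (cs (rf (nat_lit 2)) (cs (rf (nat_lit 3)) (cs (rf (nat_lit 4)) (cs (rf (nat_lit 19)) (nd (nat_lit 274) (nat_lit 0) (cs (rf (nat_lit 20)) (cs (rf (nat_lit 21)) (nd (nat_lit 185) (nat_lit 0) (cs (lf (nat_lit 46) (nat_lit 185)) (rf (nat_lit 22)))))))))))) (cs (rf (nat_lit 23)) (cs (nd (nat_lit 254) (nat_lit 0) (cs (rf (nat_lit 24)) (cs (rf (nat_lit 25)) (cs (rf (nat_lit 26)) (nd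 (nat_lit 251) (nat_lit 0) (cs (rf (nat_lit 27)) (cs (rf (nat_lit 28)) (cs (rf (nat_lit 15)) (nd (nat_lit 229) (nat_lit 0) (cs (rf (nat_lit 29)) (rf (nat_lit 30)))))))))))) (cs (nd (nat_lit 254) (nat_lit 0) (cs (rf (nat_lit 24)) (cs (rf (nat_lit 25)) (cs (rf (nat_lit 31)) (rf (nat_lit 32)))))) (nd (nat_lit 254) (nat_lit 0) (cs (rf (nat_lit 24)) (cs (rf (nat_lit 25)) (cs (rf (nat_lit 26)) (nd (nat_lit 251) (nat_lit 0) (cs (rf (nat_lit 27)) (cs (rf (nat_lit 28)) (cs (rf (nat_lit 33)) (rf (nat_lit 15)))))))))))))))))) q110951 (by decide +kernel)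
def q110987 : Q := Q.p (nat_lit 0x3000000000000000000000000000000000000000000000000000000000000000) (nat_lit 0x80000780003f0000fe001fee003cf001ffe000ff0007f8000fc0001d00000000000000000000000000000000000) (nat_lit 17)
theorem c110987 : QOK q110987 := cut [q106665, q110737, q82275, q96402, q105168, q2091, q106820, q81901, q105164, q82300, q82309, q105177, q79024, q92245, q105767, q105771, q81752, q105203, q79223, q81031, q81085, q98510, q82198, q106836, q5482, q11484, q80450, q82226, q1832, q92647, q110972, q5353, q6259, q110299, q110920, q80246, q98559, q105153, q106427, q106860, q107756, q106876, q110985, q79256, q110037] ⟨c106665, c110737, c82275, c96402, c105168, c2091, c106820, c81901, c105164, c82300, c82309, c105177, c79024, c92245, c105767, c105771, c81752, c105203, c79223, c81031, c81085, c98510, c82198, c106836, c5482, c11484, c80450, c82226, c1832, c92647, c110972, c5353, c6259, c110299, c110920, c80246, c98559, c105153,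 c106427, c106860, c107756, c106876, c110985, c79256, c110037, trivial⟩ (nd (nat_lit 251) (nat_lit 0) (cs (rf (nat_lit 0)) (cs (rf (nat_lit 1)) (cs (nd (nat_lit 231) (nat_lit 0) (cs (rf (nat_lit 2)) (cs (rf (nat_lit 3)) (cs (rf (nat_lit 4)) (nd (nat_lit 275) (nat_lit 0) (cs (rf (nat_lit 5)) (cs (rf (nat_lit 6)) (cs (nd (nat_lit 209) (nat_lit 0) (cs (rf (nat_lit 7)) (rf (nat_lit 8)))) (nd (nat_lit 209) (nat_lit 0) (cs (rf (nat_lit 7)) (cs (rf (nat_lit 9)) (cs (rf (nat_lit 10)) (nd (nat_lit 274) (nat_lit 0) (cs (lf (nat_lit 41) (nat_lit 208)) (nd (nat_lit 249) (nat_lit 0) (cs (lf (nat_lit 1) (nat_lit 249)) (nd (nat_lit 188) (nat_lit 0) (cs (lf (nat_lit 34) (nat_lit 187)) (rf (nat_lit 11)))))))))))))))))))) (cs (nd (nat_lit 254) (nat_lit 0) (cs (rf (nat_lit 12)) (cs (rf (nat_lit 13)) (cs (rf (nat_lit 14)) (rf (nat_lit 15)))))) (cs (nd (nat_lit 254) (nat_lit 0) (cs (rf (nat_lit 16)) (cs (rf (nat_lit 17)) (cs (rf (nat_lit 15)) (cs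 (nd (nat_lit 277) (nat_lit 0) (cs (lf (nat_lit 4) (nat_lit 251)) (nd (nat_lit 255) (nat_lit 0) (cs (lf (nat_lit 5) (nat_lit 252)) (rf (nat_lit 18)))))) (nd (nat_lit 276) (nat_lit 0) (cs (lf (nat_lit 5) (nat_lit 251)) (nd (nat_lit 250) (nat_lit 0) (cs (lf (nat_lit 4) (nat_lit 250)) (nd (nat_lit 231) (nat_lit 0) (cs (lf (nat_lit 17) (nat_lit 228)) (nd (nat_lit 230) (nat_lit 0) (cs (lf (nat_lit 12) (nat_lit 227)) (nd (nat_lit 298) (nat_lit 0) (cs (lf (nat_lit 42) (nat_lit 231)) (nd (nat_lit 255) (nat_lit 0) (cs (lf (nat_lit 18) (nat_lit 230)) (rf (nat_lit 19))))))))))))))))))) (cs (nd (nat_lit 254) (nat_lit 0) (cs (rf (nat_lit 20)) (cs (rf (nat_lit 21)) (rf (nat_lit 17))))) (cs (nd (nat_lit 229) (nat_lit 0) (cs (rf (nat_lit 22)) (cs (rf (nat_lit 23)) (cs (nd (nat_lit 207) (nat_lit 0) (cs (rf (nat_lit 24)) (cs (rf (nat_lit 25)) (cs (rf (nat_lit 26)) (cs (rf (nat_lit 27)) (nd (nat_lit 208) (nat_lit 0) (cs (rf (nat_lit 28)) (cs (rf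 (nat_lit 29)) (cs (rf (nat_lit 30)) (nd (nat_lit 230) (nat_lit 0) (cs (rf (nat_lit 31)) (cs (rf (nat_lit 32)) (cs (rf (nat_lit 33)) (rf (nat_lit 34))))))))))))))) (nd (nat_lit 274) (nat_lit 0) (cs (rf (nat_lit 35)) (cs (rf (nat_lit 36)) (cs (nd (nat_lit 207) (nat_lit 0) (cs (rf (nat_lit 24)) (cs (rf (nat_lit 25)) (nd (nat_lit 254) (nat_lit 0) (cs (rf (nat_lit 37)) (cs (rf (nat_lit 15)) (cs (rf (nat_lit 38)) (nd (nat_lit 231) (nat_lit 0) (cs (rf (nat_lit 39)) (cs (rf (nat_lit 40)) (nd (nat_lit 232) (nat_lit 0) (cs (lf (nat_lit 17) (nat_lit 229)) (nd (nat_lit 206) (nat_lit 0) (cs (lf (nat_lit 20) (nat_lit 206)) (nd (nat_lit 209) (nat_lit 0) (cs (lf (nat_lit 36) (nat_lit 186)) (lf (nat_lit 2) (nat_lit 206)))))))))))))))))) (nd (nat_lit 296) (nat_lit 0) (cs (lf (nat_lit 42) (nat_lit 229)) (rf (nat_lit 41)))))))))))) (cs (rf (nat_lit 42)) (nd (nat_lit 254) (nat_lit 0) (cs (rf (nat_lit 43)) (cs (rf (nat_lit 21)) (rf (nat_lit 44))))))))))))))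 q110987 (by decide +kernel)
def q111022 : Q := Q.p (nat_lit 0x3000000000000000000000000000000000000000000000000000000000000000) (nat_lit 0x1e0000790001f4000ff8001ce000ff0001fc0007e0001f00006800000000000000000000000000000000000) (nat_lit 15)
theorem c111022 : QOK q111022 := cut [q110529, q110535, q110536, q110768, q79118, q110764, q79009, q80339, q81991, q110765, q81492, q98510, q79013, q79020, q79256] ⟨c110529, c110535, c110536, c110768, c79118, c110764, c79009, c80339, c81991, c110765, c81492, c98510, c79013, c79020, c79256, trivial⟩ (nd (nat_lit 254) (nat_lit 0) (cs (rf (nat_lit 0)) (cs (rf (nat_lit 1)) (cs (rf (nat_lit 2)) (cs (rf (nat_lit 3)) (cs (nd (nat_lit 232) (nat_lit 0) (cs (rf (nat_lit 4)) (cs (rf (nat_lit 5)) (cs (nd (nat_lit 251) (nat_lit 0) (cs (lf (nat_lit 17) (nat_lit 229)) (nd (nat_lit 228) (nat_lit 0) (cs (rf (nat_lit 6)) (lf (nat_lit 22) (nat_lit 228)))))) (nd (nat_lit 276) (nat_lit 0) (cs (rf (nat_lit 7))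 (cs (rf (nat_lit 8)) (rf (nat_lit 9))))))))) (cs (nd (nat_lit 251) (nat_lit 0) (cs (rf (nat_lit 6)) (cs (rf (nat_lit 10)) (rf (nat_lit 11))))) (nd (nat_lit 251) (nat_lit 0) (cs (rf (nat_lit 12)) (cs (rf (nat_lit 13)) (cs (rf (nat_lit 14)) (nd (nat_lit 229) (nat_lit 0) (cs (lf (nat_lit 23) (nat_lit 228)) (nd (nat_lit 272) (nat_lit 0) (cs (lf (nat_lit 10) (nat_lit 250)) (nd (nat_lit 250) (nat_lit 0) (cs (lf (nat_lit 11) (nat_lit 249)) (nd (nat_lit 294) (nat_lit 0) (cs (lf (nat_lit 30) (nat_lit 228)) (nd (nat_lit 275) (nat_lit 0) (cs (lf (nat_lit 5) (nat_lit 250)) (nd (nat_lit 249) (nat_lit 0) (cs (lf (nat_lit 4) (nat_lit 249)) (nd (nat_lit 230) (nat_lit 0) (cs (lf (nat_lit 17) (nat_lit 227)) (lf (nat_lit 18) (nat_lit 229))))))))))))))))))))))))))) q111022 (by decide +kernel)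
def q111068 : Q := Q.p (nat_lit 0x7000000000000000000000000000000000000000000000000000000000000000) (nat_lit 0xf80003e0001fc001df80038e000fc0003fc0003e0000f80000000000000000000000000000000000000000) (nat_lit 18)
theorem c111068 : QOK q111068 := cut [q106386, q106388, q106391, q106396, q80881, q82280, q84611, q106018, q106308, q86581, q95769, q84624, q111039, q86429, q106330, q106333, q106340, q111047, q79118, q106358, q106364, q81878, q111058, q79061, q85712, q79199, q80292, q106376, q22293, q106377, q91618] ⟨c106386, c106388, c106391, c106396, c80881, c82280, c84611, c106018, c106308, c86581, c95769, c84624, c111039, c86429, c106330, c106333, c106340, c111047, c79118, c106358, c106364, c81878, c111058, c79061, c85712, c79199, c80292, c106376, c22293, c106377, c91618, trivial⟩ (nd (nat_lit 274) (nat_lit 0) (cs (rf (nat_lit 0)) (cs (rf (nat_lit 1)) (cs (rf (nat_lit 2)) (cs (rf (nat_lit 3)) (cs (nd (nat_lit 231) (nat_lit 0) (cs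 (rf (nat_lit 4)) (cs (rf (nat_lit 5)) (cs (rf (nat_lit 6)) (cs (nd (nat_lit 233) (nat_lit 0) (cs (rf (nat_lit 7)) (cs (rf (nat_lit 8)) (nd (nat_lit 297) (nat_lit 0) (cs (nd (nat_lit 232) (nat_lit 0) (cs (lf (nat_lit 12) (nat_lit 229)) (rf (nat_lit 9)))) (cs (nd (nat_lit 232) (nat_lit 0) (cs (lf (nat_lit 12) (nat_lit 229)) (rf (nat_lit 10)))) (cs (nd (nat_lit 296) (nat_lit 0) (cs (lf (nat_lit 30) (nat_lit 230)) (nd (nat_lit 230) (nat_lit 0) (cs (lf (nat_lit 29) (nat_lit 230)) (nd (nat_lit 295) (nat_lit 0) (cs (lf (nat_lit 41) (nat_lit 229)) (nd (nat_lit 255) (nat_lit 0) (cs (lf (nat_lit 18) (nat_lit 230)) (nd (nat_lit 208) (nat_lit 0) (cs (lf (nat_lit 43) (nat_lit 208)) (rf (nat_lit 11)))))))))))) (nd (nat_lit 296) (nat_lit 0) (cs (lf (nat_lit 30) (nat_lit 230)) (nd (nat_lit 232) (nat_lit 0) (cs (lf (nat_lit 12) (nat_lit 229)) (rf (nat_lit 12))))))))))))) (nd (nat_lit 275) (nat_lit 0) (cs (rf (nat_lit 13)) (cs (rf (nat_lit 14))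 (cs (rf (nat_lit 15)) (cs (rf (nat_lit 16)) (nd (nat_lit 187) (nat_lit 0) (cs (lf (nat_lit 37) (nat_lit 186)) (nd (nat_lit 255) (nat_lit 0) (cs (lf (nat_lit 6) (nat_lit 252)) (nd (nat_lit 233) (nat_lit 0) (cs (lf (nat_lit 17) (nat_lit 230)) (nd (nat_lit 232) (nat_lit 0) (cs (lf (nat_lit 12) (nat_lit 229)) (rf (nat_lit 17)))))))))))))))))))) (nd (nat_lit 232) (nat_lit 0) (cs (rf (nat_lit 18)) (cs (rf (nat_lit 19)) (cs (nd (nat_lit 231) (nat_lit 0) (cs (rf (nat_lit 4)) (cs (rf (nat_lit 5)) (cs (rf (nat_lit 6)) (cs (rf (nat_lit 20)) (nd (nat_lit 275) (nat_lit 0) (cs (rf (nat_lit 21)) (cs (rf (nat_lit 22)) (nd (nat_lit 187) (nat_lit 0) (cs (lf (nat_lit 37) (nat_lit 186)) (nd (nat_lit 233) (nat_lit 0) (cs (lf (nat_lit 6) (nat_lit 230)) (nd (nat_lit 272) (nat_lit 0) (cs (lf (nat_lit 13) (nat_lit 250)) (rf (nat_lit 17)))))))))))))))) (nd (nat_lit 273) (nat_lit 0) (cs (rf (nat_lit 23)) (cs (rf (nat_lit 24)) (nd (nat_lit 275) (nat_lit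 0) (cs (rf (nat_lit 25)) (cs (rf (nat_lit 26)) (cs (rf (nat_lit 27)) (nd (nat_lit 296) (nat_lit 0) (cs (rf (nat_lit 28)) (cs (rf (nat_lit 29)) (nd (nat_lit 318) (nat_lit 0) (cs (lf (nat_lit 30) (nat_lit 252)) (rf (nat_lit 30)))))))))))))))))))))))) q111068 (by decide +kernel)
def q111479 : Q := Q.p (nat_lit 0x1000006000000000000000000000000000000000000000000000000000000000000000) (nat_lit 0x800002c0003fc000ef00038c000ff0007fc0003c0000e00000800000000000000000000000000000000000) (nat_lit 12)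
theorem c111479 : QOK q111479 := cut [q111457, q79292, q111462, q111470, q111471, q79181, q81761, q111466, q109316, q111473, q103885, q111225, q111235, q111238, q90020, q111179, q111234, q80335] ⟨c111457, c79292, c111462, c111470, c111471, c79181, c81761, c111466, c109316, c111473, c103885, c111225, c111235, c111238, c90020, c111179, c111234, c80335, trivial⟩ (nd (nat_lit 231) (nat_lit 0) (cs (rf (nat_lit 0)) (cs (nd (nat_lit 209) (nat_lit 0) (cs (lf (nat_lit 24) (nat_lit 187)) (nd (nat_lit 275) (nat_lit 0) (cs (lf (nat_lit 29) (nat_lit 209)) (nd (nat_lit 188) (nat_lit 0) (cs (lf (nat_lit 34) (nat_lit 187)) (rf (nat_lit 1)))))))) (cs (nd (nat_lit 232) (nat_lit 0) (cs (rf (nat_lit 2)) (cs (rf (nat_lit 3)) (rf (nat_lit 4))))) (cs (nd (nat_lit 232) (nat_lit 0) (cs (rf (nat_lit 5)) (cs (nd (nat_lit 233) (nat_lit 0) (cs (rf (nat_lit 6)) (rf (nat_lit 7)))) (nd (nat_lit 210) (nat_lit 0) (cs (rf (nat_lit 8)) (rf (nat_lit 9))))))) (cs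 (nd (nat_lit 275) (nat_lit 0) (cs (rf (nat_lit 10)) (cs (rf (nat_lit 11)) (cs (rf (nat_lit 12)) (rf (nat_lit 13)))))) (nd (nat_lit 232) (nat_lit 0) (cs (nd (nat_lit 275) (nat_lit 0) (cs (rf (nat_lit 14)) (cs (nd (nat_lit 297) (nat_lit 0) (cs (lf (nat_lit 30) (nat_lit 231)) (rf (nat_lit 15)))) (rf (nat_lit 16))))) (cs (rf (nat_lit 3)) (nd (nat_lit 298) (nat_lit 0) (cs (lf (nat_lit 47) (nat_lit 209)) (rf (nat_lit 17))))))))))))) q111479 (by decide +kernel)
def q111639 : Q := Q.p (nat_lit 0x1800006000010000000000000000000000000000000000000000000000000000000000) (nat_lit 0x5c0002700001c0000f0000fc0003f0000000000000000000000000000000000000000000000) (nat_lit 14)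
theorem c111639 : QOK q111639 := cut [q80360] ⟨c80360, trivial⟩ (nd (nat_lit 210) (nat_lit 0) (cs (lf (nat_lit 36) (nat_lit 187)) (rf (nat_lit 0)))) q111639 (by decide +kernel)
def q111764 : Q := Q.p (nat_lit 0x800006000000000000000000000000000000000000000000000000000000000000000) (nat_lit 0xf00003f0003fc000f700031c0000f0001fc0003f0000140000000000000000000000000000000000000000) (nat_lit 15)
theorem c111764 : QOK q111764 := cut [q111264, q111610, q111658, q101592, q111225, q111259, q111260, q111742, q79170, q111743, q106769, q79958, q111212, q79442, q111605, q99783] ⟨c111264, c111610, c111658, c101592, c111225, c111259, c111260, c111742, c79170, c111743, c106769, c79958, c111212, c79442, c111605, c99783, trivial⟩ (nd (nat_lit 276) (nat_lit 0) (cs (rf (nat_lit 0)) (cs (rf (nat_lit 1)) (cs (rf (nat_lit 2)) (cs (nd (nat_lit 231) (nat_lit 0) (cs (rf (nat_lit 3)) (cs (rf (nat_lit 4)) (nd (nat_lit 297) (nat_lit 0) (cs (rf (nat_lit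 5)) (cs (rf (nat_lit 6)) (nd (nat_lit 298) (nat_lit 0) (cs (lf (nat_lit 42) (nat_lit 231)) (nd (nat_lit 208) (nat_lit 0) (cs (lf (nat_lit 46) (nat_lit 208)) (nd (nat_lit 296) (nat_lit 0) (cs (lf (nat_lit 41) (nat_lit 230)) (nd (nat_lit 295) (nat_lit 0) (cs (lf (nat_lit 12) (nat_lit 272)) (nd (nat_lit 316) (nat_lit 0) (cs (lf (nat_lit 10) (nat_lit 294)) (nd (nat_lit 273) (nat_lit 0) (cs (lf (nat_lit 23) (nat_lit 272)) (nd (nat_lit 274) (nat_lit 0) (cs (lf (nat_lit 5) (nat_lit 273)) (nd (nat_lit 251) (nat_lit 0) (cs (lf (nat_lit 23) (nat_lit 250)) (nd (nat_lit 229) (nat_lit 0) (cs (lf (nat_lit 24) (nat_lit 207)) (nd (nat_lit 228) (nat_lit 0) (cs (lf (nat_lit 47) (nat_lit 206)) (lf (nat_lit 20) (nat_lit 228)))))))))))))))))))))))))))) (cs (rf (nat_lit 7)) (cs (nd (nat_lit 231) (nat_lit 0) (cs (rf (nat_lit 3)) (cs (rf (nat_lit 4)) (nd (nat_lit 297) (nat_lit 0) (cs (rf (nat_lit 5)) (cs (rf (nat_lit 6)) (nd (nat_lit 252) (nat_lit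 0) (cs (rf (nat_lit 8)) (cs (nd (nat_lit 298) (nat_lit 0) (cs (lf (nat_lit 42) (nat_lit 231)) (nd (nat_lit 296) (nat_lit 0) (cs (lf (nat_lit 41) (nat_lit 230)) (nd (nat_lit 277) (nat_lit 0) (cs (lf (nat_lit 6) (nat_lit 274)) (nd (nat_lit 230) (nat_lit 0) (cs (lf (nat_lit 47) (nat_lit 208)) (nd (nat_lit 229) (nat_lit 0) (cs (lf (nat_lit 0) (nat_lit 228)) (nd (nat_lit 274) (nat_lit 0) (cs (lf (nat_lit 47) (nat_lit 207)) (rf (nat_lit 9)))))))))))))) (nd (nat_lit 298) (nat_lit 0) (cs (lf (nat_lit 42) (nat_lit 231)) (nd (nat_lit 208) (nat_lit 0) (cs (lf (nat_lit 46) (nat_lit 208)) (nd (nat_lit 251) (nat_lit 0) (cs (lf (nat_lit 0) (nat_lit 250)) (nd (nat_lit 296) (nat_lit 0) (cs (lf (nat_lit 41) (nat_lit 230)) (nd (nat_lit 229) (nat_lit 0) (cs (lf (nat_lit 23) (nat_lit 228)) (nd (nat_lit 273) (nat_lit 0) (cs (lf (nat_lit 11) (nat_lit 250)) (rf (nat_lit 10))))))))))))))))))))))) (nd (nat_lit 277) (nat_lit 0) (cs (rf (nat_lit 11)) (cs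 (rf (nat_lit 12)) (nd (nat_lit 274) (nat_lit 0) (cs (rf (nat_lit 13)) (cs (rf (nat_lit 14)) (nd (nat_lit 251) (nat_lit 0) (cs (lf (nat_lit 1) (nat_lit 251)) (nd (nat_lit 299) (nat_lit 0) (cs (lf (nat_lit 5) (nat_lit 274)) (nd (nat_lit 321) (nat_lit 0) (cs (lf (nat_lit 42) (nat_lit 254)) (rf (nat_lit 15))))))))))))))))))))) q111764 (by decide +kernel)
def q111875 : Q := Q.p (nat_lit 0x200000800006000000000000000000000000000000000000000000000000000000000000000) (nat_lit 0x40000100000400001c000ff0003fc000140000000000000000000000000000000000000000000000) (nat_lit 10)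
theorem c111875 : QOK q111875 := cut [q22016, q88940, q111871] ⟨c22016, c88940, c111871, trivial⟩ (nd (nat_lit 231) (nat_lit 0) (cs (rf (nat_lit 0)) (cs (rf (nat_lit 1)) (rf (nat_lit 2))))) q111875 (by decide +kernel)
def q112307 : Q := Q.p (nat_lit 0x7000000000000000000000000000000000000000000000000000000000000000) (nat_lit 0x380000f0000f8003ff000780001df8000380000e0000280000000000000000000000000000000000000000) (nat_lit 11)
theorem c112307 : QOK q112307 := cut [q81318, q81335, q106889, q106893, q112306] ⟨c81318, c81335, c106889, c106893, c112306, trivial⟩ (nd (nat_lit 274) (nat_lit 0) (cs (rf (nat_lit 0)) (cs (rf (nat_lit 1)) (cs (rf (nat_lit 2)) (cs (rf (nat_lit 3)) (rf (nat_lit 4))))))) q112307 (by decide +kernel)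
def q112308 : Q := Q.p (nat_lit 0x7000000000000000000000000000000000000000000000000000000000000000) (nat_lit 0xff80038e001ddc00000000000000000000000000000000000000000000000000000000) (nat_lit 8)
theorem c112308 : QOK q112308 := cut [q81343, q81352, q86783] ⟨c81343, c81352, c86783, trivial⟩ (nd (nat_lit 273) (nat_lit 0) (cs (rf (nat_lit 0)) (cs (rf (nat_lit 1)) (rf (nat_lit 2))))) q112308 (by decide +kernel)
def q112435 : Q := Q.p (nat_lit 0x6000000000000000000000000000000000000000000000000000000000000000) (nat_lit 0xe0000380001e00007c0003e0003fb800f9c007ff8003fc000fc0001f00005400000000000000000000000000000000000) (nat_lit 16)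
theorem c112435 : QOK q112435 := cut [q81304, q81567, q111960, q80540, q80645, q95394, q112383, q112390, q80872, q81570, q80728, q80754, q80931, q112083, q7464, q102017, q81593, q103990, q112405, q103989, q81463, q106128, q81526, q81616, q81624, q111170, q111493, q111497, q111508, q93924, q98272, q105822, q112434] ⟨c81304, c81567, c111960, c80540, c80645, c95394, c112383, c112390, c80872, c81570, c80728, c80754, c80931, c112083, c7464, c102017, c81593, c103990, c112405, c103989, c81463, c106128, c81526, c81616, c81624, c111170, c111493, c111497, c111508, c93924, c98272, c105822, c112434, trivial⟩ (nd (nat_lit 255) (nat_lit 0) (cs (rf (nat_lit 0)) (cs (rf (nat_lit 1)) (cs (rf (nat_lit 2)) (cs (nd (nat_lit 256) (nat_lit 0) (cs (rf (nat_lit 3)) (cs (rf (nat_lit 4)) (rf (nat_lit 5))))) (cs (rf (nat_lit 6)) (cs (rf (nat_lit 7)) (cs (nd (nat_lit 231) (nat_lit 0) (cs (rf (nat_lit 8)) (cs (nd (nat_lit 256) (nat_lit 0) (cs (lf (nat_lit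 23) (nat_lit 230)) (nd (nat_lit 279) (nat_lit 0) (cs (lf (nat_lit 4) (nat_lit 253)) (nd (nat_lit 234) (nat_lit 0) (cs (lf (nat_lit 17) (nat_lit 231)) (nd (nat_lit 257) (nat_lit 0) (cs (lf (nat_lit 5) (nat_lit 254)) (nd (nat_lit 276) (nat_lit 0) (cs (lf (nat_lit 11) (nat_lit 253)) (rf (nat_lit 9)))))))))))) (cs (nd (nat_lit 209) (nat_lit 0) (cs (rf (nat_lit 10)) (cs (rf (nat_lit 11)) (cs (rf (nat_lit 12)) (cs (rf (nat_lit 13)) (nd (nat_lit 210) (nat_lit 0) (cs (rf (nat_lit 14)) (cs (rf (nat_lit 15)) (cs (nd (nat_lit 232) (nat_lit 0) (cs (nd (nat_lit 276) (nat_lit 0) (cs (lf (nat_lit 42) (nat_lit 209)) (nd (nat_lit 275) (nat_lit 0) (cs (lf (nat_lit 41) (nat_lit 209)) (rf (nat_lit 16)))))) (cs (nd (nat_lit 229) (nat_lit 0) (cs (lf (nat_lit 1) (nat_lit 229)) (nd (nat_lit 275) (nat_lit 0) (cs (lf (nat_lit 30) (nat_lit 209)) (rf (nat_lit 17)))))) (rf (nat_lit 18))))) (nd (nat_lit 232) (nat_lit 0) (cs (rf (nat_lit 18)) (cs (nd (nat_lit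 188) (nat_lit 0) (cs (lf (nat_lit 36) (nat_lit 165)) (lf (nat_lit 29) (nat_lit 188)))) (nd (nat_lit 166) (nat_lit 0) (cs (lf (nat_lit 37) (nat_lit 165)) (nd (nat_lit 276) (nat_lit 0) (cs (lf (nat_lit 42) (nat_lit 209)) (nd (nat_lit 229) (nat_lit 0) (cs (lf (nat_lit 1) (nat_lit 229)) (nd (nat_lit 211) (nat_lit 0) (cs (lf (nat_lit 35) (nat_lit 188)) (nd (nat_lit 212) (nat_lit 0) (cs (lf (nat_lit 6) (nat_lit 209)) (nd (nat_lit 234) (nat_lit 0) (cs (lf (nat_lit 5) (nat_lit 209)) (nd (nat_lit 208) (nat_lit 0) (cs (lf (nat_lit 19) (nat_lit 208)) (rf (nat_lit 19)))))))))))))))))))))))))))) (nd (nat_lit 276) (nat_lit 0) (cs (rf (nat_lit 20)) (cs (rf (nat_lit 21)) (cs (nd (nat_lit 209) (nat_lit 0) (cs (rf (nat_lit 11)) (nd (nat_lit 256) (nat_lit 0) (cs (rf (nat_lit 22)) (cs (rf (nat_lit 5)) (nd (nat_lit 233) (nat_lit 0) (cs (rf (nat_lit 23)) (cs (nd (nat_lit 278) (nat_lit 0) (cs (lf (nat_lit 5) (nat_lit 253)) (nd (nat_lit 300) (nat_lit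 0) (cs (lf (nat_lit 42) (nat_lit 233)) (nd (nat_lit 211) (nat_lit 0) (cs (lf (nat_lit 36) (nat_lit 188)) (lf (nat_lit 27) (nat_lit 211)))))))) (nd (nat_lit 278) (nat_lit 0) (cs (lf (nat_lit 5) (nat_lit 253)) (nd (nat_lit 300) (nat_lit 0) (cs (lf (nat_lit 42) (nat_lit 233)) (nd (nat_lit 234) (nat_lit 0) (cs (lf (nat_lit 17) (nat_lit 231)) (nd (nat_lit 299) (nat_lit 0) (cs (lf (nat_lit 41) (nat_lit 233)) (nd (nat_lit 212) (nat_lit 0) (cs (lf (nat_lit 40) (nat_lit 211)) (nd (nat_lit 213) (nat_lit 0) (cs (lf (nat_lit 35) (nat_lit 190)) (lf (nat_lit 13) (nat_lit 209)))))))))))))))))))))) (nd (nat_lit 298) (nat_lit 0) (cs (rf (nat_lit 24)) (cs (rf (nat_lit 25)) (cs (nd (nat_lit 320) (nat_lit 0) (cs (lf (nat_lit 47) (nat_lit 231)) (nd (nat_lit 233) (nat_lit 0) (cs (lf (nat_lit 34) (nat_lit 232)) (nd (nat_lit 211) (nat_lit 0) (cs (lf (nat_lit 33) (nat_lit 210)) (rf (nat_lit 26)))))))) (cs (rf (nat_lit 27)) (rf (nat_lit 28)))))))))))))))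 (cs (nd (nat_lit 252) (nat_lit 0) (cs (rf (nat_lit 29)) (cs (rf (nat_lit 30)) (rf (nat_lit 31))))) (rf (nat_lit 32))))))))))) q112435 (by decide +kernel)
def q112449 : Q := Q.p (nat_lit 0x7000000000000000000000000000000000000000000000000000000000000000) (nat_lit 0xf80003e0000fc001df00078c003fc0003fc0003c0000f00002800000000000000000000000000000000000) (nat_lit 18)
theorem c112449 : QOK q112449 := cut [q79118, q81677, q79199, q80292, q81704, q86323, q81711, q112203, q92260, q95740, q95766, q80881, q84611, q95755, q106364, q81878, q111803, q79116, q80981, q82280, q112443, q79123, q111038, q112444] ⟨c79118, c81677, c79199, c80292, c81704, c86323, c81711, c112203, c92260, c95740, c95766, c80881, c84611, c95755, c106364, c81878, c111803, c79116, c80981, c82280, c112443, c79123, c111038, c112444, trivial⟩ (nd (nat_lit 232) (nat_lit 0) (cs (rf (nat_lit 0)) (cs (rf (nat_lit 1)) (cs (nd (nat_lit 275) (nat_lit 0) (cs (rf (nat_lit 2)) (cs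 (rf (nat_lit 3)) (cs (rf (nat_lit 4)) (cs (rf (nat_lit 5)) (nd (nat_lit 231) (nat_lit 0) (cs (rf (nat_lit 6)) (rf (nat_lit 7))))))))) (nd (nat_lit 274) (nat_lit 0) (cs (rf (nat_lit 8)) (cs (rf (nat_lit 9)) (cs (rf (nat_lit 10)) (cs (nd (nat_lit 231) (nat_lit 0) (cs (rf (nat_lit 11)) (cs (rf (nat_lit 12)) (cs (rf (nat_lit 13)) (cs (rf (nat_lit 14)) (nd (nat_lit 275) (nat_lit 0) (cs (rf (nat_lit 15)) (cs (rf (nat_lit 16)) (rf (nat_lit 7)))))))))) (nd (nat_lit 233) (nat_lit 0) (cs (rf (nat_lit 17)) (cs (rf (nat_lit 18)) (nd (nat_lit 231) (nat_lit 0) (cs (rf (nat_lit 11)) (cs (rf (nat_lit 19)) (cs (rf (nat_lit 12)) (cs (rf (nat_lit 20)) (nd (nat_lit 210) (nat_lit 0) (cs (rf (nat_lit 21)) (cs (rf (nat_lit 22)) (rf (nat_lit 23)))))))))))))))))))))) q112449 (by decide +kernel)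
def q112454 : Q := Q.p (nat_lit 0x7000010000000000000000000000000000000000000000000000000000000000) (nat_lit 0x700001c0000700003e0000fe0001f80000c0000f8000fc0003e0000e80002800000000000000000000000000000000000) (nat_lit 14)
theorem c112454 : QOK q112454 := cut [q79199, q86323, q112451, q81239, q111587, q89150, q111861, q88936, q88940, q111079, q111080] ⟨c79199, c86323, c112451, c81239, c111587, c89150, c111861, c88936, c88940, c111079, c111080, trivial⟩ (nd (nat_lit 275) (nat_lit 0) (cs (rf (nat_lit 0)) (cs (rf (nat_lit 1)) (cs (rf (nat_lit 2)) (nd (nat_lit 297) (nat_lit 0) (cs (rf (nat_lit 3)) (cs (rf (nat_lit 4)) (cs (nd (nat_lit 319) (nat_lit 0) (cs (lf (nat_lit 35) (nat_lit 231)) (nd (nat_lit 230) (nat_lit 0) (cs (lf (nat_lit 46) (nat_lit 230)) (nd (nat_lit 208) (nat_lit 0) (cs (lf (nat_lit 45) (nat_lit 208)) (nd (nat_lit 320) (nat_lit 0) (cs (lf (nat_lit 29) (nat_lit 253)) (nd (nat_lit 341) (nat_lit 0) (cs (lf (nat_lit 34)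 (nat_lit 253)) (nd (nat_lit 362) (nat_lit 0) (cs (lf (nat_lit 40) (nat_lit 274)) (nd (nat_lit 363) (nat_lit 0) (cs (lf (nat_lit 41) (nat_lit 296)) (nd (nat_lit 298) (nat_lit 0) (cs (lf (nat_lit 30) (nat_lit 297)) (nd (nat_lit 364) (nat_lit 0) (cs (lf (nat_lit 29) (nat_lit 297)) (nd (nat_lit 296) (nat_lit 0) (cs (lf (nat_lit 47) (nat_lit 274)) (rf (nat_lit 5)))))))))))))))))))))) (cs (nd (nat_lit 319) (nat_lit 0) (cs (lf (nat_lit 35) (nat_lit 231)) (nd (nat_lit 230) (nat_lit 0) (cs (lf (nat_lit 46) (nat_lit 230)) (nd (nat_lit 208) (nat_lit 0) (cs (lf (nat_lit 45) (nat_lit 208)) (nd (nat_lit 318) (nat_lit 0) (cs (lf (nat_lit 41) (nat_lit 252)) (rf (nat_lit 6)))))))))) (nd (nat_lit 231) (nat_lit 0) (cs (rf (nat_lit 7)) (cs (rf (nat_lit 8)) (cs (rf (nat_lit 9)) (rf (nat_lit 10))))))))))))))) q112454 (by decide +kernel)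
def q112623 : Q := Q.p (nat_lit 0x6000000000000000000000000000000000000000000000000000000000000000) (nat_lit 0x140000f00007e0001fc001fdc0079e003ffc001fe0007e0001f80002a00000000000000000000000000000000000) (nat_lit 17)
theorem c112623 : QOK q112623 := cut [q81726, q111928, q112356, q112583, q79118, q79161, q79165, q81475, q81991, q112556, q81724, q93924, q98272, q79228, q80464, q111964, q79028, q82021, q6259, q79029, q79041, q79066, q10803, q87238, q110782, q79054, q112599, q79093, q1388, q79078, q79112, q81355, q87169, q81019, q81028, q82058, q110793, q81192, q111577, q111899, q81384, q82063, q79105, q81872, q82070, q79243, q105822] ⟨c81726, c111928, c112356, c112583, c79118, c79161, c79165, c81475, c81991, c112556, c81724, c93924, c98272, c79228, c80464, c111964, c79028, c82021, c6259, c79029, c79041, c79066, c10803, c87238, c110782, c79054, c112599, c79093, c1388, c79078, c79112, c81355, c87169, c81019, c81028, c82058, c110793,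 c81192, c111577, c111899, c81384, c82063, c79105, c81872, c82070, c79243, c105822, trivial⟩ (nd (nat_lit 252) (nat_lit 0) (cs (rf (nat_lit 0)) (cs (rf (nat_lit 1)) (cs (rf (nat_lit 2)) (cs (rf (nat_lit 3)) (cs (nd (nat_lit 232) (nat_lit 0) (cs (rf (nat_lit 4)) (cs (rf (nat_lit 5)) (cs (rf (nat_lit 6)) (nd (nat_lit 276) (nat_lit 0) (cs (rf (nat_lit 7)) (cs (rf (nat_lit 8)) (rf (nat_lit 9))))))))) (cs (nd (nat_lit 255) (nat_lit 0) (cs (rf (nat_lit 10)) (cs (rf (nat_lit 11)) (rf (nat_lit 12))))) (cs (nd (nat_lit 255) (nat_lit 0) (cs (rf (nat_lit 13)) (cs (rf (nat_lit 14)) (rf (nat_lit 15))))) (cs (nd (nat_lit 230) (nat_lit 0) (cs (rf (nat_lit 16)) (cs (nd (nat_lit 255) (nat_lit 0) (cs (lf (nat_lit 23) (nat_lit 229)) (nd (nat_lit 278) (nat_lit 0) (cs (lf (nat_lit 4) (nat_lit 252)) (nd (nat_lit 233) (nat_lit 0) (cs (lf (nat_lit 17) (nat_lit 230)) (rf (nat_lit 17)))))))) (cs (nd (nat_lit 208) (nat_lit 0) (cs (rf (nat_lit 18)) (cs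 (rf (nat_lit 19)) (cs (rf (nat_lit 20)) (cs (rf (nat_lit 21)) (nd (nat_lit 209) (nat_lit 0) (cs (rf (nat_lit 22)) (cs (rf (nat_lit 23)) (cs (nd (nat_lit 231) (nat_lit 0) (cs (rf (nat_lit 24)) (cs (nd (nat_lit 275) (nat_lit 0) (cs (lf (nat_lit 42) (nat_lit 208)) (nd (nat_lit 274) (nat_lit 0) (cs (lf (nat_lit 41) (nat_lit 208)) (rf (nat_lit 25)))))) (rf (nat_lit 26))))) (nd (nat_lit 231) (nat_lit 0) (cs (rf (nat_lit 27)) (cs (rf (nat_lit 26)) (nd (nat_lit 165) (nat_lit 0) (cs (lf (nat_lit 37) (nat_lit 164)) (nd (nat_lit 275) (nat_lit 0) (cs (lf (nat_lit 42) (nat_lit 208)) (nd (nat_lit 228) (nat_lit 0) (cs (lf (nat_lit 1) (nat_lit 228)) (nd (nat_lit 210) (nat_lit 0) (cs (lf (nat_lit 35) (nat_lit 187)) (nd (nat_lit 211) (nat_lit 0) (cs (lf (nat_lit 6) (nat_lit 208)) (nd (nat_lit 233) (nat_lit 0) (cs (lf (nat_lit 5) (nat_lit 208)) (nd (nat_lit 207) (nat_lit 0) (cs (rf (nat_lit 28)) (lf (nat_lit 19) (nat_lit 207))))))))))))))))))))))))))))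 (nd (nat_lit 275) (nat_lit 0) (cs (rf (nat_lit 29)) (cs (rf (nat_lit 30)) (cs (nd (nat_lit 208) (nat_lit 0) (cs (rf (nat_lit 18)) (cs (rf (nat_lit 19)) (nd (nat_lit 255) (nat_lit 0) (cs (rf (nat_lit 31)) (cs (rf (nat_lit 10)) (cs (rf (nat_lit 32)) (nd (nat_lit 232) (nat_lit 0) (cs (rf (nat_lit 33)) (cs (rf (nat_lit 34)) (cs (rf (nat_lit 35)) (rf (nat_lit 36))))))))))))) (nd (nat_lit 297) (nat_lit 0) (cs (rf (nat_lit 37)) (cs (rf (nat_lit 38)) (cs (rf (nat_lit 39)) (nd (nat_lit 231) (nat_lit 0) (cs (rf (nat_lit 40)) (cs (rf (nat_lit 41)) (nd (nat_lit 298) (nat_lit 0) (cs (lf (nat_lit 29) (nat_lit 231)) (nd (nat_lit 296) (nat_lit 0) (cs (lf (nat_lit 41) (nat_lit 230)) (nd (nat_lit 210) (nat_lit 0) (cs (lf (nat_lit 34) (nat_lit 209)) (rf (nat_lit 42))))))))))))))))))))))) (cs (nd (nat_lit 255) (nat_lit 0) (cs (rf (nat_lit 43)) (cs (rf (nat_lit 44)) (rf (nat_lit 11))))) (nd (nat_lit 255) (nat_lit 0) (cs (rf (nat_lit 45)) (cs (rf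 (nat_lit 46)) (rf (nat_lit 15))))))))))))))) q112623 (by decide +kernel)
def q112691 : Q := Q.p (nat_lit 0x6000000000000000000000000000000000000000000000000000000000000000) (nat_lit 0x140001f00007f8007fc007ff800f9c003bf8007f0000fc0001f00001400000000000000000000000000000000000) (nat_lit 16)
theorem c112691 : QOK q112691 := cut [q81098, q81988, q111962, q112390, q81882, q81889, q81907, q111779, q80872, q81898, q112624, q79217, q81927, q98272, q111965, q81875, q81911, q81917, q81924, q112629, q80763, q81928, q112669, q80867, q112027, q79165, q79216, q81730, q81956, q81959, q81977, q16726, q81986, q82070] ⟨c81098, c81988, c111962, c112390, c81882, c81889, c81907, c111779, c80872, c81898, c112624, c79217, c81927, c98272, c111965, c81875, c81911, c81917, c81924, c112629, c80763, c81928, c112669, c80867, c112027, c79165, c79216, c81730, c81956, c81959, c81977, c16726, c81986, c82070, trivial⟩ (nd (nat_lit 255) (nat_lit 0) (cs (rf (nat_lit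 0)) (cs (rf (nat_lit 1)) (cs (rf (nat_lit 2)) (cs (rf (nat_lit 3)) (cs (nd (nat_lit 275) (nat_lit 0) (cs (rf (nat_lit 4)) (cs (rf (nat_lit 5)) (cs (rf (nat_lit 6)) (cs (rf (nat_lit 7)) (nd (nat_lit 231) (nat_lit 0) (cs (rf (nat_lit 8)) (cs (rf (nat_lit 9)) (rf (nat_lit 10)))))))))) (cs (nd (nat_lit 252) (nat_lit 0) (cs (rf (nat_lit 11)) (cs (rf (nat_lit 12)) (cs (rf (nat_lit 13)) (rf (nat_lit 14)))))) (cs (nd (nat_lit 252) (nat_lit 0) (cs (rf (nat_lit 15)) (cs (rf (nat_lit 16)) (cs (rf (nat_lit 17)) (cs (rf (nat_lit 18)) (cs (rf (nat_lit 12)) (rf (nat_lit 19)))))))) (cs (nd (nat_lit 277) (nat_lit 0) (cs (rf (nat_lit 20)) (cs (rf (nat_lit 21)) (cs (rf (nat_lit 22)) (nd (nat_lit 232) (nat_lit 0) (cs (rf (nat_lit 23)) (cs (rf (nat_lit 24)) (cs (nd (nat_lit 299) (nat_lit 0) (cs (lf (nat_lit 42) (nat_lit 232)) (nd (nat_lit 252) (nat_lit 0) (cs (rf (nat_lit 25)) (cs (rf (nat_lit 26)) (cs (rf (nat_lit 27)) (nd (nat_lit 275) (nat_lit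 0) (cs (rf (nat_lit 28)) (cs (nd (nat_lit 297) (nat_lit 0) (cs (lf (nat_lit 30) (nat_lit 231)) (nd (nat_lit 274) (nat_lit 0) (cs (lf (nat_lit 11) (nat_lit 251)) (nd (nat_lit 300) (nat_lit 0) (cs (lf (nat_lit 20) (nat_lit 274)) (lf (nat_lit 2) (nat_lit 274)))))))) (nd (nat_lit 229) (nat_lit 0) (cs (lf (nat_lit 22) (nat_lit 229)) (rf (nat_lit 29))))))))))))) (nd (nat_lit 210) (nat_lit 0) (cs (lf (nat_lit 24) (nat_lit 188)) (nd (nat_lit 276) (nat_lit 0) (cs (rf (nat_lit 30)) (cs (nd (nat_lit 297) (nat_lit 0) (cs (lf (nat_lit 40) (nat_lit 209)) (nd (nat_lit 251) (nat_lit 0) (cs (lf (nat_lit 1) (nat_lit 251)) (nd (nat_lit 298) (nat_lit 0) (cs (lf (nat_lit 41) (nat_lit 231)) (nd (nat_lit 320) (nat_lit 0) (cs (lf (nat_lit 35) (nat_lit 232)) (lf (nat_lit 30) (nat_lit 254)))))))))) (nd (nat_lit 251) (nat_lit 0) (cs (lf (nat_lit 1) (nat_lit 251)) (nd (nat_lit 209) (nat_lit 0) (cs (lf (nat_lit 47) (nat_lit 187)) (nd (nat_lit 189) (nat_lit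 0) (cs (lf (nat_lit 34) (nat_lit 188)) (nd (nat_lit 275) (nat_lit 0) (cs (lf (nat_lit 41) (nat_lit 209)) (nd (nat_lit 274) (nat_lit 0) (cs (rf (nat_lit 31)) (lf (nat_lit 12) (nat_lit 251))))))))))))))))))))))))) (nd (nat_lit 252) (nat_lit 0) (cs (rf (nat_lit 15)) (cs (rf (nat_lit 16)) (cs (rf (nat_lit 32)) (cs (rf (nat_lit 33)) (rf (nat_lit 19)))))))))))))))) q112691 (by decide +kernel)
def q112741 : Q := Q.p (nat_lit 0x6000000000000000000000000000000000000000000000000000000000000000) (nat_lit 0x600001c0001f00007c0001fc003bfc00f9e007ffc007fc000fc0001f00005400000000000000000000000000000000000) (nat_lit 19)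
theorem c112741 : QOK q112741 := cut [q81567, q82109, q111959, q112300, q112694, q80872, q82089, q80728, q80931, q112083, q111224, q112086, q112284, q112286, q112624, q80609, q81927, q93924, q80811, q82110, q80393, q81154, q81176, q112380, q81106, q112708, q79923, q112716, q81149, q80463, q80608, q82150, q81413, q90151, q111537, q79744, q80335, q81429, q28145, q81872, q82070] ⟨c81567, c82109, c111959, c112300, c112694, c80872, c82089, c80728, c80931, c112083, c111224, c112086, c112284, c112286, c112624, c80609, c81927, c93924, c80811, c82110, c80393, c81154, c81176, c112380, c81106, c112708, c79923, c112716, c81149, c80463, c80608, c82150, c81413, c90151, c111537, c79744, c80335, c81429, c28145, c81872, c82070, trivial⟩ (nd (nat_lit 255) (nat_lit 0) (cs (rf (nat_lit 0)) (cs (rf (nat_lit 1)) (cs (rf (nat_lit 2)) (cs (rf (nat_lit 3)) (cs (rf (nat_lit 4)) (cs (nd (nat_lit 231) (nat_lit 0) (cs (rf (nat_lit 5)) (cs (rf (nat_lit 6))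 (cs (nd (nat_lit 209) (nat_lit 0) (cs (rf (nat_lit 7)) (cs (rf (nat_lit 8)) (cs (rf (nat_lit 9)) (nd (nat_lit 275) (nat_lit 0) (cs (rf (nat_lit 10)) (nd (nat_lit 276) (nat_lit 0) (cs (lf (nat_lit 29) (nat_lit 209)) (rf (nat_lit 11)))))))))) (nd (nat_lit 275) (nat_lit 0) (cs (rf (nat_lit 12)) (cs (rf (nat_lit 13)) (rf (nat_lit 14))))))))) (cs (nd (nat_lit 252) (nat_lit 0) (cs (rf (nat_lit 15)) (cs (rf (nat_lit 16)) (rf (nat_lit 17))))) (cs (nd (nat_lit 233) (nat_lit 0) (cs (rf (nat_lit 18)) (cs (rf (nat_lit 19)) (cs (nd (nat_lit 211) (nat_lit 0) (cs (rf (nat_lit 20)) (cs (rf (nat_lit 21)) (cs (rf (nat_lit 22)) (cs (rf (nat_lit 23)) (nd (nat_lit 210) (nat_lit 0) (cs (rf (nat_lit 24)) (cs (nd (nat_lit 277) (nat_lit 0) (cs (lf (nat_lit 47) (nat_lit 188)) (nd (nat_lit 276) (nat_lit 0) (cs (lf (nat_lit 41) (nat_lit 210)) (nd (nat_lit 212) (nat_lit 0) (cs (lf (nat_lit 35) (nat_lit 189)) (nd (nat_lit 234) (nat_lit 0) (cs (lf (nat_lit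 30) (nat_lit 211)) (nd (nat_lit 209) (nat_lit 0) (cs (lf (nat_lit 5) (nat_lit 209)) (lf (nat_lit 0) (nat_lit 208)))))))))))) (cs (nd (nat_lit 232) (nat_lit 0) (cs (nd (nat_lit 234) (nat_lit 0) (cs (lf (nat_lit 6) (nat_lit 231)) (nd (nat_lit 208) (nat_lit 0) (cs (lf (nat_lit 1) (nat_lit 208)) (rf (nat_lit 25)))))) (cs (nd (nat_lit 277) (nat_lit 0) (cs (lf (nat_lit 42) (nat_lit 210)) (nd (nat_lit 276) (nat_lit 0) (cs (lf (nat_lit 41) (nat_lit 210)) (nd (nat_lit 187) (nat_lit 0) (cs (lf (nat_lit 46) (nat_lit 187)) (nd (nat_lit 275) (nat_lit 0) (cs (lf (nat_lit 41) (nat_lit 209)) (nd (nat_lit 273) (nat_lit 0) (cs (rf (nat_lit 26)) (lf (nat_lit 13) (nat_lit 251)))))))))))) (cs (rf (nat_lit 27)) (nd (nat_lit 276) (nat_lit 0) (cs (lf (nat_lit 30) (nat_lit 210)) (nd (nat_lit 275) (nat_lit 0) (cs (lf (nat_lit 41) (nat_lit 209)) (nd (nat_lit 273) (nat_lit 0) (cs (lf (nat_lit 13) (nat_lit 251)) (nd (nat_lit 234) (nat_lit 0) (cs (lf (nat_lit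 6) (nat_lit 231)) (rf (nat_lit 25)))))))))))))) (nd (nat_lit 232) (nat_lit 0) (cs (rf (nat_lit 27)) (nd (nat_lit 188) (nat_lit 0) (cs (lf (nat_lit 41) (nat_lit 187)) (lf (nat_lit 24) (nat_lit 166))))))))))))))) (nd (nat_lit 276) (nat_lit 0) (cs (rf (nat_lit 28)) (cs (nd (nat_lit 211) (nat_lit 0) (cs (rf (nat_lit 21)) (nd (nat_lit 252) (nat_lit 0) (cs (rf (nat_lit 29)) (cs (rf (nat_lit 30)) (cs (rf (nat_lit 16)) (rf (nat_lit 31)))))))) (nd (nat_lit 298) (nat_lit 0) (cs (rf (nat_lit 32)) (cs (rf (nat_lit 33)) (cs (rf (nat_lit 34)) (nd (nat_lit 232) (nat_lit 0) (cs (rf (nat_lit 35)) (cs (rf (nat_lit 36)) (cs (rf (nat_lit 37)) (nd (nat_lit 231) (nat_lit 0) (cs (lf (nat_lit 47) (nat_lit 209)) (nd (nat_lit 299) (nat_lit 0) (cs (lf (nat_lit 29) (nat_lit 232)) (nd (nat_lit 229) (nat_lit 0) (cs (lf (nat_lit 1) (nat_lit 229)) (nd (nat_lit 297) (nat_lit 0) (cs (lf (nat_lit 41) (nat_lit 231)) (nd (nat_lit 252) (nat_lit 0) (cs (lf (nat_lit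 12) (nat_lit 229)) (nd (nat_lit 274) (nat_lit 0) (cs (lf (nat_lit 11) (nat_lit 251)) (nd (nat_lit 275) (nat_lit 0) (cs (lf (nat_lit 18) (nat_lit 274)) (nd (nat_lit 296) (nat_lit 0) (cs (lf (nat_lit 41) (nat_lit 230)) (rf (nat_lit 38))))))))))))))))))))))))))))))))) (nd (nat_lit 252) (nat_lit 0) (cs (rf (nat_lit 39)) (cs (rf (nat_lit 40)) (rf (nat_lit 17)))))))))))))) q112741 (by decide +kernel)
def q112847 : Q := Q.p (nat_lit 0xc00003000000000000000000000000000000000000000000000000000000000000000) (nat_lit 0x380000f80007e0000380000e0000780003e0000e0000000000000000000000000000000000000000000000) (nat_lit 13)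
theorem c112847 : QOK q112847 := cut [q79068, q108382, q83734, q108383, q99038] ⟨c79068, c108382, c83734, c108383, c99038, trivial⟩ (nd (nat_lit 230) (nat_lit 0) (cs (rf (nat_lit 0)) (cs (rf (nat_lit 1)) (nd (nat_lit 296) (nat_lit 0) (cs (rf (nat_lit 2)) (cs (rf (nat_lit 3)) (nd (nat_lit 297) (nat_lit 0) (cs (lf (nat_lit 29) (nat_lit 230)) (rf (nat_lit 4)))))))))) q112847 (by decide +kernel)
def q112910 : Q := Q.p (nat_lit 0xc00002000000000000000000000000000000000000000000000000000000000000000) (nat_lit 0x700007c0001f8000ff000138001df000770000dc000370000000000000000000000000000000000000000000000) (nat_lit 14)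
theorem c112910 : QOK q112910 := cut [q97408, q97409, q98857, q14764, q97318, q98846, q112893, q99002, q99003, q108618, q98997, q112896, q55779, q112906] ⟨c97408, c97409, c98857, c14764, c97318, c98846, c112893, c99002, c99003, c108618, c98997, c112896, c55779, c112906, trivial⟩ (nd (nat_lit 273) (nat_lit 0) (cs (rf (nat_lit 0)) (cs (rf (nat_lit 1)) (cs (rf (nat_lit 2)) (nd (nat_lit 295) (nat_lit 0) (cs (rf (nat_lit 3)) (cs (nd (nat_lit 254) (nat_lit 0) (cs (rf (nat_lit 4)) (nd (nat_lit 276) (nat_lit 0) (cs (lf (nat_lit 11) (nat_lit 272)) (nd (nat_lit 250) (nat_lit 0) (cs (lf (nat_lit 22) (nat_lit 250)) (rf (nat_lit 5)))))))) (cs (rf (nat_lit 6)) (nd (nat_lit 317) (nat_lit 0) (cs (rf (nat_lit 7)) (cs (rf (nat_lit 8)) (cs (rf (nat_lit 9)) (nd (nat_lit 251) (nat_lit 0) (cs (rf (nat_lit 10)) (cs (rf (nat_lit 11)) (cs (nd (nat_lit 316) (nat_lit 0) (cs (lf (nat_lit 41) (nat_lit 250)) (nd (nat_lit 318) (nat_lit 0) (cs (lf (nat_lit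 29) (nat_lit 251)) (nd (nat_lit 228) (nat_lit 0) (cs (lf (nat_lit 46) (nat_lit 228)) (nd (nat_lit 252) (nat_lit 0) (cs (lf (nat_lit 35) (nat_lit 229)) (nd (nat_lit 254) (nat_lit 0) (cs (lf (nat_lit 6) (nat_lit 251)) (nd (nat_lit 232) (nat_lit 0) (cs (lf (nat_lit 17) (nat_lit 229)) (nd (nat_lit 188) (nat_lit 0) (cs (lf (nat_lit 37) (nat_lit 187)) (nd (nat_lit 297) (nat_lit 0) (cs (rf (nat_lit 12)) (lf (nat_lit 30) (nat_lit 231)))))))))))))))))) (rf (nat_lit 13)))))))))))))))))) q112910 (by decide +kernel)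
def q112969 : Q := Q.p (nat_lit 0x800003000000000000000000000000000000000000000000000000000000000000000) (nat_lit 0xb80003e0001de000778001c60007f8001fe0003e0000400000000000000000000000000000000000000000) (nat_lit 16)
theorem c112969 : QOK q112969 := cut [q84408, q98384, q98389, q112955, q112959, q112961, q1310, q98380, q105248, q98468, q98471, q105279, q105291, q56839, q98472, q105293, q98479, q105286, q110059] ⟨c84408, c98384, c98389, c112955, c112959, c112961, c1310, c98380, c105248, c98468, c98471, c105279, c105291, c56839, c98472, c105293, c98479, c105286, c110059, trivial⟩ (nd (nat_lit 274) (nat_lit 0) (cs (nd (nat_lit 273) (nat_lit 0) (cs (rf (nat_lit 0)) (cs (rf (nat_lit 1)) (rf (nat_lit 2))))) (cs (rf (nat_lit 3)) (cs (rf (nat_lit 4)) (cs (rf (nat_lit 5)) (cs (nd (nat_lit 273) (nat_lit 0) (cs (rf (nat_lit 0)) (cs (rf (nat_lit 1)) (nd (nat_lit 276) (nat_lit 0) (cs (rf (nat_lit 6)) (cs (rf (nat_lit 7)) (rf (nat_lit 8))))))))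 (nd (nat_lit 230) (nat_lit 0) (cs (rf (nat_lit 9)) (cs (rf (nat_lit 10)) (cs (rf (nat_lit 11)) (cs (rf (nat_lit 12)) (cs (nd (nat_lit 231) (nat_lit 0) (cs (rf (nat_lit 13)) (cs (rf (nat_lit 14)) (rf (nat_lit 15))))) (nd (nat_lit 231) (nat_lit 0) (cs (rf (nat_lit 16)) (cs (rf (nat_lit 17)) (cs (rf (nat_lit 15)) (nd (nat_lit 209) (nat_lit 0) (cs (lf (nat_lit 36) (nat_lit 186)) (nd (nat_lit 186) (nat_lit 0) (cs (lf (nat_lit 25) (nat_lit 186)) (rf (nat_lit 18)))))))))))))))))))))) q112969 (by decide +kernel)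
def q112978 : Q := Q.p (nat_lit 0xc00003000000000000000000000000000000000000000000000000000000000000000) (nat_lit 0x380000e00001e0000200000e0007f8001fe000060000000000000000000000000000000000000000000000) (nat_lit 13)
theorem c112978 : QOK q112978 := cut [q11506, q110345, q91675, q105226, q98675] ⟨c11506, c110345, c91675, c105226, c98675, trivial⟩ (nd (nat_lit 296) (nat_lit 0) (cs (rf (nat_lit 0)) (cs (rf (nat_lit 1)) (nd (nat_lit 230) (nat_lit 0) (cs (rf (nat_lit 2)) (cs (rf (nat_lit 3)) (nd (nat_lit 231) (nat_lit 0) (cs (lf (nat_lit 36) (nat_lit 208)) (rf (nat_lit 4)))))))))) q112978 (by decide +kernel)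
def q113055 : Q := Q.p (nat_lit 0x800003000000000000000000000000000000000000000000000000000000000000000) (nat_lit 0xc0000300000c0001f7c003ce001fbc000e0000380000000000000000000000000000000000000000000000) (nat_lit 12)
theorem c113055 : QOK q113055 := cut [q1999, q2066, q2091, q98378, q98507, q112944, q113048, q113051, q108825] ⟨c1999, c2066, c2091, c98378, c98507, c112944, c113048, c113051, c108825, trivial⟩ (nd (nat_lit 251) (nat_lit 0) (cs (rf (nat_lit 0)) (cs (rf (nat_lit 1)) (cs (rf (nat_lit 2)) (cs (rf (nat_lit 3)) (nd (nat_lit 254) (nat_lit 0) (cs (rf (nat_lit 4)) (cs (rf (nat_lit 5)) (cs (nd (nat_lit 228) (nat_lit 0) (cs (lf (nat_lit 22) (nat_lit 228)) (rf (nat_lit 6)))) (cs (nd (nat_lit 228) (nat_lit 0) (cs (lf (nat_lit 22) (nat_lit 228)) (rf (nat_lit 7)))) (nd (nat_lit 228) (nat_lit 0) (cs (lf (nat_lit 22) (nat_lit 228)) (rf (nat_lit 8)))))))))))))) q113055 (by decide +kernel)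
def q113067 : Q := Q.p (nat_lit 0x800003800000000000000000000000000000000000000000000000000000000000000) (nat_lit 0xc0000300000c0000f40003c00003f0000e0000380000000000000000000000000000000000000000000000) (nat_lit 11)
theorem c113067 : QOK q113067 := cut [q94688, q112944, q112952, q113066] ⟨c94688, c112944, c112952, c113066, trivial⟩ (nd (nat_lit 254) (nat_lit 0) (cs (rf (nat_lit 0)) (cs (rf (nat_lit 1)) (cs (rf (nat_lit 2)) (rf (nat_lit 3)))))) q113067 (by decide +kernel)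
def q113070 : Q := Q.p (nat_lit 0x800003800000000000000000000000000000000000000000000000000000000000000) (nat_lit 0xc0000300000c0001f70003c0001fc0000e0000380000000000000000000000000000000000000000000000) (nat_lit 11)
theorem c113070 : QOK q113070 := cut [q98507, q108825, q113048, q113051, q113066] ⟨c98507, c108825, c113048, c113051, c113066, trivial⟩ (nd (nat_lit 254) (nat_lit 0) (cs (rf (nat_lit 0)) (cs (rf (nat_lit 1)) (cs (rf (nat_lit 2)) (cs (rf (nat_lit 3)) (rf (nat_lit 4))))))) q113070 (by decide +kernel)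
def q113095 : Q := Q.p (nat_lit 0xa00003800000000000000000000000000000000000000000000000000000000000000) (nat_lit 0x780001e0000dc000340000c00000f8000380000c0000000000000000000000000000000000000000000000) (nat_lit 8)
theorem c113095 : QOK q113095 := cut [q89807, q112997, q94412] ⟨c89807, c112997, c94412, trivial⟩ (nd (nat_lit 274) (nat_lit 0) (cs (rf (nat_lit 0)) (cs (rf (nat_lit 1)) (nd (nat_lit 254) (nat_lit 0) (cs (lf (nat_lit 6) (nat_lit 251)) (nd (nat_lit 276) (nat_lit 0) (cs (lf (nat_lit 5) (nat_lit 251)) (nd (nat_lit 228) (nat_lit 0) (cs (lf (nat_lit 22) (nat_lit 228)) (rf (nat_lit 2))))))))))) q113095 (by decide +kernel)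
def q113113 : Q := Q.p (nat_lit 0x800002000008000000000000000000000000000000000000000000000000000000000) (nat_lit 0x50000ff8001fc0007780004000014000050000000000000000000000000000000000000000000000000000) (nat_lit 11)
theorem c113113 : QOK q113113 := cut [q98797, q101546, q108995, q113112] ⟨c98797, c101546, c108995, c113112, trivial⟩ (nd (nat_lit 297) (nat_lit 0) (cs (rf (nat_lit 0)) (cs (rf (nat_lit 1)) (cs (rf (nat_lit 2)) (rf (nat_lit 3)))))) q113113 (by decide +kernel)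
def q113129 : Q := Q.p (nat_lit 0x800002000008000000000000000000000000000000000000000000000000000000000) (nat_lit 0x5000014000090000f78003fc000ff8001500004000000000000000000000000000000000000) (nat_lit 13)
theorem c113129 : QOK q113129 := cut [q81901, q100882, q103132, q84980, q99303, q91319, q107387] ⟨c81901, c100882, c103132, c84980, c99303, c91319, c107387, trivial⟩ (nd (nat_lit 209) (nat_lit 0) (cs (rf (nat_lit 0)) (cs (rf (nat_lit 1)) (cs (rf (nat_lit 2)) (nd (nat_lit 210) (nat_lit 0) (cs (lf (nat_lit 35) (nat_lit 187)) (nd (nat_lit 211) (nat_lit 0) (cs (rf (nat_lit 3)) (cs (nd (nat_lit 212) (nat_lit 0) (cs (lf (nat_lit 11) (nat_lit 208)) (nd (nat_lit 190) (nat_lit 0) (cs (lf (nat_lit 17) (nat_lit 187)) (nd (nat_lit 234) (nat_lit 0) (cs (lf (nat_lit 5) (nat_lit 209)) (nd (nat_lit 276) (nat_lit 0) (cs (lf (nat_lit 29) (nat_lit 209)) (nd (nat_lit 274) (nat_lit 0) (cs (lf (nat_lit 41) (nat_lit 208)) (rf (nat_lit 4))))))))))))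 (cs (nd (nat_lit 208) (nat_lit 0) (cs (lf (nat_lit 47) (nat_lit 186)) (nd (nat_lit 276) (nat_lit 0) (cs (lf (nat_lit 29) (nat_lit 209)) (rf (nat_lit 5)))))) (nd (nat_lit 276) (nat_lit 0) (cs (lf (nat_lit 29) (nat_lit 209)) (rf (nat_lit 6)))))))))))))) q113129 (by decide +kernel)
def q113256 : Q := Q.p (nat_lit 0x800003000000000000000000000000000000000000000000000000000000000000000) (nat_lit 0x140003fe0007f0001fe000778000ce0007c000050000040000000000000000000000000000000000000000000000) (nat_lit 14)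
theorem c113256 : QOK q113256 := cut [q88933, q113150, q113199, q90752, q90849, q90494, q105048, q90750, q88337, q15058, q97550, q90845, q108441, q99425, q2180, q12665] ⟨c88933, c113150, c113199, c90752, c90849, c90494, c105048, c90750, c88337, c15058, c97550, c90845, c108441, c99425, c2180, c12665, trivial⟩ (nd (nat_lit 297) (nat_lit 0) (cs (rf (nat_lit 0)) (cs (rf (nat_lit 1)) (cs (rf (nat_lit 2)) (nd (nat_lit 296) (nat_lit 0) (cs (rf (nat_lit 3)) (cs (rf (nat_lit 4)) (cs (nd (nat_lit 276) (nat_lit 0) (cs (rf (nat_lit 5)) (cs (rf (nat_lit 6)) (cs (nd (nat_lit 298) (nat_lit 0) (cs (rf (nat_lit 7)) (cs (nd (nat_lit 250) (nat_lit 0) (cs (lf (nat_lit 1) (nat_lit 250)) (nd (nat_lit 295) (nat_lit 0) (cs (lf (nat_lit 12) (nat_lit 272)) (nd (nat_lit 272) (nat_lit 0) (cs (lf (nat_lit 22) (nat_lit 272)) (nd (nat_lit 317) (nat_lit 0) (cs (lf (nat_lit 11) (nat_lit 294)) (nd (nat_lit 230) (nat_lit 0) (cs (rf (nat_lit 8)) (lf (nat_lit 38)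 (nat_lit 229)))))))))))) (nd (nat_lit 295) (nat_lit 0) (cs (lf (nat_lit 12) (nat_lit 272)) (rf (nat_lit 9))))))) (nd (nat_lit 294) (nat_lit 0) (cs (lf (nat_lit 13) (nat_lit 272)) (rf (nat_lit 10)))))))) (nd (nat_lit 276) (nat_lit 0) (cs (rf (nat_lit 10)) (cs (rf (nat_lit 6)) (nd (nat_lit 274) (nat_lit 0) (cs (rf (nat_lit 11)) (cs (rf (nat_lit 12)) (cs (nd (nat_lit 251) (nat_lit 0) (cs (lf (nat_lit 0) (nat_lit 250)) (nd (nat_lit 208) (nat_lit 0) (cs (lf (nat_lit 25) (nat_lit 208)) (nd (nat_lit 318) (nat_lit 0) (cs (lf (nat_lit 30) (nat_lit 252)) (nd (nat_lit 317) (nat_lit 0) (cs (lf (nat_lit 41) (nat_lit 251)) (nd (nat_lit 298) (nat_lit 0) (cs (lf (nat_lit 6) (nat_lit 295)) (nd (nat_lit 273) (nat_lit 0) (cs (lf (nat_lit 0) (nat_lit 272)) (nd (nat_lit 320) (nat_lit 0) (cs (lf (nat_lit 42) (nat_lit 253)) (nd (nat_lit 254) (nat_lit 0) (cs (lf (nat_lit 17) (nat_lit 251)) (rf (nat_lit 13)))))))))))))))))) (nd (nat_lit 273) (nat_lit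 0) (cs (rf (nat_lit 14)) (cs (rf (nat_lit 15)) (nd (nat_lit 318) (nat_lit 0) (cs (lf (nat_lit 30) (nat_lit 252)) (nd (nat_lit 294) (nat_lit 0) (cs (lf (nat_lit 10) (nat_lit 272)) (nd (nat_lit 298) (nat_lit 0) (cs (lf (nat_lit 5) (nat_lit 273)) (nd (nat_lit 320) (nat_lit 0) (cs (lf (nat_lit 42) (nat_lit 253)) (nd (nat_lit 254) (nat_lit 0) (cs (lf (nat_lit 17) (nat_lit 251)) (nd (nat_lit 232) (nat_lit 0) (cs (lf (nat_lit 36) (nat_lit 209)) (nd (nat_lit 251) (nat_lit 0) (cs (lf (nat_lit 23) (nat_lit 250)) (lf (nat_lit 17) (nat_lit 229)))))))))))))))))))))))))))))))))) q113256 (by decide +kernel)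
def q113272 : Q := Q.p (nat_lit 0x800003000000000000000000000000000000000000000000000000000000000000000) (nat_lit 0x140003fe0007f0001fe00037c0004e0003fc00050000140000000000000000000000000000000000000000000000) (nat_lit 12)
theorem c113272 : QOK q113272 := cut [q88933, q113150, q113199, q2091, q24207, q98378, q79111, q88337, q98881, q106784, q90752] ⟨c88933, c113150, c113199, c2091, c24207, c98378, c79111, c88337, c98881, c106784, c90752, trivial⟩ (nd (nat_lit 297) (nat_lit 0) (cs (rf (nat_lit 0)) (cs (rf (nat_lit 1)) (cs (rf (nat_lit 2)) (nd (nat_lit 251) (nat_lit 0) (cs (rf (nat_lit 3)) (cs (rf (nat_lit 4)) (cs (rf (nat_lit 5)) (nd (nat_lit 230) (nat_lit 0) (cs (rf (nat_lit 6)) (cs (rf (nat_lit 7)) (nd (nat_lit 254) (nat_lit 0) (cs (rf (nat_lit 8)) (cs (nd (nat_lit 228) (nat_lit 0) (cs (lf (nat_lit 22) (nat_lit 228)) (nd (nat_lit 272) (nat_lit 0) (cs (lf (nat_lit 10) (nat_lit 250)) (rf (nat_lit 9)))))) (nd (nat_lit 296) (nat_lit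 0) (cs (rf (nat_lit 10)) (nd (nat_lit 273) (nat_lit 0) (cs (lf (nat_lit 11) (nat_lit 250)) (nd (nat_lit 276) (nat_lit 0) (cs (lf (nat_lit 5) (nat_lit 251)) (nd (nat_lit 295) (nat_lit 0) (cs (lf (nat_lit 30) (nat_lit 229)) (lf (nat_lit 12) (nat_lit 272)))))))))))))))))))))))) q113272 (by decide +kernel)
def q113346 : Q := Q.p (nat_lit 0x800002000000000000000000000000000000000000000000000000000000000000000) (nat_lit 0xd8000760007fe000f78003df800ffe001ff8003c0000500000000000000000000000000000000000000000) (nat_lit 16)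
theorem c113346 : QOK q113346 := cut [q16715, q99831, q2187, q22169, q113278, q113283, q99782, q97549, q108826, q13449, q105236, q109265, q113288, q113298, q91107, q100321, q100461, q100469, q97957, q99594, q109417, q113304, q112792, q109347, q87016, q109280, q109313, q107539, q111234, q106222, q113314, q104749, q113302, q97350, q103134, q90494, q94424, q109422, q113338, q113345] ⟨c16715, c99831, c2187, c22169, c113278, c113283, c99782, c97549, c108826, c13449, c105236, c109265, c113288, c113298, c91107, c100321, c100461, c100469, c97957, c99594, c109417, c113304, c112792, c109347, c87016, c109280, c109313, c107539, c111234, c106222, c113314, c104749, c113302, c97350, c103134, c90494, c94424, c109422, c113338, c113345, trivial⟩ (nd (nat_lit 276) (nat_lit 0) (cs (nd (nat_lit 277) (nat_lit 0) (cs (rf (nat_lit 0)) (cs (nd (nat_lit 278) (nat_lit 0) (cs (lf (nat_lit 23) (nat_lit 252)) (nd (nat_lit 256) (nat_lit 0) (cs (lf (nat_lit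 17) (nat_lit 253)) (nd (nat_lit 300) (nat_lit 0) (cs (lf (nat_lit 5) (nat_lit 275)) (rf (nat_lit 1)))))))) (cs (nd (nat_lit 274) (nat_lit 0) (cs (rf (nat_lit 2)) (cs (rf (nat_lit 3)) (rf (nat_lit 4))))) (nd (nat_lit 278) (nat_lit 0) (cs (rf (nat_lit 1)) (rf (nat_lit 5)))))))) (cs (nd (nat_lit 277) (nat_lit 0) (cs (rf (nat_lit 0)) (cs (rf (nat_lit 6)) (cs (nd (nat_lit 252) (nat_lit 0) (cs (rf (nat_lit 7)) (cs (rf (nat_lit 8)) (nd (nat_lit 274) (nat_lit 0) (cs (rf (nat_lit 9)) (cs (rf (nat_lit 10)) (cs (nd (nat_lit 299) (nat_lit 0) (cs (lf (nat_lit 5) (nat_lit 274)) (rf (nat_lit 11)))) (rf (nat_lit 12))))))))) (rf (nat_lit 13)))))) (cs (nd (nat_lit 231) (nat_lit 0) (cs (rf (nat_lit 14)) (cs (rf (nat_lit 15)) (cs (rf (nat_lit 16)) (cs (rf (nat_lit 17)) (nd (nat_lit 230) (nat_lit 0) (cs (rf (nat_lit 18)) (cs (rf (nat_lit 19)) (cs (rf (nat_lit 20)) (rf (nat_lit 21))))))))))) (cs (nd (nat_lit 231) (nat_lit 0) (cs (rf (nat_lit 14))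 (cs (rf (nat_lit 15)) (cs (rf (nat_lit 22)) (nd (nat_lit 230) (nat_lit 0) (cs (rf (nat_lit 18)) (cs (rf (nat_lit 19)) (cs (rf (nat_lit 23)) (rf (nat_lit 21)))))))))) (cs (nd (nat_lit 231) (nat_lit 0) (cs (rf (nat_lit 14)) (cs (rf (nat_lit 15)) (cs (rf (nat_lit 16)) (cs (rf (nat_lit 17)) (nd (nat_lit 232) (nat_lit 0) (cs (rf (nat_lit 24)) (cs (rf (nat_lit 25)) (cs (rf (nat_lit 26)) (nd (nat_lit 254) (nat_lit 0) (cs (rf (nat_lit 27)) (cs (rf (nat_lit 28)) (nd (nat_lit 298) (nat_lit 0) (cs (lf (nat_lit 42) (nat_lit 231)) (rf (nat_lit 29)))))))))))))))) (cs (nd (nat_lit 277) (nat_lit 0) (cs (rf (nat_lit 0)) (cs (rf (nat_lit 6)) (cs (rf (nat_lit 13)) (nd (nat_lit 274) (nat_lit 0) (cs (rf (nat_lit 4)) (cs (rf (nat_lit 12)) (nd (nat_lit 299) (nat_lit 0) (cs (lf (nat_lit 5) (nat_lit 274)) (rf (nat_lit 30))))))))))) (cs (nd (nat_lit 231) (nat_lit 0) (cs (rf (nat_lit 14)) (cs (rf (nat_lit 15)) (cs (rf (nat_lit 22)) (nd (nat_lit 232) (nat_lit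 0) (cs (rf (nat_lit 24)) (cs (rf (nat_lit 25)) (cs (nd (nat_lit 254) (nat_lit 0) (cs (rf (nat_lit 31)) (cs (rf (nat_lit 27)) (rf (nat_lit 32))))) (nd (nat_lit 298) (nat_lit 0) (cs (rf (nat_lit 33)) (cs (rf (nat_lit 34)) (nd (nat_lit 252) (nat_lit 0) (cs (rf (nat_lit 35)) (cs (rf (nat_lit 36)) (nd (nat_lit 277) (nat_lit 0) (cs (lf (nat_lit 18) (nat_lit 252)) (rf (nat_lit 37)))))))))))))))))) (cs (rf (nat_lit 38)) (rf (nat_lit 39))))))))))) q113346 (by decide +kernel)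
def q113623 : Q := Q.p (nat_lit 0x800002000008000000000000000000000000000000000000000000000000000000000) (nat_lit 0x140000700001c0000600007400005c0007400007c0000c0000700001c00005000000000000000000000000000000) (nat_lit 12)
theorem c113623 : QOK q113623 := cut [q97872, q98359, q99325, q113615, q113621] ⟨c97872, c98359, c99325, c113615, c113621, trivial⟩ (nd (nat_lit 209) (nat_lit 0) (cs (rf (nat_lit 0)) (cs (rf (nat_lit 1)) (cs (rf (nat_lit 2)) (cs (rf (nat_lit 3)) (nd (nat_lit 276) (nat_lit 0) (cs (lf (nat_lit 29) (nat_lit 209)) (rf (nat_lit 4))))))))) q113623 (by decide +kernel)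
def q113624 : Q := Q.p (nat_lit 0x800002000008000000000000000000000000000000000000000000000000000000000) (nat_lit 0x800002000014000050000160001f00001c0000700001c00004000000000000000000000000000000) (nat_lit 9)
theorem c113624 : QOK q113624 := cut [q99649, q102411, q109000, q113133, q113615] ⟨c99649, c102411, c109000, c113133, c113615, trivial⟩ (nd (nat_lit 209) (nat_lit 0) (cs (rf (nat_lit 0)) (cs (rf (nat_lit 1)) (cs (rf (nat_lit 2)) (cs (rf (nat_lit 3)) (rf (nat_lit 4))))))) q113624 (by decide +kernel)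
def q113793 : Q := Q.p (nat_lit 0x200000800002000000000000000000000000000000000000000000000000000000000000000) (nat_lit 0x380000e8000fa0003de001f78001de0006f8001f80007e0000400000000000000000000000000000000000000000) (nat_lit 15)
theorem c113793 : QOK q113793 := cut [q90750, q99285, q14731, q22569, q22566, q113707, q83724, q92732, q90663, q96315, q83685, q97411, q113792] ⟨c90750, c99285, c14731, c22569, c22566, c113707, c83724, c92732, c90663, c96315, c83685, c97411, c113792, trivial⟩ (nd (nat_lit 298) (nat_lit 0) (cs (rf (nat_lit 0)) (cs (nd (nat_lit 231) (nat_lit 0) (cs (lf (nat_lit 29) (nat_lit 231)) (rf (nat_lit 1)))) (cs (nd (nat_lit 274) (nat_lit 0) (cs (rf (nat_lit 2)) (cs (rf (nat_lit 3)) (cs (nd (nat_lit 230) (nat_lit 0) (cs (nd (nat_lit 299) (nat_lit 0) (cs (lf (nat_lit 18) (nat_lit 274)) (nd (nat_lit 231) (nat_lit 0) (cs (rf (nat_lit 4)) (lf (nat_lit 47) (nat_lit 208)))))) (cs (nd (nat_lit 296) (nat_lit 0) (cs (nd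 (nat_lit 209) (nat_lit 0) (cs (lf (nat_lit 37) (nat_lit 208)) (rf (nat_lit 5)))) (cs (nd (nat_lit 299) (nat_lit 0) (cs (lf (nat_lit 18) (nat_lit 274)) (nd (nat_lit 252) (nat_lit 0) (cs (lf (nat_lit 42) (nat_lit 230)) (nd (nat_lit 209) (nat_lit 0) (cs (lf (nat_lit 34) (nat_lit 208)) (nd (nat_lit 321) (nat_lit 0) (cs (lf (nat_lit 5) (nat_lit 296)) (nd (nat_lit 295) (nat_lit 0) (cs (lf (nat_lit 41) (nat_lit 229)) (nd (nat_lit 293) (nat_lit 0) (cs (lf (nat_lit 13) (nat_lit 271)) (nd (nat_lit 277) (nat_lit 0) (cs (lf (nat_lit 17) (nat_lit 274)) (rf (nat_lit 6)))))))))))))))) (cs (nd (nat_lit 252) (nat_lit 0) (cs (lf (nat_lit 42) (nat_lit 230)) (rf (nat_lit 7)))) (nd (nat_lit 252) (nat_lit 0) (cs (lf (nat_lit 42) (nat_lit 230)) (nd (nat_lit 209) (nat_lit 0) (cs (lf (nat_lit 34) (nat_lit 208)) (nd (nat_lit 299) (nat_lit 0) (cs (lf (nat_lit 18) (nat_lit 274)) (nd (nat_lit 321) (nat_lit 0) (cs (lf (nat_lit 5) (nat_lit 296)) (nd (nat_lit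 277) (nat_lit 0) (cs (lf (nat_lit 17) (nat_lit 274)) (nd (nat_lit 251) (nat_lit 0) (cs (lf (nat_lit 19) (nat_lit 251)) (nd (nat_lit 249) (nat_lit 0) (cs (lf (nat_lit 1) (nat_lit 249)) (rf (nat_lit 8)))))))))))))))))))) (nd (nat_lit 252) (nat_lit 0) (cs (lf (nat_lit 42) (nat_lit 230)) (lf (nat_lit 24) (nat_lit 208))))))) (nd (nat_lit 276) (nat_lit 0) (cs (nd (nat_lit 231) (nat_lit 0) (cs (lf (nat_lit 24) (nat_lit 209)) (nd (nat_lit 230) (nat_lit 0) (cs (lf (nat_lit 47) (nat_lit 208)) (rf (nat_lit 9)))))) (cs (nd (nat_lit 273) (nat_lit 0) (cs (lf (nat_lit 0) (nat_lit 272)) (nd (nat_lit 294) (nat_lit 0) (cs (lf (nat_lit 10) (nat_lit 272)) (nd (nat_lit 251) (nat_lit 0) (cs (lf (nat_lit 23) (nat_lit 250)) (nd (nat_lit 254) (nat_lit 0) (cs (lf (nat_lit 17) (nat_lit 251)) (nd (nat_lit 319) (nat_lit 0) (cs (lf (nat_lit 30) (nat_lit 253)) (nd (nat_lit 252) (nat_lit 0) (cs (lf (nat_lit 47) (nat_lit 230)) (rf (nat_lit 10))))))))))))))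 (cs (nd (nat_lit 273) (nat_lit 0) (cs (lf (nat_lit 0) (nat_lit 272)) (nd (nat_lit 209) (nat_lit 0) (cs (lf (nat_lit 25) (nat_lit 209)) (nd (nat_lit 250) (nat_lit 0) (cs (lf (nat_lit 22) (nat_lit 250)) (rf (nat_lit 11)))))))) (nd (nat_lit 272) (nat_lit 0) (cs (lf (nat_lit 1) (nat_lit 272)) (nd (nat_lit 231) (nat_lit 0) (cs (lf (nat_lit 24) (nat_lit 209)) (nd (nat_lit 230) (nat_lit 0) (cs (lf (nat_lit 47) (nat_lit 208)) (nd (nat_lit 252) (nat_lit 0) (cs (lf (nat_lit 42) (nat_lit 230)) (nd (nat_lit 277) (nat_lit 0) (cs (lf (nat_lit 18) (nat_lit 252)) (nd (nat_lit 255) (nat_lit 0) (cs (lf (nat_lit 17) (nat_lit 252)) (nd (nat_lit 229) (nat_lit 0) (cs (lf (nat_lit 19) (nat_lit 229)) (nd (nat_lit 296) (nat_lit 0) (cs (lf (nat_lit 47) (nat_lit 207)) (lf (nat_lit 11) (nat_lit 273)))))))))))))))))))))))))) (rf (nat_lit 12)))))) q113793 (by decide +kernel)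
def q113831 : Q := Q.p (nat_lit 0xe000030000000000000000000000000000000000000000000000000000000000) (nat_lit 0x300000c00007600001800000000180000600001800000000000000000000000000000000000000000) (nat_lit 9)
theorem c113831 : QOK q113831 := cut [q102875] ⟨c102875, trivial⟩ (nd (nat_lit 252) (nat_lit 0) (cs (lf (nat_lit 12) (nat_lit 229)) (rf (nat_lit 0)))) q113831 (by decide +kernel)
def q113968 : Q := Q.p (nat_lit 0x800002000000000000000000000000000000000000000000000000000000000000000) (nat_lit 0x400001c000078000ef0003fc000f7c003de000ffc007fe0003e0000700001400000000000000000000000000000000000) (nat_lit 18)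
theorem c113968 : QOK q113968 := cut [q109583, q113152, q113173, q113451, q113962, q22016, q79188, q94433, q101546, q108258, q97689, q107861, q113918, q113966, q113967] ⟨c109583, c113152, c113173, c113451, c113962, c22016, c79188, c94433, c101546, c108258, c97689, c107861, c113918, c113966, c113967, trivial⟩ (nd (nat_lit 297) (nat_lit 0) (cs (rf (nat_lit 0)) (cs (rf (nat_lit 1)) (cs (rf (nat_lit 2)) (cs (rf (nat_lit 3)) (cs (rf (nat_lit 4)) (cs (nd (nat_lit 231) (nat_lit 0) (cs (rf (nat_lit 5)) (cs (rf (nat_lit 6)) (cs (rf (nat_lit 7)) (rf (nat_lit 8)))))) (cs (nd (nat_lit 231) (nat_lit 0) (cs (rf (nat_lit 5)) (cs (rf (nat_lit 6)) (rf (nat_lit 9))))) (cs (nd (nat_lit 231) (nat_lit 0) (cs (rf (nat_lit 6)) (cs (rf (nat_lit 10)) (cs (rf (nat_lit 11)) (rf (nat_lit 12)))))) (cs (rf (nat_lit 13)) (rf (nat_lit 14)))))))))))) q113968 (by decide +kernel)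
def q113973 : Q := Q.p (nat_lit 0x800002000000000000000000000000000000000000000000000000000000000000000) (nat_lit 0x200001c0000f8000770001df0007fe001ff8007fc000500000000000000000000000000000000000000000) (nat_lit 16)
theorem c113973 : QOK q113973 := cut [q107059, q97956, q97957, q99594, q102009, q107016, q81878, q112750, q109179, q79105, q97609, q81545, q109767, q112790, q112791, q112792, q113114] ⟨c107059, c97956, c97957, c99594, c102009, c107016, c81878, c112750, c109179, c79105, c97609, c81545, c109767, c112790, c112791, c112792, c113114, trivial⟩ (nd (nat_lit 231) (nat_lit 0) (cs (rf (nat_lit 0)) (cs (nd (nat_lit 230) (nat_lit 0) (cs (rf (nat_lit 1)) (cs (rf (nat_lit 2)) (cs (rf (nat_lit 3)) (nd (nat_lit 254) (nat_lit 0) (cs (rf (nat_lit 4)) (cs (rf (nat_lit 5)) (cs (nd (nat_lit 232) (nat_lit 0) (cs (rf (nat_lit 6)) (cs (rf (nat_lit 7)) (nd (nat_lit 297) (nat_lit 0) (cs (lf (nat_lit 30) (nat_lit 231)) (nd (nat_lit 298) (nat_lit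 0) (cs (lf (nat_lit 29) (nat_lit 231)) (nd (nat_lit 296) (nat_lit 0) (cs (lf (nat_lit 41) (nat_lit 230)) (rf (nat_lit 8))))))))))) (nd (nat_lit 252) (nat_lit 0) (cs (nd (nat_lit 297) (nat_lit 0) (cs (lf (nat_lit 42) (nat_lit 230)) (nd (nat_lit 210) (nat_lit 0) (cs (lf (nat_lit 34) (nat_lit 209)) (nd (nat_lit 298) (nat_lit 0) (cs (lf (nat_lit 29) (nat_lit 231)) (nd (nat_lit 296) (nat_lit 0) (cs (lf (nat_lit 41) (nat_lit 230)) (rf (nat_lit 9)))))))))) (cs (nd (nat_lit 255) (nat_lit 0) (cs (lf (nat_lit 18) (nat_lit 230)) (nd (nat_lit 233) (nat_lit 0) (cs (lf (nat_lit 17) (nat_lit 230)) (nd (nat_lit 232) (nat_lit 0) (cs (lf (nat_lit 12) (nat_lit 229)) (rf (nat_lit 10)))))))) (cs (nd (nat_lit 297) (nat_lit 0) (cs (lf (nat_lit 42) (nat_lit 230)) (nd (nat_lit 298) (nat_lit 0) (cs (lf (nat_lit 29) (nat_lit 231)) (nd (nat_lit 296) (nat_lit 0) (cs (lf (nat_lit 41) (nat_lit 230)) (nd (nat_lit 255) (nat_lit 0) (cs (lf (nat_lit 18) (nat_lit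 230)) (nd (nat_lit 233) (nat_lit 0) (cs (lf (nat_lit 17) (nat_lit 230)) (nd (nat_lit 277) (nat_lit 0) (cs (lf (nat_lit 5) (nat_lit 252)) (nd (nat_lit 276) (nat_lit 0) (cs (lf (nat_lit 36) (nat_lit 210)) (lf (nat_lit 0) (nat_lit 251)))))))))))))))) (cs (nd (nat_lit 297) (nat_lit 0) (cs (lf (nat_lit 42) (nat_lit 230)) (nd (nat_lit 232) (nat_lit 0) (cs (lf (nat_lit 35) (nat_lit 209)) (rf (nat_lit 11)))))) (nd (nat_lit 297) (nat_lit 0) (cs (lf (nat_lit 42) (nat_lit 230)) (nd (nat_lit 210) (nat_lit 0) (cs (lf (nat_lit 34) (nat_lit 209)) (nd (nat_lit 296) (nat_lit 0) (cs (lf (nat_lit 41) (nat_lit 230)) (nd (nat_lit 298) (nat_lit 0) (cs (lf (nat_lit 29) (nat_lit 231)) (nd (nat_lit 255) (nat_lit 0) (cs (lf (nat_lit 18) (nat_lit 230)) (rf (nat_lit 12))))))))))))))))))))))))) (cs (rf (nat_lit 13)) (cs (rf (nat_lit 14)) (cs (rf (nat_lit 15)) (rf (nat_lit 16)))))))) q113973 (by decide +kernel)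
def q114084 : Q := Q.p (nat_lit 0x3000004000000000000000000000000000000000000000000000000000000000) (nat_lit 0x80000380001e0001fe000ff0001c00007b8001f00001c0000200000000000000000000000000000000000000000) (nat_lit 12)
theorem c114084 : QOK q114084 := cut [q79028, q79077, q110313, q114071] ⟨c79028, c79077, c110313, c114071, trivial⟩ (nd (nat_lit 254) (nat_lit 0) (cs (rf (nat_lit 0)) (cs (rf (nat_lit 1)) (cs (rf (nat_lit 2)) (rf (nat_lit 3)))))) q114084 (by decide +kernel)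
def q114087 : Q := Q.p (nat_lit 0x3000004000000000000000000000000000000000000000000000000000000000) (nat_lit 0x800002c0001f00007e0001c60007b8001fe0003e0000780000a00000000000000000000000000000000000) (nat_lit 15)
theorem c114087 : QOK q114087 := cut [q6259, q79029, q79066, q110304, q10803, q87238, q110316, q110104, q110160, q110321, q114025] ⟨c6259, c79029, c79066, c110304, c10803, c87238, c110316, c110104, c110160, c110321, c114025, trivial⟩ (nd (nat_lit 208) (nat_lit 0) (cs (rf (nat_lit 0)) (cs (rf (nat_lit 1)) (cs (rf (nat_lit 2)) (cs (rf (nat_lit 3)) (nd (nat_lit 209) (nat_lit 0) (cs (rf (nat_lit 4)) (cs (rf (nat_lit 5)) (cs (rf (nat_lit 6)) (nd (nat_lit 231) (nat_lit 0) (cs (rf (nat_lit 7)) (cs (rf (nat_lit 8)) (cs (rf (nat_lit 9)) (rf (nat_lit 10))))))))))))))) q114087 (by decide +kernel)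
def q114194 : Q := Q.p (nat_lit 0xc00003000004000000000000000000000000000000000000000000000000000000000) (nat_lit 0x8000020001ce0007380000e00000000010000000000000000000000000000000000000000000000000000) (nat_lit 8)
theorem c114194 : QOK q114194 := cut [q2192, q110242, q87979] ⟨c2192, c110242, c87979, trivial⟩ (nd (nat_lit 273) (nat_lit 0) (cs (rf (nat_lit 0)) (cs (rf (nat_lit 1)) (nd (nat_lit 271) (nat_lit 0) (cs (lf (nat_lit 13) (nat_lit 249)) (rf (nat_lit 2))))))) q114194 (by decide +kernel)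
def q114207 : Q := Q.p (nat_lit 0x800003000004000000000000000000000000000000000000000000000000000000000) (nat_lit 0x300000e0001fe0007780000e000030000f80000a0000000000000000000000000000000000000000000000) (nat_lit 9)
theorem c114207 : QOK q114207 := cut [q98863, q2192, q110237, q91969, q105298] ⟨c98863, c2192, c110237, c91969, c105298, trivial⟩ (nd (nat_lit 274) (nat_lit 0) (cs (rf (nat_lit 0)) (cs (nd (nat_lit 273) (nat_lit 0) (cs (rf (nat_lit 1)) (rf (nat_lit 2)))) (nd (nat_lit 296) (nat_lit 0) (cs (rf (nat_lit 3)) (rf (nat_lit 4))))))) q114207 (by decide +kernel)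
def q114298 : Q := Q.p (nat_lit 0x3000000000000000000000000000000000000000000000000000000000000000) (nat_lit 0x100001c0000f00003c000ffe001cf80077e0001e0000780001e0000000000000000000000000000000000000000) (nat_lit 11)
theorem c114298 : QOK q114298 := cut [q106748, q2623, q3764, q40524, q114278, q114281, q114292, q114293, q114294, q40738, q40773, q82253, q82256, q82262] ⟨c106748, c2623, c3764, c40524, c114278, c114281, c114292, c114293, c114294, c40738, c40773, c82253, c82256, c82262, trivial⟩ (nd (nat_lit 251) (nat_lit 0) (cs (rf (nat_lit 0)) (cs (nd (nat_lit 250) (nat_lit 0) (cs (rf (nat_lit 1)) (cs (rf (nat_lit 2)) (cs (rf (nat_lit 3)) (nd (nat_lit 275) (nat_lit 0) (cs (lf (nat_lit 5) (nat_lit 250)) (rf (nat_lit 4)))))))) (cs (rf (nat_lit 5)) (cs (rf (nat_lit 6)) (cs (rf (nat_lit 7)) (cs (rf (nat_lit 8)) (nd (nat_lit 250) (nat_lit 0) (cs (rf (nat_lit 1)) (cs (rf (nat_lit 9)) (cs (rf (nat_lit 10)) (cs (rf (nat_lit 11)) (cs (rf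 (nat_lit 12)) (nd (nat_lit 228) (nat_lit 0) (cs (lf (nat_lit 23) (nat_lit 227)) (nd (nat_lit 271) (nat_lit 0) (cs (lf (nat_lit 10) (nat_lit 249)) (rf (nat_lit 13))))))))))))))))))) q114298 (by decide +kernel)
def q114404 : Q := Q.p (nat_lit 0x7000000000000000000000000000000000000000000000000000000000000000) (nat_lit 0xf80007f0001fe000ff800380000fc0001f80007e0000200000000000000000000000000000000000000000) (nat_lit 13)
theorem c114404 : QOK q114404 := cut [q106263, q106388, q114398, q80881, q81837, q81833, q82258, q96443, q79054, q81850, q81855, q81859, q106292] ⟨c106263, c106388, c114398, c80881, c81837, c81833, c82258, c96443, c79054, c81850, c81855, c81859, c106292, trivial⟩ (nd (nat_lit 274) (nat_lit 0) (cs (rf (nat_lit 0)) (cs (rf (nat_lit 1)) (cs (rf (nat_lit 2)) (nd (nat_lit 231) (nat_lit 0) (cs (rf (nat_lit 3)) (cs (rf (nat_lit 4)) (cs (nd (nat_lit 296) (nat_lit 0) (cs (lf (nat_lit 30) (nat_lit 230)) (nd (nat_lit 255)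 (nat_lit 0) (cs (rf (nat_lit 5)) (cs (rf (nat_lit 6)) (rf (nat_lit 7))))))) (nd (nat_lit 209) (nat_lit 0) (cs (lf (nat_lit 36) (nat_lit 186)) (nd (nat_lit 275) (nat_lit 0) (cs (rf (nat_lit 8)) (cs (rf (nat_lit 9)) (cs (rf (nat_lit 10)) (cs (rf (nat_lit 11)) (rf (nat_lit 12))))))))))))))))) q114404 (by decide +kernel)
def q114411 : Q := Q.p (nat_lit 0x7000000000000000000000000000000000000000000000000000000000000000) (nat_lit 0xf80003e0000fc0001f00038c000fc0003fc0003c0000e00002800000000000000000000000000000000000) (nat_lit 18)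
theorem c114411 : QOK q114411 := cut [q79118, q81677, q92272, q95740, q95766, q106388, q79116, q80981, q81837, q84611, q112443, q79123, q80236, q112444, q80881, q106364, q79169, q81707, q111058] ⟨c79118, c81677, c92272, c95740, c95766, c106388, c79116, c80981, c81837, c84611, c112443, c79123, c80236, c112444, c80881, c106364, c79169, c81707, c111058, trivial⟩ (nd (nat_lit 232) (nat_lit 0) (cs (rf (nat_lit 0)) (cs (rf (nat_lit 1)) (cs (rf (nat_lit 2)) (nd (nat_lit 274) (nat_lit 0) (cs (rf (nat_lit 3)) (cs (rf (nat_lit 4)) (cs (rf (nat_lit 5)) (cs (nd (nat_lit 233) (nat_lit 0) (cs (rf (nat_lit 6)) (cs (rf (nat_lit 7)) (nd (nat_lit 231) (nat_lit 0) (cs (rf (nat_lit 8)) (cs (rf (nat_lit 9)) (cs (rf (nat_lit 10)) (nd (nat_lit 210) (nat_lit 0) (cs (rf (nat_lit 11)) (cs (rf (nat_lit 12)) (rf (nat_lit 13)))))))))))) (nd (nat_lit 231) (nat_lit 0) (cs (rf (nat_lit 14)) (cs (rf (nat_lit 8)) (cs (rf (nat_lit 9)) (cs (rf (nat_lit 15)) (nd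 (nat_lit 275) (nat_lit 0) (cs (rf (nat_lit 16)) (cs (rf (nat_lit 17)) (rf (nat_lit 18))))))))))))))))))) q114411 (by decide +kernel)
def q114503 : Q := Q.p (nat_lit 0x3000000000000000000000000000000000000000000000000000000000000000) (nat_lit 0x100007c0001f0000fe0007fe003cf800efe0007f0001f80007e0000000000000000000000000000000000000000) (nat_lit 18)
theorem c114503 : QOK q114503 := cut [q82388, q106549, q114272, q114281, q114328, q89844, q98764, q98766, q114287, q114429, q114430, q114502] ⟨c82388, c106549, c114272, c114281, c114328, c89844, c98764, c98766, c114287, c114429, c114430, c114502, trivial⟩ (nd (nat_lit 251) (nat_lit 0) (cs (rf (nat_lit 0)) (cs (rf (nat_lit 1)) (cs (rf (nat_lit 2)) (cs (rf (nat_lit 3)) (cs (rf (nat_lit 4)) (cs (nd (nat_lit 273) (nat_lit 0) (cs (rf (nat_lit 5)) (cs (rf (nat_lit 6)) (cs (rf (nat_lit 7)) (cs (rf (nat_lit 8)) (nd (nat_lit 254) (nat_lit 0) (cs (lf (nat_lit 11) (nat_lit 250)) (nd (nat_lit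 276) (nat_lit 0) (cs (lf (nat_lit 5) (nat_lit 251)) (nd (nat_lit 255) (nat_lit 0) (cs (lf (nat_lit 10) (nat_lit 251)) (nd (nat_lit 234) (nat_lit 0) (cs (lf (nat_lit 16) (nat_lit 230)) (nd (nat_lit 256) (nat_lit 0) (cs (lf (nat_lit 17) (nat_lit 231)) (nd (nat_lit 231) (nat_lit 0) (cs (lf (nat_lit 23) (nat_lit 230)) (nd (nat_lit 209) (nat_lit 0) (cs (lf (nat_lit 24) (nat_lit 187)) (nd (nat_lit 275) (nat_lit 0) (cs (lf (nat_lit 29) (nat_lit 209)) (lf (nat_lit 6) (nat_lit 253))))))))))))))))))))))) (cs (rf (nat_lit 9)) (cs (rf (nat_lit 10)) (rf (nat_lit 11))))))))))) q114503 (by decide +kernel)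
def q114528 : Q := Q.p (nat_lit 0x7000000000000000000000000000000000000000000000000000000000000000) (nat_lit 0x7c0001f0000fc000780003ff8001fe0007e0001f80000a00000000000000000000000000000000000) (nat_lit 16)
theorem c114528 : QOK q114528 := cut [q79028, q81638, q114523, q79078, q79112, q110256, q6259, q79029, q112950, q114321, q114524] ⟨c79028, c81638, c114523, c79078, c79112, c110256, c6259, c79029, c112950, c114321, c114524, trivial⟩ (nd (nat_lit 230) (nat_lit 0) (cs (rf (nat_lit 0)) (cs (nd (nat_lit 255) (nat_lit 0) (cs (lf (nat_lit 23) (nat_lit 229)) (nd (nat_lit 278) (nat_lit 0) (cs (lf (nat_lit 4) (nat_lit 252)) (nd (nat_lit 233) (nat_lit 0) (cs (lf (nat_lit 17) (nat_lit 230)) (nd (nat_lit 256) (nat_lit 0) (cs (lf (nat_lit 5) (nat_lit 253)) (nd (nat_lit 275) (nat_lit 0) (cs (lf (nat_lit 11) (nat_lit 252)) (nd (nat_lit 300) (nat_lit 0) (cs (lf (nat_lit 42) (nat_lit 233)) (nd (nat_lit 189) (nat_lit 0) (cs (lf (nat_lit 25)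 (nat_lit 189)) (nd (nat_lit 186) (nat_lit 0) (cs (lf (nat_lit 25) (nat_lit 186)) (nd (nat_lit 297) (nat_lit 0) (cs (lf (nat_lit 42) (nat_lit 230)) (nd (nat_lit 257) (nat_lit 0) (cs (lf (nat_lit 10) (nat_lit 253)) (rf (nat_lit 1)))))))))))))))))))))) (cs (rf (nat_lit 2)) (nd (nat_lit 275) (nat_lit 0) (cs (rf (nat_lit 3)) (cs (rf (nat_lit 4)) (cs (rf (nat_lit 5)) (nd (nat_lit 208) (nat_lit 0) (cs (rf (nat_lit 6)) (cs (rf (nat_lit 7)) (nd (nat_lit 255) (nat_lit 0) (cs (rf (nat_lit 8)) (cs (rf (nat_lit 9)) (rf (nat_lit 10)))))))))))))))) q114528 (by decide +kernel)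
def q114557 : Q := Q.p (nat_lit 0x3800002000000000000000000000000000000000000000000000000000000000) (nat_lit 0x100000700003c0000fc000000000d8000fe0003f00003c0000500000000000000000000000000000000000) (nat_lit 12)
theorem c114557 : QOK q114557 := cut [q5482, q11484, q80450, q82226, q82207, q89679, q105120, q106622] ⟨c5482, c11484, c80450, c82226, c82207, c89679, c105120, c106622, trivial⟩ (nd (nat_lit 207) (nat_lit 0) (cs (rf (nat_lit 0)) (cs (rf (nat_lit 1)) (cs (rf (nat_lit 2)) (cs (rf (nat_lit 3)) (nd (nat_lit 273) (nat_lit 0) (cs (rf (nat_lit 4)) (cs (rf (nat_lit 5)) (cs (rf (nat_lit 6)) (rf (nat_lit 7))))))))))) q114557 (by decide +kernel)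
def q114575 : Q := Q.p (nat_lit 0x3800000000000000000000000000000000000000000000000000000000000000) (nat_lit 0x7c0001f0000fe000ef8003c6001fe0001fe0001f8000780000c00000000000000000000000000000000000) (nat_lit 18)
theorem c114575 : QOK q114575 := cut [q82275, q82278, q80881, q81837, q84611, q91409, q106635, q82295, q114066, q82233, q87069, q87098, q89866, q106645, q106646, q114563, q79097, q110853, q105716, q82274, q82277, q106656, q80169, q92807, q106658] ⟨c82275, c82278, c80881, c81837, c84611, c91409, c106635, c82295, c114066, c82233, c87069, c87098, c89866, c106645, c106646, c114563, c79097, c110853, c105716, c82274, c82277, c106656, c80169, c92807, c106658, trivial⟩ (nd (nat_lit 231) (nat_lit 0) (cs (rf (nat_lit 0)) (cs (rf (nat_lit 1)) (cs (nd (nat_lit 274) (nat_lit 0) (cs (rf (nat_lit 2)) (cs (rf (nat_lit 3)) (cs (rf (nat_lit 4)) (cs (rf (nat_lit 5)) (cs (rf (nat_lit 6)) (nd (nat_lit 230) (nat_lit 0) (cs (rf (nat_lit 7))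 (rf (nat_lit 8)))))))))) (nd (nat_lit 273) (nat_lit 0) (cs (rf (nat_lit 9)) (cs (rf (nat_lit 10)) (cs (rf (nat_lit 11)) (cs (nd (nat_lit 230) (nat_lit 0) (cs (rf (nat_lit 12)) (cs (rf (nat_lit 13)) (cs (rf (nat_lit 14)) (cs (nd (nat_lit 232) (nat_lit 0) (cs (lf (nat_lit 6) (nat_lit 229)) (rf (nat_lit 15)))) (nd (nat_lit 274) (nat_lit 0) (cs (rf (nat_lit 16)) (cs (rf (nat_lit 17)) (nd (nat_lit 186) (nat_lit 0) (cs (lf (nat_lit 37) (nat_lit 185)) (nd (nat_lit 296) (nat_lit 0) (cs (lf (nat_lit 30) (nat_lit 230)) (nd (nat_lit 297) (nat_lit 0) (cs (lf (nat_lit 29) (nat_lit 230)) (nd (nat_lit 298) (nat_lit 0) (cs (lf (nat_lit 18) (nat_lit 273)) (rf (nat_lit 18)))))))))))))))))) (nd (nat_lit 232) (nat_lit 0) (cs (rf (nat_lit 19)) (cs (rf (nat_lit 20)) (nd (nat_lit 230) (nat_lit 0) (cs (rf (nat_lit 14)) (cs (rf (nat_lit 21)) (cs (rf (nat_lit 15)) (nd (nat_lit 209) (nat_lit 0) (cs (rf (nat_lit 22)) (cs (rf (nat_lit 23)) (rf (nat_lit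 24))))))))))))))))))))) q114575 (by decide +kernel)
def q114704 : Q := Q.p (nat_lit 0x3000000000000000000000000000000000000000000000000000000000000000) (nat_lit 0x700003f0000fe000fee007cf001ffe000ff0007f8000fe0001d00000000000000000000000000000000000) (nat_lit 18)
theorem c114704 : QOK q114704 := cut [q82315, q114294, q114316, q114502, q114640, q114685, q81341, q90139, q90143, q82198, q106836, q114689, q91583, q98559, q5482, q11484, q105829, q106388, q114659, q114690, q80653, q81787, q82288, q84419, q114702, q79204, q79256, q98510] ⟨c82315, c114294, c114316, c114502, c114640, c114685, c81341, c90139, c90143, c82198, c106836, c114689, c91583, c98559, c5482, c11484, c105829, c106388, c114659, c114690, c80653, c81787, c82288, c84419, c114702, c79204, c79256, c98510, trivial⟩ (nd (nat_lit 251) (nat_lit 0) (cs (rf (nat_lit 0)) (cs (rf (nat_lit 1)) (cs (rf (nat_lit 2)) (cs (rf (nat_lit 3)) (cs (rf (nat_lit 4)) (cs (rf (nat_lit 5))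 (cs (nd (nat_lit 276) (nat_lit 0) (cs (rf (nat_lit 6)) (cs (rf (nat_lit 7)) (rf (nat_lit 8))))) (cs (nd (nat_lit 229) (nat_lit 0) (cs (rf (nat_lit 9)) (cs (rf (nat_lit 10)) (cs (rf (nat_lit 11)) (nd (nat_lit 274) (nat_lit 0) (cs (rf (nat_lit 12)) (cs (rf (nat_lit 13)) (cs (nd (nat_lit 207) (nat_lit 0) (cs (rf (nat_lit 14)) (cs (rf (nat_lit 15)) (nd (nat_lit 254) (nat_lit 0) (cs (rf (nat_lit 16)) (cs (rf (nat_lit 17)) (cs (rf (nat_lit 18)) (rf (nat_lit 19))))))))) (nd (nat_lit 296) (nat_lit 0) (cs (lf (nat_lit 42) (nat_lit 229)) (nd (nat_lit 230) (nat_lit 0) (cs (rf (nat_lit 20)) (cs (rf (nat_lit 21)) (cs (rf (nat_lit 22)) (nd (nat_lit 231) (nat_lit 0) (cs (lf (nat_lit 35) (nat_lit 208)) (nd (nat_lit 295) (nat_lit 0) (cs (lf (nat_lit 41) (nat_lit 229)) (nd (nat_lit 232) (nat_lit 0) (cs (lf (nat_lit 6) (nat_lit 229)) (rf (nat_lit 23)))))))))))))))))))))) (cs (rf (nat_lit 24)) (nd (nat_lit 254) (nat_lit 0) (cs (rf (nat_lit 25))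 (cs (rf (nat_lit 26)) (cs (rf (nat_lit 27)) (rf (nat_lit 16)))))))))))))))) q114704 (by decide +kernel)
def q114715 : Q := Q.p (nat_lit 0x7000000000000000000000000000000000000000000000000000000000000000) (nat_lit 0x1e0000fe0001f80000c000ff8003fc0003e0000f80002800000000000000000000000000000000000) (nat_lit 14)
theorem c114715 : QOK q114715 := cut [q79118, q81730, q106987, q79169, q79199, q112451, q81706, q82063, q111079, q92324] ⟨c79118, c81730, c106987, c79169, c79199, c112451, c81706, c82063, c111079, c92324, trivial⟩ (nd (nat_lit 232) (nat_lit 0) (cs (rf (nat_lit 0)) (cs (rf (nat_lit 1)) (cs (rf (nat_lit 2)) (nd (nat_lit 275) (nat_lit 0) (cs (rf (nat_lit 3)) (cs (rf (nat_lit 4)) (cs (rf (nat_lit 5)) (nd (nat_lit 297) (nat_lit 0) (cs (lf (nat_lit 30) (nat_lit 231)) (nd (nat_lit 231) (nat_lit 0) (cs (rf (nat_lit 6)) (cs (rf (nat_lit 7)) (cs (rf (nat_lit 8)) (nd (nat_lit 250) (nat_lit 0) (cs (lf (nat_lit 13) (nat_lit 228)) (rf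 (nat_lit 9)))))))))))))))))) q114715 (by decide +kernel)
def q114756 : Q := Q.p (nat_lit 0xc00003000000000000000000000000000000000000000000000000000000000000000) (nat_lit 0x380000e00003c00030000000000060000380000e0000000000000000000000000000000000000000000000) (nat_lit 8)
theorem c114756 : QOK q114756 := cut [q79068, q98946, q108382] ⟨c79068, c98946, c108382, trivial⟩ (nd (nat_lit 230) (nat_lit 0) (cs (rf (nat_lit 0)) (cs (rf (nat_lit 1)) (rf (nat_lit 2))))) q114756 (by decide +kernel)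
def q114774 : Q := Q.p (nat_lit 0xc00003000000000000000000000000000000000000000000000000000000000000000) (nat_lit 0x380000e00003e000000000c8000078000380000e0000000000000000000000000000000000000000000000) (nat_lit 9)
theorem c114774 : QOK q114774 := cut [q79068, q98873, q108382] ⟨c79068, c98873, c108382, trivial⟩ (nd (nat_lit 230) (nat_lit 0) (cs (rf (nat_lit 0)) (cs (rf (nat_lit 1)) (rf (nat_lit 2))))) q114774 (by decide +kernel)
def q114832 : Q := Q.p (nat_lit 0x800003000000000000000000000000000000000000000000000000000000000000000) (nat_lit 0x3f0000ff0003fc000f5c003ce00077c000d0000240000000000000000000000000000000000000000000000) (nat_lit 13)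
theorem c114832 : QOK q114832 := cut [q88933, q108281, q114796, q114831] ⟨c88933, c108281, c114796, c114831, trivial⟩ (nd (nat_lit 297) (nat_lit 0) (cs (rf (nat_lit 0)) (cs (rf (nat_lit 1)) (cs (rf (nat_lit 2)) (rf (nat_lit 3)))))) q114832 (by decide +kernel)
def q114879 : Q := Q.p (nat_lit 0x800003000000000000000000000000000000000000000000000000000000000000000) (nat_lit 0xf80003f0001fc000f78003c8000f70000d8000360000000000000000000000000000000000000000000000) (nat_lit 12)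
theorem c114879 : QOK q114879 := cut [q88933, q90494, q114838, q114843, q79079, q114760, q14697, q96544, q114857, q114862, q114867, q114878] ⟨c88933, c90494, c114838, c114843, c79079, c114760, c14697, c96544, c114857, c114862, c114867, c114878, trivial⟩ (nd (nat_lit 297) (nat_lit 0) (cs (rf (nat_lit 0)) (cs (nd (nat_lit 276) (nat_lit 0) (cs (rf (nat_lit 1)) (cs (nd (nat_lit 254) (nat_lit 0) (cs (rf (nat_lit 2)) (cs (rf (nat_lit 3)) (nd (nat_lit 274) (nat_lit 0) (cs (rf (nat_lit 4)) (cs (nd (nat_lit 230) (nat_lit 0) (cs (lf (nat_lit 24) (nat_lit 208)) (rf (nat_lit 5)))) (nd (nat_lit 273) (nat_lit 0) (cs (lf (nat_lit 12) (nat_lit 250)) (nd (nat_lit 208) (nat_lit 0) (cs (lf (nat_lit 25) (nat_lit 208)) (nd (nat_lit 295) (nat_lit 0) (cs (lf (nat_lit 11) (nat_lit 272)) (nd (nat_lit 317) (nat_lit 0) (cs (lf (nat_lit 30) (nat_lit 251)) (nd (nat_lit 298) (nat_lit 0) (cs (lf (nat_lit 5) (nat_lit 273)) (nd (nat_lit 320) (nat_lit 0) (cs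 (lf (nat_lit 42) (nat_lit 253)) (rf (nat_lit 6)))))))))))))))))))) (cs (nd (nat_lit 254) (nat_lit 0) (cs (rf (nat_lit 7)) (cs (rf (nat_lit 2)) (nd (nat_lit 255) (nat_lit 0) (cs (nd (nat_lit 278) (nat_lit 0) (cs (lf (nat_lit 19) (nat_lit 252)) (nd (nat_lit 256) (nat_lit 0) (cs (lf (nat_lit 5) (nat_lit 253)) (lf (nat_lit 6) (nat_lit 253)))))) (rf (nat_lit 8))))))) (cs (rf (nat_lit 9)) (rf (nat_lit 10))))))) (cs (nd (nat_lit 319) (nat_lit 0) (cs (lf (nat_lit 47) (nat_lit 230)) (nd (nat_lit 320) (nat_lit 0) (cs (lf (nat_lit 29) (nat_lit 253)) (nd (nat_lit 318) (nat_lit 0) (cs (lf (nat_lit 41) (nat_lit 252)) (nd (nat_lit 254) (nat_lit 0) (cs (lf (nat_lit 35) (nat_lit 231)) (nd (nat_lit 276) (nat_lit 0) (cs (lf (nat_lit 30) (nat_lit 253)) (rf (nat_lit 7)))))))))))) (rf (nat_lit 11)))))) q114879 (by decide +kernel)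
def q115172 : Q := Q.p (nat_lit 0x800002000000000000000000000000000000000000000000000000000000000000000) (nat_lit 0x140003fe0007f0001fe000700001df0007f8001ff0001c0000500000000000000000000000000000000000000000) (nat_lit 16)
theorem c115172 : QOK q115172 := cut [q113159, q113160, q115166, q12650, q81706, q89353, q96758, q109017, q109035, q96769, q115169, q115170, q115171] ⟨c113159, c113160, c115166, c12650, c81706, c89353, c96758, c109017, c109035, c96769, c115169, c115170, c115171, trivial⟩ (nd (nat_lit 297) (nat_lit 0) (cs (rf (nat_lit 0)) (cs (rf (nat_lit 1)) (cs (rf (nat_lit 2)) (cs (nd (nat_lit 231) (nat_lit 0) (cs (rf (nat_lit 3)) (cs (rf (nat_lit 4)) (cs (rf (nat_lit 5)) (nd (nat_lit 230) (nat_lit 0) (cs (lf (nat_lit 47) (nat_lit 208)) (nd (nat_lit 229) (nat_lit 0) (cs (rf (nat_lit 6)) (cs (rf (nat_lit 7)) (cs (nd (nat_lit 232) (nat_lit 0) (cs (lf (nat_lit 35) (nat_lit 209)) (nd (nat_lit 296) (nat_lit 0) (cs (lf (nat_lit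 41) (nat_lit 230)) (rf (nat_lit 8)))))) (nd (nat_lit 210) (nat_lit 0) (cs (lf (nat_lit 34) (nat_lit 209)) (nd (nat_lit 296) (nat_lit 0) (cs (lf (nat_lit 41) (nat_lit 230)) (nd (nat_lit 298) (nat_lit 0) (cs (lf (nat_lit 29) (nat_lit 231)) (rf (nat_lit 9)))))))))))))))))) (cs (rf (nat_lit 10)) (cs (rf (nat_lit 11)) (rf (nat_lit 12))))))))) q115172 (by decide +kernel)
def q115274 : Q := Q.p (nat_lit 0x800002000000000000000000000000000000000000000000000000000000000000000) (nat_lit 0x200000d8000760003ff000f7e003dfc007fe001ff8003f0000500000000000000000000000000000000000000000) (nat_lit 16)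
theorem c115274 : QOK q115274 := cut [q114940, q115046, q115063, q115107, q115130, q115149, q97408, q97409, q115095, q103856, q107326, q97318, q22720, q56839, q99646, q112791, q15801, q15828, q97957, q99594, q113707, q96758, q96836, q100775, q98134, q87016, q86313, q84629, q98730, q105227, q108708, q115228, q86631, q15991, q115236, q115254, q97336, q115081, q11768, q108163, q108167, q115273] ⟨c114940, c115046, c115063, c115107, c115130, c115149, c97408, c97409, c115095, c103856, c107326, c97318, c22720, c56839, c99646, c112791, c15801, c15828, c97957, c99594, c113707, c96758, c96836, c100775, c98134, c87016, c86313, c84629, c98730, c105227, c108708, c115228, c86631, c15991, c115236, c115254, c97336, c115081, c11768, c108163, c108167, c115273, trivial⟩ (nd (nat_lit 274) (nat_lit 0) (cs (rf (nat_lit 0)) (cs (rf (nat_lit 1)) (cs (rf (nat_lit 2)) (cs (rf (nat_lit 3)) (cs (rf (nat_lit 4)) (cs (rf (nat_lit 5)) (cs (nd (nat_lit 273)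 (nat_lit 0) (cs (rf (nat_lit 6)) (cs (rf (nat_lit 7)) (cs (rf (nat_lit 8)) (nd (nat_lit 276) (nat_lit 0) (cs (rf (nat_lit 9)) (cs (rf (nat_lit 10)) (nd (nat_lit 295) (nat_lit 0) (cs (lf (nat_lit 11) (nat_lit 272)) (nd (nat_lit 254) (nat_lit 0) (cs (rf (nat_lit 11)) (nd (nat_lit 251) (nat_lit 0) (cs (lf (nat_lit 23) (nat_lit 250)) (nd (nat_lit 298) (nat_lit 0) (cs (lf (nat_lit 5) (nat_lit 273)) (nd (nat_lit 320) (nat_lit 0) (cs (lf (nat_lit 42) (nat_lit 253)) (nd (nat_lit 321) (nat_lit 0) (cs (lf (nat_lit 29) (nat_lit 254)) (nd (nat_lit 296) (nat_lit 0) (cs (rf (nat_lit 12)) (lf (nat_lit 2) (nat_lit 295))))))))))))))))))))))) (cs (nd (nat_lit 231) (nat_lit 0) (cs (rf (nat_lit 13)) (cs (rf (nat_lit 14)) (cs (rf (nat_lit 15)) (nd (nat_lit 296) (nat_lit 0) (cs (rf (nat_lit 16)) (cs (rf (nat_lit 17)) (nd (nat_lit 230) (nat_lit 0) (cs (rf (nat_lit 18)) (cs (rf (nat_lit 19)) (cs (nd (nat_lit 297) (nat_lit 0) (cs (lf (nat_lit 47) (nat_lit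 208)) (nd (nat_lit 210) (nat_lit 0) (cs (lf (nat_lit 34) (nat_lit 209)) (nd (nat_lit 298) (nat_lit 0) (cs (lf (nat_lit 29) (nat_lit 231)) (rf (nat_lit 20)))))))) (nd (nat_lit 229) (nat_lit 0) (cs (rf (nat_lit 21)) (cs (rf (nat_lit 22)) (nd (nat_lit 207) (nat_lit 0) (cs (lf (nat_lit 44) (nat_lit 207)) (nd (nat_lit 232) (nat_lit 0) (cs (lf (nat_lit 23) (nat_lit 206)) (rf (nat_lit 23)))))))))))))))))))) (cs (nd (nat_lit 231) (nat_lit 0) (cs (rf (nat_lit 13)) (cs (rf (nat_lit 24)) (cs (rf (nat_lit 14)) (cs (nd (nat_lit 232) (nat_lit 0) (cs (rf (nat_lit 25)) (cs (nd (nat_lit 252) (nat_lit 0) (cs (rf (nat_lit 26)) (cs (nd (nat_lit 230) (nat_lit 0) (cs (rf (nat_lit 27)) (cs (rf (nat_lit 28)) (rf (nat_lit 29))))) (cs (nd (nat_lit 230) (nat_lit 0) (cs (rf (nat_lit 28)) (cs (rf (nat_lit 29)) (cs (rf (nat_lit 30)) (nd (nat_lit 250) (nat_lit 0) (cs (lf (nat_lit 13) (nat_lit 228)) (rf (nat_lit 31)))))))) (nd (nat_lit 296) (nat_lit 0) (cs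 (lf (nat_lit 30) (nat_lit 230)) (rf (nat_lit 32)))))))) (nd (nat_lit 297) (nat_lit 0) (cs (lf (nat_lit 35) (nat_lit 209)) (nd (nat_lit 208) (nat_lit 0) (cs (lf (nat_lit 46) (nat_lit 208)) (rf (nat_lit 33))))))))) (rf (nat_lit 34))))))) (cs (rf (nat_lit 35)) (cs (nd (nat_lit 231) (nat_lit 0) (cs (rf (nat_lit 24)) (cs (rf (nat_lit 14)) (cs (rf (nat_lit 34)) (nd (nat_lit 273) (nat_lit 0) (cs (rf (nat_lit 6)) (cs (rf (nat_lit 7)) (cs (rf (nat_lit 8)) (nd (nat_lit 254) (nat_lit 0) (cs (rf (nat_lit 36)) (cs (rf (nat_lit 37)) (nd (nat_lit 296) (nat_lit 0) (cs (rf (nat_lit 16)) (nd (nat_lit 251) (nat_lit 0) (cs (rf (nat_lit 38)) (cs (rf (nat_lit 39)) (rf (nat_lit 40)))))))))))))))))) (rf (nat_lit 41)))))))))))))) q115274 (by decide +kernel)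
def q115377 : Q := Q.p (nat_lit 0x800002000000000000000000000000000000000000000000000000000000000000000) (nat_lit 0x500003c0001fc000ff8003fe000f7c003de000efc000f80003e0000500000000000000000000000000000000000000000) (nat_lit 16)
theorem c115377 : QOK q115377 := cut [q109529, q109583, q109622, q113159, q113700, q113701, q113809, q115363, q115366, q88933, q109591, q1999, q2066, q2091, q114904, q98766, q98781, q108922, q108981, q2059, q14907, q89807, q88742, q104510, q2579, q99799, q14951, q109603, q109606, q91097, q109612, q113288] ⟨c109529, c109583, c109622, c113159, c113700, c113701, c113809, c115363, c115366, c88933, c109591, c1999, c2066, c2091, c114904, c98766, c98781, c108922, c108981, c2059, c14907, c89807, c88742, c104510, c2579, c99799, c14951, c109603, c109606, c91097, c109612, c113288, trivial⟩ (nd (nat_lit 297) (nat_lit 0) (cs (rf (nat_lit 0)) (cs (rf (nat_lit 1)) (cs (rf (nat_lit 2)) (cs (rf (nat_lit 3)) (cs (rf (nat_lit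 4)) (cs (rf (nat_lit 5)) (cs (rf (nat_lit 6)) (cs (rf (nat_lit 7)) (cs (rf (nat_lit 8)) (nd (nat_lit 252) (nat_lit 0) (cs (rf (nat_lit 9)) (cs (rf (nat_lit 10)) (cs (nd (nat_lit 251) (nat_lit 0) (cs (rf (nat_lit 11)) (cs (rf (nat_lit 12)) (cs (rf (nat_lit 13)) (cs (rf (nat_lit 14)) (nd (nat_lit 273) (nat_lit 0) (cs (rf (nat_lit 15)) (cs (rf (nat_lit 16)) (cs (rf (nat_lit 17)) (cs (rf (nat_lit 18)) (nd (nat_lit 274) (nat_lit 0) (cs (rf (nat_lit 19)) (cs (rf (nat_lit 20)) (rf (nat_lit 21))))))))))))))) (nd (nat_lit 276) (nat_lit 0) (cs (rf (nat_lit 22)) (cs (rf (nat_lit 23)) (cs (nd (nat_lit 251) (nat_lit 0) (cs (rf (nat_lit 11)) (cs (rf (nat_lit 12)) (nd (nat_lit 319) (nat_lit 0) (cs (rf (nat_lit 24)) (cs (rf (nat_lit 25)) (nd (nat_lit 296) (nat_lit 0) (cs (rf (nat_lit 26)) (cs (rf (nat_lit 27)) (rf (nat_lit 28))))))))))) (nd (nat_lit 277) (nat_lit 0) (cs (lf (nat_lit 18) (nat_lit 252)) (nd (nat_lit 274) (nat_lit 0) (cs (rf (nat_lit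 29)) (cs (rf (nat_lit 30)) (rf (nat_lit 31))))))))))))))))))))))))) q115377 (by decide +kernel)
def q115456 : Q := Q.p (nat_lit 0x800002000008000000000000000000000000000000000000000000000000000000000) (nat_lit 0x2e0003bc000f78003de000f78003ee0003a0000e80000000000000000000000000000000000000000) (nat_lit 17)
theorem c115456 : QOK q115456 := cut [q26315, q87016, q86313, q86631, q97704, q97717, q95967, q97707, q97709, q97715, q79196, q97727, q114877, q101857, q109810, q56839, q97741, q99609, q109818, q79079, q108396, q106598, q12206, q85515, q80720, q97774, q101882, q109823, q97321, q97333, q101897, q113641] ⟨c26315, c87016, c86313, c86631, c97704, c97717, c95967, c97707, c97709, c97715, c79196, c97727, c114877, c101857, c109810, c56839, c97741, c99609, c109818, c79079, c108396, c106598, c12206, c85515, c80720, c97774, c101882, c109823, c97321, c97333, c101897, c113641, trivial⟩ (nd (nat_lit 232) (nat_lit 0) (cs (rf (nat_lit 0))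 (cs (rf (nat_lit 1)) (cs (nd (nat_lit 252) (nat_lit 0) (cs (rf (nat_lit 2)) (cs (rf (nat_lit 3)) (cs (nd (nat_lit 296) (nat_lit 0) (cs (rf (nat_lit 4)) (cs (rf (nat_lit 5)) (nd (nat_lit 230) (nat_lit 0) (cs (rf (nat_lit 6)) (cs (rf (nat_lit 7)) (cs (rf (nat_lit 8)) (rf (nat_lit 9))))))))) (nd (nat_lit 254) (nat_lit 0) (cs (rf (nat_lit 10)) (cs (rf (nat_lit 11)) (cs (rf (nat_lit 12)) (cs (nd (nat_lit 297) (nat_lit 0) (cs (lf (nat_lit 30) (nat_lit 231)) (rf (nat_lit 13)))) (nd (nat_lit 250) (nat_lit 0) (cs (lf (nat_lit 13) (nat_lit 228)) (rf (nat_lit 14))))))))))))) (nd (nat_lit 274) (nat_lit 0) (cs (rf (nat_lit 15)) (cs (rf (nat_lit 16)) (cs (rf (nat_lit 17)) (cs (nd (nat_lit 252) (nat_lit 0) (cs (rf (nat_lit 2)) (cs (rf (nat_lit 3)) (cs (rf (nat_lit 18)) (nd (nat_lit 254) (nat_lit 0) (cs (rf (nat_lit 19)) (cs (rf (nat_lit 20)) (nd (nat_lit 250) (nat_lit 0) (cs (lf (nat_lit 13) (nat_lit 228)) (nd (nat_lit 255) (nat_lit 0) (cs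 (lf (nat_lit 6) (nat_lit 252)) (rf (nat_lit 21))))))))))))) (nd (nat_lit 210) (nat_lit 0) (cs (rf (nat_lit 22)) (cs (rf (nat_lit 23)) (nd (nat_lit 254) (nat_lit 0) (cs (rf (nat_lit 24)) (cs (rf (nat_lit 25)) (cs (rf (nat_lit 26)) (cs (rf (nat_lit 27)) (nd (nat_lit 251) (nat_lit 0) (cs (rf (nat_lit 28)) (cs (rf (nat_lit 29)) (cs (rf (nat_lit 30)) (rf (nat_lit 31))))))))))))))))))))))) q115456 (by decide +kernel)
def q115518 : Q := Q.p (nat_lit 0x800002000000000000000000000000000000000000000000000000000000000000000) (nat_lit 0x140000f80007e0003ff00077e007dfc00ffe003bf8007e0001f80001400000000000000000000000000000000000) (nat_lit 16)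
theorem c115518 : QOK q115518 := cut [q98133, q101918, q102014, q107367, q107862, q113867, q115405, q99646, q114940, q100321, q14653, q14688, q24566, q97409, q107326, q115095, q79736, q84365, q97681, q99294, q97957, q107833, q96758, q96769, q96836, q109761, q97173, q101516, q109757, q87917, q115495, q98288, q1999, q89735, q113897, q96981, q102009, q107016, q113909, q95511, q107853, q115386, q93122] ⟨c98133, c101918, c102014, c107367, c107862, c113867, c115405, c99646, c114940, c100321, c14653, c14688, c24566, c97409, c107326, c115095, c79736, c84365, c97681, c99294, c97957, c107833, c96758, c96769, c96836, c109761, c97173, c101516, c109757, c87917, c115495, c98288, c1999, c89735, c113897, c96981, c102009, c107016, c113909, c95511, c107853, c115386, c93122, trivial⟩ (nd (nat_lit 231) (nat_lit 0) (cs (rf (nat_lit 0)) (cs (rf (nat_lit 1)) (cs (rf (nat_lit 2)) (cs (rf (nat_lit 3)) (cs (rf (nat_lit 4)) (cs (rf (nat_lit 5)) (cs (rf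 (nat_lit 6)) (cs (nd (nat_lit 274) (nat_lit 0) (cs (rf (nat_lit 7)) (cs (rf (nat_lit 8)) (nd (nat_lit 276) (nat_lit 0) (cs (rf (nat_lit 9)) (cs (nd (nat_lit 277) (nat_lit 0) (cs (rf (nat_lit 10)) (cs (rf (nat_lit 11)) (rf (nat_lit 12))))) (nd (nat_lit 273) (nat_lit 0) (cs (rf (nat_lit 13)) (cs (rf (nat_lit 14)) (rf (nat_lit 15))))))))))) (cs (nd (nat_lit 297) (nat_lit 0) (cs (rf (nat_lit 16)) (cs (rf (nat_lit 17)) (cs (rf (nat_lit 18)) (rf (nat_lit 19)))))) (nd (nat_lit 230) (nat_lit 0) (cs (rf (nat_lit 20)) (cs (rf (nat_lit 21)) (cs (nd (nat_lit 229) (nat_lit 0) (cs (rf (nat_lit 22)) (cs (rf (nat_lit 23)) (cs (rf (nat_lit 24)) (cs (rf (nat_lit 25)) (nd (nat_lit 251) (nat_lit 0) (cs (rf (nat_lit 26)) (cs (rf (nat_lit 27)) (cs (rf (nat_lit 28)) (cs (nd (nat_lit 252) (nat_lit 0) (cs (rf (nat_lit 29)) (cs (nd (nat_lit 186) (nat_lit 0) (cs (lf (nat_lit 25) (nat_lit 186)) (rf (nat_lit 30)))) (nd (nat_lit 254) (nat_lit 0) (cs (lf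 (nat_lit 18) (nat_lit 229)) (nd (nat_lit 276) (nat_lit 0) (cs (lf (nat_lit 5) (nat_lit 251)) (nd (nat_lit 298) (nat_lit 0) (cs (lf (nat_lit 42) (nat_lit 231)) (nd (nat_lit 232) (nat_lit 0) (cs (lf (nat_lit 17) (nat_lit 229)) (nd (nat_lit 206) (nat_lit 0) (cs (lf (nat_lit 22) (nat_lit 206)) (rf (nat_lit 31))))))))))))))) (cs (nd (nat_lit 252) (nat_lit 0) (cs (rf (nat_lit 32)) (cs (rf (nat_lit 33)) (cs (rf (nat_lit 34)) (rf (nat_lit 30)))))) (nd (nat_lit 232) (nat_lit 0) (cs (lf (nat_lit 11) (nat_lit 228)) (nd (nat_lit 206) (nat_lit 0) (cs (lf (nat_lit 22) (nat_lit 206)) (nd (nat_lit 233) (nat_lit 0) (cs (lf (nat_lit 10) (nat_lit 229)) (nd (nat_lit 212) (nat_lit 0) (cs (lf (nat_lit 16) (nat_lit 208)) (nd (nat_lit 234) (nat_lit 0) (cs (lf (nat_lit 17) (nat_lit 209)) (rf (nat_lit 35))))))))))))))))))))))) (nd (nat_lit 254) (nat_lit 0) (cs (rf (nat_lit 36)) (cs (rf (nat_lit 37)) (cs (rf (nat_lit 38)) (nd (nat_lit 255) (nat_lit 0)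 (cs (lf (nat_lit 18) (nat_lit 230)) (nd (nat_lit 252) (nat_lit 0) (cs (rf (nat_lit 39)) (cs (rf (nat_lit 40)) (cs (rf (nat_lit 41)) (nd (nat_lit 233) (nat_lit 0) (cs (lf (nat_lit 17) (nat_lit 230)) (nd (nat_lit 232) (nat_lit 0) (cs (lf (nat_lit 12) (nat_lit 229)) (nd (nat_lit 297) (nat_lit 0) (cs (lf (nat_lit 30) (nat_lit 231)) (rf (nat_lit 42)))))))))))))))))))))))))))))))) q115518 (by decide +kernel)
def q115578 : Q := Q.p (nat_lit 0x800002000000000000000000000000000000000000000000000000000000000000000) (nat_lit 0x100001c0000f0000fa0003ff001f7c00fdf000ffc001f80007e0000700001400000000000000000000000000000000000) (nat_lit 15)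
theorem c115578 : QOK q115578 := cut [q113966, q115171, q115181, q115292, q115366, q81192, q79079, q81180, q113476, q115331, q115333, q86390, q113974, q88933, q113983, q114877, q12650, q81706, q89353, q99300, q115575, q98797, q101906, q113871, q115577] ⟨c113966, c115171, c115181, c115292, c115366, c81192, c79079, c81180, c113476, c115331, c115333, c86390, c113974, c88933, c113983, c114877, c12650, c81706, c89353, c99300, c115575, c98797, c101906, c113871, c115577, trivial⟩ (nd (nat_lit 297) (nat_lit 0) (cs (rf (nat_lit 0)) (cs (rf (nat_lit 1)) (cs (rf (nat_lit 2)) (cs (rf (nat_lit 3)) (cs (rf (nat_lit 4)) (cs (nd (nat_lit 254) (nat_lit 0) (cs (rf (nat_lit 5)) (cs (nd (nat_lit 319) (nat_lit 0) (cs (lf (nat_lit 35) (nat_lit 231)) (nd (nat_lit 320) (nat_lit 0) (cs (lf (nat_lit 29) (nat_lit 253)) (nd (nat_lit 252) (nat_lit 0) (cs (lf (nat_lit 47) (nat_lit 230)) (nd (nat_lit 274) (nat_lit 0) (cs (lf (nat_lit 42) (nat_lit 252)) (rf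 (nat_lit 6)))))))))) (cs (nd (nat_lit 255) (nat_lit 0) (cs (rf (nat_lit 7)) (cs (rf (nat_lit 8)) (cs (rf (nat_lit 9)) (cs (rf (nat_lit 10)) (nd (nat_lit 252) (nat_lit 0) (cs (rf (nat_lit 11)) (rf (nat_lit 12))))))))) (nd (nat_lit 252) (nat_lit 0) (cs (rf (nat_lit 13)) (cs (rf (nat_lit 14)) (rf (nat_lit 15))))))))) (cs (nd (nat_lit 231) (nat_lit 0) (cs (rf (nat_lit 16)) (cs (rf (nat_lit 17)) (cs (rf (nat_lit 18)) (rf (nat_lit 19)))))) (cs (rf (nat_lit 20)) (cs (nd (nat_lit 231) (nat_lit 0) (cs (rf (nat_lit 21)) (cs (rf (nat_lit 22)) (rf (nat_lit 23))))) (rf (nat_lit 24)))))))))))) q115578 (by decide +kernel)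
def q115579 : Q := Q.p (nat_lit 0x200000800002000000000000000000000000000000000000000000000000000000000000000) (nat_lit 0x9000014000f7f001df800f7c0005a000168000000000000000000000000000000000000000000000) (nat_lit 12)
theorem c115579 : QOK q115579 := cut [q88933, q114753, q114796, q114878] ⟨c88933, c114753, c114796, c114878, trivial⟩ (nd (nat_lit 252) (nat_lit 0) (cs (rf (nat_lit 0)) (cs (rf (nat_lit 1)) (cs (rf (nat_lit 2)) (rf (nat_lit 3)))))) q115579 (by decide +kernel)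
def q115651 : Q := Q.p (nat_lit 0x3000004000000000000000000000000000000000000000000000000000000000) (nat_lit 0xd80003f8001fe000ff0001c00007b8001f8000360000000000000000000000000000000000000000000000) (nat_lit 14)
theorem c115651 : QOK q115651 := cut [q79028, q79077, q115640, q79078, q79112, q110277, q22004, q95665, q110081] ⟨c79028, c79077, c115640, c79078, c79112, c110277, c22004, c95665, c110081, trivial⟩ (nd (nat_lit 254) (nat_lit 0) (cs (rf (nat_lit 0)) (cs (rf (nat_lit 1)) (cs (rf (nat_lit 2)) (nd (nat_lit 275) (nat_lit 0) (cs (rf (nat_lit 3)) (cs (rf (nat_lit 4)) (cs (rf (nat_lit 5)) (nd (nat_lit 297) (nat_lit 0) (cs (lf (nat_lit 42) (nat_lit 230)) (nd (nat_lit 231) (nat_lit 0) (cs (rf (nat_lit 6)) (cs (rf (nat_lit 7)) (rf (nat_lit 8))))))))))))))) q115651 (by decide +kernel)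
def q115777 : Q := Q.p (nat_lit 0x7000000000000000000000000000000000000000000000000000000000000000) (nat_lit 0xf80003e0000fc001df00078c000fc0003fc0003c0000e00000800000000000000000000000000000000000) (nat_lit 18)
theorem c115777 : QOK q115777 := cut [q79118, q81677, q92272, q95740, q95766, q81837, q82664, q106364, q106365, q79169, q81707, q106370, q79116, q80981, q84611, q112443, q79250, q80236, q112444, q102854] ⟨c79118, c81677, c92272, c95740, c95766, c81837, c82664, c106364, c106365, c79169, c81707, c106370, c79116, c80981, c84611, c112443, c79250, c80236, c112444, c102854, trivial⟩ (nd (nat_lit 232) (nat_lit 0) (cs (rf (nat_lit 0)) (cs (rf (nat_lit 1)) (cs (rf (nat_lit 2)) (nd (nat_lit 274) (nat_lit 0) (cs (rf (nat_lit 3)) (cs (rf (nat_lit 4)) (cs (nd (nat_lit 231) (nat_lit 0) (cs (rf (nat_lit 5)) (cs (rf (nat_lit 6)) (cs (rf (nat_lit 7)) (cs (rf (nat_lit 8)) (nd (nat_lit 275) (nat_lit 0) (cs (rf (nat_lit 9)) (cs (rf (nat_lit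 10)) (rf (nat_lit 11)))))))))) (cs (nd (nat_lit 233) (nat_lit 0) (cs (rf (nat_lit 12)) (cs (rf (nat_lit 13)) (nd (nat_lit 231) (nat_lit 0) (cs (rf (nat_lit 5)) (cs (rf (nat_lit 14)) (cs (rf (nat_lit 15)) (nd (nat_lit 210) (nat_lit 0) (cs (rf (nat_lit 16)) (cs (rf (nat_lit 17)) (rf (nat_lit 18)))))))))))) (nd (nat_lit 255) (nat_lit 0) (cs (lf (nat_lit 11) (nat_lit 251)) (rf (nat_lit 19))))))))))))) q115777 (by decide +kernel)
def q115846 : Q := Q.p (nat_lit 0x3000000000000000000000000000000000000000000000000000000000000000) (nat_lit 0x1900007c0007f8001fe0007fe001cf000efe000ff0001f00007c0000f00000000000000000000000000000000000) (nat_lit 16)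
theorem c115846 : QOK q115846 := cut [q105202, q105851, q106418, q106425, q106548, q106549, q115807, q115816, q2066, q2091, q115833, q79078, q100796, q110759, q2065, q2090, q3763, q106516] ⟨c105202, c105851, c106418, c106425, c106548, c106549, c115807, c115816, c2066, c2091, c115833, c79078, c100796, c110759, c2065, c2090, c3763, c106516, trivial⟩ (nd (nat_lit 251) (nat_lit 0) (cs (rf (nat_lit 0)) (cs (rf (nat_lit 1)) (cs (rf (nat_lit 2)) (cs (rf (nat_lit 3)) (cs (rf (nat_lit 4)) (cs (rf (nat_lit 5)) (cs (rf (nat_lit 6)) (cs (rf (nat_lit 7)) (nd (nat_lit 275) (nat_lit 0) (cs (rf (nat_lit 8)) (cs (rf (nat_lit 9)) (cs (rf (nat_lit 10)) (nd (nat_lit 230) (nat_lit 0) (cs (rf (nat_lit 11)) (cs (rf (nat_lit 12)) (cs (rf (nat_lit 13)) (nd (nat_lit 297) (nat_lit 0) (cs (lf (nat_lit 42) (nat_lit 230)) (nd (nat_lit 250) (nat_lit 0) (cs (rf (nat_lit 14)) (cs (rf (nat_lit 15)) (cs (rf (nat_lit 16)) (nd (nat_lit 273) (nat_lit 0) (cs (nd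 (nat_lit 295) (nat_lit 0) (cs (lf (nat_lit 30) (nat_lit 229)) (nd (nat_lit 272) (nat_lit 0) (cs (lf (nat_lit 11) (nat_lit 249)) (nd (nat_lit 298) (nat_lit 0) (cs (lf (nat_lit 2) (nat_lit 272)) (lf (nat_lit 20) (nat_lit 272)))))))) (cs (nd (nat_lit 228) (nat_lit 0) (cs (lf (nat_lit 23) (nat_lit 227)) (nd (nat_lit 206) (nat_lit 0) (cs (lf (nat_lit 24) (nat_lit 184)) (nd (nat_lit 295) (nat_lit 0) (cs (lf (nat_lit 30) (nat_lit 229)) (lf (nat_lit 45) (nat_lit 206)))))))) (nd (nat_lit 227) (nat_lit 0) (cs (lf (nat_lit 22) (nat_lit 227)) (rf (nat_lit 17)))))))))))))))))))))))))))))) q115846 (by decide +kernel)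
def q115857 : Q := Q.p (nat_lit 0x3000000000000000000000000000000000000000000000000000000000000000) (nat_lit 0xa00007c0001f8003fdc007ce003ffc001fe0007e0001f80002a00000000000000000000000000000000000) (nat_lit 17)
theorem c115857 : QOK q115857 := cut [q81726, q110533, q110768, q110805, q114510, q115794, q115850, q80464, q80700, q81348, q107554, q79028, q82024, q114523, q79078, q79112, q115644, q6259, q79029, q81355, q114524, q80571, q81867, q110546, q113999] ⟨c81726, c110533, c110768, c110805, c114510, c115794, c115850, c80464, c80700, c81348, c107554, c79028, c82024, c114523, c79078, c79112, c115644, c6259, c79029, c81355, c114524, c80571, c81867, c110546, c113999, trivial⟩ (nd (nat_lit 254) (nat_lit 0) (cs (rf (nat_lit 0)) (cs (rf (nat_lit 1)) (cs (rf (nat_lit 2)) (cs (rf (nat_lit 3)) (cs (rf (nat_lit 4)) (cs (rf (nat_lit 5)) (cs (rf (nat_lit 6)) (cs (nd (nat_lit 255) (nat_lit 0) (cs (rf (nat_lit 7)) (cs (rf (nat_lit 8)) (cs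 (rf (nat_lit 9)) (rf (nat_lit 10)))))) (cs (nd (nat_lit 230) (nat_lit 0) (cs (rf (nat_lit 11)) (cs (rf (nat_lit 12)) (cs (rf (nat_lit 13)) (nd (nat_lit 275) (nat_lit 0) (cs (rf (nat_lit 14)) (cs (rf (nat_lit 15)) (cs (rf (nat_lit 16)) (nd (nat_lit 208) (nat_lit 0) (cs (rf (nat_lit 17)) (cs (rf (nat_lit 18)) (nd (nat_lit 255) (nat_lit 0) (cs (rf (nat_lit 19)) (cs (rf (nat_lit 10)) (rf (nat_lit 20)))))))))))))))) (nd (nat_lit 255) (nat_lit 0) (cs (rf (nat_lit 21)) (cs (rf (nat_lit 22)) (cs (rf (nat_lit 23)) (rf (nat_lit 24)))))))))))))))) q115857 (by decide +kernel)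
def q115886 : Q := Q.p (nat_lit 0x3000000000000000000000000000000000000000000000000000000000000000) (nat_lit 0x1100007c0007f8001ff000ffe001cf000fee001fc0003f0000f80001e00000000000000000000000000000000000) (nat_lit 19)
theorem c115886 : QOK q115886 := cut [q106425, q106748, q106813, q110543, q110812, q115861, q1999, q24207, q115833, q82275, q106743, q115872, q79013, q79231, q105203, q88302, q106756, q80583, q86907, q114628, q82632, q88792, q106778, q106779, q85505, q89866, q110835, q106793, q106794, q115715, q115884, q79020, q110037] ⟨c106425, c106748, c106813, c110543, c110812, c115861, c1999, c24207, c115833, c82275, c106743, c115872, c79013, c79231, c105203, c88302, c106756, c80583, c86907, c114628, c82632, c88792, c106778, c106779, c85505, c89866, c110835, c106793, c106794, c115715, c115884, c79020, c110037, trivial⟩ (nd (nat_lit 251) (nat_lit 0) (cs (rf (nat_lit 0)) (cs (rf (nat_lit 1)) (cs (rf (nat_lit 2)) (cs (rf (nat_lit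 3)) (cs (rf (nat_lit 4)) (cs (rf (nat_lit 5)) (cs (nd (nat_lit 275) (nat_lit 0) (cs (rf (nat_lit 6)) (cs (rf (nat_lit 7)) (cs (rf (nat_lit 8)) (nd (nat_lit 231) (nat_lit 0) (cs (rf (nat_lit 9)) (cs (rf (nat_lit 10)) (rf (nat_lit 11))))))))) (cs (nd (nat_lit 254) (nat_lit 0) (cs (rf (nat_lit 12)) (cs (rf (nat_lit 13)) (rf (nat_lit 14))))) (cs (nd (nat_lit 273) (nat_lit 0) (cs (rf (nat_lit 15)) (cs (rf (nat_lit 16)) (cs (nd (nat_lit 295) (nat_lit 0) (cs (rf (nat_lit 17)) (cs (rf (nat_lit 18)) (cs (rf (nat_lit 19)) (nd (nat_lit 318) (nat_lit 0) (cs (rf (nat_lit 20)) (cs (rf (nat_lit 21)) (cs (rf (nat_lit 22)) (nd (nat_lit 229) (nat_lit 0) (cs (lf (nat_lit 28) (nat_lit 229)) (nd (nat_lit 317) (nat_lit 0) (cs (lf (nat_lit 29) (nat_lit 251)) (rf (nat_lit 23)))))))))))))) (nd (nat_lit 230) (nat_lit 0) (cs (rf (nat_lit 24)) (cs (rf (nat_lit 25)) (cs (rf (nat_lit 26)) (nd (nat_lit 295) (nat_lit 0) (cs (lf (nat_lit 30) (nat_lit 229))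 (nd (nat_lit 254) (nat_lit 0) (cs (rf (nat_lit 27)) (cs (rf (nat_lit 28)) (rf (nat_lit 29))))))))))))))) (cs (rf (nat_lit 30)) (nd (nat_lit 254) (nat_lit 0) (cs (rf (nat_lit 31)) (cs (rf (nat_lit 13)) (rf (nat_lit 32)))))))))))))))) q115886 (by decide +kernel)
def q115910 : Q := Q.p (nat_lit 0x3000000000000000000000000000000000000000000000000000000000000000) (nat_lit 0x500003f0000fe001fee003cf001ffe000ff0007f0000fc0001d00000000000000000000000000000000000) (nat_lit 17)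
theorem c115910 : QOK q115910 := cut [q106665, q110985, q115816, q115884, q82275, q96402, q105168, q2091, q106820, q115872, q79024, q82261, q92245, q105767, q80624, q81085, q105203, q106423, q82198, q114689, q106833, q83666, q91583, q5482, q11484, q105153, q106427, q114690, q82288, q106447, q106872, q79256, q81494, q80456] ⟨c106665, c110985, c115816, c115884, c82275, c96402, c105168, c2091, c106820, c115872, c79024, c82261, c92245, c105767, c80624, c81085, c105203, c106423, c82198, c114689, c106833, c83666, c91583, c5482, c11484, c105153, c106427, c114690, c82288, c106447, c106872, c79256, c81494, c80456, trivial⟩ (nd (nat_lit 251) (nat_lit 0) (cs (rf (nat_lit 0)) (cs (rf (nat_lit 1)) (cs (rf (nat_lit 2)) (cs (rf (nat_lit 3)) (cs (nd (nat_lit 231) (nat_lit 0) (cs (rf (nat_lit 4)) (cs (rf (nat_lit 5)) (cs (rf (nat_lit 6)) (nd (nat_lit 275) (nat_lit 0) (cs (rf (nat_lit 7)) (cs (rf (nat_lit 8)) (rf (nat_lit 9))))))))) (cs (nd (nat_lit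 254) (nat_lit 0) (cs (rf (nat_lit 10)) (cs (rf (nat_lit 11)) (cs (rf (nat_lit 12)) (rf (nat_lit 13)))))) (cs (nd (nat_lit 254) (nat_lit 0) (cs (rf (nat_lit 14)) (cs (rf (nat_lit 15)) (cs (rf (nat_lit 16)) (cs (rf (nat_lit 13)) (rf (nat_lit 17))))))) (cs (nd (nat_lit 229) (nat_lit 0) (cs (rf (nat_lit 18)) (cs (rf (nat_lit 19)) (cs (nd (nat_lit 254) (nat_lit 0) (cs (lf (nat_lit 23) (nat_lit 228)) (nd (nat_lit 232) (nat_lit 0) (cs (lf (nat_lit 17) (nat_lit 229)) (nd (nat_lit 277) (nat_lit 0) (cs (lf (nat_lit 4) (nat_lit 251)) (rf (nat_lit 20)))))))) (nd (nat_lit 274) (nat_lit 0) (cs (rf (nat_lit 21)) (cs (rf (nat_lit 22)) (cs (nd (nat_lit 207) (nat_lit 0) (cs (rf (nat_lit 23)) (cs (rf (nat_lit 24)) (nd (nat_lit 254) (nat_lit 0) (cs (rf (nat_lit 11)) (cs (rf (nat_lit 25)) (cs (rf (nat_lit 26)) (rf (nat_lit 27))))))))) (nd (nat_lit 296) (nat_lit 0) (cs (lf (nat_lit 42) (nat_lit 229)) (nd (nat_lit 230) (nat_lit 0) (cs (rf (nat_lit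 28)) (cs (rf (nat_lit 29)) (rf (nat_lit 30))))))))))))))) (nd (nat_lit 254) (nat_lit 0) (cs (rf (nat_lit 31)) (cs (rf (nat_lit 32)) (cs (rf (nat_lit 16)) (nd (nat_lit 229) (nat_lit 0) (cs (lf (nat_lit 23) (nat_lit 228)) (nd (nat_lit 276) (nat_lit 0) (cs (lf (nat_lit 5) (nat_lit 251)) (nd (nat_lit 255) (nat_lit 0) (cs (lf (nat_lit 22) (nat_lit 229)) (nd (nat_lit 234) (nat_lit 0) (cs (lf (nat_lit 16) (nat_lit 230)) (nd (nat_lit 256) (nat_lit 0) (cs (lf (nat_lit 17) (nat_lit 231)) (nd (nat_lit 257) (nat_lit 0) (cs (rf (nat_lit 33)) (lf (nat_lit 11) (nat_lit 253))))))))))))))))))))))))))) q115910 (by decide +kernel)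

end Crest.Agent.H3.Snaky.CR
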