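import Crest.Agent.H3.Snaky.Cert
import Crest.Agent.H3.Snaky.CR.CR0
import Crest.Agent.H3.Snaky.CR.CR1
import Crest.Agent.H3.Snaky.CR.CR2
import Crest.Agent.H3.Snaky.CR.CR3
import Crest.Agent.H3.Snaky.CR.CR4
import Crest.Agent.H3.Snaky.CR.CR5
import Crest.Agent.H3.Snaky.CR.CR6
import Crest.Agent.H3.Snaky.CR.CR7
import Crest.Agent.H3.Snaky.CR.CR8
import Crest.Agent.H3.Snaky.CR.CR9
import Crest.Agent.H3.Snaky.CR.CR10
import Crest.Agent.H3.Snaky.CR.CR11
import Crest.Agent.H3.Snaky.CR.CR12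
import Crest.Agent.H3.Snaky.CR.CR13
import Crest.Agent.H3.Snaky.CR.CR14
import Crest.Agent.H3.Snaky.CR.CR15
import Crest.Agent.H3.Snaky.CR.CR16
import Crest.Agent.H3.Snaky.CR.CR17
import Crest.Agent.H3.Snaky.CR.CR18
import Crest.Agent.H3.Snaky.CR.CR19
import Crest.Agent.H3.Snaky.CR.CR20
import Crest.Agent.H3.Snaky.CR.CR21
import Crest.Agent.H3.Snaky.CR.CR22
import Crest.Agent.H3.Snaky.CR.CR23
import Crest.Agent.H3.Snaky.CR.CR24
import Crest.Agent.H3.Snaky.CR.CR25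
import Crest.Agent.H3.Snaky.CR.CR26
import Crest.Agent.H3.Snaky.CR.CR27
import Crest.Agent.H3.Snaky.CR.CR28
import Crest.Agent.H3.Snaky.CR.CR29
import Crest.Agent.H3.Snaky.CR.CR30
import Crest.Agent.H3.Snaky.CR.CR31
import Crest.Agent.H3.Snaky.CR.CR32
import Crest.Agent.H3.Snaky.CR.CR33
import Crest.Agent.H3.Snaky.CR.CR34
import Crest.Agent.H3.Snaky.CR.CR35
import Crest.Agent.H3.Snaky.CR.CR36
import Crest.Agent.H3.Snaky.CR.CR37
import Crest.Agent.H3.Snaky.CR.CR38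
import Crest.Agent.H3.Snaky.CR.CR39
import Crest.Agent.H3.Snaky.CR.CR40
import Crest.Agent.H3.Snaky.CR.CR41
import Crest.Agent.H3.Snaky.CR.CR42
import Crest.Agent.H3.Snaky.CR.CR43
import Crest.Agent.H3.Snaky.CR.CR44
import Crest.Agent.H3.Snaky.CR.CR45
import Crest.Agent.H3.Snaky.CR.CR46
import Crest.Agent.H3.Snaky.CR.CR47
import Crest.Agent.H3.Snaky.CR.CR48
import Crest.Agent.H3.Snaky.CR.CR49
import Crest.Agent.H3.Snaky.CR.CR50
import Crest.Agent.H3.Snaky.CR.CR51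
import Crest.Agent.H3.Snaky.CR.CR52
import Crest.Agent.H3.Snaky.CR.CR53
import Crest.Agent.H3.Snaky.CR.CR54
import Crest.Agent.H3.Snaky.CR.CR55
import Crest.Agent.H3.Snaky.CR.CR56
import Crest.Agent.H3.Snaky.CR.CR57
import Crest.Agent.H3.Snaky.CR.CR58
import Crest.Agent.H3.Snaky.CR.CR59
import Crest.Agent.H3.Snaky.CR.CR60
import Crest.Agent.H3.Snaky.CR.CR61
import Crest.Agent.H3.Snaky.CR.CR62
import Crest.Agent.H3.Snaky.CR.CR63
import Crest.Agent.H3.Snaky.CR.CR64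
import Crest.Agent.H3.Snaky.CR.CR65
import Crest.Agent.H3.Snaky.CR.CR66
import Crest.Agent.H3.Snaky.CR.CR67
import Crest.Agent.H3.Snaky.CR.CR68
import Crest.Agent.H3.Snaky.CR.CR69
import Crest.Agent.H3.Snaky.CR.CR70
import Crest.Agent.H3.Snaky.CR.CR71
import Crest.Agent.H3.Snaky.CR.CR72
import Crest.Agent.H3.Snaky.CR.CR73
import Crest.Agent.H3.Snaky.CR.CR74
import Crest.Agent.H3.Snaky.CR.CR75
import Crest.Agent.H3.Snaky.CR.CR76

set_option autoImplicit false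
set_option maxRecDepth 100000

namespace Crest.Agent.H3.Snaky.CR

open T

def q183 : Q := Q.p (nat_lit 0x2000000000010000040000000000000000000000000000000000000000000000) (nat_lit 0x80000080007be001ef000fbe000500000400000000000000000000000000000000000) (nat_lit 11)
theorem c183 : QOK q183 := cut [q35, q105, q111, q182] ⟨c35, c105, c111, c182, trivial⟩ (nd (nat_lit 209) (nat_lit 0) (cs (rf (nat_lit 0)) (cs (rf (nat_lit 1)) (cs (rf (nat_lit 2)) (rf (nat_lit 3)))))) q183 (by decide +kernel)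
def q637 : Q := Q.p (nat_lit 0x2000000000010000040000000000000000000000000000000000000000000000) (nat_lit 0x180007fe000ef0007be000fe0001f80007e0000a000000000000000000000000) (nat_lit 15)
theorem c637 : QOK q637 := cut [q517, q553, q559, q608, q614, q628, q631, q636] ⟨c517, c553, c559, c608, c614, c628, c631, c636, trivial⟩ (nd (nat_lit 164) (nat_lit 0) (cs (rf (nat_lit 0)) (cs (nd (nat_lit 207) (nat_lit 0) (cs (rf (nat_lit 1)) (cs (rf (nat_lit 2)) (rf (nat_lit 3))))) (cs (rf (nat_lit 4)) (cs (rf (nat_lit 5)) (cs (rf (nat_lit 6)) (rf (nat_lit 7)))))))) q637 (by decide +kernel)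
def q1456 : Q := Q.p (nat_lit 0x2000000000030000000000000000000000000000000000000000000000000000) (nat_lit 0xb0001ff0007f80009f800efe001cf80077e0007e0001f80002a00000000000000000000000000000) (nat_lit 16)
theorem c1456 : QOK q1456 := cut [q8, q450, q39, q1160, q1163, q1167, q1175, q1381, q1382, q756, q1177, q1384, q1388, q1393, q1399, q1405, q1409, q1411, q1413, q1135, q1416, q1418, q676, q674, q1111, q1442, q1178, q1142, q1225] ⟨c8, c450, c39, c1160, c1163, c1167, c1175, c1381, c1382, c756, c1177, c1384, c1388, c1393, c1399, c1405, c1409, c1411, c1413, c1135, c1416, c1418, c676, c674, c1111, c1442, c1178, c1142, c1225, trivial⟩ (nd (nat_lit 230) (nat_lit 0) (cs (nd (nat_lit 186) (nat_lit 0) (cs (rf (nat_lit 0)) (cs (rf (nat_lit 1)) (cs (nd (nat_lit 210) (nat_lit 0) (cs (rf (nat_lit 2)) (cs (rf (nat_lit 3)) (cs (nd (nat_lit 211) (nat_lit 0) (cs (lf (nat_lit 11) (nat_lit 207)) (nd (nat_lit 189) (nat_lit 0) (cs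 (lf (nat_lit 17) (nat_lit 186)) (nd (nat_lit 188) (nat_lit 0) (cs (lf (nat_lit 12) (nat_lit 185)) (rf (nat_lit 4)))))))) (rf (nat_lit 5)))))) (rf (nat_lit 6)))))) (cs (rf (nat_lit 7)) (cs (nd (nat_lit 231) (nat_lit 0) (cs (rf (nat_lit 8)) (cs (nd (nat_lit 210) (nat_lit 0) (cs (rf (nat_lit 9)) (cs (nd (nat_lit 207) (nat_lit 0) (cs (nd (nat_lit 229) (nat_lit 0) (cs (rf (nat_lit 10)) (nd (nat_lit 164) (nat_lit 0) (cs (rf (nat_lit 11)) (lf (nat_lit 25) (nat_lit 164)))))) (cs (nd (nat_lit 188) (nat_lit 0) (cs (lf (nat_lit 17) (nat_lit 185)) (nd (nat_lit 144) (nat_lit 0) (cs (lf (nat_lit 37) (nat_lit 143)) (nd (nat_lit 228) (nat_lit 0) (cs (lf (nat_lit 10) (nat_lit 206)) (rf (nat_lit 12)))))))) (rf (nat_lit 13))))) (nd (nat_lit 164) (nat_lit 0) (cs (lf (nat_lit 25) (nat_lit 164)) (rf (nat_lit 14))))))) (rf (nat_lit 15))))) (cs (nd (nat_lit 252) (nat_lit 0) (cs (rf (nat_lit 16)) (cs (nd (nat_lit 207) (nat_lit 0) (cs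 (rf (nat_lit 17)) (cs (rf (nat_lit 18)) (cs (nd (nat_lit 206) (nat_lit 0) (cs (rf (nat_lit 19)) (cs (rf (nat_lit 20)) (cs (nd (nat_lit 227) (nat_lit 0) (cs (lf (nat_lit 10) (nat_lit 205)) (rf (nat_lit 21)))) (cs (nd (nat_lit 183) (nat_lit 0) (cs (lf (nat_lit 22) (nat_lit 183)) (nd (nat_lit 205) (nat_lit 0) (cs (lf (nat_lit 23) (nat_lit 182)) (rf (nat_lit 22)))))) (nd (nat_lit 227) (nat_lit 0) (cs (lf (nat_lit 10) (nat_lit 205)) (nd (nat_lit 205) (nat_lit 0) (cs (lf (nat_lit 11) (nat_lit 204)) (nd (nat_lit 229) (nat_lit 0) (cs (lf (nat_lit 0) (nat_lit 204)) (nd (nat_lit 185) (nat_lit 0) (cs (lf (nat_lit 24) (nat_lit 163)) (nd (nat_lit 210) (nat_lit 0) (cs (lf (nat_lit 23) (nat_lit 184)) (lf (nat_lit 6) (nat_lit 207))))))))))))))))) (nd (nat_lit 229) (nat_lit 0) (cs (rf (nat_lit 23)) (rf (nat_lit 24)))))))) (cs (rf (nat_lit 25)) (cs (nd (nat_lit 186) (nat_lit 0) (cs (lf (nat_lit 29) (nat_lit 186)) (nd (nat_lit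 185) (nat_lit 0) (cs (lf (nat_lit 47) (nat_lit 163)) (nd (nat_lit 184) (nat_lit 0) (cs (lf (nat_lit 0) (nat_lit 183)) (nd (nat_lit 207) (nat_lit 0) (cs (lf (nat_lit 18) (nat_lit 184)) (lf (nat_lit 42) (nat_lit 185)))))))))) (nd (nat_lit 186) (nat_lit 0) (cs (lf (nat_lit 29) (nat_lit 186)) (nd (nat_lit 251) (nat_lit 0) (cs (lf (nat_lit 41) (nat_lit 185)) (nd (nat_lit 229) (nat_lit 0) (cs (rf (nat_lit 26)) (lf (nat_lit 36) (nat_lit 163))))))))))))) (nd (nat_lit 275) (nat_lit 0) (cs (nd (nat_lit 186) (nat_lit 0) (cs (lf (nat_lit 44) (nat_lit 186)) (lf (nat_lit 27) (nat_lit 186)))) (cs (rf (nat_lit 27)) (cs (nd (nat_lit 231) (nat_lit 0) (cs (lf (nat_lit 42) (nat_lit 208)) (lf (nat_lit 47) (nat_lit 186)))) (rf (nat_lit 28))))))))))) q1456 (by decide +kernel)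
def q1561 : Q := Q.p (nat_lit 0x2000000000030000000000000000000000000000000000000000000000000000) (nat_lit 0xe0000b80001e0000be001cf0007fe0005e0001780000a00000000000000000000000000000) (nat_lit 13)
theorem c1561 : QOK q1561 := cut [q792, q1460, q1465, q1476, q1504, q117, q1135, q1508, q1511, q1519, q1522, q1551, q1560] ⟨c792, c1460, c1465, c1476, c1504, c117, c1135, c1508, c1511, c1519, c1522, c1551, c1560, trivial⟩ (nd (nat_lit 207) (nat_lit 0) (cs (rf (nat_lit 0)) (cs (rf (nat_lit 1)) (cs (rf (nat_lit 2)) (cs (rf (nat_lit 3)) (cs (rf (nat_lit 4)) (cs (nd (nat_lit 206) (nat_lit 0) (cs (rf (nat_lit 5)) (cs (rf (nat_lit 6)) (cs (rf (nat_lit 7)) (cs (rf (nat_lit 8)) (cs (rf (nat_lit 9)) (rf (nat_lit 10)))))))) (cs (rf (nat_lit 11)) (rf (nat_lit 12)))))))))) q1561 (by decide +kernel)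
def q1988 : Q := Q.p (nat_lit 0x2000000000030000000000000000000000000000000000000000000000000000) (nat_lit 0x1e0001f80001f000e7e003cf001ffe000ff8003fe000fe0003d0000a0000000000000000000) (nat_lit 18)
theorem c1988 : QOK q1988 := cut [q792, q1465, q1504, q1551, q1673, q1597, q1608, q1746, q1119, q1661, q1615, q1658, q1749, q1756, q1769, q1866, q1412, q1933, q1621, q1939, q1231, q1558, q1468, q1948, q1974, q1987] ⟨c792, c1465, c1504, c1551, c1673, c1597, c1608, c1746, c1119, c1661, c1615, c1658, c1749, c1756, c1769, c1866, c1412, c1933, c1621, c1939, c1231, c1558, c1468, c1948, c1974, c1987, trivial⟩ (nd (nat_lit 207) (nat_lit 0) (cs (rf (nat_lit 0)) (cs (rf (nat_lit 1)) (cs (rf (nat_lit 2)) (cs (rf (nat_lit 3)) (cs (rf (nat_lit 4)) (cs (nd (nat_lit 185) (nat_lit 0) (cs (rf (nat_lit 5)) (cs (rf (nat_lit 6)) (cs (rf (nat_lit 7)) (nd (nat_lit 229) (nat_lit 0) (cs (rf (nat_lit 8)) (cs (rf (nat_lit 9)) (cs (nd (nat_lit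 163) (nat_lit 0) (cs (rf (nat_lit 10)) (cs (rf (nat_lit 11)) (cs (rf (nat_lit 12)) (nd (nat_lit 230) (nat_lit 0) (cs (lf (nat_lit 29) (nat_lit 163)) (nd (nat_lit 210) (nat_lit 0) (cs (lf (nat_lit 6) (nat_lit 207)) (nd (nat_lit 188) (nat_lit 0) (cs (lf (nat_lit 17) (nat_lit 185)) (nd (nat_lit 140) (nat_lit 0) (cs (lf (nat_lit 46) (nat_lit 140)) (nd (nat_lit 164) (nat_lit 0) (cs (lf (nat_lit 35) (nat_lit 141)) (nd (nat_lit 186) (nat_lit 0) (cs (lf (nat_lit 41) (nat_lit 163)) (nd (nat_lit 165) (nat_lit 0) (cs (lf (nat_lit 35) (nat_lit 142)) (nd (nat_lit 166) (nat_lit 0) (cs (lf (nat_lit 6) (nat_lit 163)) (nd (nat_lit 144) (nat_lit 0) (cs (lf (nat_lit 17) (nat_lit 141)) (nd (nat_lit 122) (nat_lit 0) (cs (rf (nat_lit 13)) (lf (nat_lit 40) (nat_lit 121)))))))))))))))))))))))))) (rf (nat_lit 14)))))))))) (cs (rf (nat_lit 15)) (cs (nd (nat_lit 185) (nat_lit 0) (cs (rf (nat_lit 16)) (cs (rf (nat_lit 5)) (cs (rf (nat_lit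 17)) (nd (nat_lit 163) (nat_lit 0) (cs (rf (nat_lit 10)) (cs (rf (nat_lit 18)) (cs (rf (nat_lit 11)) (cs (rf (nat_lit 19)) (nd (nat_lit 184) (nat_lit 0) (cs (rf (nat_lit 20)) (cs (rf (nat_lit 21)) (cs (nd (nat_lit 162) (nat_lit 0) (cs (nd (nat_lit 140) (nat_lit 0) (cs (lf (nat_lit 24) (nat_lit 118)) (lf (nat_lit 42) (nat_lit 140)))) (cs (nd (nat_lit 187) (nat_lit 0) (cs (rf (nat_lit 22)) (cs (nd (nat_lit 118) (nat_lit 0) (cs (nd (nat_lit 188) (nat_lit 0) (cs (lf (nat_lit 12) (nat_lit 184)) (nd (nat_lit 189) (nat_lit 0) (cs (lf (nat_lit 6) (nat_lit 186)) (nd (nat_lit 165) (nat_lit 0) (cs (lf (nat_lit 2) (nat_lit 162)) (rf (nat_lit 23)))))))) (lf (nat_lit 25) (nat_lit 118)))) (nd (nat_lit 161) (nat_lit 0) (cs (nd (nat_lit 160) (nat_lit 0) (cs (nd (nat_lit 118) (nat_lit 0) (cs (lf (nat_lit 25) (nat_lit 118)) (nd (nat_lit 181) (nat_lit 0) (cs (nd (nat_lit 138) (nat_lit 0) (cs (nd (nat_lit 164) (nat_lit 0) (cs (nd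 (nat_lit 165) (nat_lit 0) (cs (lf (nat_lit 6) (nat_lit 162)) (nd (nat_lit 143) (nat_lit 0) (cs (lf (nat_lit 41) (nat_lit 142)) (lf (nat_lit 16) (nat_lit 139)))))) (lf (nat_lit 22) (nat_lit 138)))) (lf (nat_lit 23) (nat_lit 137)))) (lf (nat_lit 10) (nat_lit 159)))))) (lf (nat_lit 0) (nat_lit 159)))) (lf (nat_lit 19) (nat_lit 161))))))) (nd (nat_lit 229) (nat_lit 0) (cs (lf (nat_lit 42) (nat_lit 162)) (rf (nat_lit 24))))))) (nd (nat_lit 183) (nat_lit 0) (cs (lf (nat_lit 21) (nat_lit 183)) (lf (nat_lit 3) (nat_lit 183))))))))))))))))) (rf (nat_lit 25))))))))))) q1988 (by decide +kernel)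
def q2210 : Q := Q.p (nat_lit 0x2000000000030000000000000000000000000000000000000000000000000000) (nat_lit 0x7c0001f0001fe0007fc0019e0000fc000cf0007fe000ee0001f00007c00000000000000000000000000000) (nat_lit 17)
theorem c2210 : QOK q2210 := cut [q1992, q2092, q1170, q2098, q2106, q2128, q2132, q2137, q2066, q2147, q1133, q2164, q2175, q2178, q2191, q2195, q2197, q2199, q732, q1590, q2202, q2206] ⟨c1992, c2092, c1170, c2098, c2106, c2128, c2132, c2137, c2066, c2147, c1133, c2164, c2175, c2178, c2191, c2195, c2197, c2199, c732, c1590, c2202, c2206, trivial⟩ (nd (nat_lit 275) (nat_lit 0) (cs (nd (nat_lit 231) (nat_lit 0) (cs (lf (nat_lit 47) (nat_lit 186)) (rf (nat_lit 0)))) (cs (nd (nat_lit 252) (nat_lit 0) (cs (rf (nat_lit 1)) (cs (nd (nat_lit 186) (nat_lit 0) (cs (lf (nat_lit 26) (nat_lit 186)) (nd (nat_lit 185) (nat_lit 0) (cs (rf (nat_lit 2)) (cs (nd (nat_lit 207) (nat_lit 0) (cs (nd (nat_lit 210) (nat_lit 0)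 (cs (lf (nat_lit 18) (nat_lit 185)) (nd (nat_lit 188) (nat_lit 0) (cs (lf (nat_lit 17) (nat_lit 185)) (nd (nat_lit 229) (nat_lit 0) (cs (lf (nat_lit 11) (nat_lit 206)) (nd (nat_lit 251) (nat_lit 0) (cs (lf (nat_lit 30) (nat_lit 185)) (rf (nat_lit 3)))))))))) (cs (rf (nat_lit 4)) (rf (nat_lit 5))))) (cs (nd (nat_lit 184) (nat_lit 0) (cs (lf (nat_lit 0) (nat_lit 183)) (nd (nat_lit 187) (nat_lit 0) (cs (rf (nat_lit 6)) (cs (rf (nat_lit 7)) (cs (nd (nat_lit 207) (nat_lit 0) (cs (rf (nat_lit 4)) (cs (nd (nat_lit 162) (nat_lit 0) (cs (lf (nat_lit 23) (nat_lit 161)) (nd (nat_lit 165) (nat_lit 0) (cs (lf (nat_lit 17) (nat_lit 162)) (nd (nat_lit 121) (nat_lit 0) (cs (lf (nat_lit 37) (nat_lit 120)) (nd (nat_lit 118) (nat_lit 0) (cs (lf (nat_lit 25) (nat_lit 118)) (nd (nat_lit 251) (nat_lit 0) (cs (rf (nat_lit 8)) (lf (nat_lit 43) (nat_lit 162)))))))))))) (cs (nd (nat_lit 165) (nat_lit 0) (cs (lf (nat_lit 17) (nat_lit 162))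 (nd (nat_lit 121) (nat_lit 0) (cs (lf (nat_lit 37) (nat_lit 120)) (nd (nat_lit 205) (nat_lit 0) (cs (rf (nat_lit 9)) (lf (nat_lit 10) (nat_lit 183)))))))) (nd (nat_lit 161) (nat_lit 0) (cs (lf (nat_lit 22) (nat_lit 161)) (nd (nat_lit 165) (nat_lit 0) (cs (lf (nat_lit 17) (nat_lit 162)) (nd (nat_lit 121) (nat_lit 0) (cs (lf (nat_lit 37) (nat_lit 120)) (nd (nat_lit 206) (nat_lit 0) (cs (lf (nat_lit 12) (nat_lit 183)) (rf (nat_lit 10)))))))))))))) (cs (rf (nat_lit 11)) (nd (nat_lit 161) (nat_lit 0) (cs (lf (nat_lit 22) (nat_lit 161)) (nd (nat_lit 165) (nat_lit 0) (cs (lf (nat_lit 17) (nat_lit 162)) (nd (nat_lit 121) (nat_lit 0) (cs (lf (nat_lit 37) (nat_lit 120)) (nd (nat_lit 206) (nat_lit 0) (cs (lf (nat_lit 11) (nat_lit 183)) (nd (nat_lit 207) (nat_lit 0) (cs (lf (nat_lit 17) (nat_lit 184)) (nd (nat_lit 228) (nat_lit 0) (cs (lf (nat_lit 11) (nat_lit 205)) (nd (nat_lit 250) (nat_lit 0) (cs (lf (nat_lit 30) (nat_lit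 184)) (nd (nat_lit 251) (nat_lit 0) (cs (lf (nat_lit 5) (nat_lit 250)) (lf (nat_lit 29) (nat_lit 184))))))))))))))))))))))))) (rf (nat_lit 12)))))))) (cs (nd (nat_lit 274) (nat_lit 0) (cs (rf (nat_lit 13)) (cs (rf (nat_lit 14)) (rf (nat_lit 15))))) (rf (nat_lit 16)))))) (cs (rf (nat_lit 17)) (cs (nd (nat_lit 231) (nat_lit 0) (cs (rf (nat_lit 18)) (cs (rf (nat_lit 19)) (rf (nat_lit 0))))) (cs (nd (nat_lit 231) (nat_lit 0) (cs (lf (nat_lit 47) (nat_lit 186)) (rf (nat_lit 20)))) (nd (nat_lit 231) (nat_lit 0) (cs (lf (nat_lit 47) (nat_lit 186)) (nd (nat_lit 276) (nat_lit 0) (cs (lf (nat_lit 29) (nat_lit 209)) (nd (nat_lit 230) (nat_lit 0) (cs (lf (nat_lit 42) (nat_lit 208)) (rf (nat_lit 21)))))))))))))) q2210 (by decide +kernel)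
def q2751 : Q := Q.p (nat_lit 0x2000000000010000000000000000000000000000000000000000000000000000) (nat_lit 0x280000fc0001e0001fe00fef801ffe007fe0003fc000fe0000a800000000000000000000000) (nat_lit 18)
theorem c2751 : QOK q2751 := cut [q443, q501, q516, q641, q415, q416, q424, q429, q430, q280, q360, q344, q1504, q2628, q2629, q2630, q2632, q283, q1170, q2175, q2106, q2128, q2312, q2161, q2302, q2660, q2663, q2664, q337, q290, q2677, q2680, q2745, q517, q614, q628, q631, q636, q559, q608, q527, q530, q547, q526, q562, q329] ⟨c443, c501, c516, c641, c415, c416, c424, c429, c430, c280, c360, c344, c1504, c2628, c2629, c2630, c2632, c283, c1170, c2175, c2106, c2128, c2312, c2161, c2302, c2660, c2663, c2664, c337, c290, c2677, c2680, c2745, c517, c614, c628, c631, c636, c559, c608, c527, c530, c547, c526, c562, c329, trivial⟩ (nd (nat_lit 186) (nat_lit 0) (cs (rf (nat_lit 0)) (cs (rf (nat_lit 1)) (cs (rf (nat_lit 2))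 (cs (rf (nat_lit 3)) (cs (nd (nat_lit 252) (nat_lit 0) (cs (rf (nat_lit 4)) (cs (rf (nat_lit 5)) (cs (rf (nat_lit 6)) (cs (rf (nat_lit 7)) (cs (rf (nat_lit 8)) (nd (nat_lit 209) (nat_lit 0) (cs (rf (nat_lit 9)) (cs (rf (nat_lit 10)) (cs (nd (nat_lit 207) (nat_lit 0) (cs (rf (nat_lit 11)) (cs (rf (nat_lit 12)) (cs (rf (nat_lit 13)) (cs (rf (nat_lit 14)) (cs (rf (nat_lit 15)) (cs (rf (nat_lit 16)) (nd (nat_lit 231) (nat_lit 0) (cs (lf (nat_lit 42) (nat_lit 186)) (nd (nat_lit 206) (nat_lit 0) (cs (lf (nat_lit 5) (nat_lit 206)) (nd (nat_lit 183) (nat_lit 0) (cs (lf (nat_lit 22) (nat_lit 183)) (nd (nat_lit 205) (nat_lit 0) (cs (lf (nat_lit 23) (nat_lit 182)) (nd (nat_lit 185) (nat_lit 0) (cs (lf (nat_lit 12) (nat_lit 182)) (nd (nat_lit 210) (nat_lit 0) (cs (lf (nat_lit 18) (nat_lit 185)) (nd (nat_lit 188) (nat_lit 0) (cs (lf (nat_lit 17) (nat_lit 185)) (nd (nat_lit 144) (nat_lit 0) (cs (rf (nat_lit 17)) (lf (nat_lit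 37) (nat_lit 143))))))))))))))))))))))))) (cs (nd (nat_lit 185) (nat_lit 0) (cs (rf (nat_lit 18)) (cs (rf (nat_lit 19)) (cs (nd (nat_lit 207) (nat_lit 0) (cs (rf (nat_lit 20)) (cs (rf (nat_lit 21)) (nd (nat_lit 210) (nat_lit 0) (cs (lf (nat_lit 18) (nat_lit 185)) (nd (nat_lit 188) (nat_lit 0) (cs (lf (nat_lit 17) (nat_lit 185)) (rf (nat_lit 17))))))))) (nd (nat_lit 184) (nat_lit 0) (cs (lf (nat_lit 0) (nat_lit 183)) (nd (nat_lit 206) (nat_lit 0) (cs (rf (nat_lit 22)) (cs (nd (nat_lit 187) (nat_lit 0) (cs (lf (nat_lit 11) (nat_lit 183)) (nd (nat_lit 165) (nat_lit 0) (cs (lf (nat_lit 17) (nat_lit 162)) (nd (nat_lit 121) (nat_lit 0) (cs (lf (nat_lit 37) (nat_lit 120)) (rf (nat_lit 23)))))))) (cs (nd (nat_lit 228) (nat_lit 0) (cs (rf (nat_lit 24)) (cs (rf (nat_lit 25)) (cs (rf (nat_lit 26)) (nd (nat_lit 207) (nat_lit 0) (cs (lf (nat_lit 11) (nat_lit 205)) (nd (nat_lit 250) (nat_lit 0) (cs (lf (nat_lit 30) (nat_lit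 184)) (nd (nat_lit 251) (nat_lit 0) (cs (lf (nat_lit 29) (nat_lit 184)) (rf (nat_lit 27)))))))))))) (nd (nat_lit 228) (nat_lit 0) (cs (rf (nat_lit 24)) (cs (rf (nat_lit 26)) (nd (nat_lit 207) (nat_lit 0) (cs (lf (nat_lit 11) (nat_lit 205)) (nd (nat_lit 187) (nat_lit 0) (cs (rf (nat_lit 28)) (lf (nat_lit 17) (nat_lit 184))))))))))))))))))) (cs (nd (nat_lit 207) (nat_lit 0) (cs (rf (nat_lit 29)) (cs (rf (nat_lit 13)) (rf (nat_lit 30))))) (rf (nat_lit 31)))))))))))))) (cs (rf (nat_lit 32)) (nd (nat_lit 164) (nat_lit 0) (cs (rf (nat_lit 33)) (cs (rf (nat_lit 34)) (cs (rf (nat_lit 35)) (cs (rf (nat_lit 36)) (cs (rf (nat_lit 37)) (nd (nat_lit 207) (nat_lit 0) (cs (rf (nat_lit 38)) (cs (rf (nat_lit 39)) (nd (nat_lit 206) (nat_lit 0) (cs (rf (nat_lit 40)) (cs (rf (nat_lit 41)) (cs (rf (nat_lit 42)) (nd (nat_lit 187) (nat_lit 0) (cs (rf (nat_lit 43)) (cs (rf (nat_lit 44)) (nd (nat_lit 209) (nat_lit 0) (cs (rf (nat_lit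 45)) (lf (nat_lit 43) (nat_lit 164))))))))))))))))))))))))))) q2751 (by decide +kernel)
def q2870 : Q := Q.p (nat_lit 0x2000000000010000040000100000000000000000000000000000000000000000) (nat_lit 0x200000c0007be000ef0007be0002c0000700000400000000000000000000000000000) (nat_lit 11)
theorem c2870 : QOK q2870 := cut [q553, q660, q1465, q2867, q2869] ⟨c553, c660, c1465, c2867, c2869, trivial⟩ (nd (nat_lit 207) (nat_lit 0) (cs (rf (nat_lit 0)) (cs (nd (nat_lit 209) (nat_lit 0) (cs (rf (nat_lit 1)) (cs (rf (nat_lit 2)) (nd (nat_lit 142) (nat_lit 0) (cs (lf (nat_lit 41) (nat_lit 141)) (lf (nat_lit 29) (nat_lit 142))))))) (cs (rf (nat_lit 3)) (rf (nat_lit 4)))))) q2870 (by decide +kernel)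
def q2927 : Q := Q.p (nat_lit 0x2000000000030000000000000000000000000000000000000000000000000000) (nat_lit 0x1e0000780001e000f7e003cf001ffe0007f0000f80001e00005000000000000000000000000) (nat_lit 14)
theorem c2927 : QOK q2927 := cut [q792, q1465, q1504, q1551, q1987, q1597, q1608, q1746, q1119, q1661, q1769, q1615, q1658, q1749, q1885, q2919, q2926] ⟨c792, c1465, c1504, c1551, c1987, c1597, c1608, c1746, c1119, c1661, c1769, c1615, c1658, c1749, c1885, c2919, c2926, trivial⟩ (nd (nat_lit 207) (nat_lit 0) (cs (rf (nat_lit 0)) (cs (rf (nat_lit 1)) (cs (rf (nat_lit 2)) (cs (rf (nat_lit 3)) (cs (rf (nat_lit 4)) (cs (nd (nat_lit 185) (nat_lit 0) (cs (rf (nat_lit 5)) (cs (rf (nat_lit 6)) (cs (rf (nat_lit 7)) (nd (nat_lit 229) (nat_lit 0) (cs (rf (nat_lit 8)) (cs (rf (nat_lit 9)) (cs (rf (nat_lit 10)) (nd (nat_lit 163) (nat_lit 0) (cs (rf (nat_lit 11)) (cs (rf (nat_lit 12)) (cs (rf (nat_lit 13)) (nd (nat_lit 230) (nat_lit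 0) (cs (lf (nat_lit 29) (nat_lit 163)) (nd (nat_lit 210) (nat_lit 0) (cs (lf (nat_lit 6) (nat_lit 207)) (nd (nat_lit 188) (nat_lit 0) (cs (lf (nat_lit 17) (nat_lit 185)) (rf (nat_lit 14)))))))))))))))))))) (cs (rf (nat_lit 15)) (rf (nat_lit 16)))))))))) q2927 (by decide +kernel)
def q2967 : Q := Q.p (nat_lit 0x2000000000030000000000000000000000000000000000000000000000000000) (nat_lit 0x140000780003f80001c000ffe001cf000fbe000480000200000000000000000000000000000000000) (nat_lit 12)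
theorem c2967 : QOK q2967 := cut [q1594, q2932, q119, q685, q2933, q2935, q2938, q732, q2931, q2950, q2959, q2966] ⟨c1594, c2932, c119, c685, c2933, c2935, c2938, c732, c2931, c2950, c2959, c2966, trivial⟩ (nd (nat_lit 231) (nat_lit 0) (cs (rf (nat_lit 0)) (cs (rf (nat_lit 1)) (cs (nd (nat_lit 207) (nat_lit 0) (cs (rf (nat_lit 2)) (cs (rf (nat_lit 3)) (cs (rf (nat_lit 4)) (cs (rf (nat_lit 5)) (rf (nat_lit 6))))))) (cs (nd (nat_lit 275) (nat_lit 0) (cs (rf (nat_lit 7)) (cs (rf (nat_lit 8)) (rf (nat_lit 9))))) (cs (rf (nat_lit 10)) (rf (nat_lit 11)))))))) q2967 (by decide +kernel)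
def q2987 : Q := Q.p (nat_lit 0x2000000000030000000000000000000000000000000000000000000000000000) (nat_lit 0x100000780003f80001c0003c00000e0007e0000780000400000000000000000000000000000000000) (nat_lit 10)
theorem c2987 : QOK q2987 := cut [q1563, q1595, q2959, q2986] ⟨c1563, c1595, c2959, c2986, trivial⟩ (nd (nat_lit 231) (nat_lit 0) (cs (rf (nat_lit 0)) (cs (rf (nat_lit 1)) (cs (rf (nat_lit 2)) (rf (nat_lit 3)))))) q2987 (by decide +kernel)
def q3756 : Q := Q.p (nat_lit 0x2000000000018000040000000000000000000000000000000000000000000000) (nat_lit 0x80000700007c0001f80003c000078001bc000ff8003fc0003f00009000000000000000000000000) (nat_lit 15)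
theorem c3756 : QOK q3756 := cut [q3498, q3500, q3508, q3514, q3527, q3536, q3542, q3543, q3565, q2312, q3507, q3575, q3581, q3546, q3564, q3606, q3679, q3700, q90, q3126, q1663, q3129, q2094, q3701, q524, q1916, q3728, q3735, q3744, q3747, q3754] ⟨c3498, c3500, c3508, c3514, c3527, c3536, c3542, c3543, c3565, c2312, c3507, c3575, c3581, c3546, c3564, c3606, c3679, c3700, c90, c3126, c1663, c3129, c2094, c3701, c524, c1916, c3728, c3735, c3744, c3747, c3754, trivial⟩ (nd (nat_lit 185) (nat_lit 0) (cs (rf (nat_lit 0)) (cs (nd (nat_lit 184) (nat_lit 0) (cs (rf (nat_lit 1)) (cs (rf (nat_lit 2)) (nd (nat_lit 183) (nat_lit 0) (cs (lf (nat_lit 0) (nat_lit 182)) (rf (nat_lit 3))))))) (cs (nd (nat_lit 184) (nat_lit 0) (cs (rf (nat_lit 2)) (cs (rf (nat_lit 4)) (cs (rf (nat_lit 5)) (cs (rf (nat_lit 6)) (cs (rf (nat_lit 7)) (rf (nat_lit 8)))))))) (cs (nd (nat_lit 184) (nat_lit 0) (cs (rf (nat_lit 5)) (cs (rf (nat_lit 7))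 (cs (nd (nat_lit 206) (nat_lit 0) (cs (rf (nat_lit 9)) (cs (rf (nat_lit 10)) (nd (nat_lit 187) (nat_lit 0) (cs (lf (nat_lit 6) (nat_lit 184)) (rf (nat_lit 11))))))) (cs (nd (nat_lit 183) (nat_lit 0) (cs (lf (nat_lit 0) (nat_lit 182)) (nd (nat_lit 164) (nat_lit 0) (cs (lf (nat_lit 17) (nat_lit 161)) (nd (nat_lit 120) (nat_lit 0) (cs (lf (nat_lit 37) (nat_lit 119)) (rf (nat_lit 12)))))))) (cs (nd (nat_lit 183) (nat_lit 0) (cs (lf (nat_lit 0) (nat_lit 182)) (nd (nat_lit 164) (nat_lit 0) (cs (lf (nat_lit 17) (nat_lit 161)) (nd (nat_lit 142) (nat_lit 0) (cs (lf (nat_lit 36) (nat_lit 119)) (nd (nat_lit 121) (nat_lit 0) (cs (lf (nat_lit 34) (nat_lit 120)) (nd (nat_lit 141) (nat_lit 0) (cs (lf (nat_lit 47) (nat_lit 119)) (nd (nat_lit 161) (nat_lit 0) (cs (lf (nat_lit 23) (nat_lit 160)) (nd (nat_lit 187) (nat_lit 0) (cs (lf (nat_lit 22) (nat_lit 161)) (nd (nat_lit 206) (nat_lit 0) (cs (lf (nat_lit 6) (nat_lit 184)) (nd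 (nat_lit 228) (nat_lit 0) (cs (lf (nat_lit 42) (nat_lit 161)) (lf (nat_lit 37) (nat_lit 140)))))))))))))))))))) (nd (nat_lit 206) (nat_lit 0) (cs (rf (nat_lit 10)) (cs (rf (nat_lit 13)) (cs (rf (nat_lit 14)) (rf (nat_lit 15)))))))))))) (cs (rf (nat_lit 16)) (cs (rf (nat_lit 17)) (cs (nd (nat_lit 229) (nat_lit 0) (cs (rf (nat_lit 18)) (cs (rf (nat_lit 19)) (nd (nat_lit 163) (nat_lit 0) (cs (rf (nat_lit 20)) (cs (rf (nat_lit 21)) (nd (nat_lit 206) (nat_lit 0) (cs (rf (nat_lit 22)) (cs (nd (nat_lit 164) (nat_lit 0) (cs (lf (nat_lit 36) (nat_lit 141)) (nd (nat_lit 228) (nat_lit 0) (cs (lf (nat_lit 41) (nat_lit 162)) (nd (nat_lit 227) (nat_lit 0) (cs (lf (nat_lit 12) (nat_lit 204)) (nd (nat_lit 187) (nat_lit 0) (cs (lf (nat_lit 6) (nat_lit 184)) (nd (nat_lit 162) (nat_lit 0) (cs (lf (nat_lit 47) (nat_lit 140)) (nd (nat_lit 184) (nat_lit 0) (cs (lf (nat_lit 41) (nat_lit 161)) (rf (nat_lit 23)))))))))))))) (nd (nat_lit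 164) (nat_lit 0) (cs (rf (nat_lit 24)) (nd (nat_lit 140) (nat_lit 0) (cs (lf (nat_lit 46) (nat_lit 140)) (nd (nat_lit 205) (nat_lit 0) (cs (lf (nat_lit 12) (nat_lit 182)) (nd (nat_lit 227) (nat_lit 0) (cs (lf (nat_lit 11) (nat_lit 204)) (nd (nat_lit 183) (nat_lit 0) (cs (lf (nat_lit 23) (nat_lit 182)) (nd (nat_lit 250) (nat_lit 0) (cs (lf (nat_lit 40) (nat_lit 162)) (nd (nat_lit 184) (nat_lit 0) (cs (lf (nat_lit 17) (nat_lit 161)) (nd (nat_lit 249) (nat_lit 0) (cs (lf (nat_lit 30) (nat_lit 183)) (lf (nat_lit 29) (nat_lit 183))))))))))))))))))))))))))) (cs (nd (nat_lit 229) (nat_lit 0) (cs (rf (nat_lit 18)) (cs (rf (nat_lit 19)) (nd (nat_lit 163) (nat_lit 0) (cs (rf (nat_lit 20)) (cs (rf (nat_lit 21)) (nd (nat_lit 164) (nat_lit 0) (cs (rf (nat_lit 25)) (rf (nat_lit 26)))))))))) (cs (nd (nat_lit 184) (nat_lit 0) (cs (rf (nat_lit 1)) (cs (nd (nat_lit 183) (nat_lit 0) (cs (lf (nat_lit 0) (nat_lit 182)) (nd (nat_lit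 164) (nat_lit 0) (cs (lf (nat_lit 17) (nat_lit 161)) (nd (nat_lit 120) (nat_lit 0) (cs (lf (nat_lit 37) (nat_lit 119)) (rf (nat_lit 3)))))))) (rf (nat_lit 27))))) (nd (nat_lit 163) (nat_lit 0) (cs (rf (nat_lit 28)) (cs (rf (nat_lit 29)) (rf (nat_lit 30))))))))))))))) q3756 (by decide +kernel)
def q4070 : Q := Q.p (nat_lit 0x2000000000018000000000000000000000000000000000000000000000000000) (nat_lit 0x300000f0001fe0007f80001e0003fe000270001ee000380000a00000000000000000000000000000000000) (nat_lit 15)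
theorem c4070 : QOK q4070 := cut [q3989, q3992, q3996, q4056, q4069] ⟨c3989, c3992, c3996, c4056, c4069, trivial⟩ (nd (nat_lit 230) (nat_lit 0) (cs (rf (nat_lit 0)) (cs (rf (nat_lit 1)) (cs (rf (nat_lit 2)) (cs (rf (nat_lit 3)) (rf (nat_lit 4))))))) q4070 (by decide +kernel)
def q4350 : Q := Q.p (nat_lit 0x2000000000018000000000000000000000000000000000000000000000000000) (nat_lit 0x300000f0001fe0007f80001e0007fe001e70001fe000280000a00000000000000000000000000000000000) (nat_lit 15)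
theorem c4350 : QOK q4350 := cut [q4056, q4332, q4334, q4335, q1411, q3910, q4346, q1156, q3208, q4032, q799, q1135] ⟨c4056, c4332, c4334, c4335, c1411, c3910, c4346, c1156, c3208, c4032, c799, c1135, trivial⟩ (nd (nat_lit 230) (nat_lit 0) (cs (rf (nat_lit 0)) (cs (rf (nat_lit 1)) (cs (rf (nat_lit 2)) (cs (rf (nat_lit 3)) (cs (nd (nat_lit 252) (nat_lit 0) (cs (rf (nat_lit 4)) (cs (nd (nat_lit 186) (nat_lit 0) (cs (lf (nat_lit 29) (nat_lit 186)) (nd (nat_lit 251) (nat_lit 0) (cs (lf (nat_lit 41) (nat_lit 185)) (nd (nat_lit 163) (nat_lit 0) (cs (lf (nat_lit 46) (nat_lit 163)) (nd (nat_lit 187) (nat_lit 0) (cs (lf (nat_lit 35) (nat_lit 164)) (nd (nat_lit 206) (nat_lit 0) (cs (lf (nat_lit 12) (nat_lit 183)) (nd (nat_lit 209) (nat_lit 0) (cs (lf (nat_lit 17) (nat_lit 184)) (nd (nat_lit 183) (nat_lit 0) (cs (lf (nat_lit 22) (nat_lit 183)) (rf (nat_lit 5)))))))))))))))) (rf (nat_lit 6))))) (nd (nat_lit 206) (nat_lit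 0) (cs (rf (nat_lit 7)) (cs (rf (nat_lit 8)) (cs (rf (nat_lit 9)) (nd (nat_lit 209) (nat_lit 0) (cs (rf (nat_lit 10)) (rf (nat_lit 11)))))))))))))) q4350 (by decide +kernel)
def q5577 : Q := Q.p (nat_lit 0x2000000000018000000000000000000000000000000000000000000000000000) (nat_lit 0x40000380000f80001f0007ee001e70003fe0001f0000fe0003e0000a800000000000000000000000) (nat_lit 15)
theorem c5577 : QOK q5577 := cut [q516, q4079, q4436, q524, q559, q4806, q5534, q2246, q2270, q3803, q527, q530, q2412, q3851, q4529, q5546, q5553, q5397, q522, q558, q618, q5569, q5041, q3493] ⟨c516, c4079, c4436, c524, c559, c4806, c5534, c2246, c2270, c3803, c527, c530, c2412, c3851, c4529, c5546, c5553, c5397, c522, c558, c618, c5569, c5041, c3493, trivial⟩ (nd (nat_lit 186) (nat_lit 0) (cs (rf (nat_lit 0)) (cs (rf (nat_lit 1)) (cs (rf (nat_lit 2)) (cs (nd (nat_lit 164) (nat_lit 0) (cs (rf (nat_lit 3)) (cs (rf (nat_lit 4)) (cs (nd (nat_lit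 163) (nat_lit 0) (cs (rf (nat_lit 5)) (cs (nd (nat_lit 230) (nat_lit 0) (cs (lf (nat_lit 47) (nat_lit 141)) (rf (nat_lit 6)))) (cs (nd (nat_lit 162) (nat_lit 0) (cs (rf (nat_lit 7)) (cs (rf (nat_lit 8)) (cs (rf (nat_lit 9)) (cs (nd (nat_lit 206) (nat_lit 0) (cs (rf (nat_lit 10)) (cs (rf (nat_lit 11)) (nd (nat_lit 184) (nat_lit 0) (cs (rf (nat_lit 12)) (rf (nat_lit 13))))))) (nd (nat_lit 185) (nat_lit 0) (cs (rf (nat_lit 14)) (cs (nd (nat_lit 119) (nat_lit 0) (cs (lf (nat_lit 25) (nat_lit 119)) (rf (nat_lit 15)))) (nd (nat_lit 119) (nat_lit 0) (cs (lf (nat_lit 25) (nat_lit 119)) (rf (nat_lit 16)))))))))))) (nd (nat_lit 162) (nat_lit 0) (cs (rf (nat_lit 9)) (cs (nd (nat_lit 229) (nat_lit 0) (cs (rf (nat_lit 17)) (nd (nat_lit 140) (nat_lit 0) (cs (lf (nat_lit 44) (nat_lit 140)) (nd (nat_lit 206) (nat_lit 0) (cs (rf (nat_lit 11)) (lf (nat_lit 26) (nat_lit 140)))))))) (nd (nat_lit 185) (nat_lit 0) (cs (rf (nat_lit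 14)) (cs (rf (nat_lit 15)) (rf (nat_lit 16)))))))))))) (nd (nat_lit 142) (nat_lit 0) (cs (rf (nat_lit 18)) (cs (rf (nat_lit 19)) (cs (rf (nat_lit 20)) (rf (nat_lit 21)))))))))) (nd (nat_lit 164) (nat_lit 0) (cs (rf (nat_lit 3)) (cs (rf (nat_lit 4)) (cs (rf (nat_lit 22)) (nd (nat_lit 230) (nat_lit 0) (cs (lf (nat_lit 28) (nat_lit 164)) (nd (nat_lit 229) (nat_lit 0) (cs (lf (nat_lit 41) (nat_lit 163)) (nd (nat_lit 163) (nat_lit 0) (cs (lf (nat_lit 47) (nat_lit 141)) (nd (nat_lit 185) (nat_lit 0) (cs (lf (nat_lit 42) (nat_lit 163)) (rf (nat_lit 23))))))))))))))))))) q5577 (by decide +kernel)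
def q5849 : Q := Q.p (nat_lit 0x30000060000000000000000000000000000000000000000000000) (nat_lit 0x100000c00033c000cf00028e001ff0003fc001ff0003f0000f8000060000000000000) (nat_lit 16)
theorem c5849 : QOK q5849 := cut [q1982, q2106, q5810, q5848] ⟨c1982, c2106, c5810, c5848, trivial⟩ (nd (nat_lit 207) (nat_lit 0) (cs (rf (nat_lit 0)) (cs (rf (nat_lit 1)) (cs (rf (nat_lit 2)) (rf (nat_lit 3)))))) q5849 (by decide +kernel)
def q6119 : Q := Q.p (nat_lit 0x2000000000010000040000000000000000000000000000000000000000000000) (nat_lit 0x200000c00003e0001fc0001f0007ff001ef800ebe0002f8001fc0003f00007800000000000000000000000) (nat_lit 16)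
theorem c6119 : QOK q6119 := cut [q3193, q4436, q344, q2629, q2630, q2632, q2677, q5699, q5913, q3889, q3960, q5914, q6041, q2451, q3123, q3296, q3795, q2412, q805, q864, q3851, q3856, q3859, q5883, q3572, q3734, q5856, q3828, q3849, q1485, q1527, q1540, q3392, q6059, q438, q4417, q3286, q371, q1819, q1158, q136, q6118] ⟨c3193, c4436, c344, c2629, c2630, c2632, c2677, c5699, c5913, c3889, c3960, c5914, c6041, c2451, c3123, c3296, c3795, c2412, c805, c864, c3851, c3856, c3859, c5883, c3572, c3734, c5856, c3828, c3849, c1485, c1527, c1540, c3392, c6059, c438, c4417, c3286, c371, c1819, c1158, c136, c6118, trivial⟩ (nd (nat_lit 207) (nat_lit 0) (cs (rf (nat_lit 0)) (cs (rf (nat_lit 1)) (cs (nd (nat_lit 209) (nat_lit 0) (cs (rf (nat_lit 2)) (cs (rf (nat_lit 3)) (cs (rf (nat_lit 4)) (cs (rf (nat_lit 5)) (cs (rf (nat_lit 6)) (rf (nat_lit 7)))))))) (cs (rf (nat_lit 8)) (cs (nd (nat_lit 206) (nat_lit 0) (cs (rf (nat_lit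 9)) (cs (rf (nat_lit 10)) (rf (nat_lit 11))))) (cs (rf (nat_lit 12)) (cs (nd (nat_lit 206) (nat_lit 0) (cs (rf (nat_lit 13)) (cs (rf (nat_lit 14)) (cs (rf (nat_lit 15)) (rf (nat_lit 11)))))) (cs (nd (nat_lit 206) (nat_lit 0) (cs (rf (nat_lit 13)) (cs (rf (nat_lit 16)) (cs (rf (nat_lit 9)) (cs (rf (nat_lit 10)) (nd (nat_lit 184) (nat_lit 0) (cs (rf (nat_lit 17)) (cs (nd (nat_lit 162) (nat_lit 0) (cs (rf (nat_lit 18)) (cs (rf (nat_lit 19)) (cs (rf (nat_lit 20)) (cs (nd (nat_lit 228) (nat_lit 0) (cs (rf (nat_lit 21)) (cs (rf (nat_lit 22)) (cs (rf (nat_lit 23)) (nd (nat_lit 229) (nat_lit 0) (cs (lf (nat_lit 29) (nat_lit 162)) (nd (nat_lit 226) (nat_lit 0) (cs (lf (nat_lit 13) (nat_lit 204)) (nd (nat_lit 141) (nat_lit 0) (cs (lf (nat_lit 34) (nat_lit 140)) (nd (nat_lit 161) (nat_lit 0) (cs (lf (nat_lit 47) (nat_lit 139)) (nd (nat_lit 185) (nat_lit 0) (cs (lf (nat_lit 18) (nat_lit 161)) (nd (nat_lit 183) (nat_lit 0)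 (cs (lf (nat_lit 42) (nat_lit 161)) (lf (nat_lit 23) (nat_lit 160)))))))))))))))))) (nd (nat_lit 185) (nat_lit 0) (cs (rf (nat_lit 24)) (cs (rf (nat_lit 25)) (rf (nat_lit 26)))))))))) (cs (nd (nat_lit 228) (nat_lit 0) (cs (rf (nat_lit 27)) (cs (rf (nat_lit 28)) (cs (nd (nat_lit 209) (nat_lit 0) (cs (lf (nat_lit 11) (nat_lit 205)) (rf (nat_lit 29)))) (nd (nat_lit 250) (nat_lit 0) (cs (rf (nat_lit 30)) (cs (rf (nat_lit 31)) (rf (nat_lit 32))))))))) (nd (nat_lit 209) (nat_lit 0) (cs (lf (nat_lit 23) (nat_lit 183)) (rf (nat_lit 33))))))))))))) (cs (nd (nat_lit 230) (nat_lit 0) (cs (rf (nat_lit 34)) (cs (rf (nat_lit 35)) (nd (nat_lit 206) (nat_lit 0) (cs (rf (nat_lit 13)) (cs (rf (nat_lit 14)) (cs (rf (nat_lit 9)) (nd (nat_lit 209) (nat_lit 0) (cs (rf (nat_lit 36)) (cs (rf (nat_lit 33)) (nd (nat_lit 252) (nat_lit 0) (cs (rf (nat_lit 37)) (cs (rf (nat_lit 38)) (nd (nat_lit 185) (nat_lit 0) (cs (rf (nat_lit 39)) (nd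 (nat_lit 184) (nat_lit 0) (cs (rf (nat_lit 40)) (nd (nat_lit 251) (nat_lit 0) (cs (lf (nat_lit 41) (nat_lit 185)) (nd (nat_lit 162) (nat_lit 0) (cs (lf (nat_lit 43) (nat_lit 162)) (nd (nat_lit 187) (nat_lit 0) (cs (lf (nat_lit 35) (nat_lit 164)) (lf (nat_lit 23) (nat_lit 161))))))))))))))))))))))))) (rf (nat_lit 41)))))))))))) q6119 (by decide +kernel)
def q6882 : Q := Q.p (nat_lit 0x3000004000018000000000000000000000000000000000000000000000000000) (nat_lit 0x1ee0007f80000e000000000200000a0000000000000000000000000000000000000000000000) (nat_lit 11)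
theorem c6882 : QOK q6882 := cut [q6879] ⟨c6879, trivial⟩ (nd (nat_lit 274) (nat_lit 0) (cs (lf (nat_lit 47) (nat_lit 185)) (nd (nat_lit 187) (nat_lit 0) (cs (lf (nat_lit 34) (nat_lit 186)) (nd (nat_lit 275) (nat_lit 0) (cs (lf (nat_lit 29) (nat_lit 208)) (rf (nat_lit 0)))))))) q6882 (by decide +kernel)
def q6971 : Q := Q.p (nat_lit 0x2000000000018000000000000000000000000000000000000000000000000000) (nat_lit 0x300000f8001fe0007f80001f0003fe000270003fe0002e0000b80000a00000000000000000000000000000) (nat_lit 15)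
theorem c6971 : QOK q6971 := cut [q4056, q4334, q4335, q1411, q4346, q6906, q3988, q4059, q3478, q6951, q1156, q3208, q4032, q3421, q6596, q1496, q3392, q1500, q3386, q6953, q5161, q5291, q6964] ⟨c4056, c4334, c4335, c1411, c4346, c6906, c3988, c4059, c3478, c6951, c1156, c3208, c4032, c3421, c6596, c1496, c3392, c1500, c3386, c6953, c5161, c5291, c6964, trivial⟩ (nd (nat_lit 230) (nat_lit 0) (cs (rf (nat_lit 0)) (cs (rf (nat_lit 1)) (cs (rf (nat_lit 2)) (cs (nd (nat_lit 252) (nat_lit 0) (cs (rf (nat_lit 3)) (cs (rf (nat_lit 4)) (nd (nat_lit 186) (nat_lit 0) (cs (lf (nat_lit 29) (nat_lit 186)) (nd (nat_lit 251) (nat_lit 0) (cs (lf (nat_lit 41) (nat_lit 185)) (nd (nat_lit 163) (nat_lit 0) (cs (lf (nat_lit 46) (nat_lit 163)) (rf (nat_lit 5))))))))))) (cs (nd (nat_lit 231) (nat_lit 0) (cs (rf (nat_lit 6)) (nd (nat_lit 275) (nat_lit 0) (cs (lf (nat_lit 42) (nat_lit 208)) (nd (nat_lit 186) (nat_lit 0) (cs (lf (nat_lit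 27) (nat_lit 186)) (lf (nat_lit 45) (nat_lit 186)))))))) (cs (nd (nat_lit 252) (nat_lit 0) (cs (rf (nat_lit 3)) (cs (rf (nat_lit 7)) (cs (nd (nat_lit 273) (nat_lit 0) (cs (rf (nat_lit 8)) (nd (nat_lit 186) (nat_lit 0) (cs (lf (nat_lit 40) (nat_lit 185)) (rf (nat_lit 5)))))) (rf (nat_lit 9)))))) (nd (nat_lit 206) (nat_lit 0) (cs (rf (nat_lit 10)) (cs (rf (nat_lit 11)) (cs (rf (nat_lit 12)) (nd (nat_lit 228) (nat_lit 0) (cs (rf (nat_lit 13)) (cs (rf (nat_lit 14)) (cs (nd (nat_lit 250) (nat_lit 0) (cs (rf (nat_lit 15)) (cs (rf (nat_lit 16)) (cs (nd (nat_lit 184) (nat_lit 0) (cs (rf (nat_lit 17)) (cs (rf (nat_lit 18)) (cs (nd (nat_lit 251) (nat_lit 0) (cs (lf (nat_lit 29) (nat_lit 184)) (nd (nat_lit 161) (nat_lit 0) (cs (lf (nat_lit 46) (nat_lit 161)) (nd (nat_lit 163) (nat_lit 0) (cs (lf (nat_lit 34) (nat_lit 162)) (nd (nat_lit 249) (nat_lit 0) (cs (lf (nat_lit 41) (nat_lit 183)) (rf (nat_lit 19)))))))))) (nd (nat_lit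 249) (nat_lit 0) (cs (lf (nat_lit 41) (nat_lit 183)) (nd (nat_lit 162) (nat_lit 0) (cs (lf (nat_lit 40) (nat_lit 161)) (nd (nat_lit 229) (nat_lit 0) (cs (lf (nat_lit 6) (nat_lit 227)) (lf (nat_lit 24) (nat_lit 140)))))))))))) (nd (nat_lit 229) (nat_lit 0) (cs (rf (nat_lit 20)) (rf (nat_lit 21)))))))) (nd (nat_lit 209) (nat_lit 0) (cs (lf (nat_lit 11) (nat_lit 205)) (nd (nat_lit 187) (nat_lit 0) (cs (lf (nat_lit 17) (nat_lit 184)) (nd (nat_lit 143) (nat_lit 0) (cs (lf (nat_lit 37) (nat_lit 142)) (nd (nat_lit 231) (nat_lit 0) (cs (lf (nat_lit 5) (nat_lit 206)) (rf (nat_lit 22))))))))))))))))))))))))) q6971 (by decide +kernel)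
def q7466 : Q := Q.p (nat_lit 0x2000000000030000000000000000000000000000000000000000000000000000) (nat_lit 0x140000780003f80001c000ffc001ce000fbc000700001c00007000010000000000000000000000000) (nat_lit 10)
theorem c7466 : QOK q7466 := cut [q1594, q2932, q2959, q7462, q7465] ⟨c1594, c2932, c2959, c7462, c7465, trivial⟩ (nd (nat_lit 231) (nat_lit 0) (cs (rf (nat_lit 0)) (cs (rf (nat_lit 1)) (cs (rf (nat_lit 2)) (cs (rf (nat_lit 3)) (rf (nat_lit 4))))))) q7466 (by decide +kernel)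
def q8510 : Q := Q.p (nat_lit 0x2000000000010000000000000000000000000000000000000000000000000000) (nat_lit 0x140000780007e00039c001fee00fef003ffc007ff001ffe007ff0003f000000000000000000000000) (nat_lit 19)
theorem c8510 : QOK q8510 := cut [q443, q516, q641, q2904, q6170, q8167, q35, q6705, q39, q203, q2631, q2684, q5805, q8172, q5780, q8178, q8182, q8189, q5749, q8200, q8244, q209, q231, q4378, q4384, q8505, q8508] ⟨c443, c516, c641, c2904, c6170, c8167, c35, c6705, c39, c203, c2631, c2684, c5805, c8172, c5780, c8178, c8182, c8189, c5749, c8200, c8244, c209, c231, c4378, c4384, c8505, c8508, trivial⟩ (nd (nat_lit 186) (nat_lit 0) (cs (rf (nat_lit 0)) (cs (rf (nat_lit 1)) (cs (rf (nat_lit 2)) (cs (rf (nat_lit 3)) (cs (rf (nat_lit 4)) (cs (rf (nat_lit 5)) (nd (nat_lit 209) (nat_lit 0) (cs (rf (nat_lit 6)) (cs (nd (nat_lit 231) (nat_lit 0) (cs (rf (nat_lit 7)) (nd (nat_lit 210) (nat_lit 0) (cs (rf (nat_lit 8)) (cs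 (rf (nat_lit 9)) (cs (nd (nat_lit 207) (nat_lit 0) (cs (rf (nat_lit 10)) (cs (rf (nat_lit 11)) (nd (nat_lit 141) (nat_lit 0) (cs (nd (nat_lit 142) (nat_lit 0) (cs (lf (nat_lit 25) (nat_lit 142)) (nd (nat_lit 188) (nat_lit 0) (cs (lf (nat_lit 17) (nat_lit 185)) (nd (nat_lit 144) (nat_lit 0) (cs (lf (nat_lit 37) (nat_lit 143)) (nd (nat_lit 185) (nat_lit 0) (cs (lf (nat_lit 23) (nat_lit 184)) (rf (nat_lit 12)))))))))) (cs (nd (nat_lit 185) (nat_lit 0) (cs (lf (nat_lit 23) (nat_lit 184)) (nd (nat_lit 163) (nat_lit 0) (cs (lf (nat_lit 24) (nat_lit 119)) (rf (nat_lit 13)))))) (cs (nd (nat_lit 144) (nat_lit 0) (cs (nd (nat_lit 188) (nat_lit 0) (cs (lf (nat_lit 17) (nat_lit 185)) (lf (nat_lit 37) (nat_lit 143)))) (cs (nd (nat_lit 142) (nat_lit 0) (cs (lf (nat_lit 25) (nat_lit 142)) (nd (nat_lit 143) (nat_lit 0) (cs (rf (nat_lit 14)) (cs (nd (nat_lit 188) (nat_lit 0) (cs (lf (nat_lit 17) (nat_lit 185)) (rf (nat_lit 15))))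 (cs (rf (nat_lit 16)) (nd (nat_lit 162) (nat_lit 0) (cs (lf (nat_lit 10) (nat_lit 140)) (nd (nat_lit 119) (nat_lit 0) (cs (lf (nat_lit 23) (nat_lit 118)) (nd (nat_lit 188) (nat_lit 0) (cs (lf (nat_lit 17) (nat_lit 185)) (rf (nat_lit 17)))))))))))))) (nd (nat_lit 142) (nat_lit 0) (cs (lf (nat_lit 25) (nat_lit 142)) (nd (nat_lit 143) (nat_lit 0) (cs (rf (nat_lit 18)) (rf (nat_lit 16))))))))) (cs (nd (nat_lit 185) (nat_lit 0) (cs (lf (nat_lit 23) (nat_lit 184)) (nd (nat_lit 163) (nat_lit 0) (cs (lf (nat_lit 24) (nat_lit 119)) (nd (nat_lit 188) (nat_lit 0) (cs (lf (nat_lit 17) (nat_lit 185)) (nd (nat_lit 144) (nat_lit 0) (cs (lf (nat_lit 37) (nat_lit 143)) (nd (nat_lit 142) (nat_lit 0) (cs (lf (nat_lit 35) (nat_lit 119)) (rf (nat_lit 19)))))))))))) (cs (nd (nat_lit 142) (nat_lit 0) (cs (lf (nat_lit 25) (nat_lit 142)) (nd (nat_lit 188) (nat_lit 0) (cs (lf (nat_lit 17) (nat_lit 185)) (nd (nat_lit 144) (nat_lit 0) (cs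 (lf (nat_lit 37) (nat_lit 143)) (nd (nat_lit 185) (nat_lit 0) (cs (lf (nat_lit 23) (nat_lit 184)) (nd (nat_lit 163) (nat_lit 0) (cs (lf (nat_lit 35) (nat_lit 119)) (rf (nat_lit 19)))))))))))) (rf (nat_lit 20))))))))))) (nd (nat_lit 211) (nat_lit 0) (cs (rf (nat_lit 21)) (cs (rf (nat_lit 22)) (cs (rf (nat_lit 23)) (rf (nat_lit 24)))))))))))) (cs (rf (nat_lit 25)) (rf (nat_lit 26))))))))))))) q8510 (by decide +kernel)
def q8580 : Q := Q.p (nat_lit 0x2000000000010000040000000000000000000000000000000000000000000000) (nat_lit 0x200004c800196000ffe007ef003fbe003ef8003f8000fe0002a800000000000000000000000) (nat_lit 16)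
theorem c8580 : QOK q8580 := cut [q4591, q4624, q4667, q7860, q4083, q4084, q356, q8140, q2226, q2235, q7994, q8522, q8525, q561, q318, q62, q2922, q8040, q8047, q8055, q7677, q2224, q7481, q8556, q8579] ⟨c4591, c4624, c4667, c7860, c4083, c4084, c356, c8140, c2226, c2235, c7994, c8522, c8525, c561, c318, c62, c2922, c8040, c8047, c8055, c7677, c2224, c7481, c8556, c8579, trivial⟩ (nd (nat_lit 209) (nat_lit 0) (cs (rf (nat_lit 0)) (cs (rf (nat_lit 1)) (cs (rf (nat_lit 2)) (cs (rf (nat_lit 3)) (cs (nd (nat_lit 187) (nat_lit 0) (cs (rf (nat_lit 4)) (cs (rf (nat_lit 5)) (cs (nd (nat_lit 188) (nat_lit 0) (cs (rf (nat_lit 6)) (cs (rf (nat_lit 7)) (nd (nat_lit 185) (nat_lit 0) (cs (rf (nat_lit 8)) (cs (rf (nat_lit 9)) (rf (nat_lit 10)))))))) (cs (nd (nat_lit 231) (nat_lit 0) (cs (lf (nat_lit 42) (nat_lit 186)) (nd (nat_lit 252) (nat_lit 0) (cs (lf (nat_lit 41) (nat_lit 186)) (rf (nat_lit 11)))))) (rf (nat_lit 12)))))))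 (cs (nd (nat_lit 187) (nat_lit 0) (cs (rf (nat_lit 4)) (cs (rf (nat_lit 5)) (cs (rf (nat_lit 12)) (cs (nd (nat_lit 207) (nat_lit 0) (cs (rf (nat_lit 13)) (cs (nd (nat_lit 206) (nat_lit 0) (cs (lf (nat_lit 12) (nat_lit 183)) (nd (nat_lit 183) (nat_lit 0) (cs (lf (nat_lit 22) (nat_lit 183)) (rf (nat_lit 14)))))) (nd (nat_lit 210) (nat_lit 0) (cs (rf (nat_lit 15)) (cs (rf (nat_lit 16)) (nd (nat_lit 188) (nat_lit 0) (cs (rf (nat_lit 6)) (nd (nat_lit 166) (nat_lit 0) (cs (rf (nat_lit 17)) (cs (rf (nat_lit 18)) (cs (rf (nat_lit 19)) (nd (nat_lit 228) (nat_lit 0) (cs (lf (nat_lit 10) (nat_lit 206)) (nd (nat_lit 232) (nat_lit 0) (cs (lf (nat_lit 5) (nat_lit 207)) (nd (nat_lit 145) (nat_lit 0) (cs (lf (nat_lit 34) (nat_lit 144)) (nd (nat_lit 144) (nat_lit 0) (cs (lf (nat_lit 36) (nat_lit 121)) (lf (nat_lit 35) (nat_lit 122)))))))))))))))))))))) (cs (nd (nat_lit 231) (nat_lit 0) (cs (lf (nat_lit 42) (nat_lit 186)) (nd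 (nat_lit 252) (nat_lit 0) (cs (lf (nat_lit 41) (nat_lit 186)) (nd (nat_lit 165) (nat_lit 0) (cs (lf (nat_lit 40) (nat_lit 164)) (nd (nat_lit 143) (nat_lit 0) (cs (lf (nat_lit 36) (nat_lit 120)) (nd (nat_lit 120) (nat_lit 0) (cs (lf (nat_lit 46) (nat_lit 120)) (rf (nat_lit 20)))))))))))) (nd (nat_lit 165) (nat_lit 0) (cs (rf (nat_lit 21)) (cs (nd (nat_lit 143) (nat_lit 0) (cs (lf (nat_lit 36) (nat_lit 120)) (nd (nat_lit 120) (nat_lit 0) (cs (lf (nat_lit 46) (nat_lit 120)) (nd (nat_lit 122) (nat_lit 0) (cs (lf (nat_lit 34) (nat_lit 121)) (nd (nat_lit 210) (nat_lit 0) (cs (lf (nat_lit 29) (nat_lit 143)) (nd (nat_lit 211) (nat_lit 0) (cs (lf (nat_lit 18) (nat_lit 186)) (nd (nat_lit 189) (nat_lit 0) (cs (lf (nat_lit 17) (nat_lit 186)) (nd (nat_lit 188) (nat_lit 0) (cs (lf (nat_lit 12) (nat_lit 185)) (nd (nat_lit 166) (nat_lit 0) (cs (lf (nat_lit 31) (nat_lit 165)) (nd (nat_lit 233) (nat_lit 0) (cs (lf (nat_lit 5)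 (nat_lit 208)) (lf (nat_lit 42) (nat_lit 166)))))))))))))))))))) (rf (nat_lit 22))))))))))) (cs (rf (nat_lit 23)) (rf (nat_lit 24)))))))))) q8580 (by decide +kernel)
def q8948 : Q := Q.p (nat_lit 0x2000000000010000040000000000000000000000000000000000000000000000) (nat_lit 0x20001780007e0005fc0011e000fde007ef003fbe003ef8003f8000fe0002c800000000000000000000000) (nat_lit 18)
theorem c8948 : QOK q8948 := cut [q659, q2680, q8556, q39, q204, q4623, q109, q4294, q8834, q8836, q8852, q75, q7894, q4431, q7841, q8854, q416, q430, q8861, q8865, q512, q2346, q2932, q8869, q8933, q2938, q37, q1615, q2992, q4748, q2434] ⟨c659, c2680, c8556, c39, c204, c4623, c109, c4294, c8834, c8836, c8852, c75, c7894, c4431, c7841, c8854, c416, c430, c8861, c8865, c512, c2346, c2932, c8869, c8933, c2938, c37, c1615, c2992, c4748, c2434, trivial⟩ (nd (nat_lit 209) (nat_lit 0) (cs (rf (nat_lit 0)) (cs (rf (nat_lit 1)) (cs (rf (nat_lit 2))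 (cs (nd (nat_lit 210) (nat_lit 0) (cs (rf (nat_lit 3)) (cs (rf (nat_lit 4)) (cs (rf (nat_lit 5)) (nd (nat_lit 207) (nat_lit 0) (cs (rf (nat_lit 6)) (cs (rf (nat_lit 7)) (cs (rf (nat_lit 8)) (nd (nat_lit 231) (nat_lit 0) (cs (lf (nat_lit 42) (nat_lit 186)) (nd (nat_lit 188) (nat_lit 0) (cs (lf (nat_lit 17) (nat_lit 185)) (nd (nat_lit 144) (nat_lit 0) (cs (lf (nat_lit 37) (nat_lit 143)) (rf (nat_lit 9)))))))))))))))) (cs (rf (nat_lit 10)) (cs (nd (nat_lit 210) (nat_lit 0) (cs (rf (nat_lit 3)) (cs (rf (nat_lit 11)) (cs (rf (nat_lit 12)) (nd (nat_lit 207) (nat_lit 0) (cs (rf (nat_lit 13)) (cs (rf (nat_lit 14)) (cs (rf (nat_lit 8)) (cs (nd (nat_lit 232) (nat_lit 0) (cs (lf (nat_lit 5) (nat_lit 207)) (rf (nat_lit 15)))) (cs (nd (nat_lit 252) (nat_lit 0) (cs (rf (nat_lit 16)) (cs (rf (nat_lit 17)) (rf (nat_lit 18))))) (nd (nat_lit 232) (nat_lit 0) (cs (lf (nat_lit 5) (nat_lit 207)) (rf (nat_lit 19)))))))))))))) (cs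 (nd (nat_lit 231) (nat_lit 0) (cs (rf (nat_lit 20)) (cs (rf (nat_lit 21)) (cs (rf (nat_lit 22)) (rf (nat_lit 23)))))) (cs (rf (nat_lit 24)) (nd (nat_lit 210) (nat_lit 0) (cs (rf (nat_lit 3)) (cs (rf (nat_lit 11)) (cs (rf (nat_lit 12)) (nd (nat_lit 207) (nat_lit 0) (cs (nd (nat_lit 231) (nat_lit 0) (cs (lf (nat_lit 42) (nat_lit 186)) (rf (nat_lit 25)))) (cs (rf (nat_lit 13)) (nd (nat_lit 185) (nat_lit 0) (cs (rf (nat_lit 26)) (nd (nat_lit 163) (nat_lit 0) (cs (rf (nat_lit 27)) (cs (nd (nat_lit 252) (nat_lit 0) (cs (rf (nat_lit 28)) (cs (rf (nat_lit 29)) (nd (nat_lit 231) (nat_lit 0) (cs (lf (nat_lit 42) (nat_lit 186)) (nd (nat_lit 188) (nat_lit 0) (cs (lf (nat_lit 17) (nat_lit 185)) (nd (nat_lit 187) (nat_lit 0) (cs (lf (nat_lit 41) (nat_lit 186)) (lf (nat_lit 23) (nat_lit 162))))))))))) (nd (nat_lit 188) (nat_lit 0) (cs (lf (nat_lit 17) (nat_lit 185)) (nd (nat_lit 231) (nat_lit 0) (cs (lf (nat_lit 30) (nat_lit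 187)) (nd (nat_lit 141) (nat_lit 0) (cs (lf (nat_lit 24) (nat_lit 119)) (nd (nat_lit 232) (nat_lit 0) (cs (lf (nat_lit 5) (nat_lit 207)) (nd (nat_lit 140) (nat_lit 0) (cs (lf (nat_lit 47) (nat_lit 118)) (nd (nat_lit 162) (nat_lit 0) (cs (lf (nat_lit 19) (nat_lit 162)) (rf (nat_lit 30))))))))))))))))))))))))))))))))))) q8948 (by decide +kernel)
def q9643 : Q := Q.p (nat_lit 0x2000000000030000000000000000000000000000000000000000000000000000) (nat_lit 0xb80001e0007fe0018f0007f8003ff0007fc003fe0003f000088000000000000000000) (nat_lit 16)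
theorem c9643 : QOK q9643 := cut [q35, q661, q2238, q358, q4082, q6912, q9508, q2224, q4430, q9513, q1156, q5064, q1274, q9525, q9507, q9539, q9541, q419, q2106, q8800, q8518, q9642] ⟨c35, c661, c2238, c358, c4082, c6912, c9508, c2224, c4430, c9513, c1156, c5064, c1274, c9525, c9507, c9539, c9541, c419, c2106, c8800, c8518, c9642, trivial⟩ (nd (nat_lit 186) (nat_lit 0) (cs (rf (nat_lit 0)) (cs (rf (nat_lit 1)) (cs (rf (nat_lit 2)) (cs (nd (nat_lit 231) (nat_lit 0) (cs (lf (nat_lit 42) (nat_lit 186)) (nd (nat_lit 187) (nat_lit 0) (cs (rf (nat_lit 3)) (cs (rf (nat_lit 4)) (cs (nd (nat_lit 230) (nat_lit 0) (cs (rf (nat_lit 5)) (cs (rf (nat_lit 6)) (nd (nat_lit 165) (nat_lit 0) (cs (rf (nat_lit 7)) (nd (nat_lit 184) (nat_lit 0) (cs (rf (nat_lit 8)) (cs (nd (nat_lit 229) (nat_lit 0) (cs (nd (nat_lit 144) (nat_lit 0) (cs (lf (nat_lit 34) (nat_lit 143)) (rf (nat_lit 9)))) (cs (nd (nat_lit 207) (nat_lit 0) (cs (nd (nat_lit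 206) (nat_lit 0) (cs (lf (nat_lit 23) (nat_lit 183)) (rf (nat_lit 10)))) (rf (nat_lit 11)))) (cs (nd (nat_lit 144) (nat_lit 0) (cs (lf (nat_lit 34) (nat_lit 143)) (nd (nat_lit 228) (nat_lit 0) (cs (lf (nat_lit 12) (nat_lit 205)) (nd (nat_lit 249) (nat_lit 0) (cs (lf (nat_lit 10) (nat_lit 227)) (nd (nat_lit 206) (nat_lit 0) (cs (rf (nat_lit 12)) (lf (nat_lit 23) (nat_lit 205)))))))))) (cs (nd (nat_lit 206) (nat_lit 0) (cs (nd (nat_lit 144) (nat_lit 0) (cs (lf (nat_lit 34) (nat_lit 143)) (nd (nat_lit 228) (nat_lit 0) (cs (lf (nat_lit 23) (nat_lit 205)) (nd (nat_lit 249) (nat_lit 0) (cs (lf (nat_lit 10) (nat_lit 227)) (rf (nat_lit 12)))))))) (nd (nat_lit 207) (nat_lit 0) (cs (lf (nat_lit 23) (nat_lit 183)) (lf (nat_lit 18) (nat_lit 206)))))) (nd (nat_lit 144) (nat_lit 0) (cs (lf (nat_lit 34) (nat_lit 143)) (nd (nat_lit 228) (nat_lit 0) (cs (lf (nat_lit 12) (nat_lit 205)) (nd (nat_lit 206) (nat_lit 0) (cs (lf (nat_lit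 23) (nat_lit 205)) (rf (nat_lit 13))))))))))))) (nd (nat_lit 185) (nat_lit 0) (cs (lf (nat_lit 0) (nat_lit 183)) (nd (nat_lit 161) (nat_lit 0) (cs (lf (nat_lit 22) (nat_lit 161)) (nd (nat_lit 206) (nat_lit 0) (cs (lf (nat_lit 11) (nat_lit 183)) (nd (nat_lit 207) (nat_lit 0) (cs (lf (nat_lit 5) (nat_lit 206)) (nd (nat_lit 228) (nat_lit 0) (cs (lf (nat_lit 11) (nat_lit 205)) (nd (nat_lit 163) (nat_lit 0) (cs (lf (nat_lit 24) (nat_lit 141)) (lf (nat_lit 30) (nat_lit 162)))))))))))))))))))))) (nd (nat_lit 230) (nat_lit 0) (cs (rf (nat_lit 5)) (cs (rf (nat_lit 6)) (nd (nat_lit 143) (nat_lit 0) (cs (lf (nat_lit 37) (nat_lit 142)) (nd (nat_lit 185) (nat_lit 0) (cs (rf (nat_lit 14)) (cs (rf (nat_lit 15)) (cs (nd (nat_lit 184) (nat_lit 0) (cs (lf (nat_lit 0) (nat_lit 183)) (rf (nat_lit 16)))) (cs (nd (nat_lit 207) (nat_lit 0) (cs (rf (nat_lit 17)) (cs (rf (nat_lit 18)) (rf (nat_lit 19))))) (nd (nat_lit 184) (nat_lit 0)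 (cs (lf (nat_lit 0) (nat_lit 183)) (rf (nat_lit 20)))))))))))))))))))) (rf (nat_lit 21))))))) q9643 (by decide +kernel)
def q9838 : Q := Q.p (nat_lit 0x2000000000010000000000000000000000000000000000000000000000000000) (nat_lit 0x140000780005fc0019f000ffe007eb803ffc003ff8003fe000fc0002a000000000000000000000000) (nat_lit 16)
theorem c9838 : QOK q9838 := cut [q443, q516, q641, q2904, q6170, q659, q8508, q8556, q9720, q9747, q512, q6705, q39, q203, q7440, q108, q9680, q37, q1667, q4623, q7894, q4621, q7537, q9757, q75, q9650, q74, q9763, q8931, q9773, q9781, q9783, q436, q8578, q638, q1251, q9513, q9509, q9794, q35, q204, q7800, q9836] ⟨c443, c516, c641, c2904, c6170, c659, c8508, c8556, c9720, c9747, c512, c6705, c39, c203, c7440, c108, c9680, c37, c1667, c4623, c7894, c4621, c7537, c9757, c75, c9650, c74, c9763, c8931, c9773, c9781, c9783, c436, c8578, c638, c1251, c9513, c9509, c9794, c35, c204, c7800, c9836,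 trivial⟩ (nd (nat_lit 186) (nat_lit 0) (cs (rf (nat_lit 0)) (cs (rf (nat_lit 1)) (cs (rf (nat_lit 2)) (cs (rf (nat_lit 3)) (cs (rf (nat_lit 4)) (cs (nd (nat_lit 209) (nat_lit 0) (cs (rf (nat_lit 5)) (cs (rf (nat_lit 6)) (cs (rf (nat_lit 7)) (cs (rf (nat_lit 8)) (cs (rf (nat_lit 9)) (cs (nd (nat_lit 231) (nat_lit 0) (cs (rf (nat_lit 10)) (cs (rf (nat_lit 11)) (nd (nat_lit 210) (nat_lit 0) (cs (rf (nat_lit 12)) (cs (rf (nat_lit 13)) (cs (rf (nat_lit 14)) (nd (nat_lit 207) (nat_lit 0) (cs (rf (nat_lit 15)) (cs (rf (nat_lit 16)) (nd (nat_lit 185) (nat_lit 0) (cs (rf (nat_lit 17)) (nd (nat_lit 229) (nat_lit 0) (cs (lf (nat_lit 11) (nat_lit 206)) (nd (nat_lit 188) (nat_lit 0) (cs (lf (nat_lit 17) (nat_lit 185)) (nd (nat_lit 144) (nat_lit 0) (cs (lf (nat_lit 37) (nat_lit 143)) (rf (nat_lit 18)))))))))))))))))))) (cs (nd (nat_lit 210) (nat_lit 0) (cs (rf (nat_lit 19)) (cs (rf (nat_lit 20)) (cs (nd (nat_lit 188) (nat_lit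 0) (cs (rf (nat_lit 21)) (rf (nat_lit 22)))) (nd (nat_lit 275) (nat_lit 0) (cs (lf (nat_lit 44) (nat_lit 186)) (nd (nat_lit 230) (nat_lit 0) (cs (lf (nat_lit 27) (nat_lit 186)) (nd (nat_lit 211) (nat_lit 0) (cs (lf (nat_lit 11) (nat_lit 207)) (rf (nat_lit 23)))))))))))) (cs (nd (nat_lit 231) (nat_lit 0) (cs (rf (nat_lit 10)) (cs (rf (nat_lit 11)) (nd (nat_lit 210) (nat_lit 0) (cs (rf (nat_lit 24)) (cs (rf (nat_lit 25)) (nd (nat_lit 185) (nat_lit 0) (cs (rf (nat_lit 17)) (cs (rf (nat_lit 26)) (nd (nat_lit 229) (nat_lit 0) (cs (rf (nat_lit 27)) (cs (nd (nat_lit 207) (nat_lit 0) (cs (lf (nat_lit 11) (nat_lit 206)) (nd (nat_lit 251) (nat_lit 0) (cs (lf (nat_lit 30) (nat_lit 185)) (nd (nat_lit 250) (nat_lit 0) (cs (lf (nat_lit 41) (nat_lit 184)) (nd (nat_lit 232) (nat_lit 0) (cs (lf (nat_lit 5) (nat_lit 207)) (lf (nat_lit 14) (nat_lit 228)))))))))) (cs (nd (nat_lit 252) (nat_lit 0) (cs (rf (nat_lit 28)) (cs (nd (nat_lit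 274) (nat_lit 0) (cs (lf (nat_lit 36) (nat_lit 186)) (nd (nat_lit 296) (nat_lit 0) (cs (lf (nat_lit 30) (nat_lit 230)) (nd (nat_lit 251) (nat_lit 0) (cs (nd (nat_lit 250) (nat_lit 0) (cs (lf (nat_lit 17) (nat_lit 228)) (rf (nat_lit 29)))) (lf (nat_lit 25) (nat_lit 185)))))))) (rf (nat_lit 30))))) (nd (nat_lit 230) (nat_lit 0) (cs (lf (nat_lit 12) (nat_lit 206)) (rf (nat_lit 31))))))))))))))))) (nd (nat_lit 230) (nat_lit 0) (cs (rf (nat_lit 32)) (cs (rf (nat_lit 33)) (nd (nat_lit 231) (nat_lit 0) (cs (rf (nat_lit 34)) (nd (nat_lit 229) (nat_lit 0) (cs (rf (nat_lit 35)) (cs (rf (nat_lit 36)) (nd (nat_lit 232) (nat_lit 0) (cs (rf (nat_lit 37)) (cs (nd (nat_lit 210) (nat_lit 0) (cs (lf (nat_lit 6) (nat_lit 207)) (nd (nat_lit 166) (nat_lit 0) (cs (lf (nat_lit 37) (nat_lit 165)) (nd (nat_lit 251) (nat_lit 0) (cs (lf (nat_lit 11) (nat_lit 228)) (nd (nat_lit 273) (nat_lit 0) (cs (lf (nat_lit 30) (nat_lit 207)) (lf (nat_lit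 33) (nat_lit 185)))))))))) (nd (nat_lit 250) (nat_lit 0) (cs (lf (nat_lit 10) (nat_lit 228)) (nd (nat_lit 211) (nat_lit 0) (cs (rf (nat_lit 38)) (lf (nat_lit 16) (nat_lit 207)))))))))))))))))))))))))) (nd (nat_lit 209) (nat_lit 0) (cs (rf (nat_lit 39)) (cs (rf (nat_lit 6)) (cs (nd (nat_lit 210) (nat_lit 0) (cs (rf (nat_lit 12)) (cs (rf (nat_lit 40)) (cs (rf (nat_lit 19)) (rf (nat_lit 41)))))) (rf (nat_lit 42))))))))))))) q9838 (by decide +kernel)
def q10528 : Q := Q.p (nat_lit 0x2000000000030000000000000000000000000000000000000000000000000000) (nat_lit 0x6600019e000ff8003c6000ffc003fe0007fc001fc00074000080000000000000000000) (nat_lit 16)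
theorem c10528 : QOK q10528 := cut [q9890, q10372, q1578, q2204, q1948, q10396, q1946, q7457, q10398, q10401, q10409, q10415, q10421, q10422, q10475, q9895, q7456, q694, q9948, q10008, q8410, q10487, q8324, q10491, q351, q10494, q10496, q8385, q7587, q1699, q1584, q2344, q7615, q10453, q643, q10513, q8387, q1568, q1577, q1580, q10519, q10527] ⟨c9890, c10372, c1578, c2204, c1948, c10396, c1946, c7457, c10398, c10401, c10409, c10415, c10421, c10422, c10475, c9895, c7456, c694, c9948, c10008, c8410, c10487, c8324, c10491, c351, c10494, c10496, c8385, c7587, c1699, c1584, c2344, c7615, c10453, c643, c10513, c8387, c1568, c1577, c1580, c10519, c10527, trivial⟩ (nd (nat_lit 187) (nat_lit 0) (cs (nd (nat_lit 165) (nat_lit 0) (cs (rf (nat_lit 0)) (cs (rf (nat_lit 1)) (nd (nat_lit 231) (nat_lit 0) (cs (rf (nat_lit 2)) (rf (nat_lit 3))))))) (cs (nd (nat_lit 165) (nat_lit 0) (cs (rf (nat_lit 4)) (cs (rf (nat_lit 5)) (cs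 (nd (nat_lit 143) (nat_lit 0) (cs (rf (nat_lit 6)) (cs (rf (nat_lit 7)) (cs (rf (nat_lit 8)) (nd (nat_lit 210) (nat_lit 0) (cs (lf (nat_lit 29) (nat_lit 143)) (rf (nat_lit 9)))))))) (nd (nat_lit 143) (nat_lit 0) (cs (lf (nat_lit 41) (nat_lit 142)) (rf (nat_lit 8)))))))) (cs (nd (nat_lit 186) (nat_lit 0) (cs (rf (nat_lit 10)) (cs (rf (nat_lit 11)) (cs (rf (nat_lit 12)) (rf (nat_lit 13)))))) (cs (rf (nat_lit 14)) (cs (nd (nat_lit 165) (nat_lit 0) (cs (rf (nat_lit 0)) (cs (rf (nat_lit 5)) (nd (nat_lit 210) (nat_lit 0) (cs (rf (nat_lit 15)) (cs (nd (nat_lit 143) (nat_lit 0) (cs (lf (nat_lit 29) (nat_lit 143)) (rf (nat_lit 16)))) (cs (nd (nat_lit 211) (nat_lit 0) (cs (rf (nat_lit 17)) (cs (rf (nat_lit 18)) (rf (nat_lit 19))))) (nd (nat_lit 211) (nat_lit 0) (cs (rf (nat_lit 17)) (cs (rf (nat_lit 18)) (nd (nat_lit 186) (nat_lit 0) (cs (lf (nat_lit 23) (nat_lit 185)) (nd (nat_lit 189) (nat_lit 0) (cs (lf (nat_lit 17)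 (nat_lit 186)) (nd (nat_lit 143) (nat_lit 0) (cs (lf (nat_lit 36) (nat_lit 120)) (nd (nat_lit 233) (nat_lit 0) (cs (lf (nat_lit 5) (nat_lit 208)) (nd (nat_lit 120) (nat_lit 0) (cs (lf (nat_lit 46) (nat_lit 120)) (nd (nat_lit 144) (nat_lit 0) (cs (lf (nat_lit 35) (nat_lit 121)) (nd (nat_lit 166) (nat_lit 0) (cs (lf (nat_lit 30) (nat_lit 143)) (lf (nat_lit 45) (nat_lit 144)))))))))))))))))))))))))) (cs (nd (nat_lit 186) (nat_lit 0) (cs (rf (nat_lit 20)) (cs (rf (nat_lit 10)) (cs (rf (nat_lit 21)) (cs (nd (nat_lit 164) (nat_lit 0) (cs (lf (nat_lit 43) (nat_lit 164)) (rf (nat_lit 22)))) (cs (rf (nat_lit 23)) (cs (nd (nat_lit 231) (nat_lit 0) (cs (lf (nat_lit 47) (nat_lit 164)) (nd (nat_lit 252) (nat_lit 0) (cs (lf (nat_lit 41) (nat_lit 186)) (rf (nat_lit 24)))))) (rf (nat_lit 25))))))))) (cs (nd (nat_lit 165) (nat_lit 0) (cs (rf (nat_lit 1)) (cs (rf (nat_lit 26)) (nd (nat_lit 164) (nat_lit 0) (cs (nd (nat_lit 231)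 (nat_lit 0) (cs (lf (nat_lit 47) (nat_lit 142)) (lf (nat_lit 46) (nat_lit 164)))) (cs (nd (nat_lit 142) (nat_lit 0) (cs (nd (nat_lit 120) (nat_lit 0) (cs (lf (nat_lit 24) (nat_lit 98)) (lf (nat_lit 45) (nat_lit 120)))) (lf (nat_lit 42) (nat_lit 142)))) (cs (nd (nat_lit 186) (nat_lit 0) (cs (lf (nat_lit 43) (nat_lit 164)) (rf (nat_lit 27)))) (nd (nat_lit 143) (nat_lit 0) (cs (rf (nat_lit 7)) (cs (rf (nat_lit 28)) (nd (nat_lit 142) (nat_lit 0) (cs (lf (nat_lit 47) (nat_lit 120)) (nd (nat_lit 210) (nat_lit 0) (cs (lf (nat_lit 29) (nat_lit 143)) (rf (nat_lit 29)))))))))))))))) (cs (nd (nat_lit 231) (nat_lit 0) (cs (rf (nat_lit 30)) (cs (rf (nat_lit 31)) (rf (nat_lit 32))))) (cs (nd (nat_lit 186) (nat_lit 0) (cs (rf (nat_lit 12)) (cs (rf (nat_lit 13)) (cs (rf (nat_lit 33)) (cs (rf (nat_lit 23)) (nd (nat_lit 252) (nat_lit 0) (cs (rf (nat_lit 34)) (cs (nd (nat_lit 231) (nat_lit 0) (cs (lf (nat_lit 41) (nat_lit 186))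 (rf (nat_lit 35)))) (nd (nat_lit 165) (nat_lit 0) (cs (lf (nat_lit 31) (nat_lit 164)) (rf (nat_lit 36)))))))))))) (cs (nd (nat_lit 231) (nat_lit 0) (cs (rf (nat_lit 37)) (cs (rf (nat_lit 38)) (cs (rf (nat_lit 39)) (rf (nat_lit 40)))))) (rf (nat_lit 41))))))))))))) q10528 (by decide +kernel)
def q11876 : Q := Q.p (nat_lit 0x2000000000018000000000000000000000000000000000000000000000000000) (nat_lit 0x100001700007e0003fc001ffc003fe001ffc0039f0007fc001e0000770000fe0003f0000bc0000d000000000000000000000000) (nat_lit 18)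
theorem c11876 : QOK q11876 := cut [q1225, q4183, q11474, q11529, q11851, q2197, q2066, q11490, q2091, q1857, q11484, q11488, q11856, q2191, q11501, q2576, q11865, q2613, q2616, q11811, q11870, q2397, q524] ⟨c1225, c4183, c11474, c11529, c11851, c2197, c2066, c11490, c2091, c1857, c11484, c11488, c11856, c2191, c11501, c2576, c11865, c2613, c2616, c11811, c11870, c2397, c524, trivial⟩ (nd (nat_lit 275) (nat_lit 0) (cs (nd (nat_lit 230) (nat_lit 0) (cs (rf (nat_lit 0)) (cs (rf (nat_lit 1)) (rf (nat_lit 2))))) (cs (rf (nat_lit 3)) (cs (rf (nat_lit 4)) (cs (nd (nat_lit 252) (nat_lit 0) (cs (rf (nat_lit 5)) (cs (nd (nat_lit 251) (nat_lit 0) (cs (rf (nat_lit 6)) (nd (nat_lit 186) (nat_lit 0) (cs (lf (nat_lit 26) (nat_lit 186)) (rf (nat_lit 7)))))) (cs (nd (nat_lit 251) (nat_lit 0) (cs (rf (nat_lit 6)) (cs (rf (nat_lit 8)) (nd (nat_lit 229) (nat_lit 0) (cs (rf (nat_lit 9)) (cs (rf (nat_lit 10)) (cs (rf (nat_lit 11))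 (nd (nat_lit 273) (nat_lit 0) (cs (lf (nat_lit 35) (nat_lit 185)) (rf (nat_lit 12))))))))))) (nd (nat_lit 274) (nat_lit 0) (cs (rf (nat_lit 13)) (cs (rf (nat_lit 14)) (nd (nat_lit 230) (nat_lit 0) (cs (lf (nat_lit 47) (nat_lit 185)) (lf (nat_lit 29) (nat_lit 208))))))))))) (cs (nd (nat_lit 297) (nat_lit 0) (cs (rf (nat_lit 15)) (cs (rf (nat_lit 16)) (cs (nd (nat_lit 319) (nat_lit 0) (cs (rf (nat_lit 17)) (cs (rf (nat_lit 18)) (rf (nat_lit 19))))) (rf (nat_lit 20)))))) (nd (nat_lit 231) (nat_lit 0) (cs (rf (nat_lit 21)) (cs (nd (nat_lit 186) (nat_lit 0) (cs (lf (nat_lit 45) (nat_lit 186)) (nd (nat_lit 164) (nat_lit 0) (cs (lf (nat_lit 27) (nat_lit 164)) (rf (nat_lit 22)))))) (nd (nat_lit 209) (nat_lit 0) (cs (lf (nat_lit 47) (nat_lit 186)) (nd (nat_lit 210) (nat_lit 0) (cs (lf (nat_lit 35) (nat_lit 187)) (nd (nat_lit 232) (nat_lit 0) (cs (lf (nat_lit 5) (nat_lit 207)) (lf (nat_lit 30) (nat_lit 209)))))))))))))))))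 q11876 (by decide +kernel)
def q12668 : Q := Q.p (nat_lit 0xc00003000004000010000000000000000000000000000000000000000000000000000) (nat_lit 0x1ce0007380000e00000000020000080000000000000000000000000000000000000000000000) (nat_lit 9)
theorem c12668 : QOK q12668 := cut [q6879] ⟨c6879, trivial⟩ (nd (nat_lit 187) (nat_lit 0) (cs (lf (nat_lit 34) (nat_lit 186)) (rf (nat_lit 0)))) q12668 (by decide +kernel)
def q13156 : Q := Q.p (nat_lit 0xc0000000000c00002000000000010000000000000000000000000000000000000000000000000000) (nat_lit 0x3ef000f38007ef0000000001000004000000000040000000000000000000000000000000000000000000000) (nat_lit 12)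
theorem c13156 : QOK q13156 := cut [q13048, q13151, q13155] ⟨c13048, c13151, c13155, trivial⟩ (nd (nat_lit 297) (nat_lit 0) (cs (rf (nat_lit 0)) (cs (rf (nat_lit 1)) (rf (nat_lit 2))))) q13156 (by decide +kernel)
def q13174 : Q := Q.p (nat_lit 0x40000000001c00003000000000000000000000000000000000000000000000000000000000000000) (nat_lit 0x3ef000fb8007ff0000000000c00002000000000000000000000000000000000000000000000000000000000) (nat_lit 12)
theorem c13174 : QOK q13174 := cut [q13170, q13171, q13173] ⟨c13170, c13171, c13173, trivial⟩ (nd (nat_lit 319) (nat_lit 0) (cs (rf (nat_lit 0)) (cs (rf (nat_lit 1)) (rf (nat_lit 2))))) q13174 (by decide +kernel)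
def q14455 : Q := Q.p (nat_lit 0x200000c00002000000000010000000000000000000000000000000000000000000000000000) (nat_lit 0x3ff000ff8007cf0000000001000004000000000000000000000000000000000000000000000000000000000) (nat_lit 12)
theorem c14455 : QOK q14455 := cut [q13048, q14454] ⟨c13048, c14454, trivial⟩ (nd (nat_lit 319) (nat_lit 0) (cs (rf (nat_lit 0)) (rf (nat_lit 1)))) q14455 (by decide +kernel)
def q14538 : Q := Q.p (nat_lit 0x200000c00002000000000000000000000000000000000000000000000000000000000000000) (nat_lit 0x140000700001c0003ff000ff8007df0000000001000000000000000000000000000000000000000000000000000000000000000) (nat_lit 12)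
theorem c14538 : QOK q14538 := cut [q2579, q14313, q14366, q11814, q14536] ⟨c2579, c14313, c14366, c11814, c14536, trivial⟩ (nd (nat_lit 319) (nat_lit 0) (cs (rf (nat_lit 0)) (cs (rf (nat_lit 1)) (cs (rf (nat_lit 2)) (cs (nd (nat_lit 320) (nat_lit 0) (cs (lf (nat_lit 29) (nat_lit 253)) (nd (nat_lit 341) (nat_lit 0) (cs (lf (nat_lit 47) (nat_lit 252)) (nd (nat_lit 296) (nat_lit 0) (cs (lf (nat_lit 42) (nat_lit 274)) (rf (nat_lit 3)))))))) (nd (nat_lit 318) (nat_lit 0) (cs (lf (nat_lit 41) (nat_lit 252)) (rf (nat_lit 4))))))))) q14538 (by decide +kernel)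
def q14694 : Q := Q.p (nat_lit 0xc00003000000000010000000000000000000000000000000000000000000000000000) (nat_lit 0x1c80007380000e000040000200000c0000000000000000000000000000000000000000000000) (nat_lit 9)
theorem c14694 : QOK q14694 := cut [q14693] ⟨c14693, trivial⟩ (nd (nat_lit 230) (nat_lit 0) (cs (lf (nat_lit 24) (nat_lit 186)) (rf (nat_lit 0)))) q14694 (by decide +kernel)
def q14695 : Q := Q.p (nat_lit 0xc00003000000000010000000000000000000000000000000000000000000000000000) (nat_lit 0x1e80007380000e00004000020000080000000000000000000000000000000000000000000000) (nat_lit 9)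
theorem c14695 : QOK q14695 := cut [q14693] ⟨c14693, trivial⟩ (nd (nat_lit 230) (nat_lit 0) (cs (lf (nat_lit 29) (nat_lit 208)) (rf (nat_lit 0)))) q14695 (by decide +kernel)
def q15405 : Q := Q.p (nat_lit 0x800003000004000030000000000000000000000000000000000000000000000000000) (nat_lit 0x1ce0007780000e00000000000000080000000000000000000000000000000000000000000000) (nat_lit 9)
theorem c15405 : QOK q15405 := cut [q6879] ⟨c6879, trivial⟩ (nd (nat_lit 274) (nat_lit 0) (cs (lf (nat_lit 35) (nat_lit 186)) (rf (nat_lit 0)))) q15405 (by decide +kernel)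
def q16027 : Q := Q.p (nat_lit 0x200000800002000000000000000000000000000000000000000000000000000000000000000) (nat_lit 0x140000700001c0003ff000ff8007df0001700001000008000000000000000000000000000000000000000000000000000000000) (nat_lit 12)
theorem c16027 : QOK q16027 := cut [q2541, q2575, q14454, q2558, q14536] ⟨c2541, c2575, c14454, c2558, c14536, trivial⟩ (nd (nat_lit 319) (nat_lit 0) (cs (rf (nat_lit 0)) (cs (rf (nat_lit 1)) (cs (rf (nat_lit 2)) (nd (nat_lit 274) (nat_lit 0) (cs (rf (nat_lit 3)) (rf (nat_lit 4)))))))) q16027 (by decide +kernel)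
def q16028 : Q := Q.p (nat_lit 0x200000800002000000000000000000000000000000000000000000000000000000000000000) (nat_lit 0x140003ff000ff8007cf0000400001000004000000000000000000000000000000000000000000000000000000000) (nat_lit 12)
theorem c16028 : QOK q16028 := cut [q2613, q2616, q14454] ⟨c2613, c2616, c14454, trivial⟩ (nd (nat_lit 319) (nat_lit 0) (cs (rf (nat_lit 0)) (cs (rf (nat_lit 1)) (rf (nat_lit 2))))) q16028 (by decide +kernel)
def q16227 : Q := Q.p (nat_lit 0x2000000000030000000000000000000000000000000000000000000000000000) (nat_lit 0xe0000380001e0007be000cf0007fe000fe0003f8000aa00000000000000000000000000000) (nat_lit 13)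
theorem c16227 : QOK q16227 := cut [q1504, q10647, q16100, q139, q1459, q10646, q7553, q16219, q117, q1508, q1511, q1522, q4318, q1515, q16226] ⟨c1504, c10647, c16100, c139, c1459, c10646, c7553, c16219, c117, c1508, c1511, c1522, c4318, c1515, c16226, trivial⟩ (nd (nat_lit 207) (nat_lit 0) (cs (rf (nat_lit 0)) (cs (rf (nat_lit 1)) (cs (rf (nat_lit 2)) (cs (nd (nat_lit 210) (nat_lit 0) (cs (rf (nat_lit 3)) (cs (rf (nat_lit 4)) (nd (nat_lit 188) (nat_lit 0) (cs (rf (nat_lit 5)) (nd (nat_lit 184) (nat_lit 0) (cs (lf (nat_lit 22) (nat_lit 184)) (nd (nat_lit 228) (nat_lit 0) (cs (lf (nat_lit 10) (nat_lit 206)) (rf (nat_lit 6))))))))))) (cs (rf (nat_lit 7)) (cs (nd (nat_lit 206) (nat_lit 0) (cs (rf (nat_lit 8)) (cs (rf (nat_lit 9)) (cs (rf (nat_lit 10)) (cs (rf (nat_lit 11)) (cs (rf (nat_lit 12)) (nd (nat_lit 231) (nat_lit 0) (cs (lf (nat_lit 5) (nat_lit 206)) (nd (nat_lit 183) (nat_lit 0) (cs (lf (nat_lit 22) (nat_lit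 183)) (nd (nat_lit 205) (nat_lit 0) (cs (lf (nat_lit 23) (nat_lit 182)) (nd (nat_lit 186) (nat_lit 0) (cs (lf (nat_lit 17) (nat_lit 183)) (rf (nat_lit 13)))))))))))))))) (rf (nat_lit 14))))))))) q16227 (by decide +kernel)
def q16306 : Q := Q.p (nat_lit 0x2000000000030000040000000000000000000000000000000000000000000000) (nat_lit 0x700001e00033c000cf8002be001ff8003fc001ff0003f8000fa000060000000000000) (nat_lit 17)
theorem c16306 : QOK q16306 := cut [q1434, q2175, q5851, q1982, q2097, q5810, q5815, q5820, q5827, q16249, q5837, q5846, q16253, q5834, q5835, q4505, q16260, q90, q3126, q1490, q3734, q5856, q16277, q16280, q16281, q16272, q8790, q5875, q5879, q5888, q16288, q5857, q16276, q16292, q16301] ⟨c1434, c2175, c5851, c1982, c2097, c5810, c5815, c5820, c5827, c16249, c5837, c5846, c16253, c5834, c5835, c4505, c16260, c90, c3126, c1490, c3734, c5856, c16277, c16280, c16281, c16272, c8790, c5875, c5879, c5888,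 c16288, c5857, c16276, c16292, c16301, trivial⟩ (nd (nat_lit 185) (nat_lit 0) (cs (rf (nat_lit 0)) (cs (rf (nat_lit 1)) (cs (rf (nat_lit 2)) (cs (nd (nat_lit 207) (nat_lit 0) (cs (rf (nat_lit 3)) (cs (rf (nat_lit 4)) (cs (rf (nat_lit 5)) (cs (nd (nat_lit 163) (nat_lit 0) (cs (rf (nat_lit 6)) (cs (rf (nat_lit 7)) (cs (rf (nat_lit 8)) (cs (nd (nat_lit 141) (nat_lit 0) (cs (lf (nat_lit 24) (nat_lit 119)) (nd (nat_lit 210) (nat_lit 0) (cs (lf (nat_lit 18) (nat_lit 185)) (nd (nat_lit 232) (nat_lit 0) (cs (lf (nat_lit 5) (nat_lit 207)) (rf (nat_lit 9)))))))) (cs (nd (nat_lit 164) (nat_lit 0) (cs (rf (nat_lit 10)) (cs (rf (nat_lit 11)) (rf (nat_lit 12))))) (nd (nat_lit 164) (nat_lit 0) (cs (rf (nat_lit 13)) (cs (rf (nat_lit 14)) (cs (nd (nat_lit 141) (nat_lit 0) (cs (lf (nat_lit 24) (nat_lit 119)) (nd (nat_lit 142) (nat_lit 0) (cs (lf (nat_lit 36) (nat_lit 119)) (nd (nat_lit 121) (nat_lit 0) (cs (lf (nat_lit 34) (nat_lit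 120)) (nd (nat_lit 210) (nat_lit 0) (cs (lf (nat_lit 18) (nat_lit 185)) (nd (nat_lit 232) (nat_lit 0) (cs (lf (nat_lit 5) (nat_lit 207)) (rf (nat_lit 15)))))))))))) (nd (nat_lit 141) (nat_lit 0) (cs (lf (nat_lit 24) (nat_lit 119)) (nd (nat_lit 118) (nat_lit 0) (cs (lf (nat_lit 46) (nat_lit 118)) (nd (nat_lit 210) (nat_lit 0) (cs (lf (nat_lit 18) (nat_lit 185)) (nd (nat_lit 232) (nat_lit 0) (cs (lf (nat_lit 5) (nat_lit 207)) (rf (nat_lit 16)))))))))))))))))))) (nd (nat_lit 229) (nat_lit 0) (cs (rf (nat_lit 17)) (cs (rf (nat_lit 18)) (nd (nat_lit 163) (nat_lit 0) (cs (rf (nat_lit 6)) (nd (nat_lit 228) (nat_lit 0) (cs (lf (nat_lit 41) (nat_lit 162)) (rf (nat_lit 19)))))))))))))) (nd (nat_lit 184) (nat_lit 0) (cs (lf (nat_lit 0) (nat_lit 183)) (nd (nat_lit 162) (nat_lit 0) (cs (rf (nat_lit 20)) (cs (nd (nat_lit 206) (nat_lit 0) (cs (rf (nat_lit 21)) (cs (nd (nat_lit 187) (nat_lit 0) (cs (lf (nat_lit 23) (nat_lit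 161)) (lf (nat_lit 11) (nat_lit 183)))) (rf (nat_lit 22))))) (cs (nd (nat_lit 206) (nat_lit 0) (cs (rf (nat_lit 22)) (cs (nd (nat_lit 141) (nat_lit 0) (cs (rf (nat_lit 23)) (cs (nd (nat_lit 228) (nat_lit 0) (cs (lf (nat_lit 34) (nat_lit 140)) (rf (nat_lit 24)))) (nd (nat_lit 140) (nat_lit 0) (cs (lf (nat_lit 35) (nat_lit 118)) (rf (nat_lit 25))))))) (nd (nat_lit 187) (nat_lit 0) (cs (lf (nat_lit 11) (nat_lit 183)) (rf (nat_lit 26))))))) (nd (nat_lit 140) (nat_lit 0) (cs (rf (nat_lit 27)) (cs (rf (nat_lit 28)) (cs (rf (nat_lit 29)) (cs (nd (nat_lit 118) (nat_lit 0) (cs (lf (nat_lit 29) (nat_lit 118)) (rf (nat_lit 30)))) (nd (nat_lit 206) (nat_lit 0) (cs (rf (nat_lit 31)) (cs (rf (nat_lit 32)) (cs (nd (nat_lit 117) (nat_lit 0) (cs (lf (nat_lit 46) (nat_lit 117)) (nd (nat_lit 207) (nat_lit 0) (cs (lf (nat_lit 29) (nat_lit 140)) (nd (nat_lit 204) (nat_lit 0) (cs (lf (nat_lit 13) (nat_lit 182)) (nd (nat_lit 141) (nat_lit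 0) (cs (lf (nat_lit 35) (nat_lit 118)) (nd (nat_lit 163) (nat_lit 0) (cs (lf (nat_lit 30) (nat_lit 140)) (nd (nat_lit 160) (nat_lit 0) (cs (lf (nat_lit 1) (nat_lit 160)) (rf (nat_lit 33)))))))))))))) (rf (nat_lit 34)))))))))))))))))))))) q16306 (by decide +kernel)
def q16354 : Q := Q.p (nat_lit 0x2000000000030000000000000000000000000000000000000000000000000000) (nat_lit 0x1f8001fc0001f80073e001cf0007fe0007e0001f80000a00000000000000000000000000000) (nat_lit 16)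
theorem c16354 : QOK q16354 := cut [q1504, q7737, q16100, q16219, q117, q141, q13340, q16226, q139, q1459, q13367, q10194, q1718, q6230, q87, q2917, q47] ⟨c1504, c7737, c16100, c16219, c117, c141, c13340, c16226, c139, c1459, c13367, c10194, c1718, c6230, c87, c2917, c47, trivial⟩ (nd (nat_lit 207) (nat_lit 0) (cs (rf (nat_lit 0)) (cs (rf (nat_lit 1)) (cs (rf (nat_lit 2)) (cs (rf (nat_lit 3)) (cs (nd (nat_lit 206) (nat_lit 0) (cs (rf (nat_lit 4)) (cs (rf (nat_lit 5)) (rf (nat_lit 6))))) (cs (rf (nat_lit 7)) (cs (nd (nat_lit 210) (nat_lit 0) (cs (rf (nat_lit 8)) (cs (rf (nat_lit 9)) (nd (nat_lit 229) (nat_lit 0) (cs (lf (nat_lit 11) (nat_lit 206)) (nd (nat_lit 251) (nat_lit 0) (cs (nd (nat_lit 273) (nat_lit 0) (cs (lf (nat_lit 35) (nat_lit 185)) (nd (nat_lit 274) (nat_lit 0) (cs (lf (nat_lit 29) (nat_lit 207)) (rf (nat_lit 10)))))) (cs (nd (nat_lit 188) (nat_lit 0) (cs (lf (nat_lit 17) (nat_lit 185)) (nd (nat_lit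 185) (nat_lit 0) (cs (lf (nat_lit 23) (nat_lit 184)) (nd (nat_lit 232) (nat_lit 0) (cs (lf (nat_lit 5) (nat_lit 207)) (nd (nat_lit 252) (nat_lit 0) (cs (lf (nat_lit 29) (nat_lit 185)) (nd (nat_lit 164) (nat_lit 0) (cs (lf (nat_lit 34) (nat_lit 163)) (nd (nat_lit 163) (nat_lit 0) (cs (lf (nat_lit 35) (nat_lit 141)) (nd (nat_lit 250) (nat_lit 0) (cs (lf (nat_lit 41) (nat_lit 184)) (nd (nat_lit 275) (nat_lit 0) (cs (lf (nat_lit 5) (nat_lit 250)) (rf (nat_lit 11)))))))))))))))))) (cs (nd (nat_lit 185) (nat_lit 0) (cs (lf (nat_lit 23) (nat_lit 184)) (nd (nat_lit 188) (nat_lit 0) (cs (lf (nat_lit 17) (nat_lit 185)) (nd (nat_lit 272) (nat_lit 0) (cs (lf (nat_lit 40) (nat_lit 184)) (nd (nat_lit 232) (nat_lit 0) (cs (lf (nat_lit 5) (nat_lit 207)) (nd (nat_lit 273) (nat_lit 0) (cs (lf (nat_lit 41) (nat_lit 206)) (rf (nat_lit 12)))))))))))) (nd (nat_lit 185) (nat_lit 0) (cs (lf (nat_lit 23) (nat_lit 184)) (rf (nat_lit 13)))))))))))))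 (nd (nat_lit 210) (nat_lit 0) (cs (rf (nat_lit 14)) (cs (rf (nat_lit 8)) (cs (rf (nat_lit 15)) (nd (nat_lit 228) (nat_lit 0) (cs (lf (nat_lit 10) (nat_lit 206)) (nd (nat_lit 206) (nat_lit 0) (cs (lf (nat_lit 11) (nat_lit 205)) (nd (nat_lit 233) (nat_lit 0) (cs (lf (nat_lit 4) (nat_lit 207)) (nd (nat_lit 211) (nat_lit 0) (cs (lf (nat_lit 5) (nat_lit 208)) (nd (nat_lit 189) (nat_lit 0) (cs (lf (nat_lit 17) (nat_lit 186)) (nd (nat_lit 186) (nat_lit 0) (cs (rf (nat_lit 16)) (lf (nat_lit 23) (nat_lit 185)))))))))))))))))))))))))) q16354 (by decide +kernel)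
def q16695 : Q := Q.p (nat_lit 0x2000000000030000000000000000000000000000000000000000000000000000) (nat_lit 0x140001f00007c00079c007f8000fc0003ff8007ff003ff8007ff001ff0007dc000000000000000000) (nat_lit 18)
theorem c16695 : QOK q16695 := cut [q694, q1553, q9473, q16422, q10182, q10151, q10155, q10159, q10173, q16425, q16448, q16691, q1595, q6705, q16138, q2204, q4298, q7459, q2771, q9998] ⟨c694, c1553, c9473, c16422, c10182, c10151, c10155, c10159, c10173, c16425, c16448, c16691, c1595, c6705, c16138, c2204, c4298, c7459, c2771, c9998, trivial⟩ (nd (nat_lit 210) (nat_lit 0) (cs (nd (nat_lit 211) (nat_lit 0) (cs (rf (nat_lit 0)) (cs (nd (nat_lit 186) (nat_lit 0) (cs (lf (nat_lit 23) (nat_lit 185)) (nd (nat_lit 187) (nat_lit 0) (cs (lf (nat_lit 18) (nat_lit 186)) (rf (nat_lit 1)))))) (nd (nat_lit 233) (nat_lit 0) (cs (lf (nat_lit 5) (nat_lit 208)) (nd (nat_lit 189) (nat_lit 0) (cs (lf (nat_lit 17) (nat_lit 186))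 (rf (nat_lit 2))))))))) (cs (rf (nat_lit 3)) (cs (nd (nat_lit 211) (nat_lit 0) (cs (rf (nat_lit 0)) (cs (rf (nat_lit 4)) (cs (nd (nat_lit 233) (nat_lit 0) (cs (lf (nat_lit 5) (nat_lit 208)) (nd (nat_lit 166) (nat_lit 0) (cs (rf (nat_lit 5)) (cs (rf (nat_lit 6)) (cs (rf (nat_lit 7)) (rf (nat_lit 8)))))))) (rf (nat_lit 9)))))) (cs (rf (nat_lit 10)) (cs (rf (nat_lit 11)) (nd (nat_lit 231) (nat_lit 0) (cs (rf (nat_lit 12)) (cs (rf (nat_lit 13)) (cs (rf (nat_lit 14)) (nd (nat_lit 187) (nat_lit 0) (cs (nd (nat_lit 165) (nat_lit 0) (cs (rf (nat_lit 15)) (cs (rf (nat_lit 16)) (cs (nd (nat_lit 252) (nat_lit 0) (cs (lf (nat_lit 41) (nat_lit 186)) (rf (nat_lit 17)))) (nd (nat_lit 142) (nat_lit 0) (cs (lf (nat_lit 46) (nat_lit 142)) (nd (nat_lit 143) (nat_lit 0) (cs (lf (nat_lit 47) (nat_lit 120)) (nd (nat_lit 252) (nat_lit 0) (cs (lf (nat_lit 41) (nat_lit 186)) (nd (nat_lit 188) (nat_lit 0) (cs (lf (nat_lit 35) (nat_lit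 165)) (nd (nat_lit 210) (nat_lit 0) (cs (lf (nat_lit 29) (nat_lit 143)) (lf (nat_lit 24) (nat_lit 121)))))))))))))))) (cs (nd (nat_lit 186) (nat_lit 0) (cs (lf (nat_lit 47) (nat_lit 164)) (rf (nat_lit 18)))) (nd (nat_lit 252) (nat_lit 0) (cs (lf (nat_lit 41) (nat_lit 186)) (rf (nat_lit 19))))))))))))))))) q16695 (by decide +kernel)
def q17484 : Q := Q.p (nat_lit 0x2000010000070000000000000000000000000000000000000000000000000000) (nat_lit 0xa0001fc0007f8003ff8001fc000bf0000fe001bf0007fe001ff0000a00000000000000000000000000000) (nat_lit 16)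
theorem c17484 : QOK q17484 := cut [q173, q7464, q16143, q3164, q17119, q17122, q17127, q17153, q17154, q17168, q17133, q17172, q17173, q17178, q1527, q17131, q17167, q17184, q3767, q10250, q17189, q17152, q17192, q17205, q17428, q17456, q17480, q17482, q7862] ⟨c173, c7464, c16143, c3164, c17119, c17122, c17127, c17153, c17154, c17168, c17133, c17172, c17173, c17178, c1527, c17131, c17167, c17184, c3767, c10250, c17189, c17152, c17192, c17205, c17428, c17456, c17480, c17482, c7862, trivial⟩ (nd (nat_lit 206) (nat_lit 0) (cs (nd (nat_lit 207) (nat_lit 0) (cs (rf (nat_lit 0)) (lf (nat_lit 4) (nat_lit 206)))) (cs (nd (nat_lit 250) (nat_lit 0) (cs (nd (nat_lit 231) (nat_lit 0) (cs (rf (nat_lit 1)) (cs (rf (nat_lit 2)) (nd (nat_lit 166) (nat_lit 0) (cs (lf (nat_lit 37) (nat_lit 165)) (nd (nat_lit 252) (nat_lit 0) (cs (rf (nat_lit 3)) (lf (nat_lit 13) (nat_lit 228))))))))) (cs (nd (nat_lit 228) (nat_lit 0) (cs (nd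 (nat_lit 272) (nat_lit 0) (cs (rf (nat_lit 4)) (cs (rf (nat_lit 5)) (cs (nd (nat_lit 271) (nat_lit 0) (cs (lf (nat_lit 41) (nat_lit 205)) (nd (nat_lit 184) (nat_lit 0) (cs (lf (nat_lit 40) (nat_lit 183)) (nd (nat_lit 251) (nat_lit 0) (cs (lf (nat_lit 29) (nat_lit 184)) (lf (nat_lit 7) (nat_lit 249)))))))) (rf (nat_lit 6)))))) (cs (rf (nat_lit 7)) (cs (rf (nat_lit 8)) (cs (rf (nat_lit 9)) (nd (nat_lit 271) (nat_lit 0) (cs (nd (nat_lit 184) (nat_lit 0) (cs (lf (nat_lit 40) (nat_lit 183)) (nd (nat_lit 163) (nat_lit 0) (cs (lf (nat_lit 34) (nat_lit 162)) (nd (nat_lit 141) (nat_lit 0) (cs (lf (nat_lit 33) (nat_lit 140)) (rf (nat_lit 10)))))))) (cs (rf (nat_lit 11)) (cs (rf (nat_lit 12)) (rf (nat_lit 13))))))))))) (cs (nd (nat_lit 228) (nat_lit 0) (cs (rf (nat_lit 7)) (cs (rf (nat_lit 9)) (cs (nd (nat_lit 184) (nat_lit 0) (cs (rf (nat_lit 14)) (cs (rf (nat_lit 15)) (cs (rf (nat_lit 16)) (nd (nat_lit 161) (nat_lit 0)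 (cs (lf (nat_lit 46) (nat_lit 161)) (rf (nat_lit 17)))))))) (cs (nd (nat_lit 184) (nat_lit 0) (cs (rf (nat_lit 18)) (cs (rf (nat_lit 19)) (rf (nat_lit 20))))) (cs (nd (nat_lit 272) (nat_lit 0) (cs (rf (nat_lit 21)) (cs (nd (nat_lit 183) (nat_lit 0) (cs (lf (nat_lit 46) (nat_lit 183)) (nd (nat_lit 271) (nat_lit 0) (cs (lf (nat_lit 41) (nat_lit 205)) (nd (nat_lit 251) (nat_lit 0) (cs (lf (nat_lit 7) (nat_lit 249)) (nd (nat_lit 269) (nat_lit 0) (cs (rf (nat_lit 22)) (lf (nat_lit 13) (nat_lit 247)))))))))) (nd (nat_lit 271) (nat_lit 0) (cs (lf (nat_lit 41) (nat_lit 205)) (nd (nat_lit 273) (nat_lit 0) (cs (lf (nat_lit 29) (nat_lit 206)) (nd (nat_lit 251) (nat_lit 0) (cs (lf (nat_lit 24) (nat_lit 184)) (lf (nat_lit 7) (nat_lit 249))))))))))) (nd (nat_lit 271) (nat_lit 0) (cs (rf (nat_lit 11)) (cs (rf (nat_lit 12)) (cs (rf (nat_lit 13)) (rf (nat_lit 23)))))))))))) (cs (rf (nat_lit 24)) (cs (rf (nat_lit 25)) (rf (nat_lit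 26)))))))) (cs (rf (nat_lit 27)) (nd (nat_lit 207) (nat_lit 0) (cs (lf (nat_lit 4) (nat_lit 206)) (rf (nat_lit 28)))))))) q17484 (by decide +kernel)
def q18141 : Q := Q.p (nat_lit 0x2000000000030000000000000000000000000000000000000000000000000000) (nat_lit 0xa00017c001ff8001ff8001fe007bf0000fe003ff8007fe001ff8007fe0003f0000b400000000000000000) (nat_lit 17)
theorem c18141 : QOK q18141 := cut [q18062, q1550, q6706, q18074, q6705, q18086, q1547, q1496, q1530, q4142, q117, q18102, q18133, q1522, q13340] ⟨c18062, c1550, c6706, c18074, c6705, c18086, c1547, c1496, c1530, c4142, c117, c18102, c18133, c1522, c13340, trivial⟩ (nd (nat_lit 206) (nat_lit 0) (cs (rf (nat_lit 0)) (cs (nd (nat_lit 207) (nat_lit 0) (cs (rf (nat_lit 1)) (cs (rf (nat_lit 2)) (rf (nat_lit 3))))) (cs (nd (nat_lit 231) (nat_lit 0) (cs (rf (nat_lit 4)) (cs (nd (nat_lit 207) (nat_lit 0) (cs (lf (nat_lit 5) (nat_lit 206)) (nd (nat_lit 228) (nat_lit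 0) (cs (lf (nat_lit 11) (nat_lit 205)) (rf (nat_lit 5)))))) (nd (nat_lit 207) (nat_lit 0) (cs (lf (nat_lit 5) (nat_lit 206)) (rf (nat_lit 1))))))) (cs (nd (nat_lit 207) (nat_lit 0) (cs (rf (nat_lit 6)) (cs (rf (nat_lit 2)) (nd (nat_lit 228) (nat_lit 0) (cs (lf (nat_lit 11) (nat_lit 205)) (nd (nat_lit 250) (nat_lit 0) (cs (rf (nat_lit 7)) (cs (rf (nat_lit 8)) (nd (nat_lit 187) (nat_lit 0) (cs (lf (nat_lit 17) (nat_lit 184)) (nd (nat_lit 183) (nat_lit 0) (cs (lf (nat_lit 22) (nat_lit 183)) (nd (nat_lit 231) (nat_lit 0) (cs (lf (nat_lit 5) (nat_lit 206)) (nd (nat_lit 252) (nat_lit 0) (cs (lf (nat_lit 41) (nat_lit 186)) (nd (nat_lit 272) (nat_lit 0) (cs (lf (nat_lit 35) (nat_lit 184)) (rf (nat_lit 9)))))))))))))))))))) (cs (nd (nat_lit 207) (nat_lit 0) (cs (rf (nat_lit 10)) (cs (rf (nat_lit 3)) (cs (rf (nat_lit 11)) (cs (rf (nat_lit 12)) (nd (nat_lit 228) (nat_lit 0) (cs (lf (nat_lit 11) (nat_lit 205)) (nd (nat_lit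 231) (nat_lit 0) (cs (lf (nat_lit 5) (nat_lit 206)) (rf (nat_lit 5))))))))))) (cs (nd (nat_lit 207) (nat_lit 0) (cs (rf (nat_lit 10)) (rf (nat_lit 2)))) (cs (nd (nat_lit 207) (nat_lit 0) (cs (rf (nat_lit 13)) (cs (rf (nat_lit 2)) (rf (nat_lit 11))))) (cs (nd (nat_lit 207) (nat_lit 0) (cs (rf (nat_lit 2)) (cs (rf (nat_lit 14)) (rf (nat_lit 12))))) (nd (nat_lit 207) (nat_lit 0) (cs (rf (nat_lit 10)) (cs (rf (nat_lit 6)) (cs (rf (nat_lit 1)) (rf (nat_lit 14))))))))))))))) q18141 (by decide +kernel)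
def q19147 : Q := Q.p (nat_lit 0x2000000000010000040000000000000000000000000000000000000000000000) (nat_lit 0x280007e0001fe0007f8001ff0001fc0077f001efc00fbf001efc001ff8007fc0003c0000f000000000000000000) (nat_lit 18)
theorem c19147 : QOK q19147 := cut [q530, q6790, q18355, q18543, q18619, q18650, q3889, q18661, q18663, q18665, q18704, q3341, q18707, q18710, q4753, q4772, q18725, q18731, q18898, q18909, q18911, q18931, q19011, q4774, q19072, q19075, q19079, q9723, q18727, q18905, q5888, q19045, q19067, q19070, q19091, q19130, q1169, q18473, q19139, q19145] ⟨c530, c6790, c18355, c18543, c18619, c18650, c3889, c18661, c18663, c18665, c18704, c3341, c18707, c18710, c4753, c4772, c18725, c18731, c18898, c18909, c18911, c18931, c19011, c4774, c19072, c19075, c19079, c9723, c18727, c18905, c5888, c19045, c19067, c19070, c19091, c19130, c1169, c18473, c19139, c19145, trivial⟩ (nd (nat_lit 184) (nat_lit 0) (cs (nd (nat_lit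 206) (nat_lit 0) (cs (nd (nat_lit 207) (nat_lit 0) (cs (rf (nat_lit 0)) (cs (rf (nat_lit 1)) (cs (rf (nat_lit 2)) (rf (nat_lit 3)))))) (cs (rf (nat_lit 4)) (cs (rf (nat_lit 5)) (cs (nd (nat_lit 207) (nat_lit 0) (cs (rf (nat_lit 0)) (cs (rf (nat_lit 6)) (cs (rf (nat_lit 1)) (rf (nat_lit 3)))))) (cs (nd (nat_lit 207) (nat_lit 0) (cs (rf (nat_lit 0)) (cs (rf (nat_lit 7)) (rf (nat_lit 8))))) (cs (nd (nat_lit 205) (nat_lit 0) (cs (nd (nat_lit 207) (nat_lit 0) (cs (lf (nat_lit 17) (nat_lit 183)) (nd (nat_lit 183) (nat_lit 0) (cs (lf (nat_lit 23) (nat_lit 182)) (lf (nat_lit 18) (nat_lit 183)))))) (cs (rf (nat_lit 9)) (rf (nat_lit 10))))) (cs (nd (nat_lit 205) (nat_lit 0) (cs (rf (nat_lit 9)) (cs (rf (nat_lit 10)) (cs (nd (nat_lit 207) (nat_lit 0) (cs (lf (nat_lit 17) (nat_lit 183)) (rf (nat_lit 11)))) (rf (nat_lit 12)))))) (nd (nat_lit 207) (nat_lit 0) (cs (rf (nat_lit 0)) (cs (rf (nat_lit 1)) (cs (rf (nat_lit 2)) (rf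 (nat_lit 13)))))))))))))) (cs (nd (nat_lit 185) (nat_lit 0) (cs (rf (nat_lit 14)) (cs (rf (nat_lit 15)) (cs (rf (nat_lit 16)) (rf (nat_lit 17)))))) (cs (rf (nat_lit 18)) (cs (nd (nat_lit 185) (nat_lit 0) (cs (rf (nat_lit 15)) (cs (rf (nat_lit 19)) (cs (rf (nat_lit 20)) (rf (nat_lit 21)))))) (cs (rf (nat_lit 22)) (cs (nd (nat_lit 185) (nat_lit 0) (cs (rf (nat_lit 23)) (cs (rf (nat_lit 16)) (cs (rf (nat_lit 20)) (rf (nat_lit 24)))))) (cs (nd (nat_lit 185) (nat_lit 0) (cs (rf (nat_lit 15)) (cs (rf (nat_lit 23)) (cs (rf (nat_lit 25)) (rf (nat_lit 26)))))) (cs (nd (nat_lit 185) (nat_lit 0) (cs (rf (nat_lit 17)) (cs (rf (nat_lit 21)) (cs (rf (nat_lit 24)) (cs (rf (nat_lit 26)) (cs (nd (nat_lit 187) (nat_lit 0) (cs (rf (nat_lit 27)) (cs (rf (nat_lit 28)) (cs (rf (nat_lit 29)) (nd (nat_lit 162) (nat_lit 0) (cs (lf (nat_lit 23) (nat_lit 161)) (nd (nat_lit 140) (nat_lit 0) (cs (rf (nat_lit 30)) (cs (rf (nat_lit 31)) (cs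 (rf (nat_lit 32)) (cs (rf (nat_lit 33)) (nd (nat_lit 206) (nat_lit 0) (cs (lf (nat_lit 11) (nat_lit 183)) (nd (nat_lit 165) (nat_lit 0) (cs (lf (nat_lit 17) (nat_lit 162)) (nd (nat_lit 121) (nat_lit 0) (cs (lf (nat_lit 37) (nat_lit 120)) (nd (nat_lit 230) (nat_lit 0) (cs (lf (nat_lit 30) (nat_lit 164)) (nd (nat_lit 117) (nat_lit 0) (cs (lf (nat_lit 46) (nat_lit 117)) (nd (nat_lit 207) (nat_lit 0) (cs (lf (nat_lit 29) (nat_lit 140)) (nd (nat_lit 141) (nat_lit 0) (cs (lf (nat_lit 35) (nat_lit 118)) (lf (nat_lit 25) (nat_lit 141))))))))))))))))))))))))))) (cs (rf (nat_lit 34)) (rf (nat_lit 35))))))))) (cs (nd (nat_lit 185) (nat_lit 0) (cs (rf (nat_lit 14)) (cs (rf (nat_lit 20)) (cs (rf (nat_lit 25)) (rf (nat_lit 35)))))) (cs (nd (nat_lit 185) (nat_lit 0) (cs (rf (nat_lit 19)) (cs (rf (nat_lit 35)) (nd (nat_lit 209) (nat_lit 0) (cs (lf (nat_lit 0) (nat_lit 183)) (rf (nat_lit 36))))))) (cs (nd (nat_lit 185) (nat_lit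 0) (cs (rf (nat_lit 14)) (cs (rf (nat_lit 15)) (cs (rf (nat_lit 23)) (cs (rf (nat_lit 37)) (rf (nat_lit 38))))))) (nd (nat_lit 185) (nat_lit 0) (cs (rf (nat_lit 14)) (cs (rf (nat_lit 15)) (cs (rf (nat_lit 23)) (cs (rf (nat_lit 17)) (rf (nat_lit 39))))))))))))))))))) q19147 (by decide +kernel)
def q20089 : Q := Q.p (nat_lit 0x2000000000010000040000000000000000000000000000000000000000000000) (nat_lit 0x280007e0001fe0007f8007ff0019f800f7e00fe7001fbc007ff803ffe007ff000ff8003fc003fe0000000000000) (nat_lit 18)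
theorem c20089 : QOK q20089 := cut [q19274, q9200, q19292, q19306, q19506, q19511, q19269, q19507, q7417, q19512, q19513, q19626, q19519, q19702, q19722, q19730, q19732, q19738, q19741, q9049, q19746, q10426, q19803, q19943, q21, q435, q500, q18160, q19745, q19968, q20053, q20087, q18184, q7193, q19754, q19762] ⟨c19274, c9200, c19292, c19306, c19506, c19511, c19269, c19507, c7417, c19512, c19513, c19626, c19519, c19702, c19722, c19730, c19732, c19738, c19741, c9049, c19746, c10426, c19803, c19943, c21, c435, c500, c18160, c19745, c19968, c20053, c20087, c18184, c7193, c19754, c19762, trivial⟩ (nd (nat_lit 187) (nat_lit 0) (cs (rf (nat_lit 0)) (cs (nd (nat_lit 188) (nat_lit 0) (cs (rf (nat_lit 1)) (cs (rf (nat_lit 2)) (cs (rf (nat_lit 3)) (cs (rf (nat_lit 4)) (cs (rf (nat_lit 5)) (cs (nd (nat_lit 185) (nat_lit 0) (cs (rf (nat_lit 6)) (cs (rf (nat_lit 7)) (cs (nd (nat_lit 230) (nat_lit 0) (cs (rf (nat_lit 8)) (cs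 (nd (nat_lit 143) (nat_lit 0) (cs (rf (nat_lit 9)) (cs (nd (nat_lit 162) (nat_lit 0) (cs (lf (nat_lit 22) (nat_lit 162)) (nd (nat_lit 211) (nat_lit 0) (cs (lf (nat_lit 4) (nat_lit 185)) (rf (nat_lit 10)))))) (cs (rf (nat_lit 11)) (nd (nat_lit 119) (nat_lit 0) (cs (rf (nat_lit 12)) (nd (nat_lit 121) (nat_lit 0) (cs (lf (nat_lit 38) (nat_lit 120)) (nd (nat_lit 210) (nat_lit 0) (cs (lf (nat_lit 5) (nat_lit 185)) (nd (nat_lit 144) (nat_lit 0) (cs (lf (nat_lit 44) (nat_lit 121)) (nd (nat_lit 120) (nat_lit 0) (cs (lf (nat_lit 0) (nat_lit 118)) (nd (nat_lit 145) (nat_lit 0) (cs (lf (nat_lit 21) (nat_lit 119)) (lf (nat_lit 3) (nat_lit 119)))))))))))))))))) (nd (nat_lit 163) (nat_lit 0) (cs (lf (nat_lit 23) (nat_lit 162)) (lf (nat_lit 42) (nat_lit 163))))))) (rf (nat_lit 13)))))) (rf (nat_lit 14))))))))) (cs (rf (nat_lit 15)) (cs (nd (nat_lit 230) (nat_lit 0) (cs (rf (nat_lit 8)) (cs (nd (nat_lit 164) (nat_lit 0) (cs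 (nd (nat_lit 229) (nat_lit 0) (cs (lf (nat_lit 41) (nat_lit 163)) (rf (nat_lit 16)))) (cs (nd (nat_lit 229) (nat_lit 0) (cs (lf (nat_lit 41) (nat_lit 163)) (rf (nat_lit 17)))) (cs (rf (nat_lit 18)) (cs (nd (nat_lit 143) (nat_lit 0) (cs (lf (nat_lit 34) (nat_lit 142)) (nd (nat_lit 142) (nat_lit 0) (cs (lf (nat_lit 35) (nat_lit 120)) (nd (nat_lit 229) (nat_lit 0) (cs (lf (nat_lit 41) (nat_lit 163)) (rf (nat_lit 19)))))))) (rf (nat_lit 20))))))) (nd (nat_lit 252) (nat_lit 0) (cs (lf (nat_lit 29) (nat_lit 186)) (nd (nat_lit 209) (nat_lit 0) (cs (lf (nat_lit 30) (nat_lit 186)) (nd (nat_lit 251) (nat_lit 0) (cs (lf (nat_lit 41) (nat_lit 185)) (nd (nat_lit 164) (nat_lit 0) (cs (lf (nat_lit 40) (nat_lit 163)) (rf (nat_lit 21))))))))))))) (cs (rf (nat_lit 22)) (cs (rf (nat_lit 23)) (cs (nd (nat_lit 230) (nat_lit 0) (cs (rf (nat_lit 24)) (cs (rf (nat_lit 25)) (cs (rf (nat_lit 26)) (cs (rf (nat_lit 27)) (nd (nat_lit 164)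 (nat_lit 0) (cs (rf (nat_lit 16)) (cs (rf (nat_lit 17)) (cs (rf (nat_lit 18)) (rf (nat_lit 28))))))))))) (cs (rf (nat_lit 29)) (cs (rf (nat_lit 30)) (cs (rf (nat_lit 31)) (nd (nat_lit 230) (nat_lit 0) (cs (rf (nat_lit 26)) (cs (rf (nat_lit 27)) (cs (rf (nat_lit 32)) (nd (nat_lit 164) (nat_lit 0) (cs (rf (nat_lit 16)) (cs (rf (nat_lit 17)) (cs (rf (nat_lit 28)) (cs (nd (nat_lit 165) (nat_lit 0) (cs (rf (nat_lit 33)) (nd (nat_lit 229) (nat_lit 0) (cs (lf (nat_lit 41) (nat_lit 163)) (nd (nat_lit 163) (nat_lit 0) (cs (lf (nat_lit 47) (nat_lit 141)) (nd (nat_lit 162) (nat_lit 0) (cs (lf (nat_lit 0) (nat_lit 161)) (nd (nat_lit 139) (nat_lit 0) (cs (lf (nat_lit 22) (nat_lit 139)) (rf (nat_lit 34)))))))))))) (nd (nat_lit 165) (nat_lit 0) (cs (lf (nat_lit 35) (nat_lit 142)) (nd (nat_lit 229) (nat_lit 0) (cs (lf (nat_lit 41) (nat_lit 163)) (rf (nat_lit 35)))))))))))))))))))))))))) q20089 (by decide +kernel)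
def q20775 : Q := Q.p (nat_lit 0x2000000000010000040000000000000000000000000000000000000000000000) (nat_lit 0x20001fe0009f80073f003ef8007be003ff800ffc001ff0003f8000fa000280000000000000) (nat_lit 18)
theorem c20775 : QOK q20775 := cut [q20462, q20464, q20541, q20570, q20316, q20456, q527, q3927, q20374, q419, q337, q20322, q20440, q20608, q20648, q4774, q18911, q18722, q18907, q18915, q8788, q18728, q20672, q20718, q4753, q4772, q20671, q20658, q20662, q20664, q20762, q20766, q20774] ⟨c20462, c20464, c20541, c20570, c20316, c20456, c527, c3927, c20374, c419, c337, c20322, c20440, c20608, c20648, c4774, c18911, c18722, c18907, c18915, c8788, c18728, c20672, c20718, c4753, c4772, c20671, c20658, c20662, c20664, c20762, c20766, c20774, trivial⟩ (nd (nat_lit 185) (nat_lit 0) (cs (rf (nat_lit 0)) (cs (rf (nat_lit 1)) (cs (rf (nat_lit 2)) (cs (rf (nat_lit 3)) (cs (nd (nat_lit 207) (nat_lit 0) (cs (rf (nat_lit 4)) (cs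 (rf (nat_lit 5)) (cs (nd (nat_lit 206) (nat_lit 0) (cs (rf (nat_lit 6)) (cs (rf (nat_lit 7)) (nd (nat_lit 229) (nat_lit 0) (cs (rf (nat_lit 8)) (nd (nat_lit 187) (nat_lit 0) (cs (rf (nat_lit 9)) (nd (nat_lit 184) (nat_lit 0) (cs (rf (nat_lit 10)) (nd (nat_lit 142) (nat_lit 0) (cs (lf (nat_lit 37) (nat_lit 141)) (nd (nat_lit 165) (nat_lit 0) (cs (lf (nat_lit 17) (nat_lit 162)) (nd (nat_lit 143) (nat_lit 0) (cs (lf (nat_lit 36) (nat_lit 120)) (nd (nat_lit 209) (nat_lit 0) (cs (lf (nat_lit 18) (nat_lit 184)) (lf (nat_lit 47) (nat_lit 120))))))))))))))))))) (cs (nd (nat_lit 206) (nat_lit 0) (cs (rf (nat_lit 6)) (cs (rf (nat_lit 7)) (rf (nat_lit 11))))) (nd (nat_lit 206) (nat_lit 0) (cs (rf (nat_lit 6)) (cs (rf (nat_lit 7)) (rf (nat_lit 12)))))))))) (cs (rf (nat_lit 13)) (cs (rf (nat_lit 14)) (cs (nd (nat_lit 184) (nat_lit 0) (cs (rf (nat_lit 15)) (cs (rf (nat_lit 16)) (cs (nd (nat_lit 187) (nat_lit 0) (cs (rf (nat_lit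 17)) (cs (rf (nat_lit 18)) (cs (rf (nat_lit 19)) (nd (nat_lit 165) (nat_lit 0) (cs (lf (nat_lit 17) (nat_lit 162)) (nd (nat_lit 162) (nat_lit 0) (cs (lf (nat_lit 23) (nat_lit 161)) (nd (nat_lit 143) (nat_lit 0) (cs (lf (nat_lit 36) (nat_lit 120)) (nd (nat_lit 209) (nat_lit 0) (cs (lf (nat_lit 5) (nat_lit 184)) (rf (nat_lit 20)))))))))))))) (nd (nat_lit 161) (nat_lit 0) (cs (rf (nat_lit 21)) (cs (nd (nat_lit 183) (nat_lit 0) (cs (lf (nat_lit 23) (nat_lit 160)) (nd (nat_lit 164) (nat_lit 0) (cs (lf (nat_lit 17) (nat_lit 161)) (nd (nat_lit 182) (nat_lit 0) (cs (lf (nat_lit 4) (nat_lit 182)) (lf (nat_lit 16) (nat_lit 160)))))))) (nd (nat_lit 160) (nat_lit 0) (cs (lf (nat_lit 21) (nat_lit 160)) (nd (nat_lit 162) (nat_lit 0) (cs (lf (nat_lit 18) (nat_lit 161)) (lf (nat_lit 3) (nat_lit 160))))))))))))) (cs (rf (nat_lit 22)) (cs (rf (nat_lit 23)) (cs (nd (nat_lit 184) (nat_lit 0) (cs (rf (nat_lit 24)) (cs (rf (nat_lit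 25)) (cs (rf (nat_lit 15)) (cs (rf (nat_lit 26)) (nd (nat_lit 206) (nat_lit 0) (cs (rf (nat_lit 27)) (cs (rf (nat_lit 28)) (cs (rf (nat_lit 29)) (cs (nd (nat_lit 187) (nat_lit 0) (cs (lf (nat_lit 11) (nat_lit 183)) (rf (nat_lit 30)))) (nd (nat_lit 187) (nat_lit 0) (cs (lf (nat_lit 11) (nat_lit 183)) (nd (nat_lit 161) (nat_lit 0) (cs (lf (nat_lit 22) (nat_lit 161)) (nd (nat_lit 188) (nat_lit 0) (cs (lf (nat_lit 10) (nat_lit 184)) (nd (nat_lit 211) (nat_lit 0) (cs (lf (nat_lit 4) (nat_lit 185)) (nd (nat_lit 189) (nat_lit 0) (cs (lf (nat_lit 5) (nat_lit 186)) (rf (nat_lit 31)))))))))))))))))))))) (rf (nat_lit 32)))))))))))))) q20775 (by decide +kernel)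
def q21016 : Q := Q.p (nat_lit 0x2000000000010000040000000000000000000000000000000000000000000000) (nat_lit 0x1c0007fc0019f80077c007ef801fbc007ff8007d8001f40007e0000f80000a0000000000000) (nat_lit 15)
theorem c21016 : QOK q21016 := cut [q20053, q20813, q20843, q4706, q9200, q20564, q4961, q19329, q19495, q20851, q20854, q20861, q20897, q20925, q19722, q7194, q18713, q9274, q9291, q3036, q20883, q20048, q20924, q20940, q20944, q20873, q20910, q19956, q20957, q20965, q20995, q19511, q20918, q20853, q6858, q7338, q524, q20051, q20982, q21004, q20976, q20979, q15183, q21015] ⟨c20053, c20813, c20843, c4706, c9200, c20564, c4961, c19329, c19495, c20851, c20854, c20861, c20897, c20925, c19722, c7194, c18713, c9274, c9291, c3036, c20883, c20048, c20924, c20940, c20944, c20873, c20910, c19956, c20957, c20965, c20995, c19511, c20918, c20853, c6858, c7338, c524, c20051, c20982, c21004, c20976, c20979, c15183, c21015, trivial⟩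 (nd (nat_lit 187) (nat_lit 0) (cs (rf (nat_lit 0)) (cs (rf (nat_lit 1)) (cs (rf (nat_lit 2)) (cs (nd (nat_lit 188) (nat_lit 0) (cs (rf (nat_lit 3)) (cs (rf (nat_lit 4)) (cs (rf (nat_lit 5)) (cs (nd (nat_lit 185) (nat_lit 0) (cs (rf (nat_lit 6)) (cs (rf (nat_lit 7)) (cs (rf (nat_lit 8)) (cs (rf (nat_lit 9)) (rf (nat_lit 10))))))) (rf (nat_lit 11))))))) (cs (rf (nat_lit 12)) (cs (rf (nat_lit 13)) (cs (nd (nat_lit 188) (nat_lit 0) (cs (rf (nat_lit 14)) (cs (rf (nat_lit 5)) (cs (rf (nat_lit 11)) (nd (nat_lit 165) (nat_lit 0) (cs (rf (nat_lit 15)) (cs (rf (nat_lit 16)) (cs (nd (nat_lit 185) (nat_lit 0) (cs (rf (nat_lit 17)) (cs (rf (nat_lit 7)) (nd (nat_lit 163) (nat_lit 0) (cs (lf (nat_lit 23) (nat_lit 162)) (nd (nat_lit 166) (nat_lit 0) (cs (rf (nat_lit 18)) (nd (nat_lit 144) (nat_lit 0) (cs (rf (nat_lit 19)) (nd (nat_lit 230) (nat_lit 0) (cs (lf (nat_lit 30) (nat_lit 164)) (nd (nat_lit 210) (nat_lit 0) (cs (lf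 (nat_lit 5) (nat_lit 185)) (rf (nat_lit 20))))))))))))))) (nd (nat_lit 185) (nat_lit 0) (cs (rf (nat_lit 17)) (cs (rf (nat_lit 7)) (nd (nat_lit 166) (nat_lit 0) (cs (lf (nat_lit 17) (nat_lit 163)) (rf (nat_lit 21))))))))))))))) (cs (nd (nat_lit 188) (nat_lit 0) (cs (rf (nat_lit 11)) (cs (rf (nat_lit 22)) (cs (rf (nat_lit 23)) (cs (rf (nat_lit 24)) (cs (nd (nat_lit 165) (nat_lit 0) (cs (rf (nat_lit 15)) (cs (rf (nat_lit 16)) (cs (rf (nat_lit 25)) (nd (nat_lit 143) (nat_lit 0) (cs (lf (nat_lit 36) (nat_lit 120)) (nd (nat_lit 185) (nat_lit 0) (cs (rf (nat_lit 17)) (cs (rf (nat_lit 7)) (nd (nat_lit 164) (nat_lit 0) (cs (rf (nat_lit 26)) (nd (nat_lit 163) (nat_lit 0) (cs (lf (nat_lit 23) (nat_lit 162)) (nd (nat_lit 166) (nat_lit 0) (cs (lf (nat_lit 6) (nat_lit 163)) (rf (nat_lit 27))))))))))))))))) (cs (rf (nat_lit 28)) (rf (nat_lit 29))))))))) (cs (rf (nat_lit 30)) (cs (nd (nat_lit 188) (nat_lit 0) (cs (rf (nat_lit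 31)) (cs (rf (nat_lit 5)) (cs (rf (nat_lit 32)) (cs (rf (nat_lit 24)) (nd (nat_lit 185) (nat_lit 0) (cs (rf (nat_lit 6)) (cs (rf (nat_lit 7)) (cs (rf (nat_lit 9)) (rf (nat_lit 33))))))))))) (cs (nd (nat_lit 188) (nat_lit 0) (cs (rf (nat_lit 14)) (cs (rf (nat_lit 5)) (cs (rf (nat_lit 23)) (nd (nat_lit 207) (nat_lit 0) (cs (rf (nat_lit 34)) (cs (rf (nat_lit 35)) (nd (nat_lit 164) (nat_lit 0) (cs (rf (nat_lit 36)) (cs (rf (nat_lit 37)) (cs (rf (nat_lit 38)) (cs (rf (nat_lit 39)) (nd (nat_lit 185) (nat_lit 0) (cs (rf (nat_lit 40)) (cs (rf (nat_lit 41)) (nd (nat_lit 210) (nat_lit 0) (cs (lf (nat_lit 5) (nat_lit 185)) (nd (nat_lit 162) (nat_lit 0) (cs (lf (nat_lit 22) (nat_lit 162)) (nd (nat_lit 166) (nat_lit 0) (cs (lf (nat_lit 17) (nat_lit 163)) (nd (nat_lit 229) (nat_lit 0) (cs (lf (nat_lit 30) (nat_lit 163)) (nd (nat_lit 209) (nat_lit 0) (cs (lf (nat_lit 11) (nat_lit 206)) (rf (nat_lit 42)))))))))))))))))))))))))))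 (rf (nat_lit 43)))))))))))))) q21016 (by decide +kernel)
def q21852 : Q := Q.p (nat_lit 0x2000000000010000040000000000000000000000000000000000000000000000) (nat_lit 0x80006e00019c000750007ef001fbc007ff800ffc003ff8007f8000b80000a0000000000000) (nat_lit 18)
theorem c21852 : QOK q21852 := cut [q19274, q19730, q19803, q21015, q21798, q9084, q9085, q8950, q8993, q9173, q21832, q5709, q8958, q9181, q21810, q500, q9184, q19829, q9197, q9049, q9195, q18391, q6151, q6166, q9190, q4532, q9200, q20564, q20924, q2647, q9249, q9208, q9222, q9225, q9245, q20007, q9211, q9242, q20357, q4706, q20918, q20921, q584, q19158, q19273, q19511, q20944, q21848, q9270, q20957, q19292, q20965] ⟨c19274, c19730, c19803, c21015, c21798, c9084, c9085, c8950, c8993, c9173, c21832, c5709, c8958, c9181, c21810, c500, c9184, c19829, c9197, c9049, c9195, c18391, c6151, c6166, c9190, c4532, c9200, c20564, c20924, c2647, c9249, c9208, c9222, c9225,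 c9245, c20007, c9211, c9242, c20357, c4706, c20918, c20921, c584, c19158, c19273, c19511, c20944, c21848, c9270, c20957, c19292, c20965, trivial⟩ (nd (nat_lit 187) (nat_lit 0) (cs (rf (nat_lit 0)) (cs (rf (nat_lit 1)) (cs (rf (nat_lit 2)) (cs (rf (nat_lit 3)) (cs (rf (nat_lit 4)) (cs (nd (nat_lit 143) (nat_lit 0) (cs (rf (nat_lit 5)) (cs (rf (nat_lit 6)) (cs (nd (nat_lit 142) (nat_lit 0) (cs (rf (nat_lit 7)) (cs (rf (nat_lit 8)) (cs (rf (nat_lit 9)) (cs (rf (nat_lit 10)) (nd (nat_lit 141) (nat_lit 0) (cs (rf (nat_lit 11)) (cs (rf (nat_lit 12)) (cs (rf (nat_lit 13)) (rf (nat_lit 14))))))))))) (cs (nd (nat_lit 230) (nat_lit 0) (cs (rf (nat_lit 15)) (cs (rf (nat_lit 16)) (rf (nat_lit 17))))) (nd (nat_lit 142) (nat_lit 0) (cs (rf (nat_lit 18)) (cs (rf (nat_lit 10)) (nd (nat_lit 164) (nat_lit 0) (cs (rf (nat_lit 19)) (cs (rf (nat_lit 20)) (cs (rf (nat_lit 21)) (nd (nat_lit 162) (nat_lit 0) (cs (rf (nat_lit 22)) (cs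 (rf (nat_lit 23)) (cs (rf (nat_lit 24)) (nd (nat_lit 163) (nat_lit 0) (cs (lf (nat_lit 0) (nat_lit 161)) (rf (nat_lit 25)))))))))))))))))))) (cs (nd (nat_lit 188) (nat_lit 0) (cs (rf (nat_lit 26)) (cs (rf (nat_lit 27)) (cs (rf (nat_lit 28)) (nd (nat_lit 166) (nat_lit 0) (cs (rf (nat_lit 29)) (cs (rf (nat_lit 30)) (cs (nd (nat_lit 144) (nat_lit 0) (cs (rf (nat_lit 31)) (cs (rf (nat_lit 32)) (cs (rf (nat_lit 33)) (cs (rf (nat_lit 34)) (rf (nat_lit 35))))))) (nd (nat_lit 144) (nat_lit 0) (cs (rf (nat_lit 31)) (cs (rf (nat_lit 32)) (cs (rf (nat_lit 33)) (cs (rf (nat_lit 35)) (nd (nat_lit 210) (nat_lit 0) (cs (rf (nat_lit 36)) (cs (rf (nat_lit 37)) (rf (nat_lit 38)))))))))))))))))) (cs (nd (nat_lit 188) (nat_lit 0) (cs (rf (nat_lit 39)) (cs (rf (nat_lit 40)) (cs (rf (nat_lit 41)) (cs (rf (nat_lit 28)) (nd (nat_lit 185) (nat_lit 0) (cs (rf (nat_lit 42)) (cs (rf (nat_lit 43)) (rf (nat_lit 44)))))))))) (cs (nd (nat_lit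 188) (nat_lit 0) (cs (rf (nat_lit 45)) (cs (rf (nat_lit 27)) (cs (rf (nat_lit 40)) (cs (rf (nat_lit 46)) (rf (nat_lit 47))))))) (cs (nd (nat_lit 188) (nat_lit 0) (cs (rf (nat_lit 48)) (cs (rf (nat_lit 27)) (cs (rf (nat_lit 41)) (cs (rf (nat_lit 49)) (rf (nat_lit 47))))))) (nd (nat_lit 188) (nat_lit 0) (cs (rf (nat_lit 50)) (cs (rf (nat_lit 27)) (cs (rf (nat_lit 41)) (rf (nat_lit 51))))))))))))))))) q21852 (by decide +kernel)
def q22342 : Q := Q.p (nat_lit 0xc00002000000000010000000000000000000000000000000000000000000000000000) (nat_lit 0x380000e0001de0007380019e0001f8000ee0001b8000000000000000000000000000000000000000000000) (nat_lit 13)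
theorem c22342 : QOK q22342 := cut [q2192, q22233, q22295, q700, q2190, q22299, q5304, q22305, q22310, q22314, q22319, q22324, q22217, q15503, q22283, q22287, q22334, q22340, q22285] ⟨c2192, c22233, c22295, c700, c2190, c22299, c5304, c22305, c22310, c22314, c22319, c22324, c22217, c15503, c22283, c22287, c22334, c22340, c22285, trivial⟩ (nd (nat_lit 252) (nat_lit 0) (cs (nd (nat_lit 273) (nat_lit 0) (cs (rf (nat_lit 0)) (cs (rf (nat_lit 1)) (nd (nat_lit 271) (nat_lit 0) (cs (lf (nat_lit 13) (nat_lit 249)) (nd (nat_lit 230) (nat_lit 0) (cs (lf (nat_lit 41) (nat_lit 207)) (rf (nat_lit 2))))))))) (cs (nd (nat_lit 276) (nat_lit 0) (cs (rf (nat_lit 3)) (cs (rf (nat_lit 4)) (nd (nat_lit 273) (nat_lit 0) (cs (nd (nat_lit 298) (nat_lit 0) (cs (lf (nat_lit 5) (nat_lit 273)) (rf (nat_lit 5)))) (cs (nd (nat_lit 251) (nat_lit 0) (cs (rf (nat_lit 6)) (nd (nat_lit 295) (nat_lit 0) (cs (lf (nat_lit 11) (nat_lit 272)) (nd (nat_lit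 298) (nat_lit 0) (cs (lf (nat_lit 5) (nat_lit 273)) (nd (nat_lit 209) (nat_lit 0) (cs (lf (nat_lit 25) (nat_lit 209)) (rf (nat_lit 7)))))))))) (rf (nat_lit 8)))))))) (cs (nd (nat_lit 273) (nat_lit 0) (cs (rf (nat_lit 0)) (cs (rf (nat_lit 1)) (nd (nat_lit 271) (nat_lit 0) (cs (lf (nat_lit 13) (nat_lit 249)) (rf (nat_lit 9))))))) (cs (nd (nat_lit 273) (nat_lit 0) (cs (rf (nat_lit 0)) (cs (rf (nat_lit 1)) (cs (rf (nat_lit 10)) (cs (rf (nat_lit 11)) (nd (nat_lit 230) (nat_lit 0) (cs (lf (nat_lit 41) (nat_lit 207)) (nd (nat_lit 185) (nat_lit 0) (cs (lf (nat_lit 46) (nat_lit 185)) (nd (nat_lit 272) (nat_lit 0) (cs (lf (nat_lit 12) (nat_lit 249)) (nd (nat_lit 250) (nat_lit 0) (cs (lf (nat_lit 23) (nat_lit 249)) (nd (nat_lit 187) (nat_lit 0) (cs (lf (nat_lit 34) (nat_lit 186)) (nd (nat_lit 251) (nat_lit 0) (cs (lf (nat_lit 18) (nat_lit 250)) (nd (nat_lit 228) (nat_lit 0) (cs (lf (nat_lit 23) (nat_lit 227)) (nd (nat_lit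 231) (nat_lit 0) (cs (lf (nat_lit 17) (nat_lit 228)) (rf (nat_lit 12))))))))))))))))))))))) (cs (nd (nat_lit 209) (nat_lit 0) (cs (rf (nat_lit 13)) (cs (rf (nat_lit 14)) (cs (nd (nat_lit 296) (nat_lit 0) (cs (lf (nat_lit 37) (nat_lit 208)) (nd (nat_lit 318) (nat_lit 0) (cs (lf (nat_lit 30) (nat_lit 252)) (nd (nat_lit 319) (nat_lit 0) (cs (lf (nat_lit 29) (nat_lit 252)) (nd (nat_lit 317) (nat_lit 0) (cs (lf (nat_lit 41) (nat_lit 251)) (nd (nat_lit 230) (nat_lit 0) (cs (lf (nat_lit 40) (nat_lit 229)) (rf (nat_lit 15)))))))))))) (rf (nat_lit 16)))))) (cs (rf (nat_lit 17)) (nd (nat_lit 209) (nat_lit 0) (cs (rf (nat_lit 14)) (cs (rf (nat_lit 18)) (rf (nat_lit 16)))))))))))) q22342 (by decide +kernel)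
def q22396 : Q := Q.p (nat_lit 0xc00003000000000010000000000000000000000000000000000000000000000000000) (nat_lit 0x1ee0007380000e00004000008000020000000000000000000000000000000000000000000000) (nat_lit 10)
theorem c22396 : QOK q22396 := cut [q6879] ⟨c6879, trivial⟩ (nd (nat_lit 230) (nat_lit 0) (cs (lf (nat_lit 29) (nat_lit 208)) (nd (nat_lit 185) (nat_lit 0) (cs (lf (nat_lit 46) (nat_lit 185)) (rf (nat_lit 0)))))) q22396 (by decide +kernel)
def q22605 : Q := Q.p (nat_lit 0x800002000000000010000000000000000000000000000000000000000000000000000) (nat_lit 0x8000120001fc0003780019f8007fc003ef800fbc0007c0001f00001000000000000000000000000000000) (nat_lit 14)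
theorem c22605 : QOK q22605 := cut [q12651, q22000, q22001, q7954, q7976, q22540, q22545, q22547, q3987, q12214, q22555, q22559, q7975, q22241, q22276, q14731, q22566, q2560, q22569, q21978, q22574, q22580, q22582, q22592, q22601] ⟨c12651, c22000, c22001, c7954, c7976, c22540, c22545, c22547, c3987, c12214, c22555, c22559, c7975, c22241, c22276, c14731, c22566, c2560, c22569, c21978, c22574, c22580, c22582, c22592, c22601, trivial⟩ (nd (nat_lit 231) (nat_lit 0) (cs (rf (nat_lit 0)) (cs (rf (nat_lit 1)) (cs (rf (nat_lit 2)) (cs (nd (nat_lit 230) (nat_lit 0) (cs (lf (nat_lit 42) (nat_lit 208)) (nd (nat_lit 232) (nat_lit 0) (cs (rf (nat_lit 3)) (cs (rf (nat_lit 4)) (cs (nd (nat_lit 229) (nat_lit 0) (cs (rf (nat_lit 5)) (cs (rf (nat_lit 6)) (cs (rf (nat_lit 7)) (cs (nd (nat_lit 207) (nat_lit 0) (cs (rf (nat_lit 8)) (nd (nat_lit 251) (nat_lit 0) (cs (lf (nat_lit 11) (nat_lit 228)) (nd (nat_lit 210) (nat_lit 0) (cs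 (lf (nat_lit 17) (nat_lit 207)) (nd (nat_lit 166) (nat_lit 0) (cs (lf (nat_lit 37) (nat_lit 165)) (rf (nat_lit 9)))))))))) (cs (rf (nat_lit 10)) (rf (nat_lit 11)))))))) (nd (nat_lit 233) (nat_lit 0) (cs (rf (nat_lit 12)) (rf (nat_lit 13)))))))))) (cs (nd (nat_lit 274) (nat_lit 0) (cs (rf (nat_lit 14)) (cs (nd (nat_lit 297) (nat_lit 0) (cs (lf (nat_lit 46) (nat_lit 208)) (nd (nat_lit 298) (nat_lit 0) (cs (lf (nat_lit 29) (nat_lit 231)) (rf (nat_lit 15)))))) (cs (nd (nat_lit 298) (nat_lit 0) (cs (rf (nat_lit 16)) (cs (nd (nat_lit 296) (nat_lit 0) (cs (lf (nat_lit 36) (nat_lit 208)) (nd (nat_lit 297) (nat_lit 0) (cs (lf (nat_lit 29) (nat_lit 231)) (rf (nat_lit 17)))))) (nd (nat_lit 297) (nat_lit 0) (cs (lf (nat_lit 29) (nat_lit 231)) (rf (nat_lit 18))))))) (cs (nd (nat_lit 209) (nat_lit 0) (cs (lf (nat_lit 41) (nat_lit 208)) (nd (nat_lit 276) (nat_lit 0) (cs (lf (nat_lit 29) (nat_lit 209)) (rf (nat_lit 19))))))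 (nd (nat_lit 209) (nat_lit 0) (cs (lf (nat_lit 41) (nat_lit 208)) (nd (nat_lit 187) (nat_lit 0) (cs (lf (nat_lit 40) (nat_lit 186)) (nd (nat_lit 230) (nat_lit 0) (cs (lf (nat_lit 42) (nat_lit 208)) (rf (nat_lit 20))))))))))))) (cs (nd (nat_lit 297) (nat_lit 0) (cs (lf (nat_lit 46) (nat_lit 208)) (rf (nat_lit 21)))) (nd (nat_lit 230) (nat_lit 0) (cs (lf (nat_lit 42) (nat_lit 208)) (nd (nat_lit 232) (nat_lit 0) (cs (rf (nat_lit 3)) (cs (rf (nat_lit 4)) (cs (nd (nat_lit 229) (nat_lit 0) (cs (rf (nat_lit 5)) (cs (rf (nat_lit 6)) (cs (rf (nat_lit 7)) (cs (rf (nat_lit 10)) (cs (rf (nat_lit 11)) (nd (nat_lit 207) (nat_lit 0) (cs (rf (nat_lit 8)) (nd (nat_lit 251) (nat_lit 0) (cs (lf (nat_lit 11) (nat_lit 228)) (nd (nat_lit 210) (nat_lit 0) (cs (lf (nat_lit 17) (nat_lit 207)) (nd (nat_lit 273) (nat_lit 0) (cs (lf (nat_lit 30) (nat_lit 207)) (nd (nat_lit 274) (nat_lit 0) (cs (lf (nat_lit 29) (nat_lit 207)) (nd (nat_lit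 185) (nat_lit 0) (cs (lf (nat_lit 43) (nat_lit 185)) (rf (nat_lit 22)))))))))))))))))))) (nd (nat_lit 233) (nat_lit 0) (cs (nd (nat_lit 255) (nat_lit 0) (cs (lf (nat_lit 5) (nat_lit 230)) (rf (nat_lit 23)))) (cs (nd (nat_lit 255) (nat_lit 0) (cs (lf (nat_lit 5) (nat_lit 230)) (nd (nat_lit 211) (nat_lit 0) (cs (lf (nat_lit 17) (nat_lit 208)) (nd (nat_lit 229) (nat_lit 0) (cs (lf (nat_lit 16) (nat_lit 207)) (nd (nat_lit 250) (nat_lit 0) (cs (lf (nat_lit 10) (nat_lit 228)) (nd (nat_lit 228) (nat_lit 0) (cs (lf (nat_lit 11) (nat_lit 227)) (nd (nat_lit 209) (nat_lit 0) (cs (lf (nat_lit 12) (nat_lit 205)) (lf (nat_lit 18) (nat_lit 208)))))))))))))) (rf (nat_lit 24)))))))))))))))))) q22605 (by decide +kernel)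
def q22900 : Q := Q.p (nat_lit 0xe00002000000000010000000000000000000000000000000000000000000000000000) (nat_lit 0x52000148003db80071c0039f8007bc000ef0007be000440000100000000000000000000000000000000000) (nat_lit 16)
theorem c22900 : QOK q22900 := cut [q15620, q22798, q1301, q15652, q22628, q22828, q22665, q22899] ⟨c15620, c22798, c1301, c15652, c22628, c22828, c22665, c22899, trivial⟩ (nd (nat_lit 276) (nat_lit 0) (cs (rf (nat_lit 0)) (cs (rf (nat_lit 1)) (cs (nd (nat_lit 209) (nat_lit 0) (cs (rf (nat_lit 2)) (cs (rf (nat_lit 3)) (nd (nat_lit 207) (nat_lit 0) (cs (rf (nat_lit 4)) (cs (nd (nat_lit 298) (nat_lit 0) (cs (lf (nat_lit 5) (nat_lit 273)) (nd (nat_lit 320) (nat_lit 0) (cs (lf (nat_lit 42) (nat_lit 253)) (nd (nat_lit 251) (nat_lit 0) (cs (lf (nat_lit 23) (nat_lit 250)) (nd (nat_lit 229) (nat_lit 0) (cs (lf (nat_lit 29) (nat_lit 207)) (nd (nat_lit 210) (nat_lit 0) (cs (lf (nat_lit 11) (nat_lit 206)) (nd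 (nat_lit 185) (nat_lit 0) (cs (lf (nat_lit 23) (nat_lit 184)) (lf (nat_lit 28) (nat_lit 185)))))))))))))) (cs (nd (nat_lit 298) (nat_lit 0) (cs (lf (nat_lit 5) (nat_lit 273)) (nd (nat_lit 320) (nat_lit 0) (cs (lf (nat_lit 42) (nat_lit 253)) (nd (nat_lit 250) (nat_lit 0) (cs (lf (nat_lit 22) (nat_lit 250)) (nd (nat_lit 272) (nat_lit 0) (cs (lf (nat_lit 23) (nat_lit 249)) (nd (nat_lit 271) (nat_lit 0) (cs (lf (nat_lit 16) (nat_lit 249)) (nd (nat_lit 293) (nat_lit 0) (cs (lf (nat_lit 11) (nat_lit 270)) (nd (nat_lit 315) (nat_lit 0) (cs (nd (nat_lit 228) (nat_lit 0) (cs (lf (nat_lit 36) (nat_lit 205)) (rf (nat_lit 5)))) (lf (nat_lit 30) (nat_lit 249)))))))))))))))) (cs (nd (nat_lit 250) (nat_lit 0) (cs (lf (nat_lit 22) (nat_lit 250)) (nd (nat_lit 298) (nat_lit 0) (cs (lf (nat_lit 5) (nat_lit 273)) (nd (nat_lit 272) (nat_lit 0) (cs (lf (nat_lit 23) (nat_lit 249)) (nd (nat_lit 271) (nat_lit 0) (cs (lf (nat_lit 16)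 (nat_lit 249)) (nd (nat_lit 292) (nat_lit 0) (cs (lf (nat_lit 10) (nat_lit 270)) (nd (nat_lit 270) (nat_lit 0) (cs (lf (nat_lit 11) (nat_lit 269)) (nd (nat_lit 248) (nat_lit 0) (cs (lf (nat_lit 23) (nat_lit 247)) (nd (nat_lit 295) (nat_lit 0) (cs (lf (nat_lit 5) (nat_lit 270)) (nd (nat_lit 206) (nat_lit 0) (cs (nd (nat_lit 183) (nat_lit 0) (cs (lf (nat_lit 22) (nat_lit 183)) (nd (nat_lit 205) (nat_lit 0) (cs (lf (nat_lit 23) (nat_lit 182)) (nd (nat_lit 226) (nat_lit 0) (cs (lf (nat_lit 10) (nat_lit 204)) (lf (nat_lit 33) (nat_lit 182)))))))) (lf (nat_lit 25) (nat_lit 206)))))))))))))))))))) (nd (nat_lit 298) (nat_lit 0) (cs (lf (nat_lit 5) (nat_lit 273)) (nd (nat_lit 320) (nat_lit 0) (cs (lf (nat_lit 42) (nat_lit 253)) (nd (nat_lit 251) (nat_lit 0) (cs (lf (nat_lit 23) (nat_lit 250)) (nd (nat_lit 229) (nat_lit 0) (cs (lf (nat_lit 29) (nat_lit 207)) (rf (nat_lit 6)))))))))))))))))) (rf (nat_lit 7)))))) q22900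 (by decide +kernel)
def q23886 : Q := Q.p (nat_lit 0x80000200000000001c000000000000000000000000000000000000000000000000000) (nat_lit 0x380000e00003e001df00077d0001fc001df80003c0003f8000f80007e0000700001400000000000000000000000) (nat_lit 16)
theorem c23886 : QOK q23886 := cut [q18354, q23758, q23808, q126, q23757, q23813, q23818, q23885] ⟨c18354, c23758, c23808, c126, c23757, c23813, c23818, c23885, trivial⟩ (nd (nat_lit 205) (nat_lit 0) (cs (rf (nat_lit 0)) (cs (rf (nat_lit 1)) (cs (rf (nat_lit 2)) (cs (nd (nat_lit 204) (nat_lit 0) (cs (rf (nat_lit 3)) (cs (rf (nat_lit 4)) (cs (nd (nat_lit 230) (nat_lit 0) (cs (lf (nat_lit 5) (nat_lit 205)) (rf (nat_lit 5)))) (rf (nat_lit 6)))))) (rf (nat_lit 7))))))) q23886 (by decide +kernel)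
def q24406 : Q := Q.p (nat_lit 0x80000200000000001c000000000000000000000000000000000000000000000000000) (nat_lit 0x380000e00003e001df00077c0001f0001fb80003c0003e0001fc0007c0000700001400000000000000000000000) (nat_lit 15)
theorem c24406 : QOK q24406 := cut [q23522, q23885, q24370, q24377, q8660, q23835, q23897, q23708, q23696, q24393, q24397, q11444, q11440] ⟨c23522, c23885, c24370, c24377, c8660, c23835, c23897, c23708, c23696, c24393, c24397, c11444, c11440, trivial⟩ (nd (nat_lit 205) (nat_lit 0) (cs (rf (nat_lit 0)) (cs (rf (nat_lit 1)) (cs (rf (nat_lit 2)) (cs (rf (nat_lit 3)) (nd (nat_lit 183) (nat_lit 0) (cs (lf (nat_lit 23) (nat_lit 182)) (nd (nat_lit 161) (nat_lit 0) (cs (rf (nat_lit 4)) (cs (rf (nat_lit 5)) (cs (nd (nat_lit 230) (nat_lit 0) (cs (lf (nat_lit 5) (nat_lit 205)) (nd (nat_lit 227) (nat_lit 0) (cs (rf (nat_lit 6)) (cs (nd (nat_lit 138) (nat_lit 0) (cs (lf (nat_lit 46) (nat_lit 138)) (nd (nat_lit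 162) (nat_lit 0) (cs (lf (nat_lit 35) (nat_lit 139)) (nd (nat_lit 249) (nat_lit 0) (cs (lf (nat_lit 34) (nat_lit 161)) (nd (nat_lit 270) (nat_lit 0) (cs (lf (nat_lit 40) (nat_lit 182)) (nd (nat_lit 271) (nat_lit 0) (cs (lf (nat_lit 41) (nat_lit 204)) (nd (nat_lit 272) (nat_lit 0) (cs (lf (nat_lit 29) (nat_lit 205)) (nd (nat_lit 228) (nat_lit 0) (cs (lf (nat_lit 30) (nat_lit 205)) (rf (nat_lit 7)))))))))))))))) (cs (nd (nat_lit 138) (nat_lit 0) (cs (lf (nat_lit 46) (nat_lit 138)) (nd (nat_lit 162) (nat_lit 0) (cs (lf (nat_lit 35) (nat_lit 139)) (nd (nat_lit 249) (nat_lit 0) (cs (lf (nat_lit 34) (nat_lit 161)) (rf (nat_lit 8)))))))) (cs (rf (nat_lit 9)) (nd (nat_lit 138) (nat_lit 0) (cs (lf (nat_lit 46) (nat_lit 138)) (nd (nat_lit 140) (nat_lit 0) (cs (lf (nat_lit 34) (nat_lit 139)) (rf (nat_lit 10))))))))))))) (cs (nd (nat_lit 230) (nat_lit 0) (cs (lf (nat_lit 5) (nat_lit 205)) (rf (nat_lit 11)))) (nd (nat_lit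 230) (nat_lit 0) (cs (lf (nat_lit 5) (nat_lit 205)) (rf (nat_lit 12)))))))))))))))) q24406 (by decide +kernel)
def q24533 : Q := Q.p (nat_lit 0x800002000000000038000000000000000000000000000000000000000000000000000) (nat_lit 0x19000064003df80077e0039fc000fc000020001a0000700001c00001000000000000000000000000000000) (nat_lit 14)
theorem c24533 : QOK q24533 := cut [q24523, q24525, q24530, q24531, q21978] ⟨c24523, c24525, c24530, c24531, c21978, trivial⟩ (nd (nat_lit 274) (nat_lit 0) (cs (rf (nat_lit 0)) (cs (rf (nat_lit 1)) (cs (rf (nat_lit 2)) (cs (rf (nat_lit 3)) (nd (nat_lit 231) (nat_lit 0) (cs (lf (nat_lit 41) (nat_lit 208)) (rf (nat_lit 4))))))))) q24533 (by decide +kernel)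
def q24747 : Q := Q.p (nat_lit 0xc00003000000000018000000000000000000000000000000000000000000000000000) (nat_lit 0x1ce0007380000e00004000000000020000000000000000000000000000000000000000000000) (nat_lit 9)
theorem c24747 : QOK q24747 := cut [q6879] ⟨c6879, trivial⟩ (nd (nat_lit 230) (nat_lit 0) (cs (lf (nat_lit 47) (nat_lit 185)) (rf (nat_lit 0)))) q24747 (by decide +kernel)
def q24866 : Q := Q.p (nat_lit 0xc00002000000000018000000000000000000000000000000000000000000000000000) (nat_lit 0x1df00073c0039f0007ee000e700079c000720001c80001000000000000000000000000000000) (nat_lit 16)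
theorem c24866 : QOK q24866 := cut [q20985, q24706, q24741, q22627, q15421, q22802, q24850, q6879, q2935, q21978, q24740] ⟨c20985, c24706, c24741, c22627, c15421, c22802, c24850, c6879, c2935, c21978, c24740, trivial⟩ (nd (nat_lit 209) (nat_lit 0) (cs (nd (nat_lit 231) (nat_lit 0) (cs (lf (nat_lit 41) (nat_lit 208)) (nd (nat_lit 187) (nat_lit 0) (cs (lf (nat_lit 40) (nat_lit 186)) (nd (nat_lit 166) (nat_lit 0) (cs (lf (nat_lit 34) (nat_lit 165)) (nd (nat_lit 165) (nat_lit 0) (cs (lf (nat_lit 35) (nat_lit 143)) (nd (nat_lit 276) (nat_lit 0) (cs (lf (nat_lit 29) (nat_lit 209)) (nd (nat_lit 142) (nat_lit 0) (cs (lf (nat_lit 46) (nat_lit 142)) (rf (nat_lit 0)))))))))))))) (cs (rf (nat_lit 1)) (cs (rf (nat_lit 2)) (cs (nd (nat_lit 210) (nat_lit 0) (cs (rf (nat_lit 3)) (cs (nd (nat_lit 233) (nat_lit 0) (cs (lf (nat_lit 4) (nat_lit 207)) (nd (nat_lit 211) (nat_lit 0) (cs (lf (nat_lit 5) (nat_lit 208)) (nd (nat_lit 230)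 (nat_lit 0) (cs (lf (nat_lit 11) (nat_lit 207)) (nd (nat_lit 252) (nat_lit 0) (cs (lf (nat_lit 35) (nat_lit 186)) (rf (nat_lit 4)))))))))) (cs (nd (nat_lit 273) (nat_lit 0) (cs (rf (nat_lit 5)) (cs (nd (nat_lit 232) (nat_lit 0) (cs (lf (nat_lit 5) (nat_lit 207)) (nd (nat_lit 188) (nat_lit 0) (cs (lf (nat_lit 17) (nat_lit 185)) (nd (nat_lit 206) (nat_lit 0) (cs (lf (nat_lit 16) (nat_lit 184)) (nd (nat_lit 183) (nat_lit 0) (cs (lf (nat_lit 22) (nat_lit 183)) (nd (nat_lit 205) (nat_lit 0) (cs (lf (nat_lit 23) (nat_lit 182)) (nd (nat_lit 226) (nat_lit 0) (cs (lf (nat_lit 10) (nat_lit 204)) (nd (nat_lit 204) (nat_lit 0) (cs (lf (nat_lit 11) (nat_lit 203)) (nd (nat_lit 248) (nat_lit 0) (cs (lf (nat_lit 30) (nat_lit 182)) (nd (nat_lit 139) (nat_lit 0) (cs (lf (nat_lit 37) (nat_lit 138)) (nd (nat_lit 229) (nat_lit 0) (cs (lf (nat_lit 5) (nat_lit 204)) (nd (nat_lit 251) (nat_lit 0) (cs (lf (nat_lit 29) (nat_lit 207))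 (nd (nat_lit 250) (nat_lit 0) (cs (lf (nat_lit 18) (nat_lit 250)) (lf (nat_lit 1) (nat_lit 248)))))))))))))))))))))))))) (cs (nd (nat_lit 232) (nat_lit 0) (cs (lf (nat_lit 5) (nat_lit 207)) (nd (nat_lit 188) (nat_lit 0) (cs (lf (nat_lit 17) (nat_lit 185)) (nd (nat_lit 206) (nat_lit 0) (cs (lf (nat_lit 16) (nat_lit 184)) (nd (nat_lit 183) (nat_lit 0) (cs (lf (nat_lit 22) (nat_lit 183)) (nd (nat_lit 205) (nat_lit 0) (cs (lf (nat_lit 23) (nat_lit 182)) (nd (nat_lit 226) (nat_lit 0) (cs (lf (nat_lit 10) (nat_lit 204)) (nd (nat_lit 204) (nat_lit 0) (cs (lf (nat_lit 11) (nat_lit 203)) (nd (nat_lit 248) (nat_lit 0) (cs (lf (nat_lit 30) (nat_lit 182)) (nd (nat_lit 229) (nat_lit 0) (cs (lf (nat_lit 5) (nat_lit 204)) (nd (nat_lit 251) (nat_lit 0) (cs (lf (nat_lit 29) (nat_lit 207)) (nd (nat_lit 249) (nat_lit 0) (cs (nd (nat_lit 272) (nat_lit 0) (cs (lf (nat_lit 41) (nat_lit 206)) (lf (nat_lit 21) (nat_lit 248)))) (lf (nat_lit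 2) (nat_lit 248)))))))))))))))))))))))) (nd (nat_lit 232) (nat_lit 0) (cs (lf (nat_lit 5) (nat_lit 207)) (nd (nat_lit 188) (nat_lit 0) (cs (lf (nat_lit 17) (nat_lit 185)) (nd (nat_lit 187) (nat_lit 0) (cs (lf (nat_lit 12) (nat_lit 184)) (nd (nat_lit 143) (nat_lit 0) (cs (lf (nat_lit 25) (nat_lit 143)) (nd (nat_lit 252) (nat_lit 0) (cs (lf (nat_lit 32) (nat_lit 186)) (nd (nat_lit 272) (nat_lit 0) (cs (lf (nat_lit 12) (nat_lit 249)) (nd (nat_lit 294) (nat_lit 0) (cs (lf (nat_lit 11) (nat_lit 271)) (nd (nat_lit 229) (nat_lit 0) (cs (lf (nat_lit 38) (nat_lit 206)) (rf (nat_lit 6)))))))))))))))))))))) (nd (nat_lit 189) (nat_lit 0) (cs (lf (nat_lit 16) (nat_lit 185)) (nd (nat_lit 211) (nat_lit 0) (cs (lf (nat_lit 17) (nat_lit 186)) (nd (nat_lit 230) (nat_lit 0) (cs (lf (nat_lit 11) (nat_lit 207)) (nd (nat_lit 252) (nat_lit 0) (cs (lf (nat_lit 35) (nat_lit 186)) (rf (nat_lit 7)))))))))))))) (nd (nat_lit 231) (nat_lit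 0) (cs (rf (nat_lit 8)) (cs (rf (nat_lit 9)) (rf (nat_lit 10)))))))))) q24866 (by decide +kernel)
def q25039 : Q := Q.p (nat_lit 0x800002000000000018000000000000000000000000000000000000000000000000000) (nat_lit 0x100001e00017e0001f80077f800e7c003bf8007fc001ff0001f00002800000000000000000000000) (nat_lit 14)
theorem c25039 : QOK q25039 := cut [q24469, q24671, q18354, q24465, q23552, q2399, q5304, q1187, q15151, q24932, q24956, q24996, q25014, q25023, q25031, q3341, q3353, q3463, q24468, q25035, q24438, q20386] ⟨c24469, c24671, c18354, c24465, c23552, c2399, c5304, c1187, c15151, c24932, c24956, c24996, c25014, c25023, c25031, c3341, c3353, c3463, c24468, c25035, c24438, c20386, trivial⟩ (nd (nat_lit 206) (nat_lit 0) (cs (rf (nat_lit 0)) (cs (rf (nat_lit 1)) (cs (nd (nat_lit 205) (nat_lit 0) (cs (rf (nat_lit 2)) (cs (rf (nat_lit 3)) (cs (nd (nat_lit 226) (nat_lit 0) (cs (lf (nat_lit 10) (nat_lit 204)) (nd (nat_lit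 204) (nat_lit 0) (cs (lf (nat_lit 11) (nat_lit 203)) (nd (nat_lit 229) (nat_lit 0) (cs (lf (nat_lit 5) (nat_lit 204)) (nd (nat_lit 251) (nat_lit 0) (cs (rf (nat_lit 4)) (cs (nd (nat_lit 181) (nat_lit 0) (cs (lf (nat_lit 22) (nat_lit 181)) (nd (nat_lit 203) (nat_lit 0) (cs (lf (nat_lit 23) (nat_lit 180)) (nd (nat_lit 137) (nat_lit 0) (cs (nd (nat_lit 185) (nat_lit 0) (cs (lf (nat_lit 16) (nat_lit 181)) (rf (nat_lit 5)))) (lf (nat_lit 25) (nat_lit 137)))))))) (cs (nd (nat_lit 274) (nat_lit 0) (cs (nd (nat_lit 181) (nat_lit 0) (cs (lf (nat_lit 22) (nat_lit 181)) (nd (nat_lit 180) (nat_lit 0) (cs (lf (nat_lit 21) (nat_lit 180)) (nd (nat_lit 252) (nat_lit 0) (cs (lf (nat_lit 24) (nat_lit 185)) (rf (nat_lit 6)))))))) (cs (nd (nat_lit 181) (nat_lit 0) (cs (lf (nat_lit 22) (nat_lit 181)) (nd (nat_lit 180) (nat_lit 0) (cs (lf (nat_lit 21) (nat_lit 180)) (nd (nat_lit 273) (nat_lit 0) (cs (lf (nat_lit 29) (nat_lit 207))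 (nd (nat_lit 272) (nat_lit 0) (cs (lf (nat_lit 41) (nat_lit 206)) (nd (nat_lit 185) (nat_lit 0) (cs (lf (nat_lit 40) (nat_lit 184)) (lf (nat_lit 28) (nat_lit 185)))))))))))) (cs (nd (nat_lit 273) (nat_lit 0) (cs (lf (nat_lit 29) (nat_lit 207)) (nd (nat_lit 185) (nat_lit 0) (cs (lf (nat_lit 28) (nat_lit 185)) (nd (nat_lit 181) (nat_lit 0) (cs (lf (nat_lit 22) (nat_lit 181)) (nd (nat_lit 180) (nat_lit 0) (cs (lf (nat_lit 21) (nat_lit 180)) (nd (nat_lit 294) (nat_lit 0) (cs (lf (nat_lit 40) (nat_lit 206)) (nd (nat_lit 295) (nat_lit 0) (cs (lf (nat_lit 41) (nat_lit 228)) (lf (nat_lit 6) (nat_lit 272)))))))))))))) (nd (nat_lit 273) (nat_lit 0) (cs (lf (nat_lit 29) (nat_lit 207)) (rf (nat_lit 7)))))))) (nd (nat_lit 181) (nat_lit 0) (cs (lf (nat_lit 22) (nat_lit 181)) (nd (nat_lit 180) (nat_lit 0) (cs (lf (nat_lit 21) (nat_lit 180)) (nd (nat_lit 273) (nat_lit 0) (cs (lf (nat_lit 47) (nat_lit 184)) (rf (nat_lit 8))))))))))))))))))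 (cs (rf (nat_lit 9)) (rf (nat_lit 10))))))) (cs (rf (nat_lit 11)) (cs (rf (nat_lit 12)) (cs (rf (nat_lit 13)) (cs (rf (nat_lit 14)) (cs (nd (nat_lit 205) (nat_lit 0) (cs (rf (nat_lit 15)) (cs (rf (nat_lit 16)) (cs (rf (nat_lit 17)) (cs (rf (nat_lit 2)) (cs (rf (nat_lit 18)) (rf (nat_lit 19)))))))) (cs (nd (nat_lit 205) (nat_lit 0) (cs (rf (nat_lit 2)) (cs (rf (nat_lit 20)) (cs (rf (nat_lit 3)) (cs (rf (nat_lit 9)) (rf (nat_lit 10))))))) (nd (nat_lit 205) (nat_lit 0) (cs (rf (nat_lit 16)) (cs (rf (nat_lit 17)) (cs (rf (nat_lit 21)) (cs (rf (nat_lit 3)) (rf (nat_lit 19))))))))))))))))) q25039 (by decide +kernel)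
def q25465 : Q := Q.p (nat_lit 0xc00002000000000010000000000000000000000000000000000000000000000000000) (nat_lit 0x80000300003ff000ff8007ff00071c0019e000478000e80000a0000000000000000000000000000000000000000000000) (nat_lit 16)
theorem c25465 : QOK q25465 := cut [q13049, q13058, q13073, q13099, q13106, q13129, q25414, q25415, q13048, q13151, q25417, q25420, q22349, q1999, q25426, q25429, q25431, q25443, q20249, q13045, q13235, q25407, q25411, q25463] ⟨c13049, c13058, c13073, c13099, c13106, c13129, c25414, c25415, c13048, c13151, c25417, c25420, c22349, c1999, c25426, c25429, c25431, c25443, c20249, c13045, c13235, c25407, c25411, c25463, trivial⟩ (nd (nat_lit 318) (nat_lit 0) (cs (nd (nat_lit 319) (nat_lit 0) (cs (rf (nat_lit 0)) (cs (nd (nat_lit 320) (nat_lit 0) (cs (rf (nat_lit 1)) (cs (rf (nat_lit 2)) (cs (rf (nat_lit 3)) (cs (rf (nat_lit 4)) (cs (rf (nat_lit 5)) (cs (rf (nat_lit 6)) (rf (nat_lit 7)))))))))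 (cs (nd (nat_lit 297) (nat_lit 0) (cs (rf (nat_lit 8)) (cs (rf (nat_lit 9)) (rf (nat_lit 10))))) (cs (nd (nat_lit 297) (nat_lit 0) (cs (lf (nat_lit 41) (nat_lit 252)) (rf (nat_lit 10)))) (nd (nat_lit 340) (nat_lit 0) (cs (lf (nat_lit 38) (nat_lit 252)) (rf (nat_lit 11))))))))) (cs (nd (nat_lit 252) (nat_lit 0) (cs (rf (nat_lit 12)) (cs (nd (nat_lit 251) (nat_lit 0) (cs (rf (nat_lit 13)) (nd (nat_lit 296) (nat_lit 0) (cs (lf (nat_lit 47) (nat_lit 229)) (rf (nat_lit 14)))))) (cs (nd (nat_lit 297) (nat_lit 0) (cs (lf (nat_lit 25) (nat_lit 208)) (rf (nat_lit 15)))) (nd (nat_lit 251) (nat_lit 0) (cs (rf (nat_lit 13)) (cs (nd (nat_lit 296) (nat_lit 0) (cs (lf (nat_lit 47) (nat_lit 229)) (nd (nat_lit 297) (nat_lit 0) (cs (rf (nat_lit 15)) (cs (nd (nat_lit 276) (nat_lit 0) (cs (lf (nat_lit 18) (nat_lit 251)) (nd (nat_lit 295) (nat_lit 0) (cs (lf (nat_lit 12) (nat_lit 272)) (nd (nat_lit 317) (nat_lit 0) (cs (lf (nat_lit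 41) (nat_lit 251)) (rf (nat_lit 16)))))))) (cs (nd (nat_lit 276) (nat_lit 0) (cs (lf (nat_lit 18) (nat_lit 251)) (nd (nat_lit 295) (nat_lit 0) (cs (lf (nat_lit 12) (nat_lit 272)) (nd (nat_lit 319) (nat_lit 0) (cs (lf (nat_lit 29) (nat_lit 252)) (nd (nat_lit 320) (nat_lit 0) (cs (lf (nat_lit 29) (nat_lit 253)) (lf (nat_lit 18) (nat_lit 295)))))))))) (nd (nat_lit 319) (nat_lit 0) (cs (lf (nat_lit 29) (nat_lit 252)) (nd (nat_lit 276) (nat_lit 0) (cs (lf (nat_lit 18) (nat_lit 251)) (rf (nat_lit 17)))))))))))) (nd (nat_lit 250) (nat_lit 0) (cs (lf (nat_lit 0) (nat_lit 249)) (nd (nat_lit 272) (nat_lit 0) (cs (lf (nat_lit 11) (nat_lit 249)) (nd (nat_lit 228) (nat_lit 0) (cs (lf (nat_lit 23) (nat_lit 227)) (nd (nat_lit 229) (nat_lit 0) (cs (lf (nat_lit 43) (nat_lit 229)) (rf (nat_lit 18))))))))))))))))) (cs (nd (nat_lit 296) (nat_lit 0) (cs (lf (nat_lit 30) (nat_lit 252)) (nd (nat_lit 252) (nat_lit 0) (cs (rf (nat_lit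 19)) (nd (nat_lit 317) (nat_lit 0) (cs (lf (nat_lit 41) (nat_lit 251)) (nd (nat_lit 230) (nat_lit 0) (cs (lf (nat_lit 29) (nat_lit 208)) (lf (nat_lit 40) (nat_lit 229)))))))))) (cs (nd (nat_lit 296) (nat_lit 0) (cs (lf (nat_lit 30) (nat_lit 252)) (nd (nat_lit 252) (nat_lit 0) (cs (rf (nat_lit 19)) (rf (nat_lit 14)))))) (cs (nd (nat_lit 340) (nat_lit 0) (cs (lf (nat_lit 32) (nat_lit 252)) (nd (nat_lit 319) (nat_lit 0) (cs (lf (nat_lit 38) (nat_lit 252)) (rf (nat_lit 11)))))) (cs (nd (nat_lit 252) (nat_lit 0) (cs (rf (nat_lit 20)) (cs (rf (nat_lit 12)) (rf (nat_lit 21))))) (nd (nat_lit 252) (nat_lit 0) (cs (rf (nat_lit 12)) (cs (rf (nat_lit 21)) (cs (nd (nat_lit 296) (nat_lit 0) (cs (lf (nat_lit 30) (nat_lit 252)) (rf (nat_lit 22)))) (rf (nat_lit 23))))))))))))) q25465 (by decide +kernel)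
def q25559 : Q := Q.p (nat_lit 0x200000800003000000000000000000000000000000000000000000000000000000000000000) (nat_lit 0x140003ff000ff8007cf0000400000000000000000000000000000000000000000000000000000000000000000000) (nat_lit 12)
theorem c25559 : QOK q25559 := cut [q2611, q14454, q21908] ⟨c2611, c14454, c21908, trivial⟩ (nd (nat_lit 319) (nat_lit 0) (cs (rf (nat_lit 0)) (cs (rf (nat_lit 1)) (rf (nat_lit 2))))) q25559 (by decide +kernel)
def q26068 : Q := Q.p (nat_lit 0x200000800002000000000000000000000000000000000000000000000000000000000000000) (nat_lit 0x140003ff000ff8007cf0000400001000004000000000000000000000000000000000000000000000000000000000) (nat_lit 12)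
theorem c26068 : QOK q26068 := cut [q2613, q14454, q21909] ⟨c2613, c14454, c21909, trivial⟩ (nd (nat_lit 319) (nat_lit 0) (cs (rf (nat_lit 0)) (cs (rf (nat_lit 1)) (rf (nat_lit 2))))) q26068 (by decide +kernel)
def q27136 : Q := Q.p (nat_lit 0x800002000000000014000000000000000000000000000000000000000000000000000) (nat_lit 0x98000bf000efc0017f8001fc001ffe000bf0003fe003ff000ffc000f80003e00000000000000000000000) (nat_lit 17)
theorem c27136 : QOK q27136 := cut [q26446, q23758, q24370, q24431, q24438, q24376, q3997, q26449, q23759, q26462, q26469, q26472, q26628, q18354, q23522, q23523, q23681, q23698, q1038, q26810, q26853, q26890, q26940, q26968, q27133, q23721, q24463] ⟨c26446, c23758, c24370, c24431, c24438, c24376, c3997, c26449, c23759, c26462, c26469, c26472, c26628, c18354, c23522, c23523, c23681, c23698, c1038, c26810, c26853, c26890, c26940, c26968, c27133, c23721, c24463, trivial⟩ (nd (nat_lit 205) (nat_lit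 0) (cs (rf (nat_lit 0)) (cs (nd (nat_lit 207) (nat_lit 0) (cs (rf (nat_lit 1)) (cs (rf (nat_lit 2)) (cs (rf (nat_lit 3)) (cs (rf (nat_lit 4)) (nd (nat_lit 227) (nat_lit 0) (cs (lf (nat_lit 11) (nat_lit 204)) (nd (nat_lit 228) (nat_lit 0) (cs (rf (nat_lit 5)) (cs (nd (nat_lit 250) (nat_lit 0) (cs (rf (nat_lit 6)) (nd (nat_lit 230) (nat_lit 0) (cs (lf (nat_lit 5) (nat_lit 205)) (rf (nat_lit 7)))))) (cs (nd (nat_lit 250) (nat_lit 0) (cs (rf (nat_lit 6)) (nd (nat_lit 249) (nat_lit 0) (cs (rf (nat_lit 8)) (cs (nd (nat_lit 271) (nat_lit 0) (cs (lf (nat_lit 30) (nat_lit 205)) (nd (nat_lit 270) (nat_lit 0) (cs (lf (nat_lit 41) (nat_lit 204)) (nd (nat_lit 269) (nat_lit 0) (cs (lf (nat_lit 12) (nat_lit 246)) (nd (nat_lit 230) (nat_lit 0) (cs (lf (nat_lit 5) (nat_lit 205)) (nd (nat_lit 248) (nat_lit 0) (cs (lf (nat_lit 7) (nat_lit 226)) (lf (nat_lit 6) (nat_lit 247)))))))))))) (nd (nat_lit 230) (nat_lit 0) (cs (lf (nat_lit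 5) (nat_lit 205)) (nd (nat_lit 162) (nat_lit 0) (cs (lf (nat_lit 37) (nat_lit 161)) (nd (nat_lit 248) (nat_lit 0) (cs (lf (nat_lit 7) (nat_lit 226)) (rf (nat_lit 9))))))))))))) (cs (rf (nat_lit 10)) (rf (nat_lit 11)))))))))))))) (cs (rf (nat_lit 12)) (cs (nd (nat_lit 207) (nat_lit 0) (cs (rf (nat_lit 13)) (cs (rf (nat_lit 14)) (cs (rf (nat_lit 15)) (nd (nat_lit 227) (nat_lit 0) (cs (lf (nat_lit 11) (nat_lit 204)) (nd (nat_lit 249) (nat_lit 0) (cs (rf (nat_lit 16)) (cs (rf (nat_lit 17)) (nd (nat_lit 230) (nat_lit 0) (cs (lf (nat_lit 5) (nat_lit 205)) (nd (nat_lit 271) (nat_lit 0) (cs (lf (nat_lit 35) (nat_lit 183)) (nd (nat_lit 272) (nat_lit 0) (cs (lf (nat_lit 29) (nat_lit 205)) (nd (nat_lit 292) (nat_lit 0) (cs (lf (nat_lit 40) (nat_lit 204)) (nd (nat_lit 293) (nat_lit 0) (cs (lf (nat_lit 41) (nat_lit 226)) (nd (nat_lit 274) (nat_lit 0) (cs (rf (nat_lit 18)) (lf (nat_lit 7) (nat_lit 270)))))))))))))))))))))))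 (cs (rf (nat_lit 19)) (cs (rf (nat_lit 20)) (cs (rf (nat_lit 21)) (cs (rf (nat_lit 22)) (cs (rf (nat_lit 23)) (cs (rf (nat_lit 24)) (cs (nd (nat_lit 207) (nat_lit 0) (cs (rf (nat_lit 13)) (cs (rf (nat_lit 14)) (cs (rf (nat_lit 15)) (rf (nat_lit 25)))))) (nd (nat_lit 207) (nat_lit 0) (cs (rf (nat_lit 13)) (cs (rf (nat_lit 14)) (cs (rf (nat_lit 15)) (rf (nat_lit 26)))))))))))))))))) q27136 (by decide +kernel)
def q27548 : Q := Q.p (nat_lit 0x800002000000000014000000000000000000000000000000000000000000000000000) (nat_lit 0x220000fc0017f0001fe0077f000ebe003bf8007fe001ff0003fc000380000e000020000000000000) (nat_lit 17)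
theorem c27548 : QOK q27548 := cut [q6790, q23923, q24929, q25013, q27345, q27405, q21504, q27416, q27418, q1273, q27403, q27422, q27438, q3826, q23942, q3828, q3321, q4164, q27449, q864, q23941, q27497, q1271, q27501, q27504, q2659, q3858, q13616, q27341, q27342, q1279, q27509, q27546, q12505, q27138, q24666, q24961, q898] ⟨c6790, c23923, c24929, c25013, c27345, c27405, c21504, c27416, c27418, c1273, c27403, c27422, c27438, c3826, c23942, c3828, c3321, c4164, c27449, c864, c23941, c27497, c1271, c27501, c27504, c2659, c3858, c13616, c27341, c27342, c1279, c27509, c27546, c12505, c27138, c24666, c24961, c898, trivial⟩ (nd (nat_lit 184) (nat_lit 0) (cs (nd (nat_lit 207) (nat_lit 0) (cs (rf (nat_lit 0)) (cs (rf (nat_lit 1)) (cs (rf (nat_lit 2)) (rf (nat_lit 3)))))) (cs (rf (nat_lit 4)) (cs (rf (nat_lit 5)) (cs (nd (nat_lit 228) (nat_lit 0) (cs (rf (nat_lit 6)) (cs (rf (nat_lit 7)) (cs (rf (nat_lit 8)) (nd (nat_lit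 162) (nat_lit 0) (cs (rf (nat_lit 9)) (cs (rf (nat_lit 10)) (rf (nat_lit 11))))))))) (cs (rf (nat_lit 12)) (cs (nd (nat_lit 207) (nat_lit 0) (cs (rf (nat_lit 13)) (cs (rf (nat_lit 14)) (cs (rf (nat_lit 2)) (nd (nat_lit 228) (nat_lit 0) (cs (rf (nat_lit 15)) (cs (rf (nat_lit 7)) (cs (rf (nat_lit 8)) (nd (nat_lit 209) (nat_lit 0) (cs (lf (nat_lit 11) (nat_lit 205)) (nd (nat_lit 187) (nat_lit 0) (cs (lf (nat_lit 17) (nat_lit 184)) (rf (nat_lit 16)))))))))))))) (cs (nd (nat_lit 207) (nat_lit 0) (cs (rf (nat_lit 0)) (cs (rf (nat_lit 1)) (cs (rf (nat_lit 2)) (nd (nat_lit 228) (nat_lit 0) (cs (rf (nat_lit 17)) (cs (rf (nat_lit 18)) (nd (nat_lit 162) (nat_lit 0) (cs (rf (nat_lit 19)) (cs (rf (nat_lit 20)) (rf (nat_lit 11)))))))))))) (cs (rf (nat_lit 21)) (cs (nd (nat_lit 207) (nat_lit 0) (cs (rf (nat_lit 0)) (cs (rf (nat_lit 2)) (cs (nd (nat_lit 228) (nat_lit 0) (cs (rf (nat_lit 17)) (nd (nat_lit 163) (nat_lit 0) (cs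 (nd (nat_lit 141) (nat_lit 0) (cs (lf (nat_lit 33) (nat_lit 140)) (lf (nat_lit 38) (nat_lit 140)))) (cs (nd (nat_lit 162) (nat_lit 0) (cs (lf (nat_lit 35) (nat_lit 140)) (nd (nat_lit 140) (nat_lit 0) (cs (lf (nat_lit 29) (nat_lit 140)) (rf (nat_lit 22)))))) (rf (nat_lit 23))))))) (rf (nat_lit 24)))))) (cs (nd (nat_lit 207) (nat_lit 0) (cs (rf (nat_lit 0)) (cs (rf (nat_lit 1)) (cs (rf (nat_lit 2)) (nd (nat_lit 228) (nat_lit 0) (cs (rf (nat_lit 17)) (cs (rf (nat_lit 18)) (nd (nat_lit 227) (nat_lit 0) (cs (rf (nat_lit 25)) (rf (nat_lit 26))))))))))) (cs (nd (nat_lit 183) (nat_lit 0) (cs (rf (nat_lit 27)) (cs (rf (nat_lit 28)) (cs (rf (nat_lit 29)) (nd (nat_lit 228) (nat_lit 0) (cs (rf (nat_lit 30)) (cs (rf (nat_lit 8)) (rf (nat_lit 31))))))))) (cs (rf (nat_lit 32)) (nd (nat_lit 207) (nat_lit 0) (cs (rf (nat_lit 0)) (cs (rf (nat_lit 2)) (cs (nd (nat_lit 229) (nat_lit 0) (cs (rf (nat_lit 33)) (cs (rf (nat_lit 34))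 (nd (nat_lit 227) (nat_lit 0) (cs (rf (nat_lit 35)) (cs (rf (nat_lit 36)) (nd (nat_lit 205) (nat_lit 0) (cs (lf (nat_lit 11) (nat_lit 204)) (nd (nat_lit 204) (nat_lit 0) (cs (lf (nat_lit 5) (nat_lit 204)) (nd (nat_lit 203) (nat_lit 0) (cs (rf (nat_lit 37)) (lf (nat_lit 17) (nat_lit 181)))))))))))))) (rf (nat_lit 24))))))))))))))))))) q27548 (by decide +kernel)
def q27943 : Q := Q.p (nat_lit 0x800002000000000014000000000000000000000000000000000000000000000000000) (nat_lit 0xa00002e00007f0001f8007ff000ebc003bf8003fc001ff0001f00002800000000000000000000000) (nat_lit 17)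
theorem c27943 : QOK q27943 := cut [q1225, q24671, q1414, q24320, q24933, q24956, q27907, q684, q22368, q25022, q1496, q3392, q27910, q1418, q24666, q27920, q1417, q24468, q1140, q1411, q4030, q4164, q4134, q1273, q3383, q4115, q4109, q4127, q4142, q18594, q1156, q4032, q10643, q2356, q4172] ⟨c1225, c24671, c1414, c24320, c24933, c24956, c27907, c684, c22368, c25022, c1496, c3392, c27910, c1418, c24666, c27920, c1417, c24468, c1140, c1411, c4030, c4164, c4134, c1273, c3383, c4115, c4109, c4127, c4142, c18594, c1156, c4032, c10643, c2356, c4172, trivial⟩ (nd (nat_lit 230) (nat_lit 0) (cs (rf (nat_lit 0)) (cs (nd (nat_lit 207) (nat_lit 0) (cs (rf (nat_lit 1)) (cs (nd (nat_lit 205) (nat_lit 0) (cs (rf (nat_lit 2)) (cs (rf (nat_lit 3)) (cs (rf (nat_lit 4)) (rf (nat_lit 5)))))) (cs (rf (nat_lit 6)) (cs (nd (nat_lit 209) (nat_lit 0) (cs (rf (nat_lit 7)) (cs (rf (nat_lit 8)) (cs (rf (nat_lit 9)) (nd (nat_lit 228) (nat_lit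 0) (cs (lf (nat_lit 11) (nat_lit 205)) (nd (nat_lit 250) (nat_lit 0) (cs (rf (nat_lit 10)) (cs (rf (nat_lit 11)) (nd (nat_lit 184) (nat_lit 0) (cs (lf (nat_lit 23) (nat_lit 183)) (nd (nat_lit 187) (nat_lit 0) (cs (lf (nat_lit 17) (nat_lit 184)) (nd (nat_lit 143) (nat_lit 0) (cs (lf (nat_lit 37) (nat_lit 142)) (nd (nat_lit 252) (nat_lit 0) (cs (lf (nat_lit 30) (nat_lit 186)) (nd (nat_lit 297) (nat_lit 0) (cs (lf (nat_lit 42) (nat_lit 230)) (rf (nat_lit 12))))))))))))))))))))) (cs (nd (nat_lit 227) (nat_lit 0) (cs (rf (nat_lit 13)) (cs (rf (nat_lit 14)) (nd (nat_lit 209) (nat_lit 0) (cs (lf (nat_lit 10) (nat_lit 205)) (nd (nat_lit 188) (nat_lit 0) (cs (lf (nat_lit 16) (nat_lit 184)) (rf (nat_lit 15))))))))) (cs (nd (nat_lit 205) (nat_lit 0) (cs (rf (nat_lit 2)) (cs (rf (nat_lit 16)) (rf (nat_lit 17))))) (nd (nat_lit 252) (nat_lit 0) (cs (rf (nat_lit 18)) (cs (rf (nat_lit 19)) (nd (nat_lit 228) (nat_lit 0) (cs (rf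 (nat_lit 20)) (cs (rf (nat_lit 21)) (nd (nat_lit 250) (nat_lit 0) (cs (rf (nat_lit 11)) (cs (nd (nat_lit 319) (nat_lit 0) (cs (lf (nat_lit 43) (nat_lit 230)) (nd (nat_lit 184) (nat_lit 0) (cs (rf (nat_lit 22)) (cs (rf (nat_lit 12)) (cs (nd (nat_lit 162) (nat_lit 0) (cs (rf (nat_lit 23)) (cs (rf (nat_lit 24)) (cs (rf (nat_lit 25)) (nd (nat_lit 251) (nat_lit 0) (cs (lf (nat_lit 29) (nat_lit 184)) (rf (nat_lit 26)))))))) (nd (nat_lit 251) (nat_lit 0) (cs (lf (nat_lit 29) (nat_lit 184)) (rf (nat_lit 27)))))))))) (nd (nat_lit 272) (nat_lit 0) (cs (rf (nat_lit 28)) (rf (nat_lit 29)))))))))))))))))))) (cs (nd (nat_lit 207) (nat_lit 0) (cs (rf (nat_lit 30)) (cs (rf (nat_lit 31)) (cs (rf (nat_lit 1)) (nd (nat_lit 209) (nat_lit 0) (cs (rf (nat_lit 32)) (cs (rf (nat_lit 8)) (nd (nat_lit 183) (nat_lit 0) (cs (lf (nat_lit 22) (nat_lit 183)) (nd (nat_lit 231) (nat_lit 0) (cs (lf (nat_lit 5) (nat_lit 206)) (nd (nat_lit 227)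 (nat_lit 0) (cs (lf (nat_lit 10) (nat_lit 205)) (rf (nat_lit 33))))))))))))))) (nd (nat_lit 231) (nat_lit 0) (cs (lf (nat_lit 42) (nat_lit 208)) (nd (nat_lit 207) (nat_lit 0) (cs (lf (nat_lit 0) (nat_lit 205)) (rf (nat_lit 34)))))))))) q27943 (by decide +kernel)
def q31176 : Q := Q.p (nat_lit 0x40000000000200000800002000000000010000000000000000000000000000000000000000000000000000) (nat_lit 0x20001fa001ffc007ff801ffe00fff801fbe00ff7c03fde00ff3c00f94003f1000be0000100000000000000000000000000000000000000000000000) (nat_lit 16)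
theorem c31176 : QOK q31176 := cut [q28369, q28715, q28912, q29095, q29131, q29496, q29787, q29878, q29950, q29999, q15042, q28785, q29955, q28335, q28338, q27991, q30001, q27970, q28343, q30006, q28908, q30432, q30530, q30573, q11848, q29427, q30574, q30585, q30593, q30598, q30618, q30624, q30695, q30696, q28098, q28714, q29093, q29948, q30698, q30710, q30711, q28037, q28067, q13298, q30948, q30971, q30984, q31159, q30888, q31175] ⟨c28369, c28715, c28912, c29095, c29131, c29496, c29787, c29878, c29950, c29999, c15042, c28785, c29955, c28335, c28338, c27991, c30001, c27970, c28343, c30006, c28908, c30432, c30530, c30573, c11848, c29427, c30574, c30585, c30593, c30598, c30618, c30624, c30695, c30696, c28098, c28714, c29093, c29948, c30698, c30710, c30711, c28037, c28067, c13298, c30948, c30971, c30984, c31159, c30888, c31175, trivial⟩ (nd (nat_lit 343) (nat_lit 0) (cs (rf (nat_lit 0)) (cs (rf (nat_lit 1)) (cs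 (rf (nat_lit 2)) (cs (rf (nat_lit 3)) (cs (rf (nat_lit 4)) (cs (rf (nat_lit 5)) (cs (rf (nat_lit 6)) (cs (rf (nat_lit 7)) (cs (rf (nat_lit 8)) (cs (rf (nat_lit 9)) (cs (nd (nat_lit 298) (nat_lit 0) (cs (rf (nat_lit 10)) (cs (rf (nat_lit 11)) (cs (rf (nat_lit 12)) (nd (nat_lit 364) (nat_lit 0) (cs (lf (nat_lit 44) (nat_lit 275)) (nd (nat_lit 344) (nat_lit 0) (cs (rf (nat_lit 13)) (cs (rf (nat_lit 14)) (nd (nat_lit 322) (nat_lit 0) (cs (rf (nat_lit 15)) (cs (nd (nat_lit 323) (nat_lit 0) (cs (lf (nat_lit 12) (nat_lit 319)) (nd (nat_lit 324) (nat_lit 0) (cs (lf (nat_lit 6) (nat_lit 321)) (nd (nat_lit 300) (nat_lit 0) (cs (lf (nat_lit 2) (nat_lit 297)) (nd (nat_lit 278) (nat_lit 0) (cs (lf (nat_lit 41) (nat_lit 277)) (rf (nat_lit 16)))))))))) (cs (nd (nat_lit 299) (nat_lit 0) (cs (rf (nat_lit 17)) (cs (nd (nat_lit 366) (nat_lit 0) (cs (rf (nat_lit 18)) (rf (nat_lit 19)))) (nd (nat_lit 321) (nat_lit 0) (cs (lf (nat_lit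 0) (nat_lit 296)) (rf (nat_lit 20))))))) (nd (nat_lit 299) (nat_lit 0) (cs (rf (nat_lit 17)) (nd (nat_lit 300) (nat_lit 0) (cs (lf (nat_lit 5) (nat_lit 297)) (nd (nat_lit 278) (nat_lit 0) (cs (lf (nat_lit 17) (nat_lit 275)) (lf (nat_lit 41) (nat_lit 277))))))))))))))))))))) (cs (rf (nat_lit 21)) (cs (rf (nat_lit 22)) (cs (rf (nat_lit 23)) (cs (nd (nat_lit 320) (nat_lit 0) (cs (rf (nat_lit 24)) (cs (nd (nat_lit 321) (nat_lit 0) (cs (rf (nat_lit 25)) (cs (nd (nat_lit 277) (nat_lit 0) (cs (rf (nat_lit 26)) (cs (nd (nat_lit 299) (nat_lit 0) (cs (lf (nat_lit 36) (nat_lit 254)) (nd (nat_lit 344) (nat_lit 0) (cs (lf (nat_lit 29) (nat_lit 277)) (nd (nat_lit 278) (nat_lit 0) (cs (lf (nat_lit 35) (nat_lit 255)) (nd (nat_lit 300) (nat_lit 0) (cs (lf (nat_lit 30) (nat_lit 277)) (nd (nat_lit 301) (nat_lit 0) (cs (lf (nat_lit 6) (nat_lit 298)) (nd (nat_lit 345) (nat_lit 0) (cs (lf (nat_lit 18) (nat_lit 320)) (nd (nat_lit 323)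 (nat_lit 0) (cs (lf (nat_lit 17) (nat_lit 320)) (lf (nat_lit 42) (nat_lit 278)))))))))))))))) (rf (nat_lit 27))))) (cs (rf (nat_lit 28)) (cs (rf (nat_lit 29)) (cs (rf (nat_lit 30)) (rf (nat_lit 31)))))))) (cs (rf (nat_lit 32)) (rf (nat_lit 33)))))) (cs (nd (nat_lit 344) (nat_lit 0) (cs (rf (nat_lit 34)) (cs (rf (nat_lit 35)) (cs (rf (nat_lit 36)) (cs (rf (nat_lit 37)) (cs (rf (nat_lit 38)) (cs (rf (nat_lit 39)) (cs (rf (nat_lit 40)) (nd (nat_lit 323) (nat_lit 0) (cs (rf (nat_lit 41)) (cs (rf (nat_lit 42)) (nd (nat_lit 341) (nat_lit 0) (cs (lf (nat_lit 16) (nat_lit 319)) (nd (nat_lit 362) (nat_lit 0) (cs (lf (nat_lit 10) (nat_lit 340)) (nd (nat_lit 340) (nat_lit 0) (cs (lf (nat_lit 11) (nat_lit 339)) (nd (nat_lit 317) (nat_lit 0) (cs (lf (nat_lit 22) (nat_lit 317)) (nd (nat_lit 339) (nat_lit 0) (cs (lf (nat_lit 23) (nat_lit 316)) (rf (nat_lit 43))))))))))))))))))))))) (cs (rf (nat_lit 44)) (cs (rf (nat_lit 45))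 (cs (rf (nat_lit 46)) (cs (rf (nat_lit 47)) (cs (nd (nat_lit 320) (nat_lit 0) (cs (rf (nat_lit 24)) (cs (rf (nat_lit 32)) (cs (rf (nat_lit 33)) (nd (nat_lit 321) (nat_lit 0) (cs (rf (nat_lit 25)) (cs (rf (nat_lit 28)) (cs (rf (nat_lit 29)) (cs (rf (nat_lit 30)) (cs (rf (nat_lit 31)) (rf (nat_lit 48)))))))))))) (rf (nat_lit 49)))))))))))))))))))))))) q31176 (by decide +kernel)
def q33116 : Q := Q.p (nat_lit 0x2000000000010000040000140000000000000000000000000000000000000000) (nat_lit 0x80000380001e00003e001cf8003be001e80003fc0001e0000f80003c0000f0000140000000) (nat_lit 13)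
theorem c33116 : QOK q33116 := cut [q4880, q33069, q527, q32527, q2882, q32608, q32595, q33054, q4911, q33090, q2879, q33079, q33094, q33115] ⟨c4880, c33069, c527, c32527, c2882, c32608, c32595, c33054, c4911, c33090, c2879, c33079, c33094, c33115, trivial⟩ (nd (nat_lit 207) (nat_lit 0) (cs (rf (nat_lit 0)) (cs (rf (nat_lit 1)) (cs (nd (nat_lit 206) (nat_lit 0) (cs (rf (nat_lit 2)) (cs (rf (nat_lit 3)) (cs (nd (nat_lit 141) (nat_lit 0) (cs (rf (nat_lit 4)) (cs (rf (nat_lit 5)) (cs (nd (nat_lit 142) (nat_lit 0) (cs (lf (nat_lit 47) (nat_lit 119)) (nd (nat_lit 165) (nat_lit 0) (cs (rf (nat_lit 6)) (cs (nd (nat_lit 120) (nat_lit 0) (cs (lf (nat_lit 40) (nat_lit 119)) (rf (nat_lit 7)))) (nd (nat_lit 139) (nat_lit 0) (cs (lf (nat_lit 1) (nat_lit 139)) (nd (nat_lit 166) (nat_lit 0) (cs (lf (nat_lit 18) (nat_lit 141)) (nd (nat_lit 120) (nat_lit 0) (cs (lf (nat_lit 40) (nat_lit 119)) (nd (nat_lit 98) (nat_lit 0) (cs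 (rf (nat_lit 8)) (lf (nat_lit 29) (nat_lit 98))))))))))))))) (cs (rf (nat_lit 9)) (nd (nat_lit 163) (nat_lit 0) (cs (rf (nat_lit 10)) (rf (nat_lit 11))))))))) (rf (nat_lit 12)))))) (rf (nat_lit 13)))))) q33116 (by decide +kernel)
def q33480 : Q := Q.p (nat_lit 0x2000000000010000040000140000000000000000000000000000000000000000) (nat_lit 0x80000380001e00003e001cf8003be001e80003fc0003f0000780001c000070000140000000) (nat_lit 12)
theorem c33480 : QOK q33480 := cut [q4880, q33069, q33115, q527, q32527, q33094, q2882, q32578, q32608, q33090, q33465, q33466, q33468] ⟨c4880, c33069, c33115, c527, c32527, c33094, c2882, c32578, c32608, c33090, c33465, c33466, c33468, trivial⟩ (nd (nat_lit 207) (nat_lit 0) (cs (rf (nat_lit 0)) (cs (rf (nat_lit 1)) (cs (rf (nat_lit 2)) (nd (nat_lit 206) (nat_lit 0) (cs (rf (nat_lit 3)) (cs (rf (nat_lit 4)) (cs (rf (nat_lit 5)) (nd (nat_lit 141) (nat_lit 0) (cs (rf (nat_lit 6)) (cs (rf (nat_lit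 7)) (cs (rf (nat_lit 8)) (cs (rf (nat_lit 9)) (nd (nat_lit 140) (nat_lit 0) (cs (nd (nat_lit 119) (nat_lit 0) (cs (lf (nat_lit 45) (nat_lit 119)) (lf (nat_lit 31) (nat_lit 118)))) (cs (nd (nat_lit 142) (nat_lit 0) (cs (rf (nat_lit 10)) (cs (nd (nat_lit 139) (nat_lit 0) (cs (lf (nat_lit 5) (nat_lit 139)) (rf (nat_lit 11)))) (nd (nat_lit 120) (nat_lit 0) (cs (lf (nat_lit 40) (nat_lit 119)) (nd (nat_lit 143) (nat_lit 0) (cs (lf (nat_lit 35) (nat_lit 120)) (nd (nat_lit 165) (nat_lit 0) (cs (lf (nat_lit 5) (nat_lit 140)) (rf (nat_lit 12))))))))))) (cs (nd (nat_lit 184) (nat_lit 0) (cs (lf (nat_lit 35) (nat_lit 118)) (nd (nat_lit 117) (nat_lit 0) (cs (lf (nat_lit 46) (nat_lit 117)) (nd (nat_lit 118) (nat_lit 0) (cs (lf (nat_lit 28) (nat_lit 118)) (lf (nat_lit 47) (nat_lit 95)))))))) (nd (nat_lit 142) (nat_lit 0) (cs (lf (nat_lit 47) (nat_lit 119)) (rf (nat_lit 10))))))))))))))))))))) q33480 (by decide +kernel)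
def q34405 : Q := Q.p (nat_lit 0x10000040000040000500000000000000000000000000000000000) (nat_lit 0xc0002f0000ff000af80033f0072fc01fff00fff0007fc000ff0000e8000280) (nat_lit 15)
theorem c34405 : QOK q34405 := cut [q34008, q34067, q34187, q34259, q24124, q33653, q33680, q34262, q34265, q33778, q34279, q33980, q33984, q34013, q33781, q34023, q34322, q34347, q34025, q32972, q34015, q34366, q34007, q34368, q34402, q34191] ⟨c34008, c34067, c34187, c34259, c24124, c33653, c33680, c34262, c34265, c33778, c34279, c33980, c33984, c34013, c33781, c34023, c34322, c34347, c34025, c32972, c34015, c34366, c34007, c34368, c34402, c34191, trivial⟩ (nd (nat_lit 118) (nat_lit 0) (cs (rf (nat_lit 0)) (cs (rf (nat_lit 1)) (cs (rf (nat_lit 2)) (cs (rf (nat_lit 3)) (cs (nd (nat_lit 96) (nat_lit 0) (cs (rf (nat_lit 4)) (cs (rf (nat_lit 5)) (cs (rf (nat_lit 6)) (nd (nat_lit 97) (nat_lit 0) (cs (lf (nat_lit 35) (nat_lit 74)) (nd (nat_lit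 116) (nat_lit 0) (cs (rf (nat_lit 7)) (cs (nd (nat_lit 161) (nat_lit 0) (cs (lf (nat_lit 41) (nat_lit 95)) (rf (nat_lit 8)))) (cs (nd (nat_lit 161) (nat_lit 0) (cs (lf (nat_lit 41) (nat_lit 95)) (nd (nat_lit 95) (nat_lit 0) (cs (lf (nat_lit 47) (nat_lit 73)) (nd (nat_lit 98) (nat_lit 0) (cs (lf (nat_lit 10) (nat_lit 94)) (nd (nat_lit 77) (nat_lit 0) (cs (nd (nat_lit 99) (nat_lit 0) (cs (lf (nat_lit 17) (nat_lit 74)) (nd (nat_lit 121) (nat_lit 0) (cs (lf (nat_lit 5) (nat_lit 96)) (nd (nat_lit 119) (nat_lit 0) (cs (lf (nat_lit 6) (nat_lit 96)) (nd (nat_lit 93) (nat_lit 0) (cs (lf (nat_lit 1) (nat_lit 93)) (rf (nat_lit 9)))))))))) (lf (nat_lit 16) (nat_lit 73)))))))))) (rf (nat_lit 10)))))))))))) (cs (nd (nat_lit 119) (nat_lit 0) (cs (rf (nat_lit 11)) (cs (rf (nat_lit 12)) (cs (rf (nat_lit 13)) (cs (nd (nat_lit 96) (nat_lit 0) (cs (rf (nat_lit 6)) (cs (nd (nat_lit 141) (nat_lit 0) (cs (lf (nat_lit 44) (nat_lit 119))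 (nd (nat_lit 116) (nat_lit 0) (cs (lf (nat_lit 1) (nat_lit 116)) (nd (nat_lit 75) (nat_lit 0) (cs (lf (nat_lit 37) (nat_lit 74)) (rf (nat_lit 14)))))))) (cs (rf (nat_lit 15)) (nd (nat_lit 141) (nat_lit 0) (cs (lf (nat_lit 44) (nat_lit 119)) (nd (nat_lit 116) (nat_lit 0) (cs (lf (nat_lit 1) (nat_lit 116)) (nd (nat_lit 52) (nat_lit 0) (cs (rf (nat_lit 14)) (lf (nat_lit 25) (nat_lit 52)))))))))))) (rf (nat_lit 16))))))) (cs (rf (nat_lit 17)) (cs (nd (nat_lit 119) (nat_lit 0) (cs (rf (nat_lit 11)) (cs (rf (nat_lit 12)) (cs (nd (nat_lit 96) (nat_lit 0) (cs (rf (nat_lit 4)) (cs (rf (nat_lit 15)) (cs (rf (nat_lit 18)) (nd (nat_lit 97) (nat_lit 0) (cs (rf (nat_lit 19)) (nd (nat_lit 141) (nat_lit 0) (cs (lf (nat_lit 44) (nat_lit 119)) (nd (nat_lit 116) (nat_lit 0) (cs (lf (nat_lit 1) (nat_lit 116)) (rf (nat_lit 20)))))))))))) (rf (nat_lit 21)))))) (cs (nd (nat_lit 119) (nat_lit 0) (cs (rf (nat_lit 11)) (cs (rf (nat_lit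 12)) (cs (rf (nat_lit 22)) (cs (rf (nat_lit 13)) (nd (nat_lit 141) (nat_lit 0) (cs (lf (nat_lit 44) (nat_lit 119)) (nd (nat_lit 139) (nat_lit 0) (cs (rf (nat_lit 23)) (nd (nat_lit 116) (nat_lit 0) (cs (lf (nat_lit 22) (nat_lit 116)) (nd (nat_lit 138) (nat_lit 0) (cs (lf (nat_lit 23) (nat_lit 115)) (lf (nat_lit 12) (nat_lit 115))))))))))))))) (cs (rf (nat_lit 24)) (nd (nat_lit 96) (nat_lit 0) (cs (rf (nat_lit 4)) (cs (rf (nat_lit 5)) (cs (rf (nat_lit 6)) (nd (nat_lit 119) (nat_lit 0) (cs (nd (nat_lit 161) (nat_lit 0) (cs (lf (nat_lit 41) (nat_lit 95)) (nd (nat_lit 73) (nat_lit 0) (cs (lf (nat_lit 46) (nat_lit 73)) (rf (nat_lit 9)))))) (cs (nd (nat_lit 164) (nat_lit 0) (cs (lf (nat_lit 46) (nat_lit 119)) (nd (nat_lit 97) (nat_lit 0) (cs (lf (nat_lit 35) (nat_lit 74)) (lf (nat_lit 45) (nat_lit 97)))))) (rf (nat_lit 25)))))))))))))))))))) q34405 (by decide +kernel)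
def q35563 : Q := Q.p (nat_lit 0x10000040000140000000000000000000000000000000000000000) (nat_lit 0x7ae000eb0007be000280000a000000000000000000000000) (nat_lit 10)
theorem c35563 : QOK q35563 := cut [q3803, q32056, q35557, q35562] ⟨c3803, c32056, c35557, c35562, trivial⟩ (nd (nat_lit 163) (nat_lit 0) (cs (rf (nat_lit 0)) (cs (rf (nat_lit 1)) (cs (rf (nat_lit 2)) (rf (nat_lit 3)))))) q35563 (by decide +kernel)
def q37205 : Q := Q.p (nat_lit 0x2000000000010000040000040000000000000000000000000000000000000000) (nat_lit 0x540003f0001fc0003f801cfe00f9f803fbe00fff807ffe00fff801ffe001ff0007f4001680) (nat_lit 17)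
theorem c37205 : QOK q37205 := cut [q35648, q32589, q35639, q9072, q34454, q35660, q35663, q35670, q35671, q36003, q36503, q35613, q36703, q36705, q615, q11202, q35595, q32272, q36791, q36908, q36998, q37019, q37073, q37087, q18163, q37154, q36702, q36954, q37157, q36504, q6164, q556, q36078, q35631, q32368, q32490, q32747, q35605, q32365, q37168, q33045, q37006, q37187, q37204] ⟨c35648, c32589, c35639, c9072, c34454, c35660, c35663, c35670, c35671, c36003, c36503, c35613, c36703, c36705, c615, c11202, c35595, c32272, c36791, c36908, c36998, c37019, c37073, c37087, c18163, c37154, c36702, c36954, c37157, c36504, c6164, c556, c36078, c35631, c32368, c32490, c32747, c35605, c32365, c37168, c33045, c37006, c37187, c37204, trivial⟩ (nd (nat_lit 142) (nat_lit 0) (cs (nd (nat_lit 143) (nat_lit 0) (cs (rf (nat_lit 0)) (cs (nd (nat_lit 141) (nat_lit 0) (cs (rf (nat_lit 1)) (cs (rf (nat_lit 2)) (cs (nd (nat_lit 119) (nat_lit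 0) (cs (lf (nat_lit 44) (nat_lit 119)) (nd (nat_lit 140) (nat_lit 0) (cs (lf (nat_lit 11) (nat_lit 139)) (rf (nat_lit 3)))))) (nd (nat_lit 140) (nat_lit 0) (cs (lf (nat_lit 11) (nat_lit 139)) (nd (nat_lit 117) (nat_lit 0) (cs (lf (nat_lit 22) (nat_lit 117)) (nd (nat_lit 116) (nat_lit 0) (cs (lf (nat_lit 21) (nat_lit 116)) (nd (nat_lit 166) (nat_lit 0) (cs (lf (nat_lit 4) (nat_lit 140)) (nd (nat_lit 119) (nat_lit 0) (cs (lf (nat_lit 44) (nat_lit 119)) (nd (nat_lit 184) (nat_lit 0) (cs (lf (nat_lit 30) (nat_lit 118)) (nd (nat_lit 75) (nat_lit 0) (cs (lf (nat_lit 37) (nat_lit 74)) (nd (nat_lit 144) (nat_lit 0) (cs (lf (nat_lit 5) (nat_lit 141)) (rf (nat_lit 4)))))))))))))))))))))) (cs (rf (nat_lit 5)) (cs (rf (nat_lit 6)) (cs (rf (nat_lit 7)) (rf (nat_lit 8)))))))) (cs (rf (nat_lit 9)) (cs (rf (nat_lit 10)) (cs (nd (nat_lit 164) (nat_lit 0) (cs (rf (nat_lit 11)) (cs (rf (nat_lit 12)) (cs (rf (nat_lit 13)) (cs (nd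 (nat_lit 120) (nat_lit 0) (cs (rf (nat_lit 14)) (cs (rf (nat_lit 15)) (cs (rf (nat_lit 16)) (nd (nat_lit 207) (nat_lit 0) (cs (lf (nat_lit 41) (nat_lit 141)) (rf (nat_lit 17)))))))) (rf (nat_lit 18))))))) (cs (rf (nat_lit 19)) (cs (rf (nat_lit 20)) (cs (rf (nat_lit 21)) (cs (rf (nat_lit 22)) (cs (rf (nat_lit 23)) (cs (nd (nat_lit 164) (nat_lit 0) (cs (rf (nat_lit 24)) (cs (rf (nat_lit 11)) (cs (rf (nat_lit 25)) (nd (nat_lit 161) (nat_lit 0) (cs (rf (nat_lit 26)) (cs (rf (nat_lit 27)) (cs (nd (nat_lit 207) (nat_lit 0) (cs (lf (nat_lit 41) (nat_lit 141)) (rf (nat_lit 28)))) (cs (nd (nat_lit 119) (nat_lit 0) (cs (lf (nat_lit 46) (nat_lit 119)) (nd (nat_lit 97) (nat_lit 0) (cs (lf (nat_lit 45) (nat_lit 97)) (nd (nat_lit 163) (nat_lit 0) (cs (lf (nat_lit 17) (nat_lit 139)) (nd (nat_lit 207) (nat_lit 0) (cs (lf (nat_lit 41) (nat_lit 141)) (rf (nat_lit 29)))))))))) (nd (nat_lit 207) (nat_lit 0) (cs (lf (nat_lit 41)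 (nat_lit 141)) (nd (nat_lit 143) (nat_lit 0) (cs (rf (nat_lit 30)) (lf (nat_lit 14) (nat_lit 139))))))))))))))) (cs (nd (nat_lit 164) (nat_lit 0) (cs (rf (nat_lit 24)) (cs (rf (nat_lit 11)) (cs (nd (nat_lit 120) (nat_lit 0) (cs (rf (nat_lit 31)) (cs (rf (nat_lit 15)) (cs (rf (nat_lit 32)) (nd (nat_lit 141) (nat_lit 0) (cs (lf (nat_lit 47) (nat_lit 119)) (nd (nat_lit 207) (nat_lit 0) (cs (lf (nat_lit 41) (nat_lit 141)) (rf (nat_lit 33)))))))))) (nd (nat_lit 163) (nat_lit 0) (cs (rf (nat_lit 34)) (cs (rf (nat_lit 35)) (cs (nd (nat_lit 165) (nat_lit 0) (cs (rf (nat_lit 36)) (cs (rf (nat_lit 37)) (nd (nat_lit 207) (nat_lit 0) (cs (lf (nat_lit 41) (nat_lit 141)) (rf (nat_lit 38))))))) (nd (nat_lit 119) (nat_lit 0) (cs (lf (nat_lit 46) (nat_lit 119)) (nd (nat_lit 97) (nat_lit 0) (cs (lf (nat_lit 45) (nat_lit 97)) (rf (nat_lit 39)))))))))))))) (cs (nd (nat_lit 143) (nat_lit 0) (cs (rf (nat_lit 0)) (cs (rf (nat_lit 5))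 (cs (rf (nat_lit 6)) (cs (rf (nat_lit 8)) (cs (nd (nat_lit 164) (nat_lit 0) (cs (lf (nat_lit 35) (nat_lit 120)) (rf (nat_lit 40)))) (rf (nat_lit 41)))))))) (cs (rf (nat_lit 42)) (rf (nat_lit 43)))))))))))))))) q37205 (by decide +kernel)
def q37817 : Q := Q.p (nat_lit 0x40000160000000000000000000000000000000000000000) (nat_lit 0x7bc000e800038c0000000000000000000000000000000000) (nat_lit 9)
theorem c37817 : QOK q37817 := cut [q37816] ⟨c37816, trivial⟩ (nd (nat_lit 163) (nat_lit 0) (cs (lf (nat_lit 5) (nat_lit 161)) (rf (nat_lit 0)))) q37817 (by decide +kernel)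
def q38873 : Q := Q.p (nat_lit 0x10000040000060000000000000000000000000000000000000000) (nat_lit 0x280000fc0003f0000fc003bf80031e0005f80007c0000f00001c00005000000000000) (nat_lit 13)
theorem c38873 : QOK q38873 := cut [q33487, q38858, q38868, q38871, q38872] ⟨c33487, c38858, c38868, c38871, c38872, trivial⟩ (nd (nat_lit 184) (nat_lit 0) (cs (rf (nat_lit 0)) (cs (rf (nat_lit 1)) (cs (rf (nat_lit 2)) (cs (rf (nat_lit 3)) (rf (nat_lit 4))))))) q38873 (by decide +kernel)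
def q38999 : Q := Q.p (nat_lit 0x10000040000040000000000000000000000000000000000000000) (nat_lit 0x500003f0000fc0003f8000fe007bfc00fbf003bfc001fe0003f0000fc0002d000000000000) (nat_lit 15)
theorem c38999 : QOK q38999 := cut [q38849, q38880, q38888, q6771, q32467, q32556, q32567, q38912, q38934, q38937, q8700, q36677, q37115, q37299, q38948, q38950, q36506, q38953, q11444, q34517, q32563, q38961, q38963, q37816, q38966, q38174, q38976, q36258, q38992, q2268, q33487, q38858, q38868, q38872, q17608, q36953, q38870, q37654] ⟨c38849, c38880, c38888, c6771, c32467, c32556, c32567, c38912, c38934, c38937, c8700, c36677, c37115, c37299, c38948, c38950, c36506, c38953, c11444, c34517, c32563, c38961, c38963, c37816, c38966, c38174, c38976, c36258, c38992, c2268, c33487, c38858, c38868, c38872, c17608, c36953, c38870, c37654, trivial⟩ (nd (nat_lit 161) (nat_lit 0) (cs (rf (nat_lit 0)) (cs (rf (nat_lit 1)) (cs (rf (nat_lit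 2)) (cs (nd (nat_lit 163) (nat_lit 0) (cs (rf (nat_lit 3)) (cs (rf (nat_lit 4)) (cs (rf (nat_lit 5)) (cs (rf (nat_lit 6)) (rf (nat_lit 7))))))) (cs (nd (nat_lit 163) (nat_lit 0) (cs (rf (nat_lit 7)) (cs (rf (nat_lit 8)) (cs (nd (nat_lit 164) (nat_lit 0) (cs (lf (nat_lit 5) (nat_lit 161)) (nd (nat_lit 139) (nat_lit 0) (cs (lf (nat_lit 23) (nat_lit 138)) (rf (nat_lit 9)))))) (cs (nd (nat_lit 183) (nat_lit 0) (cs (nd (nat_lit 164) (nat_lit 0) (cs (lf (nat_lit 11) (nat_lit 160)) (rf (nat_lit 10)))) (cs (nd (nat_lit 139) (nat_lit 0) (cs (nd (nat_lit 117) (nat_lit 0) (cs (rf (nat_lit 11)) (cs (rf (nat_lit 12)) (rf (nat_lit 13))))) (cs (rf (nat_lit 14)) (rf (nat_lit 15))))) (cs (nd (nat_lit 205) (nat_lit 0) (cs (rf (nat_lit 16)) (cs (rf (nat_lit 17)) (nd (nat_lit 206) (nat_lit 0) (cs (rf (nat_lit 18)) (cs (rf (nat_lit 19)) (nd (nat_lit 182) (nat_lit 0) (cs (lf (nat_lit 19) (nat_lit 182)) (nd (nat_lit 181) (nat_lit 0)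 (cs (lf (nat_lit 0) (nat_lit 180)) (lf (nat_lit 15) (nat_lit 159)))))))))))) (cs (nd (nat_lit 164) (nat_lit 0) (cs (lf (nat_lit 11) (nat_lit 160)) (rf (nat_lit 20)))) (rf (nat_lit 21))))))) (cs (rf (nat_lit 22)) (cs (nd (nat_lit 164) (nat_lit 0) (cs (lf (nat_lit 5) (nat_lit 161)) (rf (nat_lit 23)))) (nd (nat_lit 164) (nat_lit 0) (cs (lf (nat_lit 5) (nat_lit 161)) (rf (nat_lit 24))))))))))) (cs (nd (nat_lit 160) (nat_lit 0) (cs (rf (nat_lit 25)) (cs (rf (nat_lit 26)) (cs (nd (nat_lit 163) (nat_lit 0) (cs (lf (nat_lit 4) (nat_lit 160)) (nd (nat_lit 181) (nat_lit 0) (cs (lf (nat_lit 10) (nat_lit 159)) (nd (nat_lit 159) (nat_lit 0) (cs (lf (nat_lit 11) (nat_lit 158)) (nd (nat_lit 140) (nat_lit 0) (cs (lf (nat_lit 17) (nat_lit 137)) (nd (nat_lit 139) (nat_lit 0) (cs (lf (nat_lit 12) (nat_lit 136)) (rf (nat_lit 27)))))))))))) (cs (rf (nat_lit 28)) (nd (nat_lit 163) (nat_lit 0) (cs (lf (nat_lit 4) (nat_lit 160)) (nd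 (nat_lit 164) (nat_lit 0) (cs (lf (nat_lit 5) (nat_lit 161)) (rf (nat_lit 29))))))))))) (nd (nat_lit 184) (nat_lit 0) (cs (rf (nat_lit 30)) (cs (rf (nat_lit 31)) (cs (rf (nat_lit 32)) (cs (rf (nat_lit 33)) (nd (nat_lit 160) (nat_lit 0) (cs (rf (nat_lit 34)) (cs (rf (nat_lit 35)) (cs (rf (nat_lit 36)) (nd (nat_lit 183) (nat_lit 0) (cs (lf (nat_lit 19) (nat_lit 160)) (rf (nat_lit 37)))))))))))))))))))) q38999 (by decide +kernel)
def q39723 : Q := Q.p (nat_lit 0x2000000000010000040000040000000000000000000000000000000000000000) (nat_lit 0x20000380001ec0003f00007c00fbf801fbe007ff801ffc00fff000ffc001ff0007c0000000) (nat_lit 17)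
theorem c39723 : QOK q39723 := cut [q38567, q39448, q34731, q34771, q16276, q32686, q33489, q35450, q34725, q34833, q35454, q35457, q39504, q3734, q19014, q34651, q38415, q39088, q39098, q38427, q39094, q39506, q39578, q39095, q18914, q39068, q33487, q38377, q38880, q39066, q37820, q38634, q32564, q35560, q38228, q38966, q39641, q39689, q39722] ⟨c38567, c39448, c34731, c34771, c16276, c32686, c33489, c35450, c34725, c34833, c35454, c35457, c39504, c3734, c19014, c34651, c38415, c39088, c39098, c38427, c39094, c39506, c39578, c39095, c18914, c39068, c33487, c38377, c38880, c39066, c37820, c38634, c32564, c35560, c38228, c38966, c39641, c39689, c39722, trivial⟩ (nd (nat_lit 184) (nat_lit 0) (cs (rf (nat_lit 0)) (cs (rf (nat_lit 1)) (cs (nd (nat_lit 140) (nat_lit 0) (cs (rf (nat_lit 2)) (cs (rf (nat_lit 3)) (cs (nd (nat_lit 206) (nat_lit 0) (cs (rf (nat_lit 4)) (cs (rf (nat_lit 5)) (rf (nat_lit 6))))) (cs (rf (nat_lit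 7)) (cs (nd (nat_lit 118) (nat_lit 0) (cs (rf (nat_lit 8)) (cs (rf (nat_lit 9)) (rf (nat_lit 10))))) (rf (nat_lit 11)))))))) (cs (rf (nat_lit 12)) (cs (nd (nat_lit 185) (nat_lit 0) (cs (rf (nat_lit 13)) (cs (rf (nat_lit 14)) (cs (nd (nat_lit 165) (nat_lit 0) (cs (rf (nat_lit 15)) (cs (nd (nat_lit 183) (nat_lit 0) (cs (lf (nat_lit 16) (nat_lit 161)) (nd (nat_lit 204) (nat_lit 0) (cs (lf (nat_lit 10) (nat_lit 182)) (nd (nat_lit 182) (nat_lit 0) (cs (lf (nat_lit 11) (nat_lit 181)) (rf (nat_lit 16)))))))) (nd (nat_lit 187) (nat_lit 0) (cs (lf (nat_lit 17) (nat_lit 162)) (nd (nat_lit 163) (nat_lit 0) (cs (lf (nat_lit 18) (nat_lit 162)) (rf (nat_lit 17))))))))) (cs (nd (nat_lit 187) (nat_lit 0) (cs (lf (nat_lit 23) (nat_lit 161)) (nd (nat_lit 163) (nat_lit 0) (cs (lf (nat_lit 18) (nat_lit 162)) (nd (nat_lit 119) (nat_lit 0) (cs (lf (nat_lit 25) (nat_lit 119)) (rf (nat_lit 18)))))))) (nd (nat_lit 183) (nat_lit 0) (cs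 (rf (nat_lit 19)) (cs (rf (nat_lit 20)) (rf (nat_lit 21)))))))))) (cs (rf (nat_lit 22)) (cs (nd (nat_lit 185) (nat_lit 0) (cs (rf (nat_lit 13)) (cs (rf (nat_lit 14)) (cs (rf (nat_lit 23)) (nd (nat_lit 187) (nat_lit 0) (cs (rf (nat_lit 24)) (cs (rf (nat_lit 25)) (nd (nat_lit 205) (nat_lit 0) (cs (lf (nat_lit 10) (nat_lit 183)) (nd (nat_lit 183) (nat_lit 0) (cs (lf (nat_lit 11) (nat_lit 182)) (nd (nat_lit 227) (nat_lit 0) (cs (lf (nat_lit 30) (nat_lit 161)) (nd (nat_lit 118) (nat_lit 0) (cs (lf (nat_lit 37) (nat_lit 117)) (nd (nat_lit 163) (nat_lit 0) (cs (lf (nat_lit 18) (nat_lit 162)) (nd (nat_lit 182) (nat_lit 0) (cs (lf (nat_lit 12) (nat_lit 159)) (lf (nat_lit 17) (nat_lit 160))))))))))))))))))))) (cs (nd (nat_lit 161) (nat_lit 0) (cs (rf (nat_lit 26)) (cs (rf (nat_lit 27)) (cs (rf (nat_lit 28)) (cs (rf (nat_lit 29)) (nd (nat_lit 164) (nat_lit 0) (cs (rf (nat_lit 30)) (cs (rf (nat_lit 31)) (cs (nd (nat_lit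 163) (nat_lit 0) (cs (rf (nat_lit 32)) (cs (rf (nat_lit 33)) (cs (rf (nat_lit 34)) (rf (nat_lit 35)))))) (nd (nat_lit 187) (nat_lit 0) (cs (lf (nat_lit 20) (nat_lit 161)) (lf (nat_lit 2) (nat_lit 161))))))))))))) (cs (rf (nat_lit 36)) (cs (rf (nat_lit 37)) (rf (nat_lit 38))))))))))))) q39723 (by decide +kernel)
def q39820 : Q := Q.p (nat_lit 0x2000000000010000040000040000000000000000000000000000000000000000) (nat_lit 0x80000380001e00003c001cf8007be003fbc0007f0001fc0003c0000a000000000000000000) (nat_lit 15)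
theorem c39820 : QOK q39820 := cut [q39741, q3739, q32488, q32473, q32474, q39743, q3749, q19014, q32666, q38235, q5508, q32475, q33100, q32618, q39080, q38568, q32665, q33025, q3571, q39773, q32478, q3129, q3743, q38418, q39106, q39738, q39076, q39819] ⟨c39741, c3739, c32488, c32473, c32474, c39743, c3749, c19014, c32666, c38235, c5508, c32475, c33100, c32618, c39080, c38568, c32665, c33025, c3571, c39773, c32478, c3129, c3743, c38418, c39106, c39738, c39076, c39819, trivial⟩ (nd (nat_lit 185) (nat_lit 0) (cs (rf (nat_lit 0)) (cs (nd (nat_lit 163) (nat_lit 0) (cs (rf (nat_lit 1)) (cs (rf (nat_lit 2)) (nd (nat_lit 207) (nat_lit 0) (cs (rf (nat_lit 3)) (cs (rf (nat_lit 4)) (cs (nd (nat_lit 161) (nat_lit 0) (cs (lf (nat_lit 0) (nat_lit 160)) (nd (nat_lit 141) (nat_lit 0) (cs (lf (nat_lit 24) (nat_lit 119)) (nd (nat_lit 140) (nat_lit 0) (cs (lf (nat_lit 47) (nat_lit 118)) (nd (nat_lit 120) (nat_lit 0) (cs (lf (nat_lit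 34) (nat_lit 119)) (rf (nat_lit 5)))))))))) (nd (nat_lit 160) (nat_lit 0) (cs (lf (nat_lit 1) (nat_lit 160)) (nd (nat_lit 141) (nat_lit 0) (cs (lf (nat_lit 24) (nat_lit 119)) (nd (nat_lit 228) (nat_lit 0) (cs (lf (nat_lit 40) (nat_lit 140)) (nd (nat_lit 120) (nat_lit 0) (cs (lf (nat_lit 34) (nat_lit 119)) (nd (nat_lit 229) (nat_lit 0) (cs (lf (nat_lit 41) (nat_lit 162)) (rf (nat_lit 6))))))))))))))))))) (cs (nd (nat_lit 184) (nat_lit 0) (cs (rf (nat_lit 7)) (cs (rf (nat_lit 8)) (rf (nat_lit 9))))) (cs (nd (nat_lit 207) (nat_lit 0) (cs (nd (nat_lit 163) (nat_lit 0) (cs (rf (nat_lit 10)) (cs (rf (nat_lit 3)) (rf (nat_lit 4))))) (cs (nd (nat_lit 229) (nat_lit 0) (cs (rf (nat_lit 6)) (cs (rf (nat_lit 11)) (nd (nat_lit 140) (nat_lit 0) (cs (lf (nat_lit 45) (nat_lit 140)) (nd (nat_lit 164) (nat_lit 0) (cs (lf (nat_lit 36) (nat_lit 141)) (rf (nat_lit 12))))))))) (cs (nd (nat_lit 184) (nat_lit 0) (cs (rf (nat_lit 13))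 (cs (rf (nat_lit 8)) (rf (nat_lit 14))))) (cs (nd (nat_lit 184) (nat_lit 0) (cs (rf (nat_lit 13)) (cs (nd (nat_lit 118) (nat_lit 0) (cs (lf (nat_lit 25) (nat_lit 118)) (nd (nat_lit 183) (nat_lit 0) (cs (lf (nat_lit 0) (nat_lit 182)) (nd (nat_lit 165) (nat_lit 0) (cs (lf (nat_lit 16) (nat_lit 161)) (nd (nat_lit 187) (nat_lit 0) (cs (lf (nat_lit 17) (nat_lit 162)) (rf (nat_lit 15)))))))))) (cs (nd (nat_lit 206) (nat_lit 0) (cs (rf (nat_lit 16)) (cs (rf (nat_lit 17)) (nd (nat_lit 140) (nat_lit 0) (cs (lf (nat_lit 24) (nat_lit 118)) (nd (nat_lit 187) (nat_lit 0) (cs (lf (nat_lit 6) (nat_lit 184)) (nd (nat_lit 165) (nat_lit 0) (cs (lf (nat_lit 17) (nat_lit 162)) (rf (nat_lit 18))))))))))) (rf (nat_lit 19)))))) (cs (nd (nat_lit 184) (nat_lit 0) (cs (rf (nat_lit 13)) (cs (rf (nat_lit 14)) (nd (nat_lit 163) (nat_lit 0) (cs (rf (nat_lit 10)) (cs (rf (nat_lit 20)) (cs (nd (nat_lit 187) (nat_lit 0) (cs (lf (nat_lit 18)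 (nat_lit 162)) (nd (nat_lit 229) (nat_lit 0) (cs (lf (nat_lit 42) (nat_lit 162)) (rf (nat_lit 21)))))) (nd (nat_lit 229) (nat_lit 0) (cs (lf (nat_lit 42) (nat_lit 162)) (nd (nat_lit 142) (nat_lit 0) (cs (lf (nat_lit 37) (nat_lit 141)) (nd (nat_lit 228) (nat_lit 0) (cs (lf (nat_lit 41) (nat_lit 162)) (nd (nat_lit 227) (nat_lit 0) (cs (lf (nat_lit 12) (nat_lit 204)) (nd (nat_lit 187) (nat_lit 0) (cs (lf (nat_lit 18) (nat_lit 162)) (nd (nat_lit 206) (nat_lit 0) (cs (lf (nat_lit 11) (nat_lit 183)) (lf (nat_lit 41) (nat_lit 161))))))))))))))))))))) (nd (nat_lit 163) (nat_lit 0) (cs (rf (nat_lit 22)) (rf (nat_lit 10)))))))))) (cs (nd (nat_lit 187) (nat_lit 0) (cs (rf (nat_lit 23)) (cs (rf (nat_lit 24)) (cs (rf (nat_lit 25)) (nd (nat_lit 184) (nat_lit 0) (cs (lf (nat_lit 23) (nat_lit 161)) (nd (nat_lit 165) (nat_lit 0) (cs (lf (nat_lit 17) (nat_lit 162)) (rf (nat_lit 26)))))))))) (rf (nat_lit 27)))))))) q39820 (by decide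 +kernel)
def q40028 : Q := Q.p (nat_lit 0x10000040000060000000000000000000000000000000000000000) (nat_lit 0x140001fe0003f0000fe0003f80031e000ffc000fe0003f0000fc00004000000000000) (nat_lit 16)
theorem c40028 : QOK q40028 := cut [q37798, q38832, q38847, q38848, q37449, q37498, q39969, q39980, q39990, q36607, q38169, q38953, q37606, q36506, q37487, q39994, q40011, q37479, q40013, q40014, q37215, q32667, q6312, q38758, q37488] ⟨c37798, c38832, c38847, c38848, c37449, c37498, c39969, c39980, c39990, c36607, c38169, c38953, c37606, c36506, c37487, c39994, c40011, c37479, c40013, c40014, c37215, c32667, c6312, c38758, c37488, trivial⟩ (nd (nat_lit 183) (nat_lit 0) (cs (rf (nat_lit 0)) (cs (rf (nat_lit 1)) (cs (rf (nat_lit 2)) (cs (rf (nat_lit 3)) (cs (nd (nat_lit 184) (nat_lit 0) (cs (rf (nat_lit 4)) (cs (rf (nat_lit 5)) (cs (rf (nat_lit 6)) (cs (rf (nat_lit 7)) (rf (nat_lit 8))))))) (cs (nd (nat_lit 205) (nat_lit 0)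 (cs (rf (nat_lit 9)) (cs (rf (nat_lit 10)) (rf (nat_lit 11))))) (cs (nd (nat_lit 184) (nat_lit 0) (cs (rf (nat_lit 5)) (cs (rf (nat_lit 12)) (cs (nd (nat_lit 205) (nat_lit 0) (cs (rf (nat_lit 13)) (rf (nat_lit 14)))) (rf (nat_lit 15)))))) (cs (rf (nat_lit 16)) (cs (nd (nat_lit 184) (nat_lit 0) (cs (rf (nat_lit 17)) (cs (rf (nat_lit 7)) (cs (rf (nat_lit 15)) (cs (rf (nat_lit 18)) (rf (nat_lit 19))))))) (cs (nd (nat_lit 184) (nat_lit 0) (cs (rf (nat_lit 5)) (cs (rf (nat_lit 6)) (rf (nat_lit 19))))) (cs (nd (nat_lit 184) (nat_lit 0) (cs (rf (nat_lit 20)) (cs (rf (nat_lit 4)) (cs (rf (nat_lit 7)) (cs (rf (nat_lit 8)) (nd (nat_lit 182) (nat_lit 0) (cs (nd (nat_lit 185) (nat_lit 0) (cs (lf (nat_lit 4) (nat_lit 182)) (rf (nat_lit 21)))) (cs (nd (nat_lit 181) (nat_lit 0) (cs (lf (nat_lit 12) (nat_lit 158)) (nd (nat_lit 158) (nat_lit 0) (cs (lf (nat_lit 22) (nat_lit 158)) (nd (nat_lit 203) (nat_lit 0) (cs (lf (nat_lit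 11) (nat_lit 180)) (nd (nat_lit 204) (nat_lit 0) (cs (lf (nat_lit 6) (nat_lit 181)) (nd (nat_lit 226) (nat_lit 0) (cs (rf (nat_lit 22)) (lf (nat_lit 30) (nat_lit 160)))))))))))) (nd (nat_lit 181) (nat_lit 0) (cs (lf (nat_lit 12) (nat_lit 158)) (nd (nat_lit 158) (nat_lit 0) (cs (lf (nat_lit 22) (nat_lit 158)) (rf (nat_lit 23)))))))))))))) (nd (nat_lit 184) (nat_lit 0) (cs (rf (nat_lit 20)) (cs (rf (nat_lit 24)) (cs (rf (nat_lit 5)) (rf (nat_lit 19)))))))))))))))))) q40028 (by decide +kernel)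
def q40294 : Q := Q.p (nat_lit 0x2000000000010000040000040000000000000000000000000000000000000000) (nat_lit 0x300000ec001bf001cfc00fbf803fbc003ff800efc003bf0002fc00005000000000000) (nat_lit 15)
theorem c40294 : QOK q40294 := cut [q39070, q39083, q39108, q39171, q39741, q39738, q39739, q21050, q21490, q7338, q4659, q1752, q40231, q38886, q39944, q40220, q40288, q38874, q40192, q37287, q38953, q38954, q3734, q38235, q39082] ⟨c39070, c39083, c39108, c39171, c39741, c39738, c39739, c21050, c21490, c7338, c4659, c1752, c40231, c38886, c39944, c40220, c40288, c38874, c40192, c37287, c38953, c38954, c3734, c38235, c39082, trivial⟩ (nd (nat_lit 185) (nat_lit 0) (cs (rf (nat_lit 0)) (cs (rf (nat_lit 1)) (cs (rf (nat_lit 2)) (cs (rf (nat_lit 3)) (cs (rf (nat_lit 4)) (cs (nd (nat_lit 187) (nat_lit 0) (cs (rf (nat_lit 5)) (cs (rf (nat_lit 6)) (nd (nat_lit 188) (nat_lit 0) (cs (rf (nat_lit 7)) (cs (rf (nat_lit 8)) (nd (nat_lit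 207) (nat_lit 0) (cs (rf (nat_lit 9)) (nd (nat_lit 166) (nat_lit 0) (cs (lf (nat_lit 17) (nat_lit 163)) (nd (nat_lit 210) (nat_lit 0) (cs (lf (nat_lit 5) (nat_lit 185)) (nd (nat_lit 144) (nat_lit 0) (cs (rf (nat_lit 10)) (cs (nd (nat_lit 231) (nat_lit 0) (cs (lf (nat_lit 39) (nat_lit 165)) (nd (nat_lit 123) (nat_lit 0) (cs (lf (nat_lit 34) (nat_lit 122)) (nd (nat_lit 122) (nat_lit 0) (cs (lf (nat_lit 35) (nat_lit 100)) (nd (nat_lit 100) (nat_lit 0) (cs (rf (nat_lit 11)) (lf (nat_lit 40) (nat_lit 99)))))))))) (cs (nd (nat_lit 123) (nat_lit 0) (cs (lf (nat_lit 34) (nat_lit 122)) (nd (nat_lit 122) (nat_lit 0) (cs (lf (nat_lit 35) (nat_lit 100)) (nd (nat_lit 232) (nat_lit 0) (cs (lf (nat_lit 40) (nat_lit 165)) (nd (nat_lit 165) (nat_lit 0) (cs (lf (nat_lit 36) (nat_lit 99)) (lf (nat_lit 47) (nat_lit 143)))))))))) (nd (nat_lit 143) (nat_lit 0) (cs (lf (nat_lit 47) (nat_lit 121)) (rf (nat_lit 12))))))))))))))))))))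 (cs (nd (nat_lit 161) (nat_lit 0) (cs (rf (nat_lit 13)) (cs (rf (nat_lit 14)) (cs (rf (nat_lit 15)) (cs (rf (nat_lit 16)) (nd (nat_lit 160) (nat_lit 0) (cs (rf (nat_lit 17)) (cs (rf (nat_lit 18)) (nd (nat_lit 183) (nat_lit 0) (cs (lf (nat_lit 20) (nat_lit 160)) (nd (nat_lit 205) (nat_lit 0) (cs (rf (nat_lit 19)) (cs (rf (nat_lit 20)) (rf (nat_lit 21))))))))))))))) (nd (nat_lit 184) (nat_lit 0) (cs (rf (nat_lit 22)) (cs (rf (nat_lit 23)) (rf (nat_lit 24))))))))))))) q40294 (by decide +kernel)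
def q41896 : Q := Q.p (nat_lit 0x40000000000000003400000000010000040000000000000000000000000000000000000000000000) (nat_lit 0x128001ffc003be003efc001ff0000b8001ae00008000020000000000000000000000000000000000000000000000) (nat_lit 15)
theorem c41896 : QOK q41896 := cut [q40546, q40593, q41726, q41729, q41733, q41739, q41543, q41745, q41774, q41749, q41536, q41784, q41786, q41895] ⟨c40546, c40593, c41726, c41729, c41733, c41739, c41543, c41745, c41774, c41749, c41536, c41784, c41786, c41895, trivial⟩ (nd (nat_lit 251) (nat_lit 0) (cs (rf (nat_lit 0)) (cs (rf (nat_lit 1)) (cs (nd (nat_lit 272) (nat_lit 0) (cs (lf (nat_lit 11) (nat_lit 249)) (nd (nat_lit 275) (nat_lit 0) (cs (lf (nat_lit 5) (nat_lit 250)) (nd (nat_lit 319) (nat_lit 0) (cs (rf (nat_lit 2)) (cs (nd (nat_lit 320) (nat_lit 0) (cs (nd (nat_lit 231) (nat_lit 0) (cs (lf (nat_lit 17) (nat_lit 228)) (nd (nat_lit 298) (nat_lit 0) (cs (lf (nat_lit 27) (nat_lit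 231)) (rf (nat_lit 3)))))) (cs (nd (nat_lit 317) (nat_lit 0) (cs (nd (nat_lit 231) (nat_lit 0) (cs (lf (nat_lit 17) (nat_lit 228)) (rf (nat_lit 4)))) (cs (nd (nat_lit 339) (nat_lit 0) (cs (lf (nat_lit 11) (nat_lit 316)) (nd (nat_lit 295) (nat_lit 0) (cs (lf (nat_lit 23) (nat_lit 294)) (lf (nat_lit 45) (nat_lit 250)))))) (rf (nat_lit 5))))) (nd (nat_lit 297) (nat_lit 0) (cs (lf (nat_lit 29) (nat_lit 253)) (rf (nat_lit 6))))))) (cs (nd (nat_lit 316) (nat_lit 0) (cs (rf (nat_lit 7)) (cs (rf (nat_lit 8)) (nd (nat_lit 317) (nat_lit 0) (cs (nd (nat_lit 231) (nat_lit 0) (cs (lf (nat_lit 17) (nat_lit 228)) (rf (nat_lit 9)))) (nd (nat_lit 294) (nat_lit 0) (cs (lf (nat_lit 23) (nat_lit 293)) (lf (nat_lit 29) (nat_lit 250))))))))) (cs (nd (nat_lit 297) (nat_lit 0) (cs (lf (nat_lit 41) (nat_lit 252)) (rf (nat_lit 6)))) (nd (nat_lit 297) (nat_lit 0) (cs (lf (nat_lit 41) (nat_lit 252)) (rf (nat_lit 10))))))))))))) (cs (nd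 (nat_lit 231) (nat_lit 0) (cs (lf (nat_lit 17) (nat_lit 228)) (rf (nat_lit 11)))) (cs (nd (nat_lit 275) (nat_lit 0) (cs (lf (nat_lit 5) (nat_lit 250)) (nd (nat_lit 319) (nat_lit 0) (cs (rf (nat_lit 2)) (cs (nd (nat_lit 231) (nat_lit 0) (cs (lf (nat_lit 17) (nat_lit 228)) (nd (nat_lit 274) (nat_lit 0) (cs (lf (nat_lit 0) (nat_lit 249)) (rf (nat_lit 12)))))) (cs (nd (nat_lit 249) (nat_lit 0) (cs (lf (nat_lit 4) (nat_lit 249)) (nd (nat_lit 316) (nat_lit 0) (cs (rf (nat_lit 8)) (cs (nd (nat_lit 226) (nat_lit 0) (cs (lf (nat_lit 22) (nat_lit 226)) (nd (nat_lit 248) (nat_lit 0) (cs (lf (nat_lit 23) (nat_lit 225)) (nd (nat_lit 269) (nat_lit 0) (cs (lf (nat_lit 10) (nat_lit 247)) (nd (nat_lit 247) (nat_lit 0) (cs (lf (nat_lit 11) (nat_lit 246)) (nd (nat_lit 272) (nat_lit 0) (cs (lf (nat_lit 5) (nat_lit 247)) (nd (nat_lit 294) (nat_lit 0) (cs (lf (nat_lit 35) (nat_lit 228)) (nd (nat_lit 337) (nat_lit 0) (cs (lf (nat_lit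 40) (nat_lit 249)) (nd (nat_lit 338) (nat_lit 0) (cs (lf (nat_lit 41) (nat_lit 271)) (nd (nat_lit 339) (nat_lit 0) (cs (lf (nat_lit 29) (nat_lit 272)) (lf (nat_lit 15) (nat_lit 315)))))))))))))))))))) (cs (nd (nat_lit 231) (nat_lit 0) (cs (lf (nat_lit 17) (nat_lit 228)) (nd (nat_lit 226) (nat_lit 0) (cs (lf (nat_lit 22) (nat_lit 226)) (nd (nat_lit 248) (nat_lit 0) (cs (lf (nat_lit 23) (nat_lit 225)) (nd (nat_lit 269) (nat_lit 0) (cs (lf (nat_lit 10) (nat_lit 247)) (nd (nat_lit 247) (nat_lit 0) (cs (lf (nat_lit 11) (nat_lit 246)) (nd (nat_lit 291) (nat_lit 0) (cs (lf (nat_lit 30) (nat_lit 225)) (nd (nat_lit 272) (nat_lit 0) (cs (lf (nat_lit 5) (nat_lit 247)) (nd (nat_lit 294) (nat_lit 0) (cs (lf (nat_lit 35) (nat_lit 228)) (nd (nat_lit 317) (nat_lit 0) (cs (lf (nat_lit 23) (nat_lit 293)) (lf (nat_lit 29) (nat_lit 250)))))))))))))))))))) (nd (nat_lit 231) (nat_lit 0) (cs (lf (nat_lit 17) (nat_lit 228)) (nd (nat_lit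 227) (nat_lit 0) (cs (lf (nat_lit 23) (nat_lit 226)) (nd (nat_lit 294) (nat_lit 0) (cs (nd (nat_lit 317) (nat_lit 0) (cs (lf (nat_lit 23) (nat_lit 293)) (rf (nat_lit 9)))) (lf (nat_lit 44) (nat_lit 227)))))))))))))) (nd (nat_lit 297) (nat_lit 0) (cs (lf (nat_lit 41) (nat_lit 252)) (nd (nat_lit 274) (nat_lit 0) (cs (lf (nat_lit 0) (nat_lit 249)) (lf (nat_lit 42) (nat_lit 252)))))))))))) (rf (nat_lit 13)))))))) q41896 (by decide +kernel)
def q43907 : Q := Q.p (nat_lit 0x40000000000000003400000000010000040000000000000000000000000000000000000000000000) (nat_lit 0x280000e0000f80007fc001ff800ffc007ffc01fbe003ff8007bf0018b8001ae00009000024000000000000000000000000000000000000000000000) (nat_lit 15)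
theorem c43907 : QOK q43907 := cut [q42370, q42459, q42553, q42558, q42564, q42568, q42654, q42765, q42788, q42814, q43008, q43074, q43117, q43144, q43207, q43245, q42373, q43110, q43116, q41745, q43139, q42421, q42679, q43091, q43258, q42419, q43086, q43287, q43361, q43458, q43879, q43891, q42985, q43360, q43457, q42466, q42833, q43295, q42458, q43080, q43205, q43285, q43464, q42825, q42463, q42830, q43334] ⟨c42370, c42459, c42553, c42558, c42564, c42568, c42654, c42765, c42788, c42814, c43008, c43074, c43117, c43144, c43207, c43245, c42373, c43110, c43116, c41745, c43139, c42421, c42679, c43091, c43258, c42419, c43086, c43287, c43361, c43458, c43879, c43891, c42985, c43360, c43457, c42466, c42833, c43295, c42458, c43080, c43205, c43285, c43464, c42825, c42463, c42830, c43334, trivial⟩ (nd (nat_lit 340) (nat_lit 0) (cs (rf (nat_lit 0)) (cs (rf (nat_lit 1)) (cs (nd (nat_lit 362) (nat_lit 0) (cs (rf (nat_lit 2))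 (cs (rf (nat_lit 3)) (cs (rf (nat_lit 4)) (cs (rf (nat_lit 5)) (cs (rf (nat_lit 6)) (cs (rf (nat_lit 7)) (cs (rf (nat_lit 8)) (rf (nat_lit 9)))))))))) (cs (rf (nat_lit 10)) (cs (rf (nat_lit 11)) (cs (rf (nat_lit 12)) (cs (rf (nat_lit 13)) (cs (rf (nat_lit 14)) (cs (rf (nat_lit 15)) (cs (nd (nat_lit 251) (nat_lit 0) (cs (rf (nat_lit 16)) (cs (rf (nat_lit 17)) (cs (rf (nat_lit 18)) (nd (nat_lit 272) (nat_lit 0) (cs (lf (nat_lit 11) (nat_lit 249)) (nd (nat_lit 316) (nat_lit 0) (cs (rf (nat_lit 19)) (cs (rf (nat_lit 20)) (cs (nd (nat_lit 317) (nat_lit 0) (cs (rf (nat_lit 21)) (cs (rf (nat_lit 22)) (cs (rf (nat_lit 23)) (rf (nat_lit 24)))))) (nd (nat_lit 317) (nat_lit 0) (cs (rf (nat_lit 25)) (cs (rf (nat_lit 26)) (rf (nat_lit 24))))))))))))))) (cs (rf (nat_lit 27)) (cs (rf (nat_lit 28)) (cs (rf (nat_lit 29)) (cs (rf (nat_lit 30)) (cs (rf (nat_lit 31)) (cs (nd (nat_lit 362) (nat_lit 0) (cs (rf (nat_lit 2)) (cs (rf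 (nat_lit 3)) (cs (rf (nat_lit 4)) (cs (rf (nat_lit 5)) (cs (rf (nat_lit 8)) (cs (rf (nat_lit 32)) (cs (rf (nat_lit 33)) (cs (rf (nat_lit 34)) (nd (nat_lit 384) (nat_lit 0) (cs (rf (nat_lit 35)) (cs (rf (nat_lit 36)) (rf (nat_lit 37)))))))))))))) (cs (nd (nat_lit 251) (nat_lit 0) (cs (rf (nat_lit 16)) (cs (rf (nat_lit 38)) (cs (rf (nat_lit 17)) (nd (nat_lit 317) (nat_lit 0) (cs (rf (nat_lit 39)) (cs (rf (nat_lit 40)) (cs (rf (nat_lit 41)) (nd (nat_lit 231) (nat_lit 0) (cs (lf (nat_lit 17) (nat_lit 228)) (nd (nat_lit 275) (nat_lit 0) (cs (lf (nat_lit 5) (nat_lit 250)) (nd (nat_lit 319) (nat_lit 0) (cs (lf (nat_lit 38) (nat_lit 252)) (nd (nat_lit 271) (nat_lit 0) (cs (lf (nat_lit 10) (nat_lit 249)) (nd (nat_lit 249) (nat_lit 0) (cs (lf (nat_lit 11) (nat_lit 248)) (nd (nat_lit 226) (nat_lit 0) (cs (lf (nat_lit 22) (nat_lit 226)) (nd (nat_lit 225) (nat_lit 0) (cs (lf (nat_lit 21) (nat_lit 225)) (nd (nat_lit 295) (nat_lit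 0) (cs (lf (nat_lit 25) (nat_lit 251)) (nd (nat_lit 362) (nat_lit 0) (cs (lf (nat_lit 42) (nat_lit 295)) (rf (nat_lit 42)))))))))))))))))))))))))))) (nd (nat_lit 362) (nat_lit 0) (cs (rf (nat_lit 4)) (cs (rf (nat_lit 5)) (cs (rf (nat_lit 7)) (cs (rf (nat_lit 8)) (cs (rf (nat_lit 43)) (cs (rf (nat_lit 34)) (nd (nat_lit 384) (nat_lit 0) (cs (rf (nat_lit 44)) (cs (rf (nat_lit 45)) (rf (nat_lit 46)))))))))))))))))))))))))))))) q43907 (by decide +kernel)
def q44302 : Q := Q.p (nat_lit 0x40000100000000003400000000010000040000000000000000000000000000000000000000000000) (nat_lit 0xa0000380002e8001ff0007fc003ff800fbf001efc0073f0000b8001ae00009000004000000000000000000000000000000000000000000000) (nat_lit 14)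
theorem c44302 : QOK q44302 := cut [q43970, q43972, q43984, q43994, q44005, q44027, q44115, q44143, q43916, q43969, q15931, q43925, q43926, q43920, q43923, q44194, q44211, q44242, q41974, q43928, q43930, q44155, q42245, q44266, q43927, q43949, q44117, q44179, q44288, q44301] ⟨c43970, c43972, c43984, c43994, c44005, c44027, c44115, c44143, c43916, c43969, c15931, c43925, c43926, c43920, c43923, c44194, c44211, c44242, c41974, c43928, c43930, c44155, c42245, c44266, c43927, c43949, c44117, c44179, c44288, c44301, trivial⟩ (nd (nat_lit 295) (nat_lit 0) (cs (rf (nat_lit 0)) (cs (nd (nat_lit 340) (nat_lit 0) (cs (rf (nat_lit 1)) (cs (nd (nat_lit 317) (nat_lit 0) (cs (nd (nat_lit 251) (nat_lit 0) (cs (lf (nat_lit 25) (nat_lit 251)) (nd (nat_lit 271) (nat_lit 0) (cs (lf (nat_lit 10) (nat_lit 249)) (nd (nat_lit 249) (nat_lit 0) (cs (lf (nat_lit 11) (nat_lit 248)) (nd (nat_lit 226) (nat_lit 0) (cs (lf (nat_lit 22) (nat_lit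 226)) (nd (nat_lit 248) (nat_lit 0) (cs (lf (nat_lit 23) (nat_lit 225)) (nd (nat_lit 231) (nat_lit 0) (cs (lf (nat_lit 17) (nat_lit 228)) (nd (nat_lit 182) (nat_lit 0) (cs (lf (nat_lit 25) (nat_lit 182)) (nd (nat_lit 315) (nat_lit 0) (cs (lf (nat_lit 43) (nat_lit 226)) (nd (nat_lit 316) (nat_lit 0) (cs (lf (nat_lit 12) (nat_lit 292)) (lf (nat_lit 17) (nat_lit 293)))))))))))))))))))) (cs (rf (nat_lit 2)) (rf (nat_lit 3))))) (cs (rf (nat_lit 4)) (rf (nat_lit 5)))))) (cs (rf (nat_lit 6)) (cs (rf (nat_lit 7)) (cs (nd (nat_lit 294) (nat_lit 0) (cs (rf (nat_lit 8)) (cs (rf (nat_lit 9)) (nd (nat_lit 272) (nat_lit 0) (cs (rf (nat_lit 10)) (cs (rf (nat_lit 11)) (cs (rf (nat_lit 12)) (nd (nat_lit 316) (nat_lit 0) (cs (rf (nat_lit 13)) (cs (rf (nat_lit 14)) (nd (nat_lit 227) (nat_lit 0) (cs (lf (nat_lit 46) (nat_lit 227)) (nd (nat_lit 317) (nat_lit 0) (cs (lf (nat_lit 29) (nat_lit 250)) (nd (nat_lit 297) (nat_lit 0) (cs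 (lf (nat_lit 6) (nat_lit 294)) (nd (nat_lit 251) (nat_lit 0) (cs (lf (nat_lit 35) (nat_lit 228)) (nd (nat_lit 273) (nat_lit 0) (cs (lf (nat_lit 41) (nat_lit 250)) (lf (nat_lit 29) (nat_lit 251)))))))))))))))))))))) (cs (rf (nat_lit 15)) (cs (rf (nat_lit 16)) (cs (rf (nat_lit 17)) (cs (nd (nat_lit 294) (nat_lit 0) (cs (rf (nat_lit 8)) (cs (nd (nat_lit 271) (nat_lit 0) (cs (rf (nat_lit 18)) (rf (nat_lit 19)))) (cs (rf (nat_lit 9)) (nd (nat_lit 319) (nat_lit 0) (cs (rf (nat_lit 20)) (cs (nd (nat_lit 316) (nat_lit 0) (cs (rf (nat_lit 21)) (cs (nd (nat_lit 315) (nat_lit 0) (cs (lf (nat_lit 6) (nat_lit 293)) (nd (nat_lit 272) (nat_lit 0) (cs (lf (nat_lit 41) (nat_lit 249)) (rf (nat_lit 22)))))) (nd (nat_lit 272) (nat_lit 0) (cs (rf (nat_lit 22)) (nd (nat_lit 339) (nat_lit 0) (cs (lf (nat_lit 28) (nat_lit 250)) (nd (nat_lit 338) (nat_lit 0) (cs (lf (nat_lit 29) (nat_lit 272)) (nd (nat_lit 337) (nat_lit 0) (cs (lf (nat_lit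 41) (nat_lit 271)) (lf (nat_lit 15) (nat_lit 315))))))))))))) (nd (nat_lit 320) (nat_lit 0) (cs (lf (nat_lit 21) (nat_lit 294)) (lf (nat_lit 18) (nat_lit 295))))))))))) (cs (rf (nat_lit 23)) (cs (nd (nat_lit 294) (nat_lit 0) (cs (rf (nat_lit 24)) (cs (rf (nat_lit 25)) (cs (rf (nat_lit 26)) (nd (nat_lit 319) (nat_lit 0) (cs (lf (nat_lit 0) (nat_lit 293)) (rf (nat_lit 27)))))))) (cs (rf (nat_lit 28)) (rf (nat_lit 29))))))))))))))) q44302 (by decide +kernel)
def q44917 : Q := Q.p (nat_lit 0x100003400000000010000040000000000000000000000000000000000000000000000) (nat_lit 0xc0000bc0006f80003c0003fe000ff800bff000fe0003fc0003c0000500000000000000000000000) (nat_lit 15)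
theorem c44917 : QOK q44917 := cut [q44496, q44549, q44885, q44888, q44891, q44897, q44887, q21133, q44551, q17127, q44540, q44544, q44911, q44915] ⟨c44496, c44549, c44885, c44888, c44891, c44897, c44887, c21133, c44551, c17127, c44540, c44544, c44911, c44915, trivial⟩ (nd (nat_lit 206) (nat_lit 0) (cs (nd (nat_lit 228) (nat_lit 0) (cs (rf (nat_lit 0)) (rf (nat_lit 1)))) (cs (rf (nat_lit 2)) (cs (nd (nat_lit 228) (nat_lit 0) (cs (rf (nat_lit 1)) (cs (rf (nat_lit 3)) (cs (rf (nat_lit 4)) (rf (nat_lit 5)))))) (cs (nd (nat_lit 228) (nat_lit 0) (cs (rf (nat_lit 0)) (rf (nat_lit 6)))) (cs (nd (nat_lit 205) (nat_lit 0) (cs (nd (nat_lit 228) (nat_lit 0) (cs (lf (nat_lit 47) (nat_lit 183)) (rf (nat_lit 7)))) (cs (rf (nat_lit 8)) (nd (nat_lit 207) (nat_lit 0) (cs (lf (nat_lit 17) (nat_lit 183)) (nd (nat_lit 226) (nat_lit 0) (cs (lf (nat_lit 10) (nat_lit 204)) (nd (nat_lit 204) (nat_lit 0) (cs (lf (nat_lit 11) (nat_lit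 203)) (nd (nat_lit 181) (nat_lit 0) (cs (lf (nat_lit 22) (nat_lit 181)) (nd (nat_lit 203) (nat_lit 0) (cs (lf (nat_lit 23) (nat_lit 180)) (nd (nat_lit 137) (nat_lit 0) (cs (lf (nat_lit 25) (nat_lit 137)) (nd (nat_lit 248) (nat_lit 0) (cs (lf (nat_lit 42) (nat_lit 181)) (nd (nat_lit 228) (nat_lit 0) (cs (lf (nat_lit 5) (nat_lit 203)) (rf (nat_lit 7))))))))))))))))))))) (cs (nd (nat_lit 228) (nat_lit 0) (cs (rf (nat_lit 9)) (cs (rf (nat_lit 0)) (rf (nat_lit 5))))) (nd (nat_lit 205) (nat_lit 0) (cs (rf (nat_lit 10)) (cs (rf (nat_lit 11)) (cs (nd (nat_lit 228) (nat_lit 0) (cs (lf (nat_lit 47) (nat_lit 183)) (rf (nat_lit 12)))) (rf (nat_lit 13))))))))))))) q44917 (by decide +kernel)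
def q46557 : Q := Q.p (nat_lit 0x100003400000000010000040000000000000000000000000000000000000000000000) (nat_lit 0x140000f00007e0003fe000ffc007ff001ffc00fff003fdc007ef80183f002bfc008ff000bfc000fc0003f0000e00003800000000000000000000000) (nat_lit 15)
theorem c46557 : QOK q46557 := cut [q45082, q40795, q14187, q44918, q45097, q45327, q44946, q45333, q45846, q45847, q45849, q46554, q14128, q46555] ⟨c45082, c40795, c14187, c44918, c45097, c45327, c44946, c45333, c45846, c45847, c45849, c46554, c14128, c46555, trivial⟩ (nd (nat_lit 317) (nat_lit 0) (cs (nd (nat_lit 295) (nat_lit 0) (cs (rf (nat_lit 0)) (cs (nd (nat_lit 228) (nat_lit 0) (cs (lf (nat_lit 27) (nat_lit 228)) (rf (nat_lit 1)))) (nd (nat_lit 294) (nat_lit 0) (cs (lf (nat_lit 24) (nat_lit 228)) (rf (nat_lit 2))))))) (cs (nd (nat_lit 228) (nat_lit 0) (cs (rf (nat_lit 3)) (cs (rf (nat_lit 4)) (cs (nd (nat_lit 294) (nat_lit 0) (cs (lf (nat_lit 28) (nat_lit 228))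 (rf (nat_lit 5)))) (cs (nd (nat_lit 295) (nat_lit 0) (cs (lf (nat_lit 27) (nat_lit 228)) (rf (nat_lit 6)))) (nd (nat_lit 295) (nat_lit 0) (cs (lf (nat_lit 27) (nat_lit 228)) (nd (nat_lit 206) (nat_lit 0) (cs (lf (nat_lit 28) (nat_lit 206)) (rf (nat_lit 7))))))))))) (cs (rf (nat_lit 8)) (cs (nd (nat_lit 273) (nat_lit 0) (cs (nd (nat_lit 295) (nat_lit 0) (cs (lf (nat_lit 42) (nat_lit 250)) (rf (nat_lit 9)))) (cs (nd (nat_lit 274) (nat_lit 0) (cs (lf (nat_lit 12) (nat_lit 249)) (nd (nat_lit 275) (nat_lit 0) (cs (lf (nat_lit 23) (nat_lit 249)) (nd (nat_lit 297) (nat_lit 0) (cs (lf (nat_lit 5) (nat_lit 272)) (nd (nat_lit 319) (nat_lit 0) (cs (lf (nat_lit 42) (nat_lit 252)) (rf (nat_lit 10)))))))))) (nd (nat_lit 274) (nat_lit 0) (cs (lf (nat_lit 12) (nat_lit 249)) (nd (nat_lit 275) (nat_lit 0) (cs (lf (nat_lit 23) (nat_lit 249)) (nd (nat_lit 297) (nat_lit 0) (cs (lf (nat_lit 5) (nat_lit 272)) (nd (nat_lit 319) (nat_lit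 0) (cs (lf (nat_lit 42) (nat_lit 252)) (nd (nat_lit 320) (nat_lit 0) (cs (lf (nat_lit 29) (nat_lit 253)) (nd (nat_lit 318) (nat_lit 0) (cs (lf (nat_lit 41) (nat_lit 252)) (nd (nat_lit 295) (nat_lit 0) (cs (lf (nat_lit 23) (nat_lit 294)) (nd (nat_lit 296) (nat_lit 0) (cs (lf (nat_lit 18) (nat_lit 295)) (lf (nat_lit 36) (nat_lit 230))))))))))))))))))))) (cs (rf (nat_lit 11)) (nd (nat_lit 294) (nat_lit 0) (cs (nd (nat_lit 316) (nat_lit 0) (cs (lf (nat_lit 29) (nat_lit 250)) (rf (nat_lit 12)))) (rf (nat_lit 13)))))))))) q46557 (by decide +kernel)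
def q47857 : Q := Q.p (nat_lit 0x100003400000000010000040000000000000000000000000000000000000000000000) (nat_lit 0x28000bf0007ff801ffc00fff800ef80003f0008f8000ff000bfc0003c000040000000000000000000000000000000000) (nat_lit 15)
theorem c47857 : QOK q47857 := cut [q46697, q46700, q46734, q46736, q46738, q46761, q46770, q46776, q46802, q46894, q46950, q47509, q47569, q46595, q47579, q47601, q47618, q47623, q47628, q47629, q47686, q47695, q47702, q47739, q46744, q46750, q46759, q46907, q47818, q46769, q47854, q47811] ⟨c46697, c46700, c46734, c46736, c46738, c46761, c46770, c46776, c46802, c46894, c46950, c47509, c47569, c46595, c47579, c47601, c47618, c47623, c47628, c47629, c47686, c47695, c47702, c47739, c46744, c46750, c46759, c46907, c47818, c46769, c47854, c47811, trivial⟩ (nd (nat_lit 271) (nat_lit 0) (cs (rf (nat_lit 0)) (cs (nd (nat_lit 273) (nat_lit 0) (cs (lf (nat_lit 15) (nat_lit 249)) (nd (nat_lit 270)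 (nat_lit 0) (cs (rf (nat_lit 1)) (cs (rf (nat_lit 2)) (cs (rf (nat_lit 3)) (rf (nat_lit 4)))))))) (cs (nd (nat_lit 273) (nat_lit 0) (cs (lf (nat_lit 15) (nat_lit 249)) (nd (nat_lit 270) (nat_lit 0) (cs (rf (nat_lit 1)) (cs (rf (nat_lit 3)) (cs (rf (nat_lit 4)) (rf (nat_lit 5)))))))) (cs (nd (nat_lit 270) (nat_lit 0) (cs (rf (nat_lit 6)) (cs (nd (nat_lit 273) (nat_lit 0) (cs (lf (nat_lit 15) (nat_lit 249)) (rf (nat_lit 5)))) (cs (nd (nat_lit 273) (nat_lit 0) (cs (lf (nat_lit 15) (nat_lit 249)) (nd (nat_lit 295) (nat_lit 0) (cs (lf (nat_lit 5) (nat_lit 270)) (nd (nat_lit 317) (nat_lit 0) (cs (lf (nat_lit 42) (nat_lit 250)) (rf (nat_lit 7)))))))) (cs (rf (nat_lit 8)) (cs (rf (nat_lit 9)) (nd (nat_lit 273) (nat_lit 0) (cs (lf (nat_lit 15) (nat_lit 249)) (rf (nat_lit 10)))))))))) (cs (rf (nat_lit 11)) (cs (rf (nat_lit 12)) (cs (nd (nat_lit 296) (nat_lit 0) (cs (rf (nat_lit 13)) (cs (rf (nat_lit 14)) (nd (nat_lit 273)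 (nat_lit 0) (cs (lf (nat_lit 15) (nat_lit 249)) (nd (nat_lit 270) (nat_lit 0) (cs (lf (nat_lit 4) (nat_lit 270)) (rf (nat_lit 7))))))))) (cs (rf (nat_lit 15)) (cs (nd (nat_lit 270) (nat_lit 0) (cs (rf (nat_lit 8)) (cs (rf (nat_lit 16)) (cs (nd (nat_lit 273) (nat_lit 0) (cs (lf (nat_lit 15) (nat_lit 249)) (rf (nat_lit 17)))) (cs (rf (nat_lit 18)) (rf (nat_lit 19))))))) (cs (nd (nat_lit 270) (nat_lit 0) (cs (rf (nat_lit 6)) (cs (rf (nat_lit 8)) (cs (rf (nat_lit 16)) (cs (rf (nat_lit 19)) (cs (nd (nat_lit 273) (nat_lit 0) (cs (lf (nat_lit 15) (nat_lit 249)) (rf (nat_lit 7)))) (cs (rf (nat_lit 20)) (cs (nd (nat_lit 273) (nat_lit 0) (cs (lf (nat_lit 15) (nat_lit 249)) (rf (nat_lit 21)))) (nd (nat_lit 273) (nat_lit 0) (cs (lf (nat_lit 15) (nat_lit 249)) (rf (nat_lit 22)))))))))))) (cs (rf (nat_lit 23)) (cs (nd (nat_lit 273) (nat_lit 0) (cs (lf (nat_lit 15) (nat_lit 249)) (nd (nat_lit 270) (nat_lit 0) (cs (rf (nat_lit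 4)) (cs (rf (nat_lit 7)) (cs (rf (nat_lit 17)) (nd (nat_lit 248) (nat_lit 0) (cs (lf (nat_lit 23) (nat_lit 247)) (nd (nat_lit 226) (nat_lit 0) (cs (rf (nat_lit 24)) (cs (rf (nat_lit 25)) (cs (rf (nat_lit 26)) (nd (nat_lit 292) (nat_lit 0) (cs (lf (nat_lit 11) (nat_lit 269)) (rf (nat_lit 27)))))))))))))))) (cs (rf (nat_lit 28)) (cs (nd (nat_lit 296) (nat_lit 0) (cs (rf (nat_lit 13)) (cs (rf (nat_lit 14)) (nd (nat_lit 273) (nat_lit 0) (cs (lf (nat_lit 15) (nat_lit 249)) (nd (nat_lit 270) (nat_lit 0) (cs (lf (nat_lit 4) (nat_lit 270)) (rf (nat_lit 29))))))))) (cs (rf (nat_lit 30)) (nd (nat_lit 273) (nat_lit 0) (cs (lf (nat_lit 15) (nat_lit 249)) (nd (nat_lit 270) (nat_lit 0) (cs (rf (nat_lit 2)) (cs (rf (nat_lit 5)) (cs (rf (nat_lit 17)) (cs (rf (nat_lit 22)) (rf (nat_lit 31))))))))))))))))))))))))) q47857 (by decide +kernel)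
def q49196 : Q := Q.p (nat_lit 0x100003480000000010000040000000000000000000000000000000000000000000000) (nat_lit 0x340003f0001fe000ff00037f0006fc00026000bff000ff800bff000fc0001d0000000000000000000000000000000000) (nat_lit 14)
theorem c49196 : QOK q49196 := cut [q45667, q48722, q45353, q48832, q48918, q48956, q48851, q48959, q48704, q48954, q48976, q48979, q49019, q49083, q49158, q49168, q45097, q48542, q48606, q49120, q48953, q48721, q48839, q49172, q48702, q49103, q49175, q48711, q46785, q48774, q49180, q48934, q49189, q49085, q17894, q49110, q49112, q49118, q49193] ⟨c45667, c48722, c45353, c48832, c48918, c48956, c48851, c48959, c48704, c48954, c48976, c48979, c49019, c49083, c49158, c49168, c45097, c48542, c48606, c49120, c48953, c48721, c48839, c49172, c48702, c49103, c49175, c48711, c46785, c48774, c49180, c48934, c49189, c49085, c17894, c49110, c49112, c49118, c49193, trivial⟩ (nd (nat_lit 271) (nat_lit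 0) (cs (nd (nat_lit 269) (nat_lit 0) (cs (rf (nat_lit 0)) (cs (rf (nat_lit 1)) (cs (nd (nat_lit 270) (nat_lit 0) (cs (lf (nat_lit 23) (nat_lit 246)) (nd (nat_lit 249) (nat_lit 0) (cs (lf (nat_lit 12) (nat_lit 246)) (rf (nat_lit 2)))))) (rf (nat_lit 3)))))) (cs (rf (nat_lit 4)) (cs (rf (nat_lit 5)) (cs (nd (nat_lit 291) (nat_lit 0) (cs (rf (nat_lit 6)) (cs (rf (nat_lit 7)) (cs (nd (nat_lit 293) (nat_lit 0) (cs (rf (nat_lit 8)) (cs (rf (nat_lit 9)) (rf (nat_lit 10))))) (rf (nat_lit 11)))))) (cs (rf (nat_lit 12)) (cs (rf (nat_lit 13)) (cs (rf (nat_lit 14)) (cs (rf (nat_lit 15)) (cs (nd (nat_lit 228) (nat_lit 0) (cs (rf (nat_lit 16)) (cs (rf (nat_lit 17)) (cs (rf (nat_lit 18)) (cs (rf (nat_lit 19)) (nd (nat_lit 293) (nat_lit 0) (cs (rf (nat_lit 20)) (cs (nd (nat_lit 269) (nat_lit 0) (cs (nd (nat_lit 291) (nat_lit 0) (cs (rf (nat_lit 21)) (cs (rf (nat_lit 22)) (rf (nat_lit 23))))) (cs (nd (nat_lit 291) (nat_lit 0)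 (cs (rf (nat_lit 24)) (cs (rf (nat_lit 21)) (nd (nat_lit 294) (nat_lit 0) (cs (rf (nat_lit 25)) (rf (nat_lit 26))))))) (cs (nd (nat_lit 291) (nat_lit 0) (cs (rf (nat_lit 27)) (cs (rf (nat_lit 21)) (cs (nd (nat_lit 225) (nat_lit 0) (cs (rf (nat_lit 28)) (cs (rf (nat_lit 29)) (nd (nat_lit 204) (nat_lit 0) (cs (lf (nat_lit 34) (nat_lit 203)) (nd (nat_lit 292) (nat_lit 0) (cs (lf (nat_lit 29) (nat_lit 225)) (nd (nat_lit 182) (nat_lit 0) (cs (lf (nat_lit 33) (nat_lit 181)) (rf (nat_lit 30))))))))))) (nd (nat_lit 292) (nat_lit 0) (cs (lf (nat_lit 12) (nat_lit 268)) (rf (nat_lit 30)))))))) (nd (nat_lit 270) (nat_lit 0) (cs (lf (nat_lit 23) (nat_lit 246)) (rf (nat_lit 31)))))))) (cs (rf (nat_lit 32)) (nd (nat_lit 315) (nat_lit 0) (cs (lf (nat_lit 39) (nat_lit 227)) (lf (nat_lit 33) (nat_lit 227))))))))))))) (nd (nat_lit 228) (nat_lit 0) (cs (rf (nat_lit 16)) (cs (rf (nat_lit 18)) (cs (nd (nat_lit 294) (nat_lit 0) (cs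 (nd (nat_lit 227) (nat_lit 0) (cs (lf (nat_lit 47) (nat_lit 205)) (nd (nat_lit 226) (nat_lit 0) (cs (nd (nat_lit 273) (nat_lit 0) (cs (lf (nat_lit 15) (nat_lit 249)) (rf (nat_lit 33)))) (cs (nd (nat_lit 273) (nat_lit 0) (cs (lf (nat_lit 15) (nat_lit 249)) (nd (nat_lit 229) (nat_lit 0) (cs (lf (nat_lit 16) (nat_lit 204)) (nd (nat_lit 293) (nat_lit 0) (cs (lf (nat_lit 41) (nat_lit 227)) (nd (nat_lit 204) (nat_lit 0) (cs (lf (nat_lit 23) (nat_lit 203)) (lf (nat_lit 44) (nat_lit 204)))))))))) (cs (nd (nat_lit 293) (nat_lit 0) (cs (lf (nat_lit 41) (nat_lit 227)) (nd (nat_lit 273) (nat_lit 0) (cs (lf (nat_lit 15) (nat_lit 249)) (nd (nat_lit 229) (nat_lit 0) (cs (lf (nat_lit 35) (nat_lit 206)) (rf (nat_lit 34)))))))) (nd (nat_lit 225) (nat_lit 0) (cs (lf (nat_lit 11) (nat_lit 224)) (nd (nat_lit 249) (nat_lit 0) (cs (lf (nat_lit 0) (nat_lit 224)) (nd (nat_lit 293) (nat_lit 0) (cs (lf (nat_lit 47) (nat_lit 204)) (lf (nat_lit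 41) (nat_lit 227)))))))))))))) (cs (nd (nat_lit 207) (nat_lit 0) (cs (lf (nat_lit 34) (nat_lit 206)) (nd (nat_lit 273) (nat_lit 0) (cs (lf (nat_lit 15) (nat_lit 249)) (rf (nat_lit 25)))))) (cs (rf (nat_lit 35)) (cs (nd (nat_lit 207) (nat_lit 0) (cs (lf (nat_lit 34) (nat_lit 206)) (nd (nat_lit 273) (nat_lit 0) (cs (lf (nat_lit 15) (nat_lit 249)) (rf (nat_lit 36)))))) (rf (nat_lit 37))))))) (cs (rf (nat_lit 19)) (nd (nat_lit 273) (nat_lit 0) (cs (lf (nat_lit 15) (nat_lit 249)) (rf (nat_lit 38))))))))))))))))))) q49196 (by decide +kernel)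
def q51474 : Q := Q.p (nat_lit 0x100003480000000010000040000000000000000000000000000000000000000000000) (nat_lit 0x200003dc000ffc003fe0007fc006ff000178003ff000ff800bff000ff8000fe0001c0000500000000000000000000000) (nat_lit 14)
theorem c51474 : QOK q51474 := cut [q49598, q49910, q49924, q49931, q49932, q49941, q50035, q49943, q50057, q49621, q50060, q49652, q49694, q50070, q50130, q50413, q50496, q50530, q50629, q50766, q50813, q49514, q49541, q49590, q49596, q49597, q49612, q50088, q48835, q49171, q49551, q46785, q48790, q48829, q50816, q49212, q49305, q50525, q49240, q50192, q50842, q50849, q50851, q51203, q51227, q51260, q49616, q49712, q49850, q51268, q51391, q51432, q51471, q49711, q49733, q49243, q51258] ⟨c49598, c49910, c49924, c49931, c49932, c49941, c50035, c49943, c50057, c49621, c50060, c49652, c49694, c50070, c50130, c50413, c50496, c50530, c50629, c50766, c50813, c49514, c49541, c49590, c49596, c49597,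 c49612, c50088, c48835, c49171, c49551, c46785, c48790, c48829, c50816, c49212, c49305, c50525, c49240, c50192, c50842, c50849, c50851, c51203, c51227, c51260, c49616, c49712, c49850, c51268, c51391, c51432, c51471, c49711, c49733, c49243, c51258, trivial⟩ (nd (nat_lit 246) (nat_lit 0) (cs (rf (nat_lit 0)) (cs (rf (nat_lit 1)) (cs (nd (nat_lit 245) (nat_lit 0) (cs (rf (nat_lit 2)) (cs (rf (nat_lit 3)) (cs (rf (nat_lit 4)) (cs (rf (nat_lit 5)) (cs (rf (nat_lit 6)) (cs (nd (nat_lit 269) (nat_lit 0) (cs (rf (nat_lit 7)) (cs (rf (nat_lit 8)) (nd (nat_lit 270) (nat_lit 0) (cs (lf (nat_lit 19) (nat_lit 246)) (nd (nat_lit 267) (nat_lit 0) (cs (rf (nat_lit 9)) (cs (rf (nat_lit 10)) (nd (nat_lit 289) (nat_lit 0) (cs (rf (nat_lit 11)) (cs (rf (nat_lit 12)) (nd (nat_lit 288) (nat_lit 0) (cs (nd (nat_lit 223) (nat_lit 0) (cs (lf (nat_lit 41) (nat_lit 222)) (nd (nat_lit 290) (nat_lit 0) (cs (lf (nat_lit 29) (nat_lit 223))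 (lf (nat_lit 15) (nat_lit 266)))))) (lf (nat_lit 8) (nat_lit 266))))))))))))))) (rf (nat_lit 13))))))))) (cs (rf (nat_lit 14)) (cs (rf (nat_lit 15)) (cs (rf (nat_lit 16)) (cs (rf (nat_lit 17)) (cs (rf (nat_lit 18)) (cs (rf (nat_lit 19)) (cs (rf (nat_lit 20)) (cs (nd (nat_lit 269) (nat_lit 0) (cs (rf (nat_lit 21)) (cs (rf (nat_lit 22)) (cs (rf (nat_lit 23)) (cs (rf (nat_lit 24)) (cs (rf (nat_lit 25)) (cs (nd (nat_lit 245) (nat_lit 0) (cs (rf (nat_lit 26)) (cs (rf (nat_lit 7)) (nd (nat_lit 271) (nat_lit 0) (cs (lf (nat_lit 20) (nat_lit 246)) (rf (nat_lit 27))))))) (nd (nat_lit 291) (nat_lit 0) (cs (rf (nat_lit 28)) (cs (rf (nat_lit 29)) (cs (rf (nat_lit 30)) (nd (nat_lit 225) (nat_lit 0) (cs (rf (nat_lit 31)) (cs (rf (nat_lit 32)) (cs (rf (nat_lit 33)) (nd (nat_lit 292) (nat_lit 0) (cs (lf (nat_lit 29) (nat_lit 225)) (nd (nat_lit 290) (nat_lit 0) (cs (lf (nat_lit 41) (nat_lit 224)) (nd (nat_lit 202) (nat_lit 0)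 (cs (lf (nat_lit 46) (nat_lit 202)) (rf (nat_lit 34))))))))))))))))))))))) (cs (nd (nat_lit 225) (nat_lit 0) (cs (rf (nat_lit 35)) (cs (rf (nat_lit 36)) (cs (rf (nat_lit 37)) (cs (nd (nat_lit 245) (nat_lit 0) (cs (rf (nat_lit 38)) (cs (rf (nat_lit 2)) (rf (nat_lit 39))))) (cs (rf (nat_lit 40)) (cs (rf (nat_lit 41)) (rf (nat_lit 42))))))))) (cs (rf (nat_lit 43)) (cs (rf (nat_lit 44)) (cs (rf (nat_lit 45)) (cs (nd (nat_lit 245) (nat_lit 0) (cs (rf (nat_lit 46)) (cs (rf (nat_lit 47)) (cs (rf (nat_lit 48)) (cs (rf (nat_lit 5)) (cs (rf (nat_lit 6)) (rf (nat_lit 49)))))))) (cs (rf (nat_lit 50)) (cs (rf (nat_lit 51)) (cs (rf (nat_lit 52)) (nd (nat_lit 245) (nat_lit 0) (cs (rf (nat_lit 46)) (cs (rf (nat_lit 53)) (cs (rf (nat_lit 47)) (cs (rf (nat_lit 54)) (cs (rf (nat_lit 48)) (cs (rf (nat_lit 49)) (nd (nat_lit 225) (nat_lit 0) (cs (rf (nat_lit 38)) (cs (rf (nat_lit 55)) (cs (rf (nat_lit 39)) (rf (nat_lit 56)))))))))))))))))))))))))))))))))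 q51474 (by decide +kernel)
def q52373 : Q := Q.p (nat_lit 0x100003480000000010000040000000000000000000000000000000000000000000000) (nat_lit 0x50000fe0003f00003f000ef0000360003f8000fe000bf00003c0000a0000000000000000000000000000000000) (nat_lit 14)
theorem c52373 : QOK q52373 := cut [q49019, q52004, q52038, q45320, q52054, q46971, q48696, q46573, q52309, q52044, q52058, q52081, q46744, q52342, q45337, q52362, q47255, q52061, q52108, q45500, q52053, q46599, q47248] ⟨c49019, c52004, c52038, c45320, c52054, c46971, c48696, c46573, c52309, c52044, c52058, c52081, c46744, c52342, c45337, c52362, c47255, c52061, c52108, c45500, c52053, c46599, c47248, trivial⟩ (nd (nat_lit 271) (nat_lit 0) (cs (rf (nat_lit 0)) (cs (rf (nat_lit 1)) (cs (rf (nat_lit 2)) (cs (nd (nat_lit 249) (nat_lit 0) (cs (rf (nat_lit 3)) (cs (rf (nat_lit 4)) (nd (nat_lit 293) (nat_lit 0) (cs (nd (nat_lit 315) (nat_lit 0) (cs (lf (nat_lit 30) (nat_lit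 249)) (nd (nat_lit 316) (nat_lit 0) (cs (lf (nat_lit 29) (nat_lit 249)) (rf (nat_lit 5)))))) (cs (rf (nat_lit 6)) (nd (nat_lit 227) (nat_lit 0) (cs (rf (nat_lit 7)) (cs (rf (nat_lit 8)) (nd (nat_lit 273) (nat_lit 0) (cs (lf (nat_lit 15) (nat_lit 249)) (nd (nat_lit 292) (nat_lit 0) (cs (lf (nat_lit 41) (nat_lit 226)) (nd (nat_lit 290) (nat_lit 0) (cs (lf (nat_lit 13) (nat_lit 268)) (nd (nat_lit 228) (nat_lit 0) (cs (rf (nat_lit 9)) (lf (nat_lit 35) (nat_lit 205))))))))))))))))))) (nd (nat_lit 248) (nat_lit 0) (cs (rf (nat_lit 10)) (cs (nd (nat_lit 270) (nat_lit 0) (cs (rf (nat_lit 11)) (cs (nd (nat_lit 226) (nat_lit 0) (cs (rf (nat_lit 12)) (cs (rf (nat_lit 13)) (cs (nd (nat_lit 203) (nat_lit 0) (cs (nd (nat_lit 181) (nat_lit 0) (cs (lf (nat_lit 45) (nat_lit 181)) (lf (nat_lit 26) (nat_lit 181)))) (cs (nd (nat_lit 245) (nat_lit 0) (cs (lf (nat_lit 1) (nat_lit 245)) (nd (nat_lit 204) (nat_lit 0) (cs (lf (nat_lit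 47) (nat_lit 181)) (nd (nat_lit 205) (nat_lit 0) (cs (lf (nat_lit 35) (nat_lit 182)) (nd (nat_lit 227) (nat_lit 0) (cs (lf (nat_lit 30) (nat_lit 204)) (nd (nat_lit 202) (nat_lit 0) (cs (lf (nat_lit 0) (nat_lit 201)) (lf (nat_lit 5) (nat_lit 202)))))))))))) (cs (nd (nat_lit 245) (nat_lit 0) (cs (lf (nat_lit 1) (nat_lit 245)) (nd (nat_lit 292) (nat_lit 0) (cs (lf (nat_lit 46) (nat_lit 203)) (nd (nat_lit 205) (nat_lit 0) (cs (lf (nat_lit 34) (nat_lit 204)) (nd (nat_lit 291) (nat_lit 0) (cs (lf (nat_lit 41) (nat_lit 225)) (nd (nat_lit 289) (nat_lit 0) (cs (nd (nat_lit 183) (nat_lit 0) (cs (lf (nat_lit 33) (nat_lit 182)) (rf (nat_lit 14)))) (lf (nat_lit 13) (nat_lit 267)))))))))))) (nd (nat_lit 225) (nat_lit 0) (cs (lf (nat_lit 24) (nat_lit 181)) (lf (nat_lit 42) (nat_lit 203)))))))) (nd (nat_lit 245) (nat_lit 0) (cs (lf (nat_lit 1) (nat_lit 245)) (rf (nat_lit 15)))))))) (nd (nat_lit 226) (nat_lit 0) (cs (rf (nat_lit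 12)) (cs (rf (nat_lit 13)) (cs (rf (nat_lit 15)) (nd (nat_lit 204) (nat_lit 0) (cs (nd (nat_lit 205) (nat_lit 0) (cs (lf (nat_lit 35) (nat_lit 182)) (nd (nat_lit 203) (nat_lit 0) (cs (lf (nat_lit 47) (nat_lit 181)) (nd (nat_lit 225) (nat_lit 0) (cs (lf (nat_lit 42) (nat_lit 203)) (rf (nat_lit 16)))))))) (cs (rf (nat_lit 17)) (rf (nat_lit 18)))))))))))) (cs (nd (nat_lit 249) (nat_lit 0) (cs (rf (nat_lit 19)) (cs (rf (nat_lit 20)) (nd (nat_lit 270) (nat_lit 0) (cs (rf (nat_lit 21)) (cs (nd (nat_lit 269) (nat_lit 0) (cs (lf (nat_lit 12) (nat_lit 246)) (nd (nat_lit 224) (nat_lit 0) (cs (lf (nat_lit 22) (nat_lit 224)) (nd (nat_lit 291) (nat_lit 0) (cs (lf (nat_lit 11) (nat_lit 268)) (nd (nat_lit 313) (nat_lit 0) (cs (lf (nat_lit 30) (nat_lit 247)) (nd (nat_lit 314) (nat_lit 0) (cs (nd (nat_lit 292) (nat_lit 0) (cs (nd (nat_lit 315) (nat_lit 0) (cs (lf (nat_lit 29) (nat_lit 248)) (nd (nat_lit 316) (nat_lit 0) (cs (nd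 (nat_lit 338) (nat_lit 0) (cs (lf (nat_lit 5) (nat_lit 313)) (lf (nat_lit 26) (nat_lit 249)))) (lf (nat_lit 18) (nat_lit 291)))))) (lf (nat_lit 35) (nat_lit 226)))) (lf (nat_lit 29) (nat_lit 247)))))))))))) (nd (nat_lit 269) (nat_lit 0) (cs (lf (nat_lit 12) (nat_lit 246)) (rf (nat_lit 22)))))))))) (nd (nat_lit 249) (nat_lit 0) (cs (lf (nat_lit 0) (nat_lit 246)) (rf (nat_lit 20))))))))))))) q52373 (by decide +kernel)
def q52904 : Q := Q.p (nat_lit 0x10000000000000000e00002000000000010000000000000000000000000000000000000000000000000000) (nat_lit 0x144000f5000ffe003ef000fbc007ff000f080038c00007000004000000000000000000000000000000000000000000000000000) (nat_lit 15)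
theorem c52904 : QOK q52904 := cut [q14764, q52782, q52864, q52781, q52861, q52704, q52803, q52719, q52875, q13291] ⟨c14764, c52782, c52864, c52781, c52861, c52704, c52803, c52719, c52875, c13291, trivial⟩ (nd (nat_lit 295) (nat_lit 0) (cs (rf (nat_lit 0)) (cs (rf (nat_lit 1)) (cs (rf (nat_lit 2)) (nd (nat_lit 276) (nat_lit 0) (cs (lf (nat_lit 11) (nat_lit 272)) (nd (nat_lit 298) (nat_lit 0) (cs (lf (nat_lit 5) (nat_lit 273)) (nd (nat_lit 339) (nat_lit 0) (cs (rf (nat_lit 3)) (cs (rf (nat_lit 4)) (cs (nd (nat_lit 338) (nat_lit 0) (cs (rf (nat_lit 5)) (cs (rf (nat_lit 6)) (cs (nd (nat_lit 251) (nat_lit 0) (cs (lf (nat_lit 23) (nat_lit 250)) (nd (nat_lit 320) (nat_lit 0) (cs (lf (nat_lit 42) (nat_lit 253)) (nd (nat_lit 316) (nat_lit 0) (cs (lf (nat_lit 39) (nat_lit 250)) (nd (nat_lit 341) (nat_lit 0) (cs (lf (nat_lit 23) (nat_lit 315)) (lf (nat_lit 16) (nat_lit 316)))))))))) (nd (nat_lit 250) (nat_lit 0) (cs (lf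 (nat_lit 22) (nat_lit 250)) (nd (nat_lit 320) (nat_lit 0) (cs (lf (nat_lit 42) (nat_lit 253)) (nd (nat_lit 341) (nat_lit 0) (cs (lf (nat_lit 16) (nat_lit 316)) (nd (nat_lit 315) (nat_lit 0) (cs (lf (nat_lit 22) (nat_lit 315)) (nd (nat_lit 363) (nat_lit 0) (cs (lf (nat_lit 5) (nat_lit 338)) (rf (nat_lit 7)))))))))))))))) (cs (nd (nat_lit 362) (nat_lit 0) (cs (lf (nat_lit 26) (nat_lit 273)) (nd (nat_lit 342) (nat_lit 0) (cs (lf (nat_lit 43) (nat_lit 253)) (nd (nat_lit 341) (nat_lit 0) (cs (nd (nat_lit 250) (nat_lit 0) (cs (lf (nat_lit 22) (nat_lit 250)) (nd (nat_lit 297) (nat_lit 0) (cs (lf (nat_lit 38) (nat_lit 274)) (nd (nat_lit 365) (nat_lit 0) (cs (lf (nat_lit 4) (nat_lit 339)) (nd (nat_lit 343) (nat_lit 0) (cs (lf (nat_lit 5) (nat_lit 340)) (rf (nat_lit 8)))))))))) (cs (nd (nat_lit 361) (nat_lit 0) (cs (lf (nat_lit 11) (nat_lit 338)) (nd (nat_lit 250) (nat_lit 0) (cs (lf (nat_lit 22) (nat_lit 250)) (nd (nat_lit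 364) (nat_lit 0) (cs (lf (nat_lit 5) (nat_lit 339)) (nd (nat_lit 319) (nat_lit 0) (cs (lf (nat_lit 25) (nat_lit 275)) (nd (nat_lit 384) (nat_lit 0) (cs (lf (nat_lit 30) (nat_lit 318)) (nd (nat_lit 386) (nat_lit 0) (cs (lf (nat_lit 42) (nat_lit 319)) (nd (nat_lit 387) (nat_lit 0) (cs (lf (nat_lit 2) (nat_lit 361)) (lf (nat_lit 20) (nat_lit 361)))))))))))))))) (nd (nat_lit 361) (nat_lit 0) (cs (lf (nat_lit 11) (nat_lit 338)) (lf (nat_lit 6) (nat_lit 339))))))))))) (cs (nd (nat_lit 251) (nat_lit 0) (cs (lf (nat_lit 23) (nat_lit 250)) (nd (nat_lit 229) (nat_lit 0) (cs (lf (nat_lit 34) (nat_lit 207)) (nd (nat_lit 206) (nat_lit 0) (cs (lf (nat_lit 46) (nat_lit 206)) (nd (nat_lit 342) (nat_lit 0) (cs (lf (nat_lit 43) (nat_lit 253)) (nd (nat_lit 317) (nat_lit 0) (cs (lf (nat_lit 29) (nat_lit 273)) (nd (nat_lit 316) (nat_lit 0) (cs (lf (nat_lit 41) (nat_lit 250)) (lf (nat_lit 19) (nat_lit 316)))))))))))))) (nd (nat_lit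 317) (nat_lit 0) (cs (lf (nat_lit 29) (nat_lit 273)) (nd (nat_lit 338) (nat_lit 0) (cs (lf (nat_lit 41) (nat_lit 272)) (nd (nat_lit 342) (nat_lit 0) (cs (lf (nat_lit 43) (nat_lit 253)) (nd (nat_lit 341) (nat_lit 0) (cs (lf (nat_lit 23) (nat_lit 316)) (rf (nat_lit 9)))))))))))))))))))))))) q52904 (by decide +kernel)
def q53963 : Q := Q.p (nat_lit 0x10000000000000000c00002000000000000000000000000000000000000000000000000000000000000000) (nat_lit 0xfe0001e20007e8003ff00073e0038fc0001000004000000000000000000000000000000000000000000000000000) (nat_lit 12)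
theorem c53963 : QOK q53963 := cut [q25324, q53932, q12834, q12908, q53058, q2577, q31228, q31236, q13007, q53007, q12924, q14369, q12922, q15042, q53961] ⟨c25324, c53932, c12834, c12908, c53058, c2577, c31228, c31236, c13007, c53007, c12924, c14369, c12922, c15042, c53961, trivial⟩ (nd (nat_lit 297) (nat_lit 0) (cs (rf (nat_lit 0)) (cs (rf (nat_lit 1)) (cs (nd (nat_lit 273) (nat_lit 0) (cs (rf (nat_lit 2)) (cs (rf (nat_lit 3)) (cs (rf (nat_lit 4)) (nd (nat_lit 342) (nat_lit 0) (cs (nd (nat_lit 319) (nat_lit 0) (cs (lf (nat_lit 28) (nat_lit 253)) (rf (nat_lit 5)))) (cs (nd (nat_lit 341) (nat_lit 0) (cs (rf (nat_lit 6)) (cs (rf (nat_lit 7)) (cs (nd (nat_lit 276) (nat_lit 0) (cs (rf (nat_lit 8)) (cs (nd (nat_lit 319) (nat_lit 0) (cs (lf (nat_lit 29) (nat_lit 275)) (nd (nat_lit 363) (nat_lit 0) (cs (lf (nat_lit 46) (nat_lit 274)) (lf (nat_lit 34) (nat_lit 275)))))) (nd (nat_lit 319) (nat_lit 0) (cs (lf (nat_lit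 29) (nat_lit 275)) (nd (nat_lit 298) (nat_lit 0) (cs (lf (nat_lit 5) (nat_lit 273)) (lf (nat_lit 30) (nat_lit 275))))))))) (nd (nat_lit 343) (nat_lit 0) (cs (rf (nat_lit 9)) (nd (nat_lit 299) (nat_lit 0) (cs (rf (nat_lit 10)) (cs (rf (nat_lit 11)) (nd (nat_lit 321) (nat_lit 0) (cs (lf (nat_lit 17) (nat_lit 318)) (nd (nat_lit 277) (nat_lit 0) (cs (lf (nat_lit 41) (nat_lit 276)) (nd (nat_lit 276) (nat_lit 0) (cs (lf (nat_lit 5) (nat_lit 274)) (nd (nat_lit 256) (nat_lit 0) (cs (lf (nat_lit 16) (nat_lit 252)) (lf (nat_lit 34) (nat_lit 255))))))))))))))))))) (cs (nd (nat_lit 320) (nat_lit 0) (cs (lf (nat_lit 27) (nat_lit 253)) (nd (nat_lit 276) (nat_lit 0) (cs (lf (nat_lit 44) (nat_lit 253)) (nd (nat_lit 250) (nat_lit 0) (cs (lf (nat_lit 22) (nat_lit 250)) (nd (nat_lit 295) (nat_lit 0) (cs (lf (nat_lit 11) (nat_lit 272)) (nd (nat_lit 277) (nat_lit 0) (cs (lf (nat_lit 10) (nat_lit 273)) (nd (nat_lit 255) (nat_lit 0)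 (cs (lf (nat_lit 17) (nat_lit 252)) (nd (nat_lit 299) (nat_lit 0) (cs (lf (nat_lit 5) (nat_lit 274)) (lf (nat_lit 39) (nat_lit 254)))))))))))))))) (nd (nat_lit 298) (nat_lit 0) (cs (rf (nat_lit 12)) (rf (nat_lit 13)))))))))))) (nd (nat_lit 273) (nat_lit 0) (cs (rf (nat_lit 2)) (cs (rf (nat_lit 3)) (cs (rf (nat_lit 4)) (rf (nat_lit 14)))))))))) q53963 (by decide +kernel)
def q56293 : Q := Q.p (nat_lit 0xc00002000000000010000000000000000000000000000000000000000000000000000) (nat_lit 0x140001f00007c0003fe000ff8007ff000f3e0038fc00790001e4000740001000000000000000000000000000000000000000000) (nat_lit 15)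
theorem c56293 : QOK q56293 := cut [q52635, q2556, q11586, q2579, q11609, q14366, q23328, q12834, q12908, q53058, q13007, q12684, q15576, q52784, q56243, q25938, q52519, q23346] ⟨c52635, c2556, c11586, c2579, c11609, c14366, c23328, c12834, c12908, c53058, c13007, c12684, c15576, c52784, c56243, c25938, c52519, c23346, trivial⟩ (nd (nat_lit 297) (nat_lit 0) (cs (rf (nat_lit 0)) (cs (nd (nat_lit 298) (nat_lit 0) (cs (rf (nat_lit 1)) (rf (nat_lit 2)))) (cs (nd (nat_lit 319) (nat_lit 0) (cs (rf (nat_lit 3)) (cs (rf (nat_lit 4)) (cs (rf (nat_lit 5)) (rf (nat_lit 6)))))) (cs (nd (nat_lit 273) (nat_lit 0) (cs (rf (nat_lit 7)) (cs (rf (nat_lit 8)) (cs (rf (nat_lit 9)) (nd (nat_lit 276) (nat_lit 0) (cs (rf (nat_lit 10)) (cs (nd (nat_lit 277) (nat_lit 0) (cs (rf (nat_lit 11)) (cs (rf (nat_lit 12)) (cs (rf (nat_lit 13)) (nd (nat_lit 250) (nat_lit 0) (cs (lf (nat_lit 22) (nat_lit 250)) (nd (nat_lit 298) (nat_lit 0) (cs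 (lf (nat_lit 5) (nat_lit 273)) (nd (nat_lit 209) (nat_lit 0) (cs (lf (nat_lit 25) (nat_lit 209)) (rf (nat_lit 14)))))))))))) (cs (nd (nat_lit 295) (nat_lit 0) (cs (lf (nat_lit 11) (nat_lit 272)) (nd (nat_lit 298) (nat_lit 0) (cs (lf (nat_lit 5) (nat_lit 273)) (nd (nat_lit 231) (nat_lit 0) (cs (lf (nat_lit 24) (nat_lit 209)) (nd (nat_lit 251) (nat_lit 0) (cs (lf (nat_lit 23) (nat_lit 250)) (nd (nat_lit 210) (nat_lit 0) (cs (lf (nat_lit 34) (nat_lit 209)) (nd (nat_lit 318) (nat_lit 0) (cs (lf (nat_lit 40) (nat_lit 230)) (nd (nat_lit 340) (nat_lit 0) (cs (lf (nat_lit 39) (nat_lit 252)) (lf (nat_lit 27) (nat_lit 251)))))))))))))))) (nd (nat_lit 250) (nat_lit 0) (cs (lf (nat_lit 22) (nat_lit 250)) (nd (nat_lit 295) (nat_lit 0) (cs (lf (nat_lit 11) (nat_lit 272)) (rf (nat_lit 15)))))))))))))) (nd (nat_lit 298) (nat_lit 0) (cs (rf (nat_lit 16)) (nd (nat_lit 320) (nat_lit 0) (cs (lf (nat_lit 24) (nat_lit 231)) (rf (nat_lit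 17))))))))))) q56293 (by decide +kernel)
def q60120 : Q := Q.p (nat_lit 0x60000800002400000000000000000000000000000000000000000000000000000000000000) (nat_lit 0x200000d00007e0003fe000ff80019f0013f0001bc0002f00007c0001c000050000000000000000000000000000000000000000) (nat_lit 14)
theorem c60120 : QOK q60120 := cut [q59824, q60032, q59559, q59835, q47563, q59738, q60035, q60042, q60053, q60054, q60056, q60059, q60063, q60064, q60014, q60028, q56985, q60023, q60066, q60072, q60073, q60107, q60115] ⟨c59824, c60032, c59559, c59835, c47563, c59738, c60035, c60042, c60053, c60054, c60056, c60059, c60063, c60064, c60014, c60028, c56985, c60023, c60066, c60072, c60073, c60107, c60115, trivial⟩ (nd (nat_lit 271) (nat_lit 0) (cs (rf (nat_lit 0)) (cs (rf (nat_lit 1)) (cs (nd (nat_lit 272) (nat_lit 0) (cs (rf (nat_lit 2)) (cs (rf (nat_lit 3)) (cs (nd (nat_lit 292) (nat_lit 0) (cs (rf (nat_lit 4)) (cs (nd (nat_lit 251) (nat_lit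 0) (cs (lf (nat_lit 7) (nat_lit 249)) (nd (nat_lit 270) (nat_lit 0) (cs (lf (nat_lit 12) (nat_lit 247)) (rf (nat_lit 5)))))) (nd (nat_lit 251) (nat_lit 0) (cs (lf (nat_lit 7) (nat_lit 249)) (nd (nat_lit 290) (nat_lit 0) (cs (lf (nat_lit 13) (nat_lit 268)) (nd (nat_lit 270) (nat_lit 0) (cs (lf (nat_lit 12) (nat_lit 247)) (rf (nat_lit 6))))))))))) (rf (nat_lit 7)))))) (cs (rf (nat_lit 8)) (cs (nd (nat_lit 316) (nat_lit 0) (cs (rf (nat_lit 9)) (cs (nd (nat_lit 315) (nat_lit 0) (cs (nd (nat_lit 249) (nat_lit 0) (cs (lf (nat_lit 24) (nat_lit 227)) (nd (nat_lit 226) (nat_lit 0) (cs (lf (nat_lit 46) (nat_lit 226)) (rf (nat_lit 10)))))) (rf (nat_lit 11)))) (cs (rf (nat_lit 12)) (rf (nat_lit 13)))))) (cs (nd (nat_lit 270) (nat_lit 0) (cs (rf (nat_lit 14)) (cs (rf (nat_lit 15)) (cs (nd (nat_lit 315) (nat_lit 0) (cs (rf (nat_lit 16)) (cs (rf (nat_lit 17)) (nd (nat_lit 295) (nat_lit 0) (cs (lf (nat_lit 18) (nat_lit 270))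 (nd (nat_lit 292) (nat_lit 0) (cs (nd (nat_lit 313) (nat_lit 0) (cs (lf (nat_lit 10) (nat_lit 291)) (nd (nat_lit 291) (nat_lit 0) (cs (lf (nat_lit 11) (nat_lit 290)) (rf (nat_lit 18)))))) (cs (rf (nat_lit 19)) (nd (nat_lit 226) (nat_lit 0) (cs (lf (nat_lit 25) (nat_lit 226)) (nd (nat_lit 317) (nat_lit 0) (cs (lf (nat_lit 5) (nat_lit 292)) (nd (nat_lit 291) (nat_lit 0) (cs (lf (nat_lit 4) (nat_lit 291)) (rf (nat_lit 20)))))))))))))))) (nd (nat_lit 269) (nat_lit 0) (cs (lf (nat_lit 0) (nat_lit 268)) (nd (nat_lit 272) (nat_lit 0) (cs (lf (nat_lit 17) (nat_lit 247)) (nd (nat_lit 315) (nat_lit 0) (cs (lf (nat_lit 30) (nat_lit 249)) (nd (nat_lit 246) (nat_lit 0) (cs (lf (nat_lit 22) (nat_lit 246)) (nd (nat_lit 291) (nat_lit 0) (cs (lf (nat_lit 11) (nat_lit 268)) (nd (nat_lit 292) (nat_lit 0) (cs (lf (nat_lit 6) (nat_lit 269)) (nd (nat_lit 226) (nat_lit 0) (cs (lf (nat_lit 25) (nat_lit 226)) (nd (nat_lit 316) (nat_lit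 0) (cs (lf (nat_lit 5) (nat_lit 291)) (nd (nat_lit 338) (nat_lit 0) (cs (lf (nat_lit 42) (nat_lit 271)) (nd (nat_lit 313) (nat_lit 0) (cs (lf (nat_lit 11) (nat_lit 290)) (nd (nat_lit 339) (nat_lit 0) (cs (lf (nat_lit 29) (nat_lit 272)) (lf (nat_lit 1) (nat_lit 313)))))))))))))))))))))))))))) (cs (rf (nat_lit 21)) (cs (rf (nat_lit 22)) (nd (nat_lit 270) (nat_lit 0) (cs (rf (nat_lit 14)) (cs (nd (nat_lit 316) (nat_lit 0) (cs (rf (nat_lit 9)) (cs (rf (nat_lit 13)) (nd (nat_lit 295) (nat_lit 0) (cs (lf (nat_lit 18) (nat_lit 270)) (nd (nat_lit 249) (nat_lit 0) (cs (lf (nat_lit 24) (nat_lit 227)) (nd (nat_lit 251) (nat_lit 0) (cs (lf (nat_lit 6) (nat_lit 248)) (nd (nat_lit 229) (nat_lit 0) (cs (lf (nat_lit 38) (nat_lit 228)) (lf (nat_lit 32) (nat_lit 228))))))))))))) (nd (nat_lit 269) (nat_lit 0) (cs (lf (nat_lit 0) (nat_lit 268)) (nd (nat_lit 251) (nat_lit 0) (cs (lf (nat_lit 15) (nat_lit 247)) (nd (nat_lit 252) (nat_lit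 0) (cs (lf (nat_lit 5) (nat_lit 250)) (lf (nat_lit 9) (nat_lit 248)))))))))))))))))))) q60120 (by decide +kernel)
def q60286 : Q := Q.p (nat_lit 0x60000800002400000000010000000000000000000000000000000000000000000000000000) (nat_lit 0x200000d00007e0003fe000ff80019f0015f0001b8001af000270000dc000050000000000000000000000000000000000000000) (nat_lit 13)
theorem c60286 : QOK q60286 := cut [q59824, q60032, q60053, q60107, q60115, q60014, q60031, q60035, q60251, q60249, q14221, q56985, q60023, q59254, q60072, q60270, q60054, q60063, q60064, q47192, q60059, q60056] ⟨c59824, c60032, c60053, c60107, c60115, c60014, c60031, c60035, c60251, c60249, c14221, c56985, c60023, c59254, c60072, c60270, c60054, c60063, c60064, c47192, c60059, c60056, trivial⟩ (nd (nat_lit 271) (nat_lit 0) (cs (rf (nat_lit 0)) (cs (rf (nat_lit 1)) (cs (rf (nat_lit 2)) (cs (rf (nat_lit 3)) (cs (rf (nat_lit 4)) (cs (nd (nat_lit 270) (nat_lit 0) (cs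 (rf (nat_lit 5)) (cs (rf (nat_lit 6)) (nd (nat_lit 292) (nat_lit 0) (cs (rf (nat_lit 7)) (cs (nd (nat_lit 295) (nat_lit 0) (cs (lf (nat_lit 18) (nat_lit 270)) (rf (nat_lit 8)))) (nd (nat_lit 291) (nat_lit 0) (cs (rf (nat_lit 9)) (cs (nd (nat_lit 316) (nat_lit 0) (cs (lf (nat_lit 5) (nat_lit 291)) (nd (nat_lit 338) (nat_lit 0) (cs (lf (nat_lit 42) (nat_lit 271)) (nd (nat_lit 249) (nat_lit 0) (cs (lf (nat_lit 24) (nat_lit 227)) (lf (nat_lit 45) (nat_lit 249)))))))) (nd (nat_lit 316) (nat_lit 0) (cs (lf (nat_lit 5) (nat_lit 291)) (nd (nat_lit 338) (nat_lit 0) (cs (lf (nat_lit 42) (nat_lit 271)) (nd (nat_lit 227) (nat_lit 0) (cs (lf (nat_lit 25) (nat_lit 227)) (nd (nat_lit 289) (nat_lit 0) (cs (rf (nat_lit 10)) (lf (nat_lit 13) (nat_lit 267))))))))))))))))))) (cs (nd (nat_lit 270) (nat_lit 0) (cs (rf (nat_lit 5)) (cs (nd (nat_lit 315) (nat_lit 0) (cs (rf (nat_lit 11)) (cs (rf (nat_lit 12)) (nd (nat_lit 295) (nat_lit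 0) (cs (rf (nat_lit 13)) (nd (nat_lit 292) (nat_lit 0) (cs (rf (nat_lit 14)) (cs (rf (nat_lit 8)) (nd (nat_lit 226) (nat_lit 0) (cs (lf (nat_lit 25) (nat_lit 226)) (nd (nat_lit 313) (nat_lit 0) (cs (lf (nat_lit 10) (nat_lit 291)) (nd (nat_lit 291) (nat_lit 0) (cs (lf (nat_lit 11) (nat_lit 290)) (rf (nat_lit 9)))))))))))))))) (cs (nd (nat_lit 269) (nat_lit 0) (cs (lf (nat_lit 0) (nat_lit 268)) (rf (nat_lit 15)))) (nd (nat_lit 269) (nat_lit 0) (cs (lf (nat_lit 0) (nat_lit 268)) (nd (nat_lit 272) (nat_lit 0) (cs (lf (nat_lit 17) (nat_lit 247)) (lf (nat_lit 5) (nat_lit 269)))))))))) (cs (nd (nat_lit 270) (nat_lit 0) (cs (rf (nat_lit 5)) (cs (rf (nat_lit 6)) (nd (nat_lit 316) (nat_lit 0) (cs (rf (nat_lit 16)) (cs (rf (nat_lit 17)) (cs (rf (nat_lit 18)) (nd (nat_lit 295) (nat_lit 0) (cs (lf (nat_lit 18) (nat_lit 270)) (nd (nat_lit 249) (nat_lit 0) (cs (lf (nat_lit 24) (nat_lit 227)) (nd (nat_lit 251) (nat_lit 0) (cs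 (lf (nat_lit 6) (nat_lit 248)) (nd (nat_lit 272) (nat_lit 0) (cs (lf (nat_lit 35) (nat_lit 228)) (nd (nat_lit 315) (nat_lit 0) (cs (lf (nat_lit 30) (nat_lit 249)) (nd (nat_lit 226) (nat_lit 0) (cs (lf (nat_lit 46) (nat_lit 226)) (rf (nat_lit 19))))))))))))))))))))) (nd (nat_lit 316) (nat_lit 0) (cs (rf (nat_lit 16)) (cs (rf (nat_lit 17)) (cs (rf (nat_lit 18)) (nd (nat_lit 315) (nat_lit 0) (cs (rf (nat_lit 20)) (nd (nat_lit 249) (nat_lit 0) (cs (lf (nat_lit 24) (nat_lit 227)) (rf (nat_lit 21))))))))))))))))))) q60286 (by decide +kernel)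
def q62909 : Q := Q.p (nat_lit 0x800002600001000010000000000000000000000000000000000000000000000000000) (nat_lit 0x20003fe0007f0005fe0017780009c000ef80063e001de0005780000a0000000000000000000000000000000000) (nat_lit 15)
theorem c62909 : QOK q62909 := cut [q62404, q62425, q26200, q26237, q62580, q60700, q62775, q62777, q979, q62785, q62783, q56437, q62797, q62810, q62761, q62815, q61667, q62499, q62821, q56677, q62430, q56479, q62160, q62143, q62675, q62442, q62827, q62881, q62904, q62167, q62879, q17589] ⟨c62404, c62425, c26200, c26237, c62580, c60700, c62775, c62777, c979, c62785, c62783, c56437, c62797, c62810, c62761, c62815, c61667, c62499, c62821, c56677, c62430, c56479, c62160, c62143, c62675, c62442, c62827, c62881, c62904, c62167, c62879, c17589, trivial⟩ (nd (nat_lit 231) (nat_lit 0) (cs (rf (nat_lit 0)) (cs (rf (nat_lit 1)) (nd (nat_lit 294) (nat_lit 0) (cs (nd (nat_lit 248) (nat_lit 0) (cs (rf (nat_lit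 2)) (cs (rf (nat_lit 3)) (cs (rf (nat_lit 4)) (nd (nat_lit 226) (nat_lit 0) (cs (rf (nat_lit 5)) (cs (rf (nat_lit 6)) (cs (nd (nat_lit 204) (nat_lit 0) (cs (rf (nat_lit 7)) (cs (nd (nat_lit 182) (nat_lit 0) (cs (nd (nat_lit 229) (nat_lit 0) (cs (rf (nat_lit 8)) (lf (nat_lit 7) (nat_lit 227)))) (cs (rf (nat_lit 9)) (nd (nat_lit 181) (nat_lit 0) (cs (lf (nat_lit 47) (nat_lit 159)) (nd (nat_lit 270) (nat_lit 0) (cs (lf (nat_lit 46) (nat_lit 181)) (rf (nat_lit 10))))))))) (cs (nd (nat_lit 182) (nat_lit 0) (cs (rf (nat_lit 11)) (rf (nat_lit 9)))) (cs (rf (nat_lit 12)) (nd (nat_lit 229) (nat_lit 0) (cs (lf (nat_lit 7) (nat_lit 227)) (nd (nat_lit 227) (nat_lit 0) (cs (lf (nat_lit 23) (nat_lit 203)) (nd (nat_lit 224) (nat_lit 0) (cs (lf (nat_lit 1) (nat_lit 224)) (nd (nat_lit 182) (nat_lit 0) (cs (lf (nat_lit 24) (nat_lit 160)) (nd (nat_lit 183) (nat_lit 0) (cs (lf (nat_lit 35) (nat_lit 160)) (nd (nat_lit 270) (nat_lit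 0) (cs (lf (nat_lit 37) (nat_lit 182)) (nd (nat_lit 269) (nat_lit 0) (cs (lf (nat_lit 41) (nat_lit 203)) (nd (nat_lit 292) (nat_lit 0) (cs (lf (nat_lit 30) (nat_lit 226)) (nd (nat_lit 293) (nat_lit 0) (cs (lf (nat_lit 29) (nat_lit 226)) (lf (nat_lit 18) (nat_lit 269))))))))))))))))))))))))) (rf (nat_lit 13)))))))))) (cs (nd (nat_lit 272) (nat_lit 0) (cs (rf (nat_lit 14)) (cs (rf (nat_lit 15)) (nd (nat_lit 317) (nat_lit 0) (cs (lf (nat_lit 28) (nat_lit 228)) (nd (nat_lit 316) (nat_lit 0) (cs (lf (nat_lit 29) (nat_lit 250)) (nd (nat_lit 229) (nat_lit 0) (cs (lf (nat_lit 7) (nat_lit 227)) (lf (nat_lit 34) (nat_lit 228))))))))))) (cs (nd (nat_lit 227) (nat_lit 0) (cs (rf (nat_lit 16)) (cs (rf (nat_lit 17)) (cs (nd (nat_lit 229) (nat_lit 0) (cs (lf (nat_lit 7) (nat_lit 227)) (rf (nat_lit 18)))) (nd (nat_lit 248) (nat_lit 0) (cs (rf (nat_lit 19)) (cs (rf (nat_lit 20)) (nd (nat_lit 226) (nat_lit 0) (cs (rf (nat_lit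 21)) (cs (rf (nat_lit 22)) (nd (nat_lit 270) (nat_lit 0) (cs (rf (nat_lit 23)) (cs (rf (nat_lit 24)) (cs (nd (nat_lit 292) (nat_lit 0) (cs (lf (nat_lit 30) (nat_lit 226)) (nd (nat_lit 293) (nat_lit 0) (cs (lf (nat_lit 29) (nat_lit 226)) (rf (nat_lit 25)))))) (rf (nat_lit 26)))))))))))))))) (cs (rf (nat_lit 27)) (cs (rf (nat_lit 28)) (cs (nd (nat_lit 248) (nat_lit 0) (cs (rf (nat_lit 2)) (cs (rf (nat_lit 3)) (cs (rf (nat_lit 29)) (nd (nat_lit 226) (nat_lit 0) (cs (rf (nat_lit 5)) (cs (rf (nat_lit 6)) (cs (rf (nat_lit 13)) (rf (nat_lit 30)))))))))) (nd (nat_lit 272) (nat_lit 0) (cs (rf (nat_lit 31)) (rf (nat_lit 14)))))))))))))) q62909 (by decide +kernel)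
def q64002 : Q := Q.p (nat_lit 0x800002600000000010000000000000000000000000000000000000000000000000000) (nat_lit 0x180000780001e0000ff0005f80017f000090000ff001e7c00ffe003ff800ffe000ff0001f8000380000a0000000000000) (nat_lit 16)
theorem c64002 : QOK q64002 := cut [q62399, q62410, q62690, q15307, q25568, q62417, q62419, q62422, q63847, q63918, q63922, q61940, q61949, q63926, q56479, q62701, q62735, q63939, q63942, q61939, q62404, q62425, q61789, q61797, q61910, q61925, q61936, q63931, q63948, q61661, q61986, q63956, q17589, q60732, q63960, q63963, q63991, q63978, q60683, q15806, q63981, q63996, q61331, q61662, q63902] ⟨c62399, c62410, c62690, c15307, c25568, c62417, c62419, c62422, c63847, c63918, c63922, c61940, c61949, c63926, c56479, c62701, c62735, c63939, c63942, c61939, c62404, c62425, c61789, c61797, c61910, c61925, c61936, c63931, c63948, c61661, c61986, c63956, c17589, c60732, c63960, c63963, c63991, c63978,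 c60683, c15806, c63981, c63996, c61331, c61662, c63902, trivial⟩ (nd (nat_lit 228) (nat_lit 0) (cs (rf (nat_lit 0)) (cs (nd (nat_lit 273) (nat_lit 0) (cs (rf (nat_lit 1)) (cs (rf (nat_lit 2)) (cs (nd (nat_lit 251) (nat_lit 0) (cs (rf (nat_lit 3)) (rf (nat_lit 4)))) (nd (nat_lit 295) (nat_lit 0) (cs (rf (nat_lit 5)) (cs (rf (nat_lit 6)) (cs (rf (nat_lit 7)) (rf (nat_lit 8)))))))))) (cs (rf (nat_lit 9)) (cs (nd (nat_lit 293) (nat_lit 0) (cs (nd (nat_lit 227) (nat_lit 0) (cs (rf (nat_lit 10)) (cs (nd (nat_lit 294) (nat_lit 0) (cs (rf (nat_lit 11)) (cs (rf (nat_lit 12)) (nd (nat_lit 271) (nat_lit 0) (cs (lf (nat_lit 29) (nat_lit 227)) (rf (nat_lit 13))))))) (cs (nd (nat_lit 226) (nat_lit 0) (cs (rf (nat_lit 14)) (cs (rf (nat_lit 15)) (nd (nat_lit 294) (nat_lit 0) (cs (rf (nat_lit 11)) (cs (nd (nat_lit 204) (nat_lit 0) (cs (rf (nat_lit 16)) (nd (nat_lit 160) (nat_lit 0) (cs (lf (nat_lit 25) (nat_lit 160)) (rf (nat_lit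 17)))))) (rf (nat_lit 18)))))))) (nd (nat_lit 294) (nat_lit 0) (cs (rf (nat_lit 19)) (cs (rf (nat_lit 17)) (rf (nat_lit 18))))))))) (cs (nd (nat_lit 231) (nat_lit 0) (cs (rf (nat_lit 20)) (cs (rf (nat_lit 21)) (nd (nat_lit 294) (nat_lit 0) (cs (rf (nat_lit 22)) (cs (rf (nat_lit 23)) (cs (nd (nat_lit 295) (nat_lit 0) (cs (rf (nat_lit 24)) (cs (rf (nat_lit 25)) (cs (rf (nat_lit 26)) (rf (nat_lit 27)))))) (nd (nat_lit 229) (nat_lit 0) (cs (lf (nat_lit 7) (nat_lit 227)) (rf (nat_lit 28))))))))))) (cs (nd (nat_lit 271) (nat_lit 0) (cs (lf (nat_lit 30) (nat_lit 227)) (rf (nat_lit 29)))) (cs (nd (nat_lit 315) (nat_lit 0) (cs (lf (nat_lit 32) (nat_lit 227)) (rf (nat_lit 30)))) (cs (nd (nat_lit 271) (nat_lit 0) (cs (lf (nat_lit 30) (nat_lit 227)) (nd (nat_lit 227) (nat_lit 0) (cs (rf (nat_lit 10)) (rf (nat_lit 31)))))) (nd (nat_lit 294) (nat_lit 0) (cs (nd (nat_lit 272) (nat_lit 0) (cs (rf (nat_lit 32)) (rf (nat_lit 33))))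 (cs (rf (nat_lit 34)) (nd (nat_lit 271) (nat_lit 0) (cs (lf (nat_lit 30) (nat_lit 227)) (nd (nat_lit 227) (nat_lit 0) (cs (lf (nat_lit 29) (nat_lit 227)) (nd (nat_lit 204) (nat_lit 0) (cs (lf (nat_lit 46) (nat_lit 204)) (nd (nat_lit 205) (nat_lit 0) (cs (lf (nat_lit 47) (nat_lit 182)) (nd (nat_lit 230) (nat_lit 0) (cs (lf (nat_lit 19) (nat_lit 204)) (nd (nat_lit 202) (nat_lit 0) (cs (lf (nat_lit 1) (nat_lit 202)) (rf (nat_lit 35))))))))))))))))))))))) (cs (rf (nat_lit 36)) (cs (nd (nat_lit 272) (nat_lit 0) (cs (rf (nat_lit 37)) (cs (nd (nat_lit 273) (nat_lit 0) (cs (lf (nat_lit 19) (nat_lit 249)) (nd (nat_lit 295) (nat_lit 0) (cs (lf (nat_lit 24) (nat_lit 206)) (rf (nat_lit 38)))))) (cs (nd (nat_lit 294) (nat_lit 0) (cs (rf (nat_lit 39)) (cs (rf (nat_lit 32)) (rf (nat_lit 40))))) (nd (nat_lit 294) (nat_lit 0) (cs (rf (nat_lit 39)) (cs (rf (nat_lit 32)) (nd (nat_lit 273) (nat_lit 0) (cs (lf (nat_lit 19) (nat_lit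 249)) (rf (nat_lit 41))))))))))) (nd (nat_lit 271) (nat_lit 0) (cs (rf (nat_lit 42)) (cs (rf (nat_lit 43)) (nd (nat_lit 184) (nat_lit 0) (cs (lf (nat_lit 37) (nat_lit 183)) (rf (nat_lit 44)))))))))))))) q64002 (by decide +kernel)
def q64539 : Q := Q.p (nat_lit 0x800002600000000010000000000000000000000000000000000000000000000000000) (nat_lit 0xa00003e0000f8000ffc01dff0037fe0009e000fdc01e78007fe003ff8003f80003c0000e0000380000a0000000000000) (nat_lit 16)
theorem c64539 : QOK q64539 := cut [q63519, q63594, q63798, q62183, q63487, q64162, q64164, q64485, q64520, q64524, q63708, q61123, q56561, q62481, q64533, q23133, q25763, q64236, q52446, q58853, q61949, q57236, q61967] ⟨c63519, c63594, c63798, c62183, c63487, c64162, c64164, c64485, c64520, c64524, c63708, c61123, c56561, c62481, c64533, c23133, c25763, c64236, c52446, c58853, c61949, c57236, c61967, trivial⟩ (nd (nat_lit 248) (nat_lit 0) (cs (rf (nat_lit 0)) (cs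 (rf (nat_lit 1)) (cs (rf (nat_lit 2)) (cs (nd (nat_lit 273) (nat_lit 0) (cs (rf (nat_lit 3)) (cs (rf (nat_lit 4)) (rf (nat_lit 5))))) (cs (rf (nat_lit 6)) (cs (rf (nat_lit 7)) (cs (rf (nat_lit 8)) (cs (rf (nat_lit 9)) (nd (nat_lit 272) (nat_lit 0) (cs (rf (nat_lit 10)) (cs (nd (nat_lit 269) (nat_lit 0) (cs (nd (nat_lit 247) (nat_lit 0) (cs (lf (nat_lit 11) (nat_lit 246)) (nd (nat_lit 246) (nat_lit 0) (cs (lf (nat_lit 4) (nat_lit 246)) (rf (nat_lit 11)))))) (cs (nd (nat_lit 227) (nat_lit 0) (cs (rf (nat_lit 12)) (cs (rf (nat_lit 13)) (nd (nat_lit 270) (nat_lit 0) (cs (lf (nat_lit 6) (nat_lit 247)) (nd (nat_lit 292) (nat_lit 0) (cs (lf (nat_lit 30) (nat_lit 226)) (nd (nat_lit 294) (nat_lit 0) (cs (lf (nat_lit 42) (nat_lit 227)) (nd (nat_lit 295) (nat_lit 0) (cs (lf (nat_lit 2) (nat_lit 269)) (lf (nat_lit 20) (nat_lit 269))))))))))))) (rf (nat_lit 14))))) (nd (nat_lit 294) (nat_lit 0) (cs (rf (nat_lit 15)) (cs (rf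 (nat_lit 16)) (cs (rf (nat_lit 17)) (nd (nat_lit 293) (nat_lit 0) (cs (rf (nat_lit 18)) (cs (rf (nat_lit 19)) (cs (rf (nat_lit 20)) (nd (nat_lit 271) (nat_lit 0) (cs (rf (nat_lit 21)) (rf (nat_lit 22)))))))))))))))))))))))) q64539 (by decide +kernel)
def q64554 : Q := Q.p (nat_lit 0x800002600000000010000000000000000000000000000000000000000000000000000) (nat_lit 0xa00003e0000f8000ffc01dff0037fe0009f000fe001e78007fe003ff8003f80003c0000e0000380000a0000000000000) (nat_lit 16)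
theorem c64554 : QOK q64554 := cut [q63519, q63594, q63798, q64164, q64485, q64520, q64524, q64540, q61117, q63781, q17277, q63625, q40873] ⟨c63519, c63594, c63798, c64164, c64485, c64520, c64524, c64540, c61117, c63781, c17277, c63625, c40873, trivial⟩ (nd (nat_lit 248) (nat_lit 0) (cs (rf (nat_lit 0)) (cs (rf (nat_lit 1)) (cs (rf (nat_lit 2)) (cs (rf (nat_lit 3)) (cs (rf (nat_lit 4)) (cs (rf (nat_lit 5)) (cs (rf (nat_lit 6)) (cs (rf (nat_lit 7)) (nd (nat_lit 247) (nat_lit 0) (cs (nd (nat_lit 272) (nat_lit 0) (cs (lf (nat_lit 5) (nat_lit 247)) (nd (nat_lit 246) (nat_lit 0) (cs (lf (nat_lit 4) (nat_lit 246)) (nd (nat_lit 267) (nat_lit 0) (cs (lf (nat_lit 10) (nat_lit 245)) (nd (nat_lit 245) (nat_lit 0) (cs (lf (nat_lit 11) (nat_lit 244)) (rf (nat_lit 8)))))))))) (cs (rf (nat_lit 9)) (cs (nd (nat_lit 246) (nat_lit 0) (cs (rf (nat_lit 10)) (cs (rf (nat_lit 11)) (nd (nat_lit 227) (nat_lit 0) (cs (lf (nat_lit 17)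 (nat_lit 224)) (nd (nat_lit 226) (nat_lit 0) (cs (lf (nat_lit 12) (nat_lit 223)) (nd (nat_lit 251) (nat_lit 0) (cs (lf (nat_lit 23) (nat_lit 225)) (nd (nat_lit 270) (nat_lit 0) (cs (lf (nat_lit 11) (nat_lit 247)) (rf (nat_lit 12))))))))))))) (nd (nat_lit 272) (nat_lit 0) (cs (lf (nat_lit 5) (nat_lit 247)) (nd (nat_lit 246) (nat_lit 0) (cs (lf (nat_lit 4) (nat_lit 246)) (nd (nat_lit 227) (nat_lit 0) (cs (lf (nat_lit 17) (nat_lit 224)) (nd (nat_lit 226) (nat_lit 0) (cs (lf (nat_lit 12) (nat_lit 223)) (nd (nat_lit 251) (nat_lit 0) (cs (lf (nat_lit 23) (nat_lit 225)) (nd (nat_lit 205) (nat_lit 0) (cs (lf (nat_lit 24) (nat_lit 183)) (nd (nat_lit 270) (nat_lit 0) (cs (lf (nat_lit 11) (nat_lit 247)) (lf (nat_lit 30) (nat_lit 204))))))))))))))))))))))))))))) q64554 (by decide +kernel)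
def q64568 : Q := Q.p (nat_lit 0x800002600000000010000000000000000000000000000000000000000000000000000) (nat_lit 0xa0000380001f0000fc0001fe0009f000ffe01e7c007ff003ffc003f80003c0000e0000380000a0000000000000) (nat_lit 16)
theorem c64568 : QOK q64568 := cut [q44571, q63489, q63493, q11170, q63545, q63549, q63706, q64520, q64565, q26461, q63509, q63547] ⟨c44571, c63489, c63493, c11170, c63545, c63549, c63706, c64520, c64565, c26461, c63509, c63547, trivial⟩ (nd (nat_lit 248) (nat_lit 0) (cs (nd (nat_lit 247) (nat_lit 0) (cs (rf (nat_lit 0)) (cs (rf (nat_lit 1)) (cs (nd (nat_lit 228) (nat_lit 0) (cs (lf (nat_lit 17) (nat_lit 225)) (nd (nat_lit 268) (nat_lit 0) (cs (lf (nat_lit 10) (nat_lit 246)) (nd (nat_lit 246) (nat_lit 0) (cs (lf (nat_lit 11) (nat_lit 245)) (nd (nat_lit 223) (nat_lit 0) (cs (lf (nat_lit 22) (nat_lit 223)) (nd (nat_lit 245) (nat_lit 0) (cs (lf (nat_lit 23) (nat_lit 222)) (rf (nat_lit 2))))))))))))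 (nd (nat_lit 229) (nat_lit 0) (cs (lf (nat_lit 16) (nat_lit 225)) (nd (nat_lit 268) (nat_lit 0) (cs (lf (nat_lit 10) (nat_lit 246)) (nd (nat_lit 251) (nat_lit 0) (cs (lf (nat_lit 17) (nat_lit 226)) (nd (nat_lit 226) (nat_lit 0) (cs (lf (nat_lit 23) (nat_lit 225)) (nd (nat_lit 246) (nat_lit 0) (cs (lf (nat_lit 11) (nat_lit 245)) (nd (nat_lit 271) (nat_lit 0) (cs (lf (nat_lit 5) (nat_lit 246)) (nd (nat_lit 270) (nat_lit 0) (cs (rf (nat_lit 3)) (lf (nat_lit 0) (nat_lit 245)))))))))))))))))))) (cs (rf (nat_lit 4)) (cs (rf (nat_lit 5)) (cs (rf (nat_lit 6)) (cs (rf (nat_lit 7)) (cs (rf (nat_lit 8)) (nd (nat_lit 247) (nat_lit 0) (cs (rf (nat_lit 9)) (cs (rf (nat_lit 10)) (rf (nat_lit 11)))))))))))) q64568 (by decide +kernel)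
def q64960 : Q := Q.p (nat_lit 0x800002600000000010000000000000000000000000000000000000000000000000000) (nat_lit 0xa0001f8000ff8007fc001ffc01dfe0037fc0089c00ffb801e7800ffe003ff8007f8001fc0004e0000380000a0000000000000) (nat_lit 16)
theorem c64960 : QOK q64960 := cut [q58513, q59009, q62076, q64650, q61785, q61910, q61936, q64654, q61925, q61935, q64660, q64671, q14508, q58551, q61775, q64673, q64712, q64747, q25763, q63716, q64758, q64761, q23133, q64798, q64814, q64862, q64880, q64914, q62410, q64906, q64913, q52445, q61386, q64405, q64927, q64929, q64931, q64932, q48638, q64234, q64935, q64236, q64956, q64958] ⟨c58513, c59009, c62076, c64650, c61785, c61910, c61936, c64654, c61925, c61935, c64660, c64671, c14508, c58551, c61775, c64673, c64712, c64747, c25763, c63716, c64758, c64761, c23133, c64798, c64814, c64862, c64880, c64914, c62410, c64906, c64913, c52445, c61386, c64405, c64927, c64929, c64931, c64932,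 c48638, c64234, c64935, c64236, c64956, c64958, trivial⟩ (nd (nat_lit 294) (nat_lit 0) (cs (nd (nat_lit 293) (nat_lit 0) (cs (nd (nat_lit 271) (nat_lit 0) (cs (rf (nat_lit 0)) (cs (rf (nat_lit 1)) (cs (rf (nat_lit 2)) (rf (nat_lit 3)))))) (cs (nd (nat_lit 295) (nat_lit 0) (cs (rf (nat_lit 4)) (cs (rf (nat_lit 5)) (cs (rf (nat_lit 6)) (rf (nat_lit 7)))))) (cs (nd (nat_lit 295) (nat_lit 0) (cs (rf (nat_lit 8)) (cs (rf (nat_lit 9)) (cs (rf (nat_lit 6)) (rf (nat_lit 7)))))) (cs (nd (nat_lit 271) (nat_lit 0) (cs (rf (nat_lit 0)) (cs (rf (nat_lit 2)) (cs (rf (nat_lit 3)) (nd (nat_lit 315) (nat_lit 0) (cs (lf (nat_lit 35) (nat_lit 227)) (nd (nat_lit 338) (nat_lit 0) (cs (lf (nat_lit 28) (nat_lit 249)) (nd (nat_lit 337) (nat_lit 0) (cs (lf (nat_lit 29) (nat_lit 271)) (rf (nat_lit 10)))))))))))) (cs (rf (nat_lit 11)) (nd (nat_lit 295) (nat_lit 0) (cs (rf (nat_lit 4)) (cs (rf (nat_lit 9)) (cs (rf (nat_lit 7)) (nd (nat_lit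 292) (nat_lit 0) (cs (rf (nat_lit 12)) (cs (rf (nat_lit 13)) (cs (rf (nat_lit 14)) (nd (nat_lit 269) (nat_lit 0) (cs (lf (nat_lit 22) (nat_lit 269)) (nd (nat_lit 317) (nat_lit 0) (cs (lf (nat_lit 5) (nat_lit 292)) (nd (nat_lit 273) (nat_lit 0) (cs (lf (nat_lit 17) (nat_lit 270)) (rf (nat_lit 15)))))))))))))))))))))) (cs (rf (nat_lit 16)) (cs (rf (nat_lit 17)) (cs (nd (nat_lit 272) (nat_lit 0) (cs (rf (nat_lit 18)) (cs (rf (nat_lit 19)) (cs (rf (nat_lit 20)) (rf (nat_lit 21)))))) (cs (nd (nat_lit 272) (nat_lit 0) (cs (rf (nat_lit 22)) (cs (rf (nat_lit 19)) (cs (rf (nat_lit 23)) (nd (nat_lit 273) (nat_lit 0) (cs (lf (nat_lit 19) (nat_lit 249)) (nd (nat_lit 247) (nat_lit 0) (cs (lf (nat_lit 1) (nat_lit 247)) (rf (nat_lit 24)))))))))) (cs (rf (nat_lit 25)) (cs (rf (nat_lit 26)) (cs (rf (nat_lit 27)) (cs (nd (nat_lit 272) (nat_lit 0) (cs (rf (nat_lit 18)) (cs (rf (nat_lit 23)) (nd (nat_lit 273) (nat_lit 0) (cs (rf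 (nat_lit 28)) (cs (rf (nat_lit 29)) (rf (nat_lit 30)))))))) (cs (nd (nat_lit 272) (nat_lit 0) (cs (rf (nat_lit 18)) (cs (rf (nat_lit 19)) (cs (nd (nat_lit 228) (nat_lit 0) (cs (rf (nat_lit 31)) (cs (rf (nat_lit 32)) (cs (rf (nat_lit 33)) (rf (nat_lit 34)))))) (rf (nat_lit 35)))))) (cs (nd (nat_lit 272) (nat_lit 0) (cs (rf (nat_lit 22)) (cs (rf (nat_lit 18)) (cs (rf (nat_lit 36)) (rf (nat_lit 37)))))) (cs (nd (nat_lit 272) (nat_lit 0) (cs (rf (nat_lit 18)) (cs (rf (nat_lit 23)) (nd (nat_lit 315) (nat_lit 0) (cs (rf (nat_lit 38)) (cs (rf (nat_lit 39)) (nd (nat_lit 273) (nat_lit 0) (cs (lf (nat_lit 19) (nat_lit 249)) (nd (nat_lit 247) (nat_lit 0) (cs (lf (nat_lit 1) (nat_lit 247)) (nd (nat_lit 316) (nat_lit 0) (cs (lf (nat_lit 41) (nat_lit 249)) (nd (nat_lit 229) (nat_lit 0) (cs (lf (nat_lit 34) (nat_lit 228)) (rf (nat_lit 40)))))))))))))))) (cs (nd (nat_lit 272) (nat_lit 0) (cs (rf (nat_lit 18)) (cs (rf (nat_lit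 19)) (cs (rf (nat_lit 41)) (rf (nat_lit 36)))))) (nd (nat_lit 272) (nat_lit 0) (cs (rf (nat_lit 19)) (cs (rf (nat_lit 37)) (cs (rf (nat_lit 42)) (rf (nat_lit 43)))))))))))))))))))) q64960 (by decide +kernel)
def q65293 : Q := Q.p (nat_lit 0x800002600000000010000000000000000000000000000000000000000000000000000) (nat_lit 0xe00007e001dfe0037f80009c000ff800670001fc0005f0000300000000000000000000000000000000000) (nat_lit 14)
theorem c65293 : QOK q65293 := cut [q62911, q63510, q64164, q64166, q57373, q60700, q62914, q63537, q62480, q64680, q65252, q56866, q64706, q64140, q57364, q62567, q64241, q65265, q61518, q64498] ⟨c62911, c63510, c64164, c64166, c57373, c60700, c62914, c63537, c62480, c64680, c65252, c56866, c64706, c64140, c57364, c62567, c64241, c65265, c61518, c64498, trivial⟩ (nd (nat_lit 248) (nat_lit 0) (cs (rf (nat_lit 0)) (cs (rf (nat_lit 1)) (cs (rf (nat_lit 2)) (cs (rf (nat_lit 3)) (nd (nat_lit 270) (nat_lit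 0) (cs (rf (nat_lit 4)) (cs (nd (nat_lit 226) (nat_lit 0) (cs (rf (nat_lit 5)) (cs (rf (nat_lit 6)) (rf (nat_lit 7))))) (cs (nd (nat_lit 227) (nat_lit 0) (cs (rf (nat_lit 8)) (cs (rf (nat_lit 9)) (cs (nd (nat_lit 226) (nat_lit 0) (cs (rf (nat_lit 5)) (nd (nat_lit 292) (nat_lit 0) (cs (lf (nat_lit 30) (nat_lit 226)) (rf (nat_lit 10)))))) (nd (nat_lit 205) (nat_lit 0) (cs (rf (nat_lit 11)) (cs (rf (nat_lit 12)) (nd (nat_lit 271) (nat_lit 0) (cs (rf (nat_lit 13)) (nd (nat_lit 204) (nat_lit 0) (cs (lf (nat_lit 47) (nat_lit 182)) (nd (nat_lit 226) (nat_lit 0) (cs (lf (nat_lit 29) (nat_lit 204)) (rf (nat_lit 14))))))))))))))) (nd (nat_lit 227) (nat_lit 0) (cs (rf (nat_lit 8)) (cs (rf (nat_lit 9)) (cs (nd (nat_lit 292) (nat_lit 0) (cs (lf (nat_lit 30) (nat_lit 226)) (nd (nat_lit 226) (nat_lit 0) (cs (rf (nat_lit 15)) (cs (rf (nat_lit 10)) (cs (nd (nat_lit 224) (nat_lit 0) (cs (lf (nat_lit 1) (nat_lit 224)) (nd (nat_lit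 291) (nat_lit 0) (cs (lf (nat_lit 41) (nat_lit 225)) (nd (nat_lit 204) (nat_lit 0) (cs (lf (nat_lit 40) (nat_lit 203)) (rf (nat_lit 16)))))))) (nd (nat_lit 271) (nat_lit 0) (cs (nd (nat_lit 293) (nat_lit 0) (cs (lf (nat_lit 42) (nat_lit 226)) (nd (nat_lit 206) (nat_lit 0) (cs (lf (nat_lit 34) (nat_lit 205)) (nd (nat_lit 294) (nat_lit 0) (cs (lf (nat_lit 29) (nat_lit 227)) (nd (nat_lit 295) (nat_lit 0) (cs (lf (nat_lit 18) (nat_lit 270)) (rf (nat_lit 17)))))))))) (cs (nd (nat_lit 269) (nat_lit 0) (cs (lf (nat_lit 12) (nat_lit 246)) (nd (nat_lit 224) (nat_lit 0) (cs (lf (nat_lit 1) (nat_lit 224)) (nd (nat_lit 291) (nat_lit 0) (cs (lf (nat_lit 41) (nat_lit 225)) (nd (nat_lit 290) (nat_lit 0) (cs (lf (nat_lit 6) (nat_lit 268)) (lf (nat_lit 12) (nat_lit 267)))))))))) (nd (nat_lit 293) (nat_lit 0) (cs (lf (nat_lit 42) (nat_lit 226)) (nd (nat_lit 206) (nat_lit 0) (cs (lf (nat_lit 34) (nat_lit 205)) (nd (nat_lit 294)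 (nat_lit 0) (cs (lf (nat_lit 29) (nat_lit 227)) (rf (nat_lit 18))))))))))))))))) (nd (nat_lit 205) (nat_lit 0) (cs (rf (nat_lit 11)) (cs (rf (nat_lit 12)) (nd (nat_lit 271) (nat_lit 0) (cs (rf (nat_lit 13)) (cs (nd (nat_lit 204) (nat_lit 0) (cs (lf (nat_lit 47) (nat_lit 182)) (nd (nat_lit 293) (nat_lit 0) (cs (lf (nat_lit 25) (nat_lit 204)) (nd (nat_lit 315) (nat_lit 0) (cs (lf (nat_lit 42) (nat_lit 248)) (lf (nat_lit 35) (nat_lit 227)))))))) (nd (nat_lit 272) (nat_lit 0) (cs (lf (nat_lit 29) (nat_lit 205)) (nd (nat_lit 273) (nat_lit 0) (cs (lf (nat_lit 18) (nat_lit 248)) (nd (nat_lit 295) (nat_lit 0) (cs (lf (nat_lit 5) (nat_lit 270)) (nd (nat_lit 317) (nat_lit 0) (cs (lf (nat_lit 42) (nat_lit 250)) (nd (nat_lit 269) (nat_lit 0) (cs (lf (nat_lit 12) (nat_lit 246)) (nd (nat_lit 184) (nat_lit 0) (cs (lf (nat_lit 34) (nat_lit 183)) (rf (nat_lit 19))))))))))))))))))))))))))))))))) q65293 (by decide +kernel)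
def q65872 : Q := Q.p (nat_lit 0x800002600000000010000000000000000000000000000000000000000000000000000) (nat_lit 0x100001700007e0003fe000ff8001fe0017fc0001c000ff80027f0001f000074000040000000000000000000000000000000000) (nat_lit 16)
theorem c65872 : QOK q65872 := cut [q65629, q65766, q58513, q59009, q61978, q54925, q58797, q61527, q58512, q65767, q65822, q65849, q62022, q65851, q58807, q61516, q65853, q62098, q61716, q61727, q57008, q61685, q65830, q61949, q61776, q64824, q65860, q61921, q61531, q61712, q44100, q65868] ⟨c65629, c65766, c58513, c59009, c61978, c54925, c58797, c61527, c58512, c65767, c65822, c65849, c62022, c65851, c58807, c61516, c65853, c62098, c61716, c61727, c57008, c61685, c65830, c61949, c61776, c64824, c65860, c61921, c61531, c61712, c44100, c65868, trivial⟩ (nd (nat_lit 271) (nat_lit 0) (cs (rf (nat_lit 0)) (cs (rf (nat_lit 1)) (cs (nd (nat_lit 293) (nat_lit 0) (cs (rf (nat_lit 2)) (cs (rf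 (nat_lit 3)) (cs (rf (nat_lit 4)) (nd (nat_lit 227) (nat_lit 0) (cs (rf (nat_lit 5)) (cs (rf (nat_lit 6)) (cs (rf (nat_lit 7)) (nd (nat_lit 228) (nat_lit 0) (cs (rf (nat_lit 8)) (nd (nat_lit 294) (nat_lit 0) (cs (lf (nat_lit 29) (nat_lit 227)) (nd (nat_lit 292) (nat_lit 0) (cs (lf (nat_lit 41) (nat_lit 226)) (rf (nat_lit 9)))))))))))))))) (cs (rf (nat_lit 10)) (cs (rf (nat_lit 11)) (cs (nd (nat_lit 293) (nat_lit 0) (cs (rf (nat_lit 2)) (cs (rf (nat_lit 3)) (cs (rf (nat_lit 12)) (rf (nat_lit 13)))))) (cs (nd (nat_lit 293) (nat_lit 0) (cs (rf (nat_lit 14)) (cs (rf (nat_lit 15)) (rf (nat_lit 16))))) (cs (nd (nat_lit 293) (nat_lit 0) (cs (rf (nat_lit 2)) (cs (rf (nat_lit 15)) (cs (rf (nat_lit 17)) (rf (nat_lit 13)))))) (cs (nd (nat_lit 293) (nat_lit 0) (cs (rf (nat_lit 3)) (cs (rf (nat_lit 18)) (cs (rf (nat_lit 19)) (nd (nat_lit 227) (nat_lit 0) (cs (rf (nat_lit 20)) (cs (rf (nat_lit 6)) (cs (rf (nat_lit 21)) (rf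 (nat_lit 22)))))))))) (cs (nd (nat_lit 293) (nat_lit 0) (cs (rf (nat_lit 2)) (cs (rf (nat_lit 14)) (cs (rf (nat_lit 15)) (nd (nat_lit 294) (nat_lit 0) (cs (rf (nat_lit 23)) (cs (nd (nat_lit 292) (nat_lit 0) (cs (rf (nat_lit 24)) (cs (rf (nat_lit 25)) (nd (nat_lit 227) (nat_lit 0) (cs (lf (nat_lit 29) (nat_lit 227)) (lf (nat_lit 41) (nat_lit 226))))))) (rf (nat_lit 26))))))))) (nd (nat_lit 293) (nat_lit 0) (cs (rf (nat_lit 15)) (cs (rf (nat_lit 18)) (cs (rf (nat_lit 16)) (nd (nat_lit 314) (nat_lit 0) (cs (nd (nat_lit 227) (nat_lit 0) (cs (lf (nat_lit 40) (nat_lit 226)) (rf (nat_lit 27)))) (cs (nd (nat_lit 315) (nat_lit 0) (cs (lf (nat_lit 41) (nat_lit 248)) (rf (nat_lit 28)))) (cs (nd (nat_lit 315) (nat_lit 0) (cs (lf (nat_lit 41) (nat_lit 248)) (nd (nat_lit 226) (nat_lit 0) (cs (lf (nat_lit 46) (nat_lit 226)) (rf (nat_lit 29)))))) (cs (nd (nat_lit 315) (nat_lit 0) (cs (lf (nat_lit 41) (nat_lit 248)) (rf (nat_lit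 30)))) (nd (nat_lit 315) (nat_lit 0) (cs (lf (nat_lit 41) (nat_lit 248)) (rf (nat_lit 31)))))))))))))))))))))))) q65872 (by decide +kernel)
def q67298 : Q := Q.p (nat_lit 0x20000800002600000000010000040000000000000000000000000000000000000000000000) (nat_lit 0x500001c0003fe000ff8001de0007f800118000cf0002700003c000040000000000000000000000000000000000000000) (nat_lit 14)
theorem c67298 : QOK q67298 := cut [q67232, q67227, q56962, q67072, q67281, q66776, q67108, q67148, q67155, q67287, q67288, q67289, q67295, q67296] ⟨c67232, c67227, c56962, c67072, c67281, c66776, c67108, c67148, c67155, c67287, c67288, c67289, c67295, c67296, trivial⟩ (nd (nat_lit 209) (nat_lit 0) (cs (lf (nat_lit 44) (nat_lit 186)) (nd (nat_lit 271) (nat_lit 0) (cs (rf (nat_lit 0)) (cs (nd (nat_lit 227) (nat_lit 0) (cs (rf (nat_lit 1)) (nd (nat_lit 292) (nat_lit 0) (cs (lf (nat_lit 41) (nat_lit 226)) (nd (nat_lit 291) (nat_lit 0) (cs (rf (nat_lit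 2)) (cs (rf (nat_lit 3)) (nd (nat_lit 230) (nat_lit 0) (cs (lf (nat_lit 27) (nat_lit 186)) (rf (nat_lit 4))))))))))) (cs (nd (nat_lit 315) (nat_lit 0) (cs (rf (nat_lit 5)) (cs (rf (nat_lit 6)) (cs (rf (nat_lit 7)) (rf (nat_lit 8)))))) (cs (rf (nat_lit 9)) (cs (rf (nat_lit 10)) (cs (rf (nat_lit 11)) (cs (rf (nat_lit 12)) (rf (nat_lit 13)))))))))))) q67298 (by decide +kernel)
def q67300 : Q := Q.p (nat_lit 0x20000800002600000000010000040000000000000000000000000000000000000000000000) (nat_lit 0x500003c0003fe000ff0001de0017f0001180005c0000300000c000000000000000000000000000000000000000000000) (nat_lit 11)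
theorem c67300 : QOK q67300 := cut [q67234, q67287, q67295, q67296, q67299] ⟨c67234, c67287, c67295, c67296, c67299, trivial⟩ (nd (nat_lit 271) (nat_lit 0) (cs (rf (nat_lit 0)) (cs (rf (nat_lit 1)) (cs (rf (nat_lit 2)) (cs (rf (nat_lit 3)) (rf (nat_lit 4))))))) q67300 (by decide +kernel)
def q67594 : Q := Q.p (nat_lit 0x20000800002600000000010000040000000000000000000000000000000000000000000000) (nat_lit 0x100003fe0007f0001de0017b00011c000ff00023c0003c000060000000000000000000000000000000000000000) (nat_lit 14)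
theorem c67594 : QOK q67594 := cut [q67234, q67287, q67524, q64507, q67384, q67507, q66876, q67572, q67060, q67374] ⟨c67234, c67287, c67524, c64507, c67384, c67507, c66876, c67572, c67060, c67374, trivial⟩ (nd (nat_lit 271) (nat_lit 0) (cs (rf (nat_lit 0)) (cs (rf (nat_lit 1)) (cs (rf (nat_lit 2)) (nd (nat_lit 209) (nat_lit 0) (cs (lf (nat_lit 44) (nat_lit 186)) (nd (nat_lit 227) (nat_lit 0) (cs (rf (nat_lit 3)) (cs (rf (nat_lit 4)) (cs (rf (nat_lit 5)) (cs (nd (nat_lit 294) (nat_lit 0) (cs (lf (nat_lit 29) (nat_lit 227)) (nd (nat_lit 292) (nat_lit 0) (cs (lf (nat_lit 41) (nat_lit 226)) (nd (nat_lit 274) (nat_lit 0) (cs (rf (nat_lit 6)) (cs (nd (nat_lit 230) (nat_lit 0) (cs (lf (nat_lit 27) (nat_lit 186)) (nd (nat_lit 228) (nat_lit 0) (cs (lf (nat_lit 14) (nat_lit 205)) (nd (nat_lit 204) (nat_lit 0) (cs (lf (nat_lit 46) (nat_lit 204)) (nd (nat_lit 295) (nat_lit 0) (cs (lf (nat_lit 15) (nat_lit 271)) (rf (nat_lit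 7)))))))))) (nd (nat_lit 272) (nat_lit 0) (cs (lf (nat_lit 8) (nat_lit 271)) (nd (nat_lit 291) (nat_lit 0) (cs (lf (nat_lit 12) (nat_lit 268)) (nd (nat_lit 226) (nat_lit 0) (cs (lf (nat_lit 47) (nat_lit 204)) (nd (nat_lit 247) (nat_lit 0) (cs (rf (nat_lit 8)) (cs (nd (nat_lit 269) (nat_lit 0) (cs (lf (nat_lit 23) (nat_lit 268)) (nd (nat_lit 224) (nat_lit 0) (cs (lf (nat_lit 1) (nat_lit 224)) (nd (nat_lit 313) (nat_lit 0) (cs (lf (nat_lit 11) (nat_lit 290)) (lf (nat_lit 46) (nat_lit 224)))))))) (nd (nat_lit 225) (nat_lit 0) (cs (lf (nat_lit 0) (nat_lit 224)) (nd (nat_lit 246) (nat_lit 0) (cs (lf (nat_lit 6) (nat_lit 224)) (lf (nat_lit 2) (nat_lit 246)))))))))))))))))))))) (nd (nat_lit 294) (nat_lit 0) (cs (lf (nat_lit 29) (nat_lit 227)) (nd (nat_lit 205) (nat_lit 0) (cs (lf (nat_lit 28) (nat_lit 205)) (nd (nat_lit 292) (nat_lit 0) (cs (lf (nat_lit 41) (nat_lit 226)) (rf (nat_lit 9))))))))))))))))))) q67594 (by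 decide +kernel)
def q68522 : Q := Q.p (nat_lit 0x800002600000000010000040000000000000000000000000000000000000000000000) (nat_lit 0x50000fc0003f0003fe000ffe001ff0017fc0091e00fbfc01e7e00fbf001cfc0073d001c000010000000000000000000000000) (nat_lit 15)
theorem c68522 : QOK q68522 := cut [q67623, q68349, q68463, q58513, q67105, q67110, q61527, q66773, q67027, q68440, q67524, q67621, q67186, q67199, q58755, q68345, q68347, q66775, q68473, q61516, q67569, q59913, q67069, q67141, q68454, q67296, q67011, q68452, q68468, q67222, q67227, q67495, q67108, q67146, q67154, q59775, q67184, q56988, q68485, q68505, q68467, q68519, q67503, q68461] ⟨c67623, c68349, c68463, c58513, c67105, c67110, c61527, c66773, c67027, c68440, c67524, c67621, c67186, c67199, c58755, c68345, c68347, c66775, c68473, c61516, c67569, c59913, c67069, c67141, c68454, c67296, c67011, c68452, c68468, c67222, c67227, c67495, c67108, c67146, c67154, c59775,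 c67184, c56988, c68485, c68505, c68467, c68519, c67503, c68461, trivial⟩ (nd (nat_lit 293) (nat_lit 0) (cs (rf (nat_lit 0)) (cs (rf (nat_lit 1)) (cs (rf (nat_lit 2)) (cs (nd (nat_lit 271) (nat_lit 0) (cs (rf (nat_lit 3)) (cs (rf (nat_lit 4)) (cs (rf (nat_lit 5)) (nd (nat_lit 209) (nat_lit 0) (cs (lf (nat_lit 44) (nat_lit 186)) (nd (nat_lit 227) (nat_lit 0) (cs (rf (nat_lit 6)) (cs (rf (nat_lit 7)) (cs (rf (nat_lit 8)) (rf (nat_lit 9)))))))))))) (cs (nd (nat_lit 271) (nat_lit 0) (cs (rf (nat_lit 3)) (cs (rf (nat_lit 10)) (rf (nat_lit 11))))) (cs (nd (nat_lit 209) (nat_lit 0) (cs (lf (nat_lit 44) (nat_lit 186)) (nd (nat_lit 315) (nat_lit 0) (cs (rf (nat_lit 12)) (cs (rf (nat_lit 13)) (cs (nd (nat_lit 294) (nat_lit 0) (cs (rf (nat_lit 14)) (cs (rf (nat_lit 15)) (rf (nat_lit 16))))) (nd (nat_lit 271) (nat_lit 0) (cs (rf (nat_lit 17)) (rf (nat_lit 18)))))))))) (cs (nd (nat_lit 271) (nat_lit 0) (cs (rf (nat_lit 3))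 (cs (rf (nat_lit 19)) (cs (rf (nat_lit 20)) (nd (nat_lit 227) (nat_lit 0) (cs (rf (nat_lit 21)) (cs (rf (nat_lit 22)) (cs (rf (nat_lit 23)) (rf (nat_lit 24)))))))))) (cs (nd (nat_lit 271) (nat_lit 0) (cs (rf (nat_lit 3)) (cs (rf (nat_lit 25)) (cs (rf (nat_lit 10)) (nd (nat_lit 227) (nat_lit 0) (cs (rf (nat_lit 21)) (cs (rf (nat_lit 26)) (cs (rf (nat_lit 22)) (rf (nat_lit 27)))))))))) (cs (nd (nat_lit 209) (nat_lit 0) (cs (lf (nat_lit 44) (nat_lit 186)) (nd (nat_lit 271) (nat_lit 0) (cs (rf (nat_lit 28)) (cs (nd (nat_lit 227) (nat_lit 0) (cs (rf (nat_lit 29)) (cs (rf (nat_lit 30)) (rf (nat_lit 31))))) (cs (nd (nat_lit 315) (nat_lit 0) (cs (rf (nat_lit 17)) (cs (rf (nat_lit 32)) (cs (rf (nat_lit 33)) (rf (nat_lit 34)))))) (cs (nd (nat_lit 315) (nat_lit 0) (cs (rf (nat_lit 35)) (cs (rf (nat_lit 32)) (rf (nat_lit 36))))) (cs (nd (nat_lit 227) (nat_lit 0) (cs (rf (nat_lit 37)) (cs (rf (nat_lit 29)) (rf (nat_lit 30)))))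 (cs (nd (nat_lit 315) (nat_lit 0) (cs (rf (nat_lit 17)) (rf (nat_lit 18)))) (rf (nat_lit 38))))))))))) (cs (nd (nat_lit 209) (nat_lit 0) (cs (lf (nat_lit 44) (nat_lit 186)) (nd (nat_lit 271) (nat_lit 0) (cs (rf (nat_lit 3)) (cs (rf (nat_lit 19)) (cs (rf (nat_lit 25)) (rf (nat_lit 39)))))))) (cs (nd (nat_lit 271) (nat_lit 0) (cs (rf (nat_lit 3)) (cs (rf (nat_lit 19)) (cs (rf (nat_lit 40)) (rf (nat_lit 28)))))) (cs (rf (nat_lit 41)) (nd (nat_lit 271) (nat_lit 0) (cs (rf (nat_lit 3)) (cs (rf (nat_lit 10)) (cs (rf (nat_lit 38)) (nd (nat_lit 227) (nat_lit 0) (cs (rf (nat_lit 21)) (cs (rf (nat_lit 6)) (cs (rf (nat_lit 42)) (rf (nat_lit 43))))))))))))))))))))))) q68522 (by decide +kernel)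
def q68991 : Q := Q.p (nat_lit 0x800002600000800010000040000000000000000000000000000000000000000000000) (nat_lit 0x3de0007f0001fe0000f00011c00077c0027e0003fc00070000000000000000000000000000000000000000) (nat_lit 12)
theorem c68991 : QOK q68991 := cut [q67955, q40962, q68087, q54963, q3639, q59263, q67287, q68990] ⟨c67955, c40962, c68087, c54963, c3639, c59263, c67287, c68990, trivial⟩ (nd (nat_lit 271) (nat_lit 0) (cs (rf (nat_lit 0)) (cs (nd (nat_lit 205) (nat_lit 0) (cs (rf (nat_lit 1)) (cs (rf (nat_lit 2)) (cs (nd (nat_lit 230) (nat_lit 0) (cs (lf (nat_lit 27) (nat_lit 186)) (rf (nat_lit 3)))) (nd (nat_lit 184) (nat_lit 0) (cs (lf (nat_lit 34) (nat_lit 183)) (nd (nat_lit 183) (nat_lit 0) (cs (lf (nat_lit 35) (nat_lit 161)) (rf (nat_lit 4)))))))))) (cs (nd (nat_lit 293) (nat_lit 0) (cs (rf (nat_lit 5)) (cs (rf (nat_lit 6)) (cs (nd (nat_lit 230) (nat_lit 0) (cs (lf (nat_lit 27) (nat_lit 186)) (nd (nat_lit 294)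 (nat_lit 0) (cs (lf (nat_lit 29) (nat_lit 227)) (nd (nat_lit 204) (nat_lit 0) (cs (lf (nat_lit 46) (nat_lit 204)) (nd (nat_lit 205) (nat_lit 0) (cs (lf (nat_lit 47) (nat_lit 182)) (nd (nat_lit 184) (nat_lit 0) (cs (lf (nat_lit 34) (nat_lit 183)) (nd (nat_lit 183) (nat_lit 0) (cs (lf (nat_lit 35) (nat_lit 161)) (lf (nat_lit 7) (nat_lit 182)))))))))))))) (nd (nat_lit 294) (nat_lit 0) (cs (lf (nat_lit 29) (nat_lit 227)) (nd (nat_lit 230) (nat_lit 0) (cs (lf (nat_lit 27) (nat_lit 186)) (nd (nat_lit 292) (nat_lit 0) (cs (lf (nat_lit 41) (nat_lit 226)) (nd (nat_lit 205) (nat_lit 0) (cs (lf (nat_lit 40) (nat_lit 204)) (nd (nat_lit 184) (nat_lit 0) (cs (lf (nat_lit 34) (nat_lit 183)) (nd (nat_lit 183) (nat_lit 0) (cs (lf (nat_lit 35) (nat_lit 161)) (nd (nat_lit 160) (nat_lit 0) (cs (lf (nat_lit 46) (nat_lit 160)) (nd (nat_lit 185) (nat_lit 0) (cs (lf (nat_lit 5) (nat_lit 183)) (lf (nat_lit 22) (nat_lit 160))))))))))))))))))))))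 (rf (nat_lit 7)))))) q68991 (by decide +kernel)
def q69264 : Q := Q.p (nat_lit 0x880002600000000010000040000000000000000000000000000000000000000000000) (nat_lit 0x150003fe000ff0001fe0007700011c000f700007c00017000004000000000000000000000000000000000000000) (nat_lit 14)
theorem c69264 : QOK q69264 := cut [q69118, q69207, q61516, q67288, q67272, q69210, q24867, q17422, q69231, q66757, q67568, q65173, q47554, q65706, q59530, q56821, q69176, q45664, q69248, q48718, q65751, q49160, q69155, q69253, q69257] ⟨c69118, c69207, c61516, c67288, c67272, c69210, c24867, c17422, c69231, c66757, c67568, c65173, c47554, c65706, c59530, c56821, c69176, c45664, c69248, c48718, c65751, c49160, c69155, c69253, c69257, trivial⟩ (nd (nat_lit 272) (nat_lit 0) (cs (rf (nat_lit 0)) (cs (rf (nat_lit 1)) (cs (nd (nat_lit 293) (nat_lit 0) (cs (rf (nat_lit 2)) (cs (rf (nat_lit 3)) (nd (nat_lit 294) (nat_lit 0) (cs (rf (nat_lit 4)) (cs (nd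 (nat_lit 206) (nat_lit 0) (cs (lf (nat_lit 37) (nat_lit 205)) (rf (nat_lit 5)))) (cs (nd (nat_lit 274) (nat_lit 0) (cs (lf (nat_lit 20) (nat_lit 249)) (nd (nat_lit 206) (nat_lit 0) (cs (lf (nat_lit 37) (nat_lit 205)) (nd (nat_lit 252) (nat_lit 0) (cs (lf (nat_lit 26) (nat_lit 186)) (nd (nat_lit 316) (nat_lit 0) (cs (lf (nat_lit 42) (nat_lit 249)) (nd (nat_lit 317) (nat_lit 0) (cs (lf (nat_lit 29) (nat_lit 250)) (nd (nat_lit 291) (nat_lit 0) (cs (lf (nat_lit 1) (nat_lit 291)) (nd (nat_lit 318) (nat_lit 0) (cs (lf (nat_lit 18) (nat_lit 293)) (rf (nat_lit 6)))))))))))))))) (nd (nat_lit 273) (nat_lit 0) (cs (lf (nat_lit 19) (nat_lit 249)) (nd (nat_lit 291) (nat_lit 0) (cs (lf (nat_lit 13) (nat_lit 269)) (nd (nat_lit 316) (nat_lit 0) (cs (lf (nat_lit 42) (nat_lit 249)) (nd (nat_lit 228) (nat_lit 0) (cs (lf (nat_lit 36) (nat_lit 205)) (rf (nat_lit 7))))))))))))))))) (cs (rf (nat_lit 8)) (cs (nd (nat_lit 293) (nat_lit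 0) (cs (rf (nat_lit 9)) (cs (rf (nat_lit 10)) (nd (nat_lit 295) (nat_lit 0) (cs (nd (nat_lit 273) (nat_lit 0) (cs (lf (nat_lit 19) (nat_lit 249)) (nd (nat_lit 270) (nat_lit 0) (cs (lf (nat_lit 5) (nat_lit 270)) (rf (nat_lit 11)))))) (cs (nd (nat_lit 230) (nat_lit 0) (cs (lf (nat_lit 27) (nat_lit 186)) (nd (nat_lit 228) (nat_lit 0) (cs (lf (nat_lit 36) (nat_lit 205)) (nd (nat_lit 229) (nat_lit 0) (cs (lf (nat_lit 6) (nat_lit 227)) (nd (nat_lit 247) (nat_lit 0) (cs (lf (nat_lit 13) (nat_lit 225)) (nd (nat_lit 294) (nat_lit 0) (cs (lf (nat_lit 29) (nat_lit 228)) (rf (nat_lit 12)))))))))))) (cs (nd (nat_lit 206) (nat_lit 0) (cs (lf (nat_lit 37) (nat_lit 205)) (nd (nat_lit 273) (nat_lit 0) (cs (lf (nat_lit 19) (nat_lit 249)) (nd (nat_lit 270) (nat_lit 0) (cs (lf (nat_lit 5) (nat_lit 270)) (rf (nat_lit 13)))))))) (nd (nat_lit 273) (nat_lit 0) (cs (lf (nat_lit 19) (nat_lit 249)) (rf (nat_lit 14))))))))))) (nd (nat_lit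 293) (nat_lit 0) (cs (rf (nat_lit 9)) (cs (rf (nat_lit 10)) (nd (nat_lit 247) (nat_lit 0) (cs (rf (nat_lit 15)) (cs (rf (nat_lit 16)) (nd (nat_lit 269) (nat_lit 0) (cs (rf (nat_lit 17)) (cs (rf (nat_lit 18)) (cs (nd (nat_lit 291) (nat_lit 0) (cs (nd (nat_lit 273) (nat_lit 0) (cs (lf (nat_lit 19) (nat_lit 249)) (nd (nat_lit 230) (nat_lit 0) (cs (lf (nat_lit 27) (nat_lit 186)) (nd (nat_lit 292) (nat_lit 0) (cs (lf (nat_lit 15) (nat_lit 269)) (rf (nat_lit 19)))))))) (cs (nd (nat_lit 313) (nat_lit 0) (cs (rf (nat_lit 20)) (cs (nd (nat_lit 230) (nat_lit 0) (cs (lf (nat_lit 27) (nat_lit 186)) (nd (nat_lit 314) (nat_lit 0) (cs (lf (nat_lit 29) (nat_lit 247)) (rf (nat_lit 21)))))) (rf (nat_lit 22))))) (nd (nat_lit 206) (nat_lit 0) (cs (lf (nat_lit 37) (nat_lit 205)) (nd (nat_lit 292) (nat_lit 0) (cs (lf (nat_lit 12) (nat_lit 268)) (rf (nat_lit 23))))))))) (nd (nat_lit 273) (nat_lit 0) (cs (lf (nat_lit 19) (nat_lit 249))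 (nd (nat_lit 206) (nat_lit 0) (cs (lf (nat_lit 37) (nat_lit 205)) (nd (nat_lit 230) (nat_lit 0) (cs (lf (nat_lit 27) (nat_lit 186)) (rf (nat_lit 24)))))))))))))))))))))))) q69264 (by decide +kernel)
def q70248 : Q := Q.p (nat_lit 0x800002600000000010000040000000000000000000000000000000000000000000000) (nat_lit 0x110002fc000ff8003fe000ffc0077f0011fc0efff01e7fc0ebff000ffc003fe000140000400000000000000000000000) (nat_lit 15)
theorem c70248 : QOK q70248 := cut [q45262, q58995, q63547, q69331, q69826, q56821, q63977, q17589, q40573, q51495, q69832, q69902, q61264, q67552, q62407, q47042, q56781, q56823, q56824, q17230, q69980, q70210, q69879, q70245, q69901] ⟨c45262, c58995, c63547, c69331, c69826, c56821, c63977, c17589, c40573, c51495, c69832, c69902, c61264, c67552, c62407, c47042, c56781, c56823, c56824, c17230, c69980, c70210, c69879, c70245, c69901, trivial⟩ (nd (nat_lit 230) (nat_lit 0) (cs (lf (nat_lit 27)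 (nat_lit 186)) (nd (nat_lit 247) (nat_lit 0) (cs (nd (nat_lit 248) (nat_lit 0) (cs (rf (nat_lit 0)) (cs (rf (nat_lit 1)) (cs (rf (nat_lit 2)) (rf (nat_lit 3)))))) (cs (rf (nat_lit 4)) (cs (nd (nat_lit 231) (nat_lit 0) (cs (lf (nat_lit 45) (nat_lit 186)) (nd (nat_lit 228) (nat_lit 0) (cs (lf (nat_lit 8) (nat_lit 227)) (nd (nat_lit 272) (nat_lit 0) (cs (rf (nat_lit 5)) (cs (rf (nat_lit 6)) (nd (nat_lit 294) (nat_lit 0) (cs (rf (nat_lit 7)) (cs (rf (nat_lit 8)) (nd (nat_lit 227) (nat_lit 0) (cs (rf (nat_lit 9)) (nd (nat_lit 248) (nat_lit 0) (cs (lf (nat_lit 12) (nat_lit 224)) (rf (nat_lit 10)))))))))))))))) (cs (rf (nat_lit 11)) (cs (nd (nat_lit 228) (nat_lit 0) (cs (rf (nat_lit 12)) (cs (rf (nat_lit 13)) (cs (nd (nat_lit 272) (nat_lit 0) (cs (rf (nat_lit 6)) (cs (nd (nat_lit 273) (nat_lit 0) (cs (lf (nat_lit 19) (nat_lit 249)) (rf (nat_lit 14)))) (nd (nat_lit 209) (nat_lit 0) (cs (lf (nat_lit 44) (nat_lit 186))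 (nd (nat_lit 227) (nat_lit 0) (cs (rf (nat_lit 9)) (nd (nat_lit 225) (nat_lit 0) (cs (rf (nat_lit 15)) (cs (rf (nat_lit 16)) (cs (rf (nat_lit 17)) (rf (nat_lit 18))))))))))))) (nd (nat_lit 229) (nat_lit 0) (cs (lf (nat_lit 13) (nat_lit 225)) (nd (nat_lit 227) (nat_lit 0) (cs (lf (nat_lit 17) (nat_lit 205)) (nd (nat_lit 204) (nat_lit 0) (cs (lf (nat_lit 22) (nat_lit 204)) (nd (nat_lit 226) (nat_lit 0) (cs (lf (nat_lit 23) (nat_lit 203)) (rf (nat_lit 19)))))))))))))) (cs (rf (nat_lit 20)) (cs (rf (nat_lit 21)) (cs (nd (nat_lit 248) (nat_lit 0) (cs (rf (nat_lit 0)) (cs (rf (nat_lit 1)) (cs (rf (nat_lit 2)) (rf (nat_lit 22)))))) (cs (rf (nat_lit 23)) (nd (nat_lit 248) (nat_lit 0) (cs (rf (nat_lit 0)) (cs (rf (nat_lit 1)) (cs (rf (nat_lit 2)) (rf (nat_lit 24)))))))))))))))))) q70248 (by decide +kernel)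
def q70442 : Q := Q.p (nat_lit 0x900002600000000010000040000000000000000000000000000000000000000000000) (nat_lit 0x50000fc000ff0001fc0006f00011c0007700007c00014000000000000000000000000000000000000000000000) (nat_lit 12)
theorem c70442 : QOK q70442 := cut [q61551, q70254, q70258, q70261, q70329, q70353, q70377, q70263, q56821, q70262, q45664, q69248, q70274, q70378, q70383, q57083, q69300, q70391, q70394, q70395, q70396, q65582, q70408, q70253, q70336, q46629, q70338, q70423, q70315, q70425, q65660, q70433] ⟨c61551, c70254, c70258, c70261, c70329, c70353, c70377, c70263, c56821, c70262, c45664, c69248, c70274, c70378, c70383, c57083, c69300, c70391, c70394, c70395, c70396, c65582, c70408, c70253, c70336, c46629, c70338, c70423, c70315, c70425, c65660, c70433, trivial⟩ (nd (nat_lit 271) (nat_lit 0) (cs (nd (nat_lit 270) (nat_lit 0) (cs (rf (nat_lit 0)) (cs (nd (nat_lit 269) (nat_lit 0) (cs (lf (nat_lit 12) (nat_lit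 246)) (nd (nat_lit 230) (nat_lit 0) (cs (lf (nat_lit 27) (nat_lit 186)) (nd (nat_lit 290) (nat_lit 0) (cs (lf (nat_lit 10) (nat_lit 268)) (rf (nat_lit 1)))))))) (rf (nat_lit 2))))) (cs (rf (nat_lit 3)) (cs (rf (nat_lit 4)) (cs (rf (nat_lit 5)) (cs (rf (nat_lit 6)) (cs (nd (nat_lit 293) (nat_lit 0) (cs (rf (nat_lit 7)) (cs (nd (nat_lit 247) (nat_lit 0) (cs (rf (nat_lit 8)) (cs (rf (nat_lit 9)) (nd (nat_lit 269) (nat_lit 0) (cs (rf (nat_lit 10)) (cs (rf (nat_lit 11)) (cs (rf (nat_lit 12)) (nd (nat_lit 230) (nat_lit 0) (cs (lf (nat_lit 27) (nat_lit 186)) (nd (nat_lit 206) (nat_lit 0) (cs (lf (nat_lit 37) (nat_lit 205)) (rf (nat_lit 13))))))))))))) (rf (nat_lit 14))))) (cs (nd (nat_lit 273) (nat_lit 0) (cs (lf (nat_lit 19) (nat_lit 249)) (nd (nat_lit 270) (nat_lit 0) (cs (rf (nat_lit 15)) (cs (rf (nat_lit 16)) (rf (nat_lit 17))))))) (cs (nd (nat_lit 315) (nat_lit 0) (cs (rf (nat_lit 18)) (cs (nd (nat_lit 273) (nat_lit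 0) (cs (lf (nat_lit 19) (nat_lit 249)) (nd (nat_lit 270) (nat_lit 0) (cs (rf (nat_lit 15)) (cs (rf (nat_lit 19)) (nd (nat_lit 295) (nat_lit 0) (cs (lf (nat_lit 5) (nat_lit 270)) (nd (nat_lit 317) (nat_lit 0) (cs (lf (nat_lit 42) (nat_lit 250)) (nd (nat_lit 206) (nat_lit 0) (cs (lf (nat_lit 25) (nat_lit 206)) (nd (nat_lit 230) (nat_lit 0) (cs (lf (nat_lit 27) (nat_lit 186)) (nd (nat_lit 248) (nat_lit 0) (cs (lf (nat_lit 0) (nat_lit 247)) (nd (nat_lit 292) (nat_lit 0) (cs (lf (nat_lit 11) (nat_lit 269)) (rf (nat_lit 20))))))))))))))))))) (cs (nd (nat_lit 230) (nat_lit 0) (cs (lf (nat_lit 27) (nat_lit 186)) (nd (nat_lit 228) (nat_lit 0) (cs (rf (nat_lit 21)) (lf (nat_lit 31) (nat_lit 227)))))) (nd (nat_lit 293) (nat_lit 0) (cs (lf (nat_lit 30) (nat_lit 249)) (nd (nat_lit 316) (nat_lit 0) (cs (lf (nat_lit 29) (nat_lit 249)) (rf (nat_lit 22)))))))))) (cs (nd (nat_lit 294) (nat_lit 0) (cs (rf (nat_lit 23)) (cs (rf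 (nat_lit 24)) (cs (nd (nat_lit 230) (nat_lit 0) (cs (lf (nat_lit 27) (nat_lit 186)) (nd (nat_lit 273) (nat_lit 0) (cs (lf (nat_lit 19) (nat_lit 249)) (nd (nat_lit 247) (nat_lit 0) (cs (lf (nat_lit 1) (nat_lit 247)) (nd (nat_lit 316) (nat_lit 0) (cs (lf (nat_lit 42) (nat_lit 249)) (nd (nat_lit 317) (nat_lit 0) (cs (lf (nat_lit 29) (nat_lit 250)) (nd (nat_lit 295) (nat_lit 0) (cs (lf (nat_lit 24) (nat_lit 228)) (nd (nat_lit 296) (nat_lit 0) (cs (lf (nat_lit 0) (nat_lit 270)) (rf (nat_lit 25)))))))))))))))) (cs (nd (nat_lit 293) (nat_lit 0) (cs (rf (nat_lit 7)) (cs (rf (nat_lit 26)) (rf (nat_lit 27))))) (cs (nd (nat_lit 293) (nat_lit 0) (cs (rf (nat_lit 28)) (cs (rf (nat_lit 27)) (nd (nat_lit 230) (nat_lit 0) (cs (lf (nat_lit 27) (nat_lit 186)) (nd (nat_lit 273) (nat_lit 0) (cs (lf (nat_lit 7) (nat_lit 271)) (nd (nat_lit 247) (nat_lit 0) (cs (lf (nat_lit 1) (nat_lit 247)) (rf (nat_lit 29))))))))))) (nd (nat_lit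 230) (nat_lit 0) (cs (lf (nat_lit 27) (nat_lit 186)) (rf (nat_lit 30)))))))))) (nd (nat_lit 293) (nat_lit 0) (cs (rf (nat_lit 7)) (cs (rf (nat_lit 14)) (nd (nat_lit 273) (nat_lit 0) (cs (lf (nat_lit 19) (nat_lit 249)) (nd (nat_lit 270) (nat_lit 0) (cs (rf (nat_lit 15)) (cs (rf (nat_lit 19)) (nd (nat_lit 292) (nat_lit 0) (cs (lf (nat_lit 11) (nat_lit 269)) (nd (nat_lit 295) (nat_lit 0) (cs (lf (nat_lit 5) (nat_lit 270)) (nd (nat_lit 206) (nat_lit 0) (cs (lf (nat_lit 25) (nat_lit 206)) (nd (nat_lit 248) (nat_lit 0) (cs (lf (nat_lit 23) (nat_lit 247)) (nd (nat_lit 230) (nat_lit 0) (cs (lf (nat_lit 27) (nat_lit 186)) (rf (nat_lit 31)))))))))))))))))))))))))))))) q70442 (by decide +kernel)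
def q70811 : Q := Q.p (nat_lit 0x900002600000000010000040000000000000000000000000000000000000000000000) (nat_lit 0x1500007c000ff000ffe001ff8002ff0011f806f7f01e7f80ebff00014000000000000000000000000000000000000000) (nat_lit 14)
theorem c70811 : QOK q70811 := cut [q70529, q70444, q70505, q70566, q70458, q70622, q70653, q70295, q70263, q70655, q52054, q70496, q70664, q70667, q70699, q70629, q70652, q11939, q70714, q66782, q70750, q45664, q70287, q70296, q70461, q70758, q70782, q70663, q70793, q70810] ⟨c70529, c70444, c70505, c70566, c70458, c70622, c70653, c70295, c70263, c70655, c52054, c70496, c70664, c70667, c70699, c70629, c70652, c11939, c70714, c66782, c70750, c45664, c70287, c70296, c70461, c70758, c70782, c70663, c70793, c70810, trivial⟩ (nd (nat_lit 269) (nat_lit 0) (cs (rf (nat_lit 0)) (cs (nd (nat_lit 247) (nat_lit 0) (cs (rf (nat_lit 1)) (cs (rf (nat_lit 2)) (rf (nat_lit 3))))) (cs (nd (nat_lit 247) (nat_lit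 0) (cs (rf (nat_lit 1)) (cs (rf (nat_lit 4)) (nd (nat_lit 209) (nat_lit 0) (cs (lf (nat_lit 44) (nat_lit 186)) (rf (nat_lit 5))))))) (cs (rf (nat_lit 6)) (cs (nd (nat_lit 271) (nat_lit 0) (cs (rf (nat_lit 7)) (cs (nd (nat_lit 293) (nat_lit 0) (cs (rf (nat_lit 8)) (rf (nat_lit 9)))) (cs (nd (nat_lit 247) (nat_lit 0) (cs (rf (nat_lit 10)) (cs (rf (nat_lit 4)) (rf (nat_lit 11))))) (cs (nd (nat_lit 230) (nat_lit 0) (cs (lf (nat_lit 27) (nat_lit 186)) (nd (nat_lit 270) (nat_lit 0) (cs (lf (nat_lit 12) (nat_lit 246)) (rf (nat_lit 12)))))) (nd (nat_lit 270) (nat_lit 0) (cs (lf (nat_lit 12) (nat_lit 246)) (nd (nat_lit 247) (nat_lit 0) (cs (lf (nat_lit 23) (nat_lit 246)) (nd (nat_lit 230) (nat_lit 0) (cs (lf (nat_lit 27) (nat_lit 186)) (rf (nat_lit 13))))))))))))) (cs (rf (nat_lit 14)) (cs (nd (nat_lit 271) (nat_lit 0) (cs (rf (nat_lit 15)) (cs (rf (nat_lit 16)) (nd (nat_lit 230) (nat_lit 0) (cs (lf (nat_lit 27) (nat_lit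 186)) (nd (nat_lit 270) (nat_lit 0) (cs (lf (nat_lit 12) (nat_lit 246)) (nd (nat_lit 247) (nat_lit 0) (cs (lf (nat_lit 23) (nat_lit 246)) (nd (nat_lit 290) (nat_lit 0) (cs (lf (nat_lit 10) (nat_lit 268)) (nd (nat_lit 273) (nat_lit 0) (cs (rf (nat_lit 17)) (lf (nat_lit 1) (nat_lit 247))))))))))))))) (cs (nd (nat_lit 209) (nat_lit 0) (cs (lf (nat_lit 44) (nat_lit 186)) (nd (nat_lit 268) (nat_lit 0) (cs (rf (nat_lit 18)) (cs (nd (nat_lit 247) (nat_lit 0) (cs (lf (nat_lit 8) (nat_lit 246)) (nd (nat_lit 211) (nat_lit 0) (cs (rf (nat_lit 19)) (rf (nat_lit 20)))))) (cs (nd (nat_lit 247) (nat_lit 0) (cs (lf (nat_lit 8) (nat_lit 246)) (nd (nat_lit 271) (nat_lit 0) (cs (rf (nat_lit 21)) (cs (rf (nat_lit 22)) (cs (rf (nat_lit 23)) (rf (nat_lit 24)))))))) (cs (nd (nat_lit 247) (nat_lit 0) (cs (lf (nat_lit 8) (nat_lit 246)) (nd (nat_lit 211) (nat_lit 0) (cs (rf (nat_lit 19)) (rf (nat_lit 25)))))) (nd (nat_lit 211) (nat_lit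 0) (cs (rf (nat_lit 19)) (rf (nat_lit 26))))))))))) (cs (nd (nat_lit 271) (nat_lit 0) (cs (rf (nat_lit 23)) (cs (rf (nat_lit 15)) (cs (nd (nat_lit 209) (nat_lit 0) (cs (lf (nat_lit 44) (nat_lit 186)) (nd (nat_lit 270) (nat_lit 0) (cs (lf (nat_lit 12) (nat_lit 246)) (rf (nat_lit 27)))))) (nd (nat_lit 230) (nat_lit 0) (cs (lf (nat_lit 27) (nat_lit 186)) (nd (nat_lit 209) (nat_lit 0) (cs (lf (nat_lit 44) (nat_lit 186)) (rf (nat_lit 28)))))))))) (rf (nat_lit 29)))))))))))) q70811 (by decide +kernel)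
def q71311 : Q := Q.p (nat_lit 0x900002600000000010000040000000000000000000000000000000000000000000000) (nat_lit 0x150002fc003ff000ffe001ffc004ff0011f800f7f0027f8001ff00014000000000000000000000000000000000000000) (nat_lit 14)
theorem c71311 : QOK q71311 := cut [q47438, q70813, q70894, q70951, q71051, q71159, q70295, q70447, q71170, q71284, q70714, q70782, q71193, q70750, q70758, q70676, q70254, q70880, q70882, q70891, q70892, q70672, q47043, q71029, q69576, q70553, q70845, q69691, q70716, q70762, q70780, q60108] ⟨c47438, c70813, c70894, c70951, c71051, c71159, c70295, c70447, c71170, c71284, c70714, c70782, c71193, c70750, c70758, c70676, c70254, c70880, c70882, c70891, c70892, c70672, c47043, c71029, c69576, c70553, c70845, c69691, c70716, c70762, c70780, c60108, trivial⟩ (nd (nat_lit 231) (nat_lit 0) (cs (lf (nat_lit 45) (nat_lit 186)) (nd (nat_lit 269) (nat_lit 0) (cs (nd (nat_lit 271) (nat_lit 0) (cs (rf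 (nat_lit 0)) (rf (nat_lit 1)))) (cs (rf (nat_lit 2)) (cs (rf (nat_lit 3)) (cs (rf (nat_lit 4)) (cs (rf (nat_lit 5)) (cs (nd (nat_lit 271) (nat_lit 0) (cs (rf (nat_lit 6)) (cs (rf (nat_lit 1)) (nd (nat_lit 270) (nat_lit 0) (cs (lf (nat_lit 12) (nat_lit 246)) (nd (nat_lit 247) (nat_lit 0) (cs (lf (nat_lit 23) (nat_lit 246)) (nd (nat_lit 225) (nat_lit 0) (cs (rf (nat_lit 7)) (cs (nd (nat_lit 294) (nat_lit 0) (cs (lf (nat_lit 5) (nat_lit 269)) (nd (nat_lit 316) (nat_lit 0) (cs (lf (nat_lit 42) (nat_lit 249)) (nd (nat_lit 291) (nat_lit 0) (cs (lf (nat_lit 11) (nat_lit 268)) (nd (nat_lit 317) (nat_lit 0) (cs (lf (nat_lit 29) (nat_lit 250)) (nd (nat_lit 315) (nat_lit 0) (cs (lf (nat_lit 41) (nat_lit 249)) (nd (nat_lit 314) (nat_lit 0) (cs (lf (nat_lit 22) (nat_lit 291)) (nd (nat_lit 336) (nat_lit 0) (cs (lf (nat_lit 11) (nat_lit 313)) (lf (nat_lit 27) (nat_lit 247)))))))))))))))) (nd (nat_lit 230) (nat_lit 0) (cs (lf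 (nat_lit 27) (nat_lit 186)) (nd (nat_lit 294) (nat_lit 0) (cs (lf (nat_lit 5) (nat_lit 269)) (nd (nat_lit 316) (nat_lit 0) (cs (lf (nat_lit 42) (nat_lit 249)) (rf (nat_lit 8)))))))))))))))))) (cs (rf (nat_lit 9)) (cs (nd (nat_lit 268) (nat_lit 0) (cs (rf (nat_lit 10)) (cs (rf (nat_lit 11)) (cs (rf (nat_lit 12)) (cs (nd (nat_lit 247) (nat_lit 0) (cs (lf (nat_lit 8) (nat_lit 246)) (rf (nat_lit 13)))) (nd (nat_lit 247) (nat_lit 0) (cs (lf (nat_lit 8) (nat_lit 246)) (rf (nat_lit 14))))))))) (nd (nat_lit 270) (nat_lit 0) (cs (rf (nat_lit 15)) (cs (nd (nat_lit 271) (nat_lit 0) (cs (rf (nat_lit 16)) (cs (rf (nat_lit 17)) (cs (rf (nat_lit 18)) (cs (rf (nat_lit 19)) (rf (nat_lit 20))))))) (cs (nd (nat_lit 268) (nat_lit 0) (cs (rf (nat_lit 21)) (cs (nd (nat_lit 247) (nat_lit 0) (cs (lf (nat_lit 8) (nat_lit 246)) (nd (nat_lit 225) (nat_lit 0) (cs (rf (nat_lit 22)) (cs (rf (nat_lit 23)) (cs (nd (nat_lit 291) (nat_lit 0)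 (cs (rf (nat_lit 24)) (cs (rf (nat_lit 25)) (cs (rf (nat_lit 26)) (nd (nat_lit 224) (nat_lit 0) (cs (lf (nat_lit 47) (nat_lit 202)) (nd (nat_lit 290) (nat_lit 0) (cs (lf (nat_lit 41) (nat_lit 224)) (nd (nat_lit 289) (nat_lit 0) (cs (lf (nat_lit 12) (nat_lit 266)) (nd (nat_lit 204) (nat_lit 0) (cs (lf (nat_lit 34) (nat_lit 203)) (nd (nat_lit 311) (nat_lit 0) (cs (lf (nat_lit 37) (nat_lit 223)) (nd (nat_lit 292) (nat_lit 0) (cs (lf (nat_lit 29) (nat_lit 225)) (lf (nat_lit 11) (nat_lit 288)))))))))))))))))) (nd (nat_lit 203) (nat_lit 0) (cs (lf (nat_lit 29) (nat_lit 203)) (lf (nat_lit 41) (nat_lit 202)))))))))) (nd (nat_lit 267) (nat_lit 0) (cs (rf (nat_lit 27)) (cs (rf (nat_lit 28)) (cs (rf (nat_lit 29)) (rf (nat_lit 30))))))))) (nd (nat_lit 271) (nat_lit 0) (cs (lf (nat_lit 12) (nat_lit 246)) (nd (nat_lit 246) (nat_lit 0) (cs (lf (nat_lit 22) (nat_lit 246)) (nd (nat_lit 290) (nat_lit 0) (cs (lf (nat_lit 10) (nat_lit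 268)) (nd (nat_lit 294) (nat_lit 0) (cs (lf (nat_lit 5) (nat_lit 269)) (nd (nat_lit 316) (nat_lit 0) (cs (lf (nat_lit 42) (nat_lit 249)) (nd (nat_lit 315) (nat_lit 0) (cs (lf (nat_lit 41) (nat_lit 249)) (nd (nat_lit 293) (nat_lit 0) (cs (lf (nat_lit 35) (nat_lit 227)) (nd (nat_lit 314) (nat_lit 0) (cs (lf (nat_lit 41) (nat_lit 248)) (rf (nat_lit 31))))))))))))))))))))))))))))))))) q71311 (by decide +kernel)
def q71738 : Q := Q.p (nat_lit 0x20000900002600000000010000040000000000000000000000000000000000000000000000) (nat_lit 0xa80003f0001fc000f78001dc0006f80011c006e7801e1c00ebd000000000000000000000000000000000000000000000) (nat_lit 13)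
theorem c71738 : QOK q71738 := cut [q71631, q71701, q71702, q44140, q48567, q71570, q71620, q44930, q60896, q75, q47469, q71572, q68284, q71736, q71471, q71579] ⟨c71631, c71701, c71702, c44140, c48567, c71570, c71620, c44930, c60896, c75, c47469, c71572, c68284, c71736, c71471, c71579, trivial⟩ (nd (nat_lit 294) (nat_lit 0) (cs (rf (nat_lit 0)) (cs (rf (nat_lit 1)) (cs (nd (nat_lit 274) (nat_lit 0) (cs (lf (nat_lit 20) (nat_lit 249)) (nd (nat_lit 209) (nat_lit 0) (cs (lf (nat_lit 44) (nat_lit 186)) (nd (nat_lit 210) (nat_lit 0) (cs (rf (nat_lit 2)) (cs (nd (nat_lit 292) (nat_lit 0) (cs (nd (nat_lit 230) (nat_lit 0) (cs (lf (nat_lit 27) (nat_lit 186)) (nd (nat_lit 295) (nat_lit 0) (cs (lf (nat_lit 15) (nat_lit 271)) (rf (nat_lit 3)))))) (cs (nd (nat_lit 295) (nat_lit 0) (cs (lf (nat_lit 15) (nat_lit 271)) (nd (nat_lit 270) (nat_lit 0) (cs (lf (nat_lit 23) (nat_lit 269)) (rf (nat_lit 4)))))) (cs (nd (nat_lit 230)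 (nat_lit 0) (cs (lf (nat_lit 27) (nat_lit 186)) (nd (nat_lit 295) (nat_lit 0) (cs (lf (nat_lit 15) (nat_lit 271)) (nd (nat_lit 313) (nat_lit 0) (cs (lf (nat_lit 10) (nat_lit 291)) (nd (nat_lit 291) (nat_lit 0) (cs (lf (nat_lit 11) (nat_lit 290)) (rf (nat_lit 5)))))))))) (cs (nd (nat_lit 230) (nat_lit 0) (cs (lf (nat_lit 27) (nat_lit 186)) (nd (nat_lit 295) (nat_lit 0) (cs (lf (nat_lit 15) (nat_lit 271)) (nd (nat_lit 269) (nat_lit 0) (cs (lf (nat_lit 22) (nat_lit 269)) (rf (nat_lit 6)))))))) (nd (nat_lit 291) (nat_lit 0) (cs (rf (nat_lit 7)) (nd (nat_lit 230) (nat_lit 0) (cs (lf (nat_lit 27) (nat_lit 186)) (nd (nat_lit 316) (nat_lit 0) (cs (lf (nat_lit 5) (nat_lit 291)) (rf (nat_lit 8))))))))))))) (nd (nat_lit 295) (nat_lit 0) (cs (rf (nat_lit 9)) (lf (nat_lit 15) (nat_lit 271))))))))))) (cs (nd (nat_lit 273) (nat_lit 0) (cs (lf (nat_lit 19) (nat_lit 249)) (nd (nat_lit 248) (nat_lit 0) (cs (lf (nat_lit 0) (nat_lit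 247)) (nd (nat_lit 316) (nat_lit 0) (cs (rf (nat_lit 10)) (cs (rf (nat_lit 11)) (nd (nat_lit 230) (nat_lit 0) (cs (lf (nat_lit 27) (nat_lit 186)) (nd (nat_lit 291) (nat_lit 0) (cs (lf (nat_lit 13) (nat_lit 269)) (nd (nat_lit 209) (nat_lit 0) (cs (lf (nat_lit 44) (nat_lit 186)) (nd (nat_lit 338) (nat_lit 0) (cs (lf (nat_lit 46) (nat_lit 249)) (nd (nat_lit 359) (nat_lit 0) (cs (lf (nat_lit 40) (nat_lit 271)) (nd (nat_lit 360) (nat_lit 0) (cs (lf (nat_lit 41) (nat_lit 293)) (lf (nat_lit 34) (nat_lit 272))))))))))))))))))))) (cs (nd (nat_lit 231) (nat_lit 0) (cs (lf (nat_lit 45) (nat_lit 186)) (rf (nat_lit 12)))) (cs (rf (nat_lit 13)) (nd (nat_lit 292) (nat_lit 0) (cs (rf (nat_lit 14)) (cs (nd (nat_lit 291) (nat_lit 0) (cs (lf (nat_lit 17) (nat_lit 269)) (rf (nat_lit 5)))) (rf (nat_lit 15)))))))))))) q71738 (by decide +kernel)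
def q72848 : Q := Q.p (nat_lit 0x880002600000000010000040000000000000000000000000000000000000000000000) (nat_lit 0x500001c0000fe000ffc001fe00077c0011f006cfe01e1c00ea700000c000000000000000000000000000000000000000) (nat_lit 14)
theorem c72848 : QOK q72848 := cut [q72427, q72449, q72769, q44571, q60671, q72340, q72773, q72774, q63832, q68591, q72428, q68613, q72781, q72786, q40900, q72811, q66782, q72187, q72194, q72195, q72206, q54917, q58830, q68659, q72802, q40967, q46568, q72831, q72842, q65860, q69144] ⟨c72427, c72449, c72769, c44571, c60671, c72340, c72773, c72774, c63832, c68591, c72428, c68613, c72781, c72786, c40900, c72811, c66782, c72187, c72194, c72195, c72206, c54917, c58830, c68659, c72802, c40967, c46568, c72831, c72842, c65860, c69144, trivial⟩ (nd (nat_lit 248) (nat_lit 0) (cs (rf (nat_lit 0)) (cs (rf (nat_lit 1)) (cs (rf (nat_lit 2)) (cs (nd (nat_lit 209) (nat_lit 0) (cs (lf (nat_lit 44) (nat_lit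 186)) (nd (nat_lit 247) (nat_lit 0) (cs (rf (nat_lit 3)) (cs (rf (nat_lit 4)) (nd (nat_lit 293) (nat_lit 0) (cs (rf (nat_lit 5)) (cs (rf (nat_lit 6)) (rf (nat_lit 7)))))))))) (cs (nd (nat_lit 209) (nat_lit 0) (cs (lf (nat_lit 44) (nat_lit 186)) (nd (nat_lit 226) (nat_lit 0) (cs (rf (nat_lit 8)) (cs (nd (nat_lit 247) (nat_lit 0) (cs (rf (nat_lit 3)) (cs (rf (nat_lit 9)) (cs (rf (nat_lit 10)) (cs (nd (nat_lit 230) (nat_lit 0) (cs (lf (nat_lit 27) (nat_lit 186)) (nd (nat_lit 182) (nat_lit 0) (cs (lf (nat_lit 25) (nat_lit 182)) (rf (nat_lit 11)))))) (nd (nat_lit 224) (nat_lit 0) (cs (lf (nat_lit 22) (nat_lit 224)) (nd (nat_lit 230) (nat_lit 0) (cs (lf (nat_lit 27) (nat_lit 186)) (nd (nat_lit 269) (nat_lit 0) (cs (lf (nat_lit 11) (nat_lit 246)) (rf (nat_lit 12))))))))))))) (cs (rf (nat_lit 13)) (nd (nat_lit 247) (nat_lit 0) (cs (rf (nat_lit 3)) (cs (rf (nat_lit 9)) (cs (rf (nat_lit 11)) (cs (rf (nat_lit 10)) (nd (nat_lit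 225) (nat_lit 0) (cs (lf (nat_lit 23) (nat_lit 224)) (nd (nat_lit 293) (nat_lit 0) (cs (lf (nat_lit 42) (nat_lit 226)) (nd (nat_lit 269) (nat_lit 0) (cs (lf (nat_lit 11) (nat_lit 246)) (nd (nat_lit 230) (nat_lit 0) (cs (lf (nat_lit 27) (nat_lit 186)) (rf (nat_lit 14))))))))))))))))))))) (cs (rf (nat_lit 15)) (cs (nd (nat_lit 209) (nat_lit 0) (cs (lf (nat_lit 44) (nat_lit 186)) (nd (nat_lit 211) (nat_lit 0) (cs (rf (nat_lit 16)) (nd (nat_lit 293) (nat_lit 0) (cs (rf (nat_lit 17)) (cs (rf (nat_lit 18)) (cs (rf (nat_lit 19)) (cs (rf (nat_lit 20)) (cs (nd (nat_lit 226) (nat_lit 0) (cs (rf (nat_lit 21)) (cs (rf (nat_lit 22)) (nd (nat_lit 247) (nat_lit 0) (cs (rf (nat_lit 4)) (cs (rf (nat_lit 11)) (nd (nat_lit 292) (nat_lit 0) (cs (rf (nat_lit 23)) (cs (rf (nat_lit 24)) (nd (nat_lit 230) (nat_lit 0) (cs (lf (nat_lit 27) (nat_lit 186)) (nd (nat_lit 227) (nat_lit 0) (cs (lf (nat_lit 41) (nat_lit 226)) (nd (nat_lit 272)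 (nat_lit 0) (cs (lf (nat_lit 5) (nat_lit 247)) (nd (nat_lit 291) (nat_lit 0) (cs (lf (nat_lit 12) (nat_lit 268)) (nd (nat_lit 313) (nat_lit 0) (cs (lf (nat_lit 32) (nat_lit 225)) (nd (nat_lit 294) (nat_lit 0) (cs (lf (nat_lit 42) (nat_lit 227)) (lf (nat_lit 11) (nat_lit 290))))))))))))))))))))))) (nd (nat_lit 272) (nat_lit 0) (cs (rf (nat_lit 25)) (rf (nat_lit 26)))))))))))))) (cs (nd (nat_lit 209) (nat_lit 0) (cs (lf (nat_lit 44) (nat_lit 186)) (rf (nat_lit 27)))) (cs (rf (nat_lit 28)) (nd (nat_lit 209) (nat_lit 0) (cs (lf (nat_lit 44) (nat_lit 186)) (nd (nat_lit 247) (nat_lit 0) (cs (rf (nat_lit 4)) (cs (rf (nat_lit 10)) (nd (nat_lit 293) (nat_lit 0) (cs (rf (nat_lit 18)) (cs (rf (nat_lit 5)) (cs (rf (nat_lit 7)) (nd (nat_lit 272) (nat_lit 0) (cs (lf (nat_lit 5) (nat_lit 247)) (nd (nat_lit 294) (nat_lit 0) (cs (rf (nat_lit 29)) (rf (nat_lit 30))))))))))))))))))))))))) q72848 (by decide +kernel)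
def q73425 : Q := Q.p (nat_lit 0x880002600000000010000040000000000000000000000000000000000000000000000) (nat_lit 0x10000070001fe000ffe001ff00077c0011f806c7e01e7e00ea7000014000000000000000000000000000000000000000) (nat_lit 14)
theorem c73425 : QOK q73425 := cut [q69245, q73240, q73268, q70871, q11939, q48703, q46575, q73068, q71986, q72057, q48692, q69283, q73370, q70892, q72681, q65422, q47435, q73369, q66782, q70003, q73361, q73389, q73395, q70734, q70749, q73399, q73406, q73422, q73424] ⟨c69245, c73240, c73268, c70871, c11939, c48703, c46575, c73068, c71986, c72057, c48692, c69283, c73370, c70892, c72681, c65422, c47435, c73369, c66782, c70003, c73361, c73389, c73395, c70734, c70749, c73399, c73406, c73422, c73424, trivial⟩ (nd (nat_lit 269) (nat_lit 0) (cs (nd (nat_lit 272) (nat_lit 0) (cs (nd (nat_lit 273) (nat_lit 0) (cs (lf (nat_lit 19) (nat_lit 249)) (nd (nat_lit 247) (nat_lit 0) (cs (lf (nat_lit 1) (nat_lit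 247)) (rf (nat_lit 0)))))) (cs (rf (nat_lit 1)) (cs (rf (nat_lit 2)) (cs (nd (nat_lit 209) (nat_lit 0) (cs (lf (nat_lit 44) (nat_lit 186)) (nd (nat_lit 291) (nat_lit 0) (cs (rf (nat_lit 3)) (cs (nd (nat_lit 230) (nat_lit 0) (cs (lf (nat_lit 27) (nat_lit 186)) (nd (nat_lit 273) (nat_lit 0) (cs (lf (nat_lit 19) (nat_lit 249)) (nd (nat_lit 270) (nat_lit 0) (cs (lf (nat_lit 11) (nat_lit 268)) (rf (nat_lit 4)))))))) (cs (nd (nat_lit 230) (nat_lit 0) (cs (lf (nat_lit 27) (nat_lit 186)) (nd (nat_lit 273) (nat_lit 0) (cs (lf (nat_lit 19) (nat_lit 249)) (nd (nat_lit 270) (nat_lit 0) (cs (lf (nat_lit 10) (nat_lit 269)) (rf (nat_lit 4)))))))) (cs (nd (nat_lit 293) (nat_lit 0) (cs (nd (nat_lit 273) (nat_lit 0) (cs (lf (nat_lit 19) (nat_lit 249)) (rf (nat_lit 5)))) (cs (nd (nat_lit 316) (nat_lit 0) (cs (rf (nat_lit 6)) (cs (nd (nat_lit 274) (nat_lit 0) (cs (lf (nat_lit 20) (nat_lit 249)) (nd (nat_lit 230) (nat_lit 0) (cs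 (lf (nat_lit 27) (nat_lit 186)) (nd (nat_lit 294) (nat_lit 0) (cs (lf (nat_lit 42) (nat_lit 249)) (rf (nat_lit 7)))))))) (nd (nat_lit 315) (nat_lit 0) (cs (lf (nat_lit 30) (nat_lit 249)) (nd (nat_lit 230) (nat_lit 0) (cs (lf (nat_lit 27) (nat_lit 186)) (nd (nat_lit 273) (nat_lit 0) (cs (lf (nat_lit 19) (nat_lit 249)) (nd (nat_lit 314) (nat_lit 0) (cs (lf (nat_lit 41) (nat_lit 248)) (rf (nat_lit 8))))))))))))) (cs (nd (nat_lit 315) (nat_lit 0) (cs (lf (nat_lit 30) (nat_lit 249)) (rf (nat_lit 9)))) (nd (nat_lit 315) (nat_lit 0) (cs (lf (nat_lit 30) (nat_lit 249)) (nd (nat_lit 316) (nat_lit 0) (cs (lf (nat_lit 29) (nat_lit 249)) (nd (nat_lit 273) (nat_lit 0) (cs (lf (nat_lit 19) (nat_lit 249)) (nd (nat_lit 314) (nat_lit 0) (cs (lf (nat_lit 41) (nat_lit 248)) (nd (nat_lit 292) (nat_lit 0) (cs (lf (nat_lit 18) (nat_lit 291)) (lf (nat_lit 15) (nat_lit 269)))))))))))))))) (nd (nat_lit 273) (nat_lit 0) (cs (lf (nat_lit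 19) (nat_lit 249)) (rf (nat_lit 10))))))))))) (nd (nat_lit 209) (nat_lit 0) (cs (lf (nat_lit 44) (nat_lit 186)) (rf (nat_lit 11))))))))) (cs (rf (nat_lit 12)) (cs (nd (nat_lit 270) (nat_lit 0) (cs (lf (nat_lit 12) (nat_lit 246)) (nd (nat_lit 209) (nat_lit 0) (cs (lf (nat_lit 44) (nat_lit 186)) (nd (nat_lit 272) (nat_lit 0) (cs (rf (nat_lit 13)) (cs (rf (nat_lit 14)) (nd (nat_lit 230) (nat_lit 0) (cs (lf (nat_lit 27) (nat_lit 186)) (rf (nat_lit 15))))))))))) (cs (nd (nat_lit 247) (nat_lit 0) (cs (rf (nat_lit 16)) (cs (rf (nat_lit 17)) (cs (nd (nat_lit 209) (nat_lit 0) (cs (lf (nat_lit 44) (nat_lit 186)) (nd (nat_lit 211) (nat_lit 0) (cs (rf (nat_lit 18)) (nd (nat_lit 225) (nat_lit 0) (cs (rf (nat_lit 19)) (cs (rf (nat_lit 20)) (cs (rf (nat_lit 21)) (rf (nat_lit 22)))))))))) (nd (nat_lit 268) (nat_lit 0) (cs (lf (nat_lit 14) (nat_lit 246)) (nd (nat_lit 209) (nat_lit 0) (cs (lf (nat_lit 44) (nat_lit 186)) (nd (nat_lit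 211) (nat_lit 0) (cs (rf (nat_lit 18)) (nd (nat_lit 290) (nat_lit 0) (cs (rf (nat_lit 23)) (cs (rf (nat_lit 24)) (cs (rf (nat_lit 25)) (rf (nat_lit 26)))))))))))))))) (cs (rf (nat_lit 27)) (rf (nat_lit 28)))))))) q73425 (by decide +kernel)
def q73931 : Q := Q.p (nat_lit 0x4000890002600000000010000040000000000000000000000000000000000000000000000) (nat_lit 0x100000700001e80007e0003f8001fa0000400011e000cf80027a0003c000040000000000000000000000000000000000000000) (nat_lit 12)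
theorem c73931 : QOK q73931 := cut [q73554, q73779, q73795, q73854, q73873, q73879, q73537, q73764, q73737, q73907, q73791, q73921, q72490, q68552, q72611, q73777, q73825] ⟨c73554, c73779, c73795, c73854, c73873, c73879, c73537, c73764, c73737, c73907, c73791, c73921, c72490, c68552, c72611, c73777, c73825, trivial⟩ (nd (nat_lit 293) (nat_lit 0) (cs (rf (nat_lit 0)) (cs (rf (nat_lit 1)) (cs (rf (nat_lit 2)) (cs (rf (nat_lit 3)) (cs (rf (nat_lit 4)) (cs (rf (nat_lit 5)) (cs (nd (nat_lit 227) (nat_lit 0) (cs (rf (nat_lit 6)) (cs (rf (nat_lit 7)) (nd (nat_lit 312) (nat_lit 0) (cs (nd (nat_lit 230) (nat_lit 0) (cs (lf (nat_lit 27) (nat_lit 186)) (nd (nat_lit 294) (nat_lit 0) (cs (lf (nat_lit 29) (nat_lit 227)) (nd (nat_lit 204) (nat_lit 0) (cs (lf (nat_lit 46) (nat_lit 204)) (nd (nat_lit 292) (nat_lit 0) (cs (lf (nat_lit 41) (nat_lit 226)) (nd (nat_lit 291) (nat_lit 0) (cs (lf (nat_lit 11) (nat_lit 289)) (lf (nat_lit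 10) (nat_lit 290)))))))))))) (cs (nd (nat_lit 246) (nat_lit 0) (cs (rf (nat_lit 8)) (nd (nat_lit 313) (nat_lit 0) (cs (lf (nat_lit 29) (nat_lit 246)) (nd (nat_lit 292) (nat_lit 0) (cs (lf (nat_lit 41) (nat_lit 226)) (nd (nat_lit 294) (nat_lit 0) (cs (lf (nat_lit 29) (nat_lit 227)) (lf (nat_lit 9) (nat_lit 290)))))))))) (cs (rf (nat_lit 9)) (nd (nat_lit 230) (nat_lit 0) (cs (lf (nat_lit 27) (nat_lit 186)) (nd (nat_lit 294) (nat_lit 0) (cs (lf (nat_lit 29) (nat_lit 227)) (nd (nat_lit 204) (nat_lit 0) (cs (lf (nat_lit 46) (nat_lit 204)) (nd (nat_lit 292) (nat_lit 0) (cs (lf (nat_lit 41) (nat_lit 226)) (nd (nat_lit 311) (nat_lit 0) (cs (lf (nat_lit 8) (nat_lit 289)) (nd (nat_lit 333) (nat_lit 0) (cs (nd (nat_lit 355) (nat_lit 0) (cs (lf (nat_lit 33) (nat_lit 267)) (lf (nat_lit 39) (nat_lit 267)))) (lf (nat_lit 36) (nat_lit 245))))))))))))))))))))) (cs (nd (nat_lit 226) (nat_lit 0) (cs (rf (nat_lit 10)) (cs (nd (nat_lit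 209) (nat_lit 0) (cs (lf (nat_lit 44) (nat_lit 186)) (nd (nat_lit 230) (nat_lit 0) (cs (lf (nat_lit 27) (nat_lit 186)) (nd (nat_lit 315) (nat_lit 0) (cs (lf (nat_lit 46) (nat_lit 226)) (rf (nat_lit 11)))))))) (nd (nat_lit 209) (nat_lit 0) (cs (lf (nat_lit 44) (nat_lit 186)) (nd (nat_lit 230) (nat_lit 0) (cs (lf (nat_lit 27) (nat_lit 186)) (nd (nat_lit 227) (nat_lit 0) (cs (lf (nat_lit 47) (nat_lit 204)) (nd (nat_lit 224) (nat_lit 0) (cs (lf (nat_lit 1) (nat_lit 224)) (rf (nat_lit 12))))))))))))) (nd (nat_lit 315) (nat_lit 0) (cs (rf (nat_lit 13)) (cs (rf (nat_lit 14)) (cs (rf (nat_lit 15)) (cs (rf (nat_lit 16)) (rf (nat_lit 11)))))))))))))))) q73931 (by decide +kernel)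
def q76231 : Q := Q.p (nat_lit 0x880002600000100010000040000000000000000000000000000000000000000000000) (nat_lit 0x140001fe000ff8001ef80077e0011f80eecf01e7fc0ebff000ffc007fc0007fc000380000800000000000000000) (nat_lit 13)
theorem c76231 : QOK q76231 := cut [q75480, q75584, q75632, q75660, q75505, q75539, q75659, q75339, q75546, q75661, q75663, q50955, q75935, q75991, q75364, q75992, q76169, q76205, q75938, q75979, q75479, q75955, q75373, q75380, q75499, q75943, q75471, q75613, q75948, q75556, q75981, q75350, q75542, q75338, q75931, q75932, q75933, q75934, q75346, q75360, q75939, q75978, q75478, q75954, q75942, q76224, q75423, q75951, q51158, q75557] ⟨c75480, c75584, c75632, c75660, c75505, c75539, c75659, c75339, c75546, c75661, c75663, c50955, c75935, c75991, c75364, c75992, c76169, c76205, c75938, c75979, c75479, c75955, c75373, c75380, c75499, c75943, c75471, c75613, c75948, c75556, c75981, c75350, c75542,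 c75338, c75931, c75932, c75933, c75934, c75346, c75360, c75939, c75978, c75478, c75954, c75942, c76224, c75423, c75951, c51158, c75557, trivial⟩ (nd (nat_lit 202) (nat_lit 0) (cs (rf (nat_lit 0)) (cs (rf (nat_lit 1)) (cs (rf (nat_lit 2)) (cs (rf (nat_lit 3)) (cs (nd (nat_lit 246) (nat_lit 0) (cs (rf (nat_lit 4)) (cs (rf (nat_lit 5)) (cs (rf (nat_lit 6)) (cs (nd (nat_lit 268) (nat_lit 0) (cs (rf (nat_lit 7)) (cs (rf (nat_lit 8)) (rf (nat_lit 9))))) (nd (nat_lit 268) (nat_lit 0) (cs (rf (nat_lit 7)) (cs (nd (nat_lit 209) (nat_lit 0) (cs (lf (nat_lit 44) (nat_lit 186)) (rf (nat_lit 10)))) (nd (nat_lit 269) (nat_lit 0) (cs (lf (nat_lit 14) (nat_lit 246)) (nd (nat_lit 247) (nat_lit 0) (cs (lf (nat_lit 8) (nat_lit 246)) (nd (nat_lit 209) (nat_lit 0) (cs (lf (nat_lit 44) (nat_lit 186)) (nd (nat_lit 181) (nat_lit 0) (cs (lf (nat_lit 34) (nat_lit 180)) (nd (nat_lit 230) (nat_lit 0) (cs (lf (nat_lit 27) (nat_lit 186))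 (nd (nat_lit 289) (nat_lit 0) (cs (lf (nat_lit 40) (nat_lit 201)) (nd (nat_lit 290) (nat_lit 0) (cs (lf (nat_lit 41) (nat_lit 223)) (nd (nat_lit 312) (nat_lit 0) (cs (lf (nat_lit 30) (nat_lit 246)) (rf (nat_lit 11)))))))))))))))))))))))))) (cs (rf (nat_lit 12)) (cs (rf (nat_lit 13)) (cs (nd (nat_lit 246) (nat_lit 0) (cs (rf (nat_lit 14)) (cs (rf (nat_lit 5)) (rf (nat_lit 15))))) (cs (rf (nat_lit 16)) (cs (rf (nat_lit 17)) (cs (nd (nat_lit 268) (nat_lit 0) (cs (rf (nat_lit 18)) (cs (rf (nat_lit 19)) (cs (nd (nat_lit 204) (nat_lit 0) (cs (rf (nat_lit 20)) (cs (rf (nat_lit 21)) (cs (nd (nat_lit 293) (nat_lit 0) (cs (rf (nat_lit 22)) (cs (rf (nat_lit 23)) (cs (rf (nat_lit 24)) (rf (nat_lit 25)))))) (nd (nat_lit 203) (nat_lit 0) (cs (rf (nat_lit 26)) (cs (nd (nat_lit 230) (nat_lit 0) (cs (lf (nat_lit 27) (nat_lit 186)) (nd (nat_lit 269) (nat_lit 0) (cs (lf (nat_lit 14) (nat_lit 246)) (nd (nat_lit 247) (nat_lit 0)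 (cs (lf (nat_lit 8) (nat_lit 246)) (nd (nat_lit 205) (nat_lit 0) (cs (lf (nat_lit 11) (nat_lit 201)) (rf (nat_lit 27)))))))))) (nd (nat_lit 230) (nat_lit 0) (cs (lf (nat_lit 27) (nat_lit 186)) (nd (nat_lit 269) (nat_lit 0) (cs (lf (nat_lit 14) (nat_lit 246)) (nd (nat_lit 248) (nat_lit 0) (cs (lf (nat_lit 9) (nat_lit 246)) (rf (nat_lit 28))))))))))))))) (nd (nat_lit 246) (nat_lit 0) (cs (rf (nat_lit 7)) (cs (rf (nat_lit 29)) (rf (nat_lit 30))))))))) (cs (nd (nat_lit 246) (nat_lit 0) (cs (rf (nat_lit 4)) (cs (rf (nat_lit 5)) (cs (nd (nat_lit 268) (nat_lit 0) (cs (rf (nat_lit 31)) (cs (rf (nat_lit 32)) (rf (nat_lit 9))))) (cs (nd (nat_lit 268) (nat_lit 0) (cs (rf (nat_lit 33)) (rf (nat_lit 30)))) (nd (nat_lit 268) (nat_lit 0) (cs (rf (nat_lit 31)) (rf (nat_lit 10))))))))) (cs (nd (nat_lit 180) (nat_lit 0) (cs (rf (nat_lit 34)) (cs (rf (nat_lit 35)) (cs (rf (nat_lit 36)) (cs (rf (nat_lit 37)) (nd (nat_lit 246) (nat_lit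 0) (cs (rf (nat_lit 38)) (rf (nat_lit 39))))))))) (nd (nat_lit 268) (nat_lit 0) (cs (rf (nat_lit 40)) (cs (rf (nat_lit 41)) (cs (nd (nat_lit 204) (nat_lit 0) (cs (rf (nat_lit 42)) (cs (rf (nat_lit 43)) (cs (nd (nat_lit 209) (nat_lit 0) (cs (lf (nat_lit 44) (nat_lit 186)) (nd (nat_lit 293) (nat_lit 0) (cs (rf (nat_lit 22)) (cs (rf (nat_lit 23)) (cs (rf (nat_lit 44)) (rf (nat_lit 45)))))))) (nd (nat_lit 203) (nat_lit 0) (cs (rf (nat_lit 46)) (cs (rf (nat_lit 26)) (rf (nat_lit 47))))))))) (nd (nat_lit 246) (nat_lit 0) (cs (rf (nat_lit 48)) (cs (rf (nat_lit 31)) (rf (nat_lit 49))))))))))))))))))))))) q76231 (by decide +kernel)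
def q77629 : Q := Q.p (nat_lit 0x880002600000100010000040000000000000000000000000000000000000000000000) (nat_lit 0x400007e0001fc001ef80077f0010fc06eef01e7fc0ebff000ffc001ff0007fc000b80000800000000000000000) (nat_lit 13)
theorem c77629 : QOK q77629 := cut [q75935, q76711, q76765, q77291, q77343, q75932, q76011, q77355, q77361, q77366, q75931, q76023, q66782, q77430, q76025, q76720, q77348, q76028, q77346, q77473, q77496, q77510, q77537, q77587, q75338, q75339, q75365, q77586, q37980, q75343, q75355, q77309, q76030, q76136, q76167, q76168, q77607, q75933, q75934, q75684, q75730, q75733, q76172, q76177, q76186, q77610, q76018, q77311, q77621, q74248] ⟨c75935, c76711, c76765, c77291, c77343, c75932, c76011, c77355, c77361, c77366, c75931, c76023, c66782, c77430, c76025, c76720, c77348, c76028, c77346, c77473, c77496, c77510, c77537, c77587, c75338, c75339, c75365, c77586, c37980, c75343, c75355, c77309, c76030, c76136,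 c76167, c76168, c77607, c75933, c75934, c75684, c75730, c75733, c76172, c76177, c76186, c77610, c76018, c77311, c77621, c74248, trivial⟩ (nd (nat_lit 202) (nat_lit 0) (cs (rf (nat_lit 0)) (cs (rf (nat_lit 1)) (cs (rf (nat_lit 2)) (cs (rf (nat_lit 3)) (cs (rf (nat_lit 4)) (cs (nd (nat_lit 180) (nat_lit 0) (cs (rf (nat_lit 5)) (cs (rf (nat_lit 6)) (cs (rf (nat_lit 7)) (cs (rf (nat_lit 8)) (rf (nat_lit 9))))))) (cs (nd (nat_lit 180) (nat_lit 0) (cs (rf (nat_lit 10)) (cs (rf (nat_lit 11)) (cs (nd (nat_lit 209) (nat_lit 0) (cs (lf (nat_lit 44) (nat_lit 186)) (nd (nat_lit 211) (nat_lit 0) (cs (rf (nat_lit 12)) (rf (nat_lit 13)))))) (cs (nd (nat_lit 158) (nat_lit 0) (cs (rf (nat_lit 14)) (cs (rf (nat_lit 15)) (rf (nat_lit 16))))) (nd (nat_lit 158) (nat_lit 0) (cs (rf (nat_lit 17)) (cs (rf (nat_lit 15)) (rf (nat_lit 18)))))))))) (cs (rf (nat_lit 19)) (cs (rf (nat_lit 20)) (cs (rf (nat_lit 21)) (cs (rf (nat_lit 22)) (cs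 (rf (nat_lit 23)) (cs (nd (nat_lit 246) (nat_lit 0) (cs (nd (nat_lit 268) (nat_lit 0) (cs (rf (nat_lit 24)) (rf (nat_lit 25)))) (cs (rf (nat_lit 26)) (cs (rf (nat_lit 27)) (nd (nat_lit 180) (nat_lit 0) (cs (rf (nat_lit 28)) (cs (rf (nat_lit 29)) (cs (rf (nat_lit 30)) (rf (nat_lit 31)))))))))) (cs (nd (nat_lit 180) (nat_lit 0) (cs (rf (nat_lit 10)) (cs (rf (nat_lit 6)) (cs (rf (nat_lit 32)) (cs (rf (nat_lit 33)) (cs (rf (nat_lit 34)) (cs (rf (nat_lit 35)) (rf (nat_lit 36))))))))) (cs (nd (nat_lit 180) (nat_lit 0) (cs (rf (nat_lit 5)) (cs (rf (nat_lit 37)) (cs (rf (nat_lit 38)) (cs (rf (nat_lit 6)) (nd (nat_lit 158) (nat_lit 0) (cs (rf (nat_lit 39)) (cs (rf (nat_lit 40)) (cs (rf (nat_lit 41)) (nd (nat_lit 159) (nat_lit 0) (cs (lf (nat_lit 35) (nat_lit 136)) (nd (nat_lit 160) (nat_lit 0) (cs (rf (nat_lit 42)) (cs (rf (nat_lit 43)) (cs (rf (nat_lit 44)) (nd (nat_lit 230) (nat_lit 0) (cs (lf (nat_lit 27) (nat_lit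 186)) (nd (nat_lit 223) (nat_lit 0) (cs (lf (nat_lit 41) (nat_lit 157)) (nd (nat_lit 225) (nat_lit 0) (cs (lf (nat_lit 29) (nat_lit 158)) (rf (nat_lit 45))))))))))))))))))))))) (cs (nd (nat_lit 180) (nat_lit 0) (cs (rf (nat_lit 37)) (cs (rf (nat_lit 38)) (cs (rf (nat_lit 46)) (cs (rf (nat_lit 47)) (rf (nat_lit 7))))))) (nd (nat_lit 180) (nat_lit 0) (cs (rf (nat_lit 37)) (cs (rf (nat_lit 38)) (cs (rf (nat_lit 35)) (cs (rf (nat_lit 48)) (nd (nat_lit 158) (nat_lit 0) (cs (rf (nat_lit 39)) (cs (rf (nat_lit 40)) (cs (rf (nat_lit 41)) (nd (nat_lit 223) (nat_lit 0) (cs (lf (nat_lit 41) (nat_lit 157)) (nd (nat_lit 209) (nat_lit 0) (cs (lf (nat_lit 44) (nat_lit 186)) (nd (nat_lit 137) (nat_lit 0) (cs (lf (nat_lit 34) (nat_lit 136)) (nd (nat_lit 135) (nat_lit 0) (cs (lf (nat_lit 46) (nat_lit 135)) (nd (nat_lit 225) (nat_lit 0) (cs (rf (nat_lit 49)) (lf (nat_lit 29) (nat_lit 158)))))))))))))))))))))))))))))))))))))) q77629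 (by decide +kernel)
def q78023 : Q := Q.p (nat_lit 0x880002600000100010000040000000000000000000000000000000000000000000000) (nat_lit 0x140000720001f8001ee0007780011780eeef01e7fc0ebff000ffc007ff000ffc003f80001c00000000000000000) (nat_lit 13)
theorem c78023 : QOK q78023 := cut [q76169, q77715, q77716, q75482, q77718, q77721, q77722, q51725, q74247, q77113, q76489, q77729, q77733, q77735, q77738, q77857, q77883, q77906, q75472, q75478, q76678, q66782, q77910, q77927, q76011, q76030, q76136, q76167, q76168, q77607, q77940, q77970, q77637, q77874, q77714, q77967, q77969, q76118, q77620, q75684, q75730, q75733, q76021, q76126, q77606, q77695, q77525, q77684, q77982, q78022] ⟨c76169, c77715, c77716, c75482, c77718, c77721, c77722, c51725, c74247, c77113, c76489, c77729, c77733, c77735, c77738, c77857, c77883, c77906, c75472, c75478, c76678, c66782, c77910, c77927, c76011, c76030, c76136, c76167, c76168, c77607, c77940,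 c77970, c77637, c77874, c77714, c77967, c77969, c76118, c77620, c75684, c75730, c75733, c76021, c76126, c77606, c77695, c77525, c77684, c77982, c78022, trivial⟩ (nd (nat_lit 202) (nat_lit 0) (cs (rf (nat_lit 0)) (cs (rf (nat_lit 1)) (cs (nd (nat_lit 226) (nat_lit 0) (cs (rf (nat_lit 2)) (cs (nd (nat_lit 223) (nat_lit 0) (cs (nd (nat_lit 204) (nat_lit 0) (cs (rf (nat_lit 3)) (rf (nat_lit 4)))) (cs (rf (nat_lit 5)) (cs (rf (nat_lit 6)) (nd (nat_lit 225) (nat_lit 0) (cs (rf (nat_lit 7)) (cs (rf (nat_lit 8)) (nd (nat_lit 201) (nat_lit 0) (cs (rf (nat_lit 9)) (nd (nat_lit 245) (nat_lit 0) (cs (lf (nat_lit 11) (nat_lit 222)) (rf (nat_lit 10))))))))))))) (cs (rf (nat_lit 11)) (cs (nd (nat_lit 204) (nat_lit 0) (cs (rf (nat_lit 4)) (cs (rf (nat_lit 12)) (rf (nat_lit 13))))) (rf (nat_lit 14))))))) (cs (rf (nat_lit 15)) (cs (rf (nat_lit 16)) (cs (rf (nat_lit 17)) (cs (nd (nat_lit 204) (nat_lit 0) (cs (rf (nat_lit 18)) (cs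 (rf (nat_lit 19)) (cs (rf (nat_lit 20)) (cs (nd (nat_lit 209) (nat_lit 0) (cs (lf (nat_lit 44) (nat_lit 186)) (nd (nat_lit 211) (nat_lit 0) (cs (rf (nat_lit 21)) (nd (nat_lit 226) (nat_lit 0) (cs (rf (nat_lit 12)) (cs (nd (nat_lit 223) (nat_lit 0) (cs (rf (nat_lit 3)) (cs (rf (nat_lit 5)) (nd (nat_lit 205) (nat_lit 0) (cs (lf (nat_lit 8) (nat_lit 201)) (lf (nat_lit 14) (nat_lit 201))))))) (rf (nat_lit 22))))))))) (nd (nat_lit 226) (nat_lit 0) (cs (rf (nat_lit 4)) (cs (rf (nat_lit 11)) (rf (nat_lit 22)))))))))) (cs (rf (nat_lit 23)) (cs (nd (nat_lit 180) (nat_lit 0) (cs (rf (nat_lit 24)) (cs (rf (nat_lit 25)) (cs (rf (nat_lit 26)) (cs (rf (nat_lit 27)) (cs (rf (nat_lit 28)) (cs (rf (nat_lit 29)) (nd (nat_lit 209) (nat_lit 0) (cs (lf (nat_lit 44) (nat_lit 186)) (rf (nat_lit 30))))))))))) (cs (rf (nat_lit 31)) (cs (nd (nat_lit 180) (nat_lit 0) (cs (rf (nat_lit 26)) (cs (rf (nat_lit 27)) (cs (rf (nat_lit 28)) (cs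 (rf (nat_lit 32)) (rf (nat_lit 33))))))) (cs (nd (nat_lit 180) (nat_lit 0) (cs (rf (nat_lit 34)) (cs (rf (nat_lit 35)) (cs (rf (nat_lit 36)) (cs (nd (nat_lit 246) (nat_lit 0) (cs (rf (nat_lit 37)) (rf (nat_lit 38)))) (cs (nd (nat_lit 158) (nat_lit 0) (cs (rf (nat_lit 39)) (cs (rf (nat_lit 40)) (cs (rf (nat_lit 41)) (rf (nat_lit 42)))))) (cs (nd (nat_lit 245) (nat_lit 0) (cs (rf (nat_lit 43)) (cs (rf (nat_lit 44)) (nd (nat_lit 209) (nat_lit 0) (cs (lf (nat_lit 44) (nat_lit 186)) (nd (nat_lit 158) (nat_lit 0) (cs (lf (nat_lit 40) (nat_lit 157)) (rf (nat_lit 45))))))))) (nd (nat_lit 159) (nat_lit 0) (cs (rf (nat_lit 46)) (cs (rf (nat_lit 47)) (nd (nat_lit 209) (nat_lit 0) (cs (lf (nat_lit 44) (nat_lit 186)) (rf (nat_lit 48)))))))))))))) (rf (nat_lit 49))))))))))))))) q78023 (by decide +kernel)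
def q78514 : Q := Q.p (nat_lit 0x880002600000100010000040000000000000000000000000000000000000000000000) (nat_lit 0x500001c000078001cf00077e0011fc0eeaf01e7fc0ebff0007fc001ff0001e0000780000a00000000000000000) (nat_lit 13)
theorem c78514 : QOK q78514 := cut [q78075, q78078, q78080, q75, q45757, q78056, q45770, q51538, q66782, q73418, q78062, q49412, q78464, q78495, q75932, q75933, q75934, q77967, q78481, q76168, q77940, q76712, q76011, q77361, q77366, q75728, q77621, q77969, q78184] ⟨c78075, c78078, c78080, c75, c45757, c78056, c45770, c51538, c66782, c73418, c78062, c49412, c78464, c78495, c75932, c75933, c75934, c77967, c78481, c76168, c77940, c76712, c76011, c77361, c77366, c75728, c77621, c77969, c78184, trivial⟩ (nd (nat_lit 247) (nat_lit 0) (cs (rf (nat_lit 0)) (cs (rf (nat_lit 1)) (cs (rf (nat_lit 2)) (cs (nd (nat_lit 209) (nat_lit 0) (cs (lf (nat_lit 44) (nat_lit 186)) (nd (nat_lit 210) (nat_lit 0) (cs (rf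 (nat_lit 3)) (nd (nat_lit 225) (nat_lit 0) (cs (lf (nat_lit 20) (nat_lit 224)) (nd (nat_lit 269) (nat_lit 0) (cs (rf (nat_lit 4)) (cs (rf (nat_lit 5)) (cs (nd (nat_lit 230) (nat_lit 0) (cs (lf (nat_lit 27) (nat_lit 186)) (nd (nat_lit 268) (nat_lit 0) (cs (rf (nat_lit 6)) (lf (nat_lit 14) (nat_lit 246)))))) (nd (nat_lit 268) (nat_lit 0) (cs (lf (nat_lit 14) (nat_lit 246)) (nd (nat_lit 203) (nat_lit 0) (cs (lf (nat_lit 41) (nat_lit 202)) (rf (nat_lit 7)))))))))))))))) (nd (nat_lit 202) (nat_lit 0) (cs (nd (nat_lit 209) (nat_lit 0) (cs (lf (nat_lit 44) (nat_lit 186)) (nd (nat_lit 211) (nat_lit 0) (cs (rf (nat_lit 8)) (nd (nat_lit 269) (nat_lit 0) (cs (rf (nat_lit 9)) (cs (rf (nat_lit 10)) (nd (nat_lit 268) (nat_lit 0) (cs (lf (nat_lit 14) (nat_lit 246)) (nd (nat_lit 230) (nat_lit 0) (cs (lf (nat_lit 27) (nat_lit 186)) (nd (nat_lit 225) (nat_lit 0) (cs (lf (nat_lit 42) (nat_lit 202)) (nd (nat_lit 203) (nat_lit 0)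 (cs (lf (nat_lit 41) (nat_lit 202)) (rf (nat_lit 11))))))))))))))))) (cs (rf (nat_lit 12)) (cs (rf (nat_lit 13)) (cs (nd (nat_lit 180) (nat_lit 0) (cs (rf (nat_lit 14)) (cs (rf (nat_lit 15)) (cs (rf (nat_lit 16)) (cs (rf (nat_lit 17)) (nd (nat_lit 230) (nat_lit 0) (cs (lf (nat_lit 27) (nat_lit 186)) (nd (nat_lit 246) (nat_lit 0) (cs (lf (nat_lit 29) (nat_lit 180)) (rf (nat_lit 18))))))))))) (cs (nd (nat_lit 180) (nat_lit 0) (cs (rf (nat_lit 19)) (cs (rf (nat_lit 20)) (nd (nat_lit 230) (nat_lit 0) (cs (lf (nat_lit 27) (nat_lit 186)) (nd (nat_lit 269) (nat_lit 0) (cs (lf (nat_lit 27) (nat_lit 180)) (rf (nat_lit 21))))))))) (cs (nd (nat_lit 180) (nat_lit 0) (cs (rf (nat_lit 14)) (cs (rf (nat_lit 22)) (cs (rf (nat_lit 23)) (cs (rf (nat_lit 24)) (nd (nat_lit 230) (nat_lit 0) (cs (lf (nat_lit 27) (nat_lit 186)) (nd (nat_lit 158) (nat_lit 0) (cs (lf (nat_lit 28) (nat_lit 158)) (nd (nat_lit 137) (nat_lit 0) (cs (lf (nat_lit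 34) (nat_lit 136)) (nd (nat_lit 136) (nat_lit 0) (cs (lf (nat_lit 35) (nat_lit 114)) (rf (nat_lit 25))))))))))))))) (cs (nd (nat_lit 180) (nat_lit 0) (cs (rf (nat_lit 15)) (cs (rf (nat_lit 16)) (cs (rf (nat_lit 26)) (rf (nat_lit 17)))))) (nd (nat_lit 180) (nat_lit 0) (cs (rf (nat_lit 20)) (cs (rf (nat_lit 27)) (cs (rf (nat_lit 28)) (nd (nat_lit 209) (nat_lit 0) (cs (lf (nat_lit 44) (nat_lit 186)) (nd (nat_lit 246) (nat_lit 0) (cs (lf (nat_lit 29) (nat_lit 180)) (nd (nat_lit 245) (nat_lit 0) (cs (lf (nat_lit 41) (nat_lit 179)) (nd (nat_lit 158) (nat_lit 0) (cs (lf (nat_lit 40) (nat_lit 157)) (lf (nat_lit 28) (nat_lit 158))))))))))))))))))))))))))) q78514 (by decide +kernel)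
def q78837 : Q := Q.p (nat_lit 0x2000000000010000000000000000000000000000000000000000000000000000) (nat_lit 0x1400007e0001fe0001f000ffe003ef000ffe0007e0001780001c00000000000000000000000000000) (nat_lit 17)
theorem c78837 : QOK q78837 := cut [q78739, q1563, q1594, q1595, q33, q1562, q2980, q10513, q78743, q2935, q78737, q78744, q2937, q78656, q78745, q78749, q78762, q78764, q78773, q2990, q119, q132, q78775, q130, q157, q165, q171, q175, q131, q78717, q78738, q8869, q78795, q78805, q78816, q75, q78818, q2454, q7439, q9657, q2219, q78824, q1568, q78834] ⟨c78739, c1563, c1594, c1595, c33, c1562, c2980, c10513, c78743, c2935, c78737, c78744, c2937, c78656, c78745, c78749, c78762, c78764, c78773, c2990, c119, c132, c78775, c130, c157, c165, c171, c175, c131, c78717, c78738, c8869, c78795, c78805, c78816, c75, c78818, c2454, c7439, c9657, c2219, c78824, c1568, c78834, trivial⟩ (nd (nat_lit 209) (nat_lit 0) (cs (rf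 (nat_lit 0)) (cs (nd (nat_lit 231) (nat_lit 0) (cs (rf (nat_lit 1)) (cs (rf (nat_lit 2)) (cs (rf (nat_lit 3)) (nd (nat_lit 186) (nat_lit 0) (cs (rf (nat_lit 4)) (cs (rf (nat_lit 5)) (nd (nat_lit 187) (nat_lit 0) (cs (rf (nat_lit 6)) (rf (nat_lit 7))))))))))) (cs (nd (nat_lit 231) (nat_lit 0) (cs (rf (nat_lit 2)) (cs (rf (nat_lit 8)) (cs (nd (nat_lit 207) (nat_lit 0) (cs (rf (nat_lit 9)) (cs (rf (nat_lit 10)) (cs (rf (nat_lit 11)) (nd (nat_lit 206) (nat_lit 0) (cs (rf (nat_lit 12)) (cs (rf (nat_lit 13)) (cs (rf (nat_lit 14)) (nd (nat_lit 183) (nat_lit 0) (cs (lf (nat_lit 22) (nat_lit 183)) (nd (nat_lit 187) (nat_lit 0) (cs (lf (nat_lit 17) (nat_lit 184)) (nd (nat_lit 252) (nat_lit 0) (cs (lf (nat_lit 41) (nat_lit 186)) (nd (nat_lit 230) (nat_lit 0) (cs (lf (nat_lit 36) (nat_lit 164)) (rf (nat_lit 15)))))))))))))))))) (cs (rf (nat_lit 16)) (cs (rf (nat_lit 17)) (rf (nat_lit 18)))))))) (cs (nd (nat_lit 231) (nat_lit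 0) (cs (rf (nat_lit 3)) (cs (rf (nat_lit 19)) (cs (rf (nat_lit 8)) (nd (nat_lit 186) (nat_lit 0) (cs (rf (nat_lit 4)) (cs (nd (nat_lit 207) (nat_lit 0) (cs (rf (nat_lit 20)) (cs (rf (nat_lit 21)) (cs (rf (nat_lit 22)) (nd (nat_lit 206) (nat_lit 0) (cs (rf (nat_lit 23)) (cs (rf (nat_lit 24)) (cs (rf (nat_lit 25)) (cs (rf (nat_lit 26)) (cs (rf (nat_lit 13)) (nd (nat_lit 228) (nat_lit 0) (cs (lf (nat_lit 11) (nat_lit 205)) (rf (nat_lit 27)))))))))))))) (nd (nat_lit 207) (nat_lit 0) (cs (rf (nat_lit 28)) (cs (rf (nat_lit 29)) (cs (rf (nat_lit 30)) (rf (nat_lit 22))))))))))))) (cs (nd (nat_lit 231) (nat_lit 0) (cs (rf (nat_lit 1)) (cs (rf (nat_lit 3)) (cs (nd (nat_lit 186) (nat_lit 0) (cs (rf (nat_lit 4)) (cs (rf (nat_lit 5)) (rf (nat_lit 31))))) (rf (nat_lit 16)))))) (cs (rf (nat_lit 32)) (cs (rf (nat_lit 33)) (cs (rf (nat_lit 34)) (cs (nd (nat_lit 231) (nat_lit 0) (cs (rf (nat_lit 1)) (cs (rf (nat_lit 3)) (cs (rf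 (nat_lit 16)) (nd (nat_lit 186) (nat_lit 0) (cs (rf (nat_lit 4)) (cs (rf (nat_lit 5)) (nd (nat_lit 210) (nat_lit 0) (cs (rf (nat_lit 35)) (cs (rf (nat_lit 36)) (nd (nat_lit 211) (nat_lit 0) (cs (rf (nat_lit 37)) (rf (nat_lit 38)))))))))))))) (cs (nd (nat_lit 231) (nat_lit 0) (cs (rf (nat_lit 1)) (cs (rf (nat_lit 2)) (cs (rf (nat_lit 3)) (nd (nat_lit 186) (nat_lit 0) (cs (rf (nat_lit 4)) (cs (rf (nat_lit 5)) (nd (nat_lit 210) (nat_lit 0) (cs (rf (nat_lit 35)) (cs (rf (nat_lit 36)) (nd (nat_lit 233) (nat_lit 0) (cs (rf (nat_lit 39)) (cs (nd (nat_lit 211) (nat_lit 0) (cs (lf (nat_lit 5) (nat_lit 208)) (rf (nat_lit 40)))) (nd (nat_lit 207) (nat_lit 0) (cs (lf (nat_lit 4) (nat_lit 207)) (nd (nat_lit 228) (nat_lit 0) (cs (lf (nat_lit 10) (nat_lit 206)) (nd (nat_lit 206) (nat_lit 0) (cs (lf (nat_lit 11) (nat_lit 205)) (rf (nat_lit 41))))))))))))))))))))) (nd (nat_lit 231) (nat_lit 0) (cs (rf (nat_lit 1)) (cs (rf (nat_lit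 2)) (cs (rf (nat_lit 3)) (nd (nat_lit 187) (nat_lit 0) (cs (rf (nat_lit 42)) (rf (nat_lit 43))))))))))))))))))) q78837 (by decide +kernel)
def q78994 : Q := Q.p (nat_lit 0x2000000000010000040000000000000000000000000000000000000000000000) (nat_lit 0x200001e0000f80001e000070000ee0007bf001ff8007ff000ff8000f8000380000a0000000000000) (nat_lit 16)
theorem c78994 : QOK q78994 := cut [q619, q4904, q4917, q4919, q4800, q4803, q18163, q18166, q4806, q32053, q2270, q3803, q32056, q32070, q4812, q4816, q32057, q78923, q4820, q4850, q4854, q5673, q617, q5569, q78935, q2880, q4868, q20123, q78937, q78986, q9193, q4929, q2803] ⟨c619, c4904, c4917, c4919, c4800, c4803, c18163, c18166, c4806, c32053, c2270, c3803, c32056, c32070, c4812, c4816, c32057, c78923, c4820, c4850, c4854, c5673, c617, c5569, c78935, c2880, c4868, c20123, c78937, c78986, c9193, c4929, c2803, trivial⟩ (nd (nat_lit 164) (nat_lit 0) (cs (nd (nat_lit 142)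 (nat_lit 0) (cs (rf (nat_lit 0)) (cs (rf (nat_lit 1)) (cs (rf (nat_lit 2)) (nd (nat_lit 207) (nat_lit 0) (cs (lf (nat_lit 41) (nat_lit 141)) (rf (nat_lit 3)))))))) (cs (nd (nat_lit 142) (nat_lit 0) (cs (nd (nat_lit 207) (nat_lit 0) (cs (lf (nat_lit 41) (nat_lit 141)) (rf (nat_lit 4)))) (cs (nd (nat_lit 207) (nat_lit 0) (cs (lf (nat_lit 41) (nat_lit 141)) (rf (nat_lit 5)))) (cs (rf (nat_lit 6)) (rf (nat_lit 7)))))) (cs (nd (nat_lit 163) (nat_lit 0) (cs (rf (nat_lit 8)) (cs (rf (nat_lit 9)) (cs (nd (nat_lit 162) (nat_lit 0) (cs (rf (nat_lit 10)) (cs (rf (nat_lit 11)) (cs (rf (nat_lit 12)) (cs (rf (nat_lit 13)) (nd (nat_lit 165) (nat_lit 0) (cs (nd (nat_lit 139) (nat_lit 0) (cs (lf (nat_lit 22) (nat_lit 139)) (nd (nat_lit 144) (nat_lit 0) (cs (lf (nat_lit 16) (nat_lit 140)) (nd (nat_lit 183) (nat_lit 0) (cs (lf (nat_lit 10) (nat_lit 161)) (rf (nat_lit 14)))))))) (cs (nd (nat_lit 183) (nat_lit 0) (cs (lf (nat_lit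 10) (nat_lit 161)) (nd (nat_lit 139) (nat_lit 0) (cs (lf (nat_lit 22) (nat_lit 139)) (rf (nat_lit 15)))))) (cs (rf (nat_lit 16)) (cs (nd (nat_lit 139) (nat_lit 0) (cs (lf (nat_lit 22) (nat_lit 139)) (rf (nat_lit 17)))) (nd (nat_lit 139) (nat_lit 0) (cs (lf (nat_lit 22) (nat_lit 139)) (nd (nat_lit 187) (nat_lit 0) (cs (lf (nat_lit 5) (nat_lit 162)) (nd (nat_lit 121) (nat_lit 0) (cs (lf (nat_lit 37) (nat_lit 120)) (nd (nat_lit 184) (nat_lit 0) (cs (lf (nat_lit 11) (nat_lit 161)) (nd (nat_lit 185) (nat_lit 0) (cs (lf (nat_lit 6) (nat_lit 162)) (nd (nat_lit 209) (nat_lit 0) (cs (lf (nat_lit 5) (nat_lit 184)) (rf (nat_lit 18)))))))))))))))))))))))) (nd (nat_lit 165) (nat_lit 0) (cs (rf (nat_lit 19)) (cs (rf (nat_lit 20)) (nd (nat_lit 162) (nat_lit 0) (cs (rf (nat_lit 10)) (cs (rf (nat_lit 21)) (rf (nat_lit 17)))))))))))) (cs (nd (nat_lit 142) (nat_lit 0) (cs (rf (nat_lit 22)) (cs (rf (nat_lit 0)) (cs (rf (nat_lit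 6)) (nd (nat_lit 207) (nat_lit 0) (cs (lf (nat_lit 41) (nat_lit 141)) (rf (nat_lit 23)))))))) (cs (rf (nat_lit 24)) (cs (nd (nat_lit 141) (nat_lit 0) (cs (rf (nat_lit 25)) (cs (rf (nat_lit 26)) (cs (rf (nat_lit 27)) (nd (nat_lit 230) (nat_lit 0) (cs (lf (nat_lit 46) (nat_lit 141)) (nd (nat_lit 229) (nat_lit 0) (cs (lf (nat_lit 41) (nat_lit 163)) (nd (nat_lit 252) (nat_lit 0) (cs (lf (nat_lit 29) (nat_lit 186)) (nd (nat_lit 165) (nat_lit 0) (cs (lf (nat_lit 34) (nat_lit 164)) (rf (nat_lit 28)))))))))))))) (cs (rf (nat_lit 29)) (cs (nd (nat_lit 142) (nat_lit 0) (cs (rf (nat_lit 4)) (cs (rf (nat_lit 3)) (cs (rf (nat_lit 6)) (nd (nat_lit 121) (nat_lit 0) (cs (lf (nat_lit 34) (nat_lit 120)) (nd (nat_lit 120) (nat_lit 0) (cs (lf (nat_lit 35) (nat_lit 98)) (nd (nat_lit 187) (nat_lit 0) (cs (lf (nat_lit 29) (nat_lit 120)) (rf (nat_lit 30)))))))))))) (cs (nd (nat_lit 142) (nat_lit 0) (cs (rf (nat_lit 22)) (cs (rf (nat_lit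 2)) (cs (rf (nat_lit 31)) (rf (nat_lit 7)))))) (cs (nd (nat_lit 142) (nat_lit 0) (cs (rf (nat_lit 22)) (cs (rf (nat_lit 32)) (rf (nat_lit 3))))) (nd (nat_lit 142) (nat_lit 0) (cs (rf (nat_lit 0)) (cs (rf (nat_lit 1)) (rf (nat_lit 7)))))))))))))))) q78994 (by decide +kernel)
def q79956 : Q := Q.p (nat_lit 0x6000000000000000000000000000000000000000000000000000000000000000) (nat_lit 0x80001e0000fe0003fc000ff00038c003ff001ffe001ff0001fe0006800000000000000000000000000000000000) (nat_lit 16)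
theorem c79956 : QOK q79956 := cut [q79413, q79128, q79418, q79434, q79439, q79447, q79455, q79127, q79280, q79457, q79553, q79598, q79726, q79123, q79160, q79282, q79583, q79590, q79729, q79796, q79800, q79841, q79867, q79876, q79879, q79121, q79159, q79882, q79901, q79902, q79914, q79952, q79290, q79132, q79594, q79891] ⟨c79413, c79128, c79418, c79434, c79439, c79447, c79455, c79127, c79280, c79457, c79553, c79598, c79726, c79123, c79160, c79282, c79583, c79590, c79729, c79796, c79800, c79841, c79867, c79876, c79879, c79121, c79159, c79882, c79901, c79902, c79914, c79952, c79290, c79132, c79594, c79891, trivial⟩ (nd (nat_lit 232) (nat_lit 0) (cs (rf (nat_lit 0)) (cs (nd (nat_lit 210) (nat_lit 0) (cs (rf (nat_lit 1)) (cs (nd (nat_lit 276) (nat_lit 0) (cs (rf (nat_lit 2)) (cs (nd (nat_lit 187) (nat_lit 0) (cs (lf (nat_lit 46) (nat_lit 187)) (rf (nat_lit 3)))) (cs (nd (nat_lit 187) (nat_lit 0) (cs (lf (nat_lit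 46) (nat_lit 187)) (rf (nat_lit 4)))) (nd (nat_lit 189) (nat_lit 0) (cs (lf (nat_lit 34) (nat_lit 188)) (nd (nat_lit 187) (nat_lit 0) (cs (lf (nat_lit 46) (nat_lit 187)) (rf (nat_lit 5)))))))))) (cs (rf (nat_lit 6)) (cs (nd (nat_lit 188) (nat_lit 0) (cs (rf (nat_lit 7)) (cs (rf (nat_lit 8)) (rf (nat_lit 9))))) (nd (nat_lit 188) (nat_lit 0) (cs (lf (nat_lit 41) (nat_lit 187)) (rf (nat_lit 9))))))))) (cs (rf (nat_lit 10)) (cs (rf (nat_lit 11)) (cs (rf (nat_lit 12)) (cs (nd (nat_lit 210) (nat_lit 0) (cs (rf (nat_lit 13)) (cs (rf (nat_lit 1)) (cs (rf (nat_lit 14)) (cs (rf (nat_lit 15)) (nd (nat_lit 276) (nat_lit 0) (cs (rf (nat_lit 5)) (cs (rf (nat_lit 16)) (cs (rf (nat_lit 17)) (nd (nat_lit 275) (nat_lit 0) (cs (lf (nat_lit 41) (nat_lit 209)) (rf (nat_lit 18))))))))))))) (cs (rf (nat_lit 19)) (cs (nd (nat_lit 210) (nat_lit 0) (cs (rf (nat_lit 13)) (cs (rf (nat_lit 1)) (cs (rf (nat_lit 14)) (cs (rf (nat_lit 15))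 (nd (nat_lit 211) (nat_lit 0) (cs (rf (nat_lit 20)) (cs (rf (nat_lit 21)) (cs (rf (nat_lit 22)) (rf (nat_lit 23))))))))))) (cs (nd (nat_lit 210) (nat_lit 0) (cs (rf (nat_lit 14)) (cs (rf (nat_lit 24)) (nd (nat_lit 188) (nat_lit 0) (cs (rf (nat_lit 25)) (cs (rf (nat_lit 26)) (nd (nat_lit 165) (nat_lit 0) (cs (lf (nat_lit 46) (nat_lit 165)) (rf (nat_lit 27)))))))))) (cs (nd (nat_lit 210) (nat_lit 0) (cs (rf (nat_lit 13)) (cs (rf (nat_lit 24)) (cs (rf (nat_lit 28)) (rf (nat_lit 29)))))) (cs (rf (nat_lit 30)) (cs (rf (nat_lit 31)) (nd (nat_lit 210) (nat_lit 0) (cs (rf (nat_lit 14)) (cs (rf (nat_lit 6)) (cs (nd (nat_lit 276) (nat_lit 0) (cs (rf (nat_lit 2)) (cs (rf (nat_lit 16)) (cs (rf (nat_lit 17)) (nd (nat_lit 275) (nat_lit 0) (cs (lf (nat_lit 41) (nat_lit 209)) (nd (nat_lit 209) (nat_lit 0) (cs (lf (nat_lit 47) (nat_lit 187)) (nd (nat_lit 231) (nat_lit 0) (cs (lf (nat_lit 42) (nat_lit 209)) (rf (nat_lit 32))))))))))))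 (cs (rf (nat_lit 29)) (nd (nat_lit 187) (nat_lit 0) (cs (rf (nat_lit 33)) (cs (rf (nat_lit 34)) (nd (nat_lit 188) (nat_lit 0) (cs (lf (nat_lit 47) (nat_lit 165)) (rf (nat_lit 35))))))))))))))))))))))))) q79956 (by decide +kernel)
def q80187 : Q := Q.p (nat_lit 0x6000010000000000000000000000000000000000000000000000000000000000) (nat_lit 0x1e0000780004f00031c000ef0007fc003ff0007f80006800010000000000000000000000000000000) (nat_lit 14)
theorem c80187 : QOK q80187 := cut [q79383, q79994, q79548, q79992, q80063, q80069, q79169, q79190, q79463, q79467, q79250, q80071, q80088, q80168, q79123, q79160, q80169] ⟨c79383, c79994, c79548, c79992, c80063, c80069, c79169, c79190, c79463, c79467, c79250, c80071, c80088, c80168, c79123, c79160, c80169, trivial⟩ (nd (nat_lit 231) (nat_lit 0) (cs (nd (nat_lit 233) (nat_lit 0) (cs (rf (nat_lit 0)) (cs (rf (nat_lit 1)) (nd (nat_lit 230) (nat_lit 0) (cs (rf (nat_lit 2)) (cs (rf (nat_lit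 3)) (nd (nat_lit 252) (nat_lit 0) (cs (lf (nat_lit 12) (nat_lit 229)) (rf (nat_lit 4)))))))))) (cs (rf (nat_lit 5)) (cs (nd (nat_lit 275) (nat_lit 0) (cs (rf (nat_lit 6)) (cs (rf (nat_lit 7)) (nd (nat_lit 209) (nat_lit 0) (cs (rf (nat_lit 8)) (cs (rf (nat_lit 9)) (nd (nat_lit 210) (nat_lit 0) (cs (rf (nat_lit 10)) (nd (nat_lit 274) (nat_lit 0) (cs (lf (nat_lit 41) (nat_lit 208)) (nd (nat_lit 272) (nat_lit 0) (cs (lf (nat_lit 13) (nat_lit 250)) (rf (nat_lit 11)))))))))))))) (cs (rf (nat_lit 12)) (cs (rf (nat_lit 13)) (nd (nat_lit 233) (nat_lit 0) (cs (rf (nat_lit 0)) (cs (rf (nat_lit 1)) (nd (nat_lit 230) (nat_lit 0) (cs (rf (nat_lit 2)) (cs (rf (nat_lit 3)) (nd (nat_lit 210) (nat_lit 0) (cs (rf (nat_lit 14)) (cs (rf (nat_lit 15)) (cs (nd (nat_lit 252) (nat_lit 0) (cs (lf (nat_lit 12) (nat_lit 229)) (nd (nat_lit 211) (nat_lit 0) (cs (lf (nat_lit 17) (nat_lit 208)) (nd (nat_lit 189) (nat_lit 0) (cs (lf (nat_lit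 36) (nat_lit 166)) (nd (nat_lit 208) (nat_lit 0) (cs (lf (nat_lit 23) (nat_lit 207)) (nd (nat_lit 275) (nat_lit 0) (cs (lf (nat_lit 30) (nat_lit 209)) (nd (nat_lit 209) (nat_lit 0) (cs (lf (nat_lit 17) (nat_lit 186)) (rf (nat_lit 16)))))))))))))) (nd (nat_lit 252) (nat_lit 0) (cs (lf (nat_lit 11) (nat_lit 229)) (nd (nat_lit 207) (nat_lit 0) (cs (lf (nat_lit 22) (nat_lit 207)) (nd (nat_lit 212) (nat_lit 0) (cs (lf (nat_lit 16) (nat_lit 208)) (nd (nat_lit 188) (nat_lit 0) (cs (lf (nat_lit 36) (nat_lit 165)) (nd (nat_lit 189) (nat_lit 0) (cs (lf (nat_lit 35) (nat_lit 166)) (nd (nat_lit 187) (nat_lit 0) (cs (lf (nat_lit 47) (nat_lit 165)) (nd (nat_lit 209) (nat_lit 0) (cs (lf (nat_lit 41) (nat_lit 186)) (nd (nat_lit 190) (nat_lit 0) (cs (lf (nat_lit 6) (nat_lit 187)) (lf (nat_lit 5) (nat_lit 187)))))))))))))))))))))))))))))))))) q80187 (by decide +kernel)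
def q81051 : Q := Q.p (nat_lit 0x6000000000000000000000000000000000000000000000000000000000000000) (nat_lit 0x80000f80003e0003fc0007f80029c001ff801ffc001ff0003f80007800006000008000000000000000000000000) (nat_lit 17)
theorem c81051 : QOK q81051 := cut [q79914, q79989, q80275, q80303, q80363, q80385, q80388, q79118, q79233, q80971, q79116, q80976, q80988, q81015, q80466, q81020, q79255, q80331, q81024, q81019, q81030, q80981, q79236, q81031, q81047, q79203, q79231] ⟨c79914, c79989, c80275, c80303, c80363, c80385, c80388, c79118, c79233, c80971, c79116, c80976, c80988, c81015, c80466, c81020, c79255, c80331, c81024, c81019, c81030, c80981, c79236, c81031, c81047, c79203, c79231, trivial⟩ (nd (nat_lit 232) (nat_lit 0) (cs (rf (nat_lit 0)) (cs (rf (nat_lit 1)) (cs (rf (nat_lit 2)) (cs (rf (nat_lit 3)) (cs (rf (nat_lit 4)) (cs (rf (nat_lit 5)) (cs (rf (nat_lit 6)) (cs (nd (nat_lit 252) (nat_lit 0) (cs (rf (nat_lit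 7)) (cs (rf (nat_lit 8)) (nd (nat_lit 274) (nat_lit 0) (cs (rf (nat_lit 9)) (cs (nd (nat_lit 233) (nat_lit 0) (cs (rf (nat_lit 10)) (nd (nat_lit 255) (nat_lit 0) (cs (lf (nat_lit 11) (nat_lit 251)) (nd (nat_lit 229) (nat_lit 0) (cs (lf (nat_lit 22) (nat_lit 229)) (rf (nat_lit 11)))))))) (cs (rf (nat_lit 12)) (rf (nat_lit 13))))))))) (cs (nd (nat_lit 252) (nat_lit 0) (cs (rf (nat_lit 7)) (cs (rf (nat_lit 14)) (cs (nd (nat_lit 274) (nat_lit 0) (cs (rf (nat_lit 12)) (cs (rf (nat_lit 13)) (rf (nat_lit 15))))) (nd (nat_lit 251) (nat_lit 0) (cs (rf (nat_lit 16)) (cs (rf (nat_lit 17)) (rf (nat_lit 18))))))))) (nd (nat_lit 252) (nat_lit 0) (cs (rf (nat_lit 7)) (cs (rf (nat_lit 14)) (cs (nd (nat_lit 255) (nat_lit 0) (cs (rf (nat_lit 19)) (cs (rf (nat_lit 20)) (cs (nd (nat_lit 233) (nat_lit 0) (cs (rf (nat_lit 21)) (nd (nat_lit 211) (nat_lit 0) (cs (rf (nat_lit 22)) (cs (nd (nat_lit 230) (nat_lit 0) (cs (lf (nat_lit 23)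 (nat_lit 229)) (nd (nat_lit 276) (nat_lit 0) (cs (lf (nat_lit 30) (nat_lit 210)) (nd (nat_lit 231) (nat_lit 0) (cs (lf (nat_lit 17) (nat_lit 208)) (nd (nat_lit 207) (nat_lit 0) (cs (lf (nat_lit 22) (nat_lit 207)) (rf (nat_lit 23)))))))))) (nd (nat_lit 273) (nat_lit 0) (cs (lf (nat_lit 10) (nat_lit 251)) (nd (nat_lit 167) (nat_lit 0) (cs (lf (nat_lit 37) (nat_lit 166)) (nd (nat_lit 230) (nat_lit 0) (cs (lf (nat_lit 23) (nat_lit 229)) (nd (nat_lit 231) (nat_lit 0) (cs (lf (nat_lit 17) (nat_lit 208)) (nd (nat_lit 208) (nat_lit 0) (cs (lf (nat_lit 23) (nat_lit 207)) (nd (nat_lit 186) (nat_lit 0) (cs (lf (nat_lit 24) (nat_lit 164)) (nd (nat_lit 187) (nat_lit 0) (cs (lf (nat_lit 35) (nat_lit 164)) (nd (nat_lit 185) (nat_lit 0) (cs (lf (nat_lit 47) (nat_lit 163)) (nd (nat_lit 188) (nat_lit 0) (cs (lf (nat_lit 16) (nat_lit 163)) (lf (nat_lit 4) (nat_lit 185))))))))))))))))))))))))) (rf (nat_lit 24)))))) (nd (nat_lit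 251) (nat_lit 0) (cs (rf (nat_lit 25)) (cs (rf (nat_lit 26)) (rf (nat_lit 17))))))))))))))))))) q81051 (by decide +kernel)
def q81496 : Q := Q.p (nat_lit 0x6000000000000000000000000000000000000000000000000000000000000000) (nat_lit 0x2a0000fc0003f0001fc000ffc0039e001dfc000fc0007e0000f80001e00000000000000000000000000000000000) (nat_lit 16)
theorem c81496 : QOK q81496 := cut [q79233, q80625, q80971, q81318, q80649, q81011, q81014, q81321, q81323, q81327, q81335, q81340, q81353, q81410, q80339, q81411, q79587, q81413, q79744, q80335, q81015, q81418, q1308, q81429, q81447, q79007, q79023, q79201, q80247, q81453, q81459, q81463, q80725, q80728, q81472, q81475, q81024, q81479, q81483, q81495] ⟨c79233, c80625, c80971, c81318, c80649, c81011, c81014, c81321, c81323, c81327, c81335, c81340, c81353, c81410, c80339, c81411, c79587, c81413, c79744, c80335, c81015, c81418, c1308, c81429, c81447, c79007, c79023, c79201, c80247,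 c81453, c81459, c81463, c80725, c80728, c81472, c81475, c81024, c81479, c81483, c81495, trivial⟩ (nd (nat_lit 252) (nat_lit 0) (cs (rf (nat_lit 0)) (cs (rf (nat_lit 1)) (cs (nd (nat_lit 274) (nat_lit 0) (cs (rf (nat_lit 2)) (cs (rf (nat_lit 3)) (cs (nd (nat_lit 296) (nat_lit 0) (cs (rf (nat_lit 4)) (cs (rf (nat_lit 5)) (cs (rf (nat_lit 6)) (nd (nat_lit 319) (nat_lit 0) (cs (rf (nat_lit 7)) (cs (rf (nat_lit 8)) (rf (nat_lit 9))))))))) (rf (nat_lit 10)))))) (cs (rf (nat_lit 11)) (cs (rf (nat_lit 12)) (cs (rf (nat_lit 13)) (cs (nd (nat_lit 276) (nat_lit 0) (cs (rf (nat_lit 14)) (cs (rf (nat_lit 15)) (cs (nd (nat_lit 298) (nat_lit 0) (cs (rf (nat_lit 16)) (cs (rf (nat_lit 17)) (cs (nd (nat_lit 232) (nat_lit 0) (cs (rf (nat_lit 18)) (cs (rf (nat_lit 19)) (cs (nd (nat_lit 299) (nat_lit 0) (cs (lf (nat_lit 29) (nat_lit 232)) (nd (nat_lit 274) (nat_lit 0) (cs (rf (nat_lit 20)) (cs (nd (nat_lit 297) (nat_lit 0) (cs (lf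 (nat_lit 41) (nat_lit 231)) (nd (nat_lit 296) (nat_lit 0) (cs (lf (nat_lit 23) (nat_lit 273)) (nd (nat_lit 277) (nat_lit 0) (cs (lf (nat_lit 17) (nat_lit 274)) (lf (nat_lit 12) (nat_lit 273)))))))) (cs (nd (nat_lit 297) (nat_lit 0) (cs (lf (nat_lit 41) (nat_lit 231)) (nd (nat_lit 275) (nat_lit 0) (cs (lf (nat_lit 18) (nat_lit 274)) (nd (nat_lit 277) (nat_lit 0) (cs (lf (nat_lit 18) (nat_lit 252)) (nd (nat_lit 209) (nat_lit 0) (cs (lf (nat_lit 25) (nat_lit 209)) (rf (nat_lit 21)))))))))) (nd (nat_lit 209) (nat_lit 0) (cs (lf (nat_lit 46) (nat_lit 209)) (nd (nat_lit 275) (nat_lit 0) (cs (rf (nat_lit 22)) (lf (nat_lit 0) (nat_lit 273)))))))))))) (rf (nat_lit 23)))))) (rf (nat_lit 24)))))) (cs (nd (nat_lit 231) (nat_lit 0) (cs (nd (nat_lit 298) (nat_lit 0) (cs (lf (nat_lit 42) (nat_lit 231)) (nd (nat_lit 251) (nat_lit 0) (cs (rf (nat_lit 25)) (cs (rf (nat_lit 26)) (cs (rf (nat_lit 27)) (nd (nat_lit 274) (nat_lit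 0) (cs (rf (nat_lit 28)) (cs (rf (nat_lit 29)) (rf (nat_lit 30))))))))))) (cs (rf (nat_lit 31)) (nd (nat_lit 209) (nat_lit 0) (cs (rf (nat_lit 32)) (cs (rf (nat_lit 33)) (rf (nat_lit 34)))))))) (rf (nat_lit 35))))))) (cs (nd (nat_lit 251) (nat_lit 0) (cs (rf (nat_lit 27)) (cs (rf (nat_lit 36)) (cs (nd (nat_lit 272) (nat_lit 0) (cs (lf (nat_lit 10) (nat_lit 250)) (nd (nat_lit 250) (nat_lit 0) (cs (lf (nat_lit 11) (nat_lit 249)) (nd (nat_lit 231) (nat_lit 0) (cs (lf (nat_lit 17) (nat_lit 228)) (rf (nat_lit 37)))))))) (nd (nat_lit 228) (nat_lit 0) (cs (lf (nat_lit 22) (nat_lit 228)) (nd (nat_lit 250) (nat_lit 0) (cs (lf (nat_lit 23) (nat_lit 227)) (nd (nat_lit 231) (nat_lit 0) (cs (lf (nat_lit 17) (nat_lit 228)) (rf (nat_lit 38)))))))))))) (rf (nat_lit 39))))))))))) q81496 (by decide +kernel)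
def q81877 : Q := Q.p (nat_lit 0x6000000000000000000000000000000000000000000000000000000000000000) (nat_lit 0x2a0000f80003e0001fe001ffc0039e001fdc01ffc001ff0001f00006c00000000000000000000000000000000000) (nat_lit 19)
theorem c81877 : QOK q81877 := cut [q80610, q81353, q81714, q80339, q81755, q79587, q81413, q81447, q79744, q79914, q80335, q81757, q81764, q79223, q79228, q80428, q81767, q80576, q81348, q81557, q81770, q79013, q81863, q81873, q81876] ⟨c80610, c81353, c81714, c80339, c81755, c79587, c81413, c81447, c79744, c79914, c80335, c81757, c81764, c79223, c79228, c80428, c81767, c80576, c81348, c81557, c81770, c79013, c81863, c81873, c81876, trivial⟩ (nd (nat_lit 252) (nat_lit 0) (cs (rf (nat_lit 0)) (cs (rf (nat_lit 1)) (cs (rf (nat_lit 2)) (cs (nd (nat_lit 276) (nat_lit 0) (cs (rf (nat_lit 3)) (cs (rf (nat_lit 4)) (cs (nd (nat_lit 298) (nat_lit 0) (cs (rf (nat_lit 5)) (cs (rf (nat_lit 6)) (cs (rf (nat_lit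 7)) (nd (nat_lit 232) (nat_lit 0) (cs (rf (nat_lit 8)) (cs (rf (nat_lit 9)) (cs (rf (nat_lit 10)) (nd (nat_lit 299) (nat_lit 0) (cs (lf (nat_lit 29) (nat_lit 232)) (rf (nat_lit 11)))))))))))) (rf (nat_lit 12)))))) (cs (nd (nat_lit 255) (nat_lit 0) (cs (rf (nat_lit 13)) (cs (rf (nat_lit 14)) (rf (nat_lit 15))))) (cs (rf (nat_lit 16)) (cs (nd (nat_lit 255) (nat_lit 0) (cs (rf (nat_lit 17)) (cs (rf (nat_lit 18)) (cs (rf (nat_lit 19)) (cs (nd (nat_lit 234) (nat_lit 0) (cs (lf (nat_lit 16) (nat_lit 230)) (nd (nat_lit 256) (nat_lit 0) (cs (lf (nat_lit 17) (nat_lit 231)) (rf (nat_lit 20)))))) (nd (nat_lit 277) (nat_lit 0) (cs (lf (nat_lit 5) (nat_lit 252)) (nd (nat_lit 251) (nat_lit 0) (cs (rf (nat_lit 21)) (lf (nat_lit 4) (nat_lit 251))))))))))) (cs (rf (nat_lit 22)) (cs (rf (nat_lit 23)) (rf (nat_lit 24)))))))))))) q81877 (by decide +kernel)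
def q82081 : Q := Q.p (nat_lit 0x6000000000000000000000000000000000000000000000000000000000000000) (nat_lit 0xb80007e0001f8003fdc0079e003ffc001fe0007fc001f80003a00000000000000000000000000000000000) (nat_lit 15)
theorem c82081 : QOK q82081 := cut [q81410, q81726, q81873, q79118, q79161, q79165, q79579, q79744, q80335, q81475, q81991, q79123, q79128, q79160, q79913, q81998, q79214, q80425, q80460, q80558, q79228, q80464, q80700, q81348, q81087, q81872, q82006, q82067, q82070, q80530, q79243, q80571, q81867] ⟨c81410, c81726, c81873, c79118, c79161, c79165, c79579, c79744, c80335, c81475, c81991, c79123, c79128, c79160, c79913, c81998, c79214, c80425, c80460, c80558, c79228, c80464, c80700, c81348, c81087, c81872, c82006, c82067, c82070, c80530, c79243, c80571, c81867, trivial⟩ (nd (nat_lit 252) (nat_lit 0) (cs (rf (nat_lit 0)) (cs (rf (nat_lit 1)) (cs (rf (nat_lit 2)) (cs (nd (nat_lit 232) (nat_lit 0) (cs (rf (nat_lit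 3)) (cs (rf (nat_lit 4)) (cs (rf (nat_lit 5)) (nd (nat_lit 276) (nat_lit 0) (cs (nd (nat_lit 298) (nat_lit 0) (cs (rf (nat_lit 6)) (cs (rf (nat_lit 7)) (rf (nat_lit 8))))) (cs (rf (nat_lit 9)) (cs (rf (nat_lit 10)) (nd (nat_lit 210) (nat_lit 0) (cs (rf (nat_lit 11)) (cs (rf (nat_lit 12)) (cs (rf (nat_lit 13)) (cs (rf (nat_lit 14)) (nd (nat_lit 275) (nat_lit 0) (cs (lf (nat_lit 41) (nat_lit 209)) (nd (nat_lit 250) (nat_lit 0) (cs (lf (nat_lit 1) (nat_lit 250)) (rf (nat_lit 15))))))))))))))))))) (cs (nd (nat_lit 255) (nat_lit 0) (cs (rf (nat_lit 16)) (cs (rf (nat_lit 17)) (cs (rf (nat_lit 18)) (rf (nat_lit 19)))))) (cs (nd (nat_lit 255) (nat_lit 0) (cs (rf (nat_lit 20)) (cs (rf (nat_lit 17)) (cs (rf (nat_lit 21)) (cs (rf (nat_lit 22)) (rf (nat_lit 23))))))) (cs (nd (nat_lit 255) (nat_lit 0) (cs (rf (nat_lit 20)) (cs (rf (nat_lit 18)) (cs (rf (nat_lit 24)) (cs (rf (nat_lit 25)) (nd (nat_lit 278) (nat_lit 0) (cs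 (lf (nat_lit 4) (nat_lit 252)) (nd (nat_lit 256) (nat_lit 0) (cs (lf (nat_lit 5) (nat_lit 253)) (nd (nat_lit 235) (nat_lit 0) (cs (lf (nat_lit 16) (nat_lit 231)) (nd (nat_lit 275) (nat_lit 0) (cs (lf (nat_lit 11) (nat_lit 252)) (rf (nat_lit 26))))))))))))))) (cs (rf (nat_lit 27)) (cs (nd (nat_lit 255) (nat_lit 0) (cs (rf (nat_lit 21)) (cs (rf (nat_lit 25)) (cs (rf (nat_lit 28)) (nd (nat_lit 233) (nat_lit 0) (cs (lf (nat_lit 17) (nat_lit 230)) (nd (nat_lit 230) (nat_lit 0) (cs (lf (nat_lit 23) (nat_lit 229)) (nd (nat_lit 256) (nat_lit 0) (cs (lf (nat_lit 22) (nat_lit 230)) (nd (nat_lit 275) (nat_lit 0) (cs (lf (nat_lit 11) (nat_lit 252)) (nd (nat_lit 297) (nat_lit 0) (cs (lf (nat_lit 42) (nat_lit 230)) (nd (nat_lit 257) (nat_lit 0) (cs (lf (nat_lit 10) (nat_lit 253)) (nd (nat_lit 235) (nat_lit 0) (cs (lf (nat_lit 17) (nat_lit 232)) (nd (nat_lit 258) (nat_lit 0) (cs (rf (nat_lit 29)) (lf (nat_lit 23) (nat_lit 232))))))))))))))))))))))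 (nd (nat_lit 255) (nat_lit 0) (cs (rf (nat_lit 20)) (cs (rf (nat_lit 30)) (cs (rf (nat_lit 31)) (rf (nat_lit 32)))))))))))))))) q82081 (by decide +kernel)
def q82167 : Q := Q.p (nat_lit 0x6000000000000000000000000000000000000000000000000000000000000000) (nat_lit 0xa00003f0001fc000ff80039e0007f8000fc0007f00007c0000f00000000000000000000000000000000000) (nat_lit 16)
theorem c82167 : QOK q82167 := cut [q79028, q79067, q79077, q79078, q79079, q79080, q79086, q79096, q79101, q79108, q79112, q79205, q79233, q79257, q79263, q80454, q81410, q81876] ⟨c79028, c79067, c79077, c79078, c79079, c79080, c79086, c79096, c79101, c79108, c79112, c79205, c79233, c79257, c79263, c80454, c81410, c81876, trivial⟩ (nd (nat_lit 252) (nat_lit 0) (cs (nd (nat_lit 230) (nat_lit 0) (cs (rf (nat_lit 0)) (cs (rf (nat_lit 1)) (cs (rf (nat_lit 2)) (nd (nat_lit 275) (nat_lit 0) (cs (rf (nat_lit 3)) (cs (nd (nat_lit 274) (nat_lit 0) (cs (rf (nat_lit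 4)) (cs (rf (nat_lit 5)) (nd (nat_lit 255) (nat_lit 0) (cs (lf (nat_lit 6) (nat_lit 252)) (nd (nat_lit 277) (nat_lit 0) (cs (lf (nat_lit 5) (nat_lit 252)) (nd (nat_lit 233) (nat_lit 0) (cs (lf (nat_lit 17) (nat_lit 230)) (nd (nat_lit 208) (nat_lit 0) (cs (lf (nat_lit 24) (nat_lit 186)) (rf (nat_lit 6))))))))))))) (cs (nd (nat_lit 231) (nat_lit 0) (cs (rf (nat_lit 7)) (cs (rf (nat_lit 8)) (nd (nat_lit 297) (nat_lit 0) (cs (lf (nat_lit 42) (nat_lit 230)) (rf (nat_lit 9))))))) (rf (nat_lit 10)))))))))) (cs (rf (nat_lit 11)) (cs (rf (nat_lit 12)) (cs (rf (nat_lit 13)) (cs (rf (nat_lit 14)) (cs (rf (nat_lit 15)) (cs (rf (nat_lit 16)) (rf (nat_lit 17)))))))))) q82167 (by decide +kernel)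
def q83171 : Q := Q.p (nat_lit 0x3c00000000000000000000000000000000000000000000000000000000000000) (nat_lit 0xa0002b8000ff8003fc007ffc00ffe001ffc006de001c30003ae00060000180000000000000000000000000000000000000000000000) (nat_lit 17)
theorem c83171 : QOK q83171 := cut [q82802, q44429, q82814, q82819, q42098, q82986, q83132, q83133, q83127, q83131, q41847, q83138, q83110, q82771, q82788, q82750, q82756, q82759, q82765, q15852, q15840] ⟨c82802, c44429, c82814, c82819, c42098, c82986, c83132, c83133, c83127, c83131, c41847, c83138, c83110, c82771, c82788, c82750, c82756, c82759, c82765, c15852, c15840, trivial⟩ (nd (nat_lit 318) (nat_lit 0) (cs (rf (nat_lit 0)) (cs (nd (nat_lit 316) (nat_lit 0) (cs (rf (nat_lit 1)) (cs (nd (nat_lit 272) (nat_lit 0) (cs (lf (nat_lit 11) (nat_lit 249)) (nd (nat_lit 294) (nat_lit 0) (cs (lf (nat_lit 35) (nat_lit 228)) (nd (nat_lit 231) (nat_lit 0) (cs (lf (nat_lit 17) (nat_lit 228))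 (nd (nat_lit 315) (nat_lit 0) (cs (lf (nat_lit 41) (nat_lit 249)) (nd (nat_lit 296) (nat_lit 0) (cs (lf (nat_lit 32) (nat_lit 230)) (nd (nat_lit 297) (nat_lit 0) (cs (lf (nat_lit 8) (nat_lit 293)) (lf (nat_lit 38) (nat_lit 230)))))))))))))) (cs (rf (nat_lit 2)) (rf (nat_lit 3)))))) (cs (nd (nat_lit 271) (nat_lit 0) (cs (lf (nat_lit 10) (nat_lit 249)) (nd (nat_lit 249) (nat_lit 0) (cs (lf (nat_lit 11) (nat_lit 248)) (nd (nat_lit 226) (nat_lit 0) (cs (lf (nat_lit 22) (nat_lit 226)) (nd (nat_lit 225) (nat_lit 0) (cs (lf (nat_lit 21) (nat_lit 225)) (nd (nat_lit 274) (nat_lit 0) (cs (lf (nat_lit 5) (nat_lit 249)) (nd (nat_lit 296) (nat_lit 0) (cs (lf (nat_lit 47) (nat_lit 229)) (rf (nat_lit 4)))))))))))))) (cs (rf (nat_lit 5)) (cs (rf (nat_lit 6)) (cs (nd (nat_lit 231) (nat_lit 0) (cs (lf (nat_lit 17) (nat_lit 228)) (nd (nat_lit 274) (nat_lit 0) (cs (lf (nat_lit 31) (nat_lit 230)) (rf (nat_lit 7)))))) (nd (nat_lit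 316) (nat_lit 0) (cs (rf (nat_lit 2)) (cs (rf (nat_lit 3)) (cs (rf (nat_lit 8)) (cs (rf (nat_lit 9)) (cs (nd (nat_lit 315) (nat_lit 0) (cs (rf (nat_lit 10)) (cs (nd (nat_lit 231) (nat_lit 0) (cs (lf (nat_lit 17) (nat_lit 228)) (nd (nat_lit 296) (nat_lit 0) (cs (lf (nat_lit 32) (nat_lit 230)) (nd (nat_lit 317) (nat_lit 0) (cs (lf (nat_lit 17) (nat_lit 293)) (nd (nat_lit 295) (nat_lit 0) (cs (lf (nat_lit 12) (nat_lit 292)) (nd (nat_lit 340) (nat_lit 0) (cs (lf (nat_lit 5) (nat_lit 315)) (nd (nat_lit 337) (nat_lit 0) (cs (lf (nat_lit 11) (nat_lit 314)) (nd (nat_lit 292) (nat_lit 0) (cs (lf (nat_lit 22) (nat_lit 292)) (nd (nat_lit 338) (nat_lit 0) (cs (lf (nat_lit 6) (nat_lit 315)) (nd (nat_lit 360) (nat_lit 0) (cs (lf (nat_lit 30) (nat_lit 294)) (rf (nat_lit 11)))))))))))))))))))) (nd (nat_lit 271) (nat_lit 0) (cs (lf (nat_lit 10) (nat_lit 249)) (nd (nat_lit 249) (nat_lit 0) (cs (lf (nat_lit 11) (nat_lit 248)) (nd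 (nat_lit 226) (nat_lit 0) (cs (lf (nat_lit 22) (nat_lit 226)) (nd (nat_lit 225) (nat_lit 0) (cs (lf (nat_lit 21) (nat_lit 225)) (nd (nat_lit 231) (nat_lit 0) (cs (lf (nat_lit 17) (nat_lit 228)) (nd (nat_lit 296) (nat_lit 0) (cs (lf (nat_lit 32) (nat_lit 230)) (nd (nat_lit 317) (nat_lit 0) (cs (lf (nat_lit 17) (nat_lit 293)) (nd (nat_lit 295) (nat_lit 0) (cs (lf (nat_lit 12) (nat_lit 292)) (nd (nat_lit 337) (nat_lit 0) (cs (lf (nat_lit 11) (nat_lit 314)) (nd (nat_lit 340) (nat_lit 0) (cs (lf (nat_lit 5) (nat_lit 315)) (nd (nat_lit 338) (nat_lit 0) (cs (lf (nat_lit 6) (nat_lit 315)) (rf (nat_lit 11))))))))))))))))))))))))))) (nd (nat_lit 296) (nat_lit 0) (cs (nd (nat_lit 231) (nat_lit 0) (cs (lf (nat_lit 17) (nat_lit 228)) (lf (nat_lit 32) (nat_lit 230)))) (cs (nd (nat_lit 317) (nat_lit 0) (cs (rf (nat_lit 12)) (cs (nd (nat_lit 319) (nat_lit 0) (cs (rf (nat_lit 13)) (cs (rf (nat_lit 14)) (nd (nat_lit 338) (nat_lit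 0) (cs (lf (nat_lit 11) (nat_lit 315)) (nd (nat_lit 360) (nat_lit 0) (cs (rf (nat_lit 15)) (cs (rf (nat_lit 16)) (cs (rf (nat_lit 17)) (rf (nat_lit 18))))))))))) (nd (nat_lit 231) (nat_lit 0) (cs (lf (nat_lit 17) (nat_lit 228)) (rf (nat_lit 19))))))) (nd (nat_lit 274) (nat_lit 0) (cs (lf (nat_lit 47) (nat_lit 229)) (nd (nat_lit 319) (nat_lit 0) (cs (lf (nat_lit 29) (nat_lit 252)) (nd (nat_lit 317) (nat_lit 0) (cs (lf (nat_lit 41) (nat_lit 251)) (rf (nat_lit 20)))))))))))))))))))))))) q83171 (by decide +kernel)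
def q85234 : Q := Q.p (nat_lit 0x3000000000000000000000000000000000000000000000000000000000000000) (nat_lit 0x4000370001ff800ffc003ef800fc6003ffc01fff007ffc01fff001ff0007fc00050000000000000000000000000) (nat_lit 19)
theorem c85234 : QOK q85234 := cut [q82301, q84380, q84387, q84405, q84406, q84500, q84332, q84513, q84566, q84584, q84605, q84608, q84641, q84962, q84990, q85064, q85119, q85186, q82309, q1563, q85191, q119, q2938, q1597, q10121, q17544, q82279, q22271, q85149, q85197, q82300, q84518, q82350, q84346, q84964, q85200, q85203, q85209, q2935, q85066, q85069, q1411, q85001, q85074, q84997, q85212, q85185, q85222, q85233] ⟨c82301, c84380, c84387, c84405, c84406, c84500, c84332, c84513, c84566, c84584, c84605, c84608, c84641, c84962, c84990, c85064, c85119, c85186, c82309, c1563, c85191, c119, c2938, c1597, c10121, c17544, c82279, c22271, c85149, c85197, c82300, c84518, c82350, c84346, c84964, c85200, c85203,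 c85209, c2935, c85066, c85069, c1411, c85001, c85074, c84997, c85212, c85185, c85222, c85233, trivial⟩ (nd (nat_lit 231) (nat_lit 0) (cs (nd (nat_lit 209) (nat_lit 0) (cs (rf (nat_lit 0)) (cs (rf (nat_lit 1)) (cs (rf (nat_lit 2)) (cs (rf (nat_lit 3)) (rf (nat_lit 4))))))) (cs (rf (nat_lit 5)) (cs (nd (nat_lit 209) (nat_lit 0) (cs (rf (nat_lit 6)) (cs (rf (nat_lit 3)) (cs (rf (nat_lit 7)) (cs (rf (nat_lit 8)) (cs (rf (nat_lit 9)) (cs (rf (nat_lit 10)) (rf (nat_lit 11))))))))) (cs (rf (nat_lit 12)) (cs (rf (nat_lit 13)) (cs (rf (nat_lit 14)) (cs (rf (nat_lit 15)) (cs (rf (nat_lit 16)) (cs (rf (nat_lit 17)) (cs (nd (nat_lit 209) (nat_lit 0) (cs (rf (nat_lit 18)) (cs (rf (nat_lit 2)) (cs (rf (nat_lit 9)) (cs (nd (nat_lit 208) (nat_lit 0) (cs (rf (nat_lit 19)) (cs (rf (nat_lit 20)) (cs (nd (nat_lit 207) (nat_lit 0) (cs (rf (nat_lit 21)) (cs (rf (nat_lit 22)) (nd (nat_lit 185) (nat_lit 0) (cs (rf (nat_lit 23)) (rf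 (nat_lit 24))))))) (nd (nat_lit 274) (nat_lit 0) (cs (rf (nat_lit 25)) (cs (rf (nat_lit 26)) (nd (nat_lit 230) (nat_lit 0) (cs (rf (nat_lit 27)) (rf (nat_lit 28))))))))))) (rf (nat_lit 29))))))) (cs (nd (nat_lit 209) (nat_lit 0) (cs (rf (nat_lit 30)) (cs (rf (nat_lit 0)) (cs (rf (nat_lit 31)) (nd (nat_lit 275) (nat_lit 0) (cs (rf (nat_lit 32)) (cs (rf (nat_lit 33)) (cs (rf (nat_lit 34)) (cs (nd (nat_lit 208) (nat_lit 0) (cs (lf (nat_lit 47) (nat_lit 186)) (nd (nat_lit 207) (nat_lit 0) (cs (rf (nat_lit 21)) (cs (rf (nat_lit 35)) (rf (nat_lit 36))))))) (rf (nat_lit 37))))))))))) (cs (nd (nat_lit 209) (nat_lit 0) (cs (rf (nat_lit 30)) (cs (rf (nat_lit 0)) (cs (rf (nat_lit 18)) (cs (rf (nat_lit 6)) (nd (nat_lit 208) (nat_lit 0) (cs (rf (nat_lit 19)) (cs (nd (nat_lit 207) (nat_lit 0) (cs (rf (nat_lit 21)) (cs (rf (nat_lit 38)) (cs (rf (nat_lit 22)) (cs (nd (nat_lit 210) (nat_lit 0) (cs (rf (nat_lit 39)) (rf (nat_lit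 40)))) (nd (nat_lit 230) (nat_lit 0) (cs (rf (nat_lit 41)) (cs (rf (nat_lit 42)) (nd (nat_lit 164) (nat_lit 0) (cs (lf (nat_lit 25) (nat_lit 164)) (rf (nat_lit 43)))))))))))) (cs (rf (nat_lit 20)) (nd (nat_lit 230) (nat_lit 0) (cs (rf (nat_lit 44)) (rf (nat_lit 45))))))))))))) (cs (nd (nat_lit 209) (nat_lit 0) (cs (rf (nat_lit 18)) (cs (rf (nat_lit 1)) (cs (rf (nat_lit 7)) (rf (nat_lit 46)))))) (cs (nd (nat_lit 209) (nat_lit 0) (cs (rf (nat_lit 30)) (cs (rf (nat_lit 1)) (cs (rf (nat_lit 8)) (rf (nat_lit 29)))))) (cs (rf (nat_lit 47)) (rf (nat_lit 48)))))))))))))))))) q85234 (by decide +kernel)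
def q85584 : Q := Q.p (nat_lit 0x3000000000000000000000000000000000000000000000000000000000000000) (nat_lit 0x560001f80027f000ebf003cf801fff003ff800fff003ff800bf8000fc00004000000000000000000000000) (nat_lit 19)
theorem c85584 : QOK q85584 := cut [q83618, q82198, q85315, q85418, q85421, q85422, q85427, q80446, q5481, q85433, q85434, q85444, q82405, q85453, q82275, q82278, q82297, q85496, q85521, q85536, q85556, q85557, q85569, q85576, q85583] ⟨c83618, c82198, c85315, c85418, c85421, c85422, c85427, c80446, c5481, c85433, c85434, c85444, c82405, c85453, c82275, c82278, c82297, c85496, c85521, c85536, c85556, c85557, c85569, c85576, c85583, trivial⟩ (nd (nat_lit 251) (nat_lit 0) (cs (rf (nat_lit 0)) (cs (nd (nat_lit 229) (nat_lit 0) (cs (rf (nat_lit 1)) (cs (rf (nat_lit 2)) (cs (rf (nat_lit 3)) (nd (nat_lit 273) (nat_lit 0) (cs (rf (nat_lit 4)) (cs (nd (nat_lit 254) (nat_lit 0) (cs (lf (nat_lit 11) (nat_lit 250))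 (nd (nat_lit 232) (nat_lit 0) (cs (lf (nat_lit 17) (nat_lit 229)) (rf (nat_lit 5)))))) (cs (rf (nat_lit 6)) (nd (nat_lit 207) (nat_lit 0) (cs (rf (nat_lit 7)) (cs (nd (nat_lit 184) (nat_lit 0) (cs (lf (nat_lit 46) (nat_lit 184)) (nd (nat_lit 185) (nat_lit 0) (cs (lf (nat_lit 47) (nat_lit 162)) (rf (nat_lit 8)))))) (cs (rf (nat_lit 9)) (cs (nd (nat_lit 186) (nat_lit 0) (cs (lf (nat_lit 34) (nat_lit 185)) (nd (nat_lit 185) (nat_lit 0) (cs (lf (nat_lit 35) (nat_lit 163)) (nd (nat_lit 230) (nat_lit 0) (cs (lf (nat_lit 24) (nat_lit 163)) (nd (nat_lit 254) (nat_lit 0) (cs (lf (nat_lit 18) (nat_lit 229)) (nd (nat_lit 295) (nat_lit 0) (cs (lf (nat_lit 30) (nat_lit 229)) (nd (nat_lit 296) (nat_lit 0) (cs (lf (nat_lit 29) (nat_lit 229)) (nd (nat_lit 294) (nat_lit 0) (cs (lf (nat_lit 41) (nat_lit 228)) (nd (nat_lit 232) (nat_lit 0) (cs (lf (nat_lit 17) (nat_lit 229)) (rf (nat_lit 10)))))))))))))))))) (cs (nd (nat_lit 186)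 (nat_lit 0) (cs (lf (nat_lit 34) (nat_lit 185)) (nd (nat_lit 185) (nat_lit 0) (cs (lf (nat_lit 35) (nat_lit 163)) (rf (nat_lit 11)))))) (nd (nat_lit 184) (nat_lit 0) (cs (lf (nat_lit 46) (nat_lit 184)) (nd (nat_lit 208) (nat_lit 0) (cs (lf (nat_lit 35) (nat_lit 185)) (nd (nat_lit 295) (nat_lit 0) (cs (lf (nat_lit 34) (nat_lit 207)) (rf (nat_lit 12)))))))))))))))))))))) (cs (rf (nat_lit 13)) (cs (nd (nat_lit 231) (nat_lit 0) (cs (rf (nat_lit 14)) (cs (rf (nat_lit 15)) (cs (rf (nat_lit 16)) (cs (rf (nat_lit 17)) (rf (nat_lit 18))))))) (cs (rf (nat_lit 19)) (cs (rf (nat_lit 20)) (cs (rf (nat_lit 21)) (cs (rf (nat_lit 22)) (cs (rf (nat_lit 23)) (rf (nat_lit 24)))))))))))) q85584 (by decide +kernel)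
def q86260 : Q := Q.p (nat_lit 0x400003000000000000000000000000000000000000000000000000000000000000000) (nat_lit 0x4a0001f80007f8001fe001e82007cf80ffce03fffc0fffe007ffc00ffe003ff80050e00002800000000000000000) (nat_lit 18)
theorem c86260 : QOK q86260 := cut [q80881, q85749, q83703, q79226, q84918, q85761, q85767, q85772, q85966, q85969, q86007, q86008, q81014, q83915, q81333, q22238, q86023, q80524, q80651, q86021, q80768, q86029, q86253, q85706, q10759] ⟨c80881, c85749, c83703, c79226, c84918, c85761, c85767, c85772, c85966, c85969, c86007, c86008, c81014, c83915, c81333, c22238, c86023, c80524, c80651, c86021, c80768, c86029, c86253, c85706, c10759, trivial⟩ (nd (nat_lit 233) (nat_lit 0) (cs (nd (nat_lit 231) (nat_lit 0) (cs (rf (nat_lit 0)) (rf (nat_lit 1)))) (cs (nd (nat_lit 255) (nat_lit 0) (cs (nd (nat_lit 254) (nat_lit 0) (cs (lf (nat_lit 17) (nat_lit 230)) (rf (nat_lit 2)))) (cs (nd (nat_lit 277) (nat_lit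 0) (cs (nd (nat_lit 254) (nat_lit 0) (cs (lf (nat_lit 5) (nat_lit 252)) (rf (nat_lit 3)))) (cs (nd (nat_lit 299) (nat_lit 0) (cs (rf (nat_lit 4)) (cs (nd (nat_lit 300) (nat_lit 0) (cs (lf (nat_lit 29) (nat_lit 233)) (nd (nat_lit 232) (nat_lit 0) (cs (lf (nat_lit 47) (nat_lit 210)) (nd (nat_lit 254) (nat_lit 0) (cs (lf (nat_lit 12) (nat_lit 229)) (nd (nat_lit 298) (nat_lit 0) (cs (lf (nat_lit 41) (nat_lit 232)) (nd (nat_lit 275) (nat_lit 0) (cs (lf (nat_lit 21) (nat_lit 274)) (lf (nat_lit 6) (nat_lit 252)))))))))))) (nd (nat_lit 232) (nat_lit 0) (cs (lf (nat_lit 47) (nat_lit 210)) (nd (nat_lit 254) (nat_lit 0) (cs (lf (nat_lit 12) (nat_lit 229)) (lf (nat_lit 42) (nat_lit 232))))))))) (cs (nd (nat_lit 278) (nat_lit 0) (cs (lf (nat_lit 2) (nat_lit 252)) (nd (nat_lit 211) (nat_lit 0) (cs (lf (nat_lit 29) (nat_lit 211)) (nd (nat_lit 190) (nat_lit 0) (cs (lf (nat_lit 34) (nat_lit 189)) (rf (nat_lit 5)))))))) (nd (nat_lit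 211) (nat_lit 0) (cs (rf (nat_lit 6)) (cs (nd (nat_lit 210) (nat_lit 0) (cs (lf (nat_lit 47) (nat_lit 188)) (nd (nat_lit 190) (nat_lit 0) (cs (lf (nat_lit 34) (nat_lit 189)) (rf (nat_lit 7)))))) (cs (nd (nat_lit 190) (nat_lit 0) (cs (lf (nat_lit 34) (nat_lit 189)) (nd (nat_lit 278) (nat_lit 0) (cs (lf (nat_lit 29) (nat_lit 211)) (rf (nat_lit 5)))))) (nd (nat_lit 188) (nat_lit 0) (cs (lf (nat_lit 46) (nat_lit 188)) (nd (nat_lit 190) (nat_lit 0) (cs (lf (nat_lit 34) (nat_lit 189)) (nd (nat_lit 189) (nat_lit 0) (cs (lf (nat_lit 47) (nat_lit 166)) (lf (nat_lit 35) (nat_lit 167)))))))))))))))) (cs (rf (nat_lit 8)) (cs (nd (nat_lit 254) (nat_lit 0) (cs (lf (nat_lit 17) (nat_lit 230)) (nd (nat_lit 232) (nat_lit 0) (cs (lf (nat_lit 12) (nat_lit 229)) (rf (nat_lit 9)))))) (cs (rf (nat_lit 10)) (rf (nat_lit 11)))))))) (cs (nd (nat_lit 296) (nat_lit 0) (cs (rf (nat_lit 12)) (cs (rf (nat_lit 13)) (nd (nat_lit 230) (nat_lit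 0) (cs (rf (nat_lit 14)) (cs (nd (nat_lit 297) (nat_lit 0) (cs (lf (nat_lit 29) (nat_lit 230)) (nd (nat_lit 231) (nat_lit 0) (cs (lf (nat_lit 35) (nat_lit 208)) (nd (nat_lit 295) (nat_lit 0) (cs (lf (nat_lit 41) (nat_lit 229)) (nd (nat_lit 232) (nat_lit 0) (cs (lf (nat_lit 11) (nat_lit 229)) (nd (nat_lit 211) (nat_lit 0) (cs (lf (nat_lit 17) (nat_lit 208)) (nd (nat_lit 255) (nat_lit 0) (cs (lf (nat_lit 5) (nat_lit 230)) (nd (nat_lit 210) (nat_lit 0) (cs (rf (nat_lit 15)) (lf (nat_lit 31) (nat_lit 209)))))))))))))))) (cs (nd (nat_lit 295) (nat_lit 0) (cs (lf (nat_lit 41) (nat_lit 229)) (rf (nat_lit 16)))) (cs (nd (nat_lit 208) (nat_lit 0) (cs (rf (nat_lit 17)) (cs (rf (nat_lit 18)) (cs (rf (nat_lit 19)) (nd (nat_lit 297) (nat_lit 0) (cs (lf (nat_lit 29) (nat_lit 230)) (nd (nat_lit 231) (nat_lit 0) (cs (lf (nat_lit 35) (nat_lit 208)) (rf (nat_lit 20)))))))))) (nd (nat_lit 295) (nat_lit 0) (cs (lf (nat_lit 41) (nat_lit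 229)) (nd (nat_lit 209) (nat_lit 0) (cs (lf (nat_lit 34) (nat_lit 208)) (rf (nat_lit 21)))))))))))))) (cs (rf (nat_lit 22)) (nd (nat_lit 232) (nat_lit 0) (cs (rf (nat_lit 23)) (cs (nd (nat_lit 251) (nat_lit 0) (cs (lf (nat_lit 15) (nat_lit 229)) (nd (nat_lit 231) (nat_lit 0) (cs (lf (nat_lit 12) (nat_lit 228)) (lf (nat_lit 9) (nat_lit 229)))))) (cs (nd (nat_lit 231) (nat_lit 0) (cs (lf (nat_lit 6) (nat_lit 230)) (rf (nat_lit 24)))) (nd (nat_lit 234) (nat_lit 0) (cs (lf (nat_lit 9) (nat_lit 230)) (nd (nat_lit 254) (nat_lit 0) (cs (lf (nat_lit 6) (nat_lit 231)) (lf (nat_lit 15) (nat_lit 230))))))))))))))) q86260 (by decide +kernel)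
def q87048 : Q := Q.p (nat_lit 0x3000008000000000000000000000000000000000000000000000000000000000) (nat_lit 0x500003e0001fc0006fc001ce001f60003fc000fb0000f00003c00001000000000000000000000000000000) (nat_lit 15)
theorem c87048 : QOK q87048 := cut [q86313, q86623, q86631, q86932, q87016, q82300, q84406, q85185, q87017, q7464, q80823, q86802, q87022, q82337, q2179, q2394, q84557, q87042] ⟨c86313, c86623, c86631, c86932, c87016, c82300, c84406, c85185, c87017, c7464, c80823, c86802, c87022, c82337, c2179, c2394, c84557, c87042, trivial⟩ (nd (nat_lit 232) (nat_lit 0) (cs (rf (nat_lit 0)) (cs (rf (nat_lit 1)) (cs (rf (nat_lit 2)) (cs (rf (nat_lit 3)) (nd (nat_lit 275) (nat_lit 0) (cs (rf (nat_lit 4)) (cs (nd (nat_lit 209) (nat_lit 0) (cs (rf (nat_lit 5)) (cs (rf (nat_lit 6)) (cs (rf (nat_lit 7)) (cs (nd (nat_lit 250) (nat_lit 0) (cs (lf (nat_lit 13) (nat_lit 228)) (nd (nat_lit 188) (nat_lit 0) (cs (lf (nat_lit 34)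 (nat_lit 187)) (nd (nat_lit 187) (nat_lit 0) (cs (lf (nat_lit 35) (nat_lit 165)) (rf (nat_lit 8)))))))) (nd (nat_lit 210) (nat_lit 0) (cs (rf (nat_lit 9)) (nd (nat_lit 211) (nat_lit 0) (cs (rf (nat_lit 10)) (cs (rf (nat_lit 11)) (nd (nat_lit 273) (nat_lit 0) (cs (rf (nat_lit 12)) (cs (nd (nat_lit 229) (nat_lit 0) (cs (lf (nat_lit 13) (nat_lit 207)) (nd (nat_lit 251) (nat_lit 0) (cs (lf (nat_lit 12) (nat_lit 228)) (nd (nat_lit 272) (nat_lit 0) (cs (lf (nat_lit 6) (nat_lit 250)) (nd (nat_lit 270) (nat_lit 0) (cs (lf (nat_lit 13) (nat_lit 248)) (nd (nat_lit 207) (nat_lit 0) (cs (lf (nat_lit 41) (nat_lit 206)) (nd (nat_lit 206) (nat_lit 0) (cs (lf (nat_lit 47) (nat_lit 184)) (lf (nat_lit 2) (nat_lit 206)))))))))))))) (cs (nd (nat_lit 250) (nat_lit 0) (cs (lf (nat_lit 13) (nat_lit 228)) (nd (nat_lit 274) (nat_lit 0) (cs (lf (nat_lit 41) (nat_lit 208)) (nd (nat_lit 254) (nat_lit 0) (cs (lf (nat_lit 6) (nat_lit 251))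 (nd (nat_lit 230) (nat_lit 0) (cs (lf (nat_lit 12) (nat_lit 207)) (nd (nat_lit 208) (nat_lit 0) (cs (lf (nat_lit 41) (nat_lit 207)) (rf (nat_lit 13)))))))))))) (nd (nat_lit 229) (nat_lit 0) (cs (lf (nat_lit 13) (nat_lit 207)) (nd (nat_lit 250) (nat_lit 0) (cs (lf (nat_lit 13) (nat_lit 228)) (nd (nat_lit 274) (nat_lit 0) (cs (lf (nat_lit 41) (nat_lit 208)) (rf (nat_lit 14)))))))))))))))))))))) (nd (nat_lit 297) (nat_lit 0) (cs (rf (nat_lit 15)) (cs (rf (nat_lit 16)) (nd (nat_lit 250) (nat_lit 0) (cs (lf (nat_lit 13) (nat_lit 228)) (nd (nat_lit 296) (nat_lit 0) (cs (lf (nat_lit 41) (nat_lit 230)) (nd (nat_lit 274) (nat_lit 0) (cs (lf (nat_lit 36) (nat_lit 208)) (rf (nat_lit 17))))))))))))))))))) q87048 (by decide +kernel)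
def q87778 : Q := Q.p (nat_lit 0x3000004000000000000000000000000000000000000000000000000000000000) (nat_lit 0x300000c000000000fbc007fe000ffc000780001a00000000000000000000000000000000000) (nat_lit 11)
theorem c87778 : QOK q87778 := cut [q6259, q79029, q79066, q87244, q10803, q87238, q87243, q87776] ⟨c6259, c79029, c79066, c87244, c10803, c87238, c87243, c87776, trivial⟩ (nd (nat_lit 208) (nat_lit 0) (cs (rf (nat_lit 0)) (cs (rf (nat_lit 1)) (cs (rf (nat_lit 2)) (cs (rf (nat_lit 3)) (nd (nat_lit 209) (nat_lit 0) (cs (rf (nat_lit 4)) (cs (rf (nat_lit 5)) (cs (rf (nat_lit 6)) (rf (nat_lit 7))))))))))) q87778 (by decide +kernel)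
def q88200 : Q := Q.p (nat_lit 0x3000000000000000000000000000000000000000000000000000000000000000) (nat_lit 0x280000e00007e001ffc003ff801eff0018f800fff003ff800ffe001ff8005e80007000000000000000000000000000000) (nat_lit 19)
theorem c88200 : QOK q88200 := cut [q6259, q79029, q79066, q87244, q10803, q87238, q87243, q87498, q87942, q83959, q84102, q84153, q84157, q84163, q87975, q87128, q87199, q87201, q83736, q85742, q87416, q87418, q87422, q87424, q88010, q87205, q88020, q6561, q87130, q88065, q88081, q1411, q6887, q1156, q4006, q4032, q85717, q88084, q88087, q88088, q88089, q85403, q88100, q88105, q88111, q88114, q87165, q88122, q88188, q84155, q88014, q87163, q88198] ⟨c6259, c79029, c79066, c87244, c10803, c87238, c87243, c87498, c87942, c83959, c84102, c84153, c84157, c84163, c87975, c87128, c87199, c87201, c83736, c85742, c87416, c87418, c87422, c87424, c88010, c87205, c88020, c6561, c87130, c88065, c88081,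 c1411, c6887, c1156, c4006, c4032, c85717, c88084, c88087, c88088, c88089, c85403, c88100, c88105, c88111, c88114, c87165, c88122, c88188, c84155, c88014, c87163, c88198, trivial⟩ (nd (nat_lit 230) (nat_lit 0) (cs (nd (nat_lit 208) (nat_lit 0) (cs (rf (nat_lit 0)) (cs (rf (nat_lit 1)) (cs (rf (nat_lit 2)) (cs (rf (nat_lit 3)) (nd (nat_lit 209) (nat_lit 0) (cs (rf (nat_lit 4)) (cs (rf (nat_lit 5)) (cs (rf (nat_lit 6)) (rf (nat_lit 7))))))))))) (cs (rf (nat_lit 8)) (cs (nd (nat_lit 274) (nat_lit 0) (cs (rf (nat_lit 9)) (cs (rf (nat_lit 10)) (cs (rf (nat_lit 11)) (cs (rf (nat_lit 12)) (rf (nat_lit 13))))))) (cs (rf (nat_lit 14)) (cs (nd (nat_lit 208) (nat_lit 0) (cs (rf (nat_lit 1)) (cs (rf (nat_lit 15)) (cs (rf (nat_lit 16)) (cs (rf (nat_lit 17)) (nd (nat_lit 274) (nat_lit 0) (cs (rf (nat_lit 18)) (cs (rf (nat_lit 19)) (cs (rf (nat_lit 20)) (cs (nd (nat_lit 297) (nat_lit 0) (cs (lf (nat_lit 28) (nat_lit 208)) (nd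 (nat_lit 185) (nat_lit 0) (cs (lf (nat_lit 46) (nat_lit 185)) (rf (nat_lit 21)))))) (cs (rf (nat_lit 22)) (rf (nat_lit 23))))))))))))) (cs (rf (nat_lit 24)) (cs (nd (nat_lit 208) (nat_lit 0) (cs (rf (nat_lit 0)) (cs (rf (nat_lit 1)) (cs (rf (nat_lit 25)) (rf (nat_lit 26)))))) (cs (nd (nat_lit 208) (nat_lit 0) (cs (rf (nat_lit 27)) (cs (rf (nat_lit 1)) (cs (rf (nat_lit 28)) (rf (nat_lit 29)))))) (cs (rf (nat_lit 30)) (cs (nd (nat_lit 208) (nat_lit 0) (cs (rf (nat_lit 27)) (cs (rf (nat_lit 1)) (cs (rf (nat_lit 28)) (cs (nd (nat_lit 207) (nat_lit 0) (cs (rf (nat_lit 31)) (cs (rf (nat_lit 32)) (cs (nd (nat_lit 206) (nat_lit 0) (cs (rf (nat_lit 33)) (cs (rf (nat_lit 34)) (cs (rf (nat_lit 35)) (cs (rf (nat_lit 36)) (nd (nat_lit 209) (nat_lit 0) (cs (rf (nat_lit 37)) (cs (rf (nat_lit 38)) (cs (rf (nat_lit 39)) (nd (nat_lit 231) (nat_lit 0) (cs (lf (nat_lit 5) (nat_lit 206)) (rf (nat_lit 40))))))))))))) (nd (nat_lit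 229) (nat_lit 0) (cs (rf (nat_lit 41)) (cs (rf (nat_lit 42)) (cs (rf (nat_lit 43)) (rf (nat_lit 44)))))))))) (rf (nat_lit 45))))))) (cs (nd (nat_lit 208) (nat_lit 0) (cs (rf (nat_lit 27)) (cs (rf (nat_lit 2)) (cs (rf (nat_lit 46)) (cs (rf (nat_lit 26)) (rf (nat_lit 47))))))) (cs (rf (nat_lit 48)) (cs (nd (nat_lit 208) (nat_lit 0) (cs (rf (nat_lit 27)) (cs (rf (nat_lit 1)) (cs (rf (nat_lit 28)) (nd (nat_lit 274) (nat_lit 0) (cs (rf (nat_lit 49)) (cs (rf (nat_lit 20)) (cs (rf (nat_lit 23)) (rf (nat_lit 50)))))))))) (nd (nat_lit 208) (nat_lit 0) (cs (rf (nat_lit 0)) (cs (rf (nat_lit 27)) (cs (rf (nat_lit 51)) (cs (rf (nat_lit 29)) (rf (nat_lit 52))))))))))))))))))))) q88200 (by decide +kernel)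
def q88308 : Q := Q.p (nat_lit 0x3000000000000000000000000000000000000000000000000000000000000000) (nat_lit 0x400001c00007e000ff8003fe000ff8000ff0004f800fff003ff800fff0007e8001f00005800004000000000000000000000000) (nat_lit 17)
theorem c88308 : QOK q88308 := cut [q82247, q2624, q82275, q82353, q80881, q82280, q82368, q82288, q82291, q82377, q82380, q83684, q85576, q82659, q82198, q85418, q85421, q88301, q88302, q40773, q82253, q82387, q83665, q88305, q40738, q82311, q82718, q88307] ⟨c82247, c2624, c82275, c82353, c80881, c82280, c82368, c82288, c82291, c82377, c82380, c83684, c85576, c82659, c82198, c85418, c85421, c88301, c88302, c40773, c82253, c82387, c83665, c88305, c40738, c82311, c82718, c88307, trivial⟩ (nd (nat_lit 251) (nat_lit 0) (cs (rf (nat_lit 0)) (cs (nd (nat_lit 231) (nat_lit 0) (cs (rf (nat_lit 1)) (cs (rf (nat_lit 2)) (cs (rf (nat_lit 3)) (nd (nat_lit 274) (nat_lit 0) (cs (rf (nat_lit 4)) (cs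 (rf (nat_lit 5)) (cs (rf (nat_lit 6)) (nd (nat_lit 296) (nat_lit 0) (cs (lf (nat_lit 30) (nat_lit 230)) (nd (nat_lit 230) (nat_lit 0) (cs (rf (nat_lit 7)) (cs (rf (nat_lit 8)) (cs (rf (nat_lit 9)) (nd (nat_lit 249) (nat_lit 0) (cs (lf (nat_lit 13) (nat_lit 227)) (rf (nat_lit 10)))))))))))))))))) (cs (rf (nat_lit 11)) (cs (rf (nat_lit 12)) (cs (nd (nat_lit 273) (nat_lit 0) (cs (rf (nat_lit 13)) (cs (nd (nat_lit 229) (nat_lit 0) (cs (rf (nat_lit 14)) (cs (rf (nat_lit 15)) (rf (nat_lit 16))))) (cs (rf (nat_lit 17)) (rf (nat_lit 18)))))) (cs (nd (nat_lit 250) (nat_lit 0) (cs (rf (nat_lit 19)) (cs (rf (nat_lit 20)) (cs (rf (nat_lit 21)) (rf (nat_lit 22)))))) (cs (rf (nat_lit 23)) (cs (nd (nat_lit 250) (nat_lit 0) (cs (rf (nat_lit 24)) (cs (rf (nat_lit 25)) (rf (nat_lit 26))))) (rf (nat_lit 27))))))))))) q88308 (by decide +kernel)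
def q88661 : Q := Q.p (nat_lit 0x3000000000000000000000000000000000000000000000000000000000000000) (nat_lit 0x500001c0000fe001ff8007fe001ff800eff001cf800fff001ff8007de000768001400000000000000000000000000000000000) (nat_lit 18)
theorem c88661 : QOK q88661 := cut [q82195, q82247, q82315, q82185, q82256, q82272, q82394, q82402, q85583, q88305, q88307, q82580, q88302, q80583, q82565, q82543, q82626, q88619, q82198, q82584, q82405, q86700, q2624, q82275, q85222, q80881, q82280, q82300, q82301, q82309, q81477, q82357, q82378, q85212, q1563, q83915, q84215, q87372, q87376, q82377, q84221, q88647, q88653, q2623, q40738, q40773, q82253, q84284] ⟨c82195, c82247, c82315, c82185, c82256, c82272, c82394, c82402, c85583, c88305, c88307, c82580, c88302, c80583, c82565, c82543, c82626, c88619, c82198, c82584, c82405, c86700, c2624, c82275, c85222, c80881, c82280, c82300, c82301, c82309, c81477, c82357, c82378, c85212, c1563,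 c83915, c84215, c87372, c87376, c82377, c84221, c88647, c88653, c2623, c40738, c40773, c82253, c84284, trivial⟩ (nd (nat_lit 251) (nat_lit 0) (cs (rf (nat_lit 0)) (cs (rf (nat_lit 1)) (cs (rf (nat_lit 2)) (cs (nd (nat_lit 250) (nat_lit 0) (cs (rf (nat_lit 3)) (cs (rf (nat_lit 4)) (cs (rf (nat_lit 5)) (cs (rf (nat_lit 6)) (rf (nat_lit 7))))))) (cs (rf (nat_lit 8)) (cs (rf (nat_lit 9)) (cs (rf (nat_lit 10)) (cs (nd (nat_lit 273) (nat_lit 0) (cs (rf (nat_lit 11)) (cs (rf (nat_lit 12)) (cs (nd (nat_lit 295) (nat_lit 0) (cs (rf (nat_lit 13)) (cs (rf (nat_lit 14)) (nd (nat_lit 229) (nat_lit 0) (cs (rf (nat_lit 15)) (cs (rf (nat_lit 16)) (rf (nat_lit 17)))))))) (nd (nat_lit 229) (nat_lit 0) (cs (rf (nat_lit 18)) (cs (rf (nat_lit 19)) (nd (nat_lit 295) (nat_lit 0) (cs (rf (nat_lit 20)) (cs (rf (nat_lit 21)) (rf (nat_lit 17)))))))))))) (cs (nd (nat_lit 231) (nat_lit 0) (cs (rf (nat_lit 22)) (cs (rf (nat_lit 23)) (cs (rf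 (nat_lit 24)) (nd (nat_lit 274) (nat_lit 0) (cs (rf (nat_lit 25)) (cs (rf (nat_lit 26)) (cs (nd (nat_lit 209) (nat_lit 0) (cs (rf (nat_lit 27)) (cs (rf (nat_lit 28)) (cs (rf (nat_lit 29)) (nd (nat_lit 230) (nat_lit 0) (cs (nd (nat_lit 250) (nat_lit 0) (cs (lf (nat_lit 12) (nat_lit 227)) (nd (nat_lit 228) (nat_lit 0) (cs (lf (nat_lit 23) (nat_lit 227)) (nd (nat_lit 271) (nat_lit 0) (cs (lf (nat_lit 10) (nat_lit 249)) (nd (nat_lit 210) (nat_lit 0) (cs (lf (nat_lit 13) (nat_lit 206)) (nd (nat_lit 211) (nat_lit 0) (cs (lf (nat_lit 6) (nat_lit 208)) (nd (nat_lit 275) (nat_lit 0) (cs (lf (nat_lit 35) (nat_lit 187)) (rf (nat_lit 30)))))))))))))) (cs (nd (nat_lit 250) (nat_lit 0) (cs (lf (nat_lit 12) (nat_lit 227)) (nd (nat_lit 228) (nat_lit 0) (cs (lf (nat_lit 23) (nat_lit 227)) (nd (nat_lit 271) (nat_lit 0) (cs (lf (nat_lit 10) (nat_lit 249)) (nd (nat_lit 229) (nat_lit 0) (cs (lf (nat_lit 17) (nat_lit 206)) (rf (nat_lit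 31)))))))))) (cs (nd (nat_lit 208) (nat_lit 0) (cs (rf (nat_lit 32)) (rf (nat_lit 33)))) (nd (nat_lit 208) (nat_lit 0) (cs (rf (nat_lit 34)) (nd (nat_lit 250) (nat_lit 0) (cs (lf (nat_lit 12) (nat_lit 227)) (nd (nat_lit 228) (nat_lit 0) (cs (lf (nat_lit 23) (nat_lit 227)) (nd (nat_lit 273) (nat_lit 0) (cs (lf (nat_lit 41) (nat_lit 207)) (nd (nat_lit 206) (nat_lit 0) (cs (lf (nat_lit 24) (nat_lit 184)) (nd (nat_lit 205) (nat_lit 0) (cs (lf (nat_lit 2) (nat_lit 205)) (nd (nat_lit 272) (nat_lit 0) (cs (lf (nat_lit 11) (nat_lit 249)) (lf (nat_lit 47) (nat_lit 183)))))))))))))))))))))))) (nd (nat_lit 296) (nat_lit 0) (cs (rf (nat_lit 35)) (cs (rf (nat_lit 36)) (cs (rf (nat_lit 37)) (cs (rf (nat_lit 38)) (nd (nat_lit 230) (nat_lit 0) (cs (rf (nat_lit 39)) (cs (rf (nat_lit 40)) (cs (nd (nat_lit 229) (nat_lit 0) (cs (lf (nat_lit 47) (nat_lit 207)) (nd (nat_lit 297) (nat_lit 0) (cs (lf (nat_lit 29) (nat_lit 230)) (nd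 (nat_lit 275) (nat_lit 0) (cs (lf (nat_lit 47) (nat_lit 208)) (nd (nat_lit 250) (nat_lit 0) (cs (lf (nat_lit 0) (nat_lit 249)) (rf (nat_lit 41)))))))))) (cs (rf (nat_lit 42)) (nd (nat_lit 297) (nat_lit 0) (cs (lf (nat_lit 29) (nat_lit 230)) (nd (nat_lit 208) (nat_lit 0) (cs (lf (nat_lit 28) (nat_lit 208)) (rf (nat_lit 32)))))))))))))))))))))))) (nd (nat_lit 250) (nat_lit 0) (cs (rf (nat_lit 43)) (cs (rf (nat_lit 44)) (cs (rf (nat_lit 45)) (cs (rf (nat_lit 46)) (cs (rf (nat_lit 4)) (rf (nat_lit 47)))))))))))))))))) q88661 (by decide +kernel)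
def q88696 : Q := Q.p (nat_lit 0x3000000000000000000000000000000000000000000000000000000000000000) (nat_lit 0x400001e0000780001e000e7f003cf801fff0001f80007f0001e0000780000000000000000000000000000000000) (nat_lit 13)
theorem c88696 : QOK q88696 := cut [q83618, q85453, q85536, q85556, q85557, q85569, q82198, q82206, q5482, q11484, q80450, q85374, q82227, q82231, q82592, q82187, q85562, q3762, q11143, q88692, q85568, q85575, q88695] ⟨c83618, c85453, c85536, c85556, c85557, c85569, c82198, c82206, c5482, c11484, c80450, c85374, c82227, c82231, c82592, c82187, c85562, c3762, c11143, c88692, c85568, c85575, c88695, trivial⟩ (nd (nat_lit 251) (nat_lit 0) (cs (rf (nat_lit 0)) (cs (rf (nat_lit 1)) (cs (rf (nat_lit 2)) (cs (rf (nat_lit 3)) (cs (rf (nat_lit 4)) (cs (rf (nat_lit 5)) (cs (nd (nat_lit 229) (nat_lit 0) (cs (rf (nat_lit 6)) (cs (rf (nat_lit 7)) (cs (nd (nat_lit 207) (nat_lit 0) (cs (rf (nat_lit 8)) (cs (rf (nat_lit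 9)) (cs (rf (nat_lit 10)) (rf (nat_lit 11)))))) (nd (nat_lit 273) (nat_lit 0) (cs (rf (nat_lit 12)) (cs (rf (nat_lit 13)) (rf (nat_lit 14))))))))) (cs (nd (nat_lit 250) (nat_lit 0) (cs (rf (nat_lit 15)) (cs (rf (nat_lit 16)) (cs (nd (nat_lit 249) (nat_lit 0) (cs (rf (nat_lit 17)) (cs (rf (nat_lit 18)) (nd (nat_lit 226) (nat_lit 0) (cs (lf (nat_lit 22) (nat_lit 226)) (nd (nat_lit 248) (nat_lit 0) (cs (lf (nat_lit 23) (nat_lit 225)) (nd (nat_lit 229) (nat_lit 0) (cs (lf (nat_lit 17) (nat_lit 226)) (nd (nat_lit 273) (nat_lit 0) (cs (lf (nat_lit 5) (nat_lit 248)) (nd (nat_lit 272) (nat_lit 0) (cs (lf (nat_lit 0) (nat_lit 247)) (lf (nat_lit 6) (nat_lit 250))))))))))))))) (rf (nat_lit 19)))))) (cs (nd (nat_lit 250) (nat_lit 0) (cs (rf (nat_lit 20)) (cs (rf (nat_lit 21)) (rf (nat_lit 19))))) (rf (nat_lit 22)))))))))))) q88696 (by decide +kernel)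
def q88711 : Q := Q.p (nat_lit 0x3800000000000000000000000000000000000000000000000000000000000000) (nat_lit 0x100003c000ef8003c0001ffc000fe0003f00003c0000500000000000000000000000000000000000) (nat_lit 13)
theorem c88711 : QOK q88711 := cut [q82198, q82206, q5482, q11484, q80450, q82226, q82207, q82217, q85251, q82227, q82231, q80446, q82235] ⟨c82198, c82206, c5482, c11484, c80450, c82226, c82207, c82217, c85251, c82227, c82231, c80446, c82235, trivial⟩ (nd (nat_lit 229) (nat_lit 0) (cs (rf (nat_lit 0)) (cs (rf (nat_lit 1)) (cs (nd (nat_lit 207) (nat_lit 0) (cs (rf (nat_lit 2)) (cs (rf (nat_lit 3)) (cs (rf (nat_lit 4)) (cs (rf (nat_lit 5)) (nd (nat_lit 273) (nat_lit 0) (cs (rf (nat_lit 6)) (cs (rf (nat_lit 7)) (rf (nat_lit 8)))))))))) (nd (nat_lit 273) (nat_lit 0) (cs (rf (nat_lit 9)) (cs (rf (nat_lit 10)) (cs (nd (nat_lit 207) (nat_lit 0) (cs (rf (nat_lit 2)) (cs (rf (nat_lit 11)) (cs (rf (nat_lit 4)) (nd (nat_lit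 274) (nat_lit 0) (cs (lf (nat_lit 29) (nat_lit 207)) (nd (nat_lit 254) (nat_lit 0) (cs (lf (nat_lit 6) (nat_lit 251)) (nd (nat_lit 232) (nat_lit 0) (cs (lf (nat_lit 17) (nat_lit 229)) (nd (nat_lit 184) (nat_lit 0) (cs (lf (nat_lit 46) (nat_lit 184)) (nd (nat_lit 208) (nat_lit 0) (cs (lf (nat_lit 35) (nat_lit 185)) (nd (nat_lit 230) (nat_lit 0) (cs (lf (nat_lit 41) (nat_lit 207)) (nd (nat_lit 275) (nat_lit 0) (cs (lf (nat_lit 29) (nat_lit 208)) (rf (nat_lit 12)))))))))))))))))))) (nd (nat_lit 207) (nat_lit 0) (cs (rf (nat_lit 11)) (rf (nat_lit 6)))))))))))) q88711 (by decide +kernel)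
def q88931 : Q := Q.p (nat_lit 0x3000008000000000000000000000000000000000000000000000000000000000) (nat_lit 0x100001c0000780007f80000c0007400007e0001e0000700001400000000000000000000000000000000000) (nat_lit 12)
theorem c88931 : QOK q88931 := cut [q82300, q82301, q82309, q88914, q88918, q88921, q88930] ⟨c82300, c82301, c82309, c88914, c88918, c88921, c88930, trivial⟩ (nd (nat_lit 209) (nat_lit 0) (cs (rf (nat_lit 0)) (cs (rf (nat_lit 1)) (cs (rf (nat_lit 2)) (cs (nd (nat_lit 275) (nat_lit 0) (cs (rf (nat_lit 3)) (cs (rf (nat_lit 4)) (rf (nat_lit 5))))) (rf (nat_lit 6))))))) q88931 (by decide +kernel)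
def q89657 : Q := Q.p (nat_lit 0x3000000000000000000000000000000000000000000000000000000000000000) (nat_lit 0x80001fa000ff8007fe003fff007ff803fff00046001ff8003fe000ff8001f8000700001c000040000000000000000000000000) (nat_lit 17)
theorem c89657 : QOK q89657 := cut [q89291, q89489, q88933, q88941, q89527, q89530, q89582, q89585, q89587, q21908, q41536, q88946, q89597, q89600, q32034, q88936, q89353, q41956, q88939, q81477, q89612, q89613, q88950, q89621, q89622, q89623, q89626, q81211, q88940, q89394, q89650, q89654] ⟨c89291, c89489, c88933, c88941, c89527, c89530, c89582, c89585, c89587, c21908, c41536, c88946, c89597, c89600, c32034, c88936, c89353, c41956, c88939, c81477, c89612, c89613, c88950, c89621, c89622, c89623, c89626, c81211, c88940, c89394, c89650, c89654, trivial⟩ (nd (nat_lit 297) (nat_lit 0) (cs (rf (nat_lit 0)) (cs (rf (nat_lit 1)) (cs (nd (nat_lit 275) (nat_lit 0) (cs (rf (nat_lit 2)) (cs (rf (nat_lit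 3)) (cs (rf (nat_lit 4)) (rf (nat_lit 5)))))) (cs (nd (nat_lit 319) (nat_lit 0) (cs (rf (nat_lit 6)) (cs (nd (nat_lit 275) (nat_lit 0) (cs (rf (nat_lit 2)) (rf (nat_lit 7)))) (cs (nd (nat_lit 275) (nat_lit 0) (cs (lf (nat_lit 47) (nat_lit 230)) (rf (nat_lit 8)))) (cs (nd (nat_lit 275) (nat_lit 0) (cs (rf (nat_lit 9)) (cs (rf (nat_lit 10)) (rf (nat_lit 7))))) (cs (nd (nat_lit 275) (nat_lit 0) (cs (lf (nat_lit 47) (nat_lit 230)) (nd (nat_lit 232) (nat_lit 0) (cs (lf (nat_lit 34) (nat_lit 231)) (rf (nat_lit 11)))))) (cs (nd (nat_lit 275) (nat_lit 0) (cs (lf (nat_lit 47) (nat_lit 230)) (nd (nat_lit 232) (nat_lit 0) (cs (lf (nat_lit 34) (nat_lit 231)) (rf (nat_lit 12)))))) (nd (nat_lit 275) (nat_lit 0) (cs (lf (nat_lit 47) (nat_lit 230)) (rf (nat_lit 13))))))))))) (cs (nd (nat_lit 275) (nat_lit 0) (cs (rf (nat_lit 3)) (cs (nd (nat_lit 231) (nat_lit 0) (cs (rf (nat_lit 14)) (cs (rf (nat_lit 15)) (cs (rf (nat_lit 16))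 (nd (nat_lit 296) (nat_lit 0) (cs (lf (nat_lit 41) (nat_lit 230)) (nd (nat_lit 295) (nat_lit 0) (cs (rf (nat_lit 17)) (cs (rf (nat_lit 18)) (nd (nat_lit 230) (nat_lit 0) (cs (rf (nat_lit 19)) (nd (nat_lit 232) (nat_lit 0) (cs (lf (nat_lit 35) (nat_lit 209)) (nd (nat_lit 233) (nat_lit 0) (cs (lf (nat_lit 6) (nat_lit 230)) (nd (nat_lit 211) (nat_lit 0) (cs (lf (nat_lit 17) (nat_lit 208)) (nd (nat_lit 298) (nat_lit 0) (cs (lf (nat_lit 29) (nat_lit 231)) (nd (nat_lit 276) (nat_lit 0) (cs (lf (nat_lit 17) (nat_lit 273)) (lf (nat_lit 32) (nat_lit 210))))))))))))))))))))))) (cs (rf (nat_lit 20)) (rf (nat_lit 21)))))) (cs (nd (nat_lit 275) (nat_lit 0) (cs (rf (nat_lit 22)) (cs (rf (nat_lit 5)) (cs (rf (nat_lit 21)) (cs (rf (nat_lit 23)) (cs (rf (nat_lit 24)) (cs (rf (nat_lit 25)) (rf (nat_lit 26))))))))) (cs (nd (nat_lit 275) (nat_lit 0) (cs (rf (nat_lit 2)) (cs (rf (nat_lit 3)) (cs (rf (nat_lit 22)) (nd (nat_lit 231)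 (nat_lit 0) (cs (rf (nat_lit 27)) (cs (rf (nat_lit 28)) (cs (rf (nat_lit 16)) (nd (nat_lit 296) (nat_lit 0) (cs (lf (nat_lit 41) (nat_lit 230)) (rf (nat_lit 29)))))))))))) (cs (nd (nat_lit 275) (nat_lit 0) (cs (rf (nat_lit 2)) (cs (rf (nat_lit 3)) (cs (rf (nat_lit 4)) (rf (nat_lit 24)))))) (cs (nd (nat_lit 275) (nat_lit 0) (cs (rf (nat_lit 2)) (cs (rf (nat_lit 3)) (cs (rf (nat_lit 22)) (nd (nat_lit 231) (nat_lit 0) (cs (rf (nat_lit 27)) (cs (rf (nat_lit 28)) (cs (rf (nat_lit 16)) (rf (nat_lit 30)))))))))) (cs (nd (nat_lit 275) (nat_lit 0) (cs (rf (nat_lit 2)) (cs (rf (nat_lit 3)) (cs (rf (nat_lit 26)) (rf (nat_lit 31)))))) (nd (nat_lit 275) (nat_lit 0) (cs (rf (nat_lit 2)) (cs (rf (nat_lit 3)) (rf (nat_lit 23)))))))))))))))) q89657 (by decide +kernel)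
def q89753 : Q := Q.p (nat_lit 0x3800000000000000000000000000000000000000000000000000000000000000) (nat_lit 0x140003fe0007f0001fe0007e00004600037c0007c0003f00003c0000500000000000000000000000000000000000) (nat_lit 16)
theorem c89753 : QOK q89753 := cut [q2091, q84257, q89709, q5482, q11484, q80450, q89688, q89713, q89715, q89720, q89723, q89730, q89735, q82198, q89739] ⟨c2091, c84257, c89709, c5482, c11484, c80450, c89688, c89713, c89715, c89720, c89723, c89730, c89735, c82198, c89739, trivial⟩ (nd (nat_lit 275) (nat_lit 0) (cs (rf (nat_lit 0)) (cs (nd (nat_lit 229) (nat_lit 0) (cs (rf (nat_lit 1)) (cs (rf (nat_lit 2)) (nd (nat_lit 207) (nat_lit 0) (cs (rf (nat_lit 3)) (cs (rf (nat_lit 4)) (cs (rf (nat_lit 5)) (cs (rf (nat_lit 6)) (nd (nat_lit 273) (nat_lit 0) (cs (rf (nat_lit 7)) (cs (nd (nat_lit 274) (nat_lit 0) (cs (lf (nat_lit 29) (nat_lit 207)) (nd (nat_lit 249) (nat_lit 0) (cs (lf (nat_lit 1) (nat_lit 249))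 (nd (nat_lit 184) (nat_lit 0) (cs (lf (nat_lit 46) (nat_lit 184)) (rf (nat_lit 8)))))))) (cs (nd (nat_lit 184) (nat_lit 0) (cs (lf (nat_lit 46) (nat_lit 184)) (rf (nat_lit 9)))) (cs (nd (nat_lit 186) (nat_lit 0) (cs (lf (nat_lit 34) (nat_lit 185)) (nd (nat_lit 206) (nat_lit 0) (cs (lf (nat_lit 47) (nat_lit 184)) (nd (nat_lit 274) (nat_lit 0) (cs (lf (nat_lit 29) (nat_lit 207)) (nd (nat_lit 249) (nat_lit 0) (cs (lf (nat_lit 1) (nat_lit 249)) (nd (nat_lit 295) (nat_lit 0) (cs (lf (nat_lit 46) (nat_lit 206)) (rf (nat_lit 10)))))))))))) (nd (nat_lit 184) (nat_lit 0) (cs (lf (nat_lit 46) (nat_lit 184)) (rf (nat_lit 11))))))))))))))))) (cs (rf (nat_lit 12)) (nd (nat_lit 229) (nat_lit 0) (cs (rf (nat_lit 13)) (cs (rf (nat_lit 2)) (cs (rf (nat_lit 14)) (nd (nat_lit 207) (nat_lit 0) (cs (rf (nat_lit 3)) (cs (rf (nat_lit 4)) (cs (rf (nat_lit 5)) (cs (rf (nat_lit 6)) (nd (nat_lit 273) (nat_lit 0) (cs (rf (nat_lit 7)) (cs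 (rf (nat_lit 9)) (cs (rf (nat_lit 11)) (cs (nd (nat_lit 184) (nat_lit 0) (cs (lf (nat_lit 46) (nat_lit 184)) (nd (nat_lit 274) (nat_lit 0) (cs (lf (nat_lit 29) (nat_lit 207)) (nd (nat_lit 276) (nat_lit 0) (cs (lf (nat_lit 18) (nat_lit 251)) (nd (nat_lit 298) (nat_lit 0) (cs (lf (nat_lit 5) (nat_lit 273)) (nd (nat_lit 320) (nat_lit 0) (cs (lf (nat_lit 42) (nat_lit 253)) (rf (nat_lit 8)))))))))))) (nd (nat_lit 186) (nat_lit 0) (cs (lf (nat_lit 34) (nat_lit 185)) (nd (nat_lit 206) (nat_lit 0) (cs (lf (nat_lit 47) (nat_lit 184)) (nd (nat_lit 274) (nat_lit 0) (cs (lf (nat_lit 29) (nat_lit 207)) (nd (nat_lit 276) (nat_lit 0) (cs (lf (nat_lit 18) (nat_lit 251)) (nd (nat_lit 295) (nat_lit 0) (cs (lf (nat_lit 11) (nat_lit 272)) (lf (nat_lit 46) (nat_lit 206)))))))))))))))))))))))))))))) q89753 (by decide +kernel)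
def q90569 : Q := Q.p (nat_lit 0x3000000000000000000000000000000000000000000000000000000000000000) (nat_lit 0x20000380001f0001fe0007fc0004a0007fc003ff0007fc0007f0000f00000000000000000000000000000000000) (nat_lit 16)
theorem c90569 : QOK q90569 := cut [q90321, q90342, q87523, q90370, q90443, q90451, q87953, q90442, q90465, q90482, q6259, q87201, q90341, q90262, q90325, q90334, q90488, q90491, q3991, q6561, q90265, q10803, q90501, q90511, q90512, q90518, q90522, q90526, q79029, q79066, q90525, q79049, q84155, q90536, q90548, q88018, q90322, q90331, q90555, q90558, q90319, q90320, q90565, q90264, q90521] ⟨c90321, c90342, c87523, c90370, c90443, c90451, c87953, c90442, c90465, c90482, c6259, c87201, c90341, c90262, c90325, c90334, c90488, c90491, c3991, c6561, c90265, c10803, c90501, c90511, c90512, c90518, c90522, c90526, c79029, c79066, c90525, c79049, c84155, c90536, c90548, c88018, c90322, c90331, c90555, c90558,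 c90319, c90320, c90565, c90264, c90521, trivial⟩ (nd (nat_lit 230) (nat_lit 0) (cs (rf (nat_lit 0)) (cs (rf (nat_lit 1)) (cs (nd (nat_lit 229) (nat_lit 0) (cs (rf (nat_lit 2)) (cs (rf (nat_lit 3)) (cs (rf (nat_lit 4)) (cs (nd (nat_lit 228) (nat_lit 0) (cs (lf (nat_lit 0) (nat_lit 227)) (nd (nat_lit 231) (nat_lit 0) (cs (lf (nat_lit 5) (nat_lit 228)) (rf (nat_lit 5)))))) (nd (nat_lit 231) (nat_lit 0) (cs (rf (nat_lit 6)) (cs (rf (nat_lit 7)) (cs (nd (nat_lit 228) (nat_lit 0) (cs (lf (nat_lit 0) (nat_lit 227)) (rf (nat_lit 5)))) (rf (nat_lit 8))))))))))) (cs (rf (nat_lit 9)) (cs (nd (nat_lit 208) (nat_lit 0) (cs (rf (nat_lit 10)) (cs (rf (nat_lit 11)) (cs (rf (nat_lit 12)) (cs (nd (nat_lit 274) (nat_lit 0) (cs (rf (nat_lit 13)) (cs (rf (nat_lit 14)) (cs (rf (nat_lit 15)) (nd (nat_lit 185) (nat_lit 0) (cs (lf (nat_lit 46) (nat_lit 185)) (rf (nat_lit 16)))))))) (rf (nat_lit 17))))))) (cs (nd (nat_lit 208) (nat_lit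 0) (cs (rf (nat_lit 18)) (cs (rf (nat_lit 10)) (cs (rf (nat_lit 19)) (cs (rf (nat_lit 20)) (nd (nat_lit 209) (nat_lit 0) (cs (rf (nat_lit 21)) (cs (rf (nat_lit 22)) (cs (rf (nat_lit 23)) (nd (nat_lit 274) (nat_lit 0) (cs (lf (nat_lit 35) (nat_lit 186)) (nd (nat_lit 185) (nat_lit 0) (cs (lf (nat_lit 46) (nat_lit 185)) (rf (nat_lit 24))))))))))))))) (cs (rf (nat_lit 25)) (cs (nd (nat_lit 208) (nat_lit 0) (cs (rf (nat_lit 18)) (cs (rf (nat_lit 10)) (cs (rf (nat_lit 19)) (cs (rf (nat_lit 20)) (rf (nat_lit 26))))))) (cs (rf (nat_lit 27)) (cs (nd (nat_lit 208) (nat_lit 0) (cs (rf (nat_lit 10)) (cs (rf (nat_lit 28)) (cs (rf (nat_lit 29)) (cs (rf (nat_lit 30)) (nd (nat_lit 274) (nat_lit 0) (cs (rf (nat_lit 31)) (cs (rf (nat_lit 32)) (cs (rf (nat_lit 15)) (rf (nat_lit 33))))))))))) (cs (rf (nat_lit 34)) (cs (nd (nat_lit 208) (nat_lit 0) (cs (rf (nat_lit 18)) (cs (rf (nat_lit 10)) (cs (rf (nat_lit 19)) (cs (rf (nat_lit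 20)) (nd (nat_lit 274) (nat_lit 0) (cs (nd (nat_lit 273) (nat_lit 0) (cs (lf (nat_lit 41) (nat_lit 207)) (nd (nat_lit 187) (nat_lit 0) (cs (lf (nat_lit 34) (nat_lit 186)) (rf (nat_lit 35)))))) (cs (rf (nat_lit 13)) (cs (rf (nat_lit 36)) (cs (rf (nat_lit 37)) (cs (rf (nat_lit 38)) (rf (nat_lit 39))))))))))))) (cs (nd (nat_lit 229) (nat_lit 0) (cs (rf (nat_lit 2)) (cs (rf (nat_lit 40)) (cs (rf (nat_lit 41)) (rf (nat_lit 42)))))) (nd (nat_lit 208) (nat_lit 0) (cs (rf (nat_lit 18)) (cs (rf (nat_lit 10)) (cs (rf (nat_lit 19)) (cs (rf (nat_lit 20)) (nd (nat_lit 274) (nat_lit 0) (cs (rf (nat_lit 43)) (cs (rf (nat_lit 44)) (cs (rf (nat_lit 33)) (rf (nat_lit 39))))))))))))))))))))))))) q90569 (by decide +kernel)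
def q90749 : Q := Q.p (nat_lit 0x3000000000000000000000000000000000000000000000000000000000000000) (nat_lit 0x300001e0003fe000ffe003ff0007fe0004e0007fc000ec0003f00007c0001500000000000000000000000000000000000) (nat_lit 17)
theorem c90749 : QOK q90749 := cut [q90570, q90576, q90600, q90615, q90633, q2091, q89876, q15386, q88741, q90635, q90638, q82274, q87016, q89735, q88302, q89798, q90621, q86907, q90083, q90619, q83646, q90617, q90701, q90707, q90735, q89612, q89623, q90674, q90688, q90296, q90612, q82300, q87351, q90745] ⟨c90570, c90576, c90600, c90615, c90633, c2091, c89876, c15386, c88741, c90635, c90638, c82274, c87016, c89735, c88302, c89798, c90621, c86907, c90083, c90619, c83646, c90617, c90701, c90707, c90735, c89612, c89623, c90674, c90688, c90296, c90612, c82300, c87351, c90745, trivial⟩ (nd (nat_lit 275) (nat_lit 0) (cs (rf (nat_lit 0)) (cs (rf (nat_lit 1)) (cs (rf (nat_lit 2)) (cs (rf (nat_lit 3))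 (cs (rf (nat_lit 4)) (cs (nd (nat_lit 251) (nat_lit 0) (cs (rf (nat_lit 5)) (cs (rf (nat_lit 6)) (nd (nat_lit 276) (nat_lit 0) (cs (rf (nat_lit 7)) (cs (rf (nat_lit 8)) (nd (nat_lit 231) (nat_lit 0) (cs (rf (nat_lit 9)) (cs (rf (nat_lit 10)) (nd (nat_lit 232) (nat_lit 0) (cs (rf (nat_lit 11)) (rf (nat_lit 12))))))))))))) (cs (nd (nat_lit 251) (nat_lit 0) (cs (rf (nat_lit 5)) (cs (rf (nat_lit 13)) (cs (rf (nat_lit 6)) (nd (nat_lit 273) (nat_lit 0) (cs (rf (nat_lit 14)) (cs (rf (nat_lit 15)) (cs (rf (nat_lit 16)) (nd (nat_lit 295) (nat_lit 0) (cs (rf (nat_lit 17)) (cs (rf (nat_lit 18)) (cs (rf (nat_lit 19)) (cs (nd (nat_lit 317) (nat_lit 0) (cs (lf (nat_lit 35) (nat_lit 229)) (nd (nat_lit 316) (nat_lit 0) (cs (lf (nat_lit 41) (nat_lit 250)) (nd (nat_lit 274) (nat_lit 0) (cs (lf (nat_lit 30) (nat_lit 251)) (nd (nat_lit 271) (nat_lit 0) (cs (lf (nat_lit 13) (nat_lit 249)) (nd (nat_lit 276) (nat_lit 0) (cs (lf (nat_lit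 18) (nat_lit 251)) (rf (nat_lit 20)))))))))))) (nd (nat_lit 317) (nat_lit 0) (cs (lf (nat_lit 35) (nat_lit 229)) (nd (nat_lit 318) (nat_lit 0) (cs (lf (nat_lit 29) (nat_lit 251)) (nd (nat_lit 229) (nat_lit 0) (cs (lf (nat_lit 28) (nat_lit 229)) (nd (nat_lit 206) (nat_lit 0) (cs (lf (nat_lit 46) (nat_lit 206)) (nd (nat_lit 184) (nat_lit 0) (cs (lf (nat_lit 45) (nat_lit 184)) (rf (nat_lit 21))))))))))))))))))))))))) (cs (rf (nat_lit 22)) (cs (rf (nat_lit 23)) (cs (rf (nat_lit 24)) (nd (nat_lit 251) (nat_lit 0) (cs (rf (nat_lit 5)) (cs (rf (nat_lit 13)) (cs (rf (nat_lit 6)) (nd (nat_lit 297) (nat_lit 0) (cs (rf (nat_lit 25)) (cs (rf (nat_lit 26)) (cs (rf (nat_lit 27)) (cs (rf (nat_lit 28)) (nd (nat_lit 231) (nat_lit 0) (cs (rf (nat_lit 29)) (cs (rf (nat_lit 30)) (cs (nd (nat_lit 298) (nat_lit 0) (cs (lf (nat_lit 29) (nat_lit 231)) (nd (nat_lit 209) (nat_lit 0) (cs (lf (nat_lit 28) (nat_lit 209)) (rf (nat_lit 31))))))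 (cs (nd (nat_lit 296) (nat_lit 0) (cs (lf (nat_lit 41) (nat_lit 230)) (nd (nat_lit 274) (nat_lit 0) (cs (lf (nat_lit 36) (nat_lit 208)) (nd (nat_lit 276) (nat_lit 0) (cs (lf (nat_lit 18) (nat_lit 251)) (nd (nat_lit 295) (nat_lit 0) (cs (lf (nat_lit 12) (nat_lit 272)) (nd (nat_lit 230) (nat_lit 0) (cs (lf (nat_lit 41) (nat_lit 229)) (nd (nat_lit 232) (nat_lit 0) (cs (lf (nat_lit 6) (nat_lit 229)) (rf (nat_lit 32)))))))))))))) (rf (nat_lit 33))))))))))))))))))))))))))) q90749 (by decide +kernel)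
def q90831 : Q := Q.p (nat_lit 0x800003000000000000000000000000000000000000000000000000000000000000000) (nat_lit 0x40000700001e00006800017c0004e0007dc00050000140000000000000000000000000000000000000000000000) (nat_lit 10)
theorem c90831 : QOK q90831 := cut [q88933, q88941, q89530, q90830] ⟨c88933, c88941, c89530, c90830, trivial⟩ (nd (nat_lit 297) (nat_lit 0) (cs (rf (nat_lit 0)) (cs (rf (nat_lit 1)) (cs (rf (nat_lit 2)) (rf (nat_lit 3)))))) q90831 (by decide +kernel)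
def q91141 : Q := Q.p (nat_lit 0x3000000000000000000000000000000000000000000000000000000000000000) (nat_lit 0x300001c0003fe000ff8003fe0007fc0004e0007e0000f80003e0000700001400000000000000000000000000000000000) (nat_lit 15)
theorem c91141 : QOK q91141 := cut [q90576, q90615, q90866, q1999, q89735, q91081, q15386, q88741, q88302, q91084, q81451, q90588, q80583, q86851, q83647, q89797, q89819, q91110, q91112, q88933, q89622, q91111, q88941, q89626, q90658, q90661, q90669, q90846, q91114, q89798, q89804, q87096, q90860, q90628, q91117, q4419, q83734, q89621, q89623, q89653, q91138] ⟨c90576, c90615, c90866, c1999, c89735, c91081, c15386, c88741, c88302, c91084, c81451, c90588, c80583, c86851, c83647, c89797, c89819, c91110, c91112, c88933, c89622, c91111, c88941, c89626, c90658, c90661, c90669, c90846, c91114, c89798, c89804, c87096, c90860, c90628, c91117, c4419, c83734, c89621, c89623, c89653, c91138, trivial⟩ (nd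 (nat_lit 275) (nat_lit 0) (cs (rf (nat_lit 0)) (cs (rf (nat_lit 1)) (cs (rf (nat_lit 2)) (cs (nd (nat_lit 251) (nat_lit 0) (cs (rf (nat_lit 3)) (cs (rf (nat_lit 4)) (cs (rf (nat_lit 5)) (nd (nat_lit 276) (nat_lit 0) (cs (rf (nat_lit 6)) (cs (rf (nat_lit 7)) (nd (nat_lit 273) (nat_lit 0) (cs (rf (nat_lit 8)) (cs (rf (nat_lit 9)) (cs (nd (nat_lit 274) (nat_lit 0) (cs (rf (nat_lit 10)) (rf (nat_lit 11)))) (nd (nat_lit 295) (nat_lit 0) (cs (rf (nat_lit 12)) (cs (rf (nat_lit 13)) (cs (nd (nat_lit 294) (nat_lit 0) (cs (lf (nat_lit 8) (nat_lit 272)) (nd (nat_lit 229) (nat_lit 0) (cs (lf (nat_lit 41) (nat_lit 228)) (nd (nat_lit 208) (nat_lit 0) (cs (lf (nat_lit 34) (nat_lit 207)) (nd (nat_lit 207) (nat_lit 0) (cs (lf (nat_lit 35) (nat_lit 185)) (lf (nat_lit 40) (nat_lit 206)))))))))) (nd (nat_lit 274) (nat_lit 0) (cs (lf (nat_lit 11) (nat_lit 272)) (rf (nat_lit 14))))))))))))))))))) (cs (nd (nat_lit 251) (nat_lit 0)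 (cs (rf (nat_lit 3)) (cs (rf (nat_lit 4)) (cs (rf (nat_lit 15)) (rf (nat_lit 16)))))) (cs (rf (nat_lit 17)) (cs (rf (nat_lit 18)) (cs (nd (nat_lit 297) (nat_lit 0) (cs (rf (nat_lit 19)) (cs (rf (nat_lit 20)) (rf (nat_lit 21))))) (cs (nd (nat_lit 297) (nat_lit 0) (cs (rf (nat_lit 19)) (cs (rf (nat_lit 22)) (cs (rf (nat_lit 23)) (nd (nat_lit 296) (nat_lit 0) (cs (rf (nat_lit 24)) (cs (rf (nat_lit 25)) (cs (rf (nat_lit 26)) (cs (rf (nat_lit 27)) (rf (nat_lit 28))))))))))) (cs (nd (nat_lit 251) (nat_lit 0) (cs (rf (nat_lit 3)) (cs (rf (nat_lit 4)) (cs (rf (nat_lit 5)) (nd (nat_lit 273) (nat_lit 0) (cs (rf (nat_lit 8)) (cs (rf (nat_lit 29)) (cs (rf (nat_lit 30)) (nd (nat_lit 230) (nat_lit 0) (cs (rf (nat_lit 31)) (cs (rf (nat_lit 32)) (nd (nat_lit 274) (nat_lit 0) (cs (rf (nat_lit 33)) (cs (nd (nat_lit 297) (nat_lit 0) (cs (lf (nat_lit 42) (nat_lit 230)) (nd (nat_lit 276) (nat_lit 0) (cs (lf (nat_lit 18) (nat_lit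 251)) (nd (nat_lit 272) (nat_lit 0) (cs (lf (nat_lit 12) (nat_lit 249)) (nd (nat_lit 294) (nat_lit 0) (cs (lf (nat_lit 11) (nat_lit 271)) (nd (nat_lit 316) (nat_lit 0) (cs (lf (nat_lit 30) (nat_lit 250)) (nd (nat_lit 229) (nat_lit 0) (cs (lf (nat_lit 36) (nat_lit 206)) (nd (nat_lit 296) (nat_lit 0) (cs (lf (nat_lit 42) (nat_lit 229)) (nd (nat_lit 231) (nat_lit 0) (cs (lf (nat_lit 35) (nat_lit 208)) (rf (nat_lit 34)))))))))))))))))) (nd (nat_lit 296) (nat_lit 0) (cs (rf (nat_lit 35)) (cs (rf (nat_lit 36)) (nd (nat_lit 271) (nat_lit 0) (cs (lf (nat_lit 13) (nat_lit 249)) (nd (nat_lit 295) (nat_lit 0) (cs (lf (nat_lit 41) (nat_lit 229)) (nd (nat_lit 231) (nat_lit 0) (cs (lf (nat_lit 35) (nat_lit 208)) (nd (nat_lit 297) (nat_lit 0) (cs (lf (nat_lit 29) (nat_lit 230)) (rf (nat_lit 34))))))))))))))))))))))))))) (cs (nd (nat_lit 297) (nat_lit 0) (cs (rf (nat_lit 19)) (cs (rf (nat_lit 22)) (rf (nat_lit 37))))) (nd (nat_lit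 297) (nat_lit 0) (cs (rf (nat_lit 22)) (cs (rf (nat_lit 38)) (nd (nat_lit 296) (nat_lit 0) (cs (rf (nat_lit 39)) (cs (rf (nat_lit 24)) (cs (rf (nat_lit 27)) (cs (rf (nat_lit 28)) (rf (nat_lit 40)))))))))))))))))))))) q91141 (by decide +kernel)
def q91238 : Q := Q.p (nat_lit 0x3000000000000000000000000000000000000000000000000000000000000000) (nat_lit 0xb00003e0003fe000ffc003ff8007ff0004e0007dc000f40003d0000700001400000000000000000000000000000000000) (nat_lit 14)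
theorem c91238 : QOK q91238 := cut [q90570, q90576, q90615, q90707, q90864, q91110, q91112, q88742, q88915, q91098, q91101, q87021, q90588, q91206, q91084, q2180, q88933, q89612, q89623, q2091, q89735, q83680, q91218, q14897, q91225, q88302, q89798, q80583, q55779, q88741, q90857, q14470, q89807, q89817, q91236, q88941, q88950, q90830] ⟨c90570, c90576, c90615, c90707, c90864, c91110, c91112, c88742, c88915, c91098, c91101, c87021, c90588, c91206, c91084, c2180, c88933, c89612, c89623, c2091, c89735, c83680, c91218, c14897, c91225, c88302, c89798, c80583, c55779, c88741, c90857, c14470, c89807, c89817, c91236, c88941, c88950, c90830, trivial⟩ (nd (nat_lit 275) (nat_lit 0) (cs (rf (nat_lit 0)) (cs (rf (nat_lit 1)) (cs (rf (nat_lit 2)) (cs (rf (nat_lit 3)) (cs (rf (nat_lit 4)) (cs (rf (nat_lit 5)) (cs (rf (nat_lit 6)) (cs (nd (nat_lit 276) (nat_lit 0) (cs (rf (nat_lit 7)) (cs (rf (nat_lit 8)) (cs (nd (nat_lit 274)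 (nat_lit 0) (cs (rf (nat_lit 9)) (cs (rf (nat_lit 10)) (nd (nat_lit 273) (nat_lit 0) (cs (rf (nat_lit 11)) (cs (rf (nat_lit 12)) (nd (nat_lit 298) (nat_lit 0) (cs (lf (nat_lit 5) (nat_lit 273)) (nd (nat_lit 320) (nat_lit 0) (cs (lf (nat_lit 42) (nat_lit 253)) (nd (nat_lit 209) (nat_lit 0) (cs (lf (nat_lit 25) (nat_lit 209)) (nd (nat_lit 271) (nat_lit 0) (cs (lf (nat_lit 13) (nat_lit 249)) (rf (nat_lit 13)))))))))))))))) (nd (nat_lit 273) (nat_lit 0) (cs (nd (nat_lit 251) (nat_lit 0) (cs (lf (nat_lit 0) (nat_lit 250)) (rf (nat_lit 14)))) (cs (nd (nat_lit 274) (nat_lit 0) (cs (rf (nat_lit 12)) (rf (nat_lit 13)))) (nd (nat_lit 274) (nat_lit 0) (cs (rf (nat_lit 15)) (rf (nat_lit 13))))))))))) (cs (nd (nat_lit 297) (nat_lit 0) (cs (rf (nat_lit 16)) (cs (rf (nat_lit 17)) (cs (rf (nat_lit 18)) (nd (nat_lit 251) (nat_lit 0) (cs (rf (nat_lit 19)) (cs (rf (nat_lit 20)) (cs (nd (nat_lit 272) (nat_lit 0) (cs (rf (nat_lit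 21)) (cs (rf (nat_lit 22)) (cs (nd (nat_lit 273) (nat_lit 0) (cs (lf (nat_lit 6) (nat_lit 250)) (nd (nat_lit 274) (nat_lit 0) (cs (lf (nat_lit 5) (nat_lit 272)) (nd (nat_lit 293) (nat_lit 0) (cs (lf (nat_lit 10) (nat_lit 271)) (nd (nat_lit 250) (nat_lit 0) (cs (lf (nat_lit 23) (nat_lit 249)) (nd (nat_lit 208) (nat_lit 0) (cs (lf (nat_lit 25) (nat_lit 208)) (rf (nat_lit 23)))))))))))) (rf (nat_lit 24)))))) (nd (nat_lit 273) (nat_lit 0) (cs (rf (nat_lit 25)) (cs (rf (nat_lit 26)) (cs (nd (nat_lit 295) (nat_lit 0) (cs (rf (nat_lit 27)) (cs (nd (nat_lit 317) (nat_lit 0) (cs (lf (nat_lit 35) (nat_lit 229)) (nd (nat_lit 318) (nat_lit 0) (cs (lf (nat_lit 29) (nat_lit 251)) (nd (nat_lit 316) (nat_lit 0) (cs (lf (nat_lit 41) (nat_lit 250)) (rf (nat_lit 28)))))))) (nd (nat_lit 276) (nat_lit 0) (cs (rf (nat_lit 29)) (rf (nat_lit 30))))))) (nd (nat_lit 274) (nat_lit 0) (cs (rf (nat_lit 31)) (cs (rf (nat_lit 32)) (rf (nat_lit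 33))))))))))))))))) (cs (rf (nat_lit 34)) (nd (nat_lit 297) (nat_lit 0) (cs (rf (nat_lit 16)) (cs (rf (nat_lit 35)) (cs (rf (nat_lit 36)) (rf (nat_lit 37))))))))))))))))) q91238 (by decide +kernel)
def q91561 : Q := Q.p (nat_lit 0x3000000000000000000000000000000000000000000000000000000000000000) (nat_lit 0x80003b0001fe0007ff0004f8007fe001ff0007fc0007e0001f00000000000000000000000000000000000) (nat_lit 17)
theorem c91561 : QOK q91561 := cut [q90518, q90526, q91488, q3991, q79029, q87165, q87166, q91492, q91494, q91516, q6259, q87201, q90341, q90491, q90262, q90334, q91518, q6561, q87523, q91525, q82198, q90345, q89833, q1081, q91542, q87133, q91547, q91554, q91556, q90265, q84155, q90519, q90555, q91489] ⟨c90518, c90526, c91488, c3991, c79029, c87165, c87166, c91492, c91494, c91516, c6259, c87201, c90341, c90491, c90262, c90334, c91518, c6561, c87523, c91525, c82198, c90345, c89833, c1081, c91542, c87133, c91547,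 c91554, c91556, c90265, c84155, c90519, c90555, c91489, trivial⟩ (nd (nat_lit 230) (nat_lit 0) (cs (rf (nat_lit 0)) (cs (rf (nat_lit 1)) (cs (rf (nat_lit 2)) (cs (nd (nat_lit 208) (nat_lit 0) (cs (rf (nat_lit 3)) (cs (rf (nat_lit 4)) (cs (rf (nat_lit 5)) (cs (rf (nat_lit 6)) (rf (nat_lit 7))))))) (cs (rf (nat_lit 8)) (cs (rf (nat_lit 9)) (cs (nd (nat_lit 208) (nat_lit 0) (cs (rf (nat_lit 10)) (cs (rf (nat_lit 11)) (cs (rf (nat_lit 12)) (cs (rf (nat_lit 13)) (nd (nat_lit 274) (nat_lit 0) (cs (rf (nat_lit 14)) (cs (rf (nat_lit 15)) (nd (nat_lit 185) (nat_lit 0) (cs (lf (nat_lit 46) (nat_lit 185)) (rf (nat_lit 16)))))))))))) (cs (nd (nat_lit 208) (nat_lit 0) (cs (rf (nat_lit 3)) (cs (rf (nat_lit 10)) (cs (rf (nat_lit 17)) (cs (nd (nat_lit 229) (nat_lit 0) (cs (rf (nat_lit 18)) (cs (rf (nat_lit 19)) (cs (nd (nat_lit 251) (nat_lit 0) (cs (rf (nat_lit 20)) (cs (rf (nat_lit 21)) (nd (nat_lit 250) (nat_lit 0) (cs (rf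 (nat_lit 22)) (cs (nd (nat_lit 272) (nat_lit 0) (cs (lf (nat_lit 11) (nat_lit 249)) (nd (nat_lit 273) (nat_lit 0) (cs (lf (nat_lit 30) (nat_lit 207)) (nd (nat_lit 294) (nat_lit 0) (cs (lf (nat_lit 30) (nat_lit 228)) (lf (nat_lit 36) (nat_lit 206)))))))) (nd (nat_lit 273) (nat_lit 0) (cs (lf (nat_lit 30) (nat_lit 207)) (nd (nat_lit 227) (nat_lit 0) (cs (rf (nat_lit 23)) (lf (nat_lit 1) (nat_lit 227)))))))))))) (cs (nd (nat_lit 228) (nat_lit 0) (cs (lf (nat_lit 0) (nat_lit 227)) (nd (nat_lit 231) (nat_lit 0) (cs (lf (nat_lit 5) (nat_lit 228)) (nd (nat_lit 249) (nat_lit 0) (cs (lf (nat_lit 10) (nat_lit 227)) (rf (nat_lit 24)))))))) (nd (nat_lit 228) (nat_lit 0) (cs (lf (nat_lit 0) (nat_lit 227)) (nd (nat_lit 231) (nat_lit 0) (cs (rf (nat_lit 25)) (cs (rf (nat_lit 24)) (rf (nat_lit 26)))))))))))) (rf (nat_lit 27))))))) (cs (rf (nat_lit 28)) (cs (nd (nat_lit 208) (nat_lit 0) (cs (rf (nat_lit 3)) (cs (rf (nat_lit 10))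 (cs (rf (nat_lit 17)) (cs (rf (nat_lit 29)) (nd (nat_lit 274) (nat_lit 0) (cs (rf (nat_lit 30)) (cs (rf (nat_lit 31)) (cs (rf (nat_lit 32)) (rf (nat_lit 33))))))))))) (nd (nat_lit 208) (nat_lit 0) (cs (rf (nat_lit 3)) (cs (rf (nat_lit 10)) (cs (rf (nat_lit 17)) (cs (rf (nat_lit 27)) (nd (nat_lit 274) (nat_lit 0) (cs (rf (nat_lit 15)) (cs (rf (nat_lit 31)) (rf (nat_lit 16))))))))))))))))))))) q91561 (by decide +kernel)
def q92236 : Q := Q.p (nat_lit 0x3000000000000000000000000000000000000000000000000000000000000000) (nat_lit 0x20000380000f00003e0003ff0004f8007fe001ff0007fc000fe0002f80000000000000000000000000000000000) (nat_lit 15)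
theorem c92236 : QOK q92236 := cut [q90342, q90518, q91494, q91516, q91556, q87523, q90319, q91515, q90246, q90266, q92154, q89833, q91505, q92156, q82198, q89839, q89836, q90370, q3991, q6259, q91525, q88848, q90345, q426, q84998, q90400, q90404, q90408, q92168, q90442, q90465, q91912, q91945, q92079, q87201, q90341, q90491, q79048, q90325, q92184, q92208, q6561, q90265, q10803, q87238, q92206, q1178, q917, q23510, q84155, q90488, q90555, q90558, q92234, q91554, q90334, q90521] ⟨c90342, c90518, c91494, c91516, c91556, c87523, c90319, c91515, c90246, c90266, c92154, c89833, c91505, c92156, c82198, c89839, c89836, c90370, c3991, c6259, c91525, c88848, c90345, c426, c84998, c90400, c90404, c90408, c92168, c90442, c90465, c91912, c91945, c92079, c87201, c90341, c90491, c79048, c90325, c92184, c92208, c6561, c90265, c10803, c87238, c92206, c1178, c917, c23510, c84155, c90488, c90555, c90558, c92234, c91554, c90334,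 c90521, trivial⟩ (nd (nat_lit 230) (nat_lit 0) (cs (rf (nat_lit 0)) (cs (rf (nat_lit 1)) (cs (rf (nat_lit 2)) (cs (rf (nat_lit 3)) (cs (rf (nat_lit 4)) (cs (nd (nat_lit 229) (nat_lit 0) (cs (rf (nat_lit 5)) (cs (rf (nat_lit 6)) (cs (rf (nat_lit 7)) (cs (nd (nat_lit 251) (nat_lit 0) (cs (rf (nat_lit 8)) (cs (rf (nat_lit 9)) (cs (rf (nat_lit 10)) (nd (nat_lit 250) (nat_lit 0) (cs (rf (nat_lit 11)) (cs (rf (nat_lit 12)) (rf (nat_lit 13))))))))) (cs (nd (nat_lit 251) (nat_lit 0) (cs (rf (nat_lit 14)) (cs (rf (nat_lit 15)) (rf (nat_lit 9))))) (nd (nat_lit 251) (nat_lit 0) (cs (rf (nat_lit 8)) (cs (rf (nat_lit 9)) (cs (rf (nat_lit 10)) (nd (nat_lit 250) (nat_lit 0) (cs (rf (nat_lit 16)) (cs (rf (nat_lit 12)) (rf (nat_lit 13))))))))))))))) (cs (nd (nat_lit 229) (nat_lit 0) (cs (rf (nat_lit 5)) (cs (rf (nat_lit 17)) (cs (nd (nat_lit 208) (nat_lit 0) (cs (rf (nat_lit 18)) (cs (rf (nat_lit 19)) (cs (rf (nat_lit 20)) (nd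 (nat_lit 251) (nat_lit 0) (cs (rf (nat_lit 21)) (cs (rf (nat_lit 22)) (nd (nat_lit 231) (nat_lit 0) (cs (rf (nat_lit 23)) (nd (nat_lit 209) (nat_lit 0) (cs (rf (nat_lit 24)) (cs (rf (nat_lit 25)) (cs (rf (nat_lit 26)) (rf (nat_lit 27))))))))))))))) (cs (nd (nat_lit 228) (nat_lit 0) (cs (lf (nat_lit 0) (nat_lit 227)) (nd (nat_lit 231) (nat_lit 0) (cs (lf (nat_lit 5) (nat_lit 228)) (nd (nat_lit 249) (nat_lit 0) (cs (lf (nat_lit 10) (nat_lit 227)) (nd (nat_lit 205) (nat_lit 0) (cs (lf (nat_lit 22) (nat_lit 205)) (nd (nat_lit 209) (nat_lit 0) (cs (lf (nat_lit 17) (nat_lit 206)) (nd (nat_lit 187) (nat_lit 0) (cs (lf (nat_lit 36) (nat_lit 164)) (rf (nat_lit 28)))))))))))))) (nd (nat_lit 231) (nat_lit 0) (cs (rf (nat_lit 29)) (cs (rf (nat_lit 30)) (cs (rf (nat_lit 31)) (cs (nd (nat_lit 228) (nat_lit 0) (cs (lf (nat_lit 0) (nat_lit 227)) (rf (nat_lit 32)))) (rf (nat_lit 33)))))))))))) (cs (nd (nat_lit 208) (nat_lit 0)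 (cs (rf (nat_lit 19)) (cs (rf (nat_lit 34)) (cs (rf (nat_lit 35)) (cs (rf (nat_lit 36)) (nd (nat_lit 274) (nat_lit 0) (cs (rf (nat_lit 37)) (cs (rf (nat_lit 38)) (nd (nat_lit 185) (nat_lit 0) (cs (lf (nat_lit 46) (nat_lit 185)) (rf (nat_lit 39)))))))))))) (cs (rf (nat_lit 40)) (cs (nd (nat_lit 208) (nat_lit 0) (cs (rf (nat_lit 18)) (cs (rf (nat_lit 19)) (cs (rf (nat_lit 41)) (cs (rf (nat_lit 42)) (nd (nat_lit 209) (nat_lit 0) (cs (rf (nat_lit 43)) (cs (rf (nat_lit 44)) (cs (rf (nat_lit 45)) (nd (nat_lit 229) (nat_lit 0) (cs (rf (nat_lit 46)) (cs (rf (nat_lit 5)) (nd (nat_lit 210) (nat_lit 0) (cs (lf (nat_lit 6) (nat_lit 207)) (nd (nat_lit 207) (nat_lit 0) (cs (rf (nat_lit 47)) (rf (nat_lit 48)))))))))))))))))) (cs (nd (nat_lit 208) (nat_lit 0) (cs (rf (nat_lit 18)) (cs (rf (nat_lit 19)) (cs (rf (nat_lit 41)) (cs (rf (nat_lit 42)) (nd (nat_lit 274) (nat_lit 0) (cs (rf (nat_lit 49)) (cs (rf (nat_lit 50)) (cs (rf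 (nat_lit 51)) (rf (nat_lit 52))))))))))) (cs (rf (nat_lit 53)) (nd (nat_lit 208) (nat_lit 0) (cs (rf (nat_lit 18)) (cs (rf (nat_lit 19)) (cs (rf (nat_lit 41)) (cs (rf (nat_lit 54)) (nd (nat_lit 274) (nat_lit 0) (cs (rf (nat_lit 55)) (cs (rf (nat_lit 50)) (cs (rf (nat_lit 56)) (rf (nat_lit 39)))))))))))))))))))))))) q92236 (by decide +kernel)
def q93284 : Q := Q.p (nat_lit 0x3000000000000000000000000000000000000000000000000000000000000000) (nat_lit 0x300007f8001fe001df8007c6003ffc00fff001ffc00fff0007e00000000000000000000000000000000000) (nat_lit 18)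
theorem c93284 : QOK q93284 := cut [q92763, q92796, q92918, q92966, q92712, q92728, q87207, q92731, q22271, q79996, q87526, q92724, q92997, q82300, q82301, q82309, q1563, q2990, q93004, q93005, q93014, q93158, q93177, q93239, q91187, q92792, q92783, q93010, q93181, q119, q85200, q85203, q84409, q91298, q91300, q93011, q93250, q92713, q93255, q93273, q92707, q92710, q17544, q82279, q93140, q93156, q93259, q93265, q2938, q92998, q85001, q85033] ⟨c92763, c92796, c92918, c92966, c92712, c92728, c87207, c92731, c22271, c79996, c87526, c92724, c92997, c82300, c82301, c82309, c1563, c2990, c93004, c93005, c93014, c93158, c93177, c93239, c91187, c92792, c92783, c93010, c93181, c119, c85200, c85203, c84409, c91298, c91300, c93011, c93250, c92713, c93255, c93273, c92707, c92710, c17544, c82279, c93140, c93156, c93259, c93265, c2938, c92998, c85001, c85033, trivial⟩ (nd (nat_lit 231) (nat_lit 0) (cs (rf (nat_lit 0)) (cs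 (rf (nat_lit 1)) (cs (rf (nat_lit 2)) (cs (rf (nat_lit 3)) (cs (nd (nat_lit 230) (nat_lit 0) (cs (rf (nat_lit 4)) (cs (rf (nat_lit 5)) (cs (nd (nat_lit 274) (nat_lit 0) (cs (rf (nat_lit 6)) (rf (nat_lit 7)))) (cs (nd (nat_lit 274) (nat_lit 0) (cs (rf (nat_lit 6)) (nd (nat_lit 208) (nat_lit 0) (cs (rf (nat_lit 8)) (rf (nat_lit 9)))))) (nd (nat_lit 208) (nat_lit 0) (cs (rf (nat_lit 9)) (cs (rf (nat_lit 10)) (rf (nat_lit 11)))))))))) (cs (rf (nat_lit 12)) (cs (nd (nat_lit 209) (nat_lit 0) (cs (rf (nat_lit 13)) (cs (rf (nat_lit 14)) (cs (rf (nat_lit 15)) (cs (nd (nat_lit 208) (nat_lit 0) (cs (rf (nat_lit 16)) (cs (rf (nat_lit 17)) (cs (rf (nat_lit 18)) (rf (nat_lit 19)))))) (rf (nat_lit 20))))))) (cs (rf (nat_lit 21)) (cs (rf (nat_lit 22)) (cs (rf (nat_lit 23)) (cs (nd (nat_lit 209) (nat_lit 0) (cs (rf (nat_lit 15)) (cs (rf (nat_lit 24)) (cs (rf (nat_lit 25)) (cs (nd (nat_lit 275) (nat_lit 0) (cs (rf (nat_lit 26))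 (cs (rf (nat_lit 27)) (cs (rf (nat_lit 28)) (cs (nd (nat_lit 208) (nat_lit 0) (cs (lf (nat_lit 47) (nat_lit 186)) (nd (nat_lit 207) (nat_lit 0) (cs (rf (nat_lit 29)) (cs (nd (nat_lit 276) (nat_lit 0) (cs (lf (nat_lit 29) (nat_lit 209)) (rf (nat_lit 30)))) (nd (nat_lit 276) (nat_lit 0) (cs (lf (nat_lit 29) (nat_lit 209)) (rf (nat_lit 31))))))))) (nd (nat_lit 274) (nat_lit 0) (cs (lf (nat_lit 41) (nat_lit 208)) (nd (nat_lit 208) (nat_lit 0) (cs (lf (nat_lit 47) (nat_lit 186)) (nd (nat_lit 230) (nat_lit 0) (cs (lf (nat_lit 42) (nat_lit 208)) (rf (nat_lit 32))))))))))))) (nd (nat_lit 186) (nat_lit 0) (cs (rf (nat_lit 33)) (cs (rf (nat_lit 34)) (rf (nat_lit 35)))))))))) (cs (nd (nat_lit 209) (nat_lit 0) (cs (rf (nat_lit 13)) (cs (rf (nat_lit 14)) (cs (rf (nat_lit 15)) (cs (nd (nat_lit 208) (nat_lit 0) (cs (rf (nat_lit 16)) (cs (rf (nat_lit 18)) (cs (rf (nat_lit 36)) (nd (nat_lit 230) (nat_lit 0) (cs (rf (nat_lit 37))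 (cs (rf (nat_lit 5)) (nd (nat_lit 275) (nat_lit 0) (cs (lf (nat_lit 42) (nat_lit 208)) (nd (nat_lit 274) (nat_lit 0) (cs (lf (nat_lit 41) (nat_lit 208)) (rf (nat_lit 32))))))))))))) (rf (nat_lit 38))))))) (cs (rf (nat_lit 39)) (cs (nd (nat_lit 209) (nat_lit 0) (cs (rf (nat_lit 15)) (cs (rf (nat_lit 40)) (cs (rf (nat_lit 41)) (nd (nat_lit 274) (nat_lit 0) (cs (rf (nat_lit 42)) (cs (rf (nat_lit 43)) (nd (nat_lit 254) (nat_lit 0) (cs (rf (nat_lit 44)) (cs (rf (nat_lit 45)) (cs (rf (nat_lit 46)) (rf (nat_lit 47))))))))))))) (nd (nat_lit 209) (nat_lit 0) (cs (rf (nat_lit 15)) (cs (rf (nat_lit 40)) (cs (rf (nat_lit 41)) (nd (nat_lit 208) (nat_lit 0) (cs (rf (nat_lit 16)) (cs (rf (nat_lit 17)) (cs (rf (nat_lit 19)) (nd (nat_lit 207) (nat_lit 0) (cs (rf (nat_lit 29)) (cs (rf (nat_lit 48)) (cs (rf (nat_lit 49)) (nd (nat_lit 230) (nat_lit 0) (cs (rf (nat_lit 50)) (nd (nat_lit 206) (nat_lit 0) (cs (lf (nat_lit 0) (nat_lit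 205)) (nd (nat_lit 274) (nat_lit 0) (cs (lf (nat_lit 30) (nat_lit 208)) (nd (nat_lit 273) (nat_lit 0) (cs (lf (nat_lit 41) (nat_lit 207)) (rf (nat_lit 51))))))))))))))))))))))))))))))))))))) q93284 (by decide +kernel)
def q93914 : Q := Q.p (nat_lit 0x3000000000000000000000000000000000000000000000000000000000000000) (nat_lit 0xa00003c0003f0001fe0001f80018e000fff003ff801fff003fc0001e00005000000000000000000000000000000) (nat_lit 17)
theorem c93914 : QOK q93914 := cut [q93671, q1409, q3991, q79029, q22313, q93549, q93679, q93683, q93685, q92845, q93573, q93689, q87865, q92799, q92906, q92941, q93014, q93692, q93695, q84909, q87953, q92083, q426, q87951, q93630, q87928, q93698, q93702, q93697, q82267, q93727, q6259, q79066, q93563, q79048, q93728, q93737, q93741, q93758, q93814, q93831, q93874, q93881, q93882, q88114, q1411, q6887, q1156, q4006, q4032, q85717, q93886, q88100, q88105, q88111, q93498, q6561, q88122,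 q93912, q88198] ⟨c93671, c1409, c3991, c79029, c22313, c93549, c93679, c93683, c93685, c92845, c93573, c93689, c87865, c92799, c92906, c92941, c93014, c93692, c93695, c84909, c87953, c92083, c426, c87951, c93630, c87928, c93698, c93702, c93697, c82267, c93727, c6259, c79066, c93563, c79048, c93728, c93737, c93741, c93758, c93814, c93831, c93874, c93881, c93882, c88114, c1411, c6887, c1156, c4006, c4032, c85717, c93886, c88100, c88105, c88111, c93498, c6561, c88122, c93912, c88198, trivial⟩ (nd (nat_lit 230) (nat_lit 0) (cs (rf (nat_lit 0)) (cs (nd (nat_lit 208) (nat_lit 0) (cs (rf (nat_lit 1)) (cs (rf (nat_lit 2)) (cs (rf (nat_lit 3)) (cs (nd (nat_lit 274) (nat_lit 0) (cs (rf (nat_lit 4)) (cs (nd (nat_lit 275) (nat_lit 0) (cs (lf (nat_lit 29) (nat_lit 208)) (nd (nat_lit 273) (nat_lit 0) (cs (lf (nat_lit 41) (nat_lit 207)) (nd (nat_lit 185) (nat_lit 0) (cs (lf (nat_lit 46) (nat_lit 185)) (nd (nat_lit 272) (nat_lit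 0) (cs (lf (nat_lit 12) (nat_lit 249)) (nd (nat_lit 187) (nat_lit 0) (cs (lf (nat_lit 34) (nat_lit 186)) (rf (nat_lit 5)))))))))))) (cs (rf (nat_lit 6)) (rf (nat_lit 7)))))) (rf (nat_lit 8))))))) (cs (nd (nat_lit 231) (nat_lit 0) (cs (rf (nat_lit 9)) (cs (rf (nat_lit 10)) (cs (rf (nat_lit 11)) (cs (nd (nat_lit 209) (nat_lit 0) (cs (rf (nat_lit 12)) (cs (rf (nat_lit 13)) (cs (rf (nat_lit 14)) (cs (rf (nat_lit 15)) (cs (rf (nat_lit 16)) (rf (nat_lit 17)))))))) (cs (rf (nat_lit 18)) (cs (nd (nat_lit 229) (nat_lit 0) (cs (rf (nat_lit 19)) (cs (rf (nat_lit 20)) (cs (rf (nat_lit 21)) (cs (nd (nat_lit 251) (nat_lit 0) (cs (rf (nat_lit 22)) (cs (rf (nat_lit 23)) (rf (nat_lit 24))))) (cs (nd (nat_lit 251) (nat_lit 0) (cs (rf (nat_lit 25)) (cs (rf (nat_lit 24)) (rf (nat_lit 26))))) (rf (nat_lit 27)))))))) (nd (nat_lit 251) (nat_lit 0) (cs (rf (nat_lit 22)) (cs (rf (nat_lit 28)) (nd (nat_lit 229) (nat_lit 0) (cs (rf (nat_lit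 25)) (cs (rf (nat_lit 23)) (cs (rf (nat_lit 20)) (nd (nat_lit 232) (nat_lit 0) (cs (lf (nat_lit 6) (nat_lit 229)) (nd (nat_lit 228) (nat_lit 0) (cs (lf (nat_lit 0) (nat_lit 227)) (rf (nat_lit 29)))))))))))))))))))) (cs (rf (nat_lit 30)) (cs (nd (nat_lit 208) (nat_lit 0) (cs (rf (nat_lit 31)) (cs (rf (nat_lit 3)) (cs (rf (nat_lit 32)) (cs (rf (nat_lit 33)) (nd (nat_lit 274) (nat_lit 0) (cs (rf (nat_lit 34)) (cs (rf (nat_lit 7)) (cs (nd (nat_lit 275) (nat_lit 0) (cs (lf (nat_lit 29) (nat_lit 208)) (nd (nat_lit 185) (nat_lit 0) (cs (lf (nat_lit 46) (nat_lit 185)) (rf (nat_lit 35)))))) (cs (rf (nat_lit 36)) (rf (nat_lit 37)))))))))))) (cs (rf (nat_lit 38)) (cs (rf (nat_lit 39)) (cs (nd (nat_lit 208) (nat_lit 0) (cs (rf (nat_lit 31)) (cs (rf (nat_lit 3)) (cs (rf (nat_lit 33)) (rf (nat_lit 40)))))) (cs (rf (nat_lit 41)) (cs (nd (nat_lit 208) (nat_lit 0) (cs (rf (nat_lit 3)) (cs (rf (nat_lit 32)) (cs (rf (nat_lit 42))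 (rf (nat_lit 43)))))) (cs (nd (nat_lit 208) (nat_lit 0) (cs (rf (nat_lit 31)) (cs (rf (nat_lit 32)) (cs (rf (nat_lit 44)) (cs (rf (nat_lit 33)) (nd (nat_lit 207) (nat_lit 0) (cs (rf (nat_lit 45)) (cs (rf (nat_lit 46)) (cs (nd (nat_lit 206) (nat_lit 0) (cs (rf (nat_lit 47)) (cs (rf (nat_lit 48)) (cs (rf (nat_lit 49)) (cs (rf (nat_lit 50)) (rf (nat_lit 51))))))) (nd (nat_lit 229) (nat_lit 0) (cs (rf (nat_lit 52)) (cs (rf (nat_lit 53)) (cs (rf (nat_lit 54)) (rf (nat_lit 55))))))))))))))) (cs (nd (nat_lit 208) (nat_lit 0) (cs (rf (nat_lit 1)) (cs (rf (nat_lit 56)) (cs (rf (nat_lit 32)) (cs (rf (nat_lit 57)) (rf (nat_lit 40))))))) (cs (rf (nat_lit 58)) (nd (nat_lit 208) (nat_lit 0) (cs (rf (nat_lit 2)) (cs (rf (nat_lit 31)) (cs (rf (nat_lit 56)) (cs (rf (nat_lit 59)) (rf (nat_lit 42))))))))))))))))))))) q93914 (by decide +kernel)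
def q94048 : Q := Q.p (nat_lit 0x3000000000000000000000000000000000000000000000000000000000000000) (nat_lit 0x400001c0000780005e00017e001cf000fff003ff8007ff001fe0003d00000000000000000000000000000000000) (nat_lit 18)
theorem c94048 : QOK q94048 := cut [q89928, q92701, q93915, q93920, q93921, q79013, q81492, q92239, q93926, q93928, q9779, q93934, q79118, q81677, q87731, q3994, q79913, q12220, q92088, q93942, q93944, q80201, q4677, q80202, q81052, q93967, q93976, q94042, q92326, q92604, q94046, q94047] ⟨c89928, c92701, c93915, c93920, c93921, c79013, c81492, c92239, c93926, c93928, c9779, c93934, c79118, c81677, c87731, c3994, c79913, c12220, c92088, c93942, c93944, c80201, c4677, c80202, c81052, c93967, c93976, c94042, c92326, c92604, c94046, c94047, trivial⟩ (nd (nat_lit 251) (nat_lit 0) (cs (rf (nat_lit 0)) (cs (rf (nat_lit 1)) (cs (rf (nat_lit 2)) (cs (rf (nat_lit 3)) (cs (rf (nat_lit 4)) (cs (nd (nat_lit 254)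 (nat_lit 0) (cs (rf (nat_lit 5)) (cs (rf (nat_lit 6)) (cs (rf (nat_lit 7)) (cs (rf (nat_lit 8)) (cs (nd (nat_lit 230) (nat_lit 0) (cs (rf (nat_lit 9)) (cs (nd (nat_lit 255) (nat_lit 0) (cs (lf (nat_lit 23) (nat_lit 229)) (nd (nat_lit 231) (nat_lit 0) (cs (rf (nat_lit 10)) (lf (nat_lit 18) (nat_lit 230)))))) (cs (rf (nat_lit 11)) (cs (nd (nat_lit 232) (nat_lit 0) (cs (rf (nat_lit 12)) (cs (rf (nat_lit 13)) (nd (nat_lit 231) (nat_lit 0) (cs (rf (nat_lit 10)) (nd (nat_lit 256) (nat_lit 0) (cs (lf (nat_lit 19) (nat_lit 230)) (nd (nat_lit 186) (nat_lit 0) (cs (rf (nat_lit 14)) (cs (nd (nat_lit 208) (nat_lit 0) (cs (lf (nat_lit 24) (nat_lit 164)) (nd (nat_lit 185) (nat_lit 0) (cs (lf (nat_lit 47) (nat_lit 163)) (nd (nat_lit 207) (nat_lit 0) (cs (lf (nat_lit 42) (nat_lit 185)) (rf (nat_lit 15)))))))) (cs (nd (nat_lit 210) (nat_lit 0) (cs (rf (nat_lit 16)) (cs (nd (nat_lit 188) (nat_lit 0) (cs (lf (nat_lit 36) (nat_lit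 165)) (nd (nat_lit 189) (nat_lit 0) (cs (lf (nat_lit 35) (nat_lit 166)) (nd (nat_lit 211) (nat_lit 0) (cs (rf (nat_lit 17)) (lf (nat_lit 30) (nat_lit 188)))))))) (cs (nd (nat_lit 209) (nat_lit 0) (cs (rf (nat_lit 18)) (rf (nat_lit 19)))) (nd (nat_lit 188) (nat_lit 0) (cs (lf (nat_lit 36) (nat_lit 165)) (nd (nat_lit 187) (nat_lit 0) (cs (lf (nat_lit 47) (nat_lit 165)) (rf (nat_lit 20)))))))))) (cs (nd (nat_lit 187) (nat_lit 0) (cs (rf (nat_lit 21)) (cs (nd (nat_lit 208) (nat_lit 0) (cs (lf (nat_lit 35) (nat_lit 164)) (rf (nat_lit 22)))) (nd (nat_lit 165) (nat_lit 0) (cs (lf (nat_lit 32) (nat_lit 164)) (lf (nat_lit 38) (nat_lit 164))))))) (cs (nd (nat_lit 208) (nat_lit 0) (cs (lf (nat_lit 24) (nat_lit 164)) (nd (nat_lit 163) (nat_lit 0) (cs (lf (nat_lit 46) (nat_lit 163)) (nd (nat_lit 187) (nat_lit 0) (cs (lf (nat_lit 35) (nat_lit 164)) (nd (nat_lit 209) (nat_lit 0) (cs (lf (nat_lit 29) (nat_lit 187)) (nd (nat_lit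 206) (nat_lit 0) (cs (lf (nat_lit 1) (nat_lit 206)) (nd (nat_lit 188) (nat_lit 0) (cs (lf (nat_lit 35) (nat_lit 165)) (nd (nat_lit 189) (nat_lit 0) (cs (lf (nat_lit 6) (nat_lit 186)) (nd (nat_lit 167) (nat_lit 0) (cs (lf (nat_lit 17) (nat_lit 164)) (lf (nat_lit 32) (nat_lit 166)))))))))))))))))) (nd (nat_lit 208) (nat_lit 0) (cs (lf (nat_lit 24) (nat_lit 164)) (rf (nat_lit 23))))))))))))))))) (nd (nat_lit 255) (nat_lit 0) (cs (lf (nat_lit 23) (nat_lit 229)) (rf (nat_lit 24))))))))) (nd (nat_lit 233) (nat_lit 0) (cs (lf (nat_lit 16) (nat_lit 229)) (nd (nat_lit 255) (nat_lit 0) (cs (lf (nat_lit 17) (nat_lit 230)) (rf (nat_lit 25)))))))))))) (cs (rf (nat_lit 26)) (cs (rf (nat_lit 27)) (cs (nd (nat_lit 254) (nat_lit 0) (cs (rf (nat_lit 7)) (cs (rf (nat_lit 28)) (rf (nat_lit 29))))) (cs (rf (nat_lit 30)) (rf (nat_lit 31))))))))))))) q94048 (by decide +kernel)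
def q94554 : Q := Q.p (nat_lit 0x3000000000000000000000000000000000000000000000000000000000000000) (nat_lit 0x500001c0001fc0007fc003ff001dfc003ce001fdc003fc001ff8003f0000bc00000000000000000000000000000000000) (nat_lit 19)
theorem c94554 : QOK q94554 := cut [q94173, q94334, q94394, q94429, q94441, q94445, q94504, q88933, q88941, q89653, q90658, q94505, q28471, q94508, q2066, q89332, q94518, q86434, q94338, q94527, q94161, q94532, q94533, q79118, q94538, q94162, q94168, q82063, q94433, q93115, q92732, q94545, q94553] ⟨c94173, c94334, c94394, c94429, c94441, c94445, c94504, c88933, c88941, c89653, c90658, c94505, c28471, c94508, c2066, c89332, c94518, c86434, c94338, c94527, c94161, c94532, c94533, c79118, c94538, c94162, c94168, c82063, c94433, c93115, c92732, c94545, c94553, trivial⟩ (nd (nat_lit 275) (nat_lit 0) (cs (rf (nat_lit 0)) (cs (rf (nat_lit 1)) (cs (rf (nat_lit 2)) (cs (rf (nat_lit 3)) (cs (rf (nat_lit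 4)) (cs (rf (nat_lit 5)) (cs (rf (nat_lit 6)) (cs (nd (nat_lit 297) (nat_lit 0) (cs (rf (nat_lit 7)) (cs (rf (nat_lit 8)) (cs (nd (nat_lit 296) (nat_lit 0) (cs (rf (nat_lit 9)) (cs (rf (nat_lit 10)) (cs (rf (nat_lit 11)) (cs (nd (nat_lit 295) (nat_lit 0) (cs (rf (nat_lit 12)) (cs (rf (nat_lit 13)) (cs (nd (nat_lit 317) (nat_lit 0) (cs (nd (nat_lit 230) (nat_lit 0) (cs (lf (nat_lit 38) (nat_lit 229)) (nd (nat_lit 251) (nat_lit 0) (cs (lf (nat_lit 32) (nat_lit 229)) (nd (nat_lit 186) (nat_lit 0) (cs (rf (nat_lit 14)) (lf (nat_lit 25) (nat_lit 186)))))))) (cs (nd (nat_lit 298) (nat_lit 0) (cs (lf (nat_lit 11) (nat_lit 294)) (nd (nat_lit 272) (nat_lit 0) (cs (lf (nat_lit 22) (nat_lit 272)) (rf (nat_lit 15)))))) (nd (nat_lit 298) (nat_lit 0) (cs (lf (nat_lit 11) (nat_lit 294)) (nd (nat_lit 230) (nat_lit 0) (cs (lf (nat_lit 38) (nat_lit 229)) (nd (nat_lit 186) (nat_lit 0) (cs (lf (nat_lit 25) (nat_lit 186)) (rf (nat_lit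 15))))))))))) (rf (nat_lit 16)))))) (nd (nat_lit 274) (nat_lit 0) (cs (rf (nat_lit 17)) (rf (nat_lit 18))))))))) (rf (nat_lit 19)))))) (cs (nd (nat_lit 297) (nat_lit 0) (cs (rf (nat_lit 7)) (cs (rf (nat_lit 20)) (nd (nat_lit 232) (nat_lit 0) (cs (rf (nat_lit 21)) (cs (rf (nat_lit 22)) (nd (nat_lit 254) (nat_lit 0) (cs (rf (nat_lit 23)) (lf (nat_lit 30) (nat_lit 231)))))))))) (cs (rf (nat_lit 24)) (cs (nd (nat_lit 297) (nat_lit 0) (cs (rf (nat_lit 7)) (cs (rf (nat_lit 25)) (cs (rf (nat_lit 26)) (nd (nat_lit 231) (nat_lit 0) (cs (rf (nat_lit 27)) (cs (rf (nat_lit 28)) (nd (nat_lit 298) (nat_lit 0) (cs (lf (nat_lit 29) (nat_lit 231)) (nd (nat_lit 273) (nat_lit 0) (cs (rf (nat_lit 29)) (cs (nd (nat_lit 296) (nat_lit 0) (cs (lf (nat_lit 41) (nat_lit 230)) (nd (nat_lit 274) (nat_lit 0) (cs (lf (nat_lit 18) (nat_lit 273)) (nd (nat_lit 254) (nat_lit 0) (cs (lf (nat_lit 6) (nat_lit 251)) (nd (nat_lit 210) (nat_lit 0)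 (cs (lf (nat_lit 34) (nat_lit 209)) (nd (nat_lit 230) (nat_lit 0) (cs (lf (nat_lit 47) (nat_lit 208)) (rf (nat_lit 30)))))))))))) (cs (rf (nat_lit 31)) (nd (nat_lit 272) (nat_lit 0) (cs (lf (nat_lit 2) (nat_lit 272)) (nd (nat_lit 296) (nat_lit 0) (cs (lf (nat_lit 41) (nat_lit 230)) (lf (nat_lit 21) (nat_lit 272))))))))))))))))))) (rf (nat_lit 32)))))))))))))) q94554 (by decide +kernel)
def q94759 : Q := Q.p (nat_lit 0x3000008000000000000000000000000000000000000000000000000000000000) (nat_lit 0x3f0000fc000df8003ce001f60003d80003e0000f80000800000000000000000000000000000000000) (nat_lit 14)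
theorem c94759 : QOK q94759 := cut [q82275, q82278, q94721, q87068, q92239, q93926, q94264, q85505, q89866, q94724, q87868, q79600, q86838, q86853, q87131, q94745, q94757] ⟨c82275, c82278, c94721, c87068, c92239, c93926, c94264, c85505, c89866, c94724, c87868, c79600, c86838, c86853, c87131, c94745, c94757, trivial⟩ (nd (nat_lit 251) (nat_lit 0) (cs (rf (nat_lit 0)) (cs (rf (nat_lit 1)) (cs (rf (nat_lit 2)) (nd (nat_lit 254) (nat_lit 0) (cs (rf (nat_lit 3)) (cs (rf (nat_lit 4)) (cs (rf (nat_lit 5)) (cs (rf (nat_lit 6)) (cs (nd (nat_lit 273) (nat_lit 0) (cs (lf (nat_lit 11) (nat_lit 250)) (nd (nat_lit 230) (nat_lit 0) (cs (rf (nat_lit 7)) (cs (rf (nat_lit 8)) (cs (nd (nat_lit 296) (nat_lit 0) (cs (nd (nat_lit 232) (nat_lit 0) (cs (lf (nat_lit 17) (nat_lit 229)) (nd (nat_lit 274) (nat_lit 0) (cs (lf (nat_lit 30) (nat_lit 230)) (rf (nat_lit 9)))))) (cs (nd (nat_lit 297) (nat_lit 0) (cs (rf (nat_lit 10)) (cs (nd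 (nat_lit 232) (nat_lit 0) (cs (lf (nat_lit 6) (nat_lit 229)) (nd (nat_lit 210) (nat_lit 0) (cs (lf (nat_lit 31) (nat_lit 209)) (nd (nat_lit 211) (nat_lit 0) (cs (lf (nat_lit 12) (nat_lit 207)) (nd (nat_lit 212) (nat_lit 0) (cs (lf (nat_lit 6) (nat_lit 209)) (nd (nat_lit 189) (nat_lit 0) (cs (rf (nat_lit 11)) (lf (nat_lit 30) (nat_lit 188)))))))))))) (nd (nat_lit 232) (nat_lit 0) (cs (lf (nat_lit 6) (nat_lit 229)) (nd (nat_lit 274) (nat_lit 0) (cs (lf (nat_lit 29) (nat_lit 230)) (nd (nat_lit 207) (nat_lit 0) (cs (lf (nat_lit 25) (nat_lit 207)) (nd (nat_lit 298) (nat_lit 0) (cs (lf (nat_lit 18) (nat_lit 273)) (nd (nat_lit 320) (nat_lit 0) (cs (lf (nat_lit 44) (nat_lit 231)) (nd (nat_lit 295) (nat_lit 0) (cs (lf (nat_lit 30) (nat_lit 229)) (lf (nat_lit 5) (nat_lit 295))))))))))))))))) (cs (nd (nat_lit 232) (nat_lit 0) (cs (lf (nat_lit 17) (nat_lit 229)) (nd (nat_lit 295) (nat_lit 0) (cs (lf (nat_lit 30) (nat_lit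 229)) (nd (nat_lit 229) (nat_lit 0) (cs (lf (nat_lit 29) (nat_lit 229)) (rf (nat_lit 12)))))))) (nd (nat_lit 295) (nat_lit 0) (cs (lf (nat_lit 30) (nat_lit 229)) (rf (nat_lit 13)))))))) (nd (nat_lit 232) (nat_lit 0) (cs (rf (nat_lit 14)) (nd (nat_lit 208) (nat_lit 0) (cs (lf (nat_lit 36) (nat_lit 185)) (nd (nat_lit 275) (nat_lit 0) (cs (lf (nat_lit 42) (nat_lit 208)) (nd (nat_lit 210) (nat_lit 0) (cs (lf (nat_lit 36) (nat_lit 187)) (nd (nat_lit 211) (nat_lit 0) (cs (lf (nat_lit 12) (nat_lit 207)) (nd (nat_lit 212) (nat_lit 0) (cs (lf (nat_lit 6) (nat_lit 209)) (nd (nat_lit 276) (nat_lit 0) (cs (lf (nat_lit 35) (nat_lit 188)) (rf (nat_lit 15)))))))))))))))))))))) (rf (nat_lit 16)))))))))))) q94759 (by decide +kernel)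
def q94907 : Q := Q.p (nat_lit 0x3000008000000000000000000000000000000000000000000000000000000000) (nat_lit 0x500003c0001f00007f001dfc007ce003f6e0003f0001fc000780001c00000000000000000000000000000000000) (nat_lit 15)
theorem c94907 : QOK q94907 := cut [q82275, q82278, q94721, q87069, q87098, q92346, q94893, q87068, q93139, q93141, q82300, q92707, q92710, q92785, q92994, q93181, q94897] ⟨c82275, c82278, c94721, c87069, c87098, c92346, c94893, c87068, c93139, c93141, c82300, c92707, c92710, c92785, c92994, c93181, c94897, trivial⟩ (nd (nat_lit 251) (nat_lit 0) (cs (rf (nat_lit 0)) (cs (rf (nat_lit 1)) (cs (rf (nat_lit 2)) (nd (nat_lit 273) (nat_lit 0) (cs (rf (nat_lit 3)) (cs (rf (nat_lit 4)) (cs (rf (nat_lit 5)) (cs (rf (nat_lit 6)) (nd (nat_lit 254) (nat_lit 0) (cs (rf (nat_lit 7)) (cs (rf (nat_lit 8)) (cs (rf (nat_lit 9)) (nd (nat_lit 209) (nat_lit 0) (cs (rf (nat_lit 10)) (cs (rf (nat_lit 11)) (cs (rf (nat_lit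 12)) (nd (nat_lit 275) (nat_lit 0) (cs (rf (nat_lit 13)) (cs (rf (nat_lit 14)) (cs (rf (nat_lit 15)) (cs (nd (nat_lit 232) (nat_lit 0) (cs (lf (nat_lit 17) (nat_lit 229)) (rf (nat_lit 16)))) (nd (nat_lit 274) (nat_lit 0) (cs (lf (nat_lit 41) (nat_lit 208)) (nd (nat_lit 232) (nat_lit 0) (cs (lf (nat_lit 17) (nat_lit 229)) (nd (nat_lit 297) (nat_lit 0) (cs (lf (nat_lit 30) (nat_lit 231)) (nd (nat_lit 208) (nat_lit 0) (cs (lf (nat_lit 47) (nat_lit 186)) (lf (nat_lit 25) (nat_lit 208)))))))))))))))))))))))))))))))) q94907 (by decide +kernel)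
def q95384 : Q := Q.p (nat_lit 0x3000000000000000000000000000000000000000000000000000000000000000) (nat_lit 0x80000380003e00007e001dee007cf003ffe003ff0007fe000fe0003f80002000000000000000000000000000000) (nat_lit 16)
theorem c95384 : QOK q95384 := cut [q93727, q93912, q1409, q3991, q79029, q88114, q93685, q83723, q94584, q87228, q93679, q80982, q95199, q79028, q81644, q95210, q95215, q95236, q95260, q95276, q6259, q93563, q95307, q79066, q94114, q1140, q1298, q22353, q93879, q82212, q95320, q95334, q95342, q95356, q10803, q84998, q92798, q95364, q92713, q92811, q95383] ⟨c93727, c93912, c1409, c3991, c79029, c88114, c93685, c83723, c94584, c87228, c93679, c80982, c95199, c79028, c81644, c95210, c95215, c95236, c95260, c95276, c6259, c93563, c95307, c79066, c94114, c1140, c1298, c22353, c93879, c82212, c95320, c95334, c95342, c95356, c10803, c84998, c92798, c95364, c92713, c92811, c95383, trivial⟩ (nd (nat_lit 230)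 (nat_lit 0) (cs (rf (nat_lit 0)) (cs (rf (nat_lit 1)) (cs (nd (nat_lit 208) (nat_lit 0) (cs (rf (nat_lit 2)) (cs (rf (nat_lit 3)) (cs (rf (nat_lit 4)) (cs (rf (nat_lit 5)) (cs (rf (nat_lit 6)) (nd (nat_lit 229) (nat_lit 0) (cs (rf (nat_lit 7)) (cs (rf (nat_lit 8)) (nd (nat_lit 274) (nat_lit 0) (cs (rf (nat_lit 9)) (cs (rf (nat_lit 10)) (nd (nat_lit 275) (nat_lit 0) (cs (lf (nat_lit 29) (nat_lit 208)) (nd (nat_lit 207) (nat_lit 0) (cs (rf (nat_lit 11)) (nd (nat_lit 254) (nat_lit 0) (cs (lf (nat_lit 18) (nat_lit 229)) (nd (nat_lit 273) (nat_lit 0) (cs (lf (nat_lit 41) (nat_lit 207)) (nd (nat_lit 209) (nat_lit 0) (cs (lf (nat_lit 35) (nat_lit 186)) (rf (nat_lit 12)))))))))))))))))))))))) (cs (nd (nat_lit 254) (nat_lit 0) (cs (rf (nat_lit 13)) (cs (rf (nat_lit 14)) (cs (rf (nat_lit 15)) (rf (nat_lit 16)))))) (cs (rf (nat_lit 17)) (cs (rf (nat_lit 18)) (cs (rf (nat_lit 19)) (cs (nd (nat_lit 208) (nat_lit 0) (cs (rf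 (nat_lit 20)) (cs (rf (nat_lit 4)) (cs (rf (nat_lit 21)) (rf (nat_lit 22)))))) (cs (nd (nat_lit 208) (nat_lit 0) (cs (rf (nat_lit 20)) (cs (rf (nat_lit 23)) (cs (rf (nat_lit 5)) (cs (rf (nat_lit 21)) (nd (nat_lit 229) (nat_lit 0) (cs (rf (nat_lit 24)) (cs (rf (nat_lit 8)) (nd (nat_lit 275) (nat_lit 0) (cs (rf (nat_lit 25)) (cs (rf (nat_lit 26)) (nd (nat_lit 274) (nat_lit 0) (cs (rf (nat_lit 27)) (cs (rf (nat_lit 28)) (nd (nat_lit 254) (nat_lit 0) (cs (lf (nat_lit 18) (nat_lit 229)) (nd (nat_lit 273) (nat_lit 0) (cs (lf (nat_lit 41) (nat_lit 207)) (nd (nat_lit 207) (nat_lit 0) (cs (lf (nat_lit 47) (nat_lit 185)) (rf (nat_lit 29)))))))))))))))))))))) (cs (rf (nat_lit 30)) (cs (nd (nat_lit 254) (nat_lit 0) (cs (rf (nat_lit 13)) (cs (rf (nat_lit 14)) (cs (rf (nat_lit 15)) (rf (nat_lit 31)))))) (cs (rf (nat_lit 32)) (cs (rf (nat_lit 33)) (cs (nd (nat_lit 208) (nat_lit 0) (cs (rf (nat_lit 20)) (cs (rf (nat_lit 4))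 (cs (rf (nat_lit 23)) (cs (rf (nat_lit 21)) (nd (nat_lit 209) (nat_lit 0) (cs (rf (nat_lit 34)) (cs (nd (nat_lit 274) (nat_lit 0) (cs (lf (nat_lit 35) (nat_lit 186)) (nd (nat_lit 275) (nat_lit 0) (cs (lf (nat_lit 29) (nat_lit 208)) (nd (nat_lit 273) (nat_lit 0) (cs (lf (nat_lit 41) (nat_lit 207)) (nd (nat_lit 254) (nat_lit 0) (cs (lf (nat_lit 6) (nat_lit 251)) (nd (nat_lit 207) (nat_lit 0) (cs (lf (nat_lit 47) (nat_lit 185)) (nd (nat_lit 229) (nat_lit 0) (cs (lf (nat_lit 42) (nat_lit 207)) (rf (nat_lit 12)))))))))))))) (cs (nd (nat_lit 231) (nat_lit 0) (cs (rf (nat_lit 35)) (cs (rf (nat_lit 36)) (rf (nat_lit 37))))) (nd (nat_lit 231) (nat_lit 0) (cs (rf (nat_lit 38)) (cs (rf (nat_lit 36)) (rf (nat_lit 39)))))))))))))) (rf (nat_lit 40))))))))))))))))) q95384 (by decide +kernel)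
def q95459 : Q := Q.p (nat_lit 0x3000000000000000000000000000000000000000000000000000000000000000) (nat_lit 0xd0003ff0007fc001ff001dfc007cf003ffc000fe0003b0000e80002800000000000000000000000000000000000) (nat_lit 18)
theorem c95459 : QOK q95459 := cut [q95098, q95157, q46633, q81014, q94958, q95387, q92260, q92291, q92344, q79013, q81729, q92329, q87437, q95394, q83839, q85713, q95148, q83686, q95420, q95421, q95429, q95100, q42162, q81819, q22287, q91672, q95060, q95438, q95444, q40802, q92608, q92617, q95170, q91797, q95187, q94338, q94384, q94410, q14914] ⟨c95098, c95157, c46633, c81014, c94958, c95387, c92260, c92291, c92344, c79013, c81729, c92329, c87437, c95394, c83839, c85713, c95148, c83686, c95420, c95421, c95429, c95100, c42162, c81819, c22287, c91672, c95060, c95438, c95444, c40802, c92608, c92617, c95170, c91797, c95187, c94338, c94384, c94410, c14914, trivial⟩ (nd (nat_lit 274) (nat_lit 0) (cs (rf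 (nat_lit 0)) (cs (rf (nat_lit 1)) (cs (nd (nat_lit 296) (nat_lit 0) (cs (rf (nat_lit 2)) (cs (rf (nat_lit 3)) (cs (rf (nat_lit 4)) (rf (nat_lit 5)))))) (cs (nd (nat_lit 254) (nat_lit 0) (cs (rf (nat_lit 6)) (cs (rf (nat_lit 7)) (cs (rf (nat_lit 8)) (cs (nd (nat_lit 251) (nat_lit 0) (cs (rf (nat_lit 9)) (cs (rf (nat_lit 10)) (cs (rf (nat_lit 11)) (nd (nat_lit 230) (nat_lit 0) (cs (rf (nat_lit 12)) (nd (nat_lit 273) (nat_lit 0) (cs (lf (nat_lit 11) (nat_lit 250)) (nd (nat_lit 295) (nat_lit 0) (cs (lf (nat_lit 30) (nat_lit 229)) (lf (nat_lit 36) (nat_lit 207)))))))))))) (nd (nat_lit 255) (nat_lit 0) (cs (lf (nat_lit 11) (nat_lit 251)) (nd (nat_lit 229) (nat_lit 0) (cs (lf (nat_lit 22) (nat_lit 229)) (nd (nat_lit 228) (nat_lit 0) (cs (lf (nat_lit 21) (nat_lit 228)) (nd (nat_lit 256) (nat_lit 0) (cs (lf (nat_lit 10) (nat_lit 252)) (rf (nat_lit 13))))))))))))))) (cs (nd (nat_lit 273) (nat_lit 0) (cs (rf (nat_lit 14))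 (cs (rf (nat_lit 15)) (cs (rf (nat_lit 16)) (nd (nat_lit 251) (nat_lit 0) (cs (rf (nat_lit 17)) (cs (rf (nat_lit 18)) (cs (rf (nat_lit 19)) (rf (nat_lit 20)))))))))) (cs (nd (nat_lit 296) (nat_lit 0) (cs (rf (nat_lit 2)) (cs (rf (nat_lit 3)) (cs (rf (nat_lit 21)) (nd (nat_lit 318) (nat_lit 0) (cs (rf (nat_lit 22)) (cs (rf (nat_lit 23)) (nd (nat_lit 317) (nat_lit 0) (cs (lf (nat_lit 41) (nat_lit 251)) (nd (nat_lit 230) (nat_lit 0) (cs (lf (nat_lit 40) (nat_lit 229)) (nd (nat_lit 275) (nat_lit 0) (cs (lf (nat_lit 30) (nat_lit 252)) (nd (nat_lit 208) (nat_lit 0) (cs (lf (nat_lit 29) (nat_lit 208)) (rf (nat_lit 24))))))))))))))))) (cs (nd (nat_lit 296) (nat_lit 0) (cs (rf (nat_lit 2)) (cs (rf (nat_lit 25)) (cs (nd (nat_lit 273) (nat_lit 0) (cs (rf (nat_lit 14)) (cs (rf (nat_lit 15)) (cs (nd (nat_lit 251) (nat_lit 0) (cs (rf (nat_lit 17)) (cs (rf (nat_lit 26)) (rf (nat_lit 27))))) (rf (nat_lit 28)))))) (nd (nat_lit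 251) (nat_lit 0) (cs (rf (nat_lit 29)) (cs (rf (nat_lit 30)) (rf (nat_lit 31))))))))) (cs (nd (nat_lit 296) (nat_lit 0) (cs (rf (nat_lit 2)) (cs (rf (nat_lit 3)) (cs (rf (nat_lit 32)) (rf (nat_lit 5)))))) (nd (nat_lit 296) (nat_lit 0) (cs (rf (nat_lit 2)) (cs (rf (nat_lit 3)) (cs (nd (nat_lit 297) (nat_lit 0) (cs (rf (nat_lit 33)) (cs (rf (nat_lit 34)) (cs (nd (nat_lit 275) (nat_lit 0) (cs (rf (nat_lit 35)) (cs (rf (nat_lit 36)) (rf (nat_lit 37))))) (nd (nat_lit 275) (nat_lit 0) (cs (rf (nat_lit 38)) (rf (nat_lit 37)))))))) (nd (nat_lit 318) (nat_lit 0) (cs (rf (nat_lit 22)) (cs (rf (nat_lit 23)) (nd (nat_lit 317) (nat_lit 0) (cs (lf (nat_lit 41) (nat_lit 251)) (nd (nat_lit 295) (nat_lit 0) (cs (lf (nat_lit 36) (nat_lit 229)) (nd (nat_lit 275) (nat_lit 0) (cs (lf (nat_lit 30) (nat_lit 252)) (nd (nat_lit 294) (nat_lit 0) (cs (lf (nat_lit 12) (nat_lit 271)) (nd (nat_lit 276) (nat_lit 0) (cs (lf (nat_lit 15) (nat_lit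 272)) (lf (nat_lit 9) (nat_lit 272)))))))))))))))))))))))))))) q95459 (by decide +kernel)
def q95550 : Q := Q.p (nat_lit 0x3000000000000000000000000000000000000000000000000000000000000000) (nat_lit 0xb00006e001dfe007cf003fff001ff8007ff000fc0003a00002000000000000000000000000000000) (nat_lit 16)
theorem c95550 : QOK q95550 := cut [q93874, q95260, q1409, q3991, q79029, q93685, q81409, q81644, q95463, q95464, q79028, q94055, q95215, q6259, q79066, q93911, q1411, q3988, q84623, q92798, q92803, q93692, q95364, q95471, q95491, q83723, q94114, q85551, q426, q88829, q93630, q92330, q84852, q93641, q93643, q93563, q10803, q94131, q95489, q1140, q1298, q1178, q1026, q95240, q95334, q93928, q81752, q93934, q94270, q95511, q95548, q6561, q94127, q95521] ⟨c93874, c95260, c1409, c3991, c79029, c93685, c81409, c81644, c95463, c95464, c79028, c94055, c95215, c6259, c79066, c93911, c1411, c3988, c84623, c92798, c92803, c93692,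 c95364, c95471, c95491, c83723, c94114, c85551, c426, c88829, c93630, c92330, c84852, c93641, c93643, c93563, c10803, c94131, c95489, c1140, c1298, c1178, c1026, c95240, c95334, c93928, c81752, c93934, c94270, c95511, c95548, c6561, c94127, c95521, trivial⟩ (nd (nat_lit 230) (nat_lit 0) (cs (rf (nat_lit 0)) (cs (rf (nat_lit 1)) (cs (nd (nat_lit 208) (nat_lit 0) (cs (rf (nat_lit 2)) (cs (rf (nat_lit 3)) (cs (rf (nat_lit 4)) (cs (rf (nat_lit 5)) (nd (nat_lit 254) (nat_lit 0) (cs (rf (nat_lit 6)) (cs (rf (nat_lit 7)) (cs (rf (nat_lit 8)) (rf (nat_lit 9))))))))))) (cs (nd (nat_lit 254) (nat_lit 0) (cs (rf (nat_lit 10)) (cs (rf (nat_lit 7)) (cs (rf (nat_lit 11)) (rf (nat_lit 12)))))) (cs (nd (nat_lit 208) (nat_lit 0) (cs (rf (nat_lit 13)) (cs (rf (nat_lit 4)) (cs (rf (nat_lit 14)) (cs (rf (nat_lit 15)) (nd (nat_lit 207) (nat_lit 0) (cs (rf (nat_lit 16)) (cs (nd (nat_lit 231) (nat_lit 0) (cs (rf (nat_lit 17)) (cs (rf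 (nat_lit 18)) (nd (nat_lit 209) (nat_lit 0) (cs (rf (nat_lit 19)) (cs (rf (nat_lit 20)) (cs (rf (nat_lit 21)) (rf (nat_lit 22))))))))) (rf (nat_lit 23)))))))))) (cs (rf (nat_lit 24)) (cs (nd (nat_lit 229) (nat_lit 0) (cs (rf (nat_lit 25)) (cs (rf (nat_lit 26)) (cs (nd (nat_lit 251) (nat_lit 0) (cs (rf (nat_lit 27)) (cs (nd (nat_lit 231) (nat_lit 0) (cs (rf (nat_lit 28)) (cs (rf (nat_lit 29)) (rf (nat_lit 30))))) (nd (nat_lit 254) (nat_lit 0) (cs (lf (nat_lit 18) (nat_lit 229)) (nd (nat_lit 232) (nat_lit 0) (cs (lf (nat_lit 17) (nat_lit 229)) (nd (nat_lit 231) (nat_lit 0) (cs (lf (nat_lit 12) (nat_lit 228)) (rf (nat_lit 31))))))))))) (nd (nat_lit 231) (nat_lit 0) (cs (rf (nat_lit 32)) (cs (rf (nat_lit 33)) (rf (nat_lit 34))))))))) (cs (nd (nat_lit 208) (nat_lit 0) (cs (rf (nat_lit 13)) (cs (rf (nat_lit 4)) (cs (rf (nat_lit 14)) (cs (rf (nat_lit 35)) (nd (nat_lit 209) (nat_lit 0) (cs (rf (nat_lit 36)) (cs (rf (nat_lit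 37)) (cs (rf (nat_lit 38)) (nd (nat_lit 275) (nat_lit 0) (cs (rf (nat_lit 39)) (cs (rf (nat_lit 40)) (nd (nat_lit 229) (nat_lit 0) (cs (rf (nat_lit 41)) (cs (rf (nat_lit 26)) (nd (nat_lit 254) (nat_lit 0) (cs (lf (nat_lit 18) (nat_lit 229)) (nd (nat_lit 210) (nat_lit 0) (cs (lf (nat_lit 6) (nat_lit 207)) (nd (nat_lit 188) (nat_lit 0) (cs (lf (nat_lit 32) (nat_lit 187)) (nd (nat_lit 207) (nat_lit 0) (cs (lf (nat_lit 17) (nat_lit 185)) (rf (nat_lit 42))))))))))))))))))))))))) (cs (nd (nat_lit 208) (nat_lit 0) (cs (rf (nat_lit 4)) (cs (rf (nat_lit 14)) (cs (rf (nat_lit 15)) (rf (nat_lit 43)))))) (cs (nd (nat_lit 254) (nat_lit 0) (cs (rf (nat_lit 10)) (cs (rf (nat_lit 7)) (cs (rf (nat_lit 11)) (rf (nat_lit 44)))))) (cs (nd (nat_lit 208) (nat_lit 0) (cs (rf (nat_lit 13)) (cs (rf (nat_lit 4)) (cs (rf (nat_lit 14)) (cs (rf (nat_lit 35)) (nd (nat_lit 254) (nat_lit 0) (cs (rf (nat_lit 45)) (cs (rf (nat_lit 8)) (cs (nd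 (nat_lit 251) (nat_lit 0) (cs (rf (nat_lit 46)) (cs (rf (nat_lit 47)) (rf (nat_lit 48))))) (nd (nat_lit 255) (nat_lit 0) (cs (lf (nat_lit 23) (nat_lit 229)) (nd (nat_lit 231) (nat_lit 0) (cs (lf (nat_lit 18) (nat_lit 230)) (nd (nat_lit 275) (nat_lit 0) (cs (lf (nat_lit 42) (nat_lit 208)) (rf (nat_lit 49))))))))))))))))) (cs (rf (nat_lit 50)) (nd (nat_lit 208) (nat_lit 0) (cs (rf (nat_lit 2)) (cs (rf (nat_lit 51)) (cs (rf (nat_lit 14)) (cs (rf (nat_lit 52)) (rf (nat_lit 53)))))))))))))))))))) q95550 (by decide +kernel)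
def q95630 : Q := Q.p (nat_lit 0x400003000000000000000000000000000000000000000000000000000000000000000) (nat_lit 0x480001a0000ec001dbc007cf003ffc003fe0003dc000f00002c00000000000000000000000000000000000) (nat_lit 13)
theorem c95630 : QOK q95630 := cut [q92260, q92291, q92327, q92344, q79118, q81730, q79123, q79128, q79160, q85014, q95598, q95602, q79868, q95611, q92312, q94238, q95616, q79169, q79199, q79061, q80250, q94935] ⟨c92260, c92291, c92327, c92344, c79118, c81730, c79123, c79128, c79160, c85014, c95598, c95602, c79868, c95611, c92312, c94238, c95616, c79169, c79199, c79061, c80250, c94935, trivial⟩ (nd (nat_lit 254) (nat_lit 0) (cs (rf (nat_lit 0)) (cs (rf (nat_lit 1)) (cs (rf (nat_lit 2)) (cs (rf (nat_lit 3)) (nd (nat_lit 232) (nat_lit 0) (cs (rf (nat_lit 4)) (cs (rf (nat_lit 5)) (cs (nd (nat_lit 210) (nat_lit 0) (cs (rf (nat_lit 6)) (cs (rf (nat_lit 7)) (cs (rf (nat_lit 8)) (cs (nd (nat_lit 231) (nat_lit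 0) (cs (rf (nat_lit 9)) (cs (nd (nat_lit 233) (nat_lit 0) (cs (lf (nat_lit 6) (nat_lit 230)) (nd (nat_lit 209) (nat_lit 0) (cs (lf (nat_lit 36) (nat_lit 186)) (rf (nat_lit 10)))))) (nd (nat_lit 233) (nat_lit 0) (cs (lf (nat_lit 6) (nat_lit 230)) (nd (nat_lit 188) (nat_lit 0) (cs (lf (nat_lit 36) (nat_lit 165)) (rf (nat_lit 11))))))))) (nd (nat_lit 209) (nat_lit 0) (cs (rf (nat_lit 12)) (cs (nd (nat_lit 187) (nat_lit 0) (cs (lf (nat_lit 42) (nat_lit 187)) (rf (nat_lit 13)))) (cs (nd (nat_lit 231) (nat_lit 0) (cs (rf (nat_lit 14)) (cs (nd (nat_lit 276) (nat_lit 0) (cs (lf (nat_lit 42) (nat_lit 209)) (nd (nat_lit 275) (nat_lit 0) (cs (lf (nat_lit 41) (nat_lit 209)) (nd (nat_lit 272) (nat_lit 0) (cs (lf (nat_lit 13) (nat_lit 250)) (rf (nat_lit 15)))))))) (cs (rf (nat_lit 16)) (nd (nat_lit 276) (nat_lit 0) (cs (lf (nat_lit 42) (nat_lit 209)) (nd (nat_lit 189) (nat_lit 0) (cs (lf (nat_lit 34) (nat_lit 188)) (nd (nat_lit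 233) (nat_lit 0) (cs (lf (nat_lit 6) (nat_lit 230)) (nd (nat_lit 208) (nat_lit 0) (cs (lf (nat_lit 0) (nat_lit 207)) (nd (nat_lit 275) (nat_lit 0) (cs (lf (nat_lit 47) (nat_lit 186)) (lf (nat_lit 41) (nat_lit 209)))))))))))))))) (nd (nat_lit 187) (nat_lit 0) (cs (lf (nat_lit 38) (nat_lit 186)) (rf (nat_lit 13))))))))))))) (nd (nat_lit 275) (nat_lit 0) (cs (rf (nat_lit 17)) (cs (rf (nat_lit 18)) (nd (nat_lit 273) (nat_lit 0) (cs (rf (nat_lit 19)) (nd (nat_lit 276) (nat_lit 0) (cs (rf (nat_lit 20)) (rf (nat_lit 21)))))))))))))))))) q95630 (by decide +kernel)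
def q95777 : Q := Q.p (nat_lit 0x3000000000000000000000000000000000000000000000000000000000000000) (nat_lit 0xd0000fc0003f0001ff001dfc007cf003ffc003f00007e0000f00002c00000000000000000000000000000000000) (nat_lit 19)
theorem c95777 : QOK q95777 := cut [q92246, q92291, q92327, q79028, q81644, q79078, q79112, q81813, q81651, q79097, q95656, q95657, q93658, q95663, q95665, q95670, q81657, q92260, q4419, q80653, q95101, q79013, q81729, q92263, q92604, q79118, q81730, q79123, q79128, q79160, q79913, q79868, q95616, q81468, q93152, q95695, q95696, q83627, q79467, q95734, q81643, q83694, q93967, q95776] ⟨c92246, c92291, c92327, c79028, c81644, c79078, c79112, c81813, c81651, c79097, c95656, c95657, c93658, c95663, c95665, c95670, c81657, c92260, c4419, c80653, c95101, c79013, c81729, c92263, c92604, c79118, c81730, c79123, c79128, c79160, c79913, c79868, c95616, c81468, c93152, c95695, c95696, c83627, c79467, c95734,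 c81643, c83694, c93967, c95776, trivial⟩ (nd (nat_lit 254) (nat_lit 0) (cs (rf (nat_lit 0)) (cs (rf (nat_lit 1)) (cs (rf (nat_lit 2)) (cs (nd (nat_lit 230) (nat_lit 0) (cs (rf (nat_lit 3)) (cs (rf (nat_lit 4)) (cs (nd (nat_lit 275) (nat_lit 0) (cs (rf (nat_lit 5)) (cs (rf (nat_lit 6)) (cs (nd (nat_lit 274) (nat_lit 0) (cs (rf (nat_lit 7)) (cs (nd (nat_lit 208) (nat_lit 0) (cs (lf (nat_lit 24) (nat_lit 186)) (rf (nat_lit 8)))) (nd (nat_lit 231) (nat_lit 0) (cs (rf (nat_lit 9)) (cs (rf (nat_lit 10)) (nd (nat_lit 209) (nat_lit 0) (cs (lf (nat_lit 36) (nat_lit 186)) (nd (nat_lit 272) (nat_lit 0) (cs (lf (nat_lit 13) (nat_lit 250)) (nd (nat_lit 276) (nat_lit 0) (cs (lf (nat_lit 29) (nat_lit 209)) (rf (nat_lit 11)))))))))))))) (cs (nd (nat_lit 231) (nat_lit 0) (cs (rf (nat_lit 12)) (cs (rf (nat_lit 13)) (nd (nat_lit 228) (nat_lit 0) (cs (lf (nat_lit 1) (nat_lit 228)) (nd (nat_lit 297) (nat_lit 0) (cs (lf (nat_lit 42)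 (nat_lit 230)) (rf (nat_lit 14))))))))) (rf (nat_lit 15))))))) (nd (nat_lit 274) (nat_lit 0) (cs (rf (nat_lit 16)) (cs (rf (nat_lit 17)) (nd (nat_lit 296) (nat_lit 0) (cs (rf (nat_lit 18)) (cs (rf (nat_lit 19)) (rf (nat_lit 20)))))))))))) (cs (nd (nat_lit 251) (nat_lit 0) (cs (rf (nat_lit 21)) (cs (rf (nat_lit 22)) (cs (rf (nat_lit 23)) (rf (nat_lit 24)))))) (cs (nd (nat_lit 232) (nat_lit 0) (cs (rf (nat_lit 25)) (cs (rf (nat_lit 26)) (cs (nd (nat_lit 210) (nat_lit 0) (cs (rf (nat_lit 27)) (cs (rf (nat_lit 28)) (cs (rf (nat_lit 29)) (cs (rf (nat_lit 30)) (nd (nat_lit 209) (nat_lit 0) (cs (rf (nat_lit 31)) (cs (nd (nat_lit 276) (nat_lit 0) (cs (lf (nat_lit 47) (nat_lit 187)) (nd (nat_lit 275) (nat_lit 0) (cs (lf (nat_lit 41) (nat_lit 209)) (nd (nat_lit 211) (nat_lit 0) (cs (lf (nat_lit 35) (nat_lit 188)) (nd (nat_lit 233) (nat_lit 0) (cs (lf (nat_lit 30) (nat_lit 210)) (nd (nat_lit 234) (nat_lit 0) (cs (lf (nat_lit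 18) (nat_lit 209)) (lf (nat_lit 0) (nat_lit 208)))))))))))) (cs (nd (nat_lit 231) (nat_lit 0) (cs (rf (nat_lit 32)) (cs (nd (nat_lit 276) (nat_lit 0) (cs (lf (nat_lit 42) (nat_lit 209)) (nd (nat_lit 233) (nat_lit 0) (cs (lf (nat_lit 6) (nat_lit 230)) (nd (nat_lit 275) (nat_lit 0) (cs (lf (nat_lit 41) (nat_lit 209)) (nd (nat_lit 208) (nat_lit 0) (cs (lf (nat_lit 47) (nat_lit 186)) (rf (nat_lit 33)))))))))) (cs (nd (nat_lit 275) (nat_lit 0) (cs (lf (nat_lit 30) (nat_lit 209)) (nd (nat_lit 276) (nat_lit 0) (cs (lf (nat_lit 29) (nat_lit 209)) (nd (nat_lit 274) (nat_lit 0) (cs (lf (nat_lit 41) (nat_lit 208)) (nd (nat_lit 272) (nat_lit 0) (cs (lf (nat_lit 13) (nat_lit 250)) (nd (nat_lit 186) (nat_lit 0) (cs (lf (nat_lit 46) (nat_lit 186)) (rf (nat_lit 34)))))))))))) (cs (rf (nat_lit 35)) (nd (nat_lit 275) (nat_lit 0) (cs (lf (nat_lit 30) (nat_lit 209)) (nd (nat_lit 274) (nat_lit 0) (cs (lf (nat_lit 41) (nat_lit 208))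 (nd (nat_lit 272) (nat_lit 0) (cs (lf (nat_lit 13) (nat_lit 250)) (nd (nat_lit 186) (nat_lit 0) (cs (lf (nat_lit 46) (nat_lit 186)) (rf (nat_lit 36))))))))))))))) (nd (nat_lit 231) (nat_lit 0) (cs (rf (nat_lit 37)) (cs (rf (nat_lit 35)) (nd (nat_lit 233) (nat_lit 0) (cs (lf (nat_lit 6) (nat_lit 230)) (nd (nat_lit 275) (nat_lit 0) (cs (lf (nat_lit 30) (nat_lit 209)) (rf (nat_lit 38)))))))))))))))))) (rf (nat_lit 39)))))) (cs (nd (nat_lit 255) (nat_lit 0) (cs (rf (nat_lit 40)) (cs (rf (nat_lit 41)) (rf (nat_lit 42))))) (rf (nat_lit 43)))))))))) q95777 (by decide +kernel)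
def q95871 : Q := Q.p (nat_lit 0x3000000000000000000000000000000000000000000000000000000000000000) (nat_lit 0x300001f0001f6001dfc003ce001ffc003ff000ffc001ff0007700000000000000000000000000000000000) (nat_lit 16)
theorem c95871 : QOK q95871 := cut [q92918, q94719, q82309, q92707, q93179, q94847, q95801, q82300, q82301, q93014, q1563, q2990, q85001, q92937, q11053, q92798, q93908, q82275, q82278, q95807, q95814, q92608, q87068, q92239, q92267, q94264, q11484, q94012, q79251, q95841, q95852, q92710, q91882, q92785, q94716, q94843, q93255, q86623, q94159, q94424, q94789, q7464, q95857, q95864, q81995] ⟨c92918, c94719, c82309, c92707, c93179, c94847, c95801, c82300, c82301, c93014, c1563, c2990, c85001, c92937, c11053, c92798, c93908, c82275, c82278, c95807, c95814, c92608, c87068, c92239, c92267, c94264, c11484, c94012, c79251, c95841, c95852, c92710, c91882, c92785, c94716, c94843, c93255, c86623, c94159, c94424,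 c94789, c7464, c95857, c95864, c81995, trivial⟩ (nd (nat_lit 231) (nat_lit 0) (cs (rf (nat_lit 0)) (cs (rf (nat_lit 1)) (cs (nd (nat_lit 209) (nat_lit 0) (cs (rf (nat_lit 2)) (cs (rf (nat_lit 3)) (cs (rf (nat_lit 4)) (rf (nat_lit 5)))))) (cs (rf (nat_lit 6)) (cs (nd (nat_lit 209) (nat_lit 0) (cs (rf (nat_lit 7)) (cs (rf (nat_lit 8)) (cs (rf (nat_lit 2)) (cs (rf (nat_lit 9)) (nd (nat_lit 208) (nat_lit 0) (cs (rf (nat_lit 10)) (cs (rf (nat_lit 11)) (cs (nd (nat_lit 230) (nat_lit 0) (cs (rf (nat_lit 12)) (cs (rf (nat_lit 13)) (nd (nat_lit 274) (nat_lit 0) (cs (lf (nat_lit 30) (nat_lit 208)) (rf (nat_lit 14))))))) (nd (nat_lit 230) (nat_lit 0) (cs (rf (nat_lit 15)) (cs (rf (nat_lit 13)) (rf (nat_lit 16)))))))))))))) (cs (nd (nat_lit 251) (nat_lit 0) (cs (rf (nat_lit 17)) (cs (rf (nat_lit 18)) (cs (rf (nat_lit 19)) (rf (nat_lit 20)))))) (cs (nd (nat_lit 251) (nat_lit 0) (cs (rf (nat_lit 17)) (cs (rf (nat_lit 21))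 (nd (nat_lit 254) (nat_lit 0) (cs (rf (nat_lit 22)) (cs (rf (nat_lit 23)) (cs (rf (nat_lit 24)) (cs (rf (nat_lit 25)) (nd (nat_lit 229) (nat_lit 0) (cs (lf (nat_lit 23) (nat_lit 228)) (nd (nat_lit 207) (nat_lit 0) (cs (rf (nat_lit 26)) (cs (rf (nat_lit 27)) (nd (nat_lit 272) (nat_lit 0) (cs (lf (nat_lit 10) (nat_lit 250)) (nd (nat_lit 232) (nat_lit 0) (cs (lf (nat_lit 17) (nat_lit 229)) (nd (nat_lit 230) (nat_lit 0) (cs (lf (nat_lit 23) (nat_lit 206)) (nd (nat_lit 274) (nat_lit 0) (cs (lf (nat_lit 42) (nat_lit 207)) (rf (nat_lit 28))))))))))))))))))))))) (cs (rf (nat_lit 29)) (cs (rf (nat_lit 30)) (cs (nd (nat_lit 251) (nat_lit 0) (cs (rf (nat_lit 17)) (cs (rf (nat_lit 21)) (rf (nat_lit 20))))) (cs (nd (nat_lit 209) (nat_lit 0) (cs (rf (nat_lit 2)) (cs (rf (nat_lit 3)) (cs (rf (nat_lit 31)) (nd (nat_lit 275) (nat_lit 0) (cs (rf (nat_lit 32)) (cs (rf (nat_lit 33)) (nd (nat_lit 254) (nat_lit 0) (cs (rf (nat_lit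 34)) (rf (nat_lit 35))))))))))) (nd (nat_lit 209) (nat_lit 0) (cs (rf (nat_lit 7)) (cs (rf (nat_lit 8)) (cs (rf (nat_lit 2)) (cs (rf (nat_lit 36)) (nd (nat_lit 232) (nat_lit 0) (cs (rf (nat_lit 37)) (cs (rf (nat_lit 38)) (cs (rf (nat_lit 39)) (cs (rf (nat_lit 40)) (nd (nat_lit 210) (nat_lit 0) (cs (rf (nat_lit 41)) (cs (nd (nat_lit 229) (nat_lit 0) (cs (rf (nat_lit 42)) (cs (nd (nat_lit 251) (nat_lit 0) (cs (lf (nat_lit 12) (nat_lit 228)) (nd (nat_lit 166) (nat_lit 0) (cs (lf (nat_lit 37) (nat_lit 165)) (nd (nat_lit 228) (nat_lit 0) (cs (lf (nat_lit 18) (nat_lit 228)) (nd (nat_lit 226) (nat_lit 0) (cs (lf (nat_lit 1) (nat_lit 226)) (nd (nat_lit 207) (nat_lit 0) (cs (rf (nat_lit 26)) (lf (nat_lit 8) (nat_lit 206)))))))))))) (rf (nat_lit 43))))) (nd (nat_lit 250) (nat_lit 0) (cs (lf (nat_lit 13) (nat_lit 228)) (nd (nat_lit 275) (nat_lit 0) (cs (lf (nat_lit 30) (nat_lit 209)) (rf (nat_lit 44)))))))))))))))))))))))))))))))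 q95871 (by decide +kernel)
def q96078 : Q := Q.p (nat_lit 0x3000000000000000000000000000000000000000000000000000000000000000) (nat_lit 0x500001d0001fc000ffc003ff001dfe003cf800fff0005f80017f0001e0000500000000000000000000000000000000000) (nat_lit 15)
theorem c96078 : QOK q96078 := cut [q94394, q94701, q1999, q2091, q89928, q93920, q93509, q93525, q93526, q93536, q93539, q92326, q92618, q95973, q92239, q95976, q94172, q81192, q89625, q95993, q88933, q88941, q90752, q28471, q94508, q79111, q88337, q91728, q25883, q90842, q94338, q96004, q41536, q90094, q92729, q96030, q94384, q96035, q96039, q96042, q94337, q88599, q88944, q94651, q96077] ⟨c94394, c94701, c1999, c2091, c89928, c93920, c93509, c93525, c93526, c93536, c93539, c92326, c92618, c95973, c92239, c95976, c94172, c81192, c89625, c95993, c88933, c88941, c90752, c28471, c94508, c79111, c88337, c91728, c25883, c90842, c94338, c96004, c41536, c90094, c92729,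 c96030, c94384, c96035, c96039, c96042, c94337, c88599, c88944, c94651, c96077, trivial⟩ (nd (nat_lit 275) (nat_lit 0) (cs (rf (nat_lit 0)) (cs (rf (nat_lit 1)) (cs (nd (nat_lit 251) (nat_lit 0) (cs (rf (nat_lit 2)) (cs (rf (nat_lit 3)) (cs (rf (nat_lit 4)) (rf (nat_lit 5)))))) (cs (nd (nat_lit 251) (nat_lit 0) (cs (rf (nat_lit 4)) (cs (rf (nat_lit 6)) (cs (rf (nat_lit 7)) (cs (rf (nat_lit 8)) (cs (rf (nat_lit 9)) (cs (rf (nat_lit 10)) (nd (nat_lit 254) (nat_lit 0) (cs (rf (nat_lit 11)) (rf (nat_lit 12))))))))))) (cs (rf (nat_lit 13)) (cs (nd (nat_lit 251) (nat_lit 0) (cs (rf (nat_lit 2)) (cs (rf (nat_lit 3)) (cs (rf (nat_lit 4)) (nd (nat_lit 254) (nat_lit 0) (cs (rf (nat_lit 14)) (cs (rf (nat_lit 12)) (cs (rf (nat_lit 15)) (nd (nat_lit 297) (nat_lit 0) (cs (rf (nat_lit 16)) (cs (nd (nat_lit 272) (nat_lit 0) (cs (lf (nat_lit 10) (nat_lit 250)) (rf (nat_lit 17)))) (cs (nd (nat_lit 228) (nat_lit 0) (cs (lf (nat_lit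 22) (nat_lit 228)) (nd (nat_lit 273) (nat_lit 0) (cs (lf (nat_lit 11) (nat_lit 250)) (nd (nat_lit 274) (nat_lit 0) (cs (lf (nat_lit 6) (nat_lit 251)) (nd (nat_lit 319) (nat_lit 0) (cs (lf (nat_lit 42) (nat_lit 252)) (rf (nat_lit 18)))))))))) (rf (nat_lit 19)))))))))))))) (cs (nd (nat_lit 297) (nat_lit 0) (cs (rf (nat_lit 20)) (cs (rf (nat_lit 21)) (cs (nd (nat_lit 296) (nat_lit 0) (cs (rf (nat_lit 22)) (cs (nd (nat_lit 295) (nat_lit 0) (cs (rf (nat_lit 23)) (cs (rf (nat_lit 24)) (nd (nat_lit 230) (nat_lit 0) (cs (rf (nat_lit 25)) (cs (rf (nat_lit 26)) (nd (nat_lit 317) (nat_lit 0) (cs (lf (nat_lit 38) (nat_lit 229)) (nd (nat_lit 251) (nat_lit 0) (cs (lf (nat_lit 32) (nat_lit 229)) (nd (nat_lit 298) (nat_lit 0) (cs (lf (nat_lit 11) (nat_lit 294)) (rf (nat_lit 27)))))))))))))) (cs (nd (nat_lit 274) (nat_lit 0) (cs (rf (nat_lit 28)) (cs (rf (nat_lit 29)) (rf (nat_lit 30))))) (rf (nat_lit 31)))))) (nd (nat_lit 319)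 (nat_lit 0) (cs (rf (nat_lit 32)) (cs (rf (nat_lit 18)) (cs (rf (nat_lit 33)) (nd (nat_lit 274) (nat_lit 0) (cs (lf (nat_lit 42) (nat_lit 252)) (nd (nat_lit 318) (nat_lit 0) (cs (lf (nat_lit 41) (nat_lit 252)) (nd (nat_lit 231) (nat_lit 0) (cs (lf (nat_lit 31) (nat_lit 230)) (rf (nat_lit 34)))))))))))))))) (cs (rf (nat_lit 35)) (cs (nd (nat_lit 297) (nat_lit 0) (cs (rf (nat_lit 20)) (cs (rf (nat_lit 21)) (cs (nd (nat_lit 296) (nat_lit 0) (cs (rf (nat_lit 22)) (cs (rf (nat_lit 31)) (cs (nd (nat_lit 274) (nat_lit 0) (cs (rf (nat_lit 36)) (cs (rf (nat_lit 37)) (cs (rf (nat_lit 38)) (rf (nat_lit 39)))))) (nd (nat_lit 274) (nat_lit 0) (cs (rf (nat_lit 28)) (cs (rf (nat_lit 40)) (cs (rf (nat_lit 36)) (nd (nat_lit 318) (nat_lit 0) (cs (lf (nat_lit 30) (nat_lit 252)) (nd (nat_lit 208) (nat_lit 0) (cs (lf (nat_lit 25) (nat_lit 208)) (nd (nat_lit 251) (nat_lit 0) (cs (lf (nat_lit 47) (nat_lit 229)) (nd (nat_lit 250) (nat_lit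 0) (cs (lf (nat_lit 0) (nat_lit 249)) (nd (nat_lit 227) (nat_lit 0) (cs (lf (nat_lit 22) (nat_lit 227)) (rf (nat_lit 41)))))))))))))))))))) (nd (nat_lit 319) (nat_lit 0) (cs (rf (nat_lit 32)) (rf (nat_lit 42)))))))) (cs (nd (nat_lit 251) (nat_lit 0) (cs (rf (nat_lit 2)) (cs (rf (nat_lit 4)) (cs (rf (nat_lit 10)) (nd (nat_lit 254) (nat_lit 0) (cs (rf (nat_lit 14)) (cs (rf (nat_lit 12)) (rf (nat_lit 43))))))))) (rf (nat_lit 44))))))))))))) q96078 (by decide +kernel)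
def q96106 : Q := Q.p (nat_lit 0x3000000000000000000000000000000000000000000000000000000000000000) (nat_lit 0x500001c0000f00003c0000ff001dfe007cf003ffe003fc001ff8000f80002e00000000000000000000000000000000000) (nat_lit 15)
theorem c96106 : QOK q96106 := cut [q92246, q79013, q79256, q81729, q92263, q92291, q92327, q81675, q81752, q92334, q92342, q92344, q79028, q81644, q6259, q79041, q79066, q96080, q81657, q92248, q80524, q92249, q79044, q79118, q81677, q79123, q79128, q79160, q80981, q79167, q79276, q79868, q15499, q92276, q92287, q79169, q79199, q92271, q81679, q92269, q79079, q94269, q94317, q94327, q94320, q94322, q94324, q96105] ⟨c92246, c79013, c79256, c81729, c92263, c92291, c92327, c81675, c81752, c92334, c92342, c92344, c79028, c81644, c6259, c79041, c79066, c96080, c81657, c92248, c80524, c92249, c79044, c79118, c81677, c79123, c79128, c79160, c80981, c79167, c79276, c79868, c15499, c92276, c92287, c79169,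 c79199, c92271, c81679, c92269, c79079, c94269, c94317, c94327, c94320, c94322, c94324, c96105, trivial⟩ (nd (nat_lit 254) (nat_lit 0) (cs (rf (nat_lit 0)) (cs (nd (nat_lit 251) (nat_lit 0) (cs (rf (nat_lit 1)) (cs (rf (nat_lit 2)) (cs (rf (nat_lit 3)) (rf (nat_lit 4)))))) (cs (rf (nat_lit 5)) (cs (rf (nat_lit 6)) (cs (nd (nat_lit 251) (nat_lit 0) (cs (rf (nat_lit 2)) (cs (rf (nat_lit 7)) (cs (rf (nat_lit 8)) (cs (rf (nat_lit 9)) (rf (nat_lit 10))))))) (cs (rf (nat_lit 11)) (cs (nd (nat_lit 230) (nat_lit 0) (cs (rf (nat_lit 12)) (cs (rf (nat_lit 13)) (cs (nd (nat_lit 208) (nat_lit 0) (cs (rf (nat_lit 14)) (cs (rf (nat_lit 15)) (cs (rf (nat_lit 16)) (rf (nat_lit 17)))))) (nd (nat_lit 274) (nat_lit 0) (cs (rf (nat_lit 18)) (cs (rf (nat_lit 19)) (cs (nd (nat_lit 208) (nat_lit 0) (cs (rf (nat_lit 14)) (cs (rf (nat_lit 16)) (cs (rf (nat_lit 20)) (nd (nat_lit 275) (nat_lit 0) (cs (lf (nat_lit 29) (nat_lit 208)) (nd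 (nat_lit 255) (nat_lit 0) (cs (lf (nat_lit 6) (nat_lit 252)) (nd (nat_lit 233) (nat_lit 0) (cs (lf (nat_lit 17) (nat_lit 230)) (nd (nat_lit 185) (nat_lit 0) (cs (lf (nat_lit 46) (nat_lit 185)) (nd (nat_lit 209) (nat_lit 0) (cs (lf (nat_lit 35) (nat_lit 186)) (nd (nat_lit 231) (nat_lit 0) (cs (lf (nat_lit 41) (nat_lit 208)) (nd (nat_lit 276) (nat_lit 0) (cs (lf (nat_lit 29) (nat_lit 209)) (nd (nat_lit 210) (nat_lit 0) (cs (lf (nat_lit 35) (nat_lit 187)) (rf (nat_lit 21)))))))))))))))))))))) (nd (nat_lit 208) (nat_lit 0) (cs (rf (nat_lit 22)) (rf (nat_lit 20)))))))))))) (cs (nd (nat_lit 232) (nat_lit 0) (cs (rf (nat_lit 23)) (cs (rf (nat_lit 24)) (cs (nd (nat_lit 210) (nat_lit 0) (cs (rf (nat_lit 25)) (cs (rf (nat_lit 26)) (cs (rf (nat_lit 27)) (cs (nd (nat_lit 233) (nat_lit 0) (cs (rf (nat_lit 28)) (nd (nat_lit 275) (nat_lit 0) (cs (rf (nat_lit 29)) (cs (rf (nat_lit 30)) (nd (nat_lit 209) (nat_lit 0) (cs (rf (nat_lit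 31)) (cs (nd (nat_lit 208) (nat_lit 0) (cs (lf (nat_lit 0) (nat_lit 207)) (rf (nat_lit 32)))) (rf (nat_lit 33)))))))))) (rf (nat_lit 34))))))) (nd (nat_lit 275) (nat_lit 0) (cs (rf (nat_lit 35)) (cs (rf (nat_lit 36)) (cs (rf (nat_lit 37)) (nd (nat_lit 210) (nat_lit 0) (cs (rf (nat_lit 25)) (cs (rf (nat_lit 26)) (cs (rf (nat_lit 27)) (nd (nat_lit 273) (nat_lit 0) (cs (rf (nat_lit 38)) (cs (rf (nat_lit 39)) (nd (nat_lit 274) (nat_lit 0) (cs (rf (nat_lit 40)) (nd (nat_lit 208) (nat_lit 0) (cs (rf (nat_lit 41)) (cs (rf (nat_lit 42)) (nd (nat_lit 209) (nat_lit 0) (cs (rf (nat_lit 31)) (cs (rf (nat_lit 43)) (nd (nat_lit 211) (nat_lit 0) (cs (rf (nat_lit 44)) (cs (rf (nat_lit 45)) (rf (nat_lit 46)))))))))))))))))))))))))))) (rf (nat_lit 47))))))))))) q96106 (by decide +kernel)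
def q96229 : Q := Q.p (nat_lit 0x3000000000000000000000000000000000000000000000000000000000000000) (nat_lit 0x40000580001f00007f0007fe001ff8001ff0014f000ffc003ff000ffc000fc0003c00000000000000000000000000000000000) (nat_lit 17)
theorem c96229 : QOK q96229 := cut [q94839, q82301, q92707, q92792, q92793, q91882, q92785, q82277, q94159, q94638, q17544, q95560, q83621, q96132, q82300, q82309, q92710, q92795, q92991, q92994, q95798, q94655, q95786, q95788, q96181, q96207, q91187, q93179, q86315, q93010, q96209, q82275, q82278, q96180, q96224, q95807] ⟨c94839, c82301, c92707, c92792, c92793, c91882, c92785, c82277, c94159, c94638, c17544, c95560, c83621, c96132, c82300, c82309, c92710, c92795, c92991, c92994, c95798, c94655, c95786, c95788, c96181, c96207, c91187, c93179, c86315, c93010, c96209, c82275, c82278, c96180, c96224, c95807, trivial⟩ (nd (nat_lit 231) (nat_lit 0) (cs (rf (nat_lit 0)) (cs (nd (nat_lit 209)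 (nat_lit 0) (cs (rf (nat_lit 1)) (cs (rf (nat_lit 2)) (cs (rf (nat_lit 3)) (cs (rf (nat_lit 4)) (nd (nat_lit 275) (nat_lit 0) (cs (rf (nat_lit 5)) (cs (rf (nat_lit 6)) (cs (nd (nat_lit 210) (nat_lit 0) (cs (lf (nat_lit 35) (nat_lit 187)) (nd (nat_lit 276) (nat_lit 0) (cs (lf (nat_lit 29) (nat_lit 209)) (nd (nat_lit 251) (nat_lit 0) (cs (lf (nat_lit 0) (nat_lit 250)) (nd (nat_lit 232) (nat_lit 0) (cs (lf (nat_lit 30) (nat_lit 209)) (rf (nat_lit 7)))))))))) (nd (nat_lit 232) (nat_lit 0) (cs (rf (nat_lit 8)) (cs (rf (nat_lit 9)) (nd (nat_lit 274) (nat_lit 0) (cs (rf (nat_lit 10)) (nd (nat_lit 251) (nat_lit 0) (cs (rf (nat_lit 11)) (nd (nat_lit 210) (nat_lit 0) (cs (lf (nat_lit 35) (nat_lit 187)) (rf (nat_lit 12)))))))))))))))))))) (cs (rf (nat_lit 13)) (cs (nd (nat_lit 209) (nat_lit 0) (cs (rf (nat_lit 14)) (cs (rf (nat_lit 15)) (cs (rf (nat_lit 16)) (cs (rf (nat_lit 17)) (nd (nat_lit 275) (nat_lit 0) (cs (rf (nat_lit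 6)) (cs (rf (nat_lit 18)) (cs (rf (nat_lit 19)) (cs (rf (nat_lit 20)) (nd (nat_lit 229) (nat_lit 0) (cs (rf (nat_lit 21)) (cs (rf (nat_lit 22)) (cs (rf (nat_lit 23)) (nd (nat_lit 208) (nat_lit 0) (cs (lf (nat_lit 47) (nat_lit 186)) (nd (nat_lit 274) (nat_lit 0) (cs (lf (nat_lit 41) (nat_lit 208)) (nd (nat_lit 276) (nat_lit 0) (cs (lf (nat_lit 29) (nat_lit 209)) (nd (nat_lit 188) (nat_lit 0) (cs (lf (nat_lit 34) (nat_lit 187)) (nd (nat_lit 251) (nat_lit 0) (cs (lf (nat_lit 0) (nat_lit 250)) (nd (nat_lit 228) (nat_lit 0) (cs (lf (nat_lit 18) (nat_lit 228)) (nd (nat_lit 227) (nat_lit 0) (cs (lf (nat_lit 0) (nat_lit 226)) (nd (nat_lit 207) (nat_lit 0) (cs (lf (nat_lit 9) (nat_lit 205)) (lf (nat_lit 24) (nat_lit 185)))))))))))))))))))))))))))))))) (cs (rf (nat_lit 24)) (cs (rf (nat_lit 25)) (cs (nd (nat_lit 209) (nat_lit 0) (cs (rf (nat_lit 14)) (cs (rf (nat_lit 26)) (cs (rf (nat_lit 2)) (cs (rf (nat_lit 27)) (nd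 (nat_lit 275) (nat_lit 0) (cs (rf (nat_lit 28)) (cs (rf (nat_lit 29)) (rf (nat_lit 30)))))))))) (cs (nd (nat_lit 251) (nat_lit 0) (cs (rf (nat_lit 31)) (cs (rf (nat_lit 32)) (cs (rf (nat_lit 33)) (rf (nat_lit 34)))))) (cs (nd (nat_lit 251) (nat_lit 0) (cs (rf (nat_lit 31)) (cs (rf (nat_lit 32)) (cs (rf (nat_lit 35)) (rf (nat_lit 34)))))) (nd (nat_lit 209) (nat_lit 0) (cs (rf (nat_lit 15)) (cs (rf (nat_lit 2)) (cs (rf (nat_lit 16)) (nd (nat_lit 275) (nat_lit 0) (cs (rf (nat_lit 6)) (cs (rf (nat_lit 18)) (cs (rf (nat_lit 20)) (rf (nat_lit 30)))))))))))))))))))) q96229 (by decide +kernel)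
def q96567 : Q := Q.p (nat_lit 0x3000008000000000000000000000000000000000000000000000000000000000) (nat_lit 0x1e000078000ff8003c8000770003de0007e0001f80000000000000000000000000000000000000000) (nat_lit 16)
theorem c96567 : QOK q96567 := cut [q96505, q96512, q80089, q96514, q84950, q86860, q81878, q96520, q80973, q96454, q81488, q96530, q96534, q79250, q96537, q96539, q96544, q96551, q79548, q96303, q96352, q96355] ⟨c96505, c96512, c80089, c96514, c84950, c86860, c81878, c96520, c80973, c96454, c81488, c96530, c96534, c79250, c96537, c96539, c96544, c96551, c79548, c96303, c96352, c96355, trivial⟩ (nd (nat_lit 232) (nat_lit 0) (cs (rf (nat_lit 0)) (cs (rf (nat_lit 1)) (cs (nd (nat_lit 254) (nat_lit 0) (cs (rf (nat_lit 2)) (cs (rf (nat_lit 3)) (nd (nat_lit 255) (nat_lit 0) (cs (rf (nat_lit 4)) (cs (rf (nat_lit 5)) (nd (nat_lit 275) (nat_lit 0) (cs (rf (nat_lit 6)) (cs (nd (nat_lit 233) (nat_lit 0) (cs (lf (nat_lit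 6) (nat_lit 230)) (rf (nat_lit 7)))) (nd (nat_lit 233) (nat_lit 0) (cs (lf (nat_lit 6) (nat_lit 230)) (nd (nat_lit 277) (nat_lit 0) (cs (lf (nat_lit 5) (nat_lit 252)) (nd (nat_lit 273) (nat_lit 0) (cs (lf (nat_lit 10) (nat_lit 251)) (nd (nat_lit 297) (nat_lit 0) (cs (lf (nat_lit 30) (nat_lit 231)) (nd (nat_lit 298) (nat_lit 0) (cs (lf (nat_lit 29) (nat_lit 231)) (rf (nat_lit 8))))))))))))))))))))) (cs (nd (nat_lit 254) (nat_lit 0) (cs (rf (nat_lit 9)) (cs (nd (nat_lit 230) (nat_lit 0) (cs (rf (nat_lit 10)) (cs (rf (nat_lit 11)) (rf (nat_lit 12))))) (cs (nd (nat_lit 210) (nat_lit 0) (cs (rf (nat_lit 13)) (cs (rf (nat_lit 14)) (nd (nat_lit 229) (nat_lit 0) (cs (nd (nat_lit 230) (nat_lit 0) (cs (lf (nat_lit 17) (nat_lit 207)) (lf (nat_lit 0) (nat_lit 228)))) (cs (nd (nat_lit 297) (nat_lit 0) (cs (lf (nat_lit 31) (nat_lit 209)) (nd (nat_lit 251) (nat_lit 0) (cs (lf (nat_lit 23) (nat_lit 228)) (nd (nat_lit 272) (nat_lit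 0) (cs (lf (nat_lit 10) (nat_lit 250)) (nd (nat_lit 276) (nat_lit 0) (cs (lf (nat_lit 5) (nat_lit 251)) (rf (nat_lit 15)))))))))) (nd (nat_lit 211) (nat_lit 0) (cs (lf (nat_lit 13) (nat_lit 207)) (nd (nat_lit 212) (nat_lit 0) (cs (lf (nat_lit 6) (nat_lit 209)) (nd (nat_lit 275) (nat_lit 0) (cs (lf (nat_lit 30) (nat_lit 209)) (nd (nat_lit 276) (nat_lit 0) (cs (lf (nat_lit 35) (nat_lit 188)) (rf (nat_lit 16)))))))))))))))) (cs (rf (nat_lit 17)) (nd (nat_lit 230) (nat_lit 0) (cs (rf (nat_lit 18)) (cs (rf (nat_lit 10)) (nd (nat_lit 255) (nat_lit 0) (cs (lf (nat_lit 18) (nat_lit 230)) (nd (nat_lit 277) (nat_lit 0) (cs (lf (nat_lit 5) (nat_lit 252)) (nd (nat_lit 276) (nat_lit 0) (cs (lf (nat_lit 0) (nat_lit 251)) (nd (nat_lit 188) (nat_lit 0) (cs (lf (nat_lit 25) (nat_lit 188)) (nd (nat_lit 298) (nat_lit 0) (cs (lf (nat_lit 42) (nat_lit 231)) (nd (nat_lit 297) (nat_lit 0) (cs (lf (nat_lit 41) (nat_lit 231)) (nd (nat_lit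 295) (nat_lit 0) (cs (lf (nat_lit 13) (nat_lit 273)) (nd (nat_lit 208) (nat_lit 0) (cs (lf (nat_lit 43) (nat_lit 208)) (nd (nat_lit 186) (nat_lit 0) (cs (lf (nat_lit 24) (nat_lit 164)) (nd (nat_lit 185) (nat_lit 0) (cs (lf (nat_lit 47) (nat_lit 163)) (nd (nat_lit 207) (nat_lit 0) (cs (lf (nat_lit 42) (nat_lit 185)) (nd (nat_lit 187) (nat_lit 0) (cs (lf (nat_lit 35) (nat_lit 164)) (lf (nat_lit 11) (nat_lit 184)))))))))))))))))))))))))))))))))) (nd (nat_lit 230) (nat_lit 0) (cs (rf (nat_lit 19)) (cs (rf (nat_lit 20)) (rf (nat_lit 21)))))))))) q96567 (by decide +kernel)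
def q96713 : Q := Q.p (nat_lit 0x2000008000020000000000000000000000000000000000000000000000000000) (nat_lit 0x700001c000100001f7800fdc000f78000d00003400000000000000000000000000000000000) (nat_lit 10)
theorem c96713 : QOK q96713 := cut [q7464, q96705, q96707, q96712] ⟨c7464, c96705, c96707, c96712, trivial⟩ (nd (nat_lit 210) (nat_lit 0) (cs (rf (nat_lit 0)) (cs (rf (nat_lit 1)) (cs (nd (nat_lit 275) (nat_lit 0) (cs (lf (nat_lit 35) (nat_lit 187)) (nd (nat_lit 276) (nat_lit 0) (cs (lf (nat_lit 29) (nat_lit 209)) (nd (nat_lit 274) (nat_lit 0) (cs (lf (nat_lit 41) (nat_lit 208)) (rf (nat_lit 2)))))))) (rf (nat_lit 3)))))) q96713 (by decide +kernel)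
def q97234 : Q := Q.p (nat_lit 0x2000008000000000000000000000000000000000000000000000000000000000) (nat_lit 0x1f00007c000f7c007df000f7c003ff001ff8003fc0003f00009c00005000000000000000000000000) (nat_lit 15)
theorem c97234 : QOK q97234 := cut [q96820, q96847, q96877, q96915, q96409, q96786, q96867, q96917, q96920, q96952, q96956, q79097, q89933, q22271, q86677, q92012, q96988, q97013, q97023, q96764, q96768, q96769, q85172, q97052, q84443, q90285, q9779, q87968, q97055, q97091, q97108, q97121, q97171, q96758, q96836, q97173, q97185, q97188, q97189, q97192, q96981, q97207, q97222, q97225, q97231] ⟨c96820, c96847, c96877, c96915, c96409, c96786, c96867, c96917, c96920, c96952, c96956, c79097, c89933, c22271, c86677, c92012, c96988, c97013, c97023, c96764, c96768, c96769, c85172, c97052, c84443, c90285, c9779, c87968, c97055, c97091, c97108, c97121, c97171, c96758, c96836, c97173, c97185, c97188, c97189, c97192, c96981,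 c97207, c97222, c97225, c97231, trivial⟩ (nd (nat_lit 230) (nat_lit 0) (cs (rf (nat_lit 0)) (cs (rf (nat_lit 1)) (cs (rf (nat_lit 2)) (cs (rf (nat_lit 3)) (cs (nd (nat_lit 252) (nat_lit 0) (cs (rf (nat_lit 4)) (cs (rf (nat_lit 5)) (cs (rf (nat_lit 6)) (cs (rf (nat_lit 7)) (cs (rf (nat_lit 8)) (cs (rf (nat_lit 9)) (cs (rf (nat_lit 10)) (nd (nat_lit 274) (nat_lit 0) (cs (rf (nat_lit 11)) (cs (rf (nat_lit 12)) (nd (nat_lit 208) (nat_lit 0) (cs (rf (nat_lit 13)) (cs (rf (nat_lit 14)) (rf (nat_lit 15)))))))))))))))) (cs (rf (nat_lit 16)) (cs (rf (nat_lit 17)) (cs (rf (nat_lit 18)) (cs (nd (nat_lit 229) (nat_lit 0) (cs (rf (nat_lit 19)) (cs (rf (nat_lit 20)) (cs (rf (nat_lit 21)) (nd (nat_lit 207) (nat_lit 0) (cs (rf (nat_lit 22)) (cs (rf (nat_lit 23)) (cs (nd (nat_lit 252) (nat_lit 0) (cs (rf (nat_lit 24)) (cs (rf (nat_lit 25)) (cs (nd (nat_lit 251) (nat_lit 0) (cs (rf (nat_lit 26)) (rf (nat_lit 27)))) (nd (nat_lit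 251) (nat_lit 0) (cs (rf (nat_lit 26)) (nd (nat_lit 274) (nat_lit 0) (cs (lf (nat_lit 42) (nat_lit 207)) (nd (nat_lit 187) (nat_lit 0) (cs (lf (nat_lit 37) (nat_lit 186)) (nd (nat_lit 254) (nat_lit 0) (cs (lf (nat_lit 18) (nat_lit 229)) (rf (nat_lit 28)))))))))))))) (rf (nat_lit 29)))))))))) (cs (rf (nat_lit 30)) (cs (rf (nat_lit 31)) (cs (rf (nat_lit 32)) (cs (nd (nat_lit 229) (nat_lit 0) (cs (rf (nat_lit 33)) (cs (rf (nat_lit 21)) (cs (rf (nat_lit 34)) (cs (nd (nat_lit 251) (nat_lit 0) (cs (rf (nat_lit 35)) (cs (rf (nat_lit 36)) (cs (rf (nat_lit 37)) (cs (rf (nat_lit 38)) (cs (nd (nat_lit 232) (nat_lit 0) (cs (lf (nat_lit 11) (nat_lit 228)) (nd (nat_lit 206) (nat_lit 0) (cs (lf (nat_lit 22) (nat_lit 206)) (nd (nat_lit 233) (nat_lit 0) (cs (lf (nat_lit 10) (nat_lit 229)) (rf (nat_lit 39)))))))) (nd (nat_lit 232) (nat_lit 0) (cs (lf (nat_lit 11) (nat_lit 228)) (nd (nat_lit 206) (nat_lit 0) (cs (lf (nat_lit 22)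 (nat_lit 206)) (nd (nat_lit 233) (nat_lit 0) (cs (lf (nat_lit 10) (nat_lit 229)) (nd (nat_lit 212) (nat_lit 0) (cs (lf (nat_lit 16) (nat_lit 208)) (nd (nat_lit 234) (nat_lit 0) (cs (lf (nat_lit 17) (nat_lit 209)) (nd (nat_lit 208) (nat_lit 0) (cs (lf (nat_lit 22) (nat_lit 208)) (nd (nat_lit 164) (nat_lit 0) (cs (lf (nat_lit 25) (nat_lit 164)) (nd (nat_lit 273) (nat_lit 0) (cs (lf (nat_lit 30) (nat_lit 207)) (rf (nat_lit 40)))))))))))))))))))))))) (rf (nat_lit 41))))))) (cs (rf (nat_lit 42)) (nd (nat_lit 229) (nat_lit 0) (cs (rf (nat_lit 19)) (cs (rf (nat_lit 21)) (cs (rf (nat_lit 41)) (nd (nat_lit 251) (nat_lit 0) (cs (rf (nat_lit 35)) (cs (rf (nat_lit 36)) (cs (rf (nat_lit 38)) (cs (rf (nat_lit 43)) (rf (nat_lit 44)))))))))))))))))))))))))) q97234 (by decide +kernel)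
def q97783 : Q := Q.p (nat_lit 0x2000008000000000000000000000000000000000000000000000000000000000) (nat_lit 0x400001c0000780005fc0077e000ff8007df000f78007ee0003f0000fc0001400000000000000000000000000000000000) (nat_lit 19)
theorem c97783 : QOK q97783 := cut [q97532, q97578, q97587, q97588, q97593, q97669, q97683, q97531, q97589, q97689, q97691, q97697, q97702, q97782] ⟨c97532, c97578, c97587, c97588, c97593, c97669, c97683, c97531, c97589, c97689, c97691, c97697, c97702, c97782, trivial⟩ (nd (nat_lit 275) (nat_lit 0) (cs (rf (nat_lit 0)) (cs (rf (nat_lit 1)) (cs (rf (nat_lit 2)) (cs (rf (nat_lit 3)) (cs (rf (nat_lit 4)) (cs (rf (nat_lit 5)) (cs (rf (nat_lit 6)) (cs (nd (nat_lit 297) (nat_lit 0) (cs (rf (nat_lit 7)) (cs (rf (nat_lit 8)) (cs (rf (nat_lit 9)) (cs (nd (nat_lit 318) (nat_lit 0) (cs (lf (nat_lit 40) (nat_lit 230)) (nd (nat_lit 319) (nat_lit 0) (cs (lf (nat_lit 41) (nat_lit 252)) (nd (nat_lit 232) (nat_lit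 0) (cs (lf (nat_lit 34) (nat_lit 231)) (nd (nat_lit 342) (nat_lit 0) (cs (lf (nat_lit 28) (nat_lit 253)) (rf (nat_lit 10)))))))))) (nd (nat_lit 298) (nat_lit 0) (cs (lf (nat_lit 29) (nat_lit 231)) (nd (nat_lit 209) (nat_lit 0) (cs (lf (nat_lit 28) (nat_lit 209)) (nd (nat_lit 274) (nat_lit 0) (cs (lf (nat_lit 41) (nat_lit 208)) (rf (nat_lit 11))))))))))))) (cs (rf (nat_lit 12)) (rf (nat_lit 13)))))))))))) q97783 (by decide +kernel)
def q97915 : Q := Q.p (nat_lit 0x2000008000000000000000000000000000000000000000000000000000000000) (nat_lit 0x500001c00077c000ff8003de001f7c00ffe000fb8000f00003c00005000000000000000000000000000000) (nat_lit 15)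
theorem c97915 : QOK q97915 := cut [q96742, q97242, q97265, q97807, q97832, q7464, q97549, q97853, q84327, q85178, q97785, q97289, q97864, q97866, q85190, q97288, q97872, q97875, q97912, q10519, q92814, q97863, q96314, q96655, q96741] ⟨c96742, c97242, c97265, c97807, c97832, c7464, c97549, c97853, c84327, c85178, c97785, c97289, c97864, c97866, c85190, c97288, c97872, c97875, c97912, c10519, c92814, c97863, c96314, c96655, c96741, trivial⟩ (nd (nat_lit 209) (nat_lit 0) (cs (rf (nat_lit 0)) (cs (rf (nat_lit 1)) (cs (rf (nat_lit 2)) (cs (rf (nat_lit 3)) (cs (rf (nat_lit 4)) (cs (nd (nat_lit 210) (nat_lit 0) (cs (rf (nat_lit 5)) (cs (nd (nat_lit 275) (nat_lit 0) (cs (lf (nat_lit 35) (nat_lit 187)) (nd (nat_lit 276) (nat_lit 0) (cs (lf (nat_lit 29) (nat_lit 209)) (nd (nat_lit 296) (nat_lit 0) (cs (lf (nat_lit 40) (nat_lit 208)) (nd (nat_lit 297) (nat_lit 0) (cs (lf (nat_lit 41) (nat_lit 230)) (nd (nat_lit 294) (nat_lit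 0) (cs (lf (nat_lit 13) (nat_lit 272)) (nd (nat_lit 277) (nat_lit 0) (cs (lf (nat_lit 6) (nat_lit 274)) (nd (nat_lit 230) (nat_lit 0) (cs (lf (nat_lit 47) (nat_lit 208)) (nd (nat_lit 211) (nat_lit 0) (cs (lf (nat_lit 6) (nat_lit 208)) (nd (nat_lit 228) (nat_lit 0) (cs (lf (nat_lit 13) (nat_lit 206)) (nd (nat_lit 252) (nat_lit 0) (cs (lf (nat_lit 42) (nat_lit 230)) (rf (nat_lit 6)))))))))))))))))))))) (cs (rf (nat_lit 7)) (nd (nat_lit 230) (nat_lit 0) (cs (rf (nat_lit 8)) (cs (rf (nat_lit 9)) (nd (nat_lit 275) (nat_lit 0) (cs (rf (nat_lit 10)) (nd (nat_lit 297) (nat_lit 0) (cs (lf (nat_lit 34) (nat_lit 209)) (lf (nat_lit 47) (nat_lit 208))))))))))))) (cs (nd (nat_lit 188) (nat_lit 0) (cs (rf (nat_lit 11)) (cs (rf (nat_lit 12)) (rf (nat_lit 13))))) (cs (nd (nat_lit 275) (nat_lit 0) (cs (rf (nat_lit 14)) (cs (rf (nat_lit 15)) (cs (rf (nat_lit 16)) (rf (nat_lit 17)))))) (cs (rf (nat_lit 18)) (cs (nd (nat_lit 187)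 (nat_lit 0) (cs (rf (nat_lit 19)) (cs (rf (nat_lit 20)) (rf (nat_lit 21))))) (nd (nat_lit 275) (nat_lit 0) (cs (rf (nat_lit 22)) (cs (rf (nat_lit 23)) (rf (nat_lit 24)))))))))))))))) q97915 (by decide +kernel)
def q98073 : Q := Q.p (nat_lit 0x2000008000020000000000000000000000000000000000000000000000000000) (nat_lit 0x300000c000000000f7c001df800f7e000500001400000000000000000000000000000000000) (nat_lit 10)
theorem c98073 : QOK q98073 := cut [q1563, q93250, q98071, q98072] ⟨c1563, c93250, c98071, c98072, trivial⟩ (nd (nat_lit 208) (nat_lit 0) (cs (rf (nat_lit 0)) (cs (rf (nat_lit 1)) (cs (rf (nat_lit 2)) (rf (nat_lit 3)))))) q98073 (by decide +kernel)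
def q98118 : Q := Q.p (nat_lit 0x2000008000000000000000000000000000000000000000000000000000000000) (nat_lit 0xc0000700001e00016c0007f0007df000f7c001ff000ffc001fc0000f00003400000000000000000000000000000) (nat_lit 17)
theorem c98118 : QOK q98118 := cut [q96847, q96915, q96988, q97023, q97108, q97121, q97222, q98051, q98058, q98061, q96764, q96769, q98013, q97987, q98012, q98091, q98107, q81896, q97683, q97957, q98028, q98112] ⟨c96847, c96915, c96988, c97023, c97108, c97121, c97222, c98051, c98058, c98061, c96764, c96769, c98013, c97987, c98012, c98091, c98107, c81896, c97683, c97957, c98028, c98112, trivial⟩ (nd (nat_lit 230) (nat_lit 0) (cs (rf (nat_lit 0)) (cs (rf (nat_lit 1)) (cs (rf (nat_lit 2)) (cs (rf (nat_lit 3)) (cs (rf (nat_lit 4)) (cs (rf (nat_lit 5)) (cs (rf (nat_lit 6)) (cs (rf (nat_lit 7)) (cs (rf (nat_lit 8)) (cs (rf (nat_lit 9)) (cs (nd (nat_lit 229) (nat_lit 0) (cs (rf (nat_lit 10)) (cs (rf (nat_lit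 11)) (cs (rf (nat_lit 12)) (nd (nat_lit 208) (nat_lit 0) (cs (rf (nat_lit 13)) (cs (rf (nat_lit 14)) (cs (rf (nat_lit 15)) (rf (nat_lit 16)))))))))) (nd (nat_lit 275) (nat_lit 0) (cs (rf (nat_lit 17)) (cs (rf (nat_lit 18)) (cs (rf (nat_lit 19)) (cs (rf (nat_lit 20)) (nd (nat_lit 297) (nat_lit 0) (cs (lf (nat_lit 47) (nat_lit 208)) (nd (nat_lit 210) (nat_lit 0) (cs (lf (nat_lit 34) (nat_lit 209)) (nd (nat_lit 188) (nat_lit 0) (cs (lf (nat_lit 33) (nat_lit 187)) (nd (nat_lit 298) (nat_lit 0) (cs (lf (nat_lit 29) (nat_lit 231)) (rf (nat_lit 21))))))))))))))))))))))))))) q98118 (by decide +kernel)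
def q98180 : Q := Q.p (nat_lit 0x2000008000000000000000000000000000000000000000000000000000000000) (nat_lit 0x100000700001e00003e000ff8003df000f78003ff0007f0000fe0001c00005000000000000000000000000000000) (nat_lit 16)
theorem c98180 : QOK q98180 := cut [q97782, q97976, q98068, q96724, q96741, q97786, q97957, q98036, q98121, q87016, q97958, q97964, q98133, q97347, q98134, q97408, q97409, q97945, q22203, q98137, q98138, q98139, q82275, q97319, q97337, q80728, q96324, q98151, q98162, q97241, q97971, q79273, q98170, q98178, q98179] ⟨c97782, c97976, c98068, c96724, c96741, c97786, c97957, c98036, c98121, c87016, c97958, c97964, c98133, c97347, c98134, c97408, c97409, c97945, c22203, c98137, c98138, c98139, c82275, c97319, c97337, c80728, c96324, c98151, c98162, c97241, c97971, c79273, c98170, c98178, c98179, trivial⟩ (nd (nat_lit 275) (nat_lit 0) (cs (rf (nat_lit 0)) (cs (rf (nat_lit 1)) (cs (rf (nat_lit 2)) (cs (nd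 (nat_lit 209) (nat_lit 0) (cs (rf (nat_lit 3)) (cs (rf (nat_lit 4)) (rf (nat_lit 5))))) (cs (nd (nat_lit 230) (nat_lit 0) (cs (rf (nat_lit 6)) (cs (rf (nat_lit 7)) (cs (rf (nat_lit 8)) (nd (nat_lit 232) (nat_lit 0) (cs (rf (nat_lit 9)) (cs (rf (nat_lit 10)) (rf (nat_lit 11))))))))) (cs (rf (nat_lit 12)) (cs (nd (nat_lit 274) (nat_lit 0) (cs (rf (nat_lit 13)) (cs (rf (nat_lit 14)) (cs (nd (nat_lit 273) (nat_lit 0) (cs (rf (nat_lit 15)) (cs (rf (nat_lit 16)) (cs (rf (nat_lit 17)) (nd (nat_lit 251) (nat_lit 0) (cs (nd (nat_lit 250) (nat_lit 0) (cs (lf (nat_lit 18) (nat_lit 250)) (rf (nat_lit 18)))) (cs (rf (nat_lit 19)) (cs (nd (nat_lit 252) (nat_lit 0) (cs (rf (nat_lit 20)) (rf (nat_lit 21)))) (nd (nat_lit 252) (nat_lit 0) (cs (rf (nat_lit 22)) (rf (nat_lit 21)))))))))))) (nd (nat_lit 254) (nat_lit 0) (cs (rf (nat_lit 23)) (cs (rf (nat_lit 24)) (cs (nd (nat_lit 273) (nat_lit 0) (cs (lf (nat_lit 12) (nat_lit 250))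 (nd (nat_lit 209) (nat_lit 0) (cs (rf (nat_lit 25)) (cs (rf (nat_lit 26)) (rf (nat_lit 27))))))) (rf (nat_lit 28)))))))))) (cs (nd (nat_lit 209) (nat_lit 0) (cs (rf (nat_lit 29)) (cs (rf (nat_lit 30)) (cs (nd (nat_lit 210) (nat_lit 0) (cs (lf (nat_lit 35) (nat_lit 187)) (nd (nat_lit 232) (nat_lit 0) (cs (lf (nat_lit 30) (nat_lit 209)) (rf (nat_lit 31)))))) (rf (nat_lit 32)))))) (cs (rf (nat_lit 33)) (rf (nat_lit 34)))))))))))) q98180 (by decide +kernel)
def q98243 : Q := Q.p (nat_lit 0x6000008000000000000000000000000000000000000000000000000000000000) (nat_lit 0x500001f00001c000f7e001ff800ffe000700001400000000000000000000000000000000000) (nat_lit 14)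
theorem c98243 : QOK q98243 := cut [q80728, q80931, q96337, q1563, q98071, q98072, q119, q84358, q98238, q98240] ⟨c80728, c80931, c96337, c1563, c98071, c98072, c119, c84358, c98238, c98240, trivial⟩ (nd (nat_lit 209) (nat_lit 0) (cs (rf (nat_lit 0)) (cs (rf (nat_lit 1)) (cs (rf (nat_lit 2)) (nd (nat_lit 208) (nat_lit 0) (cs (rf (nat_lit 3)) (cs (rf (nat_lit 4)) (cs (rf (nat_lit 5)) (nd (nat_lit 207) (nat_lit 0) (cs (rf (nat_lit 6)) (cs (nd (nat_lit 275) (nat_lit 0) (cs (lf (nat_lit 47) (nat_lit 186)) (nd (nat_lit 210) (nat_lit 0) (cs (lf (nat_lit 35) (nat_lit 187)) (nd (nat_lit 276) (nat_lit 0) (cs (lf (nat_lit 29) (nat_lit 209)) (nd (nat_lit 184) (nat_lit 0) (cs (lf (nat_lit 22) (nat_lit 184)) (nd (nat_lit 274) (nat_lit 0) (cs (lf (nat_lit 41) (nat_lit 208)) (rf (nat_lit 7)))))))))))) (cs (nd (nat_lit 275) (nat_lit 0) (cs (lf (nat_lit 47) (nat_lit 186)) (nd (nat_lit 210) (nat_lit 0) (cs (lf (nat_lit 35) (nat_lit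 187)) (nd (nat_lit 276) (nat_lit 0) (cs (lf (nat_lit 29) (nat_lit 209)) (nd (nat_lit 185) (nat_lit 0) (cs (lf (nat_lit 23) (nat_lit 184)) (nd (nat_lit 232) (nat_lit 0) (cs (lf (nat_lit 5) (nat_lit 207)) (nd (nat_lit 189) (nat_lit 0) (cs (lf (nat_lit 34) (nat_lit 188)) (nd (nat_lit 229) (nat_lit 0) (cs (lf (nat_lit 11) (nat_lit 206)) (nd (nat_lit 274) (nat_lit 0) (cs (lf (nat_lit 41) (nat_lit 208)) (nd (nat_lit 251) (nat_lit 0) (cs (lf (nat_lit 28) (nat_lit 185)) (nd (nat_lit 272) (nat_lit 0) (cs (lf (nat_lit 40) (nat_lit 184)) (lf (nat_lit 13) (nat_lit 250)))))))))))))))))))))) (cs (rf (nat_lit 8)) (rf (nat_lit 9))))))))))))))) q98243 (by decide +kernel)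
def q98279 : Q := Q.p (nat_lit 0x6000008000000000000000000000000000000000000000000000000000000000) (nat_lit 0x140000f800039c001f7c001ff800ffe000700001400000000000000000000000000000000000) (nat_lit 15)
theorem c98279 : QOK q98279 := cut [q80728, q80931, q96725, q98196, q80819, q96570, q96472, q98248, q1563, q98071, q98072, q22155, q98272, q98277] ⟨c80728, c80931, c96725, c98196, c80819, c96570, c96472, c98248, c1563, c98071, c98072, c22155, c98272, c98277, trivial⟩ (nd (nat_lit 209) (nat_lit 0) (cs (rf (nat_lit 0)) (cs (rf (nat_lit 1)) (cs (rf (nat_lit 2)) (cs (rf (nat_lit 3)) (nd (nat_lit 255) (nat_lit 0) (cs (rf (nat_lit 4)) (cs (rf (nat_lit 5)) (cs (nd (nat_lit 252) (nat_lit 0) (cs (rf (nat_lit 6)) (cs (rf (nat_lit 7)) (cs (nd (nat_lit 208) (nat_lit 0) (cs (rf (nat_lit 8)) (cs (rf (nat_lit 9)) (cs (rf (nat_lit 10)) (nd (nat_lit 233) (nat_lit 0) (cs (lf (nat_lit 17) (nat_lit 230)) (nd (nat_lit 277) (nat_lit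 0) (cs (lf (nat_lit 5) (nat_lit 252)) (nd (nat_lit 275) (nat_lit 0) (cs (lf (nat_lit 47) (nat_lit 186)) (nd (nat_lit 276) (nat_lit 0) (cs (lf (nat_lit 29) (nat_lit 209)) (nd (nat_lit 210) (nat_lit 0) (cs (lf (nat_lit 35) (nat_lit 187)) (nd (nat_lit 189) (nat_lit 0) (cs (rf (nat_lit 11)) (lf (nat_lit 37) (nat_lit 188)))))))))))))))))) (rf (nat_lit 12)))))) (rf (nat_lit 13))))))))))) q98279 (by decide +kernel)
def q98678 : Q := Q.p (nat_lit 0xc00003000000000000000000000000000000000000000000000000000000000000000) (nat_lit 0x380000e00001e0000000000e0007f8001fe0000e0000000000000000000000000000000000000000000000) (nat_lit 13)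
theorem c98678 : QOK q98678 := cut [q11506, q98392, q80993, q98394, q98676] ⟨c11506, c98392, c80993, c98394, c98676, trivial⟩ (nd (nat_lit 296) (nat_lit 0) (cs (rf (nat_lit 0)) (cs (rf (nat_lit 1)) (nd (nat_lit 230) (nat_lit 0) (cs (rf (nat_lit 2)) (cs (rf (nat_lit 3)) (rf (nat_lit 4)))))))) q98678 (by decide +kernel)
def q99041 : Q := Q.p (nat_lit 0xc00003000000000000000000000000000000000000000000000000000000000000000) (nat_lit 0x380000f80007e0000380000e000078000fe0000e0000000000000000000000000000000000000000000000) (nat_lit 13)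
theorem c99041 : QOK q99041 := cut [q98468, q98863, q99040] ⟨c98468, c98863, c99040, trivial⟩ (nd (nat_lit 230) (nat_lit 0) (cs (rf (nat_lit 0)) (cs (rf (nat_lit 1)) (rf (nat_lit 2))))) q99041 (by decide +kernel)
def q99592 : Q := Q.p (nat_lit 0x800002000000000000000000000000000000000000000000000000000000000000000) (nat_lit 0x140000fe0003ff003ef80077f000dfc007ff001ff0007f80003a0000800000000000000000000000000000000000) (nat_lit 19)
theorem c99592 : QOK q99592 := cut [q98520, q98747, q98759, q88933, q88941, q99474, q2579, q94171, q99476, q1999, q24207, q99489, q32034, q88936, q90852, q99495, q99516, q99585, q99586, q99591] ⟨c98520, c98747, c98759, c88933, c88941, c99474, c2579, c94171, c99476, c1999, c24207, c99489, c32034, c88936, c90852, c99495, c99516, c99585, c99586, c99591, trivial⟩ (nd (nat_lit 252) (nat_lit 0) (cs (rf (nat_lit 0)) (cs (rf (nat_lit 1)) (cs (rf (nat_lit 2)) (cs (nd (nat_lit 297) (nat_lit 0)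 (cs (rf (nat_lit 3)) (cs (rf (nat_lit 4)) (cs (rf (nat_lit 5)) (nd (nat_lit 319) (nat_lit 0) (cs (rf (nat_lit 6)) (cs (rf (nat_lit 7)) (nd (nat_lit 318) (nat_lit 0) (cs (lf (nat_lit 41) (nat_lit 252)) (rf (nat_lit 8))))))))))) (cs (nd (nat_lit 251) (nat_lit 0) (cs (rf (nat_lit 9)) (cs (rf (nat_lit 10)) (cs (nd (nat_lit 297) (nat_lit 0) (cs (rf (nat_lit 3)) (cs (rf (nat_lit 11)) (cs (nd (nat_lit 231) (nat_lit 0) (cs (rf (nat_lit 12)) (cs (rf (nat_lit 13)) (rf (nat_lit 14))))) (rf (nat_lit 15)))))) (rf (nat_lit 16)))))) (cs (rf (nat_lit 17)) (cs (rf (nat_lit 18)) (rf (nat_lit 19)))))))))) q99592 (by decide +kernel)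
def q100460 : Q := Q.p (nat_lit 0x800002000000000000000000000000000000000000000000000000000000000000000) (nat_lit 0x400007c0003fc001ff801ffe003f7c00edf0007fc001bf0001f0000780001000000000000000000000000000000000000) (nat_lit 16)
theorem c100460 : QOK q100460 := cut [q99785, q99839, q100226, q100303, q100353, q100380, q16715, q99782, q100018, q98694, q99772, q99844, q700, q98955, q98810, q99629, q100321, q97286, q100384, q100386, q100391, q100434, q88742, q88915, q90494, q84365, q100417, q2091, q24207, q79020, q100358, q100361, q81477, q100443, q15512, q99922, q100444, q89238, q99931, q99934, q99953, q100220, q100457] ⟨c99785, c99839, c100226, c100303, c100353, c100380, c16715, c99782, c100018, c98694, c99772, c99844, c700, c98955, c98810, c99629, c100321, c97286, c100384, c100386, c100391, c100434, c88742, c88915, c90494, c84365, c100417, c2091, c24207, c79020, c100358, c100361, c81477, c100443, c15512, c99922,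 c100444, c89238, c99931, c99934, c99953, c100220, c100457, trivial⟩ (nd (nat_lit 276) (nat_lit 0) (cs (rf (nat_lit 0)) (cs (rf (nat_lit 1)) (cs (rf (nat_lit 2)) (cs (rf (nat_lit 3)) (cs (rf (nat_lit 4)) (cs (rf (nat_lit 5)) (cs (nd (nat_lit 277) (nat_lit 0) (cs (rf (nat_lit 6)) (cs (rf (nat_lit 7)) (cs (rf (nat_lit 8)) (nd (nat_lit 274) (nat_lit 0) (cs (rf (nat_lit 9)) (cs (rf (nat_lit 10)) (cs (rf (nat_lit 11)) (nd (nat_lit 252) (nat_lit 0x2000000000000000000000000000000000000000000000000000000000000000000000) (cs (rf (nat_lit 12)) (rf (nat_lit 13)))))))))))) (cs (nd (nat_lit 231) (nat_lit 0) (cs (rf (nat_lit 14)) (cs (rf (nat_lit 15)) (cs (rf (nat_lit 16)) (cs (nd (nat_lit 297) (nat_lit 0) (cs (rf (nat_lit 17)) (cs (rf (nat_lit 18)) (nd (nat_lit 298) (nat_lit 0) (cs (lf (nat_lit 29) (nat_lit 231)) (rf (nat_lit 19))))))) (rf (nat_lit 20))))))) (cs (rf (nat_lit 21)) (cs (nd (nat_lit 231) (nat_lit 0) (cs (rf (nat_lit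 14)) (cs (rf (nat_lit 15)) (cs (rf (nat_lit 16)) (cs (rf (nat_lit 20)) (nd (nat_lit 252) (nat_lit 0) (cs (rf (nat_lit 22)) (cs (rf (nat_lit 23)) (cs (rf (nat_lit 24)) (cs (nd (nat_lit 297) (nat_lit 0) (cs (rf (nat_lit 25)) (cs (rf (nat_lit 17)) (rf (nat_lit 26))))) (nd (nat_lit 251) (nat_lit 0) (cs (rf (nat_lit 27)) (cs (rf (nat_lit 28)) (nd (nat_lit 254) (nat_lit 0) (cs (rf (nat_lit 29)) (cs (rf (nat_lit 30)) (cs (rf (nat_lit 31)) (nd (nat_lit 229) (nat_lit 0) (cs (lf (nat_lit 23) (nat_lit 228)) (nd (nat_lit 272) (nat_lit 0) (cs (lf (nat_lit 10) (nat_lit 250)) (nd (nat_lit 230) (nat_lit 0) (cs (lf (nat_lit 18) (nat_lit 229)) (rf (nat_lit 32))))))))))))))))))))))))) (cs (nd (nat_lit 277) (nat_lit 0) (cs (rf (nat_lit 6)) (cs (rf (nat_lit 7)) (cs (rf (nat_lit 33)) (nd (nat_lit 298) (nat_lit 0) (cs (rf (nat_lit 34)) (cs (rf (nat_lit 35)) (cs (nd (nat_lit 274) (nat_lit 0) (cs (rf (nat_lit 9)) (cs (rf (nat_lit 10))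 (cs (rf (nat_lit 11)) (nd (nat_lit 297) (nat_lit 0) (cs (rf (nat_lit 36)) (nd (nat_lit 296) (nat_lit 0) (cs (lf (nat_lit 11) (nat_lit 273)) (nd (nat_lit 209) (nat_lit 0) (cs (lf (nat_lit 37) (nat_lit 208)) (nd (nat_lit 299) (nat_lit 0) (cs (lf (nat_lit 18) (nat_lit 274)) (rf (nat_lit 37)))))))))))))) (nd (nat_lit 320) (nat_lit 0) (cs (lf (nat_lit 42) (nat_lit 253)) (nd (nat_lit 254) (nat_lit 0) (cs (rf (nat_lit 38)) (cs (rf (nat_lit 39)) (cs (rf (nat_lit 40)) (nd (nat_lit 233) (nat_lit 0) (cs (lf (nat_lit 34) (nat_lit 232)) (nd (nat_lit 319) (nat_lit 0) (cs (lf (nat_lit 41) (nat_lit 253)) (rf (nat_lit 41)))))))))))))))))))) (nd (nat_lit 231) (nat_lit 0) (cs (rf (nat_lit 14)) (cs (rf (nat_lit 15)) (cs (rf (nat_lit 16)) (cs (rf (nat_lit 20)) (nd (nat_lit 297) (nat_lit 0) (cs (rf (nat_lit 25)) (cs (rf (nat_lit 19)) (rf (nat_lit 42)))))))))))))))))))))) q100460 (by decide +kernel)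
def q100829 : Q := Q.p (nat_lit 0x800002000000000000000000000000000000000000000000000000000000000000000) (nat_lit 0xdc000370001fe00077c000df000ffc003ff000ff80007c0000d00000000000000000000000000000000000) (nat_lit 19)
theorem c100829 : QOK q100829 := cut [q98520, q98541, q98747, q98759, q98761, q98783, q98385, q98390, q98460, q98505, q79068, q11506, q91969, q94337, q98466, q100797, q1999, q24207, q100656, q100796, q100641, q100801, q24703, q88898, q97957, q100798, q81901, q91450, q81899, q100816, q82275, q98370, q99596, q79028, q81409, q79118, q80292, q92274, q22313, q84409] ⟨c98520, c98541, c98747, c98759, c98761, c98783, c98385, c98390, c98460, c98505, c79068, c11506, c91969, c94337, c98466, c100797, c1999, c24207, c100656, c100796, c100641, c100801, c24703, c88898, c97957, c100798, c81901, c91450, c81899, c100816, c82275, c98370, c99596, c79028, c81409, c79118, c80292, c92274, c22313, c84409, trivial⟩ (nd (nat_lit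 252) (nat_lit 0) (cs (rf (nat_lit 0)) (cs (rf (nat_lit 1)) (cs (rf (nat_lit 2)) (cs (rf (nat_lit 3)) (cs (rf (nat_lit 4)) (cs (rf (nat_lit 5)) (cs (nd (nat_lit 274) (nat_lit 0) (cs (rf (nat_lit 6)) (cs (rf (nat_lit 7)) (cs (rf (nat_lit 8)) (cs (rf (nat_lit 9)) (cs (nd (nat_lit 230) (nat_lit 0) (cs (rf (nat_lit 10)) (nd (nat_lit 296) (nat_lit 0) (cs (rf (nat_lit 11)) (rf (nat_lit 12)))))) (nd (nat_lit 296) (nat_lit 0) (cs (rf (nat_lit 11)) (cs (rf (nat_lit 13)) (rf (nat_lit 14))))))))))) (cs (rf (nat_lit 15)) (cs (nd (nat_lit 251) (nat_lit 0) (cs (rf (nat_lit 16)) (cs (rf (nat_lit 17)) (cs (nd (nat_lit 230) (nat_lit 0) (cs (rf (nat_lit 18)) (cs (rf (nat_lit 19)) (cs (nd (nat_lit 231) (nat_lit 0) (cs (rf (nat_lit 20)) (cs (rf (nat_lit 21)) (nd (nat_lit 274) (nat_lit 0) (cs (rf (nat_lit 22)) (cs (rf (nat_lit 23)) (nd (nat_lit 276) (nat_lit 0) (cs (lf (nat_lit 18) (nat_lit 251)) (nd (nat_lit 296) (nat_lit 0) (cs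 (lf (nat_lit 30) (nat_lit 230)) (nd (nat_lit 295) (nat_lit 0) (cs (lf (nat_lit 41) (nat_lit 229)) (nd (nat_lit 294) (nat_lit 0) (cs (lf (nat_lit 15) (nat_lit 272)) (lf (nat_lit 9) (nat_lit 272)))))))))))))))) (cs (nd (nat_lit 231) (nat_lit 0) (cs (rf (nat_lit 24)) (cs (rf (nat_lit 25)) (nd (nat_lit 209) (nat_lit 0) (cs (rf (nat_lit 26)) (cs (rf (nat_lit 27)) (nd (nat_lit 232) (nat_lit 0) (cs (lf (nat_lit 6) (nat_lit 229)) (nd (nat_lit 187) (nat_lit 0) (cs (lf (nat_lit 36) (nat_lit 164)) (rf (nat_lit 28)))))))))))) (rf (nat_lit 29))))))) (nd (nat_lit 231) (nat_lit 0) (cs (rf (nat_lit 30)) (cs (rf (nat_lit 31)) (rf (nat_lit 32))))))))) (nd (nat_lit 230) (nat_lit 0) (cs (rf (nat_lit 19)) (cs (nd (nat_lit 254) (nat_lit 0) (cs (rf (nat_lit 33)) (cs (rf (nat_lit 34)) (nd (nat_lit 232) (nat_lit 0) (cs (rf (nat_lit 35)) (cs (rf (nat_lit 36)) (nd (nat_lit 210) (nat_lit 0) (cs (lf (nat_lit 36) (nat_lit 187)) (nd (nat_lit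 233) (nat_lit 0) (cs (lf (nat_lit 12) (nat_lit 229)) (nd (nat_lit 234) (nat_lit 0) (cs (lf (nat_lit 6) (nat_lit 231)) (nd (nat_lit 276) (nat_lit 0) (cs (lf (nat_lit 41) (nat_lit 209)) (rf (nat_lit 37)))))))))))))))) (nd (nat_lit 208) (nat_lit 0) (cs (lf (nat_lit 24) (nat_lit 186)) (nd (nat_lit 274) (nat_lit 0) (cs (rf (nat_lit 38)) (rf (nat_lit 39))))))))))))))))))) q100829 (by decide +kernel)
def q100843 : Q := Q.p (nat_lit 0x800002000000000000000000000000000000000000000000000000000000000000000) (nat_lit 0x50000ff8003fc000f78000dc0001c0000700001c0000500000000000000000000000000000000000000000) (nat_lit 14)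
theorem c100843 : QOK q100843 := cut [q98318, q98370, q98372, q98799, q98810, q81901, q98315, q16715, q99782, q100010, q100121] ⟨c98318, c98370, c98372, c98799, c98810, c81901, c98315, c16715, c99782, c100010, c100121, trivial⟩ (nd (nat_lit 231) (nat_lit 0) (cs (rf (nat_lit 0)) (cs (rf (nat_lit 1)) (cs (rf (nat_lit 2)) (cs (rf (nat_lit 3)) (cs (rf (nat_lit 4)) (nd (nat_lit 209) (nat_lit 0) (cs (rf (nat_lit 5)) (cs (rf (nat_lit 6)) (nd (nat_lit 276) (nat_lit 0) (cs (lf (nat_lit 29) (nat_lit 209)) (nd (nat_lit 277) (nat_lit 0) (cs (rf (nat_lit 7)) (cs (rf (nat_lit 8)) (cs (nd (nat_lit 186) (nat_lit 0) (cs (lf (nat_lit 46) (nat_lit 186)) (nd (nat_lit 188) (nat_lit 0) (cs (lf (nat_lit 34) (nat_lit 187)) (nd (nat_lit 274) (nat_lit 0) (cs (lf (nat_lit 41) (nat_lit 208)) (nd (nat_lit 300) (nat_lit 0) (cs (lf (nat_lit 4) (nat_lit 274)) (nd (nat_lit 278) (nat_lit 0) (cs (lf (nat_lit 5) (nat_lit 275)) (rf (nat_lit 9))))))))))))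 (nd (nat_lit 186) (nat_lit 0) (cs (lf (nat_lit 46) (nat_lit 186)) (nd (nat_lit 188) (nat_lit 0) (cs (lf (nat_lit 34) (nat_lit 187)) (nd (nat_lit 274) (nat_lit 0) (cs (lf (nat_lit 41) (nat_lit 208)) (nd (nat_lit 299) (nat_lit 0) (cs (lf (nat_lit 5) (nat_lit 274)) (rf (nat_lit 10))))))))))))))))))))))))) q100843 (by decide +kernel)
def q101202 : Q := Q.p (nat_lit 0x2000008000000000000000000000000000000000000000000000000000000000) (nat_lit 0x1c0007fc003fe0003fc003de001f7c001de0003f8000fe0000780000000000000000000000000000000000) (nat_lit 16)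
theorem c101202 : QOK q101202 := cut [q100911, q100919, q101040, q101058, q82275, q82278, q88808, q82274, q82277, q100891, q101059, q101061, q101063, q101101, q92712, q96352, q96355, q87131, q96303, q79548, q81488, q88782, q91239, q92717, q96579, q101113, q101133, q101135, q88302, q88785, q101137, q80583, q86851, q96603, q80587, q85426, q88800, q101146, q101167, q96402, q101100, q101171, q89847, q101192, q100868, q100892, q101095, q82198, q93918, q96645, q101199] ⟨c100911, c100919, c101040, c101058, c82275, c82278, c88808, c82274, c82277, c100891, c101059, c101061, c101063, c101101, c92712, c96352, c96355, c87131, c96303, c79548, c81488, c88782, c91239, c92717, c96579, c101113, c101133, c101135, c88302, c88785, c101137, c80583, c86851, c96603, c80587, c85426, c88800, c101146, c101167, c96402, c101100, c101171, c89847, c101192, c100868, c100892, c101095, c82198, c93918, c96645, c101199, trivial⟩ (nd (nat_lit 252)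 (nat_lit 0) (cs (rf (nat_lit 0)) (cs (rf (nat_lit 1)) (cs (rf (nat_lit 2)) (cs (rf (nat_lit 3)) (cs (nd (nat_lit 251) (nat_lit 0) (cs (rf (nat_lit 4)) (cs (rf (nat_lit 5)) (cs (rf (nat_lit 6)) (nd (nat_lit 232) (nat_lit 0) (cs (rf (nat_lit 7)) (cs (rf (nat_lit 8)) (nd (nat_lit 254) (nat_lit 0) (cs (rf (nat_lit 9)) (cs (rf (nat_lit 10)) (cs (rf (nat_lit 11)) (nd (nat_lit 273) (nat_lit 0) (cs (lf (nat_lit 11) (nat_lit 250)) (nd (nat_lit 229) (nat_lit 0) (cs (lf (nat_lit 23) (nat_lit 228)) (nd (nat_lit 276) (nat_lit 0) (cs (lf (nat_lit 5) (nat_lit 251)) (rf (nat_lit 12))))))))))))))))))) (cs (rf (nat_lit 13)) (cs (nd (nat_lit 230) (nat_lit 0) (cs (rf (nat_lit 14)) (cs (rf (nat_lit 15)) (cs (rf (nat_lit 16)) (cs (nd (nat_lit 232) (nat_lit 0) (cs (rf (nat_lit 17)) (cs (rf (nat_lit 18)) (nd (nat_lit 254) (nat_lit 0) (cs (rf (nat_lit 19)) (cs (rf (nat_lit 20)) (nd (nat_lit 255) (nat_lit 0) (cs (lf (nat_lit 18) (nat_lit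 230)) (nd (nat_lit 273) (nat_lit 0) (cs (lf (nat_lit 10) (nat_lit 251)) (nd (nat_lit 251) (nat_lit 0) (cs (lf (nat_lit 11) (nat_lit 250)) (nd (nat_lit 295) (nat_lit 0) (cs (lf (nat_lit 30) (nat_lit 229)) (rf (nat_lit 21)))))))))))))))) (nd (nat_lit 232) (nat_lit 0) (cs (rf (nat_lit 17)) (nd (nat_lit 229) (nat_lit 0) (cs (rf (nat_lit 22)) (rf (nat_lit 23))))))))))) (cs (nd (nat_lit 251) (nat_lit 0) (cs (rf (nat_lit 4)) (cs (rf (nat_lit 24)) (rf (nat_lit 25))))) (cs (nd (nat_lit 251) (nat_lit 0) (cs (rf (nat_lit 4)) (cs (rf (nat_lit 25)) (rf (nat_lit 26))))) (cs (rf (nat_lit 27)) (cs (nd (nat_lit 251) (nat_lit 0) (cs (rf (nat_lit 4)) (cs (rf (nat_lit 5)) (cs (rf (nat_lit 6)) (nd (nat_lit 273) (nat_lit 0) (cs (rf (nat_lit 28)) (cs (rf (nat_lit 29)) (cs (rf (nat_lit 30)) (nd (nat_lit 295) (nat_lit 0) (cs (rf (nat_lit 31)) (cs (rf (nat_lit 32)) (cs (rf (nat_lit 33)) (nd (nat_lit 229) (nat_lit 0) (cs (rf (nat_lit 34))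 (cs (rf (nat_lit 35)) (cs (rf (nat_lit 36)) (rf (nat_lit 37)))))))))))))))))) (cs (rf (nat_lit 38)) (cs (nd (nat_lit 251) (nat_lit 0) (cs (rf (nat_lit 39)) (cs (rf (nat_lit 40)) (cs (rf (nat_lit 26)) (nd (nat_lit 273) (nat_lit 0) (cs (rf (nat_lit 28)) (cs (rf (nat_lit 41)) (cs (nd (nat_lit 295) (nat_lit 0) (cs (rf (nat_lit 31)) (cs (rf (nat_lit 32)) (cs (rf (nat_lit 33)) (nd (nat_lit 229) (nat_lit 0) (cs (rf (nat_lit 34)) (cs (rf (nat_lit 35)) (cs (rf (nat_lit 36)) (rf (nat_lit 42)))))))))) (rf (nat_lit 43)))))))))) (cs (nd (nat_lit 251) (nat_lit 0) (cs (rf (nat_lit 4)) (cs (rf (nat_lit 5)) (cs (rf (nat_lit 6)) (nd (nat_lit 254) (nat_lit 0) (cs (rf (nat_lit 44)) (cs (rf (nat_lit 45)) (rf (nat_lit 46))))))))) (nd (nat_lit 251) (nat_lit 0) (cs (rf (nat_lit 4)) (cs (rf (nat_lit 5)) (cs (rf (nat_lit 40)) (nd (nat_lit 229) (nat_lit 0) (cs (rf (nat_lit 47)) (cs (rf (nat_lit 48)) (cs (rf (nat_lit 49)) (rf (nat_lit 50)))))))))))))))))))))))))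 q101202 (by decide +kernel)
def q101526 : Q := Q.p (nat_lit 0x2000008000000000000000000000000000000000000000000000000000000000) (nat_lit 0x100000e0003f8000ff00037c007df000f7c007ff0007f8000fe0001f00001c00005000000000000000000000000) (nat_lit 16)
theorem c101526 : QOK q101526 := cut [q97171, q92922, q96786, q426, q100930, q97008, q101303, q101311, q101319, q101320, q101345, q101374, q101386, q101419, q101439, q101459, q93813, q96917, q96920, q96956, q101048, q101391, q88136, q88162, q92019, q101466, q79097, q85044, q11003, q84624, q92055, q82300, q92061, q81488, q82295, q101483, q96764, q96768, q96769, q85172, q97052, q97091, q101485, q101499, q101500, q101501, q96758, q96836, q97207, q97173, q97188, q101503, q101511, q101516, q101521, q97225, q97231] ⟨c97171, c92922, c96786, c426, c100930, c97008, c101303, c101311, c101319, c101320, c101345, c101374, c101386, c101419, c101439, c101459, c93813, c96917, c96920,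 c96956, c101048, c101391, c88136, c88162, c92019, c101466, c79097, c85044, c11003, c84624, c92055, c82300, c92061, c81488, c82295, c101483, c96764, c96768, c96769, c85172, c97052, c97091, c101485, c101499, c101500, c101501, c96758, c96836, c97207, c97173, c97188, c101503, c101511, c101516, c101521, c97225, c97231, trivial⟩ (nd (nat_lit 230) (nat_lit 0) (cs (rf (nat_lit 0)) (cs (nd (nat_lit 252) (nat_lit 0) (cs (rf (nat_lit 1)) (cs (rf (nat_lit 2)) (cs (nd (nat_lit 251) (nat_lit 0) (cs (rf (nat_lit 3)) (cs (rf (nat_lit 4)) (nd (nat_lit 254) (nat_lit 0) (cs (rf (nat_lit 5)) (nd (nat_lit 276) (nat_lit 0) (cs (lf (nat_lit 5) (nat_lit 251)) (nd (nat_lit 298) (nat_lit 0) (cs (lf (nat_lit 42) (nat_lit 231)) (rf (nat_lit 6))))))))))) (cs (rf (nat_lit 7)) (cs (rf (nat_lit 8)) (cs (nd (nat_lit 251) (nat_lit 0) (cs (rf (nat_lit 3)) (cs (rf (nat_lit 9)) (rf (nat_lit 10))))) (rf (nat_lit 11))))))))) (cs (rf (nat_lit 12))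 (cs (rf (nat_lit 13)) (cs (rf (nat_lit 14)) (cs (rf (nat_lit 15)) (cs (nd (nat_lit 252) (nat_lit 0) (cs (rf (nat_lit 16)) (cs (rf (nat_lit 2)) (cs (rf (nat_lit 17)) (cs (rf (nat_lit 18)) (cs (rf (nat_lit 19)) (cs (rf (nat_lit 20)) (cs (rf (nat_lit 21)) (cs (nd (nat_lit 228) (nat_lit 0) (cs (rf (nat_lit 22)) (cs (rf (nat_lit 23)) (cs (rf (nat_lit 24)) (rf (nat_lit 25)))))) (nd (nat_lit 274) (nat_lit 0) (cs (rf (nat_lit 26)) (cs (rf (nat_lit 27)) (nd (nat_lit 208) (nat_lit 0) (cs (rf (nat_lit 28)) (cs (rf (nat_lit 29)) (nd (nat_lit 251) (nat_lit 0) (cs (rf (nat_lit 3)) (cs (rf (nat_lit 30)) (nd (nat_lit 209) (nat_lit 0) (cs (rf (nat_lit 31)) (rf (nat_lit 32)))))))))))))))))))))) (cs (nd (nat_lit 252) (nat_lit 0) (cs (rf (nat_lit 1)) (cs (rf (nat_lit 2)) (cs (rf (nat_lit 7)) (cs (rf (nat_lit 8)) (cs (rf (nat_lit 11)) (cs (nd (nat_lit 254) (nat_lit 0) (cs (rf (nat_lit 33)) (nd (nat_lit 251) (nat_lit 0) (cs (rf (nat_lit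 3)) (rf (nat_lit 5)))))) (nd (nat_lit 251) (nat_lit 0) (cs (rf (nat_lit 3)) (cs (rf (nat_lit 34)) (rf (nat_lit 10)))))))))))) (cs (rf (nat_lit 35)) (cs (nd (nat_lit 229) (nat_lit 0) (cs (rf (nat_lit 36)) (cs (rf (nat_lit 37)) (cs (rf (nat_lit 38)) (nd (nat_lit 207) (nat_lit 0) (cs (rf (nat_lit 39)) (cs (rf (nat_lit 40)) (cs (rf (nat_lit 41)) (rf (nat_lit 42)))))))))) (cs (rf (nat_lit 43)) (cs (rf (nat_lit 44)) (cs (rf (nat_lit 45)) (cs (nd (nat_lit 229) (nat_lit 0) (cs (rf (nat_lit 46)) (cs (rf (nat_lit 38)) (cs (rf (nat_lit 47)) (cs (rf (nat_lit 48)) (nd (nat_lit 251) (nat_lit 0) (cs (rf (nat_lit 49)) (cs (rf (nat_lit 50)) (cs (rf (nat_lit 51)) (cs (rf (nat_lit 52)) (cs (rf (nat_lit 53)) (rf (nat_lit 54))))))))))))) (nd (nat_lit 229) (nat_lit 0) (cs (rf (nat_lit 36)) (cs (rf (nat_lit 38)) (cs (rf (nat_lit 48)) (nd (nat_lit 251) (nat_lit 0) (cs (rf (nat_lit 49)) (cs (rf (nat_lit 55)) (cs (rf (nat_lit 56)) (cs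 (rf (nat_lit 51)) (rf (nat_lit 52)))))))))))))))))))))))))) q101526 (by decide +kernel)
def q102015 : Q := Q.p (nat_lit 0x2000008000000000000000000000000000000000000000000000000000000000) (nat_lit 0x100001c0000700007f0003fe0003f8001df000f78003bf0003f0000fc0001700001400000000000000000000000000000) (nat_lit 16)
theorem c102015 : QOK q102015 := cut [q98133, q101562, q101918, q101924, q84365, q101561, q101906, q101910, q101926, q101951, q97957, q101963, q96758, q96769, q96836, q97207, q97173, q97188, q97231, q101676, q101964, q101704, q15828, q101972, q86571, q101980, q91378, q101985, q28145, q101314, q101318, q32432, q426, q100946, q80265, q102009, q102012, q97786, q98315, q98359, q102014] ⟨c98133, c101562, c101918, c101924, c84365, c101561, c101906, c101910, c101926, c101951, c97957, c101963, c96758, c96769, c96836, c97207, c97173, c97188, c97231, c101676, c101964, c101704, c15828, c101972, c86571, c101980, c91378,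 c101985, c28145, c101314, c101318, c32432, c426, c100946, c80265, c102009, c102012, c97786, c98315, c98359, c102014, trivial⟩ (nd (nat_lit 275) (nat_lit 0) (cs (rf (nat_lit 0)) (cs (rf (nat_lit 1)) (cs (rf (nat_lit 2)) (cs (rf (nat_lit 3)) (cs (nd (nat_lit 297) (nat_lit 0) (cs (rf (nat_lit 4)) (cs (rf (nat_lit 5)) (cs (rf (nat_lit 6)) (cs (rf (nat_lit 7)) (rf (nat_lit 8))))))) (cs (rf (nat_lit 9)) (cs (nd (nat_lit 230) (nat_lit 0) (cs (rf (nat_lit 10)) (cs (rf (nat_lit 11)) (cs (nd (nat_lit 229) (nat_lit 0) (cs (rf (nat_lit 12)) (cs (rf (nat_lit 13)) (cs (rf (nat_lit 14)) (cs (rf (nat_lit 15)) (nd (nat_lit 251) (nat_lit 0) (cs (rf (nat_lit 16)) (cs (rf (nat_lit 17)) (cs (rf (nat_lit 18)) (cs (rf (nat_lit 19)) (rf (nat_lit 20)))))))))))) (nd (nat_lit 254) (nat_lit 0) (cs (rf (nat_lit 21)) (cs (nd (nat_lit 229) (nat_lit 0) (cs (rf (nat_lit 12)) (cs (rf (nat_lit 13)) (cs (rf (nat_lit 14)) (nd (nat_lit 296) (nat_lit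 0) (cs (nd (nat_lit 274) (nat_lit 0) (cs (rf (nat_lit 22)) (cs (nd (nat_lit 318) (nat_lit 0) (cs (lf (nat_lit 30) (nat_lit 252)) (nd (nat_lit 273) (nat_lit 0) (cs (lf (nat_lit 12) (nat_lit 250)) (nd (nat_lit 251) (nat_lit 0) (cs (lf (nat_lit 24) (nat_lit 207)) (lf (nat_lit 27) (nat_lit 229)))))))) (rf (nat_lit 23))))) (cs (nd (nat_lit 274) (nat_lit 0) (cs (rf (nat_lit 23)) (cs (nd (nat_lit 273) (nat_lit 0) (cs (lf (nat_lit 12) (nat_lit 250)) (nd (nat_lit 207) (nat_lit 0) (cs (lf (nat_lit 26) (nat_lit 207)) (nd (nat_lit 232) (nat_lit 0) (cs (lf (nat_lit 23) (nat_lit 206)) (nd (nat_lit 297) (nat_lit 0) (cs (lf (nat_lit 30) (nat_lit 231)) (rf (nat_lit 24)))))))))) (cs (nd (nat_lit 207) (nat_lit 0) (cs (lf (nat_lit 44) (nat_lit 207)) (nd (nat_lit 232) (nat_lit 0) (cs (lf (nat_lit 23) (nat_lit 206)) (nd (nat_lit 250) (nat_lit 0) (cs (lf (nat_lit 10) (nat_lit 228)) (nd (nat_lit 297) (nat_lit 0) (cs (lf (nat_lit 30)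 (nat_lit 231)) (rf (nat_lit 25)))))))))) (nd (nat_lit 297) (nat_lit 0) (cs (rf (nat_lit 26)) (rf (nat_lit 27)))))))) (nd (nat_lit 297) (nat_lit 0) (cs (lf (nat_lit 41) (nat_lit 230)) (nd (nat_lit 298) (nat_lit 0) (cs (lf (nat_lit 29) (nat_lit 231)) (nd (nat_lit 319) (nat_lit 0) (cs (lf (nat_lit 35) (nat_lit 231)) (nd (nat_lit 276) (nat_lit 0) (cs (rf (nat_lit 28)) (lf (nat_lit 30) (nat_lit 253))))))))))))))))) (cs (nd (nat_lit 252) (nat_lit 0) (cs (rf (nat_lit 29)) (cs (rf (nat_lit 30)) (cs (nd (nat_lit 297) (nat_lit 0) (cs (lf (nat_lit 42) (nat_lit 230)) (nd (nat_lit 298) (nat_lit 0) (cs (lf (nat_lit 29) (nat_lit 231)) (nd (nat_lit 296) (nat_lit 0) (cs (lf (nat_lit 41) (nat_lit 230)) (nd (nat_lit 255) (nat_lit 0) (cs (lf (nat_lit 18) (nat_lit 230)) (nd (nat_lit 233) (nat_lit 0) (cs (lf (nat_lit 17) (nat_lit 230)) (nd (nat_lit 273) (nat_lit 0) (cs (rf (nat_lit 31)) (lf (nat_lit 10) (nat_lit 251))))))))))))))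 (nd (nat_lit 251) (nat_lit 0) (cs (rf (nat_lit 32)) (cs (rf (nat_lit 33)) (nd (nat_lit 232) (nat_lit 0) (cs (lf (nat_lit 17) (nat_lit 229)) (nd (nat_lit 276) (nat_lit 0) (cs (lf (nat_lit 5) (nat_lit 251)) (nd (nat_lit 298) (nat_lit 0) (cs (lf (nat_lit 42) (nat_lit 231)) (nd (nat_lit 297) (nat_lit 0) (cs (lf (nat_lit 42) (nat_lit 230)) (nd (nat_lit 296) (nat_lit 0) (cs (lf (nat_lit 41) (nat_lit 230)) (nd (nat_lit 294) (nat_lit 0) (cs (lf (nat_lit 13) (nat_lit 272)) (nd (nat_lit 272) (nat_lit 0) (cs (lf (nat_lit 10) (nat_lit 250)) (rf (nat_lit 34))))))))))))))))))))))) (rf (nat_lit 35)))))))))) (cs (rf (nat_lit 36)) (cs (nd (nat_lit 209) (nat_lit 0) (cs (rf (nat_lit 37)) (cs (rf (nat_lit 38)) (rf (nat_lit 39))))) (rf (nat_lit 40)))))))))))) q102015 (by decide +kernel)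
def q102190 : Q := Q.p (nat_lit 0x2000008000000000000000000000000000000000000000000000000000000000) (nat_lit 0x360000dc0003f8007df000f7c007ff8007fe000fc0001f00001400000000000000000000000000000) (nat_lit 17)
theorem c102190 : QOK q102190 := cut [q97171, q101386, q101439, q101459, q101483, q101499, q101500, q101501, q101950, q102140, q102141, q102142, q11001, q101406, q101349, q1989, q92814, q1563, q78834, q88774, q102151, q96758, q96764, q102155, q80169, q98097, q9673, q1580, q96838, q84436, q96783, q98105, q100881, q102176, q7954, q98040, q101667, q97207, q95343, q100846] ⟨c97171, c101386, c101439, c101459, c101483, c101499, c101500, c101501, c101950, c102140, c102141, c102142, c11001, c101406, c101349, c1989, c92814, c1563, c78834, c88774, c102151, c96758, c96764, c102155, c80169, c98097, c9673, c1580, c96838, c84436, c96783, c98105, c100881, c102176, c7954, c98040, c101667, c97207, c95343, c100846, trivial⟩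 (nd (nat_lit 230) (nat_lit 0) (cs (rf (nat_lit 0)) (cs (rf (nat_lit 1)) (cs (rf (nat_lit 2)) (cs (rf (nat_lit 3)) (cs (rf (nat_lit 4)) (cs (rf (nat_lit 5)) (cs (rf (nat_lit 6)) (cs (rf (nat_lit 7)) (cs (rf (nat_lit 8)) (cs (nd (nat_lit 208) (nat_lit 0) (cs (rf (nat_lit 9)) (cs (rf (nat_lit 10)) (cs (nd (nat_lit 209) (nat_lit 0) (cs (rf (nat_lit 11)) (cs (nd (nat_lit 252) (nat_lit 0) (cs (rf (nat_lit 12)) (cs (rf (nat_lit 13)) (nd (nat_lit 187) (nat_lit 0) (cs (lf (nat_lit 36) (nat_lit 164)) (nd (nat_lit 254) (nat_lit 0) (cs (lf (nat_lit 29) (nat_lit 187)) (nd (nat_lit 255) (nat_lit 0) (cs (lf (nat_lit 18) (nat_lit 230)) (rf (nat_lit 14))))))))))) (nd (nat_lit 187) (nat_lit 0) (cs (rf (nat_lit 15)) (rf (nat_lit 16))))))) (cs (nd (nat_lit 209) (nat_lit 0) (cs (rf (nat_lit 17)) (cs (rf (nat_lit 11)) (nd (nat_lit 187) (nat_lit 0) (cs (rf (nat_lit 18)) (rf (nat_lit 19))))))) (rf (nat_lit 20))))))) (cs (nd (nat_lit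 229) (nat_lit 0) (cs (rf (nat_lit 21)) (cs (rf (nat_lit 22)) (cs (nd (nat_lit 208) (nat_lit 0) (cs (rf (nat_lit 9)) (cs (nd (nat_lit 209) (nat_lit 0) (cs (nd (nat_lit 210) (nat_lit 0) (cs (lf (nat_lit 6) (nat_lit 207)) (rf (nat_lit 23)))) (nd (nat_lit 252) (nat_lit 0) (cs (rf (nat_lit 24)) (cs (rf (nat_lit 13)) (nd (nat_lit 187) (nat_lit 0) (cs (lf (nat_lit 36) (nat_lit 164)) (nd (nat_lit 254) (nat_lit 0) (cs (lf (nat_lit 18) (nat_lit 229)) (lf (nat_lit 29) (nat_lit 187))))))))))) (cs (nd (nat_lit 186) (nat_lit 0) (cs (lf (nat_lit 24) (nat_lit 164)) (nd (nat_lit 252) (nat_lit 0) (cs (lf (nat_lit 29) (nat_lit 186)) (nd (nat_lit 251) (nat_lit 0) (cs (lf (nat_lit 41) (nat_lit 185)) (nd (nat_lit 249) (nat_lit 0) (cs (lf (nat_lit 13) (nat_lit 227)) (nd (nat_lit 165) (nat_lit 0) (cs (lf (nat_lit 34) (nat_lit 164)) (rf (nat_lit 25)))))))))))) (cs (nd (nat_lit 209) (nat_lit 0) (cs (rf (nat_lit 17)) (cs (nd (nat_lit 210)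 (nat_lit 0) (cs (lf (nat_lit 6) (nat_lit 207)) (rf (nat_lit 26)))) (nd (nat_lit 187) (nat_lit 0) (cs (rf (nat_lit 27)) (cs (rf (nat_lit 18)) (nd (nat_lit 210) (nat_lit 0) (cs (lf (nat_lit 6) (nat_lit 207)) (nd (nat_lit 164) (nat_lit 0) (cs (lf (nat_lit 25) (nat_lit 164)) (rf (nat_lit 28)))))))))))) (nd (nat_lit 186) (nat_lit 0) (cs (lf (nat_lit 24) (nat_lit 164)) (nd (nat_lit 252) (nat_lit 0) (cs (rf (nat_lit 29)) (cs (rf (nat_lit 30)) (rf (nat_lit 31)))))))))))) (nd (nat_lit 209) (nat_lit 0) (cs (rf (nat_lit 32)) (cs (nd (nat_lit 210) (nat_lit 0) (cs (lf (nat_lit 12) (nat_lit 206)) (nd (nat_lit 211) (nat_lit 0) (cs (lf (nat_lit 6) (nat_lit 208)) (rf (nat_lit 26)))))) (rf (nat_lit 33))))))))) (nd (nat_lit 208) (nat_lit 0) (cs (rf (nat_lit 9)) (cs (rf (nat_lit 10)) (cs (rf (nat_lit 20)) (cs (nd (nat_lit 232) (nat_lit 0) (cs (rf (nat_lit 34)) (cs (rf (nat_lit 35)) (cs (rf (nat_lit 36)) (nd (nat_lit 229) (nat_lit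 0) (cs (rf (nat_lit 37)) (cs (nd (nat_lit 250) (nat_lit 0) (cs (lf (nat_lit 10) (nat_lit 228)) (nd (nat_lit 207) (nat_lit 0) (cs (lf (nat_lit 23) (nat_lit 206)) (nd (nat_lit 210) (nat_lit 0) (cs (lf (nat_lit 17) (nat_lit 207)) (nd (nat_lit 188) (nat_lit 0) (cs (lf (nat_lit 36) (nat_lit 165)) (nd (nat_lit 209) (nat_lit 0) (cs (lf (nat_lit 17) (nat_lit 185)) (lf (nat_lit 30) (nat_lit 187)))))))))))) (nd (nat_lit 210) (nat_lit 0) (cs (lf (nat_lit 17) (nat_lit 207)) (nd (nat_lit 209) (nat_lit 0) (cs (lf (nat_lit 12) (nat_lit 206)) (rf (nat_lit 38))))))))))))) (nd (nat_lit 209) (nat_lit 0) (cs (rf (nat_lit 17)) (cs (rf (nat_lit 39)) (rf (nat_lit 11)))))))))))))))))))))) q102190 (by decide +kernel)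
def q102393 : Q := Q.p (nat_lit 0x2000008000000000000000000000000000000000000000000000000000000000) (nat_lit 0x500001c0001f80003f8007de001f7c007ff800efe001fc0001f00005000000000000000000000000000000) (nat_lit 15)
theorem c102393 : QOK q102393 := cut [q101233, q102091, q717, q97786, q98359, q102308, q101749, q102310, q84386, q100882, q101586, q102376, q97875, q102036, q87998, q102385, q102390, q88774, q96697, q98168, q98315] ⟨c101233, c102091, c717, c97786, c98359, c102308, c101749, c102310, c84386, c100882, c101586, c102376, c97875, c102036, c87998, c102385, c102390, c88774, c96697, c98168, c98315, trivial⟩ (nd (nat_lit 209) (nat_lit 0) (cs (rf (nat_lit 0)) (cs (rf (nat_lit 1)) (cs (nd (nat_lit 275) (nat_lit 0) (cs (rf (nat_lit 2)) (cs (rf (nat_lit 3)) (rf (nat_lit 4))))) (cs (rf (nat_lit 5)) (cs (nd (nat_lit 275) (nat_lit 0) (cs (rf (nat_lit 2)) (cs (rf (nat_lit 6)) (cs (rf (nat_lit 7)) (nd (nat_lit 274) (nat_lit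 0) (cs (lf (nat_lit 41) (nat_lit 208)) (nd (nat_lit 187) (nat_lit 0) (cs (lf (nat_lit 40) (nat_lit 186)) (rf (nat_lit 8)))))))))) (cs (nd (nat_lit 275) (nat_lit 0) (cs (rf (nat_lit 2)) (cs (rf (nat_lit 9)) (rf (nat_lit 10))))) (cs (rf (nat_lit 11)) (cs (nd (nat_lit 275) (nat_lit 0) (cs (rf (nat_lit 2)) (cs (rf (nat_lit 12)) (cs (rf (nat_lit 13)) (cs (nd (nat_lit 296) (nat_lit 0) (cs (lf (nat_lit 40) (nat_lit 208)) (nd (nat_lit 297) (nat_lit 0) (cs (lf (nat_lit 41) (nat_lit 230)) (nd (nat_lit 298) (nat_lit 0) (cs (lf (nat_lit 29) (nat_lit 231)) (nd (nat_lit 230) (nat_lit 0) (cs (lf (nat_lit 47) (nat_lit 208)) (nd (nat_lit 252) (nat_lit 0) (cs (lf (nat_lit 42) (nat_lit 230)) (nd (nat_lit 165) (nat_lit 0) (cs (lf (nat_lit 37) (nat_lit 164)) (rf (nat_lit 14)))))))))))))) (rf (nat_lit 15))))))) (cs (rf (nat_lit 16)) (cs (nd (nat_lit 187) (nat_lit 0) (cs (rf (nat_lit 17)) (cs (rf (nat_lit 18)) (rf (nat_lit 19)))))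 (nd (nat_lit 275) (nat_lit 0) (cs (rf (nat_lit 3)) (cs (rf (nat_lit 20)) (rf (nat_lit 10)))))))))))))))) q102393 (by decide +kernel)
def q102586 : Q := Q.p (nat_lit 0x2000008000000000000000000000000000000000000000000000000000000000) (nat_lit 0x180000700001e0000bc0003fc00fdf003f7c00fff001ff0001fc0003d00000000000000000000000000000000000) (nat_lit 18)
theorem c102586 : QOK q102586 := cut [q102472, q102485, q96982, q101800, q101804, q102486, q102509, q102528, q97375, q101768, q102531, q97372, q101799, q102535, q10759, q86312, q89467, q92716, q97705, q101357, q102558, q88863, q7963, q12221, q102559, q81545, q87016, q101589, q101871, q96312, q100882, q100886, q79299, q97498, q97507, q97489, q102578, q102579, q22592, q102583] ⟨c102472, c102485, c96982, c101800, c101804, c102486, c102509, c102528, c97375, c101768, c102531, c97372, c101799, c102535, c10759, c86312, c89467, c92716, c97705, c101357, c102558, c88863, c7963,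 c12221, c102559, c81545, c87016, c101589, c101871, c96312, c100882, c100886, c79299, c97498, c97507, c97489, c102578, c102579, c22592, c102583, trivial⟩ (nd (nat_lit 232) (nat_lit 0) (cs (rf (nat_lit 0)) (cs (rf (nat_lit 1)) (cs (nd (nat_lit 233) (nat_lit 0) (cs (rf (nat_lit 2)) (cs (rf (nat_lit 3)) (cs (rf (nat_lit 4)) (rf (nat_lit 5)))))) (cs (rf (nat_lit 6)) (cs (rf (nat_lit 7)) (cs (nd (nat_lit 233) (nat_lit 0) (cs (rf (nat_lit 8)) (cs (rf (nat_lit 9)) (cs (rf (nat_lit 5)) (cs (rf (nat_lit 10)) (cs (nd (nat_lit 234) (nat_lit 0) (cs (rf (nat_lit 11)) (rf (nat_lit 12)))) (rf (nat_lit 13)))))))) (cs (nd (nat_lit 233) (nat_lit 0) (cs (rf (nat_lit 2)) (cs (rf (nat_lit 9)) (cs (rf (nat_lit 3)) (cs (rf (nat_lit 4)) (nd (nat_lit 252) (nat_lit 0) (cs (rf (nat_lit 14)) (cs (rf (nat_lit 15)) (nd (nat_lit 230) (nat_lit 0) (cs (rf (nat_lit 16)) (cs (rf (nat_lit 17)) (cs (rf (nat_lit 18)) (nd (nat_lit 208) (nat_lit 0)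 (cs (lf (nat_lit 23) (nat_lit 207)) (nd (nat_lit 255) (nat_lit 0) (cs (lf (nat_lit 5) (nat_lit 230)) (nd (nat_lit 186) (nat_lit 0) (cs (lf (nat_lit 24) (nat_lit 164)) (nd (nat_lit 211) (nat_lit 0) (cs (lf (nat_lit 17) (nat_lit 208)) (nd (nat_lit 163) (nat_lit 0) (cs (lf (nat_lit 46) (nat_lit 163)) (nd (nat_lit 187) (nat_lit 0) (cs (lf (nat_lit 35) (nat_lit 164)) (nd (nat_lit 209) (nat_lit 0) (cs (lf (nat_lit 41) (nat_lit 186)) (nd (nat_lit 254) (nat_lit 0) (cs (lf (nat_lit 29) (nat_lit 187)) (rf (nat_lit 19)))))))))))))))))))))))))))))) (cs (rf (nat_lit 20)) (cs (nd (nat_lit 210) (nat_lit 0) (cs (rf (nat_lit 21)) (cs (nd (nat_lit 230) (nat_lit 0) (cs (rf (nat_lit 22)) (cs (rf (nat_lit 23)) (rf (nat_lit 24))))) (nd (nat_lit 230) (nat_lit 0) (cs (rf (nat_lit 22)) (cs (rf (nat_lit 23)) (nd (nat_lit 188) (nat_lit 0) (cs (lf (nat_lit 36) (nat_lit 165)) (nd (nat_lit 254) (nat_lit 0) (cs (nd (nat_lit 255) (nat_lit 0)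 (cs (lf (nat_lit 18) (nat_lit 230)) (lf (nat_lit 29) (nat_lit 188)))) (nd (nat_lit 167) (nat_lit 0) (cs (lf (nat_lit 34) (nat_lit 166)) (nd (nat_lit 187) (nat_lit 0) (cs (lf (nat_lit 47) (nat_lit 165)) (nd (nat_lit 209) (nat_lit 0) (cs (lf (nat_lit 29) (nat_lit 187)) (nd (nat_lit 252) (nat_lit 0) (cs (lf (nat_lit 41) (nat_lit 186)) (rf (nat_lit 25)))))))))))))))))))) (cs (nd (nat_lit 275) (nat_lit 0) (cs (rf (nat_lit 26)) (cs (rf (nat_lit 27)) (cs (rf (nat_lit 28)) (nd (nat_lit 209) (nat_lit 0) (cs (rf (nat_lit 29)) (cs (rf (nat_lit 30)) (cs (rf (nat_lit 31)) (nd (nat_lit 274) (nat_lit 0) (cs (lf (nat_lit 41) (nat_lit 208)) (nd (nat_lit 188) (nat_lit 0) (cs (lf (nat_lit 34) (nat_lit 187)) (rf (nat_lit 32)))))))))))))) (nd (nat_lit 233) (nat_lit 0) (cs (rf (nat_lit 33)) (cs (rf (nat_lit 34)) (cs (rf (nat_lit 4)) (cs (nd (nat_lit 208) (nat_lit 0) (cs (nd (nat_lit 230) (nat_lit 0) (cs (lf (nat_lit 23) (nat_lit 207))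 (nd (nat_lit 164) (nat_lit 0) (cs (lf (nat_lit 25) (nat_lit 164)) (nd (nat_lit 275) (nat_lit 0) (cs (lf (nat_lit 42) (nat_lit 208)) (rf (nat_lit 35)))))))) (cs (rf (nat_lit 36)) (rf (nat_lit 37))))) (nd (nat_lit 230) (nat_lit 0) (cs (rf (nat_lit 38)) (cs (rf (nat_lit 24)) (rf (nat_lit 39))))))))))))))))))))) q102586 (by decide +kernel)
def q102885 : Q := Q.p (nat_lit 0x7000010000000000000000000000000000000000000000000000000000000000) (nat_lit 0x300000e0001fe000780000e6000190000640001800000000000000000000000000000000000000000) (nat_lit 11)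
theorem c102885 : QOK q102885 := cut [q102855, q102860, q102877, q102884] ⟨c102855, c102860, c102877, c102884, trivial⟩ (nd (nat_lit 255) (nat_lit 0) (cs (rf (nat_lit 0)) (cs (rf (nat_lit 1)) (cs (rf (nat_lit 2)) (rf (nat_lit 3)))))) q102885 (by decide +kernel)
def q103011 : Q := Q.p (nat_lit 0x6000010000000000000000000000000000000000000000000000000000000000) (nat_lit 0x300000c0001f780079c003e78001fe001ff0007f80002800000000000000000000000000000000000) (nat_lit 14)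
theorem c103011 : QOK q103011 := cut [q81677, q81730, q81030, q102853, q102877, q79971, q102849, q102968, q102978, q102958, q79560, q92275, q103002, q81729, q98510, q103009] ⟨c81677, c81730, c81030, c102853, c102877, c79971, c102849, c102968, c102978, c102958, c79560, c92275, c103002, c81729, c98510, c103009, trivial⟩ (nd (nat_lit 252) (nat_lit 0) (cs (rf (nat_lit 0)) (cs (rf (nat_lit 1)) (cs (nd (nat_lit 255) (nat_lit 0) (cs (rf (nat_lit 2)) (cs (rf (nat_lit 3)) (cs (rf (nat_lit 4)) (cs (nd (nat_lit 210) (nat_lit 0) (cs (nd (nat_lit 187) (nat_lit 0) (cs (rf (nat_lit 5)) (cs (rf (nat_lit 6)) (nd (nat_lit 230) (nat_lit 0) (cs (lf (nat_lit 23) (nat_lit 229)) (nd (nat_lit 274) (nat_lit 0) (cs (lf (nat_lit 11) (nat_lit 251)) (nd (nat_lit 209) (nat_lit 0) (cs (lf (nat_lit 42) (nat_lit 187)) (lf (nat_lit 33) (nat_lit 186))))))))))) (cs (rf (nat_lit 7)) (rf (nat_lit 8))))) (nd (nat_lit 210) (nat_lit 0) (cs (rf (nat_lit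 9)) (cs (rf (nat_lit 7)) (cs (nd (nat_lit 299) (nat_lit 0) (cs (nd (nat_lit 233) (nat_lit 0) (cs (lf (nat_lit 17) (nat_lit 230)) (lf (nat_lit 43) (nat_lit 210)))) (cs (nd (nat_lit 277) (nat_lit 0) (cs (lf (nat_lit 42) (nat_lit 232)) (lf (nat_lit 27) (nat_lit 210)))) (nd (nat_lit 209) (nat_lit 0) (cs (nd (nat_lit 230) (nat_lit 0) (cs (lf (nat_lit 23) (nat_lit 229)) (nd (nat_lit 274) (nat_lit 0) (cs (lf (nat_lit 11) (nat_lit 251)) (nd (nat_lit 187) (nat_lit 0) (cs (lf (nat_lit 42) (nat_lit 187)) (lf (nat_lit 33) (nat_lit 186)))))))) (cs (nd (nat_lit 234) (nat_lit 0) (cs (lf (nat_lit 16) (nat_lit 230)) (nd (nat_lit 235) (nat_lit 0) (cs (lf (nat_lit 15) (nat_lit 231)) (nd (nat_lit 211) (nat_lit 0) (cs (lf (nat_lit 3) (nat_lit 209)) (nd (nat_lit 189) (nat_lit 0) (cs (lf (nat_lit 30) (nat_lit 188)) (nd (nat_lit 208) (nat_lit 0) (cs (lf (nat_lit 17) (nat_lit 186)) (rf (nat_lit 10)))))))))))) (cs (nd (nat_lit 208) (nat_lit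 0) (cs (nd (nat_lit 233) (nat_lit 0) (cs (lf (nat_lit 0) (nat_lit 207)) (lf (nat_lit 17) (nat_lit 230)))) (nd (nat_lit 230) (nat_lit 0) (cs (lf (nat_lit 23) (nat_lit 229)) (nd (nat_lit 274) (nat_lit 0) (cs (lf (nat_lit 35) (nat_lit 186)) (lf (nat_lit 11) (nat_lit 251)))))))) (cs (nd (nat_lit 273) (nat_lit 0) (cs (lf (nat_lit 10) (nat_lit 251)) (nd (nat_lit 233) (nat_lit 0) (cs (lf (nat_lit 17) (nat_lit 230)) (nd (nat_lit 229) (nat_lit 0) (cs (lf (nat_lit 22) (nat_lit 229)) (rf (nat_lit 11)))))))) (nd (nat_lit 233) (nat_lit 0) (cs (lf (nat_lit 17) (nat_lit 230)) (nd (nat_lit 207) (nat_lit 0) (cs (lf (nat_lit 1) (nat_lit 207)) (nd (nat_lit 273) (nat_lit 0) (cs (lf (nat_lit 10) (nat_lit 251)) (rf (nat_lit 11)))))))))))))))) (nd (nat_lit 229) (nat_lit 0) (cs (lf (nat_lit 22) (nat_lit 229)) (nd (nat_lit 233) (nat_lit 0) (cs (lf (nat_lit 17) (nat_lit 230)) (rf (nat_lit 12))))))))))))))) (nd (nat_lit 251) (nat_lit 0)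 (cs (rf (nat_lit 13)) (cs (rf (nat_lit 14)) (rf (nat_lit 15))))))))) q103011 (by decide +kernel)
def q103254 : Q := Q.p (nat_lit 0x800002000018000060000000000000000000000000000000000000000000000000000) (nat_lit 0x10000040000000000700039c000e70000000000000000000000000000000000000000000000) (nat_lit 9)
theorem c103254 : QOK q103254 := cut [q80071] ⟨c80071, trivial⟩ (nd (nat_lit 274) (nat_lit 0) (cs (lf (nat_lit 41) (nat_lit 208)) (rf (nat_lit 0)))) q103254 (by decide +kernel)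
def q103586 : Q := Q.p (nat_lit 0x6000010000000000000000000000000000000000000000000000000000000000) (nat_lit 0x3c0000f0001fe000790000ef0007bc000fc0003f00000000000000000000000000000000000000000) (nat_lit 16)
theorem c103586 : QOK q103586 := cut [q80975, q102860, q85968, q102964, q81606, q103543, q103584, q80225, q102740, q103340, q79196, q81707, q103344, q103348] ⟨c80975, c102860, c85968, c102964, c81606, c103543, c103584, c80225, c102740, c103340, c79196, c81707, c103344, c103348, trivial⟩ (nd (nat_lit 233) (nat_lit 0) (cs (nd (nat_lit 234) (nat_lit 0) (cs (lf (nat_lit 6) (nat_lit 231)) (nd (nat_lit 252) (nat_lit 0) (cs (lf (nat_lit 9) (nat_lit 230)) (lf (nat_lit 15) (nat_lit 230)))))) (cs (nd (nat_lit 234) (nat_lit 0) (cs (lf (nat_lit 6) (nat_lit 231)) (nd (nat_lit 231) (nat_lit 0) (cs (lf (nat_lit 11) (nat_lit 230)) (nd (nat_lit 212) (nat_lit 0) (cs (lf (nat_lit 17) (nat_lit 209)) (nd (nat_lit 211) (nat_lit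 0) (cs (lf (nat_lit 12) (nat_lit 208)) (nd (nat_lit 167) (nat_lit 0) (cs (lf (nat_lit 37) (nat_lit 166)) (nd (nat_lit 276) (nat_lit 0) (cs (lf (nat_lit 30) (nat_lit 210)) (nd (nat_lit 209) (nat_lit 0) (cs (lf (nat_lit 24) (nat_lit 187)) (lf (nat_lit 23) (nat_lit 208)))))))))))))))) (cs (nd (nat_lit 255) (nat_lit 0) (cs (nd (nat_lit 234) (nat_lit 0) (cs (lf (nat_lit 6) (nat_lit 231)) (lf (nat_lit 12) (nat_lit 230)))) (cs (nd (nat_lit 277) (nat_lit 0) (cs (rf (nat_lit 0)) (nd (nat_lit 252) (nat_lit 0) (cs (lf (nat_lit 5) (nat_lit 252)) (rf (nat_lit 1)))))) (nd (nat_lit 256) (nat_lit 0) (cs (rf (nat_lit 2)) (cs (nd (nat_lit 276) (nat_lit 0) (cs (rf (nat_lit 3)) (cs (nd (nat_lit 234) (nat_lit 0) (cs (lf (nat_lit 6) (nat_lit 231)) (nd (nat_lit 278) (nat_lit 0) (cs (lf (nat_lit 5) (nat_lit 253)) (nd (nat_lit 189) (nat_lit 0) (cs (lf (nat_lit 37) (nat_lit 188)) (nd (nat_lit 275) (nat_lit 0) (cs (lf (nat_lit 11) (nat_lit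 252)) (nd (nat_lit 297) (nat_lit 0) (cs (lf (nat_lit 30) (nat_lit 231)) (nd (nat_lit 277) (nat_lit 0) (cs (lf (nat_lit 11) (nat_lit 274)) (nd (nat_lit 212) (nat_lit 0) (cs (lf (nat_lit 30) (nat_lit 211)) (lf (nat_lit 36) (nat_lit 189)))))))))))))))) (nd (nat_lit 234) (nat_lit 0) (cs (lf (nat_lit 6) (nat_lit 231)) (nd (nat_lit 278) (nat_lit 0) (cs (lf (nat_lit 5) (nat_lit 253)) (nd (nat_lit 274) (nat_lit 0) (cs (lf (nat_lit 10) (nat_lit 252)) (nd (nat_lit 298) (nat_lit 0) (cs (lf (nat_lit 30) (nat_lit 232)) (nd (nat_lit 299) (nat_lit 0) (cs (lf (nat_lit 29) (nat_lit 232)) (rf (nat_lit 4))))))))))))))) (nd (nat_lit 234) (nat_lit 0) (cs (lf (nat_lit 6) (nat_lit 231)) (rf (nat_lit 5)))))))))) (cs (rf (nat_lit 6)) (nd (nat_lit 231) (nat_lit 0) (cs (rf (nat_lit 7)) (cs (rf (nat_lit 8)) (cs (rf (nat_lit 9)) (nd (nat_lit 275) (nat_lit 0) (cs (rf (nat_lit 10)) (cs (rf (nat_lit 11)) (cs (rf (nat_lit 12)) (rf (nat_lit 13)))))))))))))))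 q103586 (by decide +kernel)
def q103722 : Q := Q.p (nat_lit 0x800002000018000020000000000000000000000000000000000000000000000000000) (nat_lit 0x70003dc000f70000400000000000000000000000000000000000000000) (nat_lit 9)
theorem c103722 : QOK q103722 := cut [q80071, q95343] ⟨c80071, c95343, trivial⟩ (nd (nat_lit 210) (nat_lit 0) (cs (rf (nat_lit 0)) (rf (nat_lit 1)))) q103722 (by decide +kernel)
def q103822 : Q := Q.p (nat_lit 0x6000010000000000000000000000000000000000000000000000000000000000) (nat_lit 0x380000f0000f000038c000ef0003fe0007f0001fe0000000000000000000000000000000000000000) (nat_lit 14)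
theorem c103822 : QOK q103822 := cut [q103352, q103733, q103777, q103787, q103789, q103809, q103821] ⟨c103352, c103733, c103777, c103787, c103789, c103809, c103821, trivial⟩ (nd (nat_lit 231) (nat_lit 0) (cs (rf (nat_lit 0)) (cs (rf (nat_lit 1)) (cs (rf (nat_lit 2)) (cs (rf (nat_lit 3)) (cs (rf (nat_lit 4)) (cs (rf (nat_lit 5)) (rf (nat_lit 6))))))))) q103822 (by decide +kernel)
def q104045 : Q := Q.p (nat_lit 0x2000018000000000000000000000000000000000000000000000000000000000) (nat_lit 0x380000f0000f70003dc000c70003fc000ff0000fc0002800000000000000000000000000000000000) (nat_lit 15)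
theorem c104045 : QOK q104045 := cut [q103422, q103777, q104001, q104003, q79181, q103807, q104008, q79626, q103470, q104013, q96537, q103812, q103987, q104016, q79193, q95696, q103771, q104023, q104027] ⟨c103422, c103777, c104001, c104003, c79181, c103807, c104008, c79626, c103470, c104013, c96537, c103812, c103987, c104016, c79193, c95696, c103771, c104023, c104027, trivial⟩ (nd (nat_lit 254) (nat_lit 0) (cs (rf (nat_lit 0)) (cs (rf (nat_lit 1)) (cs (rf (nat_lit 2)) (cs (rf (nat_lit 3)) (cs (nd (nat_lit 276) (nat_lit 0) (cs (rf (nat_lit 4)) (cs (rf (nat_lit 5)) (rf (nat_lit 6))))) (cs (nd (nat_lit 255) (nat_lit 0) (cs (rf (nat_lit 7)) (cs (rf (nat_lit 8)) (rf (nat_lit 9))))) (nd (nat_lit 210) (nat_lit 0) (cs (rf (nat_lit 10)) (cs (rf (nat_lit 11)) (cs (rf (nat_lit 12)) (cs (nd (nat_lit 188) (nat_lit 0) (cs (lf (nat_lit 36) (nat_lit 165)) (nd (nat_lit 189) (nat_lit 0) (cs (lf (nat_lit 35) (nat_lit 166)) (nd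 (nat_lit 211) (nat_lit 0) (cs (lf (nat_lit 30) (nat_lit 188)) (rf (nat_lit 13)))))))) (cs (nd (nat_lit 209) (nat_lit 0) (cs (rf (nat_lit 14)) (cs (rf (nat_lit 15)) (rf (nat_lit 16))))) (nd (nat_lit 209) (nat_lit 0) (cs (rf (nat_lit 16)) (cs (nd (nat_lit 188) (nat_lit 0) (cs (lf (nat_lit 36) (nat_lit 165)) (rf (nat_lit 17)))) (cs (nd (nat_lit 166) (nat_lit 0) (cs (lf (nat_lit 37) (nat_lit 165)) (nd (nat_lit 187) (nat_lit 0) (cs (lf (nat_lit 24) (nat_lit 165)) (nd (nat_lit 252) (nat_lit 0) (cs (lf (nat_lit 41) (nat_lit 186)) (nd (nat_lit 164) (nat_lit 0) (cs (lf (nat_lit 46) (nat_lit 164)) (rf (nat_lit 18)))))))))) (nd (nat_lit 187) (nat_lit 0) (cs (lf (nat_lit 24) (nat_lit 165)) (nd (nat_lit 164) (nat_lit 0) (cs (lf (nat_lit 46) (nat_lit 164)) (nd (nat_lit 252) (nat_lit 0) (cs (lf (nat_lit 41) (nat_lit 186)) (nd (nat_lit 166) (nat_lit 0) (cs (lf (nat_lit 37) (nat_lit 165)) (nd (nat_lit 251) (nat_lit 0) (cs (lf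 (nat_lit 12) (nat_lit 228)) (nd (nat_lit 229) (nat_lit 0) (cs (lf (nat_lit 23) (nat_lit 228)) (nd (nat_lit 272) (nat_lit 0) (cs (lf (nat_lit 10) (nat_lit 250)) (nd (nat_lit 230) (nat_lit 0) (cs (lf (nat_lit 5) (nat_lit 229)) (nd (nat_lit 207) (nat_lit 0) (cs (lf (nat_lit 23) (nat_lit 206)) (nd (nat_lit 185) (nat_lit 0) (cs (lf (nat_lit 24) (nat_lit 163)) (nd (nat_lit 184) (nat_lit 0) (cs (lf (nat_lit 47) (nat_lit 162)) (lf (nat_lit 20) (nat_lit 184))))))))))))))))))))))))))))))))))))))))) q104045 (by decide +kernel)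
def q104119 : Q := Q.p (nat_lit 0x2000018000000000000000000000000000000000000000000000000000000000) (nat_lit 0x40000d0000ff0003dc000c70003fc000ff0000f00001c00000000000000000000000000000000000) (nat_lit 10)
theorem c104119 : QOK q104119 := cut [q91035, q104106, q104107, q1563, q80070, q102020, q79193, q103430, q104112, q104117, q98253, q103773, q103774, q103776] ⟨c91035, c104106, c104107, c1563, c80070, c102020, c79193, c103430, c104112, c104117, c98253, c103773, c103774, c103776, trivial⟩ (nd (nat_lit 210) (nat_lit 0) (cs (rf (nat_lit 0)) (cs (rf (nat_lit 1)) (cs (nd (nat_lit 209) (nat_lit 0) (cs (rf (nat_lit 2)) (cs (nd (nat_lit 208) (nat_lit 0) (cs (rf (nat_lit 3)) (cs (rf (nat_lit 4)) (nd (nat_lit 186) (nat_lit 0) (cs (lf (nat_lit 42) (nat_lit 186)) (nd (nat_lit 185) (nat_lit 0) (cs (lf (nat_lit 18) (nat_lit 185)) (rf (nat_lit 5))))))))) (nd (nat_lit 254) (nat_lit 0) (cs (rf (nat_lit 6)) (cs (rf (nat_lit 7))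 (rf (nat_lit 8)))))))) (cs (rf (nat_lit 9)) (nd (nat_lit 254) (nat_lit 0) (cs (rf (nat_lit 10)) (cs (rf (nat_lit 11)) (cs (rf (nat_lit 12)) (rf (nat_lit 13))))))))))) q104119 (by decide +kernel)
def q104983 : Q := Q.p (nat_lit 0x2000010000000000000000000000000000000000000000000000000000000000) (nat_lit 0x8000060000be0002fc001ff8007dc003ef80037c000ff0000fc0002f00000000000000000000000000000000000) (nat_lit 16)
theorem c104983 : QOK q104983 := cut [q103083, q103482, q103951, q104437, q104937, q104953, q104963, q104968, q81677, q81730, q103516, q102860, q103610, q104935, q104969, q79098, q103432, q104932] ⟨c103083, c103482, c103951, c104437, c104937, c104953, c104963, c104968, c81677, c81730, c103516, c102860, c103610, c104935, c104969, c79098, c103432, c104932, trivial⟩ (nd (nat_lit 254) (nat_lit 0) (cs (rf (nat_lit 0)) (cs (rf (nat_lit 1)) (cs (rf (nat_lit 2)) (cs (rf (nat_lit 3)) (cs (rf (nat_lit 4)) (cs (rf (nat_lit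 5)) (cs (rf (nat_lit 6)) (cs (rf (nat_lit 7)) (nd (nat_lit 252) (nat_lit 0) (cs (rf (nat_lit 8)) (cs (rf (nat_lit 9)) (cs (rf (nat_lit 10)) (nd (nat_lit 255) (nat_lit 0) (cs (rf (nat_lit 11)) (cs (rf (nat_lit 12)) (cs (rf (nat_lit 13)) (cs (nd (nat_lit 229) (nat_lit 0) (cs (lf (nat_lit 22) (nat_lit 229)) (nd (nat_lit 234) (nat_lit 0) (cs (lf (nat_lit 16) (nat_lit 230)) (nd (nat_lit 256) (nat_lit 0) (cs (lf (nat_lit 17) (nat_lit 231)) (nd (nat_lit 257) (nat_lit 0) (cs (lf (nat_lit 23) (nat_lit 231)) (nd (nat_lit 276) (nat_lit 0) (cs (lf (nat_lit 11) (nat_lit 253)) (nd (nat_lit 279) (nat_lit 0) (cs (lf (nat_lit 5) (nat_lit 254)) (nd (nat_lit 301) (nat_lit 0) (cs (lf (nat_lit 42) (nat_lit 234)) (nd (nat_lit 190) (nat_lit 0) (cs (lf (nat_lit 25) (nat_lit 190)) (nd (nat_lit 277) (nat_lit 0) (cs (lf (nat_lit 6) (nat_lit 254)) (rf (nat_lit 14)))))))))))))))))))) (nd (nat_lit 230) (nat_lit 0) (cs (lf (nat_lit 23) (nat_lit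 229)) (nd (nat_lit 231) (nat_lit 0) (cs (rf (nat_lit 15)) (cs (rf (nat_lit 16)) (rf (nat_lit 17))))))))))))))))))))))))) q104983 (by decide +kernel)
def q105100 : Q := Q.p (nat_lit 0x2000010000000000000000000000000000000000000000000000000000000000) (nat_lit 0x500003e0000fe000ff8007df000ef8007fe0005f00007c0000500000000000000000000000000000000000) (nat_lit 15)
theorem c105100 : QOK q105100 := cut [q102765, q103150, q104066, q104143, q104348, q104678, q87016, q103149, q105096, q97382, q102535, q102738, q102742, q103153, q26315, q102760] ⟨c102765, c103150, c104066, c104143, c104348, c104678, c87016, c103149, c105096, c97382, c102535, c102738, c102742, c103153, c26315, c102760, trivial⟩ (nd (nat_lit 231) (nat_lit 0) (cs (rf (nat_lit 0)) (cs (rf (nat_lit 1)) (cs (rf (nat_lit 2)) (cs (rf (nat_lit 3)) (cs (rf (nat_lit 4)) (cs (rf (nat_lit 5)) (cs (nd (nat_lit 275) (nat_lit 0) (cs (rf (nat_lit 6)) (cs (rf (nat_lit 7))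 (rf (nat_lit 8))))) (cs (nd (nat_lit 233) (nat_lit 0) (cs (rf (nat_lit 9)) (cs (rf (nat_lit 10)) (cs (rf (nat_lit 11)) (cs (rf (nat_lit 12)) (rf (nat_lit 13))))))) (nd (nat_lit 275) (nat_lit 0) (cs (rf (nat_lit 14)) (cs (rf (nat_lit 6)) (cs (rf (nat_lit 15)) (rf (nat_lit 8))))))))))))))) q105100 (by decide +kernel)
def q105308 : Q := Q.p (nat_lit 0xc00003000000000000000000000000000000000000000000000000000000000000000) (nat_lit 0x60000180001ee000738001c6000300000c0000300000000000000000000000000000000000000000000000) (nat_lit 11)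
theorem c105308 : QOK q105308 := cut [q84408, q98384, q105307] ⟨c84408, c98384, c105307, trivial⟩ (nd (nat_lit 273) (nat_lit 0) (cs (rf (nat_lit 0)) (cs (rf (nat_lit 1)) (rf (nat_lit 2))))) q105308 (by decide +kernel)
def q105473 : Q := Q.p (nat_lit 0x800003000000000000000000000000000000000000000000000000000000000000000) (nat_lit 0x40000160001fe000778001c60007f8003fe0001e0000700000400000000000000000000000000000000000) (nat_lit 12)
theorem c105473 : QOK q105473 := cut [q100793, q100796, q95663, q105466, q105467, q81477, q92844, q26315, q97706, q98468, q105227, q105276, q105279, q24703, q105230, q105275, q82063] ⟨c100793, c100796, c95663, c105466, c105467, c81477, c92844, c26315, c97706, c98468, c105227, c105276, c105279, c24703, c105230, c105275, c82063, trivial⟩ (nd (nat_lit 230) (nat_lit 0) (cs (rf (nat_lit 0)) (cs (rf (nat_lit 1)) (cs (nd (nat_lit 231) (nat_lit 0) (cs (rf (nat_lit 2)) (cs (rf (nat_lit 3)) (rf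 (nat_lit 4))))) (cs (nd (nat_lit 231) (nat_lit 0) (cs (rf (nat_lit 5)) (cs (rf (nat_lit 6)) (nd (nat_lit 232) (nat_lit 0) (cs (rf (nat_lit 7)) (rf (nat_lit 8))))))) (cs (nd (nat_lit 274) (nat_lit 0) (cs (rf (nat_lit 9)) (cs (rf (nat_lit 10)) (cs (rf (nat_lit 11)) (rf (nat_lit 12)))))) (nd (nat_lit 231) (nat_lit 0) (cs (nd (nat_lit 274) (nat_lit 0) (cs (rf (nat_lit 13)) (cs (nd (nat_lit 296) (nat_lit 0) (cs (lf (nat_lit 30) (nat_lit 230)) (rf (nat_lit 14)))) (rf (nat_lit 15))))) (cs (rf (nat_lit 3)) (nd (nat_lit 297) (nat_lit 0) (cs (lf (nat_lit 47) (nat_lit 208)) (rf (nat_lit 16))))))))))))) q105473 (by decide +kernel)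
def q105483 : Q := Q.p (nat_lit 0x200000800003000000000000000000000000000000000000000000000000000000000000000) (nat_lit 0x10000040000100001c00007f8003fe000140000400000000000000000000000000000000000000000) (nat_lit 9)
theorem c105483 : QOK q105483 := cut [q11869, q88936, q105482] ⟨c11869, c88936, c105482, trivial⟩ (nd (nat_lit 231) (nat_lit 0) (cs (rf (nat_lit 0)) (cs (rf (nat_lit 1)) (rf (nat_lit 2))))) q105483 (by decide +kernel)
def q105752 : Q := Q.p (nat_lit 0x3000000000000000000000000000000000000000000000000000000000000000) (nat_lit 0x380000e0000780003fc001ff0007fe0018e0007fc001fe0001f80003a0000000000000000000000000000000000000000) (nat_lit 17)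
theorem c105752 : QOK q105752 := cut [q81014, q87384, q81007, q81787, q88192, q105515, q105562, q105580, q105602, q105615, q91409, q105531, q91960, q98479, q105624, q81477, q105601, q79097, q92014, q98731, q105402, q105530, q105532, q105647, q105706, q80649, q105708, q42165, q84212, q105711, q25410, q105713, q105738, q87375, q105695, q25409, q81803, q105701, q83751] ⟨c81014, c87384, c81007, c81787, c88192, c105515, c105562, c105580, c105602, c105615, c91409, c105531, c91960, c98479, c105624, c81477, c105601, c79097, c92014, c98731, c105402, c105530, c105532, c105647, c105706, c80649, c105708, c42165, c84212, c105711, c25410, c105713, c105738, c87375, c105695, c25409, c81803, c105701, c83751, trivial⟩ (nd (nat_lit 274) (nat_lit 0) (cs (nd (nat_lit 296) (nat_lit 0) (cs (rf (nat_lit 0)) (cs (rf (nat_lit 1)) (cs (nd (nat_lit 230) (nat_lit 0) (cs (rf (nat_lit 2)) (cs (rf (nat_lit 3)) (cs (nd (nat_lit 207) (nat_lit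 0) (cs (lf (nat_lit 46) (nat_lit 207)) (nd (nat_lit 209) (nat_lit 0) (cs (lf (nat_lit 34) (nat_lit 208)) (nd (nat_lit 208) (nat_lit 0) (cs (lf (nat_lit 35) (nat_lit 186)) (lf (nat_lit 47) (nat_lit 185)))))))) (nd (nat_lit 231) (nat_lit 0) (cs (lf (nat_lit 35) (nat_lit 208)) (nd (nat_lit 295) (nat_lit 0) (cs (lf (nat_lit 41) (nat_lit 229)) (rf (nat_lit 4)))))))))) (rf (nat_lit 5)))))) (cs (rf (nat_lit 6)) (cs (rf (nat_lit 7)) (cs (rf (nat_lit 8)) (cs (rf (nat_lit 9)) (cs (nd (nat_lit 231) (nat_lit 0) (cs (rf (nat_lit 10)) (cs (nd (nat_lit 209) (nat_lit 0) (cs (lf (nat_lit 36) (nat_lit 186)) (nd (nat_lit 275) (nat_lit 0) (cs (lf (nat_lit 41) (nat_lit 208)) (nd (nat_lit 188) (nat_lit 0) (cs (lf (nat_lit 34) (nat_lit 187)) (rf (nat_lit 11)))))))) (cs (nd (nat_lit 230) (nat_lit 0) (cs (nd (nat_lit 275) (nat_lit 0) (cs (rf (nat_lit 12)) (rf (nat_lit 13)))) (cs (rf (nat_lit 14)) (nd (nat_lit 275) (nat_lit 0) (cs (rf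 (nat_lit 15)) (cs (rf (nat_lit 12)) (rf (nat_lit 16)))))))) (cs (nd (nat_lit 230) (nat_lit 0) (cs (rf (nat_lit 17)) (cs (rf (nat_lit 18)) (rf (nat_lit 14))))) (nd (nat_lit 275) (nat_lit 0) (cs (rf (nat_lit 19)) (cs (rf (nat_lit 20)) (cs (rf (nat_lit 21)) (rf (nat_lit 22))))))))))) (cs (rf (nat_lit 23)) (cs (rf (nat_lit 24)) (cs (nd (nat_lit 296) (nat_lit 0) (cs (rf (nat_lit 25)) (cs (rf (nat_lit 0)) (cs (rf (nat_lit 26)) (nd (nat_lit 318) (nat_lit 0) (cs (rf (nat_lit 27)) (rf (nat_lit 28)))))))) (cs (nd (nat_lit 296) (nat_lit 0) (cs (rf (nat_lit 25)) (cs (rf (nat_lit 29)) (nd (nat_lit 318) (nat_lit 0) (cs (rf (nat_lit 30)) (cs (rf (nat_lit 27)) (rf (nat_lit 31)))))))) (cs (rf (nat_lit 32)) (cs (nd (nat_lit 296) (nat_lit 0) (cs (rf (nat_lit 25)) (cs (rf (nat_lit 0)) (cs (rf (nat_lit 26)) (nd (nat_lit 318) (nat_lit 0) (cs (rf (nat_lit 28)) (cs (rf (nat_lit 33)) (cs (rf (nat_lit 34)) (rf (nat_lit 31)))))))))) (nd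 (nat_lit 296) (nat_lit 0) (cs (rf (nat_lit 25)) (cs (rf (nat_lit 29)) (nd (nat_lit 317) (nat_lit 0) (cs (nd (nat_lit 318) (nat_lit 0) (cs (lf (nat_lit 41) (nat_lit 251)) (rf (nat_lit 35)))) (cs (nd (nat_lit 318) (nat_lit 0) (cs (lf (nat_lit 41) (nat_lit 251)) (rf (nat_lit 33)))) (cs (nd (nat_lit 230) (nat_lit 0) (cs (lf (nat_lit 40) (nat_lit 229)) (nd (nat_lit 207) (nat_lit 0) (cs (lf (nat_lit 46) (nat_lit 207)) (nd (nat_lit 208) (nat_lit 0) (cs (lf (nat_lit 47) (nat_lit 185)) (rf (nat_lit 36)))))))) (cs (nd (nat_lit 318) (nat_lit 0) (cs (lf (nat_lit 41) (nat_lit 251)) (nd (nat_lit 229) (nat_lit 0) (cs (lf (nat_lit 46) (nat_lit 229)) (rf (nat_lit 37)))))) (nd (nat_lit 318) (nat_lit 0) (cs (lf (nat_lit 41) (nat_lit 251)) (nd (nat_lit 230) (nat_lit 0) (cs (lf (nat_lit 40) (nat_lit 229)) (rf (nat_lit 38))))))))))))))))))))))))))) q105752 (by decide +kernel)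
def q105910 : Q := Q.p (nat_lit 0x3000008000000000000000000000000000000000000000000000000000000000) (nat_lit 0xe000078000378001c6000778001fe0003f8000fc0001000000000000000000000000000000000000) (nat_lit 14)
theorem c105910 : QOK q105910 := cut [q84417, q84425, q84447, q105873, q80214, q105884, q105886, q84852, q84422, q105890, q79097, q98472, q105893, q105902, q105905, q105909] ⟨c84417, c84425, c84447, c105873, c80214, c105884, c105886, c84852, c84422, c105890, c79097, c98472, c105893, c105902, c105905, c105909, trivial⟩ (nd (nat_lit 230) (nat_lit 0) (cs (nd (nat_lit 229) (nat_lit 0) (cs (rf (nat_lit 0)) (cs (nd (nat_lit 232) (nat_lit 0) (cs (rf (nat_lit 1)) (cs (rf (nat_lit 2)) (rf (nat_lit 3))))) (nd (nat_lit 228) (nat_lit 0) (cs (lf (nat_lit 0) (nat_lit 227)) (nd (nat_lit 249) (nat_lit 0) (cs (lf (nat_lit 10) (nat_lit 227)) (nd (nat_lit 206) (nat_lit 0) (cs (lf (nat_lit 23) (nat_lit 205)) (nd (nat_lit 207)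 (nat_lit 0) (cs (lf (nat_lit 18) (nat_lit 206)) (rf (nat_lit 4))))))))))))) (cs (rf (nat_lit 5)) (cs (rf (nat_lit 6)) (cs (nd (nat_lit 229) (nat_lit 0) (cs (rf (nat_lit 0)) (cs (rf (nat_lit 7)) (nd (nat_lit 232) (nat_lit 0) (cs (rf (nat_lit 8)) (cs (rf (nat_lit 1)) (rf (nat_lit 9)))))))) (cs (nd (nat_lit 274) (nat_lit 0) (cs (rf (nat_lit 10)) (cs (rf (nat_lit 11)) (rf (nat_lit 12))))) (cs (nd (nat_lit 229) (nat_lit 0) (cs (rf (nat_lit 0)) (cs (rf (nat_lit 13)) (rf (nat_lit 14))))) (rf (nat_lit 15))))))))) q105910 (by decide +kernel)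
def q106403 : Q := Q.p (nat_lit 0x3000000000000000000000000000000000000000000000000000000000000000) (nat_lit 0xa0000f80003f0001fc003ffc007ce003fdc003fe0007e0000f80001400000000000000000000000000000000000) (nat_lit 19)
theorem c106403 : QOK q106403 := cut [q81353, q81873, q106216, q106217, q106244, q106256, q83707, q106263, q80649, q81014, q105737, q91797, q95187, q22018, q98948, q86717, q98891, q80881, q81837, q105952, q80276, q106278, q81834, q96443, q105254, q81825, q82300, q82301, q82309, q79054, q81855, q91882, q106292, q106305, q106397, q79231, q80688, q105190, q102864, q105822, q106400, q106402] ⟨c81353, c81873, c106216, c106217, c106244, c106256, c83707, c106263, c80649, c81014, c105737, c91797, c95187, c22018, c98948, c86717, c98891, c80881, c81837, c105952, c80276, c106278, c81834, c96443, c105254, c81825, c82300, c82301, c82309, c79054, c81855, c91882, c106292, c106305, c106397, c79231, c80688, c105190,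 c102864, c105822, c106400, c106402, trivial⟩ (nd (nat_lit 254) (nat_lit 0) (cs (rf (nat_lit 0)) (cs (rf (nat_lit 1)) (cs (rf (nat_lit 2)) (cs (rf (nat_lit 3)) (cs (rf (nat_lit 4)) (cs (rf (nat_lit 5)) (cs (nd (nat_lit 274) (nat_lit 0) (cs (rf (nat_lit 6)) (cs (rf (nat_lit 7)) (cs (nd (nat_lit 296) (nat_lit 0) (cs (rf (nat_lit 8)) (cs (rf (nat_lit 9)) (cs (rf (nat_lit 10)) (nd (nat_lit 297) (nat_lit 0) (cs (rf (nat_lit 11)) (cs (rf (nat_lit 12)) (cs (nd (nat_lit 275) (nat_lit 0) (cs (rf (nat_lit 13)) (rf (nat_lit 14)))) (nd (nat_lit 275) (nat_lit 0) (cs (rf (nat_lit 13)) (cs (rf (nat_lit 15)) (nd (nat_lit 209) (nat_lit 0) (cs (lf (nat_lit 37) (nat_lit 208)) (nd (nat_lit 272) (nat_lit 0) (cs (lf (nat_lit 13) (nat_lit 250)) (nd (nat_lit 319) (nat_lit 0) (cs (lf (nat_lit 42) (nat_lit 252)) (nd (nat_lit 320) (nat_lit 0) (cs (lf (nat_lit 29) (nat_lit 253)) (nd (nat_lit 295) (nat_lit 0) (cs (lf (nat_lit 0) (nat_lit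 294)) (nd (nat_lit 277) (nat_lit 0) (cs (lf (nat_lit 7) (nat_lit 273)) (nd (nat_lit 298) (nat_lit 0) (cs (lf (nat_lit 5) (nat_lit 295)) (rf (nat_lit 16))))))))))))))))))))))))))) (cs (nd (nat_lit 231) (nat_lit 0) (cs (rf (nat_lit 17)) (cs (rf (nat_lit 18)) (cs (nd (nat_lit 296) (nat_lit 0) (cs (lf (nat_lit 30) (nat_lit 230)) (nd (nat_lit 277) (nat_lit 0) (cs (rf (nat_lit 19)) (cs (nd (nat_lit 276) (nat_lit 0) (cs (rf (nat_lit 20)) (cs (nd (nat_lit 278) (nat_lit 0) (cs (lf (nat_lit 18) (nat_lit 253)) (nd (nat_lit 298) (nat_lit 0) (cs (lf (nat_lit 42) (nat_lit 231)) (nd (nat_lit 297) (nat_lit 0) (cs (lf (nat_lit 12) (nat_lit 273)) (lf (nat_lit 15) (nat_lit 274)))))))) (rf (nat_lit 21))))) (nd (nat_lit 255) (nat_lit 0) (cs (rf (nat_lit 22)) (cs (rf (nat_lit 23)) (nd (nat_lit 276) (nat_lit 0) (cs (rf (nat_lit 24)) (cs (rf (nat_lit 21)) (nd (nat_lit 233) (nat_lit 0) (cs (lf (nat_lit 17) (nat_lit 230)) (nd (nat_lit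 189) (nat_lit 0) (cs (lf (nat_lit 37) (nat_lit 188)) (rf (nat_lit 25))))))))))))))))) (nd (nat_lit 209) (nat_lit 0) (cs (rf (nat_lit 26)) (cs (rf (nat_lit 27)) (cs (rf (nat_lit 28)) (nd (nat_lit 275) (nat_lit 0) (cs (rf (nat_lit 29)) (cs (rf (nat_lit 30)) (cs (rf (nat_lit 31)) (rf (nat_lit 32)))))))))))))) (rf (nat_lit 33))))))) (cs (rf (nat_lit 34)) (cs (nd (nat_lit 251) (nat_lit 0) (cs (rf (nat_lit 35)) (cs (rf (nat_lit 36)) (rf (nat_lit 37))))) (cs (nd (nat_lit 255) (nat_lit 0) (cs (rf (nat_lit 38)) (cs (rf (nat_lit 39)) (rf (nat_lit 40))))) (rf (nat_lit 41))))))))))))) q106403 (by decide +kernel)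
def q106626 : Q := Q.p (nat_lit 0x3800000000000000000000000000000000000000000000000000000000000000) (nat_lit 0x100000700003c0000fc000c00003fc000fe0003f00003c0000500000000000000000000000000000000000) (nat_lit 13)
theorem c106626 : QOK q106626 := cut [q82198, q93918, q106624, q106625] ⟨c82198, c93918, c106624, c106625, trivial⟩ (nd (nat_lit 229) (nat_lit 0) (cs (rf (nat_lit 0)) (cs (rf (nat_lit 1)) (cs (rf (nat_lit 2)) (rf (nat_lit 3)))))) q106626 (by decide +kernel)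
def q106819 : Q := Q.p (nat_lit 0x3000000000000000000000000000000000000000000000000000000000000000) (nat_lit 0x300000c00007c0003f8000ff000ffe001cf000fee001fe0003f0000f80001e00000000000000000000000000000000000) (nat_lit 19)
theorem c106819 : QOK q106819 := cut [q105850, q106425, q106663, q106746, q79231, q105192, q105203, q106748, q88302, q106756, q80583, q86907, q106758, q106759, q105686, q106760, q106763, q80649, q106767, q106771, q106782, q85505, q87096, q106135, q106793, q106794, q6561, q79029, q106107, q93555, q105124, q102948, q106807, q106812, q106813, q81494, q81716, q105829, q106423, q106817] ⟨c105850, c106425, c106663, c106746, c79231, c105192, c105203, c106748, c88302, c106756, c80583, c86907, c106758, c106759, c105686, c106760, c106763, c80649, c106767, c106771, c106782, c85505, c87096, c106135, c106793, c106794, c6561, c79029, c106107, c93555, c105124, c102948, c106807, c106812, c106813, c81494, c81716,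 c105829, c106423, c106817, trivial⟩ (nd (nat_lit 251) (nat_lit 0) (cs (rf (nat_lit 0)) (cs (rf (nat_lit 1)) (cs (rf (nat_lit 2)) (cs (rf (nat_lit 3)) (cs (nd (nat_lit 254) (nat_lit 0) (cs (rf (nat_lit 4)) (cs (rf (nat_lit 5)) (rf (nat_lit 6))))) (cs (rf (nat_lit 7)) (cs (nd (nat_lit 273) (nat_lit 0) (cs (rf (nat_lit 8)) (cs (rf (nat_lit 9)) (cs (nd (nat_lit 295) (nat_lit 0) (cs (rf (nat_lit 10)) (cs (rf (nat_lit 11)) (cs (nd (nat_lit 296) (nat_lit 0) (cs (rf (nat_lit 12)) (cs (rf (nat_lit 13)) (cs (nd (nat_lit 274) (nat_lit 0) (cs (rf (nat_lit 14)) (cs (rf (nat_lit 15)) (rf (nat_lit 16))))) (cs (nd (nat_lit 274) (nat_lit 0) (cs (rf (nat_lit 17)) (cs (rf (nat_lit 16)) (rf (nat_lit 18))))) (rf (nat_lit 19))))))) (rf (nat_lit 20)))))) (nd (nat_lit 230) (nat_lit 0) (cs (rf (nat_lit 21)) (cs (rf (nat_lit 22)) (cs (nd (nat_lit 295) (nat_lit 0) (cs (lf (nat_lit 30) (nat_lit 229)) (nd (nat_lit 254) (nat_lit 0) (cs (rf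 (nat_lit 23)) (cs (rf (nat_lit 24)) (rf (nat_lit 25))))))) (nd (nat_lit 208) (nat_lit 0) (cs (rf (nat_lit 26)) (cs (rf (nat_lit 27)) (cs (rf (nat_lit 28)) (nd (nat_lit 274) (nat_lit 0) (cs (rf (nat_lit 29)) (cs (rf (nat_lit 30)) (cs (nd (nat_lit 254) (nat_lit 0) (cs (lf (nat_lit 6) (nat_lit 251)) (nd (nat_lit 276) (nat_lit 0) (cs (lf (nat_lit 5) (nat_lit 251)) (nd (nat_lit 232) (nat_lit 0) (cs (lf (nat_lit 17) (nat_lit 229)) (nd (nat_lit 275) (nat_lit 0) (cs (lf (nat_lit 29) (nat_lit 208)) (nd (nat_lit 210) (nat_lit 0) (cs (lf (nat_lit 36) (nat_lit 187)) (rf (nat_lit 31)))))))))))) (rf (nat_lit 32)))))))))))))))))) (cs (rf (nat_lit 33)) (cs (rf (nat_lit 34)) (nd (nat_lit 254) (nat_lit 0) (cs (rf (nat_lit 35)) (cs (rf (nat_lit 36)) (cs (rf (nat_lit 37)) (cs (rf (nat_lit 38)) (rf (nat_lit 39))))))))))))))))) q106819 (by decide +kernel)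
def q106942 : Q := Q.p (nat_lit 0x3000000000000000000000000000000000000000000000000000000000000000) (nat_lit 0xa0000fc0003fc003fe003ffc007ce001dfc003fc0007e0000f80001e00000000000000000000000000000000000) (nat_lit 16)
theorem c106942 : QOK q106942 := cut [q81353, q81495, q105825, q106567, q81318, q105615, q106889, q79028, q80985, q106890, q106893, q79009, q79024, q79201, q105828, q81492, q86771, q86773, q86778, q96398, q81411, q106114, q81413, q90151, q81435, q81438, q106235, q106238, q16930, q106905, q106906, q106909, q106920, q106924, q106926, q106929, q80905, q81463, q2624, q79007, q96402, q106935, q82301, q93029, q81466, q81471, q106342] ⟨c81353, c81495, c105825, c106567, c81318, c105615, c106889, c79028, c80985, c106890, c106893, c79009, c79024, c79201, c105828, c81492, c86771, c86773, c86778, c96398, c81411, c106114, c81413, c90151, c81435, c81438, c106235, c106238, c16930, c106905, c106906, c106909, c106920,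 c106924, c106926, c106929, c80905, c81463, c2624, c79007, c96402, c106935, c82301, c93029, c81466, c81471, c106342, trivial⟩ (nd (nat_lit 254) (nat_lit 0) (cs (rf (nat_lit 0)) (cs (rf (nat_lit 1)) (cs (rf (nat_lit 2)) (cs (rf (nat_lit 3)) (cs (nd (nat_lit 274) (nat_lit 0) (cs (rf (nat_lit 4)) (cs (rf (nat_lit 5)) (cs (rf (nat_lit 6)) (cs (nd (nat_lit 230) (nat_lit 0) (cs (rf (nat_lit 7)) (cs (rf (nat_lit 8)) (rf (nat_lit 9))))) (rf (nat_lit 10))))))) (cs (nd (nat_lit 251) (nat_lit 0) (cs (rf (nat_lit 11)) (cs (rf (nat_lit 12)) (cs (rf (nat_lit 13)) (rf (nat_lit 14)))))) (cs (nd (nat_lit 251) (nat_lit 0) (cs (rf (nat_lit 15)) (cs (rf (nat_lit 16)) (cs (rf (nat_lit 17)) (cs (rf (nat_lit 18)) (rf (nat_lit 19))))))) (nd (nat_lit 276) (nat_lit 0) (cs (rf (nat_lit 20)) (cs (rf (nat_lit 21)) (cs (nd (nat_lit 298) (nat_lit 0) (cs (rf (nat_lit 22)) (cs (rf (nat_lit 23)) (cs (nd (nat_lit 319) (nat_lit 0) (cs (rf (nat_lit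 24)) (cs (rf (nat_lit 25)) (cs (rf (nat_lit 26)) (cs (rf (nat_lit 27)) (nd (nat_lit 320) (nat_lit 0) (cs (lf (nat_lit 41) (nat_lit 253)) (nd (nat_lit 275) (nat_lit 0) (cs (lf (nat_lit 42) (nat_lit 253)) (nd (nat_lit 277) (nat_lit 0) (cs (lf (nat_lit 18) (nat_lit 252)) (nd (nat_lit 321) (nat_lit 0) (cs (lf (nat_lit 29) (nat_lit 254)) (nd (nat_lit 299) (nat_lit 0) (cs (rf (nat_lit 28)) (lf (nat_lit 24) (nat_lit 232))))))))))))))))) (nd (nat_lit 297) (nat_lit 0) (cs (rf (nat_lit 29)) (cs (rf (nat_lit 30)) (cs (nd (nat_lit 275) (nat_lit 0) (cs (rf (nat_lit 31)) (cs (nd (nat_lit 231) (nat_lit 0) (cs (lf (nat_lit 24) (nat_lit 209)) (nd (nat_lit 208) (nat_lit 0) (cs (lf (nat_lit 46) (nat_lit 208)) (nd (nat_lit 296) (nat_lit 0) (cs (lf (nat_lit 41) (nat_lit 230)) (nd (nat_lit 295) (nat_lit 0) (cs (lf (nat_lit 12) (nat_lit 272)) (nd (nat_lit 273) (nat_lit 0) (cs (lf (nat_lit 23) (nat_lit 272)) (nd (nat_lit 317) (nat_lit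 0) (cs (lf (nat_lit 11) (nat_lit 294)) (nd (nat_lit 274) (nat_lit 0) (cs (lf (nat_lit 30) (nat_lit 251)) (lf (nat_lit 18) (nat_lit 273)))))))))))))))) (cs (rf (nat_lit 32)) (rf (nat_lit 33)))))) (cs (rf (nat_lit 34)) (rf (nat_lit 35))))))))))) (nd (nat_lit 231) (nat_lit 0) (cs (rf (nat_lit 36)) (cs (rf (nat_lit 37)) (cs (nd (nat_lit 298) (nat_lit 0) (cs (lf (nat_lit 42) (nat_lit 231)) (nd (nat_lit 251) (nat_lit 0) (cs (rf (nat_lit 38)) (cs (rf (nat_lit 39)) (cs (rf (nat_lit 40)) (rf (nat_lit 41)))))))) (nd (nat_lit 209) (nat_lit 0) (cs (rf (nat_lit 42)) (cs (rf (nat_lit 43)) (nd (nat_lit 275) (nat_lit 0) (cs (rf (nat_lit 44)) (cs (rf (nat_lit 45)) (rf (nat_lit 46)))))))))))))))))))))))) q106942 (by decide +kernel)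
def q106964 : Q := Q.p (nat_lit 0x3000000000000000000000000000000000000000000000000000000000000000) (nat_lit 0x100000780005e0007fc001ce0007fc000fe0003f80007c0000500000000000000000000000000000000000) (nat_lit 16)
theorem c106964 : QOK q106964 := cut [q105200, q105202, q105204, q105772, q82198, q105134, q106625, q5482, q11484, q80450, q82226, q11856, q82211, q88108, q3765, q23543, q23609, q89986, q88412, q98705] ⟨c105200, c105202, c105204, c105772, c82198, c105134, c106625, c5482, c11484, c80450, c82226, c11856, c82211, c88108, c3765, c23543, c23609, c89986, c88412, c98705, trivial⟩ (nd (nat_lit 251) (nat_lit 0) (cs (rf (nat_lit 0)) (cs (rf (nat_lit 1)) (cs (rf (nat_lit 2)) (cs (rf (nat_lit 3)) (cs (nd (nat_lit 229) (nat_lit 0) (cs (rf (nat_lit 4)) (cs (rf (nat_lit 5)) (cs (rf (nat_lit 6)) (nd (nat_lit 207) (nat_lit 0) (cs (rf (nat_lit 7)) (cs (rf (nat_lit 8)) (cs (rf (nat_lit 9)) (cs (rf (nat_lit 10)) (nd (nat_lit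 273) (nat_lit 0) (cs (rf (nat_lit 11)) (cs (rf (nat_lit 12)) (nd (nat_lit 184) (nat_lit 0) (cs (lf (nat_lit 46) (nat_lit 184)) (nd (nat_lit 274) (nat_lit 0) (cs (lf (nat_lit 29) (nat_lit 207)) (nd (nat_lit 208) (nat_lit 0) (cs (lf (nat_lit 35) (nat_lit 185)) (nd (nat_lit 230) (nat_lit 0) (cs (lf (nat_lit 30) (nat_lit 207)) (rf (nat_lit 13)))))))))))))))))))))) (nd (nat_lit 250) (nat_lit 0) (cs (rf (nat_lit 14)) (cs (rf (nat_lit 15)) (nd (nat_lit 272) (nat_lit 0) (cs (lf (nat_lit 11) (nat_lit 249)) (nd (nat_lit 207) (nat_lit 0) (cs (rf (nat_lit 16)) (cs (rf (nat_lit 17)) (cs (nd (nat_lit 228) (nat_lit 0) (cs (lf (nat_lit 23) (nat_lit 227)) (nd (nat_lit 275) (nat_lit 0) (cs (lf (nat_lit 5) (nat_lit 250)) (rf (nat_lit 18)))))) (nd (nat_lit 231) (nat_lit 0) (cs (lf (nat_lit 17) (nat_lit 228)) (nd (nat_lit 275) (nat_lit 0) (cs (lf (nat_lit 5) (nat_lit 250)) (nd (nat_lit 228) (nat_lit 0) (cs (lf (nat_lit 23) (nat_lit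 227)) (nd (nat_lit 294) (nat_lit 0) (cs (lf (nat_lit 34) (nat_lit 206)) (nd (nat_lit 295) (nat_lit 0) (cs (lf (nat_lit 29) (nat_lit 228)) (nd (nat_lit 206) (nat_lit 0) (cs (lf (nat_lit 28) (nat_lit 206)) (nd (nat_lit 293) (nat_lit 0) (cs (lf (nat_lit 41) (nat_lit 227)) (nd (nat_lit 274) (nat_lit 0) (cs (lf (nat_lit 15) (nat_lit 271)) (nd (nat_lit 187) (nat_lit 0) (cs (lf (nat_lit 37) (nat_lit 186)) (rf (nat_lit 19))))))))))))))))))))))))))))))))))) q106964 (by decide +kernel)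
def q107006 : Q := Q.p (nat_lit 0x3000000000000000000000000000000000000000000000000000000000000000) (nat_lit 0x300000e0000f80003e0000fe001dfe007cf003ffe003fe0003e0000f80002a00000000000000000000000000000000000) (nat_lit 19)
theorem c107006 : QOK q107006 := cut [q80466, q81726, q81753, q106397, q106967, q79028, q81644, q6259, q79066, q96080, q106156, q106386, q106388, q106890, q79201, q79260, q80688, q81663, q81665, q81671, q81675, q96398, q79118, q81730, q106987, q79199, q79128, q80687, q81084, q94086, q97008, q81736, q88933, q88941, q105497, q82063, q88936, q88940, q92732] ⟨c80466, c81726, c81753, c106397, c106967, c79028, c81644, c6259, c79066, c96080, c106156, c106386, c106388, c106890, c79201, c79260, c80688, c81663, c81665, c81671, c81675, c96398, c79118, c81730, c106987, c79199, c79128, c80687, c81084, c94086, c97008, c81736, c88933, c88941, c105497, c82063, c88936, c88940, c92732, trivial⟩ (nd (nat_lit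 254) (nat_lit 0) (cs (rf (nat_lit 0)) (cs (rf (nat_lit 1)) (cs (rf (nat_lit 2)) (cs (rf (nat_lit 3)) (cs (rf (nat_lit 4)) (cs (nd (nat_lit 230) (nat_lit 0) (cs (rf (nat_lit 5)) (cs (rf (nat_lit 6)) (cs (nd (nat_lit 208) (nat_lit 0) (cs (rf (nat_lit 7)) (cs (rf (nat_lit 8)) (cs (rf (nat_lit 9)) (rf (nat_lit 10)))))) (nd (nat_lit 274) (nat_lit 0) (cs (rf (nat_lit 11)) (cs (rf (nat_lit 12)) (rf (nat_lit 13))))))))) (cs (nd (nat_lit 251) (nat_lit 0) (cs (rf (nat_lit 14)) (cs (rf (nat_lit 15)) (rf (nat_lit 16))))) (cs (nd (nat_lit 251) (nat_lit 0) (cs (rf (nat_lit 14)) (cs (rf (nat_lit 17)) (cs (rf (nat_lit 18)) (cs (rf (nat_lit 19)) (cs (rf (nat_lit 20)) (rf (nat_lit 21)))))))) (nd (nat_lit 232) (nat_lit 0) (cs (rf (nat_lit 22)) (cs (rf (nat_lit 23)) (cs (rf (nat_lit 24)) (nd (nat_lit 275) (nat_lit 0) (cs (rf (nat_lit 25)) (cs (nd (nat_lit 210) (nat_lit 0) (cs (rf (nat_lit 26)) (nd (nat_lit 251) (nat_lit 0) (cs (rf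 (nat_lit 14)) (cs (rf (nat_lit 27)) (cs (rf (nat_lit 28)) (nd (nat_lit 230) (nat_lit 0) (cs (rf (nat_lit 29)) (cs (rf (nat_lit 30)) (cs (nd (nat_lit 229) (nat_lit 0) (cs (lf (nat_lit 23) (nat_lit 228)) (nd (nat_lit 272) (nat_lit 0) (cs (lf (nat_lit 10) (nat_lit 250)) (rf (nat_lit 31)))))) (nd (nat_lit 229) (nat_lit 0) (cs (lf (nat_lit 23) (nat_lit 228)) (nd (nat_lit 186) (nat_lit 0) (cs (lf (nat_lit 25) (nat_lit 186)) (rf (nat_lit 31)))))))))))))))) (nd (nat_lit 297) (nat_lit 0) (cs (rf (nat_lit 32)) (cs (rf (nat_lit 33)) (cs (rf (nat_lit 34)) (nd (nat_lit 231) (nat_lit 0) (cs (rf (nat_lit 35)) (cs (rf (nat_lit 36)) (cs (rf (nat_lit 37)) (nd (nat_lit 230) (nat_lit 0) (cs (lf (nat_lit 47) (nat_lit 208)) (nd (nat_lit 298) (nat_lit 0) (cs (lf (nat_lit 29) (nat_lit 231)) (nd (nat_lit 228) (nat_lit 0) (cs (lf (nat_lit 1) (nat_lit 228)) (nd (nat_lit 296) (nat_lit 0) (cs (lf (nat_lit 41) (nat_lit 230)) (nd (nat_lit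 251) (nat_lit 0) (cs (lf (nat_lit 12) (nat_lit 228)) (nd (nat_lit 273) (nat_lit 0) (cs (lf (nat_lit 11) (nat_lit 250)) (nd (nat_lit 274) (nat_lit 0) (cs (lf (nat_lit 18) (nat_lit 273)) (rf (nat_lit 38)))))))))))))))))))))))))))))))))))))))) q107006 (by decide +kernel)
def q107010 : Q := Q.p (nat_lit 0x3000000000000000000000000000000000000000000000000000000000000000) (nat_lit 0x5c0001f8000fe0003fc001cf0007fc000ff0001f80007c0001500000000000000000000000000000000000) (nat_lit 16)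
theorem c107010 : QOK q107010 := cut [q82275, q96402, q105168, q3764, q12246, q82300, q82301, q82309, q105170, q105182, q105188, q105200, q105202, q105204, q105206, q106414, q106506] ⟨c82275, c96402, c105168, c3764, c12246, c82300, c82301, c82309, c105170, c105182, c105188, c105200, c105202, c105204, c105206, c106414, c106506, trivial⟩ (nd (nat_lit 251) (nat_lit 0) (cs (nd (nat_lit 231) (nat_lit 0) (cs (rf (nat_lit 0)) (cs (rf (nat_lit 1)) (cs (rf (nat_lit 2)) (nd (nat_lit 250) (nat_lit 0) (cs (rf (nat_lit 3)) (cs (rf (nat_lit 4)) (nd (nat_lit 209) (nat_lit 0) (cs (rf (nat_lit 5)) (cs (rf (nat_lit 6)) (cs (rf (nat_lit 7)) (cs (nd (nat_lit 227) (nat_lit 0) (cs (lf (nat_lit 22) (nat_lit 227)) (nd (nat_lit 271) (nat_lit 0) (cs (lf (nat_lit 10) (nat_lit 249)) (nd (nat_lit 275) (nat_lit 0) (cs (lf (nat_lit 5) (nat_lit 250)) (nd (nat_lit 188) (nat_lit 0) (cs (lf (nat_lit 34) (nat_lit 187)) (nd (nat_lit 166) (nat_lit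 0) (cs (lf (nat_lit 33) (nat_lit 165)) (rf (nat_lit 8)))))))))))) (rf (nat_lit 9)))))))))))))) (cs (rf (nat_lit 10)) (cs (rf (nat_lit 11)) (cs (rf (nat_lit 12)) (cs (rf (nat_lit 13)) (cs (rf (nat_lit 14)) (cs (rf (nat_lit 15)) (rf (nat_lit 16)))))))))) q107010 (by decide +kernel)
def q107184 : Q := Q.p (nat_lit 0x2000008000000000000000000000000000000000000000000000000000000000) (nat_lit 0x1c0007fc001fe000ffc001df000f7c001df0007f8001fe0000780000000000000000000000000000000000) (nat_lit 16)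
theorem c107184 : QOK q107184 := cut [q96355, q92711, q96758, q107072, q84429, q92727, q85044, q91962, q91990, q92761, q100902, q84626, q92730, q97957, q107079, q96409, q57663, q87131, q87908, q91239, q93599, q94098, q96415, q107085, q91958, q91970, q91976, q92757, q82275, q82278, q96497, q96502, q79020, q101089, q107068, q107070, q105830, q107114, q107138, q96579, q107139, q88808, q107142, q107155, q107175, q96618, q96646, q82198, q93918, q101199, q96402, q96575, q107173, q96622] ⟨c96355, c92711, c96758, c107072, c84429, c92727, c85044, c91962, c91990, c92761, c100902, c84626, c92730, c97957, c107079, c96409, c57663, c87131, c87908, c91239, c93599, c94098, c96415, c107085, c91958, c91970, c91976, c92757, c82275, c82278, c96497, c96502, c79020, c101089, c107068, c107070, c105830, c107114, c107138, c96579, c107139, c88808, c107142, c107155, c107175, c96618, c96646, c82198, c93918, c101199, c96402, c96575, c107173,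 c96622, trivial⟩ (nd (nat_lit 252) (nat_lit 0) (cs (nd (nat_lit 230) (nat_lit 0) (cs (rf (nat_lit 0)) (cs (nd (nat_lit 229) (nat_lit 0) (cs (rf (nat_lit 1)) (rf (nat_lit 2)))) (cs (rf (nat_lit 3)) (cs (nd (nat_lit 229) (nat_lit 0) (cs (rf (nat_lit 4)) (cs (rf (nat_lit 5)) (rf (nat_lit 2))))) (nd (nat_lit 274) (nat_lit 0) (cs (rf (nat_lit 6)) (cs (rf (nat_lit 7)) (cs (rf (nat_lit 8)) (cs (rf (nat_lit 9)) (cs (rf (nat_lit 10)) (nd (nat_lit 275) (nat_lit 0) (cs (rf (nat_lit 11)) (cs (rf (nat_lit 12)) (rf (nat_lit 13)))))))))))))))) (cs (rf (nat_lit 14)) (cs (nd (nat_lit 230) (nat_lit 0) (cs (rf (nat_lit 15)) (cs (rf (nat_lit 3)) (cs (nd (nat_lit 232) (nat_lit 0) (cs (rf (nat_lit 16)) (cs (rf (nat_lit 17)) (nd (nat_lit 229) (nat_lit 0) (cs (rf (nat_lit 18)) (cs (rf (nat_lit 19)) (rf (nat_lit 20)))))))) (cs (nd (nat_lit 232) (nat_lit 0) (cs (rf (nat_lit 17)) (cs (rf (nat_lit 21)) (rf (nat_lit 22))))) (cs (rf (nat_lit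 23)) (nd (nat_lit 274) (nat_lit 0) (cs (rf (nat_lit 6)) (cs (rf (nat_lit 7)) (cs (rf (nat_lit 8)) (cs (rf (nat_lit 9)) (cs (nd (nat_lit 275) (nat_lit 0) (cs (rf (nat_lit 24)) (cs (rf (nat_lit 12)) (rf (nat_lit 13))))) (nd (nat_lit 275) (nat_lit 0) (cs (rf (nat_lit 25)) (cs (rf (nat_lit 26)) (cs (rf (nat_lit 12)) (rf (nat_lit 27)))))))))))))))))) (cs (nd (nat_lit 251) (nat_lit 0) (cs (rf (nat_lit 28)) (cs (rf (nat_lit 29)) (cs (rf (nat_lit 30)) (cs (rf (nat_lit 31)) (nd (nat_lit 254) (nat_lit 0) (cs (rf (nat_lit 32)) (cs (rf (nat_lit 33)) (cs (rf (nat_lit 34)) (cs (rf (nat_lit 35)) (nd (nat_lit 228) (nat_lit 0) (cs (lf (nat_lit 22) (nat_lit 228)) (rf (nat_lit 36)))))))))))))) (cs (rf (nat_lit 37)) (cs (rf (nat_lit 38)) (cs (nd (nat_lit 251) (nat_lit 0) (cs (rf (nat_lit 28)) (cs (rf (nat_lit 29)) (cs (rf (nat_lit 39)) (rf (nat_lit 40)))))) (cs (nd (nat_lit 251) (nat_lit 0) (cs (rf (nat_lit 28)) (cs (rf (nat_lit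 29)) (cs (rf (nat_lit 41)) (rf (nat_lit 42)))))) (cs (rf (nat_lit 43)) (cs (rf (nat_lit 44)) (cs (nd (nat_lit 251) (nat_lit 0) (cs (rf (nat_lit 28)) (cs (rf (nat_lit 29)) (cs (rf (nat_lit 45)) (rf (nat_lit 40)))))) (cs (nd (nat_lit 251) (nat_lit 0) (cs (rf (nat_lit 28)) (cs (rf (nat_lit 29)) (cs (rf (nat_lit 46)) (nd (nat_lit 229) (nat_lit 0) (cs (rf (nat_lit 47)) (cs (rf (nat_lit 48)) (cs (rf (nat_lit 49)) (nd (nat_lit 230) (nat_lit 0) (cs (rf (nat_lit 1)) (cs (rf (nat_lit 5)) (rf (nat_lit 0))))))))))))) (cs (nd (nat_lit 251) (nat_lit 0) (cs (rf (nat_lit 29)) (cs (rf (nat_lit 50)) (cs (rf (nat_lit 30)) (nd (nat_lit 254) (nat_lit 0) (cs (rf (nat_lit 32)) (cs (rf (nat_lit 51)) (cs (rf (nat_lit 35)) (nd (nat_lit 273) (nat_lit 0) (cs (lf (nat_lit 11) (nat_lit 250)) (rf (nat_lit 52)))))))))))) (nd (nat_lit 251) (nat_lit 0) (cs (rf (nat_lit 29)) (cs (rf (nat_lit 50)) (cs (rf (nat_lit 53)) (rf (nat_lit 42))))))))))))))))))))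 q107184 (by decide +kernel)
def q107232 : Q := Q.p (nat_lit 0x200000c000000000000000000000000000000000000000000000000000000000) (nat_lit 0x300000c0000320000cf000738000ff0003d8000f00000c00000000000000000000000000000000000) (nat_lit 11)
theorem c107232 : QOK q107232 := cut [q96836, q96846, q107226, q107230, q96767, q96835, q107229] ⟨c96836, c96846, c107226, c107230, c96767, c96835, c107229, trivial⟩ (nd (nat_lit 229) (nat_lit 0) (cs (rf (nat_lit 0)) (cs (rf (nat_lit 1)) (cs (rf (nat_lit 2)) (cs (rf (nat_lit 3)) (nd (nat_lit 228) (nat_lit 0) (cs (rf (nat_lit 4)) (cs (rf (nat_lit 5)) (rf (nat_lit 6)))))))))) q107232 (by decide +kernel)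
def q107283 : Q := Q.p (nat_lit 0x200000c000000000000000000000000000000000000000000000000000000000) (nat_lit 0x300000c0000300000df000338001e7000380000e00000000000000000000000000000000000000000) (nat_lit 11)
theorem c107283 : QOK q107283 := cut [q96769, q96836, q97107, q107282] ⟨c96769, c96836, c97107, c107282, trivial⟩ (nd (nat_lit 229) (nat_lit 0) (cs (rf (nat_lit 0)) (cs (rf (nat_lit 1)) (cs (rf (nat_lit 2)) (rf (nat_lit 3)))))) q107283 (by decide +kernel)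
def q107319 : Q := Q.p (nat_lit 0x200000c000000000000000000000000000000000000000000000000000000000) (nat_lit 0x300000c0000300000df00073e001fb8003c0000f00000000000000000000000000000000000000000) (nat_lit 11)
theorem c107319 : QOK q107319 := cut [q96758, q97120, q107230, q107282, q97209, q98343, q22601, q9511] ⟨c96758, c97120, c107230, c107282, c97209, c98343, c22601, c9511, trivial⟩ (nd (nat_lit 229) (nat_lit 0) (cs (rf (nat_lit 0)) (cs (rf (nat_lit 1)) (cs (rf (nat_lit 2)) (cs (rf (nat_lit 3)) (nd (nat_lit 250) (nat_lit 0) (cs (rf (nat_lit 4)) (cs (rf (nat_lit 5)) (cs (nd (nat_lit 232) (nat_lit 0) (cs (lf (nat_lit 10) (nat_lit 228)) (nd (nat_lit 211) (nat_lit 0) (cs (lf (nat_lit 16) (nat_lit 207)) (nd (nat_lit 233) (nat_lit 0) (cs (lf (nat_lit 17) (nat_lit 208)) (nd (nat_lit 208) (nat_lit 0) (cs (lf (nat_lit 23) (nat_lit 207)) (rf (nat_lit 6)))))))))) (nd (nat_lit 228) (nat_lit 0) (cs (lf (nat_lit 11) (nat_lit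 227)) (nd (nat_lit 209) (nat_lit 0) (cs (lf (nat_lit 17) (nat_lit 206)) (nd (nat_lit 208) (nat_lit 0) (cs (lf (nat_lit 12) (nat_lit 205)) (nd (nat_lit 164) (nat_lit 0) (cs (lf (nat_lit 25) (nat_lit 164)) (rf (nat_lit 7))))))))))))))))))) q107319 (by decide +kernel)
def q107321 : Q := Q.p (nat_lit 0x200000c000000000000000000000000000000000000000000000000000000000) (nat_lit 0x300000c0000320000df000f38007fc0003c0000f00000000000000000000000000000000000000000) (nat_lit 11)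
theorem c107321 : QOK q107321 := cut [q96758, q107226, q107280, q96757, q97105, q97110] ⟨c96758, c107226, c107280, c96757, c97105, c97110, trivial⟩ (nd (nat_lit 229) (nat_lit 0) (cs (rf (nat_lit 0)) (cs (rf (nat_lit 1)) (cs (rf (nat_lit 2)) (nd (nat_lit 228) (nat_lit 0) (cs (rf (nat_lit 3)) (cs (rf (nat_lit 4)) (rf (nat_lit 5))))))))) q107321 (by decide +kernel)
def q107384 : Q := Q.p (nat_lit 0x2000008000000000000000000000000000000000000000000000000000000000) (nat_lit 0x50000ff8001fc0007f8001c000077c001fe0007fc000700001400000000000000000000000000000000000) (nat_lit 16)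
theorem c107384 : QOK q107384 := cut [q107031, q79736, q22016, q89353, q107039, q107352, q107366, q107367, q107382, q107383] ⟨c107031, c79736, c22016, c89353, c107039, c107352, c107366, c107367, c107382, c107383, trivial⟩ (nd (nat_lit 275) (nat_lit 0) (cs (rf (nat_lit 0)) (cs (nd (nat_lit 297) (nat_lit 0) (cs (rf (nat_lit 1)) (cs (nd (nat_lit 298) (nat_lit 0) (cs (lf (nat_lit 29) (nat_lit 231)) (rf (nat_lit 2)))) (cs (nd (nat_lit 298) (nat_lit 0) (cs (lf (nat_lit 29) (nat_lit 231)) (rf (nat_lit 3)))) (nd (nat_lit 296) (nat_lit 0) (cs (lf (nat_lit 41) (nat_lit 230)) (nd (nat_lit 298) (nat_lit 0) (cs (lf (nat_lit 29) (nat_lit 231)) (rf (nat_lit 4)))))))))) (cs (rf (nat_lit 5)) (cs (rf (nat_lit 6)) (cs (rf (nat_lit 7)) (cs (rf (nat_lit 8)) (rf (nat_lit 9))))))))) q107384 (by decide +kernel)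
def q107390 : Q := Q.p (nat_lit 0x800002000008000000000000000000000000000000000000000000000000000000000) (nat_lit 0x5000014000090001f78003fc000ff8001500004000000000000000000000000000000000000) (nat_lit 12)
theorem c107390 : QOK q107390 := cut [q1593, q81901, q100882, q107389] ⟨c1593, c81901, c100882, c107389, trivial⟩ (nd (nat_lit 209) (nat_lit 0) (cs (rf (nat_lit 0)) (cs (rf (nat_lit 1)) (cs (rf (nat_lit 2)) (rf (nat_lit 3)))))) q107390 (by decide +kernel)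
def q107549 : Q := Q.p (nat_lit 0x2000008000000000000000000000000000000000000000000000000000000000) (nat_lit 0x5c0007fc003fe000ff8001df003f7c007fe000f70001dc0006400000000000000000000000000000000000) (nat_lit 19)
theorem c107549 : QOK q107549 := cut [q87016, q107383, q107424, q80720, q101882, q79894, q80008, q107427, q107431, q107436, q107454, q107465, q107490, q107502, q86313, q94424, q96505, q107155, q94098, q84444, q96758, q107511, q107517, q4198, q84347, q84929, q107521, q107524, q107367, q97511, q97382, q97498, q107421, q107422, q107446, q97301, q102086, q102583, q97351, q107536, q107538, q107539, q12206, q85515, q107484, q107543] ⟨c87016, c107383, c107424, c80720, c101882, c79894, c80008, c107427, c107431, c107436, c107454, c107465, c107490, c107502, c86313, c94424, c96505, c107155, c94098, c84444, c96758, c107511, c107517, c4198, c84347, c84929, c107521, c107524, c107367, c97511, c97382, c97498, c107421,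 c107422, c107446, c97301, c102086, c102583, c97351, c107536, c107538, c107539, c12206, c85515, c107484, c107543, trivial⟩ (nd (nat_lit 232) (nat_lit 0) (cs (nd (nat_lit 275) (nat_lit 0) (cs (rf (nat_lit 0)) (cs (rf (nat_lit 1)) (cs (nd (nat_lit 274) (nat_lit 0) (cs (rf (nat_lit 2)) (cs (nd (nat_lit 254) (nat_lit 0) (cs (rf (nat_lit 3)) (cs (rf (nat_lit 4)) (cs (nd (nat_lit 276) (nat_lit 0) (cs (rf (nat_lit 5)) (nd (nat_lit 188) (nat_lit 0) (cs (lf (nat_lit 37) (nat_lit 187)) (rf (nat_lit 6)))))) (nd (nat_lit 276) (nat_lit 0) (cs (rf (nat_lit 5)) (nd (nat_lit 255) (nat_lit 0) (cs (lf (nat_lit 6) (nat_lit 252)) (rf (nat_lit 7)))))))))) (rf (nat_lit 8))))) (rf (nat_lit 9)))))) (cs (rf (nat_lit 10)) (cs (rf (nat_lit 11)) (cs (rf (nat_lit 12)) (cs (rf (nat_lit 13)) (cs (nd (nat_lit 252) (nat_lit 0) (cs (rf (nat_lit 14)) (cs (rf (nat_lit 15)) (cs (rf (nat_lit 16)) (cs (rf (nat_lit 17)) (nd (nat_lit 230) (nat_lit 0)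 (cs (rf (nat_lit 18)) (cs (nd (nat_lit 229) (nat_lit 0) (cs (rf (nat_lit 19)) (rf (nat_lit 20)))) (rf (nat_lit 21)))))))))) (cs (rf (nat_lit 22)) (cs (nd (nat_lit 275) (nat_lit 0) (cs (rf (nat_lit 0)) (cs (rf (nat_lit 1)) (cs (rf (nat_lit 9)) (nd (nat_lit 252) (nat_lit 0) (cs (rf (nat_lit 15)) (cs (nd (nat_lit 274) (nat_lit 0) (cs (rf (nat_lit 23)) (nd (nat_lit 255) (nat_lit 0) (cs (rf (nat_lit 24)) (cs (rf (nat_lit 25)) (rf (nat_lit 26))))))) (rf (nat_lit 27))))))))) (cs (nd (nat_lit 275) (nat_lit 0) (cs (rf (nat_lit 0)) (cs (rf (nat_lit 28)) (nd (nat_lit 274) (nat_lit 0) (cs (rf (nat_lit 2)) (cs (rf (nat_lit 8)) (nd (nat_lit 252) (nat_lit 0) (cs (rf (nat_lit 15)) (cs (rf (nat_lit 27)) (nd (nat_lit 255) (nat_lit 0) (cs (rf (nat_lit 24)) (cs (rf (nat_lit 29)) (rf (nat_lit 26)))))))))))))) (cs (nd (nat_lit 233) (nat_lit 0) (cs (rf (nat_lit 30)) (cs (rf (nat_lit 31)) (cs (rf (nat_lit 32)) (cs (rf (nat_lit 33))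 (cs (rf (nat_lit 34)) (nd (nat_lit 230) (nat_lit 0) (cs (rf (nat_lit 35)) (cs (rf (nat_lit 36)) (rf (nat_lit 37))))))))))) (nd (nat_lit 275) (nat_lit 0) (cs (rf (nat_lit 0)) (cs (rf (nat_lit 28)) (nd (nat_lit 276) (nat_lit 0) (cs (rf (nat_lit 38)) (cs (nd (nat_lit 254) (nat_lit 0) (cs (rf (nat_lit 7)) (cs (rf (nat_lit 39)) (cs (rf (nat_lit 40)) (nd (nat_lit 188) (nat_lit 0) (cs (lf (nat_lit 37) (nat_lit 187)) (rf (nat_lit 41)))))))) (cs (nd (nat_lit 210) (nat_lit 0) (cs (rf (nat_lit 42)) (cs (rf (nat_lit 43)) (rf (nat_lit 44))))) (nd (nat_lit 209) (nat_lit 0) (cs (lf (nat_lit 29) (nat_lit 209)) (nd (nat_lit 274) (nat_lit 0) (cs (lf (nat_lit 41) (nat_lit 208)) (nd (nat_lit 188) (nat_lit 0) (cs (lf (nat_lit 34) (nat_lit 187)) (rf (nat_lit 45)))))))))))))))))))))))))) q107549 (by decide +kernel)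
def q107721 : Q := Q.p (nat_lit 0x2000008000000000000000000000000000000000000000000000000000000000) (nat_lit 0x160000dc000ff8001df001f7e003ff000ffe000fc0001700001400000000000000000000000000000) (nat_lit 16)
theorem c107721 : QOK q107721 := cut [q80819, q80872, q107556, q79217, q80609, q96472, q80766, q98158, q80728, q80754, q80931, q98196, q98194, q107567, q107573, q107594, q107623, q107660, q102009, q107016, q107305, q86774, q107202, q107222, q107672, q107694, q80708, q107347, q107403, q7464, q80921, q80922, q98259, q98184, q107577, q107581, q81018, q96758, q96769, q96836, q107716, q96513, q106114, q98213, q105857, q82278, q96575, q101130] ⟨c80819, c80872, c107556, c79217, c80609, c96472, c80766, c98158, c80728, c80754, c80931, c98196, c98194, c107567, c107573, c107594, c107623, c107660, c102009, c107016, c107305, c86774, c107202, c107222, c107672, c107694, c80708, c107347, c107403, c7464, c80921, c80922, c98259,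 c98184, c107577, c107581, c81018, c96758, c96769, c96836, c107716, c96513, c106114, c98213, c105857, c82278, c96575, c101130, trivial⟩ (nd (nat_lit 254) (nat_lit 0) (cs (nd (nat_lit 255) (nat_lit 0) (cs (rf (nat_lit 0)) (cs (rf (nat_lit 1)) (cs (rf (nat_lit 2)) (nd (nat_lit 252) (nat_lit 0) (cs (rf (nat_lit 3)) (cs (rf (nat_lit 4)) (cs (rf (nat_lit 5)) (nd (nat_lit 277) (nat_lit 0) (cs (lf (nat_lit 5) (nat_lit 252)) (nd (nat_lit 230) (nat_lit 0) (cs (rf (nat_lit 6)) (nd (nat_lit 233) (nat_lit 0) (cs (lf (nat_lit 17) (nat_lit 230)) (nd (nat_lit 274) (nat_lit 0) (cs (lf (nat_lit 11) (nat_lit 251)) (nd (nat_lit 296) (nat_lit 0) (cs (lf (nat_lit 30) (nat_lit 230)) (nd (nat_lit 295) (nat_lit 0) (cs (lf (nat_lit 41) (nat_lit 229)) (nd (nat_lit 275) (nat_lit 0) (cs (lf (nat_lit 7) (nat_lit 273)) (rf (nat_lit 7)))))))))))))))))))))))) (cs (nd (nat_lit 209) (nat_lit 0) (cs (rf (nat_lit 8)) (cs (rf (nat_lit 9)) (cs (rf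 (nat_lit 10)) (cs (rf (nat_lit 11)) (nd (nat_lit 210) (nat_lit 0) (cs (rf (nat_lit 12)) (cs (rf (nat_lit 13)) (rf (nat_lit 14)))))))))) (cs (rf (nat_lit 15)) (cs (rf (nat_lit 16)) (cs (rf (nat_lit 17)) (cs (nd (nat_lit 230) (nat_lit 0) (cs (rf (nat_lit 18)) (cs (rf (nat_lit 19)) (cs (rf (nat_lit 20)) (nd (nat_lit 252) (nat_lit 0) (cs (rf (nat_lit 21)) (cs (rf (nat_lit 22)) (rf (nat_lit 23))))))))) (cs (rf (nat_lit 24)) (cs (rf (nat_lit 25)) (cs (nd (nat_lit 209) (nat_lit 0) (cs (rf (nat_lit 26)) (cs (rf (nat_lit 27)) (cs (rf (nat_lit 28)) (nd (nat_lit 210) (nat_lit 0) (cs (rf (nat_lit 29)) (cs (rf (nat_lit 12)) (cs (rf (nat_lit 14)) (nd (nat_lit 276) (nat_lit 0) (cs (rf (nat_lit 30)) (cs (rf (nat_lit 31)) (nd (nat_lit 230) (nat_lit 0) (cs (rf (nat_lit 32)) (rf (nat_lit 18))))))))))))))) (cs (nd (nat_lit 255) (nat_lit 0) (cs (rf (nat_lit 0)) (cs (rf (nat_lit 1)) (cs (rf (nat_lit 2)) (nd (nat_lit 252) (nat_lit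 0) (cs (rf (nat_lit 4)) (cs (rf (nat_lit 5)) (nd (nat_lit 229) (nat_lit 0) (cs (lf (nat_lit 22) (nat_lit 229)) (rf (nat_lit 33))))))))))) (cs (nd (nat_lit 209) (nat_lit 0) (cs (rf (nat_lit 26)) (cs (rf (nat_lit 27)) (cs (rf (nat_lit 28)) (nd (nat_lit 230) (nat_lit 0) (cs (rf (nat_lit 18)) (cs (rf (nat_lit 19)) (cs (nd (nat_lit 274) (nat_lit 0) (cs (rf (nat_lit 34)) (cs (rf (nat_lit 35)) (nd (nat_lit 255) (nat_lit 0) (cs (lf (nat_lit 18) (nat_lit 230)) (nd (nat_lit 252) (nat_lit 0) (cs (lf (nat_lit 11) (nat_lit 251)) (nd (nat_lit 233) (nat_lit 0) (cs (lf (nat_lit 17) (nat_lit 230)) (nd (nat_lit 232) (nat_lit 0) (cs (lf (nat_lit 12) (nat_lit 229)) (nd (nat_lit 207) (nat_lit 0) (cs (lf (nat_lit 22) (nat_lit 207)) (nd (nat_lit 276) (nat_lit 0) (cs (lf (nat_lit 42) (nat_lit 209)) (rf (nat_lit 36))))))))))))))))) (nd (nat_lit 229) (nat_lit 0) (cs (rf (nat_lit 37)) (cs (rf (nat_lit 38)) (cs (rf (nat_lit 39)) (rf (nat_lit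 40)))))))))))))) (nd (nat_lit 209) (nat_lit 0) (cs (rf (nat_lit 26)) (cs (rf (nat_lit 9)) (cs (rf (nat_lit 28)) (nd (nat_lit 276) (nat_lit 0) (cs (rf (nat_lit 30)) (cs (rf (nat_lit 31)) (nd (nat_lit 252) (nat_lit 0) (cs (rf (nat_lit 41)) (cs (rf (nat_lit 42)) (cs (nd (nat_lit 255) (nat_lit 0) (cs (rf (nat_lit 43)) (rf (nat_lit 44)))) (nd (nat_lit 251) (nat_lit 0) (cs (rf (nat_lit 45)) (cs (rf (nat_lit 46)) (rf (nat_lit 47)))))))))))))))))))))))))))) q107721 (by decide +kernel)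
def q107786 : Q := Q.p (nat_lit 0x800002000008000000000000000000000000000000000000000000000000000000000) (nat_lit 0x50000140003de000778001df000160000380000e0000100000000000000000000000000000000000000000) (nat_lit 11)
theorem c107786 : QOK q107786 := cut [q99646, q101919, q97408, q97409, q107020, q107024, q97351, q97949, q15625, q107326] ⟨c99646, c101919, c97408, c97409, c107020, c107024, c97351, c97949, c15625, c107326, trivial⟩ (nd (nat_lit 274) (nat_lit 0) (cs (rf (nat_lit 0)) (cs (rf (nat_lit 1)) (cs (nd (nat_lit 273) (nat_lit 0) (cs (rf (nat_lit 2)) (cs (rf (nat_lit 3)) (cs (rf (nat_lit 4)) (rf (nat_lit 5)))))) (nd (nat_lit 276) (nat_lit 0) (cs (rf (nat_lit 6)) (cs (rf (nat_lit 7)) (nd (nat_lit 273) (nat_lit 0) (cs (rf (nat_lit 8)) (rf (nat_lit 9))))))))))) q107786 (by decide +kernel)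
def q108048 : Q := Q.p (nat_lit 0x2000008000000000000000000000000000000000000000000000000000000000) (nat_lit 0x100000780003f0001fc000ffc001de000f7e003ff800efe000fc0003e00005000000000000000000000000000000) (nat_lit 16)
theorem c108048 : QOK q108048 := cut [q101233, q102390, q717, q96731, q96737, q98359, q82309, q88775, q91187, q82275, q82278, q96497, q96502, q79020, q101089, q107070, q105952, q107926, q99325, q100882, q101918, q108003, q108038, q97872, q97875, q102310, q102388, q1568, q98074, q107340, q81899, q96730, q98315, q108046] ⟨c101233, c102390, c717, c96731, c96737, c98359, c82309, c88775, c91187, c82275, c82278, c96497, c96502, c79020, c101089, c107070, c105952, c107926, c99325, c100882, c101918, c108003, c108038, c97872, c97875, c102310, c102388, c1568, c98074, c107340, c81899, c96730, c98315, c108046, trivial⟩ (nd (nat_lit 209) (nat_lit 0) (cs (rf (nat_lit 0)) (cs (rf (nat_lit 1)) (cs (nd (nat_lit 275)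 (nat_lit 0) (cs (rf (nat_lit 2)) (cs (rf (nat_lit 3)) (cs (rf (nat_lit 4)) (rf (nat_lit 5)))))) (cs (nd (nat_lit 252) (nat_lit 0) (cs (rf (nat_lit 6)) (cs (rf (nat_lit 7)) (cs (rf (nat_lit 8)) (cs (nd (nat_lit 251) (nat_lit 0) (cs (rf (nat_lit 9)) (cs (rf (nat_lit 10)) (cs (rf (nat_lit 11)) (cs (rf (nat_lit 12)) (nd (nat_lit 254) (nat_lit 0) (cs (rf (nat_lit 13)) (cs (rf (nat_lit 14)) (cs (rf (nat_lit 15)) (nd (nat_lit 277) (nat_lit 0) (cs (lf (nat_lit 4) (nat_lit 251)) (nd (nat_lit 228) (nat_lit 0) (cs (lf (nat_lit 22) (nat_lit 228)) (rf (nat_lit 16))))))))))))))) (rf (nat_lit 17))))))) (cs (nd (nat_lit 275) (nat_lit 0) (cs (rf (nat_lit 2)) (cs (rf (nat_lit 18)) (cs (rf (nat_lit 19)) (rf (nat_lit 20)))))) (cs (rf (nat_lit 21)) (cs (rf (nat_lit 22)) (cs (nd (nat_lit 275) (nat_lit 0) (cs (rf (nat_lit 2)) (cs (rf (nat_lit 23)) (cs (rf (nat_lit 24)) (cs (rf (nat_lit 25)) (rf (nat_lit 26))))))) (cs (nd (nat_lit 187)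 (nat_lit 0) (cs (rf (nat_lit 27)) (cs (rf (nat_lit 28)) (cs (rf (nat_lit 29)) (nd (nat_lit 274) (nat_lit 0) (cs (lf (nat_lit 40) (nat_lit 186)) (nd (nat_lit 254) (nat_lit 0) (cs (lf (nat_lit 29) (nat_lit 187)) (nd (nat_lit 275) (nat_lit 0) (cs (lf (nat_lit 41) (nat_lit 208)) (rf (nat_lit 30)))))))))))) (nd (nat_lit 275) (nat_lit 0) (cs (rf (nat_lit 2)) (cs (rf (nat_lit 31)) (cs (rf (nat_lit 32)) (rf (nat_lit 33)))))))))))))))) q108048 (by decide +kernel)
def q108483 : Q := Q.p (nat_lit 0xc00002000000000000000000000000000000000000000000000000000000000000000) (nat_lit 0x3fe001ff8003fe0007380019e00027c000fe0000f0000000000000000000000000000000000000000000000) (nat_lit 14)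
theorem c108483 : QOK q108483 := cut [q108385, q108415, q90627, q91660, q91664, q2190, q104510, q108441, q108452, q95409, q14689, q13173, q15131, q14627, q25682, q25687, q13062, q15118, q52654, q13574, q30062, q98468, q88933, q108469, q2091] ⟨c108385, c108415, c90627, c91660, c91664, c2190, c104510, c108441, c108452, c95409, c14689, c13173, c15131, c14627, c25682, c25687, c13062, c15118, c52654, c13574, c30062, c98468, c88933, c108469, c2091, trivial⟩ (nd (nat_lit 252) (nat_lit 0) (cs (rf (nat_lit 0)) (cs (rf (nat_lit 1)) (cs (nd (nat_lit 273) (nat_lit 0) (cs (rf (nat_lit 2)) (cs (rf (nat_lit 3)) (rf (nat_lit 4))))) (cs (nd (nat_lit 276) (nat_lit 0) (cs (rf (nat_lit 5)) (cs (rf (nat_lit 6)) (rf (nat_lit 7))))) (cs (rf (nat_lit 8)) (cs (nd (nat_lit 319) (nat_lit 0) (cs (rf (nat_lit 9)) (cs (nd (nat_lit 276) (nat_lit 0) (cs (rf (nat_lit 10)) (cs (rf (nat_lit 6)) (nd (nat_lit 318) (nat_lit 0) (cs (rf (nat_lit 11))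 (cs (rf (nat_lit 12)) (cs (nd (nat_lit 296) (nat_lit 0) (cs (lf (nat_lit 30) (nat_lit 252)) (rf (nat_lit 13)))) (nd (nat_lit 320) (nat_lit 0) (cs (rf (nat_lit 14)) (cs (rf (nat_lit 15)) (cs (nd (nat_lit 321) (nat_lit 0) (cs (rf (nat_lit 16)) (rf (nat_lit 17)))) (nd (nat_lit 321) (nat_lit 0) (cs (rf (nat_lit 16)) (cs (nd (nat_lit 250) (nat_lit 0) (cs (lf (nat_lit 1) (nat_lit 250)) (nd (nat_lit 340) (nat_lit 0) (cs (lf (nat_lit 11) (nat_lit 317)) (rf (nat_lit 18)))))) (cs (nd (nat_lit 299) (nat_lit 0) (cs (lf (nat_lit 17) (nat_lit 296)) (rf (nat_lit 19)))) (nd (nat_lit 343) (nat_lit 0) (cs (lf (nat_lit 5) (nat_lit 318)) (nd (nat_lit 342) (nat_lit 0) (cs (lf (nat_lit 0) (nat_lit 317)) (nd (nat_lit 250) (nat_lit 0) (cs (lf (nat_lit 1) (nat_lit 250)) (nd (nat_lit 300) (nat_lit 0) (cs (lf (nat_lit 16) (nat_lit 296)) (nd (nat_lit 322) (nat_lit 0) (cs (lf (nat_lit 17) (nat_lit 297)) (rf (nat_lit 20)))))))))))))))))))))))))))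 (nd (nat_lit 230) (nat_lit 0) (cs (lf (nat_lit 43) (nat_lit 230)) (rf (nat_lit 21))))))) (nd (nat_lit 276) (nat_lit 0) (cs (rf (nat_lit 5)) (cs (rf (nat_lit 6)) (nd (nat_lit 273) (nat_lit 0) (cs (rf (nat_lit 2)) (cs (rf (nat_lit 4)) (nd (nat_lit 297) (nat_lit 0) (cs (rf (nat_lit 22)) (cs (nd (nat_lit 251) (nat_lit 0) (cs (lf (nat_lit 0) (nat_lit 250)) (nd (nat_lit 295) (nat_lit 0) (cs (lf (nat_lit 11) (nat_lit 272)) (nd (nat_lit 208) (nat_lit 0) (cs (lf (nat_lit 37) (nat_lit 207)) (nd (nat_lit 298) (nat_lit 0) (cs (lf (nat_lit 5) (nat_lit 273)) (nd (nat_lit 320) (nat_lit 0) (cs (lf (nat_lit 42) (nat_lit 253)) (rf (nat_lit 23)))))))))))) (nd (nat_lit 251) (nat_lit 0) (cs (rf (nat_lit 24)) (nd (nat_lit 298) (nat_lit 0) (cs (lf (nat_lit 5) (nat_lit 273)) (nd (nat_lit 320) (nat_lit 0) (cs (lf (nat_lit 42) (nat_lit 253)) (nd (nat_lit 295) (nat_lit 0) (cs (lf (nat_lit 11) (nat_lit 272)) (nd (nat_lit 319) (nat_lit 0)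 (cs (lf (nat_lit 42) (nat_lit 252)) (rf (nat_lit 23)))))))))))))))))))))))))))) q108483 (by decide +kernel)
def q108586 : Q := Q.p (nat_lit 0xc00002000000000000000000000000000000000000000000000000000000000000000) (nat_lit 0x1f8000fe0001fc000720001dc000f70001f80007e0000000000000000000000000000000000000000000000) (nat_lit 13)
theorem c108586 : QOK q108586 := cut [q108489, q108493, q79289, q98845, q108496, q81363, q105405, q108508, q81192, q108560, q108538, q105048, q13923, q108573, q101734, q108171, q86391, q108365, q108385] ⟨c108489, c108493, c79289, c98845, c108496, c81363, c105405, c108508, c81192, c108560, c108538, c105048, c13923, c108573, c101734, c108171, c86391, c108365, c108385, trivial⟩ (nd (nat_lit 254) (nat_lit 0) (cs (rf (nat_lit 0)) (cs (nd (nat_lit 255) (nat_lit 0) (cs (lf (nat_lit 6) (nat_lit 252)) (nd (nat_lit 252) (nat_lit 0) (cs (lf (nat_lit 11) (nat_lit 251)) (rf (nat_lit 1)))))) (cs (nd (nat_lit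 276) (nat_lit 0) (cs (rf (nat_lit 2)) (cs (nd (nat_lit 298) (nat_lit 0) (cs (rf (nat_lit 3)) (rf (nat_lit 4)))) (nd (nat_lit 277) (nat_lit 0) (cs (rf (nat_lit 5)) (cs (nd (nat_lit 255) (nat_lit 0) (cs (lf (nat_lit 6) (nat_lit 252)) (nd (nat_lit 296) (nat_lit 0) (cs (lf (nat_lit 11) (nat_lit 273)) (nd (nat_lit 318) (nat_lit 0) (cs (lf (nat_lit 30) (nat_lit 252)) (nd (nat_lit 297) (nat_lit 0) (cs (lf (nat_lit 6) (nat_lit 274)) (rf (nat_lit 6)))))))))) (nd (nat_lit 295) (nat_lit 0) (cs (lf (nat_lit 10) (nat_lit 273)) (nd (nat_lit 255) (nat_lit 0) (cs (lf (nat_lit 17) (nat_lit 252)) (rf (nat_lit 7)))))))))))) (cs (nd (nat_lit 297) (nat_lit 0) (cs (rf (nat_lit 8)) (cs (rf (nat_lit 9)) (cs (nd (nat_lit 276) (nat_lit 0) (cs (rf (nat_lit 10)) (cs (nd (nat_lit 296) (nat_lit 0) (cs (rf (nat_lit 11)) (cs (nd (nat_lit 319) (nat_lit 0) (cs (lf (nat_lit 30) (nat_lit 253)) (nd (nat_lit 318) (nat_lit 0) (cs (lf (nat_lit 41)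 (nat_lit 252)) (nd (nat_lit 277) (nat_lit 0) (cs (lf (nat_lit 6) (nat_lit 274)) (nd (nat_lit 299) (nat_lit 0) (cs (lf (nat_lit 5) (nat_lit 274)) (rf (nat_lit 12)))))))))) (nd (nat_lit 294) (nat_lit 0) (cs (lf (nat_lit 13) (nat_lit 272)) (nd (nat_lit 318) (nat_lit 0) (cs (lf (nat_lit 30) (nat_lit 252)) (nd (nat_lit 319) (nat_lit 0) (cs (lf (nat_lit 30) (nat_lit 253)) (nd (nat_lit 320) (nat_lit 0) (cs (lf (nat_lit 29) (nat_lit 253)) (nd (nat_lit 321) (nat_lit 0) (cs (lf (nat_lit 18) (nat_lit 296)) (nd (nat_lit 343) (nat_lit 0) (cs (lf (nat_lit 5) (nat_lit 318)) (lf (nat_lit 26) (nat_lit 254))))))))))))))))) (cs (nd (nat_lit 319) (nat_lit 0) (cs (lf (nat_lit 30) (nat_lit 253)) (nd (nat_lit 320) (nat_lit 0) (cs (lf (nat_lit 29) (nat_lit 253)) (nd (nat_lit 318) (nat_lit 0) (cs (lf (nat_lit 41) (nat_lit 252)) (nd (nat_lit 252) (nat_lit 0) (cs (lf (nat_lit 47) (nat_lit 230)) (nd (nat_lit 251) (nat_lit 0) (cs (lf (nat_lit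 0) (nat_lit 250)) (rf (nat_lit 13)))))))))))) (nd (nat_lit 319) (nat_lit 0) (cs (lf (nat_lit 30) (nat_lit 253)) (nd (nat_lit 320) (nat_lit 0) (cs (lf (nat_lit 29) (nat_lit 253)) (nd (nat_lit 318) (nat_lit 0) (cs (lf (nat_lit 41) (nat_lit 252)) (rf (nat_lit 14)))))))))))) (nd (nat_lit 319) (nat_lit 0) (cs (lf (nat_lit 35) (nat_lit 231)) (rf (nat_lit 15)))))))) (nd (nat_lit 252) (nat_lit 0) (cs (rf (nat_lit 16)) (cs (rf (nat_lit 17)) (rf (nat_lit 18)))))))))) q108586 (by decide +kernel)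
def q108753 : Q := Q.p (nat_lit 0x800003000000000000000000000000000000000000000000000000000000000000000) (nat_lit 0xc0000300000c800033c001ce0003fc000f60003c0000300000000000000000000000000000000000000000) (nat_lit 11)
theorem c108753 : QOK q108753 := cut [q2066, q98519, q108747, q108751, q2065, q89874, q108750] ⟨c2066, c98519, c108747, c108751, c2065, c89874, c108750, trivial⟩ (nd (nat_lit 251) (nat_lit 0) (cs (rf (nat_lit 0)) (cs (rf (nat_lit 1)) (cs (rf (nat_lit 2)) (cs (rf (nat_lit 3)) (nd (nat_lit 250) (nat_lit 0) (cs (rf (nat_lit 4)) (cs (rf (nat_lit 5)) (rf (nat_lit 6)))))))))) q108753 (by decide +kernel)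
def q108757 : Q := Q.p (nat_lit 0xc00003000000000000000000000000000000000000000000000000000000000000000) (nat_lit 0x380001e00001e0000000000e0007f8001fe0000e0000000000000000000000000000000000000000000000) (nat_lit 13)
theorem c108757 : QOK q108757 := cut [q11506, q25707, q91675, q98394, q108755] ⟨c11506, c25707, c91675, c98394, c108755, trivial⟩ (nd (nat_lit 296) (nat_lit 0) (cs (rf (nat_lit 0)) (cs (rf (nat_lit 1)) (nd (nat_lit 230) (nat_lit 0) (cs (rf (nat_lit 2)) (cs (rf (nat_lit 3)) (rf (nat_lit 4)))))))) q108757 (by decide +kernel)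
def q108914 : Q := Q.p (nat_lit 0x800003000000000000000000000000000000000000000000000000000000000000000) (nat_lit 0xc0000300000c000037c000ce00079c000e0000380000000000000000000000000000000000000000000000) (nat_lit 11)
theorem c108914 : QOK q108914 := cut [q2066, q2091, q108911, q108913] ⟨c2066, c2091, c108911, c108913, trivial⟩ (nd (nat_lit 251) (nat_lit 0) (cs (rf (nat_lit 0)) (cs (rf (nat_lit 1)) (cs (rf (nat_lit 2)) (rf (nat_lit 3)))))) q108914 (by decide +kernel)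
def q108980 : Q := Q.p (nat_lit 0x800003000000000000000000000000000000000000000000000000000000000000000) (nat_lit 0xc0000300000c000037c001cf8007ee000f00003c0000000000000000000000000000000000000000000000) (nat_lit 11)
theorem c108980 : QOK q108980 := cut [q1999, q98758, q108751, q108911, q108275, q108970, q81355, q82293] ⟨c1999, c98758, c108751, c108911, c108275, c108970, c81355, c82293, trivial⟩ (nd (nat_lit 251) (nat_lit 0) (cs (rf (nat_lit 0)) (cs (rf (nat_lit 1)) (cs (rf (nat_lit 2)) (cs (rf (nat_lit 3)) (nd (nat_lit 272) (nat_lit 0) (cs (rf (nat_lit 4)) (cs (rf (nat_lit 5)) (cs (nd (nat_lit 254) (nat_lit 0) (cs (lf (nat_lit 10) (nat_lit 250)) (nd (nat_lit 233) (nat_lit 0) (cs (lf (nat_lit 16) (nat_lit 229)) (nd (nat_lit 255) (nat_lit 0) (cs (lf (nat_lit 17) (nat_lit 230)) (nd (nat_lit 230) (nat_lit 0) (cs (lf (nat_lit 23) (nat_lit 229)) (rf (nat_lit 6)))))))))) (nd (nat_lit 250) (nat_lit 0) (cs (lf (nat_lit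 11) (nat_lit 249)) (nd (nat_lit 231) (nat_lit 0) (cs (lf (nat_lit 17) (nat_lit 228)) (nd (nat_lit 230) (nat_lit 0) (cs (lf (nat_lit 12) (nat_lit 227)) (nd (nat_lit 186) (nat_lit 0) (cs (lf (nat_lit 25) (nat_lit 186)) (rf (nat_lit 7))))))))))))))))))) q108980 (by decide +kernel)
def q108985 : Q := Q.p (nat_lit 0x800003000000000000000000000000000000000000000000000000000000000000000) (nat_lit 0xc0000300000c800037c003ce001ff0000f00003c0000000000000000000000000000000000000000000000) (nat_lit 11)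
theorem c108985 : QOK q108985 := cut [q1999, q108747, q108870, q1998, q26064, q89927] ⟨c1999, c108747, c108870, c1998, c26064, c89927, trivial⟩ (nd (nat_lit 251) (nat_lit 0) (cs (rf (nat_lit 0)) (cs (rf (nat_lit 1)) (cs (rf (nat_lit 2)) (nd (nat_lit 250) (nat_lit 0) (cs (rf (nat_lit 3)) (cs (rf (nat_lit 4)) (rf (nat_lit 5))))))))) q108985 (by decide +kernel)
def q109055 : Q := Q.p (nat_lit 0x800002000008000000000000000000000000000000000000000000000000000000000) (nat_lit 0x5000014000090001f78003fc000ff8001500004000000000000000000000000000000000000) (nat_lit 12)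
theorem c109055 : QOK q109055 := cut [q96312, q99687, q107389, q108989] ⟨c96312, c99687, c107389, c108989, trivial⟩ (nd (nat_lit 209) (nat_lit 0) (cs (rf (nat_lit 0)) (cs (rf (nat_lit 1)) (cs (rf (nat_lit 2)) (rf (nat_lit 3)))))) q109055 (by decide +kernel)
def q109786 : Q := Q.p (nat_lit 0x800002000000000000000000000000000000000000000000000000000000000000000) (nat_lit 0x400001e0000fc0007f0003ff000778003df800ffe003bf8003f0000f80001400000000000000000000000000000000000) (nat_lit 16)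
theorem c109786 : QOK q109786 := cut [q98133, q107858, q108998, q84365, q88936, q99260, q109694, q99646, q101919, q109689, q97408, q97409, q108433, q108436, q54902, q99005, q108361, q108391, q109705, q79736, q99294, q109529, q109749, q97957, q107833, q96758, q96769, q96836, q97173, q101516, q87917, q108892, q98288, q12193, q87919, q109757, q109761, q80735, q107016, q109582, q109693, q109763, q101313, q109767, q97611, q97804, q99687, q109000, q97235, q82063, q109784] ⟨c98133, c107858, c108998, c84365, c88936, c99260, c109694, c99646, c101919, c109689, c97408, c97409, c108433, c108436, c54902, c99005, c108361, c108391, c109705, c79736, c99294, c109529, c109749, c97957, c107833, c96758, c96769, c96836, c97173, c101516, c87917, c108892, c98288, c12193, c87919, c109757, c109761, c80735, c107016, c109582, c109693, c109763, c101313, c109767, c97611, c97804, c99687, c109000, c97235, c82063, c109784, trivial⟩ (nd (nat_lit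 231) (nat_lit 0) (cs (rf (nat_lit 0)) (cs (rf (nat_lit 1)) (cs (rf (nat_lit 2)) (cs (nd (nat_lit 297) (nat_lit 0) (cs (rf (nat_lit 3)) (cs (rf (nat_lit 4)) (cs (rf (nat_lit 5)) (nd (nat_lit 296) (nat_lit 0) (cs (lf (nat_lit 41) (nat_lit 230)) (rf (nat_lit 6)))))))) (cs (nd (nat_lit 274) (nat_lit 0) (cs (rf (nat_lit 7)) (cs (rf (nat_lit 8)) (cs (rf (nat_lit 9)) (cs (nd (nat_lit 273) (nat_lit 0) (cs (rf (nat_lit 10)) (cs (rf (nat_lit 11)) (cs (rf (nat_lit 12)) (cs (rf (nat_lit 13)) (nd (nat_lit 276) (nat_lit 0) (cs (rf (nat_lit 14)) (cs (rf (nat_lit 15)) (cs (rf (nat_lit 16)) (rf (nat_lit 17))))))))))) (rf (nat_lit 18))))))) (cs (nd (nat_lit 297) (nat_lit 0) (cs (rf (nat_lit 19)) (cs (rf (nat_lit 3)) (cs (rf (nat_lit 20)) (rf (nat_lit 21)))))) (cs (rf (nat_lit 22)) (cs (nd (nat_lit 230) (nat_lit 0) (cs (rf (nat_lit 23)) (cs (rf (nat_lit 24)) (cs (nd (nat_lit 229) (nat_lit 0) (cs (rf (nat_lit 25)) (cs (rf (nat_lit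 26)) (cs (rf (nat_lit 27)) (cs (nd (nat_lit 251) (nat_lit 0) (cs (rf (nat_lit 28)) (cs (rf (nat_lit 29)) (cs (nd (nat_lit 252) (nat_lit 0) (cs (rf (nat_lit 30)) (cs (rf (nat_lit 31)) (nd (nat_lit 254) (nat_lit 0) (cs (lf (nat_lit 18) (nat_lit 229)) (nd (nat_lit 276) (nat_lit 0) (cs (lf (nat_lit 5) (nat_lit 251)) (nd (nat_lit 298) (nat_lit 0) (cs (lf (nat_lit 42) (nat_lit 231)) (nd (nat_lit 232) (nat_lit 0) (cs (lf (nat_lit 17) (nat_lit 229)) (rf (nat_lit 32))))))))))))) (cs (nd (nat_lit 252) (nat_lit 0) (cs (rf (nat_lit 33)) (cs (rf (nat_lit 34)) (rf (nat_lit 31))))) (rf (nat_lit 35))))))) (rf (nat_lit 36))))))) (nd (nat_lit 254) (nat_lit 0) (cs (rf (nat_lit 37)) (cs (rf (nat_lit 38)) (cs (nd (nat_lit 229) (nat_lit 0) (cs (rf (nat_lit 25)) (cs (rf (nat_lit 27)) (nd (nat_lit 297) (nat_lit 0) (cs (rf (nat_lit 3)) (cs (rf (nat_lit 39)) (cs (rf (nat_lit 40)) (rf (nat_lit 41))))))))) (nd (nat_lit 255) (nat_lit 0)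 (cs (lf (nat_lit 18) (nat_lit 230)) (nd (nat_lit 252) (nat_lit 0) (cs (rf (nat_lit 42)) (cs (nd (nat_lit 297) (nat_lit 0) (cs (lf (nat_lit 42) (nat_lit 230)) (nd (nat_lit 277) (nat_lit 0) (cs (lf (nat_lit 5) (nat_lit 252)) (nd (nat_lit 298) (nat_lit 0) (cs (lf (nat_lit 29) (nat_lit 231)) (nd (nat_lit 296) (nat_lit 0) (cs (lf (nat_lit 41) (nat_lit 230)) (rf (nat_lit 43)))))))))) (nd (nat_lit 274) (nat_lit 0) (cs (lf (nat_lit 11) (nat_lit 251)) (nd (nat_lit 277) (nat_lit 0) (cs (lf (nat_lit 5) (nat_lit 252)) (nd (nat_lit 297) (nat_lit 0) (cs (lf (nat_lit 42) (nat_lit 230)) (rf (nat_lit 44))))))))))))))))))))) (cs (nd (nat_lit 209) (nat_lit 0) (cs (rf (nat_lit 45)) (cs (rf (nat_lit 46)) (cs (rf (nat_lit 47)) (nd (nat_lit 296) (nat_lit 0) (cs (lf (nat_lit 40) (nat_lit 208)) (nd (nat_lit 276) (nat_lit 0) (cs (lf (nat_lit 29) (nat_lit 209)) (rf (nat_lit 48)))))))))) (nd (nat_lit 297) (nat_lit 0) (cs (rf (nat_lit 49))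 (cs (rf (nat_lit 3)) (cs (rf (nat_lit 6)) (rf (nat_lit 50)))))))))))))))) q109786 (by decide +kernel)
def q109842 : Q := Q.p (nat_lit 0x800002000000000000000000000000000000000000000000000000000000000000000) (nat_lit 0x100000780001e0000be000778007df000ffe003ff8007f0001f00001c00005000000000000000000000000000000) (nat_lit 15)
theorem c109842 : QOK q109842 := cut [q98133, q109002, q109789, q96312, q99649, q99687, q109827, q56839, q109460, q97408, q97409, q99215, q11768, q98137, q90731, q98138, q108367, q109829, q101882, q15536, q96324, q108989, q109832, q109062, q109079, q109083, q109129, q79214, q86390, q98160, q97875, q97975, q108217, q98170, q109000, q96741] ⟨c98133, c109002, c109789, c96312, c99649, c99687, c109827, c56839, c109460, c97408, c97409, c99215, c11768, c98137, c90731, c98138, c108367, c109829, c101882, c15536, c96324, c108989, c109832, c109062, c109079, c109083, c109129, c79214, c86390, c98160, c97875,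 c97975, c108217, c98170, c109000, c96741, trivial⟩ (nd (nat_lit 231) (nat_lit 0) (cs (rf (nat_lit 0)) (cs (rf (nat_lit 1)) (cs (rf (nat_lit 2)) (cs (nd (nat_lit 209) (nat_lit 0) (cs (rf (nat_lit 3)) (cs (rf (nat_lit 4)) (rf (nat_lit 5))))) (cs (rf (nat_lit 6)) (cs (nd (nat_lit 274) (nat_lit 0) (cs (rf (nat_lit 7)) (cs (rf (nat_lit 8)) (cs (nd (nat_lit 273) (nat_lit 0) (cs (rf (nat_lit 9)) (cs (rf (nat_lit 10)) (cs (rf (nat_lit 11)) (nd (nat_lit 251) (nat_lit 0) (cs (rf (nat_lit 12)) (cs (rf (nat_lit 13)) (cs (nd (nat_lit 252) (nat_lit 0) (cs (rf (nat_lit 14)) (cs (rf (nat_lit 15)) (rf (nat_lit 16))))) (rf (nat_lit 17)))))))))) (nd (nat_lit 254) (nat_lit 0) (cs (rf (nat_lit 18)) (cs (nd (nat_lit 273) (nat_lit 0) (cs (lf (nat_lit 12) (nat_lit 250)) (nd (nat_lit 209) (nat_lit 0) (cs (rf (nat_lit 19)) (cs (rf (nat_lit 20)) (cs (rf (nat_lit 21)) (rf (nat_lit 22)))))))) (nd (nat_lit 255) (nat_lit 0) (cs (rf (nat_lit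 23)) (cs (rf (nat_lit 24)) (cs (rf (nat_lit 25)) (cs (rf (nat_lit 26)) (nd (nat_lit 252) (nat_lit 0) (cs (rf (nat_lit 27)) (cs (rf (nat_lit 28)) (rf (nat_lit 29))))))))))))))))) (cs (nd (nat_lit 209) (nat_lit 0) (cs (rf (nat_lit 30)) (cs (rf (nat_lit 31)) (cs (rf (nat_lit 5)) (rf (nat_lit 32)))))) (cs (nd (nat_lit 209) (nat_lit 0) (cs (rf (nat_lit 31)) (cs (rf (nat_lit 33)) (cs (rf (nat_lit 4)) (rf (nat_lit 34)))))) (nd (nat_lit 209) (nat_lit 0) (cs (rf (nat_lit 35)) (cs (rf (nat_lit 4)) (rf (nat_lit 5)))))))))))))) q109842 (by decide +kernel)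
def q109999 : Q := Q.p (nat_lit 0x800002000000000000000000000000000000000000000000000000000000000000000) (nat_lit 0x50000ff8001fc000778000500007f0001fc0007c0000500000000000000000000000000000000000000000) (nat_lit 14)
theorem c109999 : QOK q109999 := cut [q108996, q108998, q109004, q109006, q109056, q98317, q108989, q108991, q82326, q91318] ⟨c108996, c108998, c109004, c109006, c109056, c98317, c108989, c108991, c82326, c91318, trivial⟩ (nd (nat_lit 231) (nat_lit 0) (cs (rf (nat_lit 0)) (cs (rf (nat_lit 1)) (cs (rf (nat_lit 2)) (cs (rf (nat_lit 3)) (cs (rf (nat_lit 4)) (nd (nat_lit 209) (nat_lit 0) (cs (rf (nat_lit 5)) (cs (rf (nat_lit 6)) (cs (rf (nat_lit 7)) (nd (nat_lit 210) (nat_lit 0) (cs (lf (nat_lit 35) (nat_lit 187)) (nd (nat_lit 229) (nat_lit 0) (cs (rf (nat_lit 8)) (cs (nd (nat_lit 274) (nat_lit 0) (cs (lf (nat_lit 41) (nat_lit 208)) (nd (nat_lit 276) (nat_lit 0) (cs (lf (nat_lit 29) (nat_lit 209)) (nd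 (nat_lit 208) (nat_lit 0) (cs (lf (nat_lit 47) (nat_lit 186)) (rf (nat_lit 9)))))))) (cs (nd (nat_lit 274) (nat_lit 0) (cs (lf (nat_lit 41) (nat_lit 208)) (nd (nat_lit 276) (nat_lit 0) (cs (lf (nat_lit 29) (nat_lit 209)) (nd (nat_lit 208) (nat_lit 0) (cs (lf (nat_lit 47) (nat_lit 186)) (nd (nat_lit 211) (nat_lit 0) (cs (lf (nat_lit 10) (nat_lit 207)) (nd (nat_lit 189) (nat_lit 0) (cs (lf (nat_lit 17) (nat_lit 186)) (nd (nat_lit 233) (nat_lit 0) (cs (lf (nat_lit 5) (nat_lit 208)) (nd (nat_lit 232) (nat_lit 0) (cs (lf (nat_lit 0) (nat_lit 207)) (lf (nat_lit 31) (nat_lit 188)))))))))))))))) (nd (nat_lit 228) (nat_lit 0) (cs (lf (nat_lit 14) (nat_lit 206)) (nd (nat_lit 208) (nat_lit 0) (cs (lf (nat_lit 9) (nat_lit 206)) (lf (nat_lit 47) (nat_lit 186)))))))))))))))))))))) q109999 (by decide +kernel)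
def q110227 : Q := Q.p (nat_lit 0x3000004000000000000000000000000000000000000000000000000000000000) (nat_lit 0xb00003f8001fc0007f0001c00007b8000d80003e0000380000a00000000000000000000000000000000000) (nat_lit 14)
theorem c110227 : QOK q110227 := cut [q79028, q79077, q110192, q110226] ⟨c79028, c79077, c110192, c110226, trivial⟩ (nd (nat_lit 254) (nat_lit 0) (cs (rf (nat_lit 0)) (cs (rf (nat_lit 1)) (cs (rf (nat_lit 2)) (rf (nat_lit 3)))))) q110227 (by decide +kernel)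
def q110257 : Q := Q.p (nat_lit 0x7000004000000000000000000000000000000000000000000000000000000000) (nat_lit 0x380001e0001fe0007f8000000007b0001f80001a0000200000000000000000000000000000000000000000) (nat_lit 10)
theorem c110257 : QOK q110257 := cut [q95670, q110246, q98863, q110243, q110249, q110252, q110256] ⟨c95670, c110246, c98863, c110243, c110249, c110252, c110256, trivial⟩ (nd (nat_lit 275) (nat_lit 0) (cs (rf (nat_lit 0)) (cs (rf (nat_lit 1)) (cs (nd (nat_lit 274) (nat_lit 0) (cs (rf (nat_lit 2)) (cs (rf (nat_lit 3)) (rf (nat_lit 4))))) (cs (rf (nat_lit 5)) (rf (nat_lit 6))))))) q110257 (by decide +kernel)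
def q110391 : Q := Q.p (nat_lit 0x800003000000000000000000000000000000000000000000000000000000000000000) (nat_lit 0x7c0001f0001de0007780018e0007f8001fe0001f8000000000000000000000000000000000000000000000) (nat_lit 15)
theorem c110391 : QOK q110391 := cut [q110355, q110358, q22293, q80993, q91969, q14866, q98384, q98714, q98720, q105525, q14769, q14907, q98604, q98590, q110345, q81320, q98394, q108755, q98468, q98730, q108760, q79097, q98728, q98731, q98479] ⟨c110355, c110358, c22293, c80993, c91969, c14866, c98384, c98714, c98720, c105525, c14769, c14907, c98604, c98590, c110345, c81320, c98394, c108755, c98468, c98730, c108760, c79097, c98728, c98731, c98479, trivial⟩ (nd (nat_lit 274) (nat_lit 0) (cs (rf (nat_lit 0)) (cs (rf (nat_lit 1)) (cs (nd (nat_lit 296) (nat_lit 0) (cs (rf (nat_lit 2)) (nd (nat_lit 230) (nat_lit 0) (cs (rf (nat_lit 3)) (rf (nat_lit 4)))))) (cs (nd (nat_lit 273) (nat_lit 0) (cs (rf (nat_lit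 5)) (cs (rf (nat_lit 6)) (cs (rf (nat_lit 7)) (cs (rf (nat_lit 8)) (cs (rf (nat_lit 9)) (nd (nat_lit 251) (nat_lit 0) (cs (rf (nat_lit 10)) (cs (rf (nat_lit 11)) (cs (rf (nat_lit 12)) (nd (nat_lit 271) (nat_lit 0) (cs (lf (nat_lit 13) (nat_lit 249)) (nd (nat_lit 250) (nat_lit 0) (cs (lf (nat_lit 0) (nat_lit 249)) (nd (nat_lit 231) (nat_lit 0) (cs (lf (nat_lit 17) (nat_lit 228)) (nd (nat_lit 209) (nat_lit 0) (cs (lf (nat_lit 36) (nat_lit 186)) (nd (nat_lit 228) (nat_lit 0) (cs (lf (nat_lit 23) (nat_lit 227)) (nd (nat_lit 188) (nat_lit 0) (cs (lf (nat_lit 34) (nat_lit 187)) (nd (nat_lit 184) (nat_lit 0) (cs (lf (nat_lit 25) (nat_lit 184)) (rf (nat_lit 13)))))))))))))))))))))))))) (cs (nd (nat_lit 296) (nat_lit 0) (cs (rf (nat_lit 2)) (cs (rf (nat_lit 14)) (nd (nat_lit 230) (nat_lit 0) (cs (rf (nat_lit 15)) (cs (rf (nat_lit 16)) (rf (nat_lit 17)))))))) (nd (nat_lit 230) (nat_lit 0) (cs (rf (nat_lit 18)) (cs (rf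 (nat_lit 19)) (cs (rf (nat_lit 20)) (cs (nd (nat_lit 231) (nat_lit 0) (cs (rf (nat_lit 21)) (cs (rf (nat_lit 22)) (rf (nat_lit 23))))) (nd (nat_lit 231) (nat_lit 0) (cs (rf (nat_lit 24)) (rf (nat_lit 23))))))))))))))) q110391 (by decide +kernel)
def q110610 : Q := Q.p (nat_lit 0x800003000000000000000000000000000000000000000000000000000000000000000) (nat_lit 0x58000170000dc00037c0004e0003fc0007e0003f00003c0000700001400000000000000000000000000000) (nat_lit 14)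
theorem c110610 : QOK q110610 := cut [q2091, q24207, q105204, q82198, q108890, q80246, q98559, q89807, q91667, q5482, q11484, q80450, q82226, q11856, q82211, q90623] ⟨c2091, c24207, c105204, c82198, c108890, c80246, c98559, c89807, c91667, c5482, c11484, c80450, c82226, c11856, c82211, c90623, trivial⟩ (nd (nat_lit 251) (nat_lit 0) (cs (rf (nat_lit 0)) (cs (rf (nat_lit 1)) (cs (rf (nat_lit 2)) (nd (nat_lit 229) (nat_lit 0) (cs (rf (nat_lit 3)) (cs (rf (nat_lit 4)) (cs (nd (nat_lit 274) (nat_lit 0) (cs (rf (nat_lit 5)) (cs (rf (nat_lit 6)) (nd (nat_lit 273) (nat_lit 0) (cs (rf (nat_lit 7)) (rf (nat_lit 8))))))) (nd (nat_lit 207) (nat_lit 0) (cs (rf (nat_lit 9)) (cs (rf (nat_lit 10)) (cs (rf (nat_lit 11)) (cs (rf (nat_lit 12)) (nd (nat_lit 273) (nat_lit 0) (cs (rf (nat_lit 13)) (cs (rf (nat_lit 14)) (cs (nd (nat_lit 184) (nat_lit 0) (cs (lf (nat_lit 46) (nat_lit 184)) (nd (nat_lit 274) (nat_lit 0) (cs (lf (nat_lit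 29) (nat_lit 207)) (nd (nat_lit 271) (nat_lit 0) (cs (lf (nat_lit 13) (nat_lit 249)) (nd (nat_lit 276) (nat_lit 0) (cs (lf (nat_lit 18) (nat_lit 251)) (nd (nat_lit 298) (nat_lit 0) (cs (lf (nat_lit 5) (nat_lit 273)) (nd (nat_lit 320) (nat_lit 0) (cs (lf (nat_lit 42) (nat_lit 253)) (nd (nat_lit 209) (nat_lit 0) (cs (lf (nat_lit 25) (nat_lit 209)) (nd (nat_lit 208) (nat_lit 0) (cs (lf (nat_lit 35) (nat_lit 185)) (nd (nat_lit 230) (nat_lit 0) (cs (lf (nat_lit 41) (nat_lit 207)) (lf (nat_lit 35) (nat_lit 186)))))))))))))))))))) (nd (nat_lit 184) (nat_lit 0) (cs (lf (nat_lit 46) (nat_lit 184)) (nd (nat_lit 274) (nat_lit 0) (cs (lf (nat_lit 29) (nat_lit 207)) (nd (nat_lit 276) (nat_lit 0) (cs (lf (nat_lit 18) (nat_lit 251)) (nd (nat_lit 186) (nat_lit 0) (cs (lf (nat_lit 34) (nat_lit 185)) (rf (nat_lit 15))))))))))))))))))))))))))) q110610 (by decide +kernel)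
def q111008 : Q := Q.p (nat_lit 0x3000000000000000000000000000000000000000000000000000000000000000) (nat_lit 0x7c0001f00007f000eff003cf801fff001fe0003f80007c0001500000000000000000000000000000000000) (nat_lit 19)
theorem c111008 : QOK q111008 := cut [q89928, q93915, q93921, q106665, q106687, q110862, q82198, q82206, q106624, q82231, q82233, q106412, q2065, q40738, q40773, q82253, q82256, q98539, q2624, q82275, q82300, q82301, q82309, q105163, q1563, q93250, q106669, q106670, q110994, q106671, q82378, q80881, q82280, q82366, q106680, q81320, q82291, q82377, q110017] ⟨c89928, c93915, c93921, c106665, c106687, c110862, c82198, c82206, c106624, c82231, c82233, c106412, c2065, c40738, c40773, c82253, c82256, c98539, c2624, c82275, c82300, c82301, c82309, c105163, c1563, c93250, c106669, c106670, c110994, c106671, c82378, c80881, c82280, c82366, c106680, c81320, c82291, c82377, c110017, trivial⟩ (nd (nat_lit 251) (nat_lit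 0) (cs (rf (nat_lit 0)) (cs (rf (nat_lit 1)) (cs (rf (nat_lit 2)) (cs (rf (nat_lit 3)) (cs (rf (nat_lit 4)) (cs (rf (nat_lit 5)) (cs (nd (nat_lit 229) (nat_lit 0) (cs (rf (nat_lit 6)) (cs (rf (nat_lit 7)) (cs (rf (nat_lit 8)) (nd (nat_lit 273) (nat_lit 0) (cs (rf (nat_lit 9)) (cs (rf (nat_lit 10)) (rf (nat_lit 11))))))))) (cs (nd (nat_lit 250) (nat_lit 0) (cs (rf (nat_lit 12)) (cs (rf (nat_lit 13)) (cs (rf (nat_lit 14)) (cs (rf (nat_lit 15)) (cs (rf (nat_lit 16)) (rf (nat_lit 17)))))))) (nd (nat_lit 231) (nat_lit 0) (cs (rf (nat_lit 18)) (cs (rf (nat_lit 19)) (cs (nd (nat_lit 209) (nat_lit 0) (cs (rf (nat_lit 20)) (cs (rf (nat_lit 21)) (cs (rf (nat_lit 22)) (cs (rf (nat_lit 23)) (nd (nat_lit 208) (nat_lit 0) (cs (rf (nat_lit 24)) (cs (rf (nat_lit 25)) (cs (nd (nat_lit 230) (nat_lit 0) (cs (rf (nat_lit 26)) (cs (nd (nat_lit 232) (nat_lit 0) (cs (lf (nat_lit 6) (nat_lit 229)) (nd (nat_lit 206) (nat_lit 0) (cs (lf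 (nat_lit 1) (nat_lit 206)) (rf (nat_lit 27)))))) (cs (rf (nat_lit 28)) (nd (nat_lit 274) (nat_lit 0) (cs (lf (nat_lit 30) (nat_lit 208)) (nd (nat_lit 273) (nat_lit 0) (cs (lf (nat_lit 41) (nat_lit 207)) (nd (nat_lit 271) (nat_lit 0) (cs (lf (nat_lit 13) (nat_lit 249)) (rf (nat_lit 29)))))))))))) (nd (nat_lit 230) (nat_lit 0) (cs (rf (nat_lit 30)) (rf (nat_lit 28))))))))))))) (nd (nat_lit 274) (nat_lit 0) (cs (rf (nat_lit 31)) (cs (rf (nat_lit 32)) (cs (nd (nat_lit 209) (nat_lit 0) (cs (rf (nat_lit 21)) (nd (nat_lit 250) (nat_lit 0) (cs (rf (nat_lit 12)) (cs (rf (nat_lit 33)) (rf (nat_lit 34))))))) (nd (nat_lit 296) (nat_lit 0) (cs (lf (nat_lit 30) (nat_lit 230)) (nd (nat_lit 230) (nat_lit 0) (cs (rf (nat_lit 35)) (cs (rf (nat_lit 36)) (cs (rf (nat_lit 37)) (rf (nat_lit 38))))))))))))))))))))))))) q111008 (by decide +kernel)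
def q111087 : Q := Q.p (nat_lit 0x3000000000000000000000000000000000000000000000000000000000000000) (nat_lit 0x1c0000f80003e0001fe001dfe007cf003ffe003ff0003fe000f80002e00003000008000000000000000000000000) (nat_lit 19)
theorem c111087 : QOK q111087 := cut [q81660, q81726, q110534, q111023, q79028, q110051, q110185, q92260, q94123, q110266, q79013, q79201, q79256, q110540, q81663, q81665, q81671, q81675, q81725, q111068, q79118, q81730, q79123, q79128, q79145, q106986, q110560, q79169, q79199, q1999, q81084, q81744, q88933, q88941, q110461, q79188, q88936, q111079, q111080, q81492, q92326, q111086] ⟨c81660, c81726, c110534, c111023, c79028, c110051, c110185, c92260, c94123, c110266, c79013, c79201, c79256, c110540, c81663, c81665, c81671, c81675, c81725, c111068, c79118, c81730, c79123, c79128, c79145, c106986, c110560, c79169, c79199, c1999, c81084, c81744, c88933, c88941, c110461, c79188, c88936, c111079, c111080,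 c81492, c92326, c111086, trivial⟩ (nd (nat_lit 254) (nat_lit 0) (cs (rf (nat_lit 0)) (cs (rf (nat_lit 1)) (cs (rf (nat_lit 2)) (cs (rf (nat_lit 3)) (cs (nd (nat_lit 230) (nat_lit 0) (cs (rf (nat_lit 4)) (cs (rf (nat_lit 5)) (cs (rf (nat_lit 6)) (nd (nat_lit 274) (nat_lit 0) (cs (rf (nat_lit 7)) (cs (rf (nat_lit 8)) (rf (nat_lit 9))))))))) (cs (nd (nat_lit 251) (nat_lit 0) (cs (rf (nat_lit 10)) (cs (rf (nat_lit 11)) (cs (rf (nat_lit 12)) (rf (nat_lit 13)))))) (cs (nd (nat_lit 251) (nat_lit 0) (cs (rf (nat_lit 11)) (cs (rf (nat_lit 14)) (cs (rf (nat_lit 15)) (cs (rf (nat_lit 16)) (cs (rf (nat_lit 17)) (nd (nat_lit 229) (nat_lit 0) (cs (lf (nat_lit 23) (nat_lit 228)) (nd (nat_lit 272) (nat_lit 0) (cs (lf (nat_lit 10) (nat_lit 250)) (rf (nat_lit 18)))))))))))) (cs (rf (nat_lit 19)) (cs (nd (nat_lit 232) (nat_lit 0) (cs (rf (nat_lit 20)) (cs (rf (nat_lit 21)) (cs (nd (nat_lit 210) (nat_lit 0) (cs (rf (nat_lit 22))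 (cs (rf (nat_lit 23)) (cs (rf (nat_lit 24)) (cs (rf (nat_lit 25)) (rf (nat_lit 26))))))) (nd (nat_lit 275) (nat_lit 0) (cs (rf (nat_lit 27)) (cs (rf (nat_lit 28)) (cs (nd (nat_lit 210) (nat_lit 0) (cs (rf (nat_lit 23)) (nd (nat_lit 251) (nat_lit 0) (cs (rf (nat_lit 29)) (cs (rf (nat_lit 30)) (rf (nat_lit 31))))))) (nd (nat_lit 297) (nat_lit 0) (cs (rf (nat_lit 32)) (cs (rf (nat_lit 33)) (cs (rf (nat_lit 34)) (nd (nat_lit 231) (nat_lit 0) (cs (rf (nat_lit 35)) (cs (rf (nat_lit 36)) (cs (rf (nat_lit 37)) (rf (nat_lit 38)))))))))))))))))) (cs (nd (nat_lit 251) (nat_lit 0) (cs (rf (nat_lit 39)) (cs (rf (nat_lit 14)) (cs (rf (nat_lit 15)) (cs (rf (nat_lit 17)) (rf (nat_lit 40))))))) (rf (nat_lit 41))))))))))))) q111087 (by decide +kernel)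
def q111091 : Q := Q.p (nat_lit 0x3000000000000000000000000000000000000000000000000000000000000000) (nat_lit 0x80000780001f0001fe0003fc001cf0007fc000ff0003f80007c0001500000000000000000000000000000000000) (nat_lit 16)
theorem c111091 : QOK q111091 := cut [q105188, q105202, q105204, q105206, q82275, q96402, q105168, q80881, q82280, q5304, q88898, q110012, q110018, q88806, q110022, q87344, q91962, q110038, q110737, q82198, q105131, q105134, q82231, q106412, q92586] ⟨c105188, c105202, c105204, c105206, c82275, c96402, c105168, c80881, c82280, c5304, c88898, c110012, c110018, c88806, c110022, c87344, c91962, c110038, c110737, c82198, c105131, c105134, c82231, c106412, c92586, trivial⟩ (nd (nat_lit 251) (nat_lit 0) (cs (rf (nat_lit 0)) (cs (rf (nat_lit 1)) (cs (rf (nat_lit 2)) (cs (rf (nat_lit 3)) (cs (nd (nat_lit 231) (nat_lit 0) (cs (rf (nat_lit 4)) (cs (rf (nat_lit 5)) (cs (rf (nat_lit 6)) (nd (nat_lit 274) (nat_lit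 0) (cs (rf (nat_lit 7)) (cs (rf (nat_lit 8)) (cs (nd (nat_lit 275) (nat_lit 0) (cs (rf (nat_lit 9)) (cs (rf (nat_lit 10)) (nd (nat_lit 249) (nat_lit 0) (cs (lf (nat_lit 1) (nat_lit 249)) (nd (nat_lit 209) (nat_lit 0) (cs (lf (nat_lit 36) (nat_lit 186)) (rf (nat_lit 11))))))))) (nd (nat_lit 230) (nat_lit 0) (cs (rf (nat_lit 12)) (cs (nd (nat_lit 250) (nat_lit 0) (cs (lf (nat_lit 12) (nat_lit 227)) (nd (nat_lit 227) (nat_lit 0) (cs (lf (nat_lit 22) (nat_lit 227)) (rf (nat_lit 13)))))) (cs (nd (nat_lit 249) (nat_lit 0) (cs (lf (nat_lit 13) (nat_lit 227)) (rf (nat_lit 14)))) (cs (nd (nat_lit 296) (nat_lit 0) (cs (lf (nat_lit 30) (nat_lit 230)) (nd (nat_lit 297) (nat_lit 0) (cs (lf (nat_lit 29) (nat_lit 230)) (nd (nat_lit 295) (nat_lit 0) (cs (lf (nat_lit 41) (nat_lit 229)) (nd (nat_lit 207) (nat_lit 0) (cs (lf (nat_lit 46) (nat_lit 207)) (nd (nat_lit 250) (nat_lit 0) (cs (lf (nat_lit 12) (nat_lit 227)) (nd (nat_lit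 227) (nat_lit 0) (cs (lf (nat_lit 22) (nat_lit 227)) (nd (nat_lit 271) (nat_lit 0) (cs (lf (nat_lit 10) (nat_lit 249)) (nd (nat_lit 275) (nat_lit 0) (cs (lf (nat_lit 5) (nat_lit 250)) (rf (nat_lit 15)))))))))))))))))) (nd (nat_lit 249) (nat_lit 0) (cs (lf (nat_lit 13) (nat_lit 227)) (rf (nat_lit 16))))))))))))))))) (cs (rf (nat_lit 17)) (cs (rf (nat_lit 18)) (nd (nat_lit 229) (nat_lit 0) (cs (rf (nat_lit 19)) (cs (rf (nat_lit 20)) (cs (rf (nat_lit 21)) (nd (nat_lit 273) (nat_lit 0) (cs (rf (nat_lit 22)) (cs (rf (nat_lit 23)) (nd (nat_lit 254) (nat_lit 0) (cs (lf (nat_lit 11) (nat_lit 250)) (rf (nat_lit 24))))))))))))))))))) q111091 (by decide +kernel)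
def q111576 : Q := Q.p (nat_lit 0x6000000000000000000000000000000000000000000000000000000000000000) (nat_lit 0xe0000f80007e0001fe0007f0007fe000ff00038c000ff0007fc0007c0000e00000800000000000000000000000000000000000) (nat_lit 19)
theorem c111576 : QOK q111576 := cut [q81413, q79744, q103780, q79181, q111159, q111164, q111170, q111173, q111257, q111303, q111392, q111421, q111455, q111479, q111149, q111471, q111487, q111497, q111308, q90151, q111514, q79586, q111172, q111538, q109236, q79767, q111543, q89992, q90020, q81148, q80335, q111575] ⟨c81413, c79744, c103780, c79181, c111159, c111164, c111170, c111173, c111257, c111303, c111392, c111421, c111455, c111479, c111149, c111471, c111487, c111497, c111308, c90151, c111514, c79586, c111172, c111538, c109236, c79767, c111543, c89992, c90020, c81148, c80335, c111575, trivial⟩ (nd (nat_lit 276) (nat_lit 0) (cs (nd (nat_lit 298) (nat_lit 0) (cs (rf (nat_lit 0)) (cs (nd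 (nat_lit 232) (nat_lit 0) (cs (rf (nat_lit 1)) (cs (rf (nat_lit 2)) (cs (nd (nat_lit 231) (nat_lit 0) (cs (rf (nat_lit 3)) (nd (nat_lit 299) (nat_lit 0) (cs (lf (nat_lit 29) (nat_lit 232)) (nd (nat_lit 297) (nat_lit 0) (cs (lf (nat_lit 41) (nat_lit 231)) (rf (nat_lit 4)))))))) (rf (nat_lit 5)))))) (cs (rf (nat_lit 6)) (rf (nat_lit 7)))))) (cs (rf (nat_lit 8)) (cs (rf (nat_lit 9)) (cs (rf (nat_lit 10)) (cs (rf (nat_lit 11)) (cs (rf (nat_lit 12)) (cs (rf (nat_lit 13)) (cs (nd (nat_lit 298) (nat_lit 0) (cs (rf (nat_lit 6)) (cs (nd (nat_lit 232) (nat_lit 0) (cs (rf (nat_lit 2)) (cs (rf (nat_lit 14)) (cs (rf (nat_lit 15)) (rf (nat_lit 16)))))) (cs (rf (nat_lit 17)) (nd (nat_lit 320) (nat_lit 0) (cs (lf (nat_lit 47) (nat_lit 231)) (nd (nat_lit 233) (nat_lit 0) (cs (lf (nat_lit 34) (nat_lit 232)) (nd (nat_lit 275) (nat_lit 0) (cs (lf (nat_lit 42) (nat_lit 253)) (rf (nat_lit 18)))))))))))) (cs (nd (nat_lit 298) (nat_lit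 0) (cs (rf (nat_lit 19)) (cs (rf (nat_lit 20)) (nd (nat_lit 320) (nat_lit 0) (cs (rf (nat_lit 21)) (rf (nat_lit 22))))))) (cs (rf (nat_lit 23)) (cs (nd (nat_lit 298) (nat_lit 0) (cs (rf (nat_lit 0)) (cs (rf (nat_lit 19)) (cs (nd (nat_lit 320) (nat_lit 0) (cs (rf (nat_lit 21)) (cs (nd (nat_lit 275) (nat_lit 0) (cs (lf (nat_lit 42) (nat_lit 253)) (rf (nat_lit 24)))) (nd (nat_lit 321) (nat_lit 0) (cs (lf (nat_lit 29) (nat_lit 254)) (nd (nat_lit 319) (nat_lit 0) (cs (lf (nat_lit 41) (nat_lit 253)) (nd (nat_lit 232) (nat_lit 0) (cs (lf (nat_lit 40) (nat_lit 231)) (rf (nat_lit 25))))))))))) (rf (nat_lit 26)))))) (cs (nd (nat_lit 298) (nat_lit 0) (cs (rf (nat_lit 19)) (cs (rf (nat_lit 20)) (nd (nat_lit 233) (nat_lit 0) (cs (nd (nat_lit 232) (nat_lit 0) (cs (lf (nat_lit 35) (nat_lit 210)) (nd (nat_lit 234) (nat_lit 0) (cs (lf (nat_lit 6) (nat_lit 231)) (nd (nat_lit 299) (nat_lit 0) (cs (lf (nat_lit 29) (nat_lit 232))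 (nd (nat_lit 210) (nat_lit 0) (cs (lf (nat_lit 28) (nat_lit 210)) (rf (nat_lit 27)))))))))) (cs (nd (nat_lit 320) (nat_lit 0) (cs (lf (nat_lit 34) (nat_lit 232)) (nd (nat_lit 321) (nat_lit 0) (cs (lf (nat_lit 29) (nat_lit 254)) (nd (nat_lit 232) (nat_lit 0) (cs (lf (nat_lit 28) (nat_lit 232)) (nd (nat_lit 234) (nat_lit 0) (cs (lf (nat_lit 6) (nat_lit 231)) (nd (nat_lit 275) (nat_lit 0) (cs (lf (nat_lit 42) (nat_lit 253)) (rf (nat_lit 28)))))))))))) (nd (nat_lit 255) (nat_lit 0) (cs (lf (nat_lit 30) (nat_lit 232)) (rf (nat_lit 29)))))))))) (cs (nd (nat_lit 298) (nat_lit 0) (cs (rf (nat_lit 0)) (cs (rf (nat_lit 19)) (nd (nat_lit 232) (nat_lit 0) (cs (rf (nat_lit 30)) (cs (rf (nat_lit 2)) (cs (rf (nat_lit 14)) (rf (nat_lit 16))))))))) (rf (nat_lit 31)))))))))))))))) q111576 (by decide +kernel)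
def q111643 : Q := Q.p (nat_lit 0x800006000000000000000000000000000000000000000000000000000000000000000) (nat_lit 0xe00003c0003dc000f700031c000ff0003fc0003f0000000000000000000000000000000000000000000000) (nat_lit 16)
theorem c111643 : QOK q111643 := cut [q111593, q90151, q111595, q109715, q111164, q111610, q106222, q100002, q111615, q79958, q111275, q79442, q81957, q111623, q111373, q111628, q111630, q111631, q111638, q111639, q111319, q79962] ⟨c111593, c90151, c111595, c109715, c111164, c111610, c106222, c100002, c111615, c79958, c111275, c79442, c81957, c111623, c111373, c111628, c111630, c111631, c111638, c111639, c111319, c79962, trivial⟩ (nd (nat_lit 276) (nat_lit 0) (cs (rf (nat_lit 0)) (cs (nd (nat_lit 298) (nat_lit 0) (cs (rf (nat_lit 1)) (cs (rf (nat_lit 2)) (nd (nat_lit 232) (nat_lit 0) (cs (rf (nat_lit 3)) (rf (nat_lit 4))))))) (cs (rf (nat_lit 5)) (cs (nd (nat_lit 298) (nat_lit 0) (cs (rf (nat_lit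 1)) (cs (rf (nat_lit 2)) (nd (nat_lit 232) (nat_lit 0) (cs (rf (nat_lit 6)) (cs (nd (nat_lit 231) (nat_lit 0) (cs (lf (nat_lit 24) (nat_lit 209)) (nd (nat_lit 299) (nat_lit 0) (cs (lf (nat_lit 29) (nat_lit 232)) (nd (nat_lit 300) (nat_lit 0) (cs (lf (nat_lit 18) (nat_lit 275)) (nd (nat_lit 273) (nat_lit 0) (cs (lf (nat_lit 1) (nat_lit 273)) (rf (nat_lit 7)))))))))) (nd (nat_lit 209) (nat_lit 0) (cs (lf (nat_lit 46) (nat_lit 209)) (rf (nat_lit 8)))))))))) (cs (nd (nat_lit 277) (nat_lit 0) (cs (rf (nat_lit 9)) (cs (rf (nat_lit 10)) (nd (nat_lit 274) (nat_lit 0) (cs (rf (nat_lit 11)) (cs (nd (nat_lit 252) (nat_lit 0) (cs (lf (nat_lit 0) (nat_lit 251)) (nd (nat_lit 299) (nat_lit 0) (cs (lf (nat_lit 5) (nat_lit 274)) (nd (nat_lit 321) (nat_lit 0) (cs (lf (nat_lit 42) (nat_lit 254)) (nd (nat_lit 210) (nat_lit 0) (cs (lf (nat_lit 25) (nat_lit 210)) (rf (nat_lit 12)))))))))) (rf (nat_lit 13)))))))) (cs (nd (nat_lit 232)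 (nat_lit 0) (cs (rf (nat_lit 14)) (cs (rf (nat_lit 15)) (cs (rf (nat_lit 16)) (cs (rf (nat_lit 17)) (cs (rf (nat_lit 18)) (rf (nat_lit 19)))))))) (nd (nat_lit 232) (nat_lit 0) (cs (rf (nat_lit 20)) (cs (rf (nat_lit 15)) (cs (rf (nat_lit 16)) (nd (nat_lit 210) (nat_lit 0) (cs (lf (nat_lit 36) (nat_lit 187)) (rf (nat_lit 21))))))))))))))) q111643 (by decide +kernel)
def q111806 : Q := Q.p (nat_lit 0x800006000000000000000000000000000000000000000000000000000000000000000) (nat_lit 0x300003fc000f700031c000ff0003fc0003f0000700000000000000000000000000000000000000000) (nat_lit 16)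
theorem c111806 : QOK q111806 := cut [q80292, q79962, q111239, q111590, q111788, q79181, q80008, q111792, q81878, q111803, q111319, q111628, q111630, q111631, q111638, q111639] ⟨c80292, c79962, c111239, c111590, c111788, c79181, c80008, c111792, c81878, c111803, c111319, c111628, c111630, c111631, c111638, c111639, trivial⟩ (nd (nat_lit 232) (nat_lit 0) (cs (rf (nat_lit 0)) (cs (nd (nat_lit 210) (nat_lit 0) (cs (lf (nat_lit 36) (nat_lit 187)) (nd (nat_lit 276) (nat_lit 0) (cs (lf (nat_lit 41) (nat_lit 209)) (nd (nat_lit 189) (nat_lit 0) (cs (lf (nat_lit 34) (nat_lit 188)) (rf (nat_lit 1)))))))) (cs (nd (nat_lit 231) (nat_lit 0) (cs (nd (nat_lit 276) (nat_lit 0) (cs (rf (nat_lit 2)) (rf (nat_lit 3)))) (cs (rf (nat_lit 4)) (cs (nd (nat_lit 276) (nat_lit 0) (cs (rf (nat_lit 5)) (cs (rf (nat_lit 3)) (nd (nat_lit 209) (nat_lit 0) (cs (lf (nat_lit 24) (nat_lit 187)) (nd (nat_lit 274) (nat_lit 0) (cs (lf (nat_lit 41)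 (nat_lit 208)) (rf (nat_lit 6))))))))) (nd (nat_lit 276) (nat_lit 0) (cs (rf (nat_lit 5)) (cs (rf (nat_lit 3)) (nd (nat_lit 209) (nat_lit 0) (cs (lf (nat_lit 24) (nat_lit 187)) (nd (nat_lit 274) (nat_lit 0) (cs (lf (nat_lit 41) (nat_lit 208)) (nd (nat_lit 272) (nat_lit 0) (cs (lf (nat_lit 13) (nat_lit 250)) (nd (nat_lit 208) (nat_lit 0) (cs (lf (nat_lit 47) (nat_lit 186)) (nd (nat_lit 206) (nat_lit 0) (cs (lf (nat_lit 1) (nat_lit 206)) (nd (nat_lit 230) (nat_lit 0) (cs (lf (nat_lit 42) (nat_lit 208)) (nd (nat_lit 229) (nat_lit 0) (cs (lf (nat_lit 0) (nat_lit 228)) (nd (nat_lit 251) (nat_lit 0) (cs (lf (nat_lit 11) (nat_lit 228)) (rf (nat_lit 7))))))))))))))))))))))))) (cs (nd (nat_lit 231) (nat_lit 0) (cs (rf (nat_lit 8)) (cs (rf (nat_lit 4)) (rf (nat_lit 9))))) (nd (nat_lit 276) (nat_lit 0) (cs (rf (nat_lit 10)) (cs (rf (nat_lit 11)) (cs (rf (nat_lit 12)) (cs (rf (nat_lit 13)) (cs (rf (nat_lit 14)) (rf (nat_lit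 15))))))))))))) q111806 (by decide +kernel)
def q112368 : Q := Q.p (nat_lit 0x6000000000000000000000000000000000000000000000000000000000000000) (nat_lit 0x60000180000fc0003f0001fc003ffc0079e001dfc000fe0003e0000f80001e00000000000000000000000000000000000) (nat_lit 16)
theorem c112368 : QOK q112368 := cut [q79233, q81340, q81495, q112307, q112308, q112356, q81411, q81475, q112360, q81463, q79007, q79023, q79201, q81453, q81459, q111598, q80708, q80754, q81472, q80614, q81492, q86771, q86778, q92326] ⟨c79233, c81340, c81495, c112307, c112308, c112356, c81411, c81475, c112360, c81463, c79007, c79023, c79201, c81453, c81459, c111598, c80708, c80754, c81472, c80614, c81492, c86771, c86778, c92326, trivial⟩ (nd (nat_lit 252) (nat_lit 0) (cs (rf (nat_lit 0)) (cs (rf (nat_lit 1)) (cs (rf (nat_lit 2)) (cs (rf (nat_lit 3)) (cs (rf (nat_lit 4)) (cs (rf (nat_lit 5)) (cs (nd (nat_lit 276) (nat_lit 0) (cs (rf (nat_lit 6)) (cs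 (rf (nat_lit 7)) (cs (rf (nat_lit 8)) (nd (nat_lit 231) (nat_lit 0) (cs (rf (nat_lit 9)) (cs (nd (nat_lit 298) (nat_lit 0) (cs (lf (nat_lit 42) (nat_lit 231)) (nd (nat_lit 251) (nat_lit 0) (cs (rf (nat_lit 10)) (cs (rf (nat_lit 11)) (cs (rf (nat_lit 12)) (nd (nat_lit 274) (nat_lit 0) (cs (rf (nat_lit 13)) (cs (rf (nat_lit 14)) (rf (nat_lit 15))))))))))) (nd (nat_lit 209) (nat_lit 0) (cs (rf (nat_lit 16)) (cs (rf (nat_lit 17)) (rf (nat_lit 18)))))))))))) (nd (nat_lit 251) (nat_lit 0) (cs (rf (nat_lit 12)) (cs (rf (nat_lit 19)) (cs (rf (nat_lit 20)) (cs (rf (nat_lit 21)) (cs (rf (nat_lit 22)) (rf (nat_lit 23)))))))))))))))) q112368 (by decide +kernel)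
def q112554 : Q := Q.p (nat_lit 0x6000000000000000000000000000000000000000000000000000000000000000) (nat_lit 0x700001c0000f80003f0003fe000ff80009c000ff8003fc0007e0001f80003a00000000000000000000000000000000000) (nat_lit 16)
theorem c112554 : QOK q112554 := cut [q79128, q102805, q102829, q79753, q79961, q80348, q79127, q79280, q102804, q79118, q79233, q79116, q80981, q79028, q102875, q6259, q79029, q112464, q1411, q112485, q81677, q81020, q81335, q112306, q112488, q112514, q112526, q106987, q112454, q112536, q79123, q79282, q79165, q79149, q102808, q105785, q112513, q112511, q79112, q80292, q94096, q106115, q112508] ⟨c79128, c102805, c102829, c79753, c79961, c80348, c79127, c79280, c102804, c79118, c79233, c79116, c80981, c79028, c102875, c6259, c79029, c112464, c1411, c112485, c81677, c81020, c81335, c112306, c112488, c112514, c112526, c106987, c112454, c112536, c79123, c79282, c79165, c79149, c102808, c105785,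 c112513, c112511, c79112, c80292, c94096, c106115, c112508, trivial⟩ (nd (nat_lit 232) (nat_lit 0) (cs (nd (nat_lit 210) (nat_lit 0) (cs (rf (nat_lit 0)) (cs (rf (nat_lit 1)) (cs (rf (nat_lit 2)) (cs (nd (nat_lit 276) (nat_lit 0) (cs (rf (nat_lit 3)) (cs (rf (nat_lit 4)) (rf (nat_lit 5))))) (nd (nat_lit 188) (nat_lit 0) (cs (rf (nat_lit 6)) (cs (rf (nat_lit 7)) (rf (nat_lit 8)))))))))) (cs (nd (nat_lit 252) (nat_lit 0) (cs (rf (nat_lit 9)) (cs (rf (nat_lit 10)) (nd (nat_lit 233) (nat_lit 0) (cs (rf (nat_lit 11)) (cs (rf (nat_lit 12)) (nd (nat_lit 230) (nat_lit 0) (cs (rf (nat_lit 13)) (cs (nd (nat_lit 255) (nat_lit 0) (cs (lf (nat_lit 23) (nat_lit 229)) (rf (nat_lit 14)))) (cs (nd (nat_lit 208) (nat_lit 0) (cs (rf (nat_lit 15)) (cs (rf (nat_lit 16)) (rf (nat_lit 17))))) (nd (nat_lit 208) (nat_lit 0) (cs (rf (nat_lit 15)) (cs (rf (nat_lit 16)) (nd (nat_lit 207) (nat_lit 0) (cs (rf (nat_lit 18)) (lf (nat_lit 20)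 (nat_lit 207))))))))))))))))) (cs (rf (nat_lit 19)) (cs (nd (nat_lit 252) (nat_lit 0) (cs (rf (nat_lit 9)) (cs (rf (nat_lit 20)) (cs (nd (nat_lit 274) (nat_lit 0) (cs (rf (nat_lit 21)) (cs (rf (nat_lit 22)) (rf (nat_lit 23))))) (rf (nat_lit 24)))))) (cs (rf (nat_lit 25)) (cs (rf (nat_lit 26)) (cs (nd (nat_lit 252) (nat_lit 0) (cs (rf (nat_lit 20)) (cs (rf (nat_lit 27)) (rf (nat_lit 28))))) (cs (rf (nat_lit 29)) (cs (nd (nat_lit 210) (nat_lit 0) (cs (rf (nat_lit 30)) (cs (rf (nat_lit 0)) (cs (rf (nat_lit 31)) (nd (nat_lit 252) (nat_lit 0) (cs (rf (nat_lit 9)) (cs (rf (nat_lit 32)) (cs (rf (nat_lit 24)) (nd (nat_lit 233) (nat_lit 0) (cs (rf (nat_lit 11)) (cs (rf (nat_lit 12)) (nd (nat_lit 276) (nat_lit 0) (cs (rf (nat_lit 33)) (cs (nd (nat_lit 187) (nat_lit 0) (cs (lf (nat_lit 46) (nat_lit 187)) (nd (nat_lit 277) (nat_lit 0) (cs (lf (nat_lit 29) (nat_lit 210)) (rf (nat_lit 34)))))) (nd (nat_lit 230) (nat_lit 0)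 (cs (rf (nat_lit 13)) (nd (nat_lit 275) (nat_lit 0) (cs (lf (nat_lit 41) (nat_lit 209)) (nd (nat_lit 208) (nat_lit 0) (cs (lf (nat_lit 24) (nat_lit 186)) (rf (nat_lit 35)))))))))))))))))))))) (cs (nd (nat_lit 252) (nat_lit 0) (cs (rf (nat_lit 9)) (cs (rf (nat_lit 32)) (cs (rf (nat_lit 36)) (nd (nat_lit 230) (nat_lit 0) (cs (rf (nat_lit 13)) (cs (rf (nat_lit 37)) (cs (nd (nat_lit 233) (nat_lit 0) (cs (rf (nat_lit 11)) (cs (rf (nat_lit 12)) (nd (nat_lit 275) (nat_lit 0) (cs (rf (nat_lit 38)) (cs (rf (nat_lit 39)) (nd (nat_lit 188) (nat_lit 0) (cs (lf (nat_lit 37) (nat_lit 187)) (nd (nat_lit 208) (nat_lit 0) (cs (lf (nat_lit 24) (nat_lit 186)) (rf (nat_lit 17)))))))))))) (nd (nat_lit 231) (nat_lit 0) (cs (rf (nat_lit 40)) (cs (rf (nat_lit 41)) (rf (nat_lit 42))))))))))))) (nd (nat_lit 252) (nat_lit 0) (cs (rf (nat_lit 9)) (cs (rf (nat_lit 32)) (cs (rf (nat_lit 27)) (rf (nat_lit 24))))))))))))))))) q112554 (by decide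 +kernel)
def q112586 : Q := Q.p (nat_lit 0x6000000000000000000000000000000000000000000000000000000000000000) (nat_lit 0x60000180000f80007f0001fe003ffc0079e003fdc003fc0007e0001f00002800000000000000000000000000000000000) (nat_lit 19)
theorem c112586 : QOK q112586 := cut [q80610, q81767, q81876, q112308, q112449, q112558, q79228, q80428, q106400, q83707, q106263, q106305, q80649, q81820, q91386, q91797, q91799, q111847, q112561, q112564, q81192, q112567, q112575, q80881, q82280, q81833, q81834, q112045, q79054, q81850, q106292, q112018, q112583, q80576, q81557, q81867, q86782, q112434, q79223, q80609, q81872, q82108] ⟨c80610, c81767, c81876, c112308, c112449, c112558, c79228, c80428, c106400, c83707, c106263, c106305, c80649, c81820, c91386, c91797, c91799, c111847, c112561, c112564, c81192, c112567, c112575, c80881, c82280, c81833, c81834, c112045, c79054, c81850, c106292, c112018, c112583, c80576, c81557, c81867,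 c86782, c112434, c79223, c80609, c81872, c82108, trivial⟩ (nd (nat_lit 252) (nat_lit 0) (cs (rf (nat_lit 0)) (cs (rf (nat_lit 1)) (cs (rf (nat_lit 2)) (cs (rf (nat_lit 3)) (cs (rf (nat_lit 4)) (cs (rf (nat_lit 5)) (cs (nd (nat_lit 255) (nat_lit 0) (cs (rf (nat_lit 6)) (cs (rf (nat_lit 7)) (rf (nat_lit 8))))) (cs (nd (nat_lit 274) (nat_lit 0) (cs (rf (nat_lit 9)) (cs (rf (nat_lit 10)) (cs (rf (nat_lit 11)) (cs (nd (nat_lit 296) (nat_lit 0) (cs (rf (nat_lit 12)) (cs (rf (nat_lit 13)) (cs (nd (nat_lit 297) (nat_lit 0) (cs (rf (nat_lit 14)) (cs (rf (nat_lit 15)) (cs (rf (nat_lit 16)) (cs (nd (nat_lit 275) (nat_lit 0) (cs (rf (nat_lit 17)) (cs (rf (nat_lit 18)) (rf (nat_lit 19))))) (nd (nat_lit 275) (nat_lit 0) (cs (rf (nat_lit 20)) (cs (rf (nat_lit 19)) (rf (nat_lit 21)))))))))) (rf (nat_lit 22)))))) (nd (nat_lit 231) (nat_lit 0) (cs (rf (nat_lit 23)) (cs (rf (nat_lit 24)) (cs (nd (nat_lit 296) (nat_lit 0) (cs (lf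 (nat_lit 30) (nat_lit 230)) (nd (nat_lit 255) (nat_lit 0) (cs (rf (nat_lit 25)) (cs (rf (nat_lit 26)) (rf (nat_lit 27))))))) (nd (nat_lit 209) (nat_lit 0) (cs (lf (nat_lit 36) (nat_lit 186)) (nd (nat_lit 275) (nat_lit 0) (cs (rf (nat_lit 28)) (cs (rf (nat_lit 29)) (cs (rf (nat_lit 30)) (rf (nat_lit 31))))))))))))))))) (cs (rf (nat_lit 32)) (cs (nd (nat_lit 255) (nat_lit 0) (cs (rf (nat_lit 33)) (cs (rf (nat_lit 34)) (cs (rf (nat_lit 35)) (cs (rf (nat_lit 36)) (rf (nat_lit 37))))))) (nd (nat_lit 255) (nat_lit 0) (cs (rf (nat_lit 38)) (cs (rf (nat_lit 39)) (cs (rf (nat_lit 40)) (rf (nat_lit 41))))))))))))))))) q112586 (by decide +kernel)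
def q112693 : Q := Q.p (nat_lit 0x6000000000000000000000000000000000000000000000000000000000000000) (nat_lit 0xa00003f0001fc000ff80039e0007f8000fe0007f0000fc0000f00000000000000000000000000000000000) (nat_lit 16)
theorem c112693 : QOK q112693 := cut [q79205, q79233, q79257, q79263, q80454, q79028, q79067, q79077, q79072, q6259, q79029, q79066, q79225, q79086, q111124, q111147, q112356] ⟨c79205, c79233, c79257, c79263, c80454, c79028, c79067, c79077, c79072, c6259, c79029, c79066, c79225, c79086, c111124, c111147, c112356, trivial⟩ (nd (nat_lit 252) (nat_lit 0) (cs (rf (nat_lit 0)) (cs (rf (nat_lit 1)) (cs (rf (nat_lit 2)) (cs (rf (nat_lit 3)) (cs (rf (nat_lit 4)) (cs (nd (nat_lit 230) (nat_lit 0) (cs (rf (nat_lit 5)) (cs (rf (nat_lit 6)) (cs (rf (nat_lit 7)) (nd (nat_lit 255) (nat_lit 0) (cs (rf (nat_lit 8)) (cs (nd (nat_lit 208) (nat_lit 0) (cs (rf (nat_lit 9)) (cs (rf (nat_lit 10)) (cs (rf (nat_lit 11)) (cs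 (nd (nat_lit 277) (nat_lit 0) (cs (lf (nat_lit 5) (nat_lit 252)) (nd (nat_lit 274) (nat_lit 0) (cs (lf (nat_lit 11) (nat_lit 251)) (nd (nat_lit 233) (nat_lit 0) (cs (lf (nat_lit 17) (nat_lit 230)) (nd (nat_lit 187) (nat_lit 0) (cs (lf (nat_lit 34) (nat_lit 186)) (nd (nat_lit 165) (nat_lit 0) (cs (lf (nat_lit 33) (nat_lit 164)) (nd (nat_lit 207) (nat_lit 0) (cs (lf (nat_lit 47) (nat_lit 185)) (nd (nat_lit 232) (nat_lit 0) (cs (rf (nat_lit 12)) (lf (nat_lit 20) (nat_lit 207)))))))))))))))) (nd (nat_lit 233) (nat_lit 0) (cs (lf (nat_lit 17) (nat_lit 230)) (nd (nat_lit 277) (nat_lit 0) (cs (lf (nat_lit 5) (nat_lit 252)) (nd (nat_lit 274) (nat_lit 0) (cs (lf (nat_lit 11) (nat_lit 251)) (nd (nat_lit 275) (nat_lit 0) (cs (lf (nat_lit 29) (nat_lit 208)) (rf (nat_lit 13))))))))))))))) (rf (nat_lit 14))))))))) (cs (rf (nat_lit 15)) (rf (nat_lit 16)))))))))) q112693 (by decide +kernel)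
def q112748 : Q := Q.p (nat_lit 0x6000000000000000000000000000000000000000000000000000000000000000) (nat_lit 0xa00003e0001fc0007f80039e000ff8001fe0007f0000f80002a00000000000000000000000000000000000) (nat_lit 16)
theorem c112748 : QOK q112748 := cut [q79205, q79233, q79257, q79263, q79118, q79161, q79165, q79009, q81084, q79123, q79128, q79160, q105757, q111136, q111147, q112356, q79028, q79067, q79077, q81334, q81657, q88241] ⟨c79205, c79233, c79257, c79263, c79118, c79161, c79165, c79009, c81084, c79123, c79128, c79160, c105757, c111136, c111147, c112356, c79028, c79067, c79077, c81334, c81657, c88241, trivial⟩ (nd (nat_lit 252) (nat_lit 0) (cs (rf (nat_lit 0)) (cs (rf (nat_lit 1)) (cs (rf (nat_lit 2)) (cs (rf (nat_lit 3)) (cs (nd (nat_lit 232) (nat_lit 0) (cs (rf (nat_lit 4)) (cs (rf (nat_lit 5)) (cs (rf (nat_lit 6)) (nd (nat_lit 251) (nat_lit 0) (cs (rf (nat_lit 7)) (cs (rf (nat_lit 8)) (nd (nat_lit 210) (nat_lit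 0) (cs (rf (nat_lit 9)) (cs (rf (nat_lit 10)) (cs (rf (nat_lit 11)) (cs (nd (nat_lit 228) (nat_lit 0) (cs (lf (nat_lit 22) (nat_lit 228)) (nd (nat_lit 272) (nat_lit 0) (cs (lf (nat_lit 10) (nat_lit 250)) (nd (nat_lit 276) (nat_lit 0) (cs (lf (nat_lit 5) (nat_lit 251)) (nd (nat_lit 189) (nat_lit 0) (cs (lf (nat_lit 34) (nat_lit 188)) (nd (nat_lit 167) (nat_lit 0) (cs (lf (nat_lit 33) (nat_lit 166)) (rf (nat_lit 12)))))))))))) (rf (nat_lit 13)))))))))))))) (cs (rf (nat_lit 14)) (cs (rf (nat_lit 15)) (nd (nat_lit 230) (nat_lit 0) (cs (rf (nat_lit 16)) (cs (rf (nat_lit 17)) (cs (rf (nat_lit 18)) (nd (nat_lit 274) (nat_lit 0) (cs (rf (nat_lit 19)) (cs (rf (nat_lit 20)) (nd (nat_lit 255) (nat_lit 0) (cs (lf (nat_lit 11) (nat_lit 251)) (rf (nat_lit 21))))))))))))))))))) q112748 (by decide +kernel)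
def q112832 : Q := Q.p (nat_lit 0xc00002000000000000000000000000000000000000000000000000000000000000000) (nat_lit 0x1f80007e0001fc000700001de000778000f80003e0000000000000000000000000000000000000000000000) (nat_lit 13)
theorem c112832 : QOK q112832 := cut [q108370, q108385, q112808, q99094, q107026, q112811, q108493, q86391, q109208, q112814, q108498, q99093, q105260, q108736] ⟨c108370, c108385, c112808, c99094, c107026, c112811, c108493, c86391, c109208, c112814, c108498, c99093, c105260, c108736, trivial⟩ (nd (nat_lit 252) (nat_lit 0) (cs (rf (nat_lit 0)) (cs (rf (nat_lit 1)) (cs (rf (nat_lit 2)) (cs (nd (nat_lit 254) (nat_lit 0) (cs (rf (nat_lit 3)) (cs (rf (nat_lit 4)) (cs (rf (nat_lit 5)) (nd (nat_lit 255) (nat_lit 0) (cs (lf (nat_lit 6) (nat_lit 252)) (rf (nat_lit 6)))))))) (nd (nat_lit 254) (nat_lit 0) (cs (rf (nat_lit 7)) (cs (rf (nat_lit 3)) (cs (rf (nat_lit 8)) (cs (nd (nat_lit 255) (nat_lit 0) (cs (lf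 (nat_lit 6) (nat_lit 252)) (nd (nat_lit 233) (nat_lit 0) (cs (lf (nat_lit 17) (nat_lit 230)) (nd (nat_lit 232) (nat_lit 0) (cs (lf (nat_lit 12) (nat_lit 229)) (rf (nat_lit 9)))))))) (cs (nd (nat_lit 255) (nat_lit 0) (cs (lf (nat_lit 6) (nat_lit 252)) (nd (nat_lit 277) (nat_lit 0) (cs (lf (nat_lit 5) (nat_lit 252)) (nd (nat_lit 276) (nat_lit 0) (cs (lf (nat_lit 0) (nat_lit 251)) (rf (nat_lit 10)))))))) (nd (nat_lit 276) (nat_lit 0) (cs (rf (nat_lit 11)) (cs (rf (nat_lit 12)) (cs (rf (nat_lit 13)) (nd (nat_lit 255) (nat_lit 0) (cs (lf (nat_lit 6) (nat_lit 252)) (nd (nat_lit 233) (nat_lit 0) (cs (lf (nat_lit 17) (nat_lit 230)) (nd (nat_lit 189) (nat_lit 0) (cs (lf (nat_lit 37) (nat_lit 188)) (nd (nat_lit 298) (nat_lit 0) (cs (lf (nat_lit 30) (nat_lit 232)) (nd (nat_lit 277) (nat_lit 0) (cs (lf (nat_lit 18) (nat_lit 252)) (nd (nat_lit 299) (nat_lit 0) (cs (lf (nat_lit 5) (nat_lit 274)) (nd (nat_lit 321) (nat_lit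 0) (cs (lf (nat_lit 42) (nat_lit 254)) (nd (nat_lit 296) (nat_lit 0) (cs (lf (nat_lit 11) (nat_lit 273)) (nd (nat_lit 322) (nat_lit 0) (cs (lf (nat_lit 29) (nat_lit 255)) (lf (nat_lit 1) (nat_lit 296))))))))))))))))))))))))))))))))))) q112832 (by decide +kernel)
def q112860 : Q := Q.p (nat_lit 0xc00002000000000000000000000000000000000000000000000000000000000000000) (nat_lit 0x780007f8000fe000638001de0007780007e0001e0000000000000000000000000000000000000000000000) (nat_lit 14)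
theorem c112860 : QOK q112860 := cut [q108370, q112839, q80720, q86391, q108404, q79068, q108382, q83734, q108383, q105302, q108412, q112811, q112847, q94337, q25707, q14914, q88425, q112561, q86318, q112857] ⟨c108370, c112839, c80720, c86391, c108404, c79068, c108382, c83734, c108383, c105302, c108412, c112811, c112847, c94337, c25707, c14914, c88425, c112561, c86318, c112857, trivial⟩ (nd (nat_lit 252) (nat_lit 0) (cs (rf (nat_lit 0)) (cs (rf (nat_lit 1)) (cs (nd (nat_lit 254) (nat_lit 0) (cs (rf (nat_lit 2)) (cs (rf (nat_lit 3)) (rf (nat_lit 4))))) (cs (nd (nat_lit 230) (nat_lit 0) (cs (rf (nat_lit 5)) (cs (rf (nat_lit 6)) (nd (nat_lit 296) (nat_lit 0) (cs (rf (nat_lit 7)) (cs (rf (nat_lit 8)) (nd (nat_lit 297) (nat_lit 0) (cs (lf (nat_lit 29) (nat_lit 230)) (rf (nat_lit 9)))))))))) (cs (nd (nat_lit 254) (nat_lit 0) (cs (rf (nat_lit 2)) (cs (rf (nat_lit 10)) (rf (nat_lit 11))))) (cs (rf (nat_lit 12)) (nd (nat_lit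 254) (nat_lit 0) (cs (rf (nat_lit 2)) (cs (rf (nat_lit 3)) (nd (nat_lit 296) (nat_lit 0) (cs (rf (nat_lit 13)) (cs (nd (nat_lit 272) (nat_lit 0) (cs (rf (nat_lit 14)) (lf (nat_lit 13) (nat_lit 250)))) (cs (nd (nat_lit 297) (nat_lit 0) (cs (rf (nat_lit 15)) (cs (rf (nat_lit 16)) (rf (nat_lit 17))))) (cs (nd (nat_lit 272) (nat_lit 0) (cs (lf (nat_lit 13) (nat_lit 250)) (nd (nat_lit 318) (nat_lit 0) (cs (lf (nat_lit 30) (nat_lit 252)) (nd (nat_lit 319) (nat_lit 0) (cs (lf (nat_lit 29) (nat_lit 252)) (nd (nat_lit 232) (nat_lit 0) (cs (lf (nat_lit 31) (nat_lit 231)) (nd (nat_lit 188) (nat_lit 0) (cs (lf (nat_lit 37) (nat_lit 187)) (nd (nat_lit 317) (nat_lit 0) (cs (lf (nat_lit 41) (nat_lit 251)) (rf (nat_lit 18)))))))))))))) (rf (nat_lit 19))))))))))))))))) q112860 (by decide +kernel)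
def q112866 : Q := Q.p (nat_lit 0xc00002000000000000000000000000000000000000000000000000000000000000000) (nat_lit 0x780007f8001fe0007380019e0000780007e0001f80000a0000000000000000000000000000000000000000) (nat_lit 15)
theorem c112866 : QOK q112866 := cut [q108385, q110349, q112847, q1257, q2190, q108441, q112862, q99110, q99124, q99144, q99145, q99154, q110365, q79068, q108382, q83734, q108383, q110371] ⟨c108385, c110349, c112847, c1257, c2190, c108441, c112862, c99110, c99124, c99144, c99145, c99154, c110365, c79068, c108382, c83734, c108383, c110371, trivial⟩ (nd (nat_lit 252) (nat_lit 0) (cs (rf (nat_lit 0)) (cs (rf (nat_lit 1)) (cs (rf (nat_lit 2)) (cs (nd (nat_lit 276) (nat_lit 0) (cs (rf (nat_lit 3)) (cs (rf (nat_lit 4)) (rf (nat_lit 5))))) (cs (rf (nat_lit 6)) (cs (nd (nat_lit 272) (nat_lit 0) (cs (rf (nat_lit 7)) (cs (rf (nat_lit 8)) (cs (rf (nat_lit 9)) (cs (rf (nat_lit 10)) (cs (rf (nat_lit 11)) (rf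 (nat_lit 12)))))))) (nd (nat_lit 230) (nat_lit 0) (cs (rf (nat_lit 13)) (cs (rf (nat_lit 14)) (nd (nat_lit 296) (nat_lit 0) (cs (rf (nat_lit 15)) (cs (rf (nat_lit 16)) (rf (nat_lit 17))))))))))))))) q112866 (by decide +kernel)
def q113046 : Q := Q.p (nat_lit 0x800003000000000000000000000000000000000000000000000000000000000000000) (nat_lit 0x3c0000f00009e000678001ce000ff8007fe000ff0000c00002000000000000000000000000000000000000) (nat_lit 14)
theorem c113046 : QOK q113046 := cut [q108777, q112839, q112959, q112978, q112997, q113000, q84408, q4037, q80720, q86391, q15503, q15653, q113030, q92183, q84410, q113038, q94049, q108395, q108403, q24703, q108809, q108815] ⟨c108777, c112839, c112959, c112978, c112997, c113000, c84408, c4037, c80720, c86391, c15503, c15653, c113030, c92183, c84410, c113038, c94049, c108395, c108403, c24703, c108809, c108815, trivial⟩ (nd (nat_lit 274) (nat_lit 0) (cs (rf (nat_lit 0)) (cs (rf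 (nat_lit 1)) (cs (rf (nat_lit 2)) (cs (rf (nat_lit 3)) (cs (rf (nat_lit 4)) (cs (rf (nat_lit 5)) (cs (nd (nat_lit 208) (nat_lit 0) (cs (nd (nat_lit 273) (nat_lit 0) (cs (rf (nat_lit 6)) (cs (nd (nat_lit 230) (nat_lit 0) (cs (lf (nat_lit 41) (nat_lit 207)) (nd (nat_lit 185) (nat_lit 0) (cs (lf (nat_lit 46) (nat_lit 185)) (nd (nat_lit 254) (nat_lit 0) (cs (lf (nat_lit 6) (nat_lit 251)) (nd (nat_lit 209) (nat_lit 0) (cs (lf (nat_lit 35) (nat_lit 186)) (nd (nat_lit 231) (nat_lit 0) (cs (lf (nat_lit 30) (nat_lit 208)) (nd (nat_lit 210) (nat_lit 0) (cs (lf (nat_lit 35) (nat_lit 187)) (nd (nat_lit 211) (nat_lit 0) (cs (lf (nat_lit 6) (nat_lit 208)) (nd (nat_lit 189) (nat_lit 0) (cs (lf (nat_lit 17) (nat_lit 186)) (nd (nat_lit 233) (nat_lit 0) (cs (lf (nat_lit 5) (nat_lit 208)) (nd (nat_lit 232) (nat_lit 0) (cs (lf (nat_lit 12) (nat_lit 229)) (lf (nat_lit 36) (nat_lit 166)))))))))))))))))))))) (nd (nat_lit 230) (nat_lit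 0) (cs (lf (nat_lit 41) (nat_lit 207)) (nd (nat_lit 207) (nat_lit 0) (cs (lf (nat_lit 47) (nat_lit 185)) (rf (nat_lit 7))))))))) (cs (nd (nat_lit 254) (nat_lit 0) (cs (rf (nat_lit 8)) (cs (rf (nat_lit 9)) (nd (nat_lit 209) (nat_lit 0) (cs (rf (nat_lit 10)) (cs (rf (nat_lit 11)) (rf (nat_lit 12)))))))) (cs (nd (nat_lit 230) (nat_lit 0) (cs (lf (nat_lit 24) (nat_lit 186)) (nd (nat_lit 185) (nat_lit 0) (cs (lf (nat_lit 46) (nat_lit 185)) (rf (nat_lit 13)))))) (cs (nd (nat_lit 230) (nat_lit 0) (cs (lf (nat_lit 24) (nat_lit 186)) (rf (nat_lit 14)))) (cs (nd (nat_lit 230) (nat_lit 0) (cs (lf (nat_lit 24) (nat_lit 186)) (rf (nat_lit 15)))) (nd (nat_lit 230) (nat_lit 0) (cs (lf (nat_lit 24) (nat_lit 186)) (rf (nat_lit 16)))))))))) (nd (nat_lit 254) (nat_lit 0) (cs (rf (nat_lit 8)) (cs (rf (nat_lit 9)) (nd (nat_lit 251) (nat_lit 0) (cs (rf (nat_lit 17)) (cs (rf (nat_lit 18)) (nd (nat_lit 231) (nat_lit 0) (cs (rf (nat_lit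 19)) (cs (rf (nat_lit 20)) (nd (nat_lit 273) (nat_lit 0) (cs (lf (nat_lit 11) (nat_lit 250)) (rf (nat_lit 21))))))))))))))))))))) q113046 (by decide +kernel)
def q113071 : Q := Q.p (nat_lit 0x800003000000000000000000000000000000000000000000000000000000000000000) (nat_lit 0xc0000300000c0001f7c003ce001fdc000e0000380000000000000000000000000000000000000000000000) (nat_lit 12)
theorem c113071 : QOK q113071 := cut [q2091, q24207, q108913, q113070] ⟨c2091, c24207, c108913, c113070, trivial⟩ (nd (nat_lit 251) (nat_lit 0) (cs (rf (nat_lit 0)) (cs (rf (nat_lit 1)) (cs (rf (nat_lit 2)) (rf (nat_lit 3)))))) q113071 (by decide +kernel)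
def q113085 : Q := Q.p (nat_lit 0x800003000000000000000000000000000000000000000000000000000000000000000) (nat_lit 0xc0000300000c0001f7c003cf001fe0000e0000380000000000000000000000000000000000000000000000) (nat_lit 12)
theorem c113085 : QOK q113085 := cut [q1999, q24207, q98758, q113070, q108970, q112950, q80330, q113079] ⟨c1999, c24207, c98758, c113070, c108970, c112950, c80330, c113079, trivial⟩ (nd (nat_lit 251) (nat_lit 0) (cs (rf (nat_lit 0)) (cs (rf (nat_lit 1)) (cs (rf (nat_lit 2)) (cs (rf (nat_lit 3)) (nd (nat_lit 272) (nat_lit 0) (cs (rf (nat_lit 4)) (cs (nd (nat_lit 254) (nat_lit 0) (cs (lf (nat_lit 10) (nat_lit 250)) (nd (nat_lit 233) (nat_lit 0) (cs (lf (nat_lit 16) (nat_lit 229)) (nd (nat_lit 255) (nat_lit 0) (cs (lf (nat_lit 17) (nat_lit 230)) (nd (nat_lit 229) (nat_lit 0) (cs (lf (nat_lit 22) (nat_lit 229)) (rf (nat_lit 5)))))))))) (cs (nd (nat_lit 254) (nat_lit 0) (cs (lf (nat_lit 10) (nat_lit 250))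 (nd (nat_lit 232) (nat_lit 0) (cs (lf (nat_lit 17) (nat_lit 229)) (rf (nat_lit 6)))))) (nd (nat_lit 250) (nat_lit 0) (cs (lf (nat_lit 11) (nat_lit 249)) (nd (nat_lit 249) (nat_lit 0) (cs (lf (nat_lit 4) (nat_lit 249)) (nd (nat_lit 230) (nat_lit 0) (cs (lf (nat_lit 17) (nat_lit 227)) (nd (nat_lit 229) (nat_lit 0) (cs (lf (nat_lit 12) (nat_lit 226)) (rf (nat_lit 7))))))))))))))))))) q113085 (by decide +kernel)
def q113273 : Q := Q.p (nat_lit 0x800002000000000000000000000000000000000000000000000000000000000000000) (nat_lit 0x140003fe000ff8001fe001f7c003de001ffc001de0001700001c0000500000000000000000000000000000000000) (nat_lit 17)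
theorem c113273 : QOK q113273 := cut [q99375, q112995, q88933, q113161, q113182, q113159, q90750, q113185, q112862, q113186, q89455, q90842, q113188, q113190, q79111, q88337, q109526, q87998, q113199, q90752, q90849, q96035, q96039, q96042, q113207, q14320, q90845, q112839, q113000, q1999, q2066, q2091, q98378, q98881, q113048, q113051, q80250, q24207, q113218, q99374, q113090, q108923, q88741, q108827, q90858, q113105, q113222, q113256, q113150, q94688, q98377, q79198, q113272] ⟨c99375, c112995, c88933, c113161, c113182, c113159, c90750, c113185, c112862, c113186, c89455, c90842, c113188, c113190, c79111, c88337, c109526, c87998, c113199, c90752, c90849, c96035, c96039, c96042, c113207, c14320, c90845, c112839, c113000, c1999, c2066, c2091, c98378, c98881, c113048, c113051, c80250, c24207, c113218, c99374, c113090, c108923, c88741, c108827, c90858, c113105, c113222, c113256, c113150, c94688, c98377, c79198,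 c113272, trivial⟩ (nd (nat_lit 252) (nat_lit 0) (cs (rf (nat_lit 0)) (cs (rf (nat_lit 1)) (cs (nd (nat_lit 297) (nat_lit 0) (cs (rf (nat_lit 2)) (cs (rf (nat_lit 3)) (rf (nat_lit 4))))) (cs (nd (nat_lit 297) (nat_lit 0) (cs (rf (nat_lit 2)) (cs (rf (nat_lit 5)) (cs (nd (nat_lit 298) (nat_lit 0) (cs (rf (nat_lit 6)) (cs (rf (nat_lit 7)) (cs (nd (nat_lit 274) (nat_lit 0) (cs (rf (nat_lit 8)) (cs (rf (nat_lit 9)) (cs (nd (nat_lit 296) (nat_lit 0) (cs (rf (nat_lit 10)) (cs (rf (nat_lit 11)) (rf (nat_lit 12))))) (rf (nat_lit 13)))))) (nd (nat_lit 230) (nat_lit 0) (cs (rf (nat_lit 14)) (cs (rf (nat_lit 15)) (nd (nat_lit 296) (nat_lit 0) (cs (rf (nat_lit 16)) (nd (nat_lit 231) (nat_lit 0) (cs (lf (nat_lit 41) (nat_lit 230)) (rf (nat_lit 17))))))))))))) (rf (nat_lit 18)))))) (cs (nd (nat_lit 297) (nat_lit 0) (cs (rf (nat_lit 2)) (cs (rf (nat_lit 5)) (cs (rf (nat_lit 18)) (nd (nat_lit 296) (nat_lit 0) (cs (rf (nat_lit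 19)) (cs (rf (nat_lit 20)) (cs (nd (nat_lit 274) (nat_lit 0) (cs (rf (nat_lit 21)) (cs (rf (nat_lit 22)) (cs (rf (nat_lit 23)) (rf (nat_lit 24)))))) (nd (nat_lit 274) (nat_lit 0) (cs (rf (nat_lit 25)) (cs (rf (nat_lit 26)) (cs (rf (nat_lit 27)) (rf (nat_lit 28)))))))))))))) (cs (nd (nat_lit 251) (nat_lit 0) (cs (rf (nat_lit 29)) (cs (rf (nat_lit 30)) (cs (rf (nat_lit 31)) (cs (rf (nat_lit 32)) (nd (nat_lit 254) (nat_lit 0) (cs (rf (nat_lit 33)) (cs (rf (nat_lit 34)) (cs (rf (nat_lit 35)) (nd (nat_lit 228) (nat_lit 0) (cs (lf (nat_lit 22) (nat_lit 228)) (nd (nat_lit 276) (nat_lit 0) (cs (lf (nat_lit 5) (nat_lit 251)) (nd (nat_lit 273) (nat_lit 0) (cs (lf (nat_lit 11) (nat_lit 250)) (nd (nat_lit 274) (nat_lit 0) (cs (lf (nat_lit 17) (nat_lit 251)) (rf (nat_lit 36))))))))))))))))))) (cs (nd (nat_lit 251) (nat_lit 0) (cs (rf (nat_lit 29)) (cs (rf (nat_lit 37)) (cs (rf (nat_lit 32)) (rf (nat_lit 38)))))) (cs (nd (nat_lit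 251) (nat_lit 0) (cs (rf (nat_lit 31)) (cs (rf (nat_lit 39)) (cs (rf (nat_lit 40)) (rf (nat_lit 38)))))) (cs (nd (nat_lit 297) (nat_lit 0) (cs (rf (nat_lit 2)) (cs (rf (nat_lit 5)) (cs (rf (nat_lit 18)) (nd (nat_lit 251) (nat_lit 0) (cs (rf (nat_lit 29)) (cs (rf (nat_lit 30)) (cs (rf (nat_lit 31)) (cs (rf (nat_lit 41)) (nd (nat_lit 276) (nat_lit 0) (cs (rf (nat_lit 42)) (cs (rf (nat_lit 43)) (nd (nat_lit 230) (nat_lit 0) (cs (rf (nat_lit 15)) (nd (nat_lit 273) (nat_lit 0) (cs (rf (nat_lit 44)) (cs (rf (nat_lit 45)) (rf (nat_lit 46))))))))))))))))))) (cs (rf (nat_lit 47)) (cs (nd (nat_lit 297) (nat_lit 0) (cs (rf (nat_lit 48)) (cs (rf (nat_lit 18)) (nd (nat_lit 251) (nat_lit 0) (cs (rf (nat_lit 31)) (cs (rf (nat_lit 37)) (cs (rf (nat_lit 32)) (nd (nat_lit 254) (nat_lit 0) (cs (rf (nat_lit 49)) (cs (rf (nat_lit 50)) (cs (rf (nat_lit 35)) (nd (nat_lit 228) (nat_lit 0) (cs (lf (nat_lit 22) (nat_lit 228)) (nd (nat_lit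 272) (nat_lit 0) (cs (lf (nat_lit 10) (nat_lit 250)) (nd (nat_lit 232) (nat_lit 0) (cs (lf (nat_lit 17) (nat_lit 229)) (rf (nat_lit 51))))))))))))))))))) (rf (nat_lit 52)))))))))))))) q113273 (by decide +kernel)
def q113627 : Q := Q.p (nat_lit 0x800002000000000000000000000000000000000000000000000000000000000000000) (nat_lit 0x140000700007c0007e8000f7c003df800ffc007ff0007e0001f80001c00005000000000000000000000000000000) (nat_lit 16)
theorem c113627 : QOK q113627 := cut [q97683, q98372, q112791, q113141, q87016, q102397, q97307, q102748, q113167, q113540, q113544, q113545, q102746, q97489, q102398, q97957, q102401, q113550, q113591, q100321, q100469, q113600, q104510, q81901, q94774, q98316, q106366, q113603, q113604, q2091, q24207, q98377, q112947, q108261, q97556, q113614, q113623, q113624, q113625, q113626] ⟨c97683, c98372, c112791, c113141, c87016, c102397, c97307, c102748, c113167, c113540, c113544, c113545,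 c102746, c97489, c102398, c97957, c102401, c113550, c113591, c100321, c100469, c113600, c104510, c81901, c94774, c98316, c106366, c113603, c113604, c2091, c24207, c98377, c112947, c108261, c97556, c113614, c113623, c113624, c113625, c113626, trivial⟩ (nd (nat_lit 231) (nat_lit 0) (cs (rf (nat_lit 0)) (cs (rf (nat_lit 1)) (cs (rf (nat_lit 2)) (cs (rf (nat_lit 3)) (cs (nd (nat_lit 232) (nat_lit 0) (cs (rf (nat_lit 4)) (cs (rf (nat_lit 5)) (cs (nd (nat_lit 233) (nat_lit 0) (cs (rf (nat_lit 6)) (cs (rf (nat_lit 7)) (cs (rf (nat_lit 8)) (cs (nd (nat_lit 256) (nat_lit 0) (cs (rf (nat_lit 9)) (cs (rf (nat_lit 10)) (cs (rf (nat_lit 11)) (nd (nat_lit 234) (nat_lit 0) (cs (lf (nat_lit 5) (nat_lit 231)) (rf (nat_lit 12)))))))) (nd (nat_lit 230) (nat_lit 0) (cs (rf (nat_lit 13)) (rf (nat_lit 14))))))))) (nd (nat_lit 230) (nat_lit 0) (cs (rf (nat_lit 15)) (cs (rf (nat_lit 16)) (rf (nat_lit 17))))))))) (cs (rf (nat_lit 18))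 (cs (nd (nat_lit 276) (nat_lit 0) (cs (rf (nat_lit 19)) (cs (rf (nat_lit 20)) (cs (rf (nat_lit 21)) (nd (nat_lit 252) (nat_lit 0) (cs (rf (nat_lit 22)) (cs (nd (nat_lit 277) (nat_lit 0) (cs (lf (nat_lit 18) (nat_lit 252)) (nd (nat_lit 209) (nat_lit 0) (cs (rf (nat_lit 23)) (cs (rf (nat_lit 24)) (cs (rf (nat_lit 25)) (nd (nat_lit 232) (nat_lit 0) (cs (rf (nat_lit 26)) (cs (rf (nat_lit 27)) (nd (nat_lit 186) (nat_lit 0) (cs (lf (nat_lit 46) (nat_lit 186)) (rf (nat_lit 28))))))))))))) (nd (nat_lit 251) (nat_lit 0) (cs (rf (nat_lit 29)) (cs (rf (nat_lit 30)) (nd (nat_lit 254) (nat_lit 0) (cs (rf (nat_lit 31)) (cs (rf (nat_lit 32)) (cs (nd (nat_lit 229) (nat_lit 0) (cs (lf (nat_lit 23) (nat_lit 228)) (nd (nat_lit 255) (nat_lit 0) (cs (lf (nat_lit 22) (nat_lit 229)) (rf (nat_lit 33)))))) (nd (nat_lit 187) (nat_lit 0) (cs (lf (nat_lit 25) (nat_lit 187)) (rf (nat_lit 34)))))))))))))))))) (cs (rf (nat_lit 35)) (cs (rf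 (nat_lit 36)) (cs (rf (nat_lit 37)) (cs (rf (nat_lit 38)) (rf (nat_lit 39)))))))))))))) q113627 (by decide +kernel)
def q113679 : Q := Q.p (nat_lit 0x800002000000000000000000000000000000000000000000000000000000000000000) (nat_lit 0x140000700003e0003be000f78003df000ffe003ff8007f0001f00001c00005000000000000000000000000000000) (nat_lit 18)
theorem c113679 : QOK q113679 := cut [q98133, q98178, q113115, q113624, q97957, q98121, q99594, q113628, q113630, q113669, q98134, q113668, q97408, q97409, q99215, q11768, q99630, q108190, q109829, q97337, q98162, q113672, q113676, q97804, q99649, q113621, q113678] ⟨c98133, c98178, c113115, c113624, c97957, c98121, c99594, c113628, c113630, c113669, c98134, c113668, c97408, c97409, c99215, c11768, c99630, c108190, c109829, c97337, c98162, c113672, c113676, c97804, c99649, c113621, c113678, trivial⟩ (nd (nat_lit 231) (nat_lit 0) (cs (rf (nat_lit 0)) (cs (rf (nat_lit 1)) (cs (rf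 (nat_lit 2)) (cs (rf (nat_lit 3)) (cs (nd (nat_lit 230) (nat_lit 0) (cs (rf (nat_lit 4)) (cs (rf (nat_lit 5)) (cs (rf (nat_lit 6)) (rf (nat_lit 7)))))) (cs (rf (nat_lit 8)) (cs (rf (nat_lit 9)) (cs (nd (nat_lit 274) (nat_lit 0) (cs (rf (nat_lit 10)) (cs (rf (nat_lit 11)) (cs (nd (nat_lit 273) (nat_lit 0) (cs (rf (nat_lit 12)) (cs (rf (nat_lit 13)) (cs (rf (nat_lit 14)) (nd (nat_lit 251) (nat_lit 0) (cs (rf (nat_lit 15)) (cs (rf (nat_lit 16)) (cs (rf (nat_lit 17)) (rf (nat_lit 18)))))))))) (nd (nat_lit 254) (nat_lit 0) (cs (rf (nat_lit 19)) (cs (rf (nat_lit 20)) (nd (nat_lit 273) (nat_lit 0) (cs (lf (nat_lit 12) (nat_lit 250)) (rf (nat_lit 21))))))))))) (cs (rf (nat_lit 22)) (cs (nd (nat_lit 209) (nat_lit 0) (cs (rf (nat_lit 23)) (cs (rf (nat_lit 24)) (rf (nat_lit 25))))) (rf (nat_lit 26))))))))))))) q113679 (by decide +kernel)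
def q113810 : Q := Q.p (nat_lit 0x800002000000000000000000000000000000000000000000000000000000000000000) (nat_lit 0x500003c0001fc000ff8003fe001f7c003de000efc001f80007e0000500000000000000000000000000000000000000000) (nat_lit 16)
theorem c113810 : QOK q113810 := cut [q109529, q109583, q109622, q113159, q113690, q113700, q113701, q113793, q88933, q109591, q1999, q2066, q2091, q108923, q98766, q108918, q109592, q113105, q89807, q108370, q83685, q97550, q108827, q109609, q13449, q99772, q109612, q113288, q113809] ⟨c109529, c109583, c109622, c113159, c113690, c113700, c113701, c113793, c88933, c109591, c1999, c2066, c2091, c108923, c98766, c108918, c109592, c113105, c89807, c108370, c83685, c97550, c108827, c109609, c13449, c99772, c109612, c113288, c113809, trivial⟩ (nd (nat_lit 297) (nat_lit 0) (cs (rf (nat_lit 0)) (cs (rf (nat_lit 1)) (cs (rf (nat_lit 2)) (cs (rf (nat_lit 3)) (cs (rf (nat_lit 4)) (cs (rf (nat_lit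 5)) (cs (rf (nat_lit 6)) (cs (rf (nat_lit 7)) (cs (nd (nat_lit 252) (nat_lit 0) (cs (rf (nat_lit 8)) (cs (rf (nat_lit 9)) (cs (nd (nat_lit 251) (nat_lit 0) (cs (rf (nat_lit 10)) (cs (rf (nat_lit 11)) (cs (rf (nat_lit 12)) (cs (rf (nat_lit 13)) (nd (nat_lit 273) (nat_lit 0) (cs (rf (nat_lit 14)) (cs (rf (nat_lit 15)) (cs (rf (nat_lit 16)) (cs (rf (nat_lit 17)) (nd (nat_lit 274) (nat_lit 0) (cs (rf (nat_lit 18)) (cs (rf (nat_lit 19)) (nd (nat_lit 254) (nat_lit 0) (cs (lf (nat_lit 6) (nat_lit 251)) (nd (nat_lit 276) (nat_lit 0) (cs (lf (nat_lit 5) (nat_lit 251)) (rf (nat_lit 20))))))))))))))))))) (nd (nat_lit 276) (nat_lit 0) (cs (rf (nat_lit 21)) (cs (rf (nat_lit 22)) (cs (rf (nat_lit 23)) (nd (nat_lit 277) (nat_lit 0) (cs (lf (nat_lit 18) (nat_lit 252)) (nd (nat_lit 274) (nat_lit 0) (cs (rf (nat_lit 24)) (cs (rf (nat_lit 25)) (cs (rf (nat_lit 26)) (rf (nat_lit 27)))))))))))))))) (rf (nat_lit 28)))))))))))) q113810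 (by decide +kernel)
def q113874 : Q := Q.p (nat_lit 0x800002000000000000000000000000000000000000000000000000000000000000000) (nat_lit 0x140000700007f0007fe000f7c003df001ffc007ec0007f0001f00001400000000000000000000000000000000000) (nat_lit 18)
theorem c113874 : QOK q113874 := cut [q97683, q107383, q113669, q113812, q113813, q32034, q84365, q98131, q99269, q113817, q87016, q101761, q97307, q113167, q113540, q113544, q113545, q113819, q97607, q97608, q97624, q94684, q97478, q113828, q97775, q113831, q113833, q113840, q113844, q86313, q86623, q94424, q90932, q113847, q113849, q113850, q2091, q24207, q108923, q82204, q94685, q85422, q80265, q113867, q98797, q101906, q113871, q82063, q100756] ⟨c97683, c107383, c113669, c113812, c113813, c32034, c84365, c98131, c99269, c113817, c87016, c101761, c97307, c113167, c113540, c113544, c113545, c113819, c97607, c97608, c97624, c94684, c97478, c113828, c97775, c113831, c113833,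 c113840, c113844, c86313, c86623, c94424, c90932, c113847, c113849, c113850, c2091, c24207, c108923, c82204, c94685, c85422, c80265, c113867, c98797, c101906, c113871, c82063, c100756, trivial⟩ (nd (nat_lit 231) (nat_lit 0) (cs (rf (nat_lit 0)) (cs (rf (nat_lit 1)) (cs (rf (nat_lit 2)) (cs (rf (nat_lit 3)) (cs (rf (nat_lit 4)) (cs (nd (nat_lit 297) (nat_lit 0) (cs (rf (nat_lit 5)) (cs (rf (nat_lit 6)) (cs (rf (nat_lit 7)) (rf (nat_lit 8)))))) (cs (rf (nat_lit 9)) (cs (nd (nat_lit 232) (nat_lit 0) (cs (rf (nat_lit 10)) (cs (rf (nat_lit 11)) (cs (nd (nat_lit 233) (nat_lit 0) (cs (rf (nat_lit 12)) (cs (rf (nat_lit 13)) (cs (nd (nat_lit 256) (nat_lit 0) (cs (rf (nat_lit 14)) (cs (rf (nat_lit 15)) (cs (rf (nat_lit 16)) (nd (nat_lit 234) (nat_lit 0) (cs (lf (nat_lit 5) (nat_lit 231)) (rf (nat_lit 17)))))))) (cs (nd (nat_lit 255) (nat_lit 0) (cs (rf (nat_lit 18)) (cs (rf (nat_lit 19)) (cs (rf (nat_lit 20)) (cs (nd (nat_lit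 254) (nat_lit 0) (cs (rf (nat_lit 21)) (cs (rf (nat_lit 22)) (rf (nat_lit 23))))) (nd (nat_lit 254) (nat_lit 0) (cs (rf (nat_lit 23)) (cs (nd (nat_lit 188) (nat_lit 0) (cs (lf (nat_lit 37) (nat_lit 187)) (rf (nat_lit 24)))) (cs (nd (nat_lit 229) (nat_lit 0) (cs (lf (nat_lit 1) (nat_lit 229)) (rf (nat_lit 25)))) (cs (rf (nat_lit 26)) (rf (nat_lit 27)))))))))))) (rf (nat_lit 28))))))) (nd (nat_lit 252) (nat_lit 0) (cs (rf (nat_lit 29)) (cs (rf (nat_lit 30)) (cs (rf (nat_lit 31)) (cs (nd (nat_lit 233) (nat_lit 0) (cs (rf (nat_lit 12)) (cs (rf (nat_lit 13)) (nd (nat_lit 297) (nat_lit 0) (cs (rf (nat_lit 6)) (cs (rf (nat_lit 32)) (nd (nat_lit 276) (nat_lit 0) (cs (rf (nat_lit 33)) (cs (rf (nat_lit 34)) (nd (nat_lit 296) (nat_lit 0) (cs (lf (nat_lit 41) (nat_lit 230)) (nd (nat_lit 294) (nat_lit 0) (cs (lf (nat_lit 13) (nat_lit 272)) (rf (nat_lit 35))))))))))))))) (nd (nat_lit 251) (nat_lit 0) (cs (rf (nat_lit 36))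 (cs (rf (nat_lit 37)) (cs (rf (nat_lit 38)) (nd (nat_lit 254) (nat_lit 0) (cs (rf (nat_lit 39)) (cs (nd (nat_lit 229) (nat_lit 0) (cs (lf (nat_lit 23) (nat_lit 228)) (nd (nat_lit 272) (nat_lit 0) (cs (lf (nat_lit 10) (nat_lit 250)) (rf (nat_lit 40)))))) (cs (nd (nat_lit 229) (nat_lit 0) (cs (lf (nat_lit 23) (nat_lit 228)) (rf (nat_lit 41)))) (nd (nat_lit 276) (nat_lit 0) (cs (lf (nat_lit 5) (nat_lit 251)) (nd (nat_lit 298) (nat_lit 0) (cs (lf (nat_lit 42) (nat_lit 231)) (nd (nat_lit 297) (nat_lit 0) (cs (lf (nat_lit 30) (nat_lit 231)) (nd (nat_lit 296) (nat_lit 0) (cs (lf (nat_lit 41) (nat_lit 230)) (nd (nat_lit 294) (nat_lit 0) (cs (lf (nat_lit 13) (nat_lit 272)) (nd (nat_lit 272) (nat_lit 0) (cs (lf (nat_lit 10) (nat_lit 250)) (nd (nat_lit 228) (nat_lit 0) (cs (lf (nat_lit 22) (nat_lit 228)) (rf (nat_lit 42))))))))))))))))))))))))))))))))) (cs (rf (nat_lit 43)) (cs (nd (nat_lit 297) (nat_lit 0) (cs (rf (nat_lit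 44)) (cs (rf (nat_lit 45)) (rf (nat_lit 46))))) (nd (nat_lit 297) (nat_lit 0) (cs (rf (nat_lit 47)) (cs (rf (nat_lit 7)) (cs (rf (nat_lit 44)) (rf (nat_lit 48))))))))))))))))) q113874 (by decide +kernel)
def q113877 : Q := Q.p (nat_lit 0x800002000008000000000000000000000000000000000000000000000000000000000) (nat_lit 0x40000140003de000778003df000160000380001e0000700001400000000000000000000000000000000000) (nat_lit 11)
theorem c113877 : QOK q113877 := cut [q101919, q108184, q97408, q97409, q107024, q22710, q112779, q97949, q100321, q99215, q112882] ⟨c101919, c108184, c97408, c97409, c107024, c22710, c112779, c97949, c100321, c99215, c112882, trivial⟩ (nd (nat_lit 274) (nat_lit 0) (cs (rf (nat_lit 0)) (cs (rf (nat_lit 1)) (cs (nd (nat_lit 273) (nat_lit 0) (cs (rf (nat_lit 2)) (cs (rf (nat_lit 3)) (cs (rf (nat_lit 4)) (nd (nat_lit 276) (nat_lit 0) (cs (rf (nat_lit 5)) (rf (nat_lit 6)))))))) (nd (nat_lit 276) (nat_lit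 0) (cs (rf (nat_lit 7)) (cs (rf (nat_lit 8)) (nd (nat_lit 273) (nat_lit 0) (cs (rf (nat_lit 3)) (cs (rf (nat_lit 9)) (rf (nat_lit 10)))))))))))) q113877 (by decide +kernel)
def q114068 : Q := Q.p (nat_lit 0x3000004000000000000000000000000000000000000000000000000000000000) (nat_lit 0x280000e000038000ef0001c00006b8000180000e0000380000a00000000000000000000000000000000000) (nat_lit 11)
theorem c114068 : QOK q114068 := cut [q79028, q79077, q110192, q83707, q114061, q114066] ⟨c79028, c79077, c110192, c83707, c114061, c114066, trivial⟩ (nd (nat_lit 254) (nat_lit 0) (cs (rf (nat_lit 0)) (cs (rf (nat_lit 1)) (cs (rf (nat_lit 2)) (nd (nat_lit 274) (nat_lit 0) (cs (rf (nat_lit 3)) (cs (rf (nat_lit 4)) (rf (nat_lit 5))))))))) q114068 (by decide +kernel)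
def q114555 : Q := Q.p (nat_lit 0x3000000000000000000000000000000000000000000000000000000000000000) (nat_lit 0xa00007c0001f8000fdc007ce003ffc007fe001fe0001f80006a00000000000000000000000000000000000) (nat_lit 17)
theorem c114555 : QOK q114555 := cut [q114417, q114504, q98272, q106246, q114322, q79118, q79161, q79165, q114349, q79228, q80700, q81348, q114510, q114528, q114549, q113999, q84925] ⟨c114417, c114504, c98272, c106246, c114322, c79118, c79161, c79165, c114349, c79228, c80700, c81348, c114510, c114528, c114549, c113999, c84925, trivial⟩ (nd (nat_lit 254) (nat_lit 0) (cs (rf (nat_lit 0)) (cs (rf (nat_lit 1)) (cs (nd (nat_lit 255) (nat_lit 0) (cs (rf (nat_lit 2)) (cs (rf (nat_lit 3)) (rf (nat_lit 4))))) (cs (nd (nat_lit 232) (nat_lit 0) (cs (rf (nat_lit 5)) (cs (rf (nat_lit 6)) (cs (rf (nat_lit 7)) (rf (nat_lit 8)))))) (cs (nd (nat_lit 255) (nat_lit 0) (cs (rf (nat_lit 9)) (cs (rf (nat_lit 10)) (cs (rf (nat_lit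 11)) (rf (nat_lit 4)))))) (cs (rf (nat_lit 12)) (cs (rf (nat_lit 13)) (cs (rf (nat_lit 14)) (nd (nat_lit 255) (nat_lit 0) (cs (rf (nat_lit 11)) (cs (rf (nat_lit 15)) (cs (rf (nat_lit 4)) (nd (nat_lit 277) (nat_lit 0) (cs (lf (nat_lit 5) (nat_lit 252)) (nd (nat_lit 251) (nat_lit 0) (cs (lf (nat_lit 4) (nat_lit 251)) (nd (nat_lit 232) (nat_lit 0) (cs (lf (nat_lit 17) (nat_lit 229)) (nd (nat_lit 231) (nat_lit 0) (cs (lf (nat_lit 12) (nat_lit 228)) (rf (nat_lit 16))))))))))))))))))))))) q114555 (by decide +kernel)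
def q114651 : Q := Q.p (nat_lit 0x3000000000000000000000000000000000000000000000000000000000000000) (nat_lit 0xfc0003f8001ff000ffe003cf001fee001fe0003f8000780000e00000000000000000000000000000000000) (nat_lit 19)
theorem c114651 : QOK q114651 := cut [q106748, q110543, q110864, q114315, q114430, q114575, q114626, q88302, q106756, q80583, q86907, q106782, q114628, q89866, q114563, q106793, q106794, q114352, q6259, q79029, q79066, q110304, q84155, q106807, q110306, q105144, q114640, q114641, q81715, q90245, q108309] ⟨c106748, c110543, c110864, c114315, c114430, c114575, c114626, c88302, c106756, c80583, c86907, c106782, c114628, c89866, c114563, c106793, c106794, c114352, c6259, c79029, c79066, c110304, c84155, c106807, c110306, c105144, c114640, c114641, c81715, c90245, c108309, trivial⟩ (nd (nat_lit 251) (nat_lit 0) (cs (rf (nat_lit 0)) (cs (rf (nat_lit 1)) (cs (rf (nat_lit 2)) (cs (rf (nat_lit 3)) (cs (rf (nat_lit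 4)) (cs (rf (nat_lit 5)) (cs (rf (nat_lit 6)) (cs (nd (nat_lit 273) (nat_lit 0) (cs (rf (nat_lit 7)) (cs (rf (nat_lit 8)) (cs (nd (nat_lit 295) (nat_lit 0) (cs (rf (nat_lit 9)) (cs (rf (nat_lit 10)) (cs (rf (nat_lit 11)) (rf (nat_lit 12)))))) (nd (nat_lit 230) (nat_lit 0) (cs (rf (nat_lit 13)) (cs (rf (nat_lit 14)) (cs (nd (nat_lit 295) (nat_lit 0) (cs (lf (nat_lit 30) (nat_lit 229)) (nd (nat_lit 254) (nat_lit 0) (cs (rf (nat_lit 15)) (cs (rf (nat_lit 16)) (rf (nat_lit 17))))))) (nd (nat_lit 208) (nat_lit 0) (cs (rf (nat_lit 18)) (cs (rf (nat_lit 19)) (cs (rf (nat_lit 20)) (cs (rf (nat_lit 21)) (nd (nat_lit 274) (nat_lit 0) (cs (rf (nat_lit 22)) (cs (rf (nat_lit 23)) (cs (rf (nat_lit 24)) (nd (nat_lit 185) (nat_lit 0) (cs (lf (nat_lit 46) (nat_lit 185)) (nd (nat_lit 254) (nat_lit 0) (cs (lf (nat_lit 6) (nat_lit 251)) (nd (nat_lit 232) (nat_lit 0) (cs (lf (nat_lit 17) (nat_lit 229)) (nd (nat_lit 276) (nat_lit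 0) (cs (lf (nat_lit 5) (nat_lit 251)) (rf (nat_lit 25))))))))))))))))))))))))))) (cs (rf (nat_lit 26)) (cs (rf (nat_lit 27)) (nd (nat_lit 232) (nat_lit 0) (cs (rf (nat_lit 28)) (cs (rf (nat_lit 29)) (nd (nat_lit 254) (nat_lit 0) (cs (lf (nat_lit 17) (nat_lit 229)) (nd (nat_lit 272) (nat_lit 0) (cs (lf (nat_lit 10) (nat_lit 250)) (nd (nat_lit 250) (nat_lit 0) (cs (lf (nat_lit 11) (nat_lit 249)) (nd (nat_lit 275) (nat_lit 0) (cs (lf (nat_lit 5) (nat_lit 250)) (nd (nat_lit 297) (nat_lit 0) (cs (lf (nat_lit 30) (nat_lit 231)) (nd (nat_lit 274) (nat_lit 0) (cs (lf (nat_lit 0) (nat_lit 249)) (nd (nat_lit 188) (nat_lit 0) (cs (lf (nat_lit 37) (nat_lit 187)) (nd (nat_lit 255) (nat_lit 0) (cs (lf (nat_lit 6) (nat_lit 252)) (rf (nat_lit 30)))))))))))))))))))))))))))))))) q114651 (by decide +kernel)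
def q114680 : Q := Q.p (nat_lit 0x3000000000000000000000000000000000000000000000000000000000000000) (nat_lit 0x200000f8000ff0003fe000ffc007ce001dfc003fc0007e0000f80000a00000000000000000000000000000000000) (nat_lit 15)
theorem c114680 : QOK q114680 := cut [q81353, q79009, q79164, q79201, q102886, q114510, q81318, q106893, q114398, q114659, q79028, q80985, q114066, q103009, q114663, q114664, q81411, q106114, q114669, q80905, q114339, q79007, q81341, q114596, q106934, q101180, q81453, q114677] ⟨c81353, c79009, c79164, c79201, c102886, c114510, c81318, c106893, c114398, c114659, c79028, c80985, c114066, c103009, c114663, c114664, c81411, c106114, c114669, c80905, c114339, c79007, c81341, c114596, c106934, c101180, c81453, c114677, trivial⟩ (nd (nat_lit 254) (nat_lit 0) (cs (rf (nat_lit 0)) (cs (nd (nat_lit 251) (nat_lit 0) (cs (rf (nat_lit 1)) (cs (rf (nat_lit 2)) (cs (rf (nat_lit 3)) (rf (nat_lit 4)))))) (cs (rf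 (nat_lit 5)) (cs (nd (nat_lit 274) (nat_lit 0) (cs (rf (nat_lit 6)) (cs (rf (nat_lit 7)) (cs (rf (nat_lit 8)) (cs (rf (nat_lit 9)) (nd (nat_lit 230) (nat_lit 0) (cs (rf (nat_lit 10)) (cs (rf (nat_lit 11)) (rf (nat_lit 12)))))))))) (cs (nd (nat_lit 251) (nat_lit 0) (cs (rf (nat_lit 2)) (cs (rf (nat_lit 3)) (rf (nat_lit 13))))) (cs (rf (nat_lit 14)) (cs (rf (nat_lit 15)) (nd (nat_lit 276) (nat_lit 0) (cs (rf (nat_lit 16)) (cs (rf (nat_lit 17)) (cs (rf (nat_lit 18)) (nd (nat_lit 231) (nat_lit 0) (cs (rf (nat_lit 19)) (cs (rf (nat_lit 20)) (cs (nd (nat_lit 298) (nat_lit 0) (cs (lf (nat_lit 42) (nat_lit 231)) (nd (nat_lit 251) (nat_lit 0) (cs (rf (nat_lit 21)) (cs (rf (nat_lit 22)) (cs (rf (nat_lit 23)) (nd (nat_lit 274) (nat_lit 0) (cs (rf (nat_lit 24)) (cs (nd (nat_lit 296) (nat_lit 0) (cs (lf (nat_lit 30) (nat_lit 230)) (nd (nat_lit 273) (nat_lit 0) (cs (lf (nat_lit 11) (nat_lit 250)) (rf (nat_lit 25)))))) (nd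 (nat_lit 228) (nat_lit 0) (cs (lf (nat_lit 22) (nat_lit 228)) (rf (nat_lit 26))))))))))))) (rf (nat_lit 27)))))))))))))))))) q114680 (by decide +kernel)
def q114705 : Q := Q.p (nat_lit 0x3000000000000000000000000000000000000000000000000000000000000000) (nat_lit 0x200000f80007f0001fe000ff8007ce001ff0003fc0007e0000e00002800000000000000000000000000000000000) (nat_lit 19)
theorem c114705 : QOK q114705 := cut [q79228, q79243, q98272, q80670, q114385, q114386, q114387, q114390, q114404, q114411, q114664] ⟨c79228, c79243, c98272, c80670, c114385, c114386, c114387, c114390, c114404, c114411, c114664, trivial⟩ (nd (nat_lit 254) (nat_lit 0) (cs (nd (nat_lit 255) (nat_lit 0) (cs (rf (nat_lit 0)) (cs (rf (nat_lit 1)) (cs (rf (nat_lit 2)) (nd (nat_lit 233) (nat_lit 0) (cs (lf (nat_lit 17) (nat_lit 230)) (nd (nat_lit 277) (nat_lit 0) (cs (lf (nat_lit 5) (nat_lit 252)) (nd (nat_lit 230) (nat_lit 0) (cs (lf (nat_lit 23) (nat_lit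 229)) (nd (nat_lit 256) (nat_lit 0) (cs (lf (nat_lit 22) (nat_lit 230)) (nd (nat_lit 275) (nat_lit 0) (cs (lf (nat_lit 11) (nat_lit 252)) (nd (nat_lit 297) (nat_lit 0) (cs (lf (nat_lit 42) (nat_lit 230)) (nd (nat_lit 257) (nat_lit 0) (cs (lf (nat_lit 10) (nat_lit 253)) (nd (nat_lit 235) (nat_lit 0) (cs (lf (nat_lit 17) (nat_lit 232)) (nd (nat_lit 232) (nat_lit 0) (cs (lf (nat_lit 18) (nat_lit 232)) (rf (nat_lit 3)))))))))))))))))))))))) (cs (rf (nat_lit 4)) (cs (rf (nat_lit 5)) (cs (rf (nat_lit 6)) (cs (rf (nat_lit 7)) (cs (rf (nat_lit 8)) (cs (rf (nat_lit 9)) (rf (nat_lit 10)))))))))) q114705 (by decide +kernel)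
def q114707 : Q := Q.p (nat_lit 0x3000000000000000000000000000000000000000000000000000000000000000) (nat_lit 0xf80007e0001fc000ff0007ce003ff8003fe0007f0001f80002a00000000000000000000000000000000000) (nat_lit 19)
theorem c114707 : QOK q114707 := cut [q79118, q79161, q79165, q79164, q81084, q105189, q79123, q79128, q79160, q111136, q113993, q114386, q114387, q114411, q114504, q114510, q114528] ⟨c79118, c79161, c79165, c79164, c81084, c105189, c79123, c79128, c79160, c111136, c113993, c114386, c114387, c114411, c114504, c114510, c114528, trivial⟩ (nd (nat_lit 254) (nat_lit 0) (cs (nd (nat_lit 232) (nat_lit 0) (cs (rf (nat_lit 0)) (cs (rf (nat_lit 1)) (cs (rf (nat_lit 2)) (nd (nat_lit 251) (nat_lit 0) (cs (rf (nat_lit 3)) (cs (rf (nat_lit 4)) (cs (rf (nat_lit 5)) (nd (nat_lit 210) (nat_lit 0) (cs (rf (nat_lit 6)) (cs (rf (nat_lit 7)) (cs (rf (nat_lit 8)) (cs (rf (nat_lit 9)) (nd (nat_lit 228) (nat_lit 0) (cs (lf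 (nat_lit 22) (nat_lit 228)) (nd (nat_lit 272) (nat_lit 0) (cs (lf (nat_lit 10) (nat_lit 250)) (rf (nat_lit 10))))))))))))))))))) (cs (rf (nat_lit 11)) (cs (rf (nat_lit 12)) (cs (rf (nat_lit 13)) (cs (rf (nat_lit 14)) (cs (rf (nat_lit 15)) (rf (nat_lit 16))))))))) q114707 (by decide +kernel)
def q114724 : Q := Q.p (nat_lit 0x3000000000000000000000000000000000000000000000000000000000000000) (nat_lit 0xf80003e0000fe000dfe003cf001ffe007ff001ffe001f80006e00003000008000000000000000000000000) (nat_lit 19)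
theorem c114724 : QOK q114724 := cut [q92327, q110534, q114411, q114549, q114663, q79028, q110051, q114060, q81657, q106388, q114066, q79013, q79256, q92326, q114715, q81085, q81675, q81752, q82200] ⟨c92327, c110534, c114411, c114549, c114663, c79028, c110051, c114060, c81657, c106388, c114066, c79013, c79256, c92326, c114715, c81085, c81675, c81752, c82200, trivial⟩ (nd (nat_lit 254) (nat_lit 0) (cs (rf (nat_lit 0)) (cs (rf (nat_lit 1)) (cs (rf (nat_lit 2)) (cs (rf (nat_lit 3)) (cs (rf (nat_lit 4)) (cs (nd (nat_lit 230) (nat_lit 0) (cs (rf (nat_lit 5)) (cs (rf (nat_lit 6)) (cs (rf (nat_lit 7)) (nd (nat_lit 274) (nat_lit 0) (cs (rf (nat_lit 8)) (cs (rf (nat_lit 9)) (rf (nat_lit 10))))))))) (cs (nd (nat_lit 251) (nat_lit 0) (cs (rf (nat_lit 11)) (cs (rf (nat_lit 12)) (rf (nat_lit 13))))) (cs (rf (nat_lit 14)) (nd (nat_lit 251) (nat_lit 0) (cs (rf (nat_lit 15)) (cs (rf (nat_lit 16)) (cs (rf (nat_lit 17)) (nd (nat_lit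 232) (nat_lit 0) (cs (lf (nat_lit 17) (nat_lit 229)) (nd (nat_lit 229) (nat_lit 0) (cs (lf (nat_lit 23) (nat_lit 228)) (nd (nat_lit 255) (nat_lit 0) (cs (lf (nat_lit 22) (nat_lit 229)) (nd (nat_lit 274) (nat_lit 0) (cs (lf (nat_lit 11) (nat_lit 251)) (nd (nat_lit 296) (nat_lit 0) (cs (lf (nat_lit 42) (nat_lit 229)) (nd (nat_lit 256) (nat_lit 0) (cs (lf (nat_lit 10) (nat_lit 252)) (nd (nat_lit 278) (nat_lit 0) (cs (lf (nat_lit 5) (nat_lit 253)) (rf (nat_lit 18))))))))))))))))))))))))))))) q114724 (by decide +kernel)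
def q114769 : Q := Q.p (nat_lit 0xc00003000000000000000000000000000000000000000000000000000000000000000) (nat_lit 0x380000f80007e0000380000e000078000fe0000e0000000000000000000000000000000000000000000000) (nat_lit 13)
theorem c114769 : QOK q114769 := cut [q79068, q99040, q110353] ⟨c79068, c99040, c110353, trivial⟩ (nd (nat_lit 230) (nat_lit 0) (cs (rf (nat_lit 0)) (cs (rf (nat_lit 1)) (rf (nat_lit 2))))) q114769 (by decide +kernel)
def q114924 : Q := Q.p (nat_lit 0xa00003800000000000000000000000000000000000000000000000000000000000000) (nat_lit 0xf8000ff0000fe000340000c0000178000380000e0000000000000000000000000000000000000000000000) (nat_lit 14)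
theorem c114924 : QOK q114924 := cut [q89807, q114774, q81444, q113526] ⟨c89807, c114774, c81444, c113526, trivial⟩ (nd (nat_lit 274) (nat_lit 0) (cs (rf (nat_lit 0)) (cs (rf (nat_lit 1)) (cs (nd (nat_lit 254) (nat_lit 0) (cs (lf (nat_lit 6) (nat_lit 251)) (nd (nat_lit 276) (nat_lit 0) (cs (lf (nat_lit 5) (nat_lit 251)) (nd (nat_lit 228) (nat_lit 0) (cs (lf (nat_lit 22) (nat_lit 228)) (nd (nat_lit 298) (nat_lit 0) (cs (lf (nat_lit 5) (nat_lit 273)) (nd (nat_lit 320) (nat_lit 0) (cs (lf (nat_lit 42) (nat_lit 253)) (nd (nat_lit 319) (nat_lit 0) (cs (lf (nat_lit 41) (nat_lit 253)) (rf (nat_lit 2)))))))))))))) (nd (nat_lit 254) (nat_lit 0) (cs (lf (nat_lit 6) (nat_lit 251)) (nd (nat_lit 276) (nat_lit 0) (cs (lf (nat_lit 5) (nat_lit 251)) (nd (nat_lit 228) (nat_lit 0) (cs (lf (nat_lit 22) (nat_lit 228)) (nd (nat_lit 294) (nat_lit 0) (cs (lf (nat_lit 10) (nat_lit 272)) (nd (nat_lit 298) (nat_lit 0) (cs (lf (nat_lit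 5) (nat_lit 273)) (nd (nat_lit 320) (nat_lit 0) (cs (lf (nat_lit 42) (nat_lit 253)) (nd (nat_lit 319) (nat_lit 0) (cs (lf (nat_lit 41) (nat_lit 253)) (nd (nat_lit 297) (nat_lit 0) (cs (lf (nat_lit 35) (nat_lit 231)) (rf (nat_lit 3)))))))))))))))))))))) q114924 (by decide +kernel)
def q114997 : Q := Q.p (nat_lit 0xc00003000000000000000000000000000000000000000000000000000000000000000) (nat_lit 0x380000e00001e0000000000e0007f8001fe0000e0000000000000000000000000000000000000000000000) (nat_lit 13)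
theorem c114997 : QOK q114997 := cut [q11506, q114947, q80993, q98676, q114948] ⟨c11506, c114947, c80993, c98676, c114948, trivial⟩ (nd (nat_lit 296) (nat_lit 0) (cs (rf (nat_lit 0)) (cs (rf (nat_lit 1)) (nd (nat_lit 230) (nat_lit 0) (cs (rf (nat_lit 2)) (cs (rf (nat_lit 3)) (rf (nat_lit 4)))))))) q114997 (by decide +kernel)
def q115208 : Q := Q.p (nat_lit 0x800002000000000000000000000000000000000000000000000000000000000000000) (nat_lit 0x140003fc000ff8003fe001f7f003df800ffc001de0003780001c0000500000000000000000000000000000000000) (nat_lit 17)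
theorem c115208 : QOK q115208 := cut [q114753, q114792, q114832, q114837, q114886, q114888, q114905, q114908, q88933, q113182, q115170, q113159, q113199, q90750, q113185, q22569, q94337, q91802, q113188, q99383, q14357, q90752, q90849, q96039, q96042, q113207, q14470, q87021, q96034, q14320, q108397, q108780, q115206] ⟨c114753, c114792, c114832, c114837, c114886, c114888, c114905, c114908, c88933, c113182, c115170, c113159, c113199, c90750, c113185, c22569, c94337, c91802, c113188, c99383, c14357, c90752, c90849, c96039, c96042, c113207, c14470, c87021, c96034, c14320, c108397, c108780, c115206, trivial⟩ (nd (nat_lit 252) (nat_lit 0) (cs (rf (nat_lit 0)) (cs (rf (nat_lit 1)) (cs (rf (nat_lit 2)) (cs (rf (nat_lit 3)) (cs (rf (nat_lit 4)) (cs (rf (nat_lit 5)) (cs (rf (nat_lit 6)) (cs (rf (nat_lit 7)) (cs (nd (nat_lit 297) (nat_lit 0) (cs (rf (nat_lit 8)) (cs (rf (nat_lit 9)) (rf (nat_lit 10))))) (cs (nd (nat_lit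 297) (nat_lit 0) (cs (rf (nat_lit 8)) (cs (rf (nat_lit 11)) (cs (rf (nat_lit 12)) (nd (nat_lit 298) (nat_lit 0) (cs (rf (nat_lit 13)) (cs (rf (nat_lit 14)) (nd (nat_lit 274) (nat_lit 0) (cs (rf (nat_lit 15)) (cs (nd (nat_lit 296) (nat_lit 0) (cs (rf (nat_lit 16)) (cs (nd (nat_lit 318) (nat_lit 0) (cs (lf (nat_lit 30) (nat_lit 252)) (nd (nat_lit 299) (nat_lit 0) (cs (lf (nat_lit 18) (nat_lit 274)) (lf (nat_lit 11) (nat_lit 295)))))) (nd (nat_lit 208) (nat_lit 0) (cs (lf (nat_lit 25) (nat_lit 208)) (rf (nat_lit 17))))))) (nd (nat_lit 296) (nat_lit 0) (cs (rf (nat_lit 18)) (cs (nd (nat_lit 272) (nat_lit 0) (cs (lf (nat_lit 1) (nat_lit 272)) (nd (nat_lit 230) (nat_lit 0) (cs (lf (nat_lit 24) (nat_lit 208)) (nd (nat_lit 207) (nat_lit 0) (cs (lf (nat_lit 46) (nat_lit 207)) (rf (nat_lit 19)))))))) (nd (nat_lit 318) (nat_lit 0) (cs (lf (nat_lit 30) (nat_lit 252)) (nd (nat_lit 208) (nat_lit 0) (cs (lf (nat_lit 25) (nat_lit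 208)) (rf (nat_lit 20))))))))))))))))))) (cs (nd (nat_lit 297) (nat_lit 0) (cs (rf (nat_lit 8)) (cs (rf (nat_lit 11)) (cs (rf (nat_lit 12)) (nd (nat_lit 296) (nat_lit 0) (cs (rf (nat_lit 21)) (cs (rf (nat_lit 22)) (cs (nd (nat_lit 274) (nat_lit 0) (cs (rf (nat_lit 23)) (cs (rf (nat_lit 24)) (cs (rf (nat_lit 25)) (nd (nat_lit 273) (nat_lit 0) (cs (rf (nat_lit 26)) (cs (rf (nat_lit 27)) (rf (nat_lit 28))))))))) (nd (nat_lit 274) (nat_lit 0) (cs (rf (nat_lit 29)) (cs (rf (nat_lit 16)) (cs (rf (nat_lit 30)) (rf (nat_lit 31)))))))))))))) (nd (nat_lit 297) (nat_lit 0) (cs (rf (nat_lit 8)) (cs (rf (nat_lit 11)) (cs (rf (nat_lit 12)) (rf (nat_lit 32)))))))))))))))))) q115208 (by decide +kernel)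
def q115439 : Q := Q.p (nat_lit 0x800002000000000000000000000000000000000000000000000000000000000000000) (nat_lit 0x140000700003c0003e8000f7c007de003ffc003ff0007e0001f80001c00005000000000000000000000000000000) (nat_lit 16)
theorem c115439 : QOK q115439 := cut [q97683, q98372, q112791, q113141, q113614, q113623, q113624, q113625, q113626, q115384, q115405, q100321, q100469, q115430, q104510, q81901, q94774, q98316, q79299, q113603, q113604, q1999, q2066, q2091, q97555, q112947, q97561] ⟨c97683, c98372, c112791, c113141, c113614, c113623, c113624, c113625, c113626, c115384, c115405, c100321, c100469, c115430, c104510, c81901, c94774, c98316, c79299, c113603, c113604, c1999, c2066, c2091, c97555, c112947, c97561, trivial⟩ (nd (nat_lit 231) (nat_lit 0) (cs (rf (nat_lit 0)) (cs (rf (nat_lit 1)) (cs (rf (nat_lit 2)) (cs (rf (nat_lit 3)) (cs (rf (nat_lit 4)) (cs (rf (nat_lit 5)) (cs (rf (nat_lit 6)) (cs (rf (nat_lit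 7)) (cs (rf (nat_lit 8)) (cs (rf (nat_lit 9)) (cs (rf (nat_lit 10)) (nd (nat_lit 276) (nat_lit 0) (cs (rf (nat_lit 11)) (cs (rf (nat_lit 12)) (cs (rf (nat_lit 13)) (nd (nat_lit 252) (nat_lit 0) (cs (rf (nat_lit 14)) (cs (nd (nat_lit 277) (nat_lit 0) (cs (lf (nat_lit 18) (nat_lit 252)) (nd (nat_lit 209) (nat_lit 0) (cs (rf (nat_lit 15)) (cs (rf (nat_lit 16)) (cs (rf (nat_lit 17)) (nd (nat_lit 232) (nat_lit 0) (cs (rf (nat_lit 18)) (cs (rf (nat_lit 19)) (rf (nat_lit 20))))))))))) (nd (nat_lit 251) (nat_lit 0) (cs (rf (nat_lit 21)) (cs (rf (nat_lit 22)) (cs (rf (nat_lit 23)) (nd (nat_lit 254) (nat_lit 0) (cs (rf (nat_lit 24)) (cs (rf (nat_lit 25)) (nd (nat_lit 187) (nat_lit 0) (cs (lf (nat_lit 25) (nat_lit 187)) (rf (nat_lit 26)))))))))))))))))))))))))))))) q115439 (by decide +kernel)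
def q115465 : Q := Q.p (nat_lit 0x800002000000000000000000000000000000000000000000000000000000000000000) (nat_lit 0x140000700003e0003bf000f78003df000ffe003ff8003f0000f80001c00005000000000000000000000000000000) (nat_lit 18)
theorem c115465 : QOK q115465 := cut [q98133, q113115, q113624, q113630, q113676, q113678, q97957, q98121, q99594, q87016, q97958, q115382, q115456, q56839, q98134, q99646, q97408, q97409, q115095, q11768, q98137, q99630, q14769, q99631, q114941, q101882, q113672, q114931, q86390, q98160, q98272] ⟨c98133, c113115, c113624, c113630, c113676, c113678, c97957, c98121, c99594, c87016, c97958, c115382, c115456, c56839, c98134, c99646, c97408, c97409, c115095, c11768, c98137, c99630, c14769, c99631, c114941, c101882, c113672, c114931, c86390, c98160, c98272, trivial⟩ (nd (nat_lit 231) (nat_lit 0) (cs (rf (nat_lit 0)) (cs (rf (nat_lit 1)) (cs (rf (nat_lit 2)) (cs (rf (nat_lit 3)) (cs (rf (nat_lit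 4)) (cs (rf (nat_lit 5)) (cs (nd (nat_lit 230) (nat_lit 0) (cs (rf (nat_lit 6)) (cs (rf (nat_lit 7)) (cs (rf (nat_lit 8)) (nd (nat_lit 232) (nat_lit 0) (cs (rf (nat_lit 9)) (cs (rf (nat_lit 10)) (rf (nat_lit 11))))))))) (cs (rf (nat_lit 12)) (nd (nat_lit 274) (nat_lit 0) (cs (rf (nat_lit 13)) (cs (rf (nat_lit 14)) (cs (rf (nat_lit 15)) (cs (nd (nat_lit 273) (nat_lit 0) (cs (rf (nat_lit 16)) (cs (rf (nat_lit 17)) (cs (rf (nat_lit 18)) (nd (nat_lit 251) (nat_lit 0) (cs (rf (nat_lit 19)) (cs (rf (nat_lit 20)) (cs (rf (nat_lit 21)) (nd (nat_lit 252) (nat_lit 0) (cs (rf (nat_lit 22)) (cs (rf (nat_lit 23)) (rf (nat_lit 24))))))))))))) (nd (nat_lit 254) (nat_lit 0) (cs (rf (nat_lit 25)) (cs (nd (nat_lit 273) (nat_lit 0) (cs (rf (nat_lit 26)) (rf (nat_lit 27)))) (nd (nat_lit 255) (nat_lit 0) (cs (lf (nat_lit 6) (nat_lit 252)) (nd (nat_lit 252) (nat_lit 0) (cs (rf (nat_lit 28)) (cs (rf (nat_lit 29)) (rf (nat_lit 30))))))))))))))))))))))))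 q115465 (by decide +kernel)
def q115485 : Q := Q.p (nat_lit 0x800002000000000000000000000000000000000000000000000000000000000000000) (nat_lit 0x140000700007f0003fc000f7c007de003ffc003ee0007e0001f80001400000000000000000000000000000000000) (nat_lit 18)
theorem c115485 : QOK q115485 := cut [q97683, q113813, q113817, q113867, q115154, q115456, q115468, q12650, q84365, q98131, q99269, q87016, q101761, q97307, q101804, q109042, q113844, q115380, q97607, q97608, q97624, q97610, q113831, q113833, q113840, q79384, q97478, q113839, q86313, q86631, q90932, q113847, q113849, q113850, q1999, q2066, q2091, q114904, q101853, q107141, q104667, q21953, q98797, q100756] ⟨c97683, c113813, c113817, c113867, c115154, c115456, c115468, c12650, c84365, c98131, c99269, c87016, c101761, c97307, c101804, c109042, c113844, c115380, c97607, c97608, c97624, c97610, c113831, c113833, c113840, c79384, c97478, c113839, c86313, c86631, c90932,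 c113847, c113849, c113850, c1999, c2066, c2091, c114904, c101853, c107141, c104667, c21953, c98797, c100756, trivial⟩ (nd (nat_lit 231) (nat_lit 0) (cs (rf (nat_lit 0)) (cs (rf (nat_lit 1)) (cs (rf (nat_lit 2)) (cs (rf (nat_lit 3)) (cs (rf (nat_lit 4)) (cs (rf (nat_lit 5)) (cs (rf (nat_lit 6)) (cs (nd (nat_lit 297) (nat_lit 0) (cs (rf (nat_lit 7)) (cs (rf (nat_lit 8)) (cs (rf (nat_lit 9)) (rf (nat_lit 10)))))) (cs (nd (nat_lit 232) (nat_lit 0) (cs (rf (nat_lit 11)) (cs (rf (nat_lit 12)) (cs (nd (nat_lit 233) (nat_lit 0) (cs (rf (nat_lit 13)) (cs (rf (nat_lit 14)) (cs (rf (nat_lit 15)) (cs (rf (nat_lit 16)) (cs (rf (nat_lit 17)) (nd (nat_lit 255) (nat_lit 0) (cs (rf (nat_lit 18)) (cs (rf (nat_lit 19)) (cs (rf (nat_lit 20)) (cs (nd (nat_lit 254) (nat_lit 0) (cs (rf (nat_lit 21)) (cs (rf (nat_lit 22)) (cs (rf (nat_lit 23)) (rf (nat_lit 24)))))) (nd (nat_lit 254) (nat_lit 0) (cs (rf (nat_lit 25)) (cs (rf (nat_lit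 26)) (rf (nat_lit 27)))))))))))))))) (nd (nat_lit 252) (nat_lit 0) (cs (rf (nat_lit 28)) (cs (rf (nat_lit 29)) (cs (nd (nat_lit 233) (nat_lit 0) (cs (rf (nat_lit 13)) (cs (rf (nat_lit 15)) (nd (nat_lit 297) (nat_lit 0) (cs (rf (nat_lit 8)) (cs (rf (nat_lit 30)) (nd (nat_lit 276) (nat_lit 0) (cs (rf (nat_lit 31)) (cs (rf (nat_lit 32)) (rf (nat_lit 33))))))))))) (nd (nat_lit 251) (nat_lit 0) (cs (rf (nat_lit 34)) (cs (rf (nat_lit 35)) (cs (rf (nat_lit 36)) (cs (rf (nat_lit 37)) (nd (nat_lit 254) (nat_lit 0) (cs (rf (nat_lit 38)) (cs (rf (nat_lit 39)) (nd (nat_lit 276) (nat_lit 0) (cs (lf (nat_lit 5) (nat_lit 251)) (nd (nat_lit 298) (nat_lit 0) (cs (lf (nat_lit 42) (nat_lit 231)) (nd (nat_lit 297) (nat_lit 0) (cs (lf (nat_lit 41) (nat_lit 231)) (rf (nat_lit 40)))))))))))))))))))))))) (nd (nat_lit 297) (nat_lit 0) (cs (rf (nat_lit 41)) (cs (rf (nat_lit 9)) (cs (rf (nat_lit 42)) (rf (nat_lit 43)))))))))))))))) q115485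 (by decide +kernel)
def q115603 : Q := Q.p (nat_lit 0x800002000000000000000000000000000000000000000000000000000000000000000) (nat_lit 0x400001c0000f8000ef8003fe000f7f003df800ffc001fa0003e8000700001400000000000000000000000000000000000) (nat_lit 18)
theorem c115603 : QOK q115603 := cut [q109583, q115169, q115182, q115330, q115579, q22016, q79736, q101582, q113141, q99252, q107861, q108258, q109946, q112791, q89354, q90752, q11666, q11728, q109916, q110675, q109917, q115584, q97408, q12868, q89357, q89417, q108293, q108298, q14502, q105048, q109957, q79735, q91107, q90797, q90852, q109924, q22169, q101728, q109934, q97689, q101581, q115602] ⟨c109583, c115169, c115182, c115330, c115579, c22016, c79736, c101582, c113141, c99252, c107861, c108258, c109946, c112791, c89354, c90752, c11666, c11728, c109916, c110675, c109917, c115584, c97408, c12868, c89357, c89417, c108293, c108298, c14502, c105048, c109957, c79735,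 c91107, c90797, c90852, c109924, c22169, c101728, c109934, c97689, c101581, c115602, trivial⟩ (nd (nat_lit 297) (nat_lit 0) (cs (rf (nat_lit 0)) (cs (rf (nat_lit 1)) (cs (rf (nat_lit 2)) (cs (rf (nat_lit 3)) (cs (rf (nat_lit 4)) (cs (nd (nat_lit 231) (nat_lit 0) (cs (rf (nat_lit 5)) (cs (rf (nat_lit 6)) (cs (rf (nat_lit 7)) (rf (nat_lit 8)))))) (cs (nd (nat_lit 231) (nat_lit 0) (cs (rf (nat_lit 9)) (cs (rf (nat_lit 10)) (cs (rf (nat_lit 11)) (cs (rf (nat_lit 12)) (rf (nat_lit 13))))))) (cs (nd (nat_lit 296) (nat_lit 0) (cs (rf (nat_lit 14)) (cs (rf (nat_lit 15)) (cs (nd (nat_lit 295) (nat_lit 0) (cs (rf (nat_lit 16)) (cs (rf (nat_lit 17)) (cs (nd (nat_lit 273) (nat_lit 0) (cs (rf (nat_lit 18)) (cs (rf (nat_lit 19)) (cs (nd (nat_lit 274) (nat_lit 0) (cs (rf (nat_lit 20)) (rf (nat_lit 21)))) (nd (nat_lit 274) (nat_lit 0) (cs (rf (nat_lit 22)) (cs (rf (nat_lit 21)) (nd (nat_lit 276) (nat_lit 0) (cs (lf (nat_lit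 6) (nat_lit 273)) (rf (nat_lit 23))))))))))) (nd (nat_lit 272) (nat_lit 0) (cs (rf (nat_lit 24)) (cs (rf (nat_lit 25)) (cs (rf (nat_lit 26)) (cs (rf (nat_lit 27)) (nd (nat_lit 294) (nat_lit 0) (cs (lf (nat_lit 23) (nat_lit 271)) (nd (nat_lit 274) (nat_lit 0) (cs (lf (nat_lit 12) (nat_lit 271)) (nd (nat_lit 318) (nat_lit 0) (cs (lf (nat_lit 30) (nat_lit 252)) (rf (nat_lit 28))))))))))))))))) (nd (nat_lit 276) (nat_lit 0) (cs (rf (nat_lit 29)) (cs (rf (nat_lit 30)) (cs (nd (nat_lit 295) (nat_lit 0) (cs (lf (nat_lit 12) (nat_lit 272)) (nd (nat_lit 231) (nat_lit 0) (cs (rf (nat_lit 31)) (cs (rf (nat_lit 32)) (nd (nat_lit 252) (nat_lit 0) (cs (rf (nat_lit 33)) (cs (rf (nat_lit 34)) (rf (nat_lit 35)))))))))) (nd (nat_lit 277) (nat_lit 0) (cs (lf (nat_lit 6) (nat_lit 274)) (nd (nat_lit 274) (nat_lit 0) (cs (rf (nat_lit 36)) (cs (rf (nat_lit 37)) (rf (nat_lit 38))))))))))))))) (cs (nd (nat_lit 231) (nat_lit 0) (cs (rf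 (nat_lit 39)) (cs (rf (nat_lit 40)) (rf (nat_lit 10))))) (rf (nat_lit 41)))))))))))) q115603 (by decide +kernel)
def q115641 : Q := Q.p (nat_lit 0x3000004000000000000000000000000000000000000000000000000000000000) (nat_lit 0xe00003f8001fc000ff0001c00007b8000d80003e0000380000a00000000000000000000000000000000000) (nat_lit 14)
theorem c115641 : QOK q115641 := cut [q79028, q79077, q110192, q115640] ⟨c79028, c79077, c110192, c115640, trivial⟩ (nd (nat_lit 254) (nat_lit 0) (cs (rf (nat_lit 0)) (cs (rf (nat_lit 1)) (cs (rf (nat_lit 2)) (rf (nat_lit 3)))))) q115641 (by decide +kernel)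
def q115763 : Q := Q.p (nat_lit 0x3000000000000000000000000000000000000000000000000000000000000000) (nat_lit 0x400007c0001f0001fe0007fc0004e0007fc001fe0003f8000fc0001c00000000000000000000000000000000000) (nat_lit 15)
theorem c115763 : QOK q115763 := cut [q82300, q82301, q82309, q82350, q88739, q88748, q88918, q115728, q88751, q88772, q88775, q88759, q88767, q88916, q88743, q115738, q114581, q106703, q88818, q82275, q89928, q88302, q88834, q85505, q89866, q84852, q87953, q88829, q115747, q82198, q88872, q114598, q87928, q87951, q110107, q96402, q107772, q82274, q82277, q81837, q88879, q82664, q115757, q88930, q88921, q96223, q106738] ⟨c82300, c82301, c82309, c82350, c88739, c88748, c88918, c115728, c88751, c88772, c88775, c88759, c88767, c88916, c88743, c115738, c114581, c106703, c88818, c82275, c89928, c88302, c88834, c85505, c89866, c84852, c87953, c88829, c115747, c82198, c88872, c114598, c87928, c87951, c110107,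 c96402, c107772, c82274, c82277, c81837, c88879, c82664, c115757, c88930, c88921, c96223, c106738, trivial⟩ (nd (nat_lit 231) (nat_lit 0) (cs (nd (nat_lit 209) (nat_lit 0) (cs (rf (nat_lit 0)) (cs (rf (nat_lit 1)) (cs (rf (nat_lit 2)) (cs (nd (nat_lit 275) (nat_lit 0) (cs (rf (nat_lit 3)) (cs (rf (nat_lit 4)) (cs (rf (nat_lit 5)) (rf (nat_lit 6)))))) (rf (nat_lit 7))))))) (cs (nd (nat_lit 209) (nat_lit 0) (cs (rf (nat_lit 1)) (cs (rf (nat_lit 8)) (cs (rf (nat_lit 9)) (cs (rf (nat_lit 10)) (nd (nat_lit 275) (nat_lit 0) (cs (rf (nat_lit 11)) (cs (rf (nat_lit 12)) (cs (rf (nat_lit 13)) (nd (nat_lit 186) (nat_lit 0) (cs (lf (nat_lit 46) (nat_lit 186)) (nd (nat_lit 188) (nat_lit 0) (cs (lf (nat_lit 34) (nat_lit 187)) (rf (nat_lit 14))))))))))))))) (cs (rf (nat_lit 15)) (cs (nd (nat_lit 209) (nat_lit 0) (cs (rf (nat_lit 0)) (cs (rf (nat_lit 1)) (cs (rf (nat_lit 2)) (cs (rf (nat_lit 7)) (nd (nat_lit 275) (nat_lit 0)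 (cs (rf (nat_lit 3)) (cs (rf (nat_lit 5)) (cs (rf (nat_lit 16)) (cs (nd (nat_lit 210) (nat_lit 0) (cs (lf (nat_lit 35) (nat_lit 187)) (nd (nat_lit 274) (nat_lit 0) (cs (lf (nat_lit 41) (nat_lit 208)) (rf (nat_lit 17)))))) (nd (nat_lit 188) (nat_lit 0) (cs (lf (nat_lit 34) (nat_lit 187)) (rf (nat_lit 18)))))))))))))) (cs (nd (nat_lit 251) (nat_lit 0) (cs (rf (nat_lit 19)) (cs (rf (nat_lit 20)) (cs (nd (nat_lit 273) (nat_lit 0) (cs (rf (nat_lit 21)) (cs (rf (nat_lit 22)) (nd (nat_lit 230) (nat_lit 0) (cs (rf (nat_lit 23)) (cs (rf (nat_lit 24)) (nd (nat_lit 229) (nat_lit 0) (cs (rf (nat_lit 25)) (cs (rf (nat_lit 26)) (rf (nat_lit 27))))))))))) (rf (nat_lit 28)))))) (cs (nd (nat_lit 251) (nat_lit 0) (cs (rf (nat_lit 19)) (cs (rf (nat_lit 20)) (cs (rf (nat_lit 28)) (nd (nat_lit 229) (nat_lit 0) (cs (rf (nat_lit 29)) (cs (rf (nat_lit 30)) (cs (rf (nat_lit 31)) (nd (nat_lit 230) (nat_lit 0) (cs (rf (nat_lit 32)) (cs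 (rf (nat_lit 33)) (rf (nat_lit 34))))))))))))) (cs (nd (nat_lit 251) (nat_lit 0) (cs (rf (nat_lit 19)) (cs (rf (nat_lit 35)) (cs (rf (nat_lit 28)) (nd (nat_lit 229) (nat_lit 0) (cs (rf (nat_lit 29)) (cs (rf (nat_lit 30)) (cs (rf (nat_lit 36)) (nd (nat_lit 232) (nat_lit 0) (cs (rf (nat_lit 37)) (cs (rf (nat_lit 38)) (nd (nat_lit 274) (nat_lit 0) (cs (rf (nat_lit 39)) (cs (rf (nat_lit 40)) (nd (nat_lit 185) (nat_lit 0) (cs (lf (nat_lit 25) (nat_lit 185)) (rf (nat_lit 41)))))))))))))))))) (cs (nd (nat_lit 251) (nat_lit 0) (cs (rf (nat_lit 19)) (cs (rf (nat_lit 20)) (cs (rf (nat_lit 28)) (rf (nat_lit 42)))))) (cs (nd (nat_lit 209) (nat_lit 0) (cs (rf (nat_lit 0)) (cs (rf (nat_lit 1)) (cs (rf (nat_lit 2)) (cs (rf (nat_lit 43)) (nd (nat_lit 275) (nat_lit 0) (cs (rf (nat_lit 3)) (cs (rf (nat_lit 13)) (rf (nat_lit 44)))))))))) (nd (nat_lit 251) (nat_lit 0) (cs (rf (nat_lit 19)) (cs (rf (nat_lit 35)) (nd (nat_lit 274)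 (nat_lit 0) (cs (rf (nat_lit 41)) (cs (rf (nat_lit 45)) (rf (nat_lit 46)))))))))))))))))) q115763 (by decide +kernel)
def q115803 : Q := Q.p (nat_lit 0x3000000000000000000000000000000000000000000000000000000000000000) (nat_lit 0x240000f80007f0001fe003ffc007ce003fdc003fc0003e0000f00001c00000000000000000000000000000000000) (nat_lit 19)
theorem c115803 : QOK q115803 := cut [q81353, q115693, q115704, q115768, q79217, q81724, q106255, q107554, q115777, q83707, q106263, q114398, q81837, q82664, q91409, q81834, q81828, q81832, q97540, q82300, q82301, q82309, q79054, q81844, q81850, q88818, q115790, q115794, q81867, q81875, q82259, q81054, q81872, q82108, q115796, q113999, q111144] ⟨c81353, c115693, c115704, c115768, c79217, c81724, c106255, c107554, c115777, c83707, c106263, c114398, c81837, c82664, c91409, c81834, c81828, c81832, c97540, c82300, c82301, c82309, c79054, c81844, c81850, c88818, c115790, c115794, c81867,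 c81875, c82259, c81054, c81872, c82108, c115796, c113999, c111144, trivial⟩ (nd (nat_lit 254) (nat_lit 0) (cs (rf (nat_lit 0)) (cs (rf (nat_lit 1)) (cs (rf (nat_lit 2)) (cs (rf (nat_lit 3)) (cs (nd (nat_lit 255) (nat_lit 0) (cs (rf (nat_lit 4)) (cs (rf (nat_lit 5)) (cs (rf (nat_lit 6)) (rf (nat_lit 7)))))) (cs (rf (nat_lit 8)) (cs (nd (nat_lit 274) (nat_lit 0) (cs (rf (nat_lit 9)) (cs (rf (nat_lit 10)) (cs (rf (nat_lit 11)) (cs (nd (nat_lit 231) (nat_lit 0) (cs (rf (nat_lit 12)) (cs (rf (nat_lit 13)) (cs (rf (nat_lit 14)) (cs (nd (nat_lit 296) (nat_lit 0) (cs (lf (nat_lit 30) (nat_lit 230)) (nd (nat_lit 255) (nat_lit 0) (cs (rf (nat_lit 15)) (cs (rf (nat_lit 7)) (nd (nat_lit 276) (nat_lit 0) (cs (rf (nat_lit 16)) (cs (rf (nat_lit 17)) (rf (nat_lit 18)))))))))) (nd (nat_lit 209) (nat_lit 0) (cs (rf (nat_lit 19)) (cs (rf (nat_lit 20)) (cs (rf (nat_lit 21)) (nd (nat_lit 275) (nat_lit 0) (cs (rf (nat_lit 22)) (cs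 (rf (nat_lit 23)) (cs (rf (nat_lit 24)) (rf (nat_lit 25))))))))))))))) (nd (nat_lit 255) (nat_lit 0) (cs (lf (nat_lit 11) (nat_lit 251)) (nd (nat_lit 233) (nat_lit 0) (cs (lf (nat_lit 17) (nat_lit 230)) (rf (nat_lit 26))))))))))) (cs (rf (nat_lit 27)) (cs (nd (nat_lit 255) (nat_lit 0) (cs (rf (nat_lit 4)) (cs (rf (nat_lit 28)) (cs (rf (nat_lit 29)) (rf (nat_lit 30)))))) (cs (nd (nat_lit 255) (nat_lit 0) (cs (rf (nat_lit 31)) (cs (rf (nat_lit 32)) (cs (rf (nat_lit 33)) (cs (rf (nat_lit 6)) (nd (nat_lit 233) (nat_lit 0) (cs (lf (nat_lit 17) (nat_lit 230)) (rf (nat_lit 34))))))))) (cs (nd (nat_lit 255) (nat_lit 0) (cs (rf (nat_lit 30)) (cs (rf (nat_lit 35)) (rf (nat_lit 34))))) (nd (nat_lit 255) (nat_lit 0) (cs (rf (nat_lit 4)) (cs (rf (nat_lit 31)) (cs (rf (nat_lit 35)) (nd (nat_lit 233) (nat_lit 0) (cs (lf (nat_lit 17) (nat_lit 230)) (nd (nat_lit 277) (nat_lit 0) (cs (lf (nat_lit 5) (nat_lit 252)) (rf (nat_lit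 36)))))))))))))))))))))) q115803 (by decide +kernel)
def q115871 : Q := Q.p (nat_lit 0x3000000000000000000000000000000000000000000000000000000000000000) (nat_lit 0x7c0001f00007f000eff003cf801fff001fe0003f80007c0001500000000000000000000000000000000000) (nat_lit 19)
theorem c115871 : QOK q115871 := cut [q89928, q93921, q106627, q106628, q106665, q106687, q82198, q82206, q106624, q106625, q115861, q2624, q82275, q82300, q82301, q82309, q105163, q1563, q93250, q106672, q11001, q82378, q85001, q82664, q2065, q12246, q80611, q106680, q82288, q82291, q82377, q89482] ⟨c89928, c93921, c106627, c106628, c106665, c106687, c82198, c82206, c106624, c106625, c115861, c2624, c82275, c82300, c82301, c82309, c105163, c1563, c93250, c106672, c11001, c82378, c85001, c82664, c2065, c12246, c80611, c106680, c82288, c82291, c82377, c89482, trivial⟩ (nd (nat_lit 251) (nat_lit 0) (cs (rf (nat_lit 0)) (cs (rf (nat_lit 1)) (cs (rf (nat_lit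 2)) (cs (rf (nat_lit 3)) (cs (rf (nat_lit 4)) (cs (rf (nat_lit 5)) (cs (nd (nat_lit 229) (nat_lit 0) (cs (rf (nat_lit 6)) (cs (rf (nat_lit 7)) (cs (rf (nat_lit 8)) (rf (nat_lit 9)))))) (cs (rf (nat_lit 10)) (nd (nat_lit 231) (nat_lit 0) (cs (rf (nat_lit 11)) (cs (rf (nat_lit 12)) (cs (nd (nat_lit 209) (nat_lit 0) (cs (rf (nat_lit 13)) (cs (rf (nat_lit 14)) (cs (rf (nat_lit 15)) (cs (rf (nat_lit 16)) (nd (nat_lit 208) (nat_lit 0) (cs (rf (nat_lit 17)) (cs (rf (nat_lit 18)) (cs (rf (nat_lit 19)) (nd (nat_lit 230) (nat_lit 0) (cs (rf (nat_lit 20)) (cs (rf (nat_lit 21)) (rf (nat_lit 22)))))))))))))) (nd (nat_lit 274) (nat_lit 0) (cs (rf (nat_lit 23)) (cs (nd (nat_lit 209) (nat_lit 0) (cs (rf (nat_lit 14)) (nd (nat_lit 250) (nat_lit 0) (cs (rf (nat_lit 24)) (cs (rf (nat_lit 25)) (cs (rf (nat_lit 26)) (rf (nat_lit 27)))))))) (nd (nat_lit 296) (nat_lit 0) (cs (lf (nat_lit 30) (nat_lit 230)) (nd (nat_lit 230) (nat_lit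 0) (cs (rf (nat_lit 28)) (cs (rf (nat_lit 29)) (cs (rf (nat_lit 30)) (rf (nat_lit 31)))))))))))))))))))))))) q115871 (by decide +kernel)
def q115895 : Q := Q.p (nat_lit 0x3000000000000000000000000000000000000000000000000000000000000000) (nat_lit 0x280000fc000ff0003fe003ffc007ce001dfc003fc0007e0000f80000a00000000000000000000000000000000000) (nat_lit 15)
theorem c115895 : QOK q115895 := cut [q81340, q81353, q81495, q105825, q114510, q81318, q106889, q106893, q114398, q115887, q79201, q80614, q81492, q86771, q86778, q86785, q81411, q106114, q114669, q80905, q114339, q114677, q79007, q96402, q106935, q115747, q81663, q92326] ⟨c81340, c81353, c81495, c105825, c114510, c81318, c106889, c106893, c114398, c115887, c79201, c80614, c81492, c86771, c86778, c86785, c81411, c106114, c114669, c80905, c114339, c114677, c79007, c96402, c106935, c115747, c81663, c92326, trivial⟩ (nd (nat_lit 254) (nat_lit 0) (cs (rf (nat_lit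 0)) (cs (rf (nat_lit 1)) (cs (rf (nat_lit 2)) (cs (rf (nat_lit 3)) (cs (rf (nat_lit 4)) (cs (nd (nat_lit 274) (nat_lit 0) (cs (rf (nat_lit 5)) (cs (rf (nat_lit 6)) (cs (rf (nat_lit 7)) (cs (rf (nat_lit 8)) (rf (nat_lit 9))))))) (cs (nd (nat_lit 251) (nat_lit 0) (cs (rf (nat_lit 10)) (cs (rf (nat_lit 11)) (cs (rf (nat_lit 12)) (cs (rf (nat_lit 13)) (cs (rf (nat_lit 14)) (rf (nat_lit 15)))))))) (cs (nd (nat_lit 276) (nat_lit 0) (cs (rf (nat_lit 16)) (cs (rf (nat_lit 17)) (cs (rf (nat_lit 18)) (nd (nat_lit 231) (nat_lit 0) (cs (rf (nat_lit 19)) (cs (rf (nat_lit 20)) (cs (rf (nat_lit 21)) (nd (nat_lit 298) (nat_lit 0) (cs (lf (nat_lit 42) (nat_lit 231)) (nd (nat_lit 251) (nat_lit 0) (cs (rf (nat_lit 22)) (cs (rf (nat_lit 23)) (cs (rf (nat_lit 24)) (rf (nat_lit 25)))))))))))))))) (nd (nat_lit 251) (nat_lit 0) (cs (rf (nat_lit 12)) (cs (rf (nat_lit 26)) (cs (rf (nat_lit 13)) (cs (rf (nat_lit 14)) (rf (nat_lit 27))))))))))))))))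 q115895 (by decide +kernel)
def q115919 : Q := Q.p (nat_lit 0x3000000000000000000000000000000000000000000000000000000000000000) (nat_lit 0x100005c0001f0000fe0003fc001cf0007fc000ff0001f80007c0001500000000000000000000000000000000000) (nat_lit 16)
theorem c115919 : QOK q115919 := cut [q105188, q105204, q105206, q110038, q82275, q96402, q105168, q3764, q12246, q82300, q82301, q82309, q105182, q82350, q3765, q89927, q115807, q115816] ⟨c105188, c105204, c105206, c110038, c82275, c96402, c105168, c3764, c12246, c82300, c82301, c82309, c105182, c82350, c3765, c89927, c115807, c115816, trivial⟩ (nd (nat_lit 251) (nat_lit 0) (cs (rf (nat_lit 0)) (cs (rf (nat_lit 1)) (cs (rf (nat_lit 2)) (cs (rf (nat_lit 3)) (cs (nd (nat_lit 231) (nat_lit 0) (cs (rf (nat_lit 4)) (cs (rf (nat_lit 5)) (cs (rf (nat_lit 6)) (nd (nat_lit 250) (nat_lit 0) (cs (rf (nat_lit 7)) (cs (rf (nat_lit 8)) (nd (nat_lit 209) (nat_lit 0) (cs (rf (nat_lit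 9)) (cs (rf (nat_lit 10)) (cs (rf (nat_lit 11)) (cs (rf (nat_lit 12)) (nd (nat_lit 227) (nat_lit 0) (cs (lf (nat_lit 22) (nat_lit 227)) (nd (nat_lit 271) (nat_lit 0) (cs (lf (nat_lit 10) (nat_lit 249)) (nd (nat_lit 275) (nat_lit 0) (cs (lf (nat_lit 5) (nat_lit 250)) (nd (nat_lit 188) (nat_lit 0) (cs (lf (nat_lit 34) (nat_lit 187)) (nd (nat_lit 166) (nat_lit 0) (cs (lf (nat_lit 33) (nat_lit 165)) (rf (nat_lit 13)))))))))))))))))))))))) (cs (nd (nat_lit 250) (nat_lit 0) (cs (rf (nat_lit 14)) (rf (nat_lit 15)))) (cs (rf (nat_lit 16)) (rf (nat_lit 17)))))))))) q115919 (by decide +kernel)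
def q2388 : Q := Q.p (nat_lit 0x2000000000010000000000000000000000000000000000000000000000000000) (nat_lit 0x7c0001fc001ff8007fe0019f800efe003ef801fff001ff8007fe000fe0003f8000a0000000000000000000) (nat_lit 19)
theorem c2388 : QOK q2388 := cut [q685, q740, q743, q760, q768, q789, q792, q914, q1120, q1136, q1456, q1561, q1596, q1716, q1988, q2210, q2239, q35, q443, q659, q661, q435, q438, q500, q6, q448, q495, q2273, q2277, q2327, q2347, q2349, q1563, q1595, q2366, q2386] ⟨c685, c740, c743, c760, c768, c789, c792, c914, c1120, c1136, c1456, c1561, c1596, c1716, c1988, c2210, c2239, c35, c443, c659, c661, c435, c438, c500, c6, c448, c495, c2273, c2277, c2327, c2347, c2349, c1563, c1595, c2366, c2386, trivial⟩ (nd (nat_lit 209) (nat_lit 0) (cs (nd (nat_lit 207) (nat_lit 0) (cs (rf (nat_lit 0)) (cs (rf (nat_lit 1)) (cs (nd (nat_lit 188) (nat_lit 0) (cs (rf (nat_lit 2)) (cs (nd (nat_lit 187) (nat_lit 0) (cs (lf (nat_lit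 12) (nat_lit 184)) (nd (nat_lit 231) (nat_lit 0) (cs (lf (nat_lit 35) (nat_lit 165)) (nd (nat_lit 252) (nat_lit 0) (cs (lf (nat_lit 41) (nat_lit 186)) (nd (nat_lit 165) (nat_lit 0) (cs (nd (nat_lit 142) (nat_lit 0) (cs (nd (nat_lit 210) (nat_lit 0) (cs (lf (nat_lit 30) (nat_lit 187)) (nd (nat_lit 143) (nat_lit 0) (cs (lf (nat_lit 24) (nat_lit 121)) (lf (nat_lit 47) (nat_lit 120)))))) (lf (nat_lit 46) (nat_lit 142)))) (lf (nat_lit 40) (nat_lit 164)))))))))) (cs (nd (nat_lit 210) (nat_lit 0) (cs (lf (nat_lit 17) (nat_lit 185)) (nd (nat_lit 231) (nat_lit 0) (cs (lf (nat_lit 30) (nat_lit 187)) (nd (nat_lit 144) (nat_lit 0) (cs (rf (nat_lit 3)) (lf (nat_lit 37) (nat_lit 143)))))))) (cs (nd (nat_lit 187) (nat_lit 0) (cs (lf (nat_lit 12) (nat_lit 184)) (nd (nat_lit 189) (nat_lit 0) (cs (lf (nat_lit 6) (nat_lit 186)) (rf (nat_lit 4)))))) (nd (nat_lit 189) (nat_lit 0) (cs (lf (nat_lit 15) (nat_lit 185)) (nd (nat_lit 187)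 (nat_lit 0) (cs (lf (nat_lit 6) (nat_lit 186)) (rf (nat_lit 4))))))))))) (cs (rf (nat_lit 5)) (cs (rf (nat_lit 6)) (cs (rf (nat_lit 7)) (cs (rf (nat_lit 8)) (rf (nat_lit 9)))))))))) (cs (rf (nat_lit 10)) (cs (rf (nat_lit 11)) (cs (rf (nat_lit 12)) (cs (rf (nat_lit 13)) (cs (rf (nat_lit 14)) (cs (rf (nat_lit 15)) (cs (rf (nat_lit 16)) (cs (nd (nat_lit 186) (nat_lit 0) (cs (rf (nat_lit 17)) (cs (rf (nat_lit 18)) (cs (rf (nat_lit 19)) (cs (rf (nat_lit 20)) (cs (nd (nat_lit 230) (nat_lit 0) (cs (rf (nat_lit 21)) (cs (rf (nat_lit 22)) (cs (rf (nat_lit 23)) (nd (nat_lit 164) (nat_lit 0) (cs (rf (nat_lit 24)) (cs (rf (nat_lit 25)) (cs (rf (nat_lit 26)) (rf (nat_lit 27)))))))))) (rf (nat_lit 28)))))))) (cs (rf (nat_lit 29)) (cs (rf (nat_lit 30)) (cs (rf (nat_lit 31)) (nd (nat_lit 231) (nat_lit 0) (cs (rf (nat_lit 32)) (cs (rf (nat_lit 33)) (cs (rf (nat_lit 34)) (rf (nat_lit 35))))))))))))))))))) q2388 (by decide +kernel)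
def q3023 : Q := Q.p (nat_lit 0x2000000000010000000000000000000000000000000000000000000000000000) (nat_lit 0x1400007e0003f80001e000ffe003ef001ffe0007f0000f80001e00005000000000000000000000000) (nat_lit 15)
theorem c3023 : QOK q3023 := cut [q2349, q2927, q2967, q1563, q1594, q1595, q33, q1562, q2982, q2987, q2950, q2990, q2949, q2276, q131, q179, q2677, q2935, q167, q3002, q3007, q2219, q3021, q3022] ⟨c2349, c2927, c2967, c1563, c1594, c1595, c33, c1562, c2982, c2987, c2950, c2990, c2949, c2276, c131, c179, c2677, c2935, c167, c3002, c3007, c2219, c3021, c3022, trivial⟩ (nd (nat_lit 209) (nat_lit 0) (cs (rf (nat_lit 0)) (cs (rf (nat_lit 1)) (cs (rf (nat_lit 2)) (cs (nd (nat_lit 231) (nat_lit 0) (cs (rf (nat_lit 3)) (cs (rf (nat_lit 4)) (cs (rf (nat_lit 5)) (nd (nat_lit 186) (nat_lit 0) (cs (rf (nat_lit 6)) (cs (rf (nat_lit 7)) (rf (nat_lit 8))))))))) (cs (rf (nat_lit 9)) (cs (nd (nat_lit 231) (nat_lit 0) (cs (rf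 (nat_lit 3)) (cs (rf (nat_lit 10)) (rf (nat_lit 11))))) (cs (nd (nat_lit 231) (nat_lit 0) (cs (rf (nat_lit 3)) (cs (rf (nat_lit 5)) (cs (rf (nat_lit 12)) (nd (nat_lit 186) (nat_lit 0) (cs (rf (nat_lit 6)) (cs (rf (nat_lit 7)) (cs (rf (nat_lit 13)) (nd (nat_lit 207) (nat_lit 0) (cs (rf (nat_lit 14)) (cs (rf (nat_lit 15)) (cs (rf (nat_lit 16)) (cs (rf (nat_lit 17)) (cs (nd (nat_lit 185) (nat_lit 0) (cs (rf (nat_lit 18)) (cs (rf (nat_lit 19)) (nd (nat_lit 210) (nat_lit 0) (cs (lf (nat_lit 18) (nat_lit 185)) (rf (nat_lit 20))))))) (nd (nat_lit 206) (nat_lit 0) (cs (lf (nat_lit 5) (nat_lit 206)) (nd (nat_lit 183) (nat_lit 0) (cs (lf (nat_lit 22) (nat_lit 183)) (nd (nat_lit 228) (nat_lit 0) (cs (lf (nat_lit 11) (nat_lit 205)) (nd (nat_lit 210) (nat_lit 0) (cs (lf (nat_lit 10) (nat_lit 206)) (nd (nat_lit 211) (nat_lit 0) (cs (lf (nat_lit 23) (nat_lit 185)) (rf (nat_lit 21)))))))))))))))))))))))))) (cs (rf (nat_lit 22))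 (rf (nat_lit 23))))))))))) q3023 (by decide +kernel)
def q3118 : Q := Q.p (nat_lit 0x2000000000010000000000000000000000000000000000000000000000000000) (nat_lit 0x2c0007f00019f800ffe00fef803ffe007fa0007f8000f80002a000000000000000000000000) (nat_lit 18)
theorem c3118 : QOK q3118 := cut [q183, q443, q516, q641, q415, q416, q424, q429, q430, q111, q263, q280, q287, q360, q131, q289, q331, q39, q295, q435, q438, q500, q6, q448, q495, q3033, q3044, q3051, q468, q3065, q3077, q3075, q3090, q3095, q3101, q517, q614, q628, q631, q636, q3116] ⟨c183, c443, c516, c641, c415, c416, c424, c429, c430, c111, c263, c280, c287, c360, c131, c289, c331, c39, c295, c435, c438, c500, c6, c448, c495, c3033, c3044, c3051, c468, c3065, c3077, c3075, c3090, c3095, c3101, c517, c614, c628, c631, c636, c3116, trivial⟩ (nd (nat_lit 186) (nat_lit 0) (cs (rf (nat_lit 0)) (cs (rf (nat_lit 1)) (cs (rf (nat_lit 2)) (cs (rf (nat_lit 3)) (cs (nd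 (nat_lit 252) (nat_lit 0) (cs (rf (nat_lit 4)) (cs (rf (nat_lit 5)) (cs (rf (nat_lit 6)) (cs (rf (nat_lit 7)) (cs (rf (nat_lit 8)) (nd (nat_lit 209) (nat_lit 0) (cs (rf (nat_lit 9)) (cs (rf (nat_lit 10)) (cs (rf (nat_lit 11)) (cs (rf (nat_lit 12)) (cs (rf (nat_lit 13)) (nd (nat_lit 231) (nat_lit 0) (cs (lf (nat_lit 42) (nat_lit 186)) (nd (nat_lit 207) (nat_lit 0) (cs (rf (nat_lit 14)) (cs (rf (nat_lit 15)) (cs (rf (nat_lit 16)) (nd (nat_lit 210) (nat_lit 0) (cs (rf (nat_lit 17)) (rf (nat_lit 18)))))))))))))))))))))) (cs (nd (nat_lit 230) (nat_lit 0) (cs (rf (nat_lit 19)) (cs (rf (nat_lit 20)) (cs (rf (nat_lit 21)) (nd (nat_lit 164) (nat_lit 0) (cs (rf (nat_lit 22)) (cs (rf (nat_lit 23)) (cs (rf (nat_lit 24)) (nd (nat_lit 165) (nat_lit 0) (cs (lf (nat_lit 35) (nat_lit 142)) (nd (nat_lit 166) (nat_lit 0) (cs (rf (nat_lit 25)) (cs (rf (nat_lit 26)) (cs (rf (nat_lit 27)) (cs (nd (nat_lit 229) (nat_lit 0) (cs (lf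 (nat_lit 41) (nat_lit 163)) (nd (nat_lit 228) (nat_lit 0) (cs (rf (nat_lit 28)) (cs (nd (nat_lit 163) (nat_lit 0) (cs (lf (nat_lit 47) (nat_lit 141)) (nd (nat_lit 188) (nat_lit 0) (cs (lf (nat_lit 5) (nat_lit 163)) (nd (nat_lit 144) (nat_lit 0) (cs (lf (nat_lit 17) (nat_lit 141)) (rf (nat_lit 29)))))))) (cs (nd (nat_lit 141) (nat_lit 0) (cs (lf (nat_lit 46) (nat_lit 141)) (rf (nat_lit 30)))) (nd (nat_lit 227) (nat_lit 0) (cs (rf (nat_lit 31)) (cs (nd (nat_lit 205) (nat_lit 0) (cs (lf (nat_lit 23) (nat_lit 204)) (nd (nat_lit 163) (nat_lit 0) (cs (lf (nat_lit 47) (nat_lit 141)) (rf (nat_lit 32)))))) (cs (rf (nat_lit 33)) (nd (nat_lit 204) (nat_lit 0) (cs (lf (nat_lit 22) (nat_lit 204)) (nd (nat_lit 226) (nat_lit 0) (cs (lf (nat_lit 23) (nat_lit 203)) (lf (nat_lit 16) (nat_lit 204)))))))))))))))) (nd (nat_lit 163) (nat_lit 0) (cs (lf (nat_lit 47) (nat_lit 141)) (nd (nat_lit 229) (nat_lit 0) (cs (lf (nat_lit 41)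 (nat_lit 163)) (nd (nat_lit 145) (nat_lit 0) (cs (lf (nat_lit 16) (nat_lit 141)) (nd (nat_lit 188) (nat_lit 0) (cs (lf (nat_lit 5) (nat_lit 163)) (nd (nat_lit 167) (nat_lit 0) (cs (lf (nat_lit 17) (nat_lit 142)) (nd (nat_lit 101) (nat_lit 0) (cs (nd (nat_lit 210) (nat_lit 0) (cs (nd (nat_lit 168) (nat_lit 0) (cs (lf (nat_lit 10) (nat_lit 164)) (rf (nat_lit 34)))) (lf (nat_lit 30) (nat_lit 144)))) (lf (nat_lit 37) (nat_lit 100))))))))))))))))))))))))))))) (nd (nat_lit 164) (nat_lit 0) (cs (rf (nat_lit 35)) (cs (rf (nat_lit 36)) (cs (rf (nat_lit 37)) (cs (rf (nat_lit 38)) (cs (rf (nat_lit 39)) (rf (nat_lit 40))))))))))))))) q3118 (by decide +kernel)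
def q3820 : Q := Q.p (nat_lit 0x2000000000018000000000000000000000000000000000000000000000000000) (nat_lit 0x200000c80003f0001fc0001f8001fe000078001fe000ff8003fe0003f00009000000000000000000000000) (nat_lit 16)
theorem c3820 : QOK q3820 := cut [q3482, q3756, q3123, q3441, q3191, q3192, q2409, q2065, q3764, q3765, q3770, q3776, q3779, q3782, q3480, q3793, q3795, q3799, q3816, q3819] ⟨c3482, c3756, c3123, c3441, c3191, c3192, c2409, c2065, c3764, c3765, c3770, c3776, c3779, c3782, c3480, c3793, c3795, c3799, c3816, c3819, trivial⟩ (nd (nat_lit 186) (nat_lit 0) (cs (rf (nat_lit 0)) (cs (rf (nat_lit 1)) (cs (nd (nat_lit 206) (nat_lit 0) (cs (rf (nat_lit 2)) (cs (rf (nat_lit 3)) (cs (nd (nat_lit 252) (nat_lit 0) (cs (rf (nat_lit 4)) (cs (rf (nat_lit 5)) (cs (nd (nat_lit 251) (nat_lit 0) (cs (nd (nat_lit 229) (nat_lit 0) (cs (lf (nat_lit 30) (nat_lit 185)) (nd (nat_lit 185) (nat_lit 0) (cs (lf (nat_lit 29) (nat_lit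 185)) (nd (nat_lit 187) (nat_lit 0) (cs (lf (nat_lit 6) (nat_lit 184)) (nd (nat_lit 162) (nat_lit 0) (cs (lf (nat_lit 46) (nat_lit 162)) (nd (nat_lit 163) (nat_lit 0) (cs (lf (nat_lit 47) (nat_lit 140)) (rf (nat_lit 6)))))))))))) (cs (nd (nat_lit 250) (nat_lit 0) (cs (rf (nat_lit 7)) (cs (rf (nat_lit 8)) (cs (rf (nat_lit 9)) (nd (nat_lit 275) (nat_lit 0) (cs (lf (nat_lit 5) (nat_lit 250)) (nd (nat_lit 271) (nat_lit 0) (cs (lf (nat_lit 10) (nat_lit 249)) (rf (nat_lit 10)))))))))) (cs (nd (nat_lit 250) (nat_lit 0) (cs (rf (nat_lit 8)) (cs (nd (nat_lit 229) (nat_lit 0) (cs (lf (nat_lit 30) (nat_lit 185)) (rf (nat_lit 11)))) (rf (nat_lit 12))))) (cs (nd (nat_lit 250) (nat_lit 0) (cs (rf (nat_lit 8)) (cs (rf (nat_lit 9)) (nd (nat_lit 229) (nat_lit 0) (cs (lf (nat_lit 30) (nat_lit 185)) (rf (nat_lit 13))))))) (cs (nd (nat_lit 250) (nat_lit 0) (cs (rf (nat_lit 7)) (cs (rf (nat_lit 10)) (rf (nat_lit 12))))) (nd (nat_lit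 250) (nat_lit 0) (cs (rf (nat_lit 7)) (cs (rf (nat_lit 8)) (cs (rf (nat_lit 9)) (nd (nat_lit 275) (nat_lit 0) (cs (lf (nat_lit 5) (nat_lit 250)) (nd (nat_lit 272) (nat_lit 0) (cs (lf (nat_lit 11) (nat_lit 249)) (nd (nat_lit 185) (nat_lit 0) (cs (lf (nat_lit 38) (nat_lit 184)) (lf (nat_lit 32) (nat_lit 184)))))))))))))))))) (cs (nd (nat_lit 230) (nat_lit 0) (cs (lf (nat_lit 29) (nat_lit 186)) (rf (nat_lit 14)))) (rf (nat_lit 15))))))) (rf (nat_lit 16)))))) (cs (rf (nat_lit 17)) (cs (rf (nat_lit 18)) (rf (nat_lit 19)))))))) q3820 (by decide +kernel)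
def q4373 : Q := Q.p (nat_lit 0x2000000000018000000000000000000000000000000000000000000000000000) (nat_lit 0x80002f0001fc0001f8000ff000678001fe000ff8003fc0003f00009000000000000000000000000) (nat_lit 16)
theorem c4373 : QOK q4373 := cut [q443, q516, q3195, q3756, q2451, q3123, q3889, q2412, q3826, q3503, q3564, q2286, q4356, q2288, q4363, q4370] ⟨c443, c516, c3195, c3756, c2451, c3123, c3889, c2412, c3826, c3503, c3564, c2286, c4356, c2288, c4363, c4370, trivial⟩ (nd (nat_lit 186) (nat_lit 0) (cs (rf (nat_lit 0)) (cs (rf (nat_lit 1)) (cs (rf (nat_lit 2)) (cs (rf (nat_lit 3)) (nd (nat_lit 206) (nat_lit 0) (cs (rf (nat_lit 4)) (cs (rf (nat_lit 5)) (cs (rf (nat_lit 6)) (nd (nat_lit 184) (nat_lit 0) (cs (rf (nat_lit 7)) (cs (rf (nat_lit 8)) (cs (nd (nat_lit 185) (nat_lit 0) (cs (rf (nat_lit 9)) (cs (rf (nat_lit 10)) (nd (nat_lit 250) (nat_lit 0) (cs (nd (nat_lit 228) (nat_lit 0) (cs (lf (nat_lit 30) (nat_lit 184))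 (lf (nat_lit 35) (nat_lit 162)))) (cs (nd (nat_lit 251) (nat_lit 0) (cs (rf (nat_lit 11)) (cs (rf (nat_lit 12)) (nd (nat_lit 187) (nat_lit 0) (cs (lf (nat_lit 6) (nat_lit 184)) (nd (nat_lit 165) (nat_lit 0) (cs (lf (nat_lit 17) (nat_lit 162)) (nd (nat_lit 121) (nat_lit 0) (cs (lf (nat_lit 37) (nat_lit 120)) (nd (nat_lit 252) (nat_lit 0) (cs (lf (nat_lit 31) (nat_lit 164)) (rf (nat_lit 13))))))))))))) (nd (nat_lit 187) (nat_lit 0) (cs (lf (nat_lit 6) (nat_lit 184)) (nd (nat_lit 165) (nat_lit 0) (cs (lf (nat_lit 17) (nat_lit 162)) (nd (nat_lit 121) (nat_lit 0) (cs (lf (nat_lit 37) (nat_lit 120)) (nd (nat_lit 230) (nat_lit 0) (cs (lf (nat_lit 30) (nat_lit 164)) (rf (nat_lit 14)))))))))))))))) (rf (nat_lit 15))))))))))))))) q4373 (by decide +kernel)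
def q5625 : Q := Q.p (nat_lit 0x2000000000010000000000000000000000000000000000000000000000000000) (nat_lit 0x700001e0003fe0007f8001ff8007ff0001f800fff001ef800fff0005fc001ff0003f0000e800000000000000000000000) (nat_lit 19)
theorem c5625 : QOK q5625 := cut [q3319, q3825, q5043, q5364, q3296, q3328, q3364, q3376, q3381, q3441, q740, q1136, q117, q3823, q767, q5370, q5373, q5374, q5532, q5577, q5586, q5609, q3989, q3996, q5354, q5362, q5363, q1411, q4040, q4055, q4006, q4007, q4032, q5613, q1156, q4165, q4167, q4173, q4270, q4334, q5352, q685, q1476, q1551, q1560, q516, q3819, q4103, q4436, q5034, q5042, q3216, q3219, q3255, q3260, q3277, q3365, q791, q1123, q1555] ⟨c3319, c3825, c5043, c5364, c3296, c3328, c3364, c3376, c3381, c3441, c740, c1136, c117, c3823, c767, c5370, c5373, c5374, c5532, c5577, c5586, c5609, c3989, c3996, c5354, c5362, c5363, c1411, c4040, c4055, c4006, c4007, c4032, c5613, c1156, c4165, c4167,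 c4173, c4270, c4334, c5352, c685, c1476, c1551, c1560, c516, c3819, c4103, c4436, c5034, c5042, c3216, c3219, c3255, c3260, c3277, c3365, c791, c1123, c1555, trivial⟩ (nd (nat_lit 207) (nat_lit 0) (cs (rf (nat_lit 0)) (cs (rf (nat_lit 1)) (cs (rf (nat_lit 2)) (cs (rf (nat_lit 3)) (cs (nd (nat_lit 206) (nat_lit 0) (cs (rf (nat_lit 4)) (cs (rf (nat_lit 5)) (cs (rf (nat_lit 6)) (cs (rf (nat_lit 7)) (cs (rf (nat_lit 8)) (rf (nat_lit 9)))))))) (cs (nd (nat_lit 209) (nat_lit 0) (cs (rf (nat_lit 10)) (cs (rf (nat_lit 11)) (cs (nd (nat_lit 206) (nat_lit 0) (cs (rf (nat_lit 12)) (cs (rf (nat_lit 13)) (cs (nd (nat_lit 231) (nat_lit 0) (cs (lf (nat_lit 5) (nat_lit 206)) (nd (nat_lit 183) (nat_lit 0) (cs (lf (nat_lit 22) (nat_lit 183)) (nd (nat_lit 227) (nat_lit 0) (cs (lf (nat_lit 10) (nat_lit 205)) (nd (nat_lit 187) (nat_lit 0) (cs (lf (nat_lit 17) (nat_lit 184)) (rf (nat_lit 14)))))))))) (nd (nat_lit 187) (nat_lit 0)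 (cs (lf (nat_lit 17) (nat_lit 184)) (rf (nat_lit 15)))))))) (cs (rf (nat_lit 16)) (rf (nat_lit 17))))))) (cs (rf (nat_lit 18)) (cs (rf (nat_lit 19)) (cs (rf (nat_lit 20)) (cs (rf (nat_lit 21)) (cs (nd (nat_lit 230) (nat_lit 0) (cs (rf (nat_lit 22)) (cs (rf (nat_lit 23)) (cs (rf (nat_lit 24)) (cs (rf (nat_lit 25)) (cs (rf (nat_lit 26)) (nd (nat_lit 252) (nat_lit 0) (cs (rf (nat_lit 27)) (cs (rf (nat_lit 28)) (cs (rf (nat_lit 29)) (nd (nat_lit 206) (nat_lit 0) (cs (rf (nat_lit 30)) (cs (rf (nat_lit 31)) (cs (rf (nat_lit 32)) (rf (nat_lit 33)))))))))))))))) (cs (nd (nat_lit 230) (nat_lit 0) (cs (rf (nat_lit 22)) (cs (rf (nat_lit 23)) (cs (rf (nat_lit 24)) (cs (rf (nat_lit 25)) (cs (rf (nat_lit 26)) (nd (nat_lit 252) (nat_lit 0) (cs (rf (nat_lit 27)) (cs (rf (nat_lit 28)) (cs (rf (nat_lit 29)) (nd (nat_lit 206) (nat_lit 0) (cs (rf (nat_lit 34)) (cs (rf (nat_lit 35)) (cs (rf (nat_lit 36)) (cs (rf (nat_lit 37)) (rf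 (nat_lit 33))))))))))))))))) (cs (nd (nat_lit 230) (nat_lit 0) (cs (rf (nat_lit 22)) (cs (rf (nat_lit 23)) (cs (rf (nat_lit 38)) (cs (rf (nat_lit 39)) (cs (rf (nat_lit 40)) (rf (nat_lit 24)))))))) (cs (nd (nat_lit 209) (nat_lit 0) (cs (rf (nat_lit 41)) (cs (rf (nat_lit 10)) (cs (rf (nat_lit 11)) (cs (rf (nat_lit 42)) (cs (rf (nat_lit 43)) (rf (nat_lit 44)))))))) (cs (nd (nat_lit 186) (nat_lit 0) (cs (rf (nat_lit 45)) (cs (rf (nat_lit 46)) (cs (rf (nat_lit 47)) (cs (rf (nat_lit 48)) (cs (rf (nat_lit 49)) (rf (nat_lit 50)))))))) (nd (nat_lit 206) (nat_lit 0) (cs (rf (nat_lit 51)) (cs (rf (nat_lit 52)) (cs (rf (nat_lit 53)) (cs (rf (nat_lit 54)) (cs (rf (nat_lit 55)) (cs (rf (nat_lit 56)) (nd (nat_lit 209) (nat_lit 0) (cs (rf (nat_lit 57)) (cs (rf (nat_lit 58)) (rf (nat_lit 59)))))))))))))))))))))))))))) q5625 (by decide +kernel)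
def q5681 : Q := Q.p (nat_lit 0x2000000000010000000000000000000000000000000000000000000000000000) (nat_lit 0x700001c0003fe0007f0001fe0007fc0009e0007fe001ef000ffe0003f8003fe0003e0000f8000380000a0000000000000) (nat_lit 16)
theorem c5681 : QOK q5681 := cut [q443, q516, q641, q517, q636, q2870, q4930, q4998, q35, q105, q5627, q344, q2629, q2630, q2632, q2677, q39, q2456, q5634, q5666, q435, q438, q500, q6, q448, q495, q2246, q2270, q5672, q5675, q558, q617, q619, q2906, q3194] ⟨c443, c516, c641, c517, c636, c2870, c4930, c4998, c35, c105, c5627, c344, c2629, c2630, c2632, c2677, c39, c2456, c5634, c5666, c435, c438, c500, c6, c448, c495, c2246, c2270, c5672, c5675, c558, c617, c619, c2906, c3194, trivial⟩ (nd (nat_lit 186) (nat_lit 0) (cs (rf (nat_lit 0)) (cs (rf (nat_lit 1)) (cs (rf (nat_lit 2)) (cs (nd (nat_lit 164) (nat_lit 0) (cs (rf (nat_lit 3)) (cs (rf (nat_lit 4)) (cs (rf (nat_lit 5)) (cs (rf (nat_lit 6))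 (cs (nd (nat_lit 230) (nat_lit 0) (cs (lf (nat_lit 28) (nat_lit 164)) (nd (nat_lit 229) (nat_lit 0) (cs (lf (nat_lit 41) (nat_lit 163)) (nd (nat_lit 142) (nat_lit 0) (cs (lf (nat_lit 40) (nat_lit 141)) (nd (nat_lit 121) (nat_lit 0) (cs (lf (nat_lit 34) (nat_lit 120)) (nd (nat_lit 120) (nat_lit 0) (cs (lf (nat_lit 35) (nat_lit 98)) (nd (nat_lit 163) (nat_lit 0) (cs (lf (nat_lit 47) (nat_lit 141)) (nd (nat_lit 185) (nat_lit 0) (cs (lf (nat_lit 42) (nat_lit 163)) (lf (nat_lit 36) (nat_lit 97)))))))))))))))) (nd (nat_lit 230) (nat_lit 0) (cs (lf (nat_lit 28) (nat_lit 164)) (nd (nat_lit 143) (nat_lit 0) (cs (lf (nat_lit 34) (nat_lit 142)) (nd (nat_lit 142) (nat_lit 0) (cs (lf (nat_lit 35) (nat_lit 120)) (nd (nat_lit 163) (nat_lit 0) (cs (lf (nat_lit 47) (nat_lit 141)) (nd (nat_lit 144) (nat_lit 0) (cs (lf (nat_lit 6) (nat_lit 141)) (nd (nat_lit 185) (nat_lit 0) (cs (lf (nat_lit 42) (nat_lit 163)) (rf (nat_lit 7))))))))))))))))))))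 (cs (nd (nat_lit 209) (nat_lit 0) (cs (rf (nat_lit 8)) (cs (rf (nat_lit 9)) (cs (rf (nat_lit 10)) (nd (nat_lit 207) (nat_lit 0) (cs (rf (nat_lit 11)) (cs (rf (nat_lit 12)) (cs (rf (nat_lit 13)) (cs (rf (nat_lit 14)) (cs (rf (nat_lit 15)) (nd (nat_lit 210) (nat_lit 0) (cs (rf (nat_lit 16)) (cs (rf (nat_lit 17)) (nd (nat_lit 231) (nat_lit 0) (cs (lf (nat_lit 42) (nat_lit 186)) (rf (nat_lit 18))))))))))))))))) (cs (rf (nat_lit 19)) (cs (nd (nat_lit 230) (nat_lit 0) (cs (rf (nat_lit 20)) (cs (rf (nat_lit 21)) (cs (rf (nat_lit 22)) (nd (nat_lit 164) (nat_lit 0) (cs (rf (nat_lit 23)) (cs (rf (nat_lit 24)) (cs (rf (nat_lit 25)) (nd (nat_lit 163) (nat_lit 0) (cs (lf (nat_lit 47) (nat_lit 141)) (nd (nat_lit 162) (nat_lit 0) (cs (rf (nat_lit 26)) (cs (rf (nat_lit 27)) (cs (rf (nat_lit 28)) (rf (nat_lit 29)))))))))))))))) (nd (nat_lit 164) (nat_lit 0) (cs (rf (nat_lit 5)) (cs (nd (nat_lit 142) (nat_lit 0) (cs (rf (nat_lit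 30)) (cs (rf (nat_lit 31)) (cs (rf (nat_lit 32)) (nd (nat_lit 119) (nat_lit 0) (cs (lf (nat_lit 46) (nat_lit 119)) (rf (nat_lit 33)))))))) (rf (nat_lit 34))))))))))))) q5681 (by decide +kernel)
def q5892 : Q := Q.p (nat_lit 0x2000000000030000040000000000000000000000000000000000000000000000) (nat_lit 0x20000380001e00033c000cf8002be001ff8003fc001ff0003f8000fa000060000000000000) (nat_lit 17)
theorem c5892 : QOK q5892 := cut [q1170, q2175, q5849, q5851, q5891] ⟨c1170, c2175, c5849, c5851, c5891, trivial⟩ (nd (nat_lit 185) (nat_lit 0) (cs (rf (nat_lit 0)) (cs (rf (nat_lit 1)) (cs (rf (nat_lit 2)) (cs (rf (nat_lit 3)) (rf (nat_lit 4))))))) q5892 (by decide +kernel)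
def q6921 : Q := Q.p (nat_lit 0x2000000000018000000000000000000000000000000000000000000000000000) (nat_lit 0x20000180000e8001fe0007f80001e0003de000270003fe001ff8007f80003e0000e800020000000000000000000) (nat_lit 14)
theorem c6921 : QOK q6921 := cut [q3996, q5055, q5054, q4007, q6611, q4010, q6595, q3392, q3187, q6870, q3282, q4003, q6873, q6882, q6887, q6889, q1339, q4046, q6884, q639, q3797, q6892, q527, q530, q2451, q448, q5040, q526, q529, q6896, q456, q462, q490, q3201, q6902, q4059, q4346, q6906, q5355, q6913, q579] ⟨c3996, c5055, c5054, c4007, c6611, c4010, c6595, c3392, c3187, c6870, c3282, c4003, c6873, c6882, c6887, c6889, c1339, c4046, c6884, c639, c3797, c6892, c527, c530, c2451, c448, c5040, c526, c529, c6896, c456, c462, c490, c3201, c6902, c4059, c4346, c6906, c5355, c6913, c579, trivial⟩ (nd (nat_lit 230) (nat_lit 0) (cs (rf (nat_lit 0)) (cs (rf (nat_lit 1)) (cs (nd (nat_lit 252) (nat_lit 0) (cs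 (rf (nat_lit 2)) (cs (nd (nat_lit 206) (nat_lit 0) (cs (rf (nat_lit 3)) (cs (rf (nat_lit 4)) (cs (nd (nat_lit 228) (nat_lit 0) (cs (rf (nat_lit 5)) (cs (rf (nat_lit 6)) (cs (nd (nat_lit 250) (nat_lit 0) (cs (rf (nat_lit 7)) (nd (nat_lit 251) (nat_lit 0) (cs (lf (nat_lit 23) (nat_lit 227)) (rf (nat_lit 8)))))) (nd (nat_lit 250) (nat_lit 0) (cs (rf (nat_lit 7)) (rf (nat_lit 9)))))))) (nd (nat_lit 227) (nat_lit 0) (cs (rf (nat_lit 10)) (cs (rf (nat_lit 11)) (cs (nd (nat_lit 226) (nat_lit 0) (cs (lf (nat_lit 9) (nat_lit 204)) (nd (nat_lit 228) (nat_lit 0) (cs (lf (nat_lit 12) (nat_lit 203)) (rf (nat_lit 12)))))) (nd (nat_lit 228) (nat_lit 0) (cs (lf (nat_lit 6) (nat_lit 205)) (rf (nat_lit 12)))))))))))) (cs (rf (nat_lit 13)) (cs (rf (nat_lit 14)) (cs (rf (nat_lit 15)) (nd (nat_lit 274) (nat_lit 0) (cs (rf (nat_lit 16)) (cs (rf (nat_lit 17)) (rf (nat_lit 18))))))))))) (cs (nd (nat_lit 186) (nat_lit 0) (cs (rf (nat_lit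 19)) (cs (rf (nat_lit 20)) (cs (rf (nat_lit 21)) (nd (nat_lit 206) (nat_lit 0) (cs (rf (nat_lit 22)) (cs (rf (nat_lit 23)) (cs (rf (nat_lit 24)) (nd (nat_lit 164) (nat_lit 0) (cs (rf (nat_lit 25)) (cs (rf (nat_lit 26)) (cs (nd (nat_lit 187) (nat_lit 0) (cs (rf (nat_lit 27)) (cs (rf (nat_lit 28)) (nd (nat_lit 143) (nat_lit 0) (cs (lf (nat_lit 34) (nat_lit 142)) (rf (nat_lit 29))))))) (cs (nd (nat_lit 165) (nat_lit 0) (cs (lf (nat_lit 35) (nat_lit 142)) (nd (nat_lit 184) (nat_lit 0) (cs (rf (nat_lit 30)) (cs (rf (nat_lit 31)) (cs (rf (nat_lit 32)) (rf (nat_lit 33)))))))) (rf (nat_lit 34))))))))))))))) (cs (nd (nat_lit 252) (nat_lit 0) (cs (rf (nat_lit 35)) (cs (rf (nat_lit 36)) (cs (rf (nat_lit 13)) (nd (nat_lit 186) (nat_lit 0) (cs (lf (nat_lit 29) (nat_lit 186)) (nd (nat_lit 251) (nat_lit 0) (cs (lf (nat_lit 41) (nat_lit 185)) (nd (nat_lit 163) (nat_lit 0) (cs (lf (nat_lit 46) (nat_lit 163)) (nd (nat_lit 141)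 (nat_lit 0) (cs (lf (nat_lit 45) (nat_lit 141)) (rf (nat_lit 37)))))))))))))) (nd (nat_lit 186) (nat_lit 0) (cs (rf (nat_lit 20)) (cs (rf (nat_lit 38)) (cs (rf (nat_lit 39)) (cs (nd (nat_lit 164) (nat_lit 0) (cs (lf (nat_lit 28) (nat_lit 164)) (rf (nat_lit 34)))) (nd (nat_lit 164) (nat_lit 0) (cs (lf (nat_lit 28) (nat_lit 164)) (nd (nat_lit 165) (nat_lit 0) (cs (lf (nat_lit 35) (nat_lit 142)) (nd (nat_lit 141) (nat_lit 0) (cs (lf (nat_lit 46) (nat_lit 141)) (nd (nat_lit 187) (nat_lit 0) (cs (lf (nat_lit 30) (nat_lit 164)) (nd (nat_lit 119) (nat_lit 0) (cs (rf (nat_lit 40)) (lf (nat_lit 45) (nat_lit 119))))))))))))))))))))))) q6921 (by decide +kernel)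
def q7327 : Q := Q.p (nat_lit 0x2000000000018000000000000000000000000000000000000000000000000000) (nat_lit 0x20000380000f8001fe0007f80001f0003fe000270003fe000360000d80002000000000000000000000000000000) (nat_lit 15)
theorem c7327 : QOK q7327 := cut [q3989, q3996, q5241, q3991, q5353, q6882, q7303, q4007, q4032, q4055, q5054, q6673, q6889, q4029, q4030, q4186, q6870, q1418, q3282, q7319, q4940, q3818, q6913] ⟨c3989, c3996, c5241, c3991, c5353, c6882, c7303, c4007, c4032, c4055, c5054, c6673, c6889, c4029, c4030, c4186, c6870, c1418, c3282, c7319, c4940, c3818, c6913, trivial⟩ (nd (nat_lit 230) (nat_lit 0) (cs (rf (nat_lit 0)) (cs (rf (nat_lit 1)) (cs (rf (nat_lit 2)) (cs (nd (nat_lit 252) (nat_lit 0) (cs (rf (nat_lit 3)) (cs (rf (nat_lit 4)) (cs (rf (nat_lit 5)) (nd (nat_lit 274) (nat_lit 0) (cs (lf (nat_lit 47) (nat_lit 185)) (nd (nat_lit 187) (nat_lit 0) (cs (lf (nat_lit 34) (nat_lit 186)) (nd (nat_lit 273) (nat_lit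 0) (cs (lf (nat_lit 41) (nat_lit 207)) (rf (nat_lit 6)))))))))))) (cs (nd (nat_lit 206) (nat_lit 0) (cs (rf (nat_lit 7)) (cs (rf (nat_lit 8)) (cs (nd (nat_lit 252) (nat_lit 0) (cs (rf (nat_lit 9)) (cs (rf (nat_lit 10)) (cs (rf (nat_lit 11)) (cs (rf (nat_lit 12)) (cs (nd (nat_lit 228) (nat_lit 0) (cs (rf (nat_lit 13)) (cs (rf (nat_lit 14)) (nd (nat_lit 250) (nat_lit 0) (cs (rf (nat_lit 15)) (rf (nat_lit 16))))))) (nd (nat_lit 274) (nat_lit 0) (cs (lf (nat_lit 47) (nat_lit 185)) (nd (nat_lit 187) (nat_lit 0) (cs (lf (nat_lit 34) (nat_lit 186)) (nd (nat_lit 273) (nat_lit 0) (cs (lf (nat_lit 41) (nat_lit 207)) (nd (nat_lit 229) (nat_lit 0) (cs (lf (nat_lit 42) (nat_lit 207)) (nd (nat_lit 231) (nat_lit 0) (cs (lf (nat_lit 18) (nat_lit 206)) (nd (nat_lit 227) (nat_lit 0) (cs (lf (nat_lit 1) (nat_lit 227)) (nd (nat_lit 272) (nat_lit 0) (cs (lf (nat_lit 12) (nat_lit 249)) (nd (nat_lit 251) (nat_lit 0) (cs (lf (nat_lit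 41) (nat_lit 206)) (lf (nat_lit 47) (nat_lit 184)))))))))))))))))))))))) (nd (nat_lit 227) (nat_lit 0) (cs (rf (nat_lit 17)) (cs (rf (nat_lit 18)) (cs (rf (nat_lit 19)) (nd (nat_lit 228) (nat_lit 0) (cs (lf (nat_lit 6) (nat_lit 205)) (nd (nat_lit 229) (nat_lit 0) (cs (lf (nat_lit 4) (nat_lit 227)) (nd (nat_lit 248) (nat_lit 0) (cs (lf (nat_lit 10) (nat_lit 226)) (nd (nat_lit 205) (nat_lit 0) (cs (lf (nat_lit 23) (nat_lit 204)) (rf (nat_lit 20)))))))))))))))))) (nd (nat_lit 186) (nat_lit 0) (cs (rf (nat_lit 21)) (rf (nat_lit 22)))))))))) q7327 (by decide +kernel)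
def q7355 : Q := Q.p (nat_lit 0x2000000000018000000000000000000000000000000000000000000000000000) (nat_lit 0x280000f00007c0001f8000fe000278003fe000ff8003fe000ff0000f000020000000000000000000) (nat_lit 16)
theorem c7355 : QOK q7355 := cut [q3756, q3816, q6865, q527, q530, q6597, q524, q614, q631, q6556, q5041, q6936, q562, q4600, q522, q558, q618, q1650, q4505, q4511, q6902, q7340, q7348, q517, q2869, q7352] ⟨c3756, c3816, c6865, c527, c530, c6597, c524, c614, c631, c6556, c5041, c6936, c562, c4600, c522, c558, c618, c1650, c4505, c4511, c6902, c7340, c7348, c517, c2869, c7352, trivial⟩ (nd (nat_lit 186) (nat_lit 0) (cs (rf (nat_lit 0)) (cs (rf (nat_lit 1)) (cs (rf (nat_lit 2)) (cs (nd (nat_lit 206) (nat_lit 0) (cs (rf (nat_lit 3)) (cs (rf (nat_lit 4)) (rf (nat_lit 5))))) (cs (nd (nat_lit 164) (nat_lit 0) (cs (rf (nat_lit 6)) (cs (rf (nat_lit 7)) (cs (rf (nat_lit 8)) (nd (nat_lit 230) (nat_lit 0) (cs (lf (nat_lit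 28) (nat_lit 164)) (nd (nat_lit 229) (nat_lit 0) (cs (lf (nat_lit 41) (nat_lit 163)) (nd (nat_lit 143) (nat_lit 0) (cs (lf (nat_lit 34) (nat_lit 142)) (nd (nat_lit 163) (nat_lit 0) (cs (lf (nat_lit 47) (nat_lit 141)) (nd (nat_lit 185) (nat_lit 0) (cs (lf (nat_lit 42) (nat_lit 163)) (rf (nat_lit 9)))))))))))))))) (cs (nd (nat_lit 164) (nat_lit 0) (cs (rf (nat_lit 8)) (cs (rf (nat_lit 10)) (cs (rf (nat_lit 11)) (cs (nd (nat_lit 187) (nat_lit 0) (cs (rf (nat_lit 12)) (cs (nd (nat_lit 163) (nat_lit 0) (cs (nd (nat_lit 162) (nat_lit 0) (cs (lf (nat_lit 0) (nat_lit 161)) (nd (nat_lit 188) (nat_lit 0) (cs (lf (nat_lit 6) (nat_lit 185)) (lf (nat_lit 21) (nat_lit 162)))))) (nd (nat_lit 209) (nat_lit 0) (cs (lf (nat_lit 43) (nat_lit 164)) (nd (nat_lit 142) (nat_lit 0) (cs (lf (nat_lit 24) (nat_lit 120)) (rf (nat_lit 13)))))))) (nd (nat_lit 206) (nat_lit 0) (cs (lf (nat_lit 12) (nat_lit 183)) (nd (nat_lit 142) (nat_lit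 0) (cs (rf (nat_lit 14)) (cs (rf (nat_lit 15)) (cs (rf (nat_lit 16)) (nd (nat_lit 163) (nat_lit 0) (cs (rf (nat_lit 17)) (cs (nd (nat_lit 141) (nat_lit 0) (cs (lf (nat_lit 47) (nat_lit 119)) (nd (nat_lit 185) (nat_lit 0) (cs (lf (nat_lit 41) (nat_lit 140)) (rf (nat_lit 18)))))) (nd (nat_lit 141) (nat_lit 0) (cs (lf (nat_lit 47) (nat_lit 119)) (nd (nat_lit 161) (nat_lit 0) (cs (lf (nat_lit 1) (nat_lit 161)) (nd (nat_lit 185) (nat_lit 0) (cs (lf (nat_lit 41) (nat_lit 140)) (nd (nat_lit 121) (nat_lit 0) (cs (lf (nat_lit 34) (nat_lit 120)) (rf (nat_lit 19)))))))))))))))))))))) (cs (nd (nat_lit 230) (nat_lit 0) (cs (lf (nat_lit 28) (nat_lit 164)) (rf (nat_lit 20)))) (cs (nd (nat_lit 230) (nat_lit 0) (cs (lf (nat_lit 28) (nat_lit 164)) (nd (nat_lit 165) (nat_lit 0) (cs (lf (nat_lit 35) (nat_lit 142)) (nd (nat_lit 141) (nat_lit 0) (cs (lf (nat_lit 46) (nat_lit 141)) (rf (nat_lit 21)))))))) (rf (nat_lit 22))))))))) (cs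 (nd (nat_lit 164) (nat_lit 0) (cs (rf (nat_lit 23)) (cs (rf (nat_lit 24)) (cs (rf (nat_lit 11)) (rf (nat_lit 25)))))) (nd (nat_lit 164) (nat_lit 0) (cs (rf (nat_lit 23)) (cs (rf (nat_lit 24)) (cs (rf (nat_lit 22)) (rf (nat_lit 25)))))))))))))) q7355 (by decide +kernel)
def q7602 : Q := Q.p (nat_lit 0x2000000000010000000000000000000000000000000000000000000000000000) (nat_lit 0x1400007c0003f80009e003ffe007ef001ffc001fc001fd0007fe0003e000000000000000000000000) (nat_lit 17)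
theorem c7602 : QOK q7602 := cut [q1596, q2216, q2347, q2987, q3021, q3022, q7421, q82, q87, q98, q1832, q1857, q7427, q7431, q7437, q7440, q7451, q7452, q7466, q7469, q75, q5683, q7479, q653, q2224, q7481, q7499, q7507, q7509, q7501, q7519, q7535, q7555, q1563, q1595, q2949, q119, q2935, q2938, q7467, q4607, q7561, q33, q1562, q7571, q6559, q7582, q2346, q2932, q2959, q2966, q7599, q2386] ⟨c1596, c2216, c2347, c2987, c3021, c3022, c7421, c82, c87, c98, c1832, c1857, c7427, c7431, c7437, c7440, c7451, c7452, c7466, c7469, c75, c5683, c7479, c653, c2224, c7481, c7499, c7507, c7509, c7501, c7519, c7535, c7555, c1563, c1595, c2949, c119, c2935, c2938, c7467, c4607, c7561, c33, c1562, c7571, c6559, c7582, c2346, c2932, c2959, c2966, c7599, c2386, trivial⟩ (nd (nat_lit 209) (nat_lit 0) (cs (rf (nat_lit 0)) (cs (rf (nat_lit 1)) (cs (rf (nat_lit 2)) (cs (rf (nat_lit 3)) (cs (rf (nat_lit 4)) (cs (rf (nat_lit 5)) (cs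 (nd (nat_lit 210) (nat_lit 0) (cs (rf (nat_lit 6)) (cs (nd (nat_lit 207) (nat_lit 0) (cs (rf (nat_lit 7)) (cs (rf (nat_lit 8)) (cs (rf (nat_lit 9)) (nd (nat_lit 229) (nat_lit 0) (cs (lf (nat_lit 11) (nat_lit 206)) (nd (nat_lit 251) (nat_lit 0) (cs (rf (nat_lit 10)) (cs (rf (nat_lit 11)) (cs (nd (nat_lit 232) (nat_lit 0) (cs (lf (nat_lit 5) (nat_lit 207)) (rf (nat_lit 12)))) (nd (nat_lit 188) (nat_lit 0) (cs (lf (nat_lit 17) (nat_lit 185)) (nd (nat_lit 232) (nat_lit 0) (cs (lf (nat_lit 5) (nat_lit 207)) (rf (nat_lit 13)))))))))))))))) (cs (rf (nat_lit 14)) (cs (rf (nat_lit 15)) (cs (rf (nat_lit 16)) (rf (nat_lit 17)))))))) (cs (rf (nat_lit 18)) (cs (rf (nat_lit 19)) (cs (nd (nat_lit 210) (nat_lit 0) (cs (rf (nat_lit 14)) (cs (rf (nat_lit 15)) (cs (rf (nat_lit 16)) (cs (rf (nat_lit 17)) (cs (nd (nat_lit 186) (nat_lit 0) (cs (rf (nat_lit 20)) (cs (rf (nat_lit 21)) (cs (nd (nat_lit 187) (nat_lit 0) (cs (rf (nat_lit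 22)) (cs (nd (nat_lit 165) (nat_lit 0) (cs (rf (nat_lit 23)) (cs (rf (nat_lit 24)) (nd (nat_lit 184) (nat_lit 0) (cs (lf (nat_lit 1) (nat_lit 184)) (rf (nat_lit 25))))))) (cs (nd (nat_lit 188) (nat_lit 0) (cs (rf (nat_lit 26)) (cs (rf (nat_lit 27)) (cs (rf (nat_lit 28)) (nd (nat_lit 189) (nat_lit 0) (cs (lf (nat_lit 6) (nat_lit 186)) (nd (nat_lit 184) (nat_lit 0) (cs (lf (nat_lit 1) (nat_lit 184)) (nd (nat_lit 164) (nat_lit 0) (cs (lf (nat_lit 23) (nat_lit 163)) (nd (nat_lit 142) (nat_lit 0) (cs (lf (nat_lit 24) (nat_lit 120)) (nd (nat_lit 143) (nat_lit 0) (cs (lf (nat_lit 35) (nat_lit 120)) (rf (nat_lit 29)))))))))))))))) (rf (nat_lit 30)))))) (rf (nat_lit 31)))))) (rf (nat_lit 32)))))))) (cs (nd (nat_lit 231) (nat_lit 0) (cs (rf (nat_lit 33)) (cs (rf (nat_lit 34)) (cs (rf (nat_lit 35)) (nd (nat_lit 207) (nat_lit 0) (cs (rf (nat_lit 36)) (cs (rf (nat_lit 37)) (cs (rf (nat_lit 38)) (cs (rf (nat_lit 39)) (nd (nat_lit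 229) (nat_lit 0) (cs (rf (nat_lit 40)) (cs (rf (nat_lit 41)) (cs (nd (nat_lit 186) (nat_lit 0) (cs (rf (nat_lit 42)) (cs (rf (nat_lit 43)) (rf (nat_lit 44))))) (nd (nat_lit 230) (nat_lit 0) (cs (nd (nat_lit 210) (nat_lit 0) (cs (lf (nat_lit 6) (nat_lit 207)) (nd (nat_lit 232) (nat_lit 0) (cs (lf (nat_lit 5) (nat_lit 207)) (nd (nat_lit 185) (nat_lit 0) (cs (lf (nat_lit 23) (nat_lit 184)) (rf (nat_lit 45)))))))) (cs (nd (nat_lit 164) (nat_lit 0) (cs (lf (nat_lit 25) (nat_lit 164)) (nd (nat_lit 210) (nat_lit 0) (cs (lf (nat_lit 6) (nat_lit 207)) (nd (nat_lit 185) (nat_lit 0) (cs (lf (nat_lit 23) (nat_lit 184)) (nd (nat_lit 163) (nat_lit 0) (cs (lf (nat_lit 29) (nat_lit 163)) (lf (nat_lit 35) (nat_lit 141)))))))))) (rf (nat_lit 46)))))))))))))))))) (cs (nd (nat_lit 231) (nat_lit 0) (cs (rf (nat_lit 47)) (cs (rf (nat_lit 48)) (cs (rf (nat_lit 49)) (cs (rf (nat_lit 50)) (rf (nat_lit 51))))))) (nd (nat_lit 231) (nat_lit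 0) (cs (rf (nat_lit 33)) (cs (rf (nat_lit 34)) (cs (rf (nat_lit 52)) (rf (nat_lit 35))))))))))))))))))) q7602 (by decide +kernel)
def q7698 : Q := Q.p (nat_lit 0x2000000000010000000000000000000000000000000000000000000000000000) (nat_lit 0x1400007c0003f80009e003ffe007ef001ffe001fe001fa0007e800028000000000000000000000000) (nat_lit 16)
theorem c7698 : QOK q7698 := cut [q2967, q7421, q7437, q7440, q7451, q7452, q82, q87, q98, q1829, q5498, q7427, q7431, q1820, q7613, q1594, q2331, q6705, q1584, q2344, q7615, q2959, q7620, q7656, q7657, q7668, q2950, q7612, q2346, q2966, q2330, q2212, q2337, q7677, q2366, q2990, q119, q685, q2919, q2926, q139, q738, q7685, q1800, q7693] ⟨c2967, c7421, c7437, c7440, c7451, c7452, c82, c87, c98, c1829, c5498, c7427, c7431, c1820, c7613, c1594, c2331, c6705, c1584, c2344, c7615, c2959, c7620, c7656, c7657, c7668, c2950, c7612, c2346, c2966, c2330, c2212, c2337, c7677, c2366, c2990, c119,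 c685, c2919, c2926, c139, c738, c7685, c1800, c7693, trivial⟩ (nd (nat_lit 209) (nat_lit 0) (cs (rf (nat_lit 0)) (cs (nd (nat_lit 210) (nat_lit 0) (cs (rf (nat_lit 1)) (cs (rf (nat_lit 2)) (cs (rf (nat_lit 3)) (cs (rf (nat_lit 4)) (cs (rf (nat_lit 5)) (nd (nat_lit 207) (nat_lit 0) (cs (rf (nat_lit 6)) (cs (rf (nat_lit 7)) (cs (rf (nat_lit 8)) (nd (nat_lit 229) (nat_lit 0) (cs (lf (nat_lit 11) (nat_lit 206)) (nd (nat_lit 251) (nat_lit 0) (cs (nd (nat_lit 186) (nat_lit 0) (cs (lf (nat_lit 30) (nat_lit 185)) (rf (nat_lit 9)))) (cs (rf (nat_lit 10)) (cs (rf (nat_lit 11)) (cs (rf (nat_lit 12)) (nd (nat_lit 232) (nat_lit 0) (cs (lf (nat_lit 5) (nat_lit 207)) (nd (nat_lit 188) (nat_lit 0) (cs (lf (nat_lit 17) (nat_lit 185)) (nd (nat_lit 186) (nat_lit 0) (cs (lf (nat_lit 30) (nat_lit 185)) (nd (nat_lit 230) (nat_lit 0) (cs (lf (nat_lit 36) (nat_lit 163)) (rf (nat_lit 13))))))))))))))))))))))))))) (cs (rf (nat_lit 14))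 (cs (nd (nat_lit 231) (nat_lit 0) (cs (rf (nat_lit 15)) (cs (rf (nat_lit 16)) (cs (rf (nat_lit 17)) (nd (nat_lit 187) (nat_lit 0) (cs (rf (nat_lit 18)) (cs (rf (nat_lit 19)) (rf (nat_lit 20))))))))) (cs (nd (nat_lit 231) (nat_lit 0) (cs (rf (nat_lit 16)) (cs (rf (nat_lit 21)) (cs (rf (nat_lit 17)) (rf (nat_lit 22)))))) (cs (rf (nat_lit 23)) (cs (rf (nat_lit 24)) (cs (rf (nat_lit 25)) (cs (nd (nat_lit 231) (nat_lit 0) (cs (rf (nat_lit 16)) (cs (rf (nat_lit 26)) (rf (nat_lit 27))))) (cs (nd (nat_lit 231) (nat_lit 0) (cs (rf (nat_lit 16)) (cs (rf (nat_lit 28)) (cs (rf (nat_lit 29)) (rf (nat_lit 27)))))) (cs (nd (nat_lit 231) (nat_lit 0) (cs (rf (nat_lit 15)) (cs (rf (nat_lit 30)) (cs (rf (nat_lit 16)) (cs (rf (nat_lit 28)) (nd (nat_lit 187) (nat_lit 0) (cs (rf (nat_lit 31)) (cs (rf (nat_lit 32)) (nd (nat_lit 252) (nat_lit 0) (cs (lf (nat_lit 41) (nat_lit 186)) (nd (nat_lit 165) (nat_lit 0) (cs (lf (nat_lit 40) (nat_lit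 164)) (nd (nat_lit 186) (nat_lit 0) (cs (lf (nat_lit 47) (nat_lit 164)) (nd (nat_lit 143) (nat_lit 0) (cs (lf (nat_lit 36) (nat_lit 120)) (rf (nat_lit 33)))))))))))))))))) (nd (nat_lit 231) (nat_lit 0) (cs (rf (nat_lit 16)) (cs (rf (nat_lit 34)) (cs (rf (nat_lit 35)) (nd (nat_lit 207) (nat_lit 0) (cs (rf (nat_lit 36)) (cs (rf (nat_lit 37)) (cs (rf (nat_lit 38)) (cs (rf (nat_lit 39)) (nd (nat_lit 210) (nat_lit 0) (cs (rf (nat_lit 40)) (cs (rf (nat_lit 41)) (nd (nat_lit 187) (nat_lit 0) (cs (nd (nat_lit 184) (nat_lit 0) (cs (lf (nat_lit 22) (nat_lit 184)) (rf (nat_lit 42)))) (cs (nd (nat_lit 185) (nat_lit 0) (cs (lf (nat_lit 23) (nat_lit 184)) (nd (nat_lit 228) (nat_lit 0) (cs (lf (nat_lit 10) (nat_lit 206)) (nd (nat_lit 188) (nat_lit 0) (cs (lf (nat_lit 17) (nat_lit 185)) (nd (nat_lit 186) (nat_lit 0) (cs (lf (nat_lit 47) (nat_lit 164)) (rf (nat_lit 43)))))))))) (rf (nat_lit 44))))))))))))))))))))))))))))) q7698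 (by decide +kernel)
def q7799 : Q := Q.p (nat_lit 0x2000000000010000000000000000000000000000000000000000000000000000) (nat_lit 0x1400007e0007fe0019f803ffe007ef001ffe001f60003f8000fe0003a000000000000000000000000) (nat_lit 16)
theorem c7799 : QOK q7799 := cut [q2216, q7466, q7469, q7613, q1465, q2919, q2926, q1119, q1865, q1832, q1857, q5476, q5479, q2003, q1845, q1847, q1852, q1855, q1597, q6230, q7425, q7714, q7718, q117, q1464, q1550, q7734, q7736, q7737, q1563, q1595, q2959, q7739, q1594, q1568, q1580, q1584, q33, q7751, q7792, q2949, q119, q2935, q2938, q7467, q4607, q7561, q7569] ⟨c2216, c7466, c7469, c7613, c1465, c2919, c2926, c1119, c1865, c1832, c1857, c5476, c5479, c2003, c1845, c1847, c1852, c1855, c1597, c6230, c7425, c7714, c7718, c117, c1464, c1550, c7734, c7736, c7737, c1563, c1595, c2959, c7739, c1594, c1568, c1580, c1584, c33, c7751, c7792, c2949, c119, c2935, c2938, c7467, c4607, c7561, c7569,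 trivial⟩ (nd (nat_lit 209) (nat_lit 0) (cs (rf (nat_lit 0)) (cs (rf (nat_lit 1)) (cs (rf (nat_lit 2)) (cs (rf (nat_lit 3)) (cs (nd (nat_lit 207) (nat_lit 0) (cs (rf (nat_lit 4)) (cs (rf (nat_lit 5)) (cs (rf (nat_lit 6)) (cs (nd (nat_lit 229) (nat_lit 0) (cs (rf (nat_lit 7)) (cs (rf (nat_lit 8)) (cs (nd (nat_lit 251) (nat_lit 0) (cs (rf (nat_lit 9)) (cs (rf (nat_lit 10)) (cs (nd (nat_lit 252) (nat_lit 0) (cs (rf (nat_lit 11)) (cs (rf (nat_lit 12)) (nd (nat_lit 185) (nat_lit 0) (cs (lf (nat_lit 29) (nat_lit 185)) (nd (nat_lit 186) (nat_lit 0) (cs (rf (nat_lit 13)) (lf (nat_lit 35) (nat_lit 163))))))))) (nd (nat_lit 273) (nat_lit 0) (cs (rf (nat_lit 14)) (cs (rf (nat_lit 15)) (cs (rf (nat_lit 16)) (cs (rf (nat_lit 17)) (nd (nat_lit 272) (nat_lit 0) (cs (lf (nat_lit 41) (nat_lit 206)) (nd (nat_lit 230) (nat_lit 0) (cs (lf (nat_lit 30) (nat_lit 207)) (nd (nat_lit 227) (nat_lit 0) (cs (lf (nat_lit 13) (nat_lit 205))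 (nd (nat_lit 250) (nat_lit 0) (cs (lf (nat_lit 36) (nat_lit 184)) (nd (nat_lit 248) (nat_lit 0) (cs (lf (nat_lit 13) (nat_lit 226)) (nd (nat_lit 271) (nat_lit 0) (cs (lf (nat_lit 7) (nat_lit 249)) (nd (nat_lit 270) (nat_lit 0) (cs (lf (nat_lit 23) (nat_lit 247)) (lf (nat_lit 12) (nat_lit 247))))))))))))))))))))))))) (nd (nat_lit 185) (nat_lit 0) (cs (rf (nat_lit 18)) (cs (nd (nat_lit 251) (nat_lit 0) (cs (rf (nat_lit 19)) (cs (rf (nat_lit 20)) (rf (nat_lit 21))))) (rf (nat_lit 22))))))))) (cs (nd (nat_lit 206) (nat_lit 0) (cs (rf (nat_lit 23)) (cs (rf (nat_lit 24)) (cs (rf (nat_lit 25)) (rf (nat_lit 26)))))) (cs (rf (nat_lit 27)) (rf (nat_lit 28))))))))) (cs (nd (nat_lit 231) (nat_lit 0) (cs (rf (nat_lit 29)) (cs (rf (nat_lit 30)) (cs (rf (nat_lit 31)) (rf (nat_lit 32)))))) (cs (nd (nat_lit 231) (nat_lit 0) (cs (rf (nat_lit 29)) (cs (rf (nat_lit 33)) (cs (rf (nat_lit 30)) (nd (nat_lit 187) (nat_lit 0) (cs (rf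 (nat_lit 34)) (cs (rf (nat_lit 35)) (cs (rf (nat_lit 36)) (nd (nat_lit 186) (nat_lit 0) (cs (rf (nat_lit 37)) (rf (nat_lit 38)))))))))))) (cs (rf (nat_lit 39)) (nd (nat_lit 231) (nat_lit 0) (cs (rf (nat_lit 29)) (cs (rf (nat_lit 30)) (cs (rf (nat_lit 40)) (nd (nat_lit 207) (nat_lit 0) (cs (rf (nat_lit 41)) (cs (rf (nat_lit 42)) (cs (rf (nat_lit 43)) (cs (rf (nat_lit 44)) (nd (nat_lit 229) (nat_lit 0) (cs (rf (nat_lit 45)) (cs (rf (nat_lit 46)) (nd (nat_lit 251) (nat_lit 0) (cs (rf (nat_lit 9)) (cs (rf (nat_lit 10)) (nd (nat_lit 252) (nat_lit 0) (cs (rf (nat_lit 47)) (nd (nat_lit 274) (nat_lit 0) (cs (lf (nat_lit 36) (nat_lit 186)) (lf (nat_lit 24) (nat_lit 185)))))))))))))))))))))))))))))) q7799 (by decide +kernel)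
def q8827 : Q := Q.p (nat_lit 0x2000000000010000000000000000000000000000000000000000000000000000) (nat_lit 0x80000210004dc00197000ffe007ef803ffe003ff8007fc001ff0002fc000aa000000000000000000) (nat_lit 19)
theorem c8827 : QOK q8827 := cut [q516, q26, q442, q500, q3797, q4788, q8580, q628, q631, q558, q617, q619, q8586, q6150, q8597, q8608, q8616, q8581, q35, q111, q39, q188, q204, q4386, q4667, q8815, q3116, q8818, q7345, q4868, q8826] ⟨c516, c26, c442, c500, c3797, c4788, c8580, c628, c631, c558, c617, c619, c8586, c6150, c8597, c8608, c8616, c8581, c35, c111, c39, c188, c204, c4386, c4667, c8815, c3116, c8818, c7345, c4868, c8826, trivial⟩ (nd (nat_lit 186) (nat_lit 0) (cs (rf (nat_lit 0)) (cs (nd (nat_lit 230) (nat_lit 0) (cs (rf (nat_lit 1)) (cs (rf (nat_lit 2)) (cs (rf (nat_lit 3)) (cs (rf (nat_lit 4)) (rf (nat_lit 5))))))) (cs (rf (nat_lit 6)) (cs (nd (nat_lit 164) (nat_lit 0) (cs (rf (nat_lit 7)) (cs (rf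 (nat_lit 8)) (cs (nd (nat_lit 142) (nat_lit 0) (cs (rf (nat_lit 9)) (cs (rf (nat_lit 10)) (cs (rf (nat_lit 11)) (nd (nat_lit 143) (nat_lit 0) (cs (lf (nat_lit 35) (nat_lit 120)) (nd (nat_lit 144) (nat_lit 0) (cs (nd (nat_lit 145) (nat_lit 0) (cs (lf (nat_lit 11) (nat_lit 141)) (nd (nat_lit 123) (nat_lit 0) (cs (lf (nat_lit 17) (nat_lit 120)) (nd (nat_lit 167) (nat_lit 0) (cs (lf (nat_lit 5) (nat_lit 142)) (nd (nat_lit 207) (nat_lit 0) (cs (lf (nat_lit 41) (nat_lit 141)) (nd (nat_lit 209) (nat_lit 0) (cs (lf (nat_lit 29) (nat_lit 142)) (rf (nat_lit 12)))))))))))) (cs (nd (nat_lit 141) (nat_lit 0) (cs (lf (nat_lit 47) (nat_lit 119)) (nd (nat_lit 207) (nat_lit 0) (cs (lf (nat_lit 41) (nat_lit 141)) (nd (nat_lit 162) (nat_lit 0) (cs (rf (nat_lit 13)) (lf (nat_lit 10) (nat_lit 140)))))))) (cs (nd (nat_lit 207) (nat_lit 0) (cs (lf (nat_lit 41) (nat_lit 141)) (nd (nat_lit 141) (nat_lit 0) (cs (lf (nat_lit 47) (nat_lit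 119)) (nd (nat_lit 209) (nat_lit 0) (cs (lf (nat_lit 29) (nat_lit 142)) (rf (nat_lit 14)))))))) (rf (nat_lit 15)))))))))))) (cs (nd (nat_lit 230) (nat_lit 0) (cs (lf (nat_lit 28) (nat_lit 164)) (rf (nat_lit 16)))) (nd (nat_lit 230) (nat_lit 0) (cs (lf (nat_lit 28) (nat_lit 164)) (rf (nat_lit 17))))))))) (cs (nd (nat_lit 209) (nat_lit 0) (cs (rf (nat_lit 18)) (cs (rf (nat_lit 19)) (cs (nd (nat_lit 210) (nat_lit 0) (cs (rf (nat_lit 20)) (cs (rf (nat_lit 21)) (cs (rf (nat_lit 22)) (rf (nat_lit 23)))))) (rf (nat_lit 24)))))) (cs (rf (nat_lit 25)) (cs (nd (nat_lit 164) (nat_lit 0) (cs (rf (nat_lit 7)) (cs (rf (nat_lit 26)) (cs (rf (nat_lit 27)) (cs (nd (nat_lit 230) (nat_lit 0) (cs (lf (nat_lit 28) (nat_lit 164)) (nd (nat_lit 143) (nat_lit 0) (cs (lf (nat_lit 34) (nat_lit 142)) (nd (nat_lit 142) (nat_lit 0) (cs (lf (nat_lit 35) (nat_lit 120)) (nd (nat_lit 207) (nat_lit 0) (cs (lf (nat_lit 41) (nat_lit 141)) (rf (nat_lit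 28)))))))))) (nd (nat_lit 230) (nat_lit 0) (cs (lf (nat_lit 28) (nat_lit 164)) (nd (nat_lit 141) (nat_lit 0) (cs (lf (nat_lit 46) (nat_lit 141)) (rf (nat_lit 29))))))))))) (rf (nat_lit 30)))))))))) q8827 (by decide +kernel)
def q9346 : Q := Q.p (nat_lit 0x2000000000010000000000000000000000000000000000000000000000000000) (nat_lit 0x20001f80007e0007fc0019e000fde00fef803ffe007ff800ffc007ff8003f8000b80000a0000000000000) (nat_lit 19)
theorem c9346 : QOK q9346 := cut [q516, q3798, q8826, q438, q639, q3797, q8948, q9324, q631, q8818, q513, q660, q4389, q356, q2973, q11, q2714, q1170, q2175, q558, q8608, q6157, q9338, q35, q2680, q39, q204, q4386, q109, q9340, q75, q7894, q7841, q8834, q8854, q8861, q8865] ⟨c516, c3798, c8826, c438, c639, c3797, c8948, c9324, c631, c8818, c513, c660, c4389, c356, c2973, c11, c2714, c1170, c2175, c558, c8608, c6157, c9338, c35, c2680, c39, c204, c4386, c109, c9340, c75, c7894, c7841,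 c8834, c8854, c8861, c8865, trivial⟩ (nd (nat_lit 186) (nat_lit 0) (cs (rf (nat_lit 0)) (cs (rf (nat_lit 1)) (cs (rf (nat_lit 2)) (cs (nd (nat_lit 230) (nat_lit 0) (cs (rf (nat_lit 3)) (cs (rf (nat_lit 4)) (rf (nat_lit 5))))) (cs (rf (nat_lit 6)) (cs (rf (nat_lit 7)) (cs (nd (nat_lit 164) (nat_lit 0) (cs (rf (nat_lit 8)) (cs (rf (nat_lit 9)) (cs (nd (nat_lit 231) (nat_lit 0) (cs (lf (nat_lit 27) (nat_lit 164)) (rf (nat_lit 10)))) (cs (nd (nat_lit 209) (nat_lit 0) (cs (rf (nat_lit 11)) (cs (rf (nat_lit 12)) (cs (nd (nat_lit 187) (nat_lit 0) (cs (lf (nat_lit 43) (nat_lit 164)) (nd (nat_lit 188) (nat_lit 0) (cs (rf (nat_lit 13)) (cs (rf (nat_lit 14)) (nd (nat_lit 185) (nat_lit 0) (cs (rf (nat_lit 15)) (cs (rf (nat_lit 16)) (nd (nat_lit 206) (nat_lit 0) (cs (nd (nat_lit 210) (nat_lit 0) (cs (lf (nat_lit 5) (nat_lit 185)) (nd (nat_lit 166) (nat_lit 0) (cs (lf (nat_lit 17) (nat_lit 163)) (nd (nat_lit 122) (nat_lit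 0) (cs (lf (nat_lit 37) (nat_lit 121)) (nd (nat_lit 163) (nat_lit 0) (cs (lf (nat_lit 23) (nat_lit 162)) (nd (nat_lit 141) (nat_lit 0) (cs (lf (nat_lit 24) (nat_lit 119)) (nd (nat_lit 165) (nat_lit 0) (cs (nd (nat_lit 143) (nat_lit 0) (cs (lf (nat_lit 42) (nat_lit 143)) (lf (nat_lit 24) (nat_lit 121)))) (lf (nat_lit 23) (nat_lit 140)))))))))))))) (lf (nat_lit 10) (nat_lit 184)))))))))))) (nd (nat_lit 185) (nat_lit 0) (cs (rf (nat_lit 17)) (cs (rf (nat_lit 18)) (nd (nat_lit 142) (nat_lit 0) (cs (rf (nat_lit 19)) (cs (nd (nat_lit 143) (nat_lit 0) (cs (lf (nat_lit 35) (nat_lit 120)) (nd (nat_lit 144) (nat_lit 0) (cs (nd (nat_lit 145) (nat_lit 0) (cs (lf (nat_lit 11) (nat_lit 141)) (nd (nat_lit 123) (nat_lit 0) (cs (lf (nat_lit 17) (nat_lit 120)) (nd (nat_lit 168) (nat_lit 0) (cs (lf (nat_lit 4) (nat_lit 142)) (nd (nat_lit 146) (nat_lit 0) (cs (lf (nat_lit 5) (nat_lit 143)) (lf (nat_lit 10) (nat_lit 142))))))))))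 (cs (rf (nat_lit 20)) (cs (nd (nat_lit 141) (nat_lit 0) (cs (lf (nat_lit 47) (nat_lit 119)) (rf (nat_lit 21)))) (nd (nat_lit 119) (nat_lit 0) (cs (lf (nat_lit 46) (nat_lit 119)) (nd (nat_lit 145) (nat_lit 0) (cs (lf (nat_lit 11) (nat_lit 141)) (nd (nat_lit 167) (nat_lit 0) (cs (lf (nat_lit 5) (nat_lit 142)) (nd (nat_lit 165) (nat_lit 0) (cs (lf (nat_lit 6) (nat_lit 142)) (lf (nat_lit 7) (nat_lit 163)))))))))))))))) (nd (nat_lit 120) (nat_lit 0) (cs (lf (nat_lit 28) (nat_lit 120)) (lf (nat_lit 41) (nat_lit 119)))))))))))))) (rf (nat_lit 22))))))) (nd (nat_lit 209) (nat_lit 0) (cs (rf (nat_lit 23)) (cs (rf (nat_lit 24)) (cs (nd (nat_lit 210) (nat_lit 0) (cs (rf (nat_lit 25)) (cs (rf (nat_lit 26)) (cs (rf (nat_lit 27)) (nd (nat_lit 207) (nat_lit 0) (cs (rf (nat_lit 28)) (rf (nat_lit 29)))))))) (nd (nat_lit 210) (nat_lit 0) (cs (rf (nat_lit 25)) (cs (rf (nat_lit 30)) (cs (rf (nat_lit 31)) (nd (nat_lit 207) (nat_lit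 0) (cs (rf (nat_lit 32)) (cs (rf (nat_lit 33)) (cs (rf (nat_lit 34)) (cs (rf (nat_lit 35)) (rf (nat_lit 36))))))))))))))))))))))) q9346 (by decide +kernel)
def q9711 : Q := Q.p (nat_lit 0x2000000000010000000000000000000000000000000000000000000000000000) (nat_lit 0x40000180007f80019e000ffe00fef003ffe007fe0007fc001fe0000a800000000000000000000000) (nat_lit 18)
theorem c9711 : QOK q9711 := cut [q183, q111, q263, q287, q290, q167, q295, q312, q325, q332, q339, q344, q353, q360, q415, q416, q424, q429, q430, q437, q443, q21, q26, q30, q450, q501, q637, q3798, q7832, q504, q9696, q9703, q2385, q2982, q4624, q5700, q8869, q9675, q409, q4699, q4706, q4723, q4727, q9252, q9708] ⟨c183, c111, c263, c287, c290, c167, c295, c312, c325, c332, c339, c344, c353, c360, c415, c416, c424, c429, c430, c437, c443, c21, c26, c30, c450, c501, c637, c3798, c7832, c504, c9696, c9703, c2385, c2982, c4624, c5700, c8869, c9675, c409, c4699,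 c4706, c4723, c4727, c9252, c9708, trivial⟩ (nd (nat_lit 186) (nat_lit 0) (cs (rf (nat_lit 0)) (cs (nd (nat_lit 252) (nat_lit 0) (cs (nd (nat_lit 209) (nat_lit 0) (cs (rf (nat_lit 1)) (cs (rf (nat_lit 2)) (cs (rf (nat_lit 3)) (cs (nd (nat_lit 207) (nat_lit 0) (cs (rf (nat_lit 4)) (cs (nd (nat_lit 185) (nat_lit 0) (cs (rf (nat_lit 5)) (cs (nd (nat_lit 231) (nat_lit 0) (cs (lf (nat_lit 42) (nat_lit 186)) (nd (nat_lit 210) (nat_lit 0) (cs (lf (nat_lit 18) (nat_lit 185)) (rf (nat_lit 6)))))) (nd (nat_lit 183) (nat_lit 0) (cs (nd (nat_lit 231) (nat_lit 0) (cs (lf (nat_lit 42) (nat_lit 186)) (rf (nat_lit 7)))) (lf (nat_lit 1) (nat_lit 183))))))) (cs (rf (nat_lit 8)) (cs (rf (nat_lit 9)) (cs (nd (nat_lit 231) (nat_lit 0) (cs (lf (nat_lit 42) (nat_lit 186)) (nd (nat_lit 187) (nat_lit 0) (cs (lf (nat_lit 41) (nat_lit 186)) (nd (nat_lit 206) (nat_lit 0) (cs (lf (nat_lit 5) (nat_lit 206)) (nd (nat_lit 227) (nat_lit 0) (cs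 (lf (nat_lit 10) (nat_lit 205)) (rf (nat_lit 10)))))))))) (rf (nat_lit 11)))))))) (cs (rf (nat_lit 12)) (rf (nat_lit 13)))))))) (cs (rf (nat_lit 14)) (cs (rf (nat_lit 15)) (cs (rf (nat_lit 16)) (cs (rf (nat_lit 17)) (rf (nat_lit 18)))))))) (cs (rf (nat_lit 19)) (cs (rf (nat_lit 20)) (cs (nd (nat_lit 230) (nat_lit 0) (cs (rf (nat_lit 21)) (cs (rf (nat_lit 22)) (cs (rf (nat_lit 23)) (rf (nat_lit 24)))))) (cs (rf (nat_lit 25)) (cs (rf (nat_lit 26)) (cs (rf (nat_lit 27)) (cs (rf (nat_lit 28)) (nd (nat_lit 231) (nat_lit 0) (cs (rf (nat_lit 29)) (cs (nd (nat_lit 230) (nat_lit 0) (cs (lf (nat_lit 24) (nat_lit 164)) (rf (nat_lit 30)))) (cs (nd (nat_lit 209) (nat_lit 0) (cs (lf (nat_lit 42) (nat_lit 186)) (rf (nat_lit 31)))) (cs (nd (nat_lit 209) (nat_lit 0) (cs (rf (nat_lit 32)) (cs (rf (nat_lit 33)) (cs (rf (nat_lit 34)) (cs (rf (nat_lit 35)) (cs (rf (nat_lit 36)) (rf (nat_lit 37)))))))) (cs (nd (nat_lit 187) (nat_lit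 0) (cs (nd (nat_lit 188) (nat_lit 0) (cs (rf (nat_lit 38)) (cs (rf (nat_lit 39)) (cs (rf (nat_lit 40)) (cs (rf (nat_lit 41)) (rf (nat_lit 42))))))) (cs (rf (nat_lit 43)) (nd (nat_lit 164) (nat_lit 0) (cs (lf (nat_lit 27) (nat_lit 164)) (lf (nat_lit 44) (nat_lit 164))))))) (nd (nat_lit 275) (nat_lit 0) (cs (lf (nat_lit 45) (nat_lit 186)) (rf (nat_lit 44)))))))))))))))))))) q9711 (by decide +kernel)
def q10147 : Q := Q.p (nat_lit 0x2000000000010000000000000000000000000000000000000000000000000000) (nat_lit 0x100007c0001f0001fe0007fc0019e003ffe007ef003ffe007ef003ff0003fc0007d000000000000000000000000) (nat_lit 19)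
theorem c10147 : QOK q10147 := cut [q2210, q2967, q7613, q7657, q9648, q9889, q10070, q2959, q6705, q9647, q1584, q7591, q9892, q119, q1468, q6217, q10081, q10097, q1594, q10013, q10125, q9645, q10131, q7599, q1136, q2935, q2938, q738, q2925, q4286, q4240, q5139, q1124] ⟨c2210, c2967, c7613, c7657, c9648, c9889, c10070, c2959, c6705, c9647, c1584, c7591, c9892, c119, c1468, c6217, c10081, c10097, c1594, c10013, c10125, c9645, c10131, c7599, c1136, c2935, c2938, c738, c2925, c4286, c4240, c5139, c1124, trivial⟩ (nd (nat_lit 209) (nat_lit 0) (cs (rf (nat_lit 0)) (cs (rf (nat_lit 1)) (cs (rf (nat_lit 2)) (cs (rf (nat_lit 3)) (cs (rf (nat_lit 4)) (cs (rf (nat_lit 5)) (cs (rf (nat_lit 6)) (cs (nd (nat_lit 231) (nat_lit 0) (cs (rf (nat_lit 7)) (cs (rf (nat_lit 8)) (cs (rf (nat_lit 9)) (nd (nat_lit 187) (nat_lit 0) (cs (rf (nat_lit 10)) (cs (rf (nat_lit 11)) (cs (rf (nat_lit 12)) (cs (nd (nat_lit 207) (nat_lit 0) (cs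 (rf (nat_lit 13)) (cs (rf (nat_lit 14)) (nd (nat_lit 252) (nat_lit 0) (cs (lf (nat_lit 41) (nat_lit 186)) (nd (nat_lit 230) (nat_lit 0) (cs (lf (nat_lit 36) (nat_lit 164)) (nd (nat_lit 232) (nat_lit 0) (cs (lf (nat_lit 18) (nat_lit 207)) (nd (nat_lit 251) (nat_lit 0) (cs (lf (nat_lit 12) (nat_lit 228)) (nd (nat_lit 186) (nat_lit 0) (cs (lf (nat_lit 41) (nat_lit 185)) (nd (nat_lit 188) (nat_lit 0) (cs (lf (nat_lit 6) (nat_lit 185)) (nd (nat_lit 185) (nat_lit 0) (cs (lf (nat_lit 47) (nat_lit 163)) (rf (nat_lit 15))))))))))))))))))) (nd (nat_lit 252) (nat_lit 0) (cs (lf (nat_lit 41) (nat_lit 186)) (rf (nat_lit 16))))))))))))) (cs (rf (nat_lit 17)) (cs (nd (nat_lit 231) (nat_lit 0) (cs (rf (nat_lit 18)) (cs (rf (nat_lit 8)) (cs (rf (nat_lit 9)) (nd (nat_lit 187) (nat_lit 0) (cs (rf (nat_lit 10)) (cs (rf (nat_lit 11)) (cs (rf (nat_lit 12)) (cs (rf (nat_lit 19)) (nd (nat_lit 252) (nat_lit 0) (cs (lf (nat_lit 41) (nat_lit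 186)) (nd (nat_lit 188) (nat_lit 0) (cs (lf (nat_lit 35) (nat_lit 165)) (nd (nat_lit 189) (nat_lit 0) (cs (lf (nat_lit 6) (nat_lit 186)) (nd (nat_lit 207) (nat_lit 0) (cs (lf (nat_lit 15) (nat_lit 185)) (lf (nat_lit 9) (nat_lit 185))))))))))))))))))) (cs (rf (nat_lit 20)) (cs (nd (nat_lit 231) (nat_lit 0) (cs (rf (nat_lit 18)) (cs (rf (nat_lit 8)) (cs (rf (nat_lit 21)) (rf (nat_lit 22)))))) (cs (nd (nat_lit 231) (nat_lit 0) (cs (rf (nat_lit 18)) (cs (rf (nat_lit 7)) (cs (rf (nat_lit 23)) (rf (nat_lit 21)))))) (nd (nat_lit 231) (nat_lit 0) (cs (rf (nat_lit 18)) (cs (rf (nat_lit 7)) (cs (rf (nat_lit 21)) (nd (nat_lit 207) (nat_lit 0) (cs (rf (nat_lit 13)) (cs (rf (nat_lit 24)) (cs (rf (nat_lit 25)) (cs (rf (nat_lit 26)) (nd (nat_lit 210) (nat_lit 0) (cs (rf (nat_lit 27)) (cs (rf (nat_lit 28)) (cs (rf (nat_lit 29)) (nd (nat_lit 230) (nat_lit 0) (cs (nd (nat_lit 185) (nat_lit 0) (cs (lf (nat_lit 23) (nat_lit 184))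 (rf (nat_lit 30)))) (cs (nd (nat_lit 232) (nat_lit 0) (cs (lf (nat_lit 5) (nat_lit 207)) (nd (nat_lit 166) (nat_lit 0) (cs (lf (nat_lit 37) (nat_lit 165)) (nd (nat_lit 229) (nat_lit 0) (cs (lf (nat_lit 12) (nat_lit 206)) (nd (nat_lit 251) (nat_lit 0) (cs (lf (nat_lit 11) (nat_lit 228)) (rf (nat_lit 31)))))))))) (nd (nat_lit 229) (nat_lit 0) (cs (lf (nat_lit 12) (nat_lit 206)) (nd (nat_lit 232) (nat_lit 0) (cs (lf (nat_lit 5) (nat_lit 207)) (nd (nat_lit 166) (nat_lit 0) (cs (lf (nat_lit 37) (nat_lit 165)) (nd (nat_lit 250) (nat_lit 0) (cs (rf (nat_lit 32)) (lf (nat_lit 10) (nat_lit 228)))))))))))))))))))))))))))))))))))))))) q10147 (by decide +kernel)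
def q10358 : Q := Q.p (nat_lit 0x2000000000030000000000000000000000000000000000000000000000000000) (nat_lit 0x140000700001f00000e0007fe001cf8002fe001ff8003fc001ff0003f0000f8000060000000000000) (nat_lit 18)
theorem c10358 : QOK q10358 := cut [q35, q2238, q39, q75, q6705, q2631, q2938, q3795, q10341, q55, q2220, q7439, q1170, q2175, q5849, q5851, q4753, q4772, q4774, q2307, q2312, q10346, q10352] ⟨c35, c2238, c39, c75, c6705, c2631, c2938, c3795, c10341, c55, c2220, c7439, c1170, c2175, c5849, c5851, c4753, c4772, c4774, c2307, c2312, c10346, c10352, trivial⟩ (nd (nat_lit 186) (nat_lit 0) (cs (rf (nat_lit 0)) (cs (rf (nat_lit 1)) (cs (nd (nat_lit 210) (nat_lit 0) (cs (rf (nat_lit 2)) (cs (rf (nat_lit 3)) (cs (nd (nat_lit 231) (nat_lit 0) (cs (rf (nat_lit 4)) (nd (nat_lit 207) (nat_lit 0) (cs (rf (nat_lit 5)) (cs (rf (nat_lit 6)) (cs (nd (nat_lit 228) (nat_lit 0) (cs (lf (nat_lit 10) (nat_lit 206)) (nd (nat_lit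 206) (nat_lit 0) (cs (lf (nat_lit 11) (nat_lit 205)) (rf (nat_lit 7)))))) (rf (nat_lit 8)))))))) (nd (nat_lit 211) (nat_lit 0) (cs (rf (nat_lit 9)) (cs (rf (nat_lit 10)) (rf (nat_lit 11))))))))) (nd (nat_lit 185) (nat_lit 0) (cs (rf (nat_lit 12)) (cs (rf (nat_lit 13)) (cs (rf (nat_lit 14)) (cs (rf (nat_lit 15)) (nd (nat_lit 184) (nat_lit 0) (cs (rf (nat_lit 16)) (cs (rf (nat_lit 17)) (cs (rf (nat_lit 18)) (nd (nat_lit 206) (nat_lit 0) (cs (rf (nat_lit 19)) (cs (rf (nat_lit 20)) (nd (nat_lit 163) (nat_lit 0) (cs (nd (nat_lit 228) (nat_lit 0) (cs (lf (nat_lit 30) (nat_lit 162)) (nd (nat_lit 227) (nat_lit 0) (cs (lf (nat_lit 8) (nat_lit 205)) (nd (nat_lit 162) (nat_lit 0) (cs (lf (nat_lit 41) (nat_lit 161)) (rf (nat_lit 21)))))))) (cs (nd (nat_lit 141) (nat_lit 0) (cs (lf (nat_lit 24) (nat_lit 119)) (nd (nat_lit 230) (nat_lit 0) (cs (lf (nat_lit 45) (nat_lit 141)) (lf (nat_lit 27) (nat_lit 141)))))) (nd (nat_lit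 228) (nat_lit 0) (cs (lf (nat_lit 30) (nat_lit 162)) (rf (nat_lit 22))))))))))))))))))))))) q10358 (by decide +kernel)
def q11341 : Q := Q.p (nat_lit 0x2000000000010000000000000000000000000000000000000000000000000000) (nat_lit 0x300001f8001fe00077e0019f803ffe007ef801fff003ff801ffe007ff0007f8000ba000040000000000000) (nat_lit 18)
theorem c11341 : QOK q11341 := cut [q1716, q2927, q10097, q10528, q10556, q914, q1136, q5374, q10557, q139, q4294, q10558, q10637, q792, q1551, q1673, q1695, q1987, q10638, q10647, q9720, q9836, q10652, q10654, q10655, q10656, q10777, q11056, q11086, q11139, q11188, q8505, q8852, q517, q614, q628, q4389, q37, q7437, q7440, q7451, q7452, q9380, q10184, q11257, q11340] ⟨c1716, c2927, c10097, c10528, c10556, c914, c1136, c5374, c10557, c139, c4294, c10558, c10637, c792, c1551, c1673, c1695, c1987, c10638, c10647, c9720, c9836, c10652, c10654, c10655, c10656, c10777, c11056, c11086, c11139,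 c11188, c8505, c8852, c517, c614, c628, c4389, c37, c7437, c7440, c7451, c7452, c9380, c10184, c11257, c11340, trivial⟩ (nd (nat_lit 209) (nat_lit 0) (cs (rf (nat_lit 0)) (cs (rf (nat_lit 1)) (cs (rf (nat_lit 2)) (cs (rf (nat_lit 3)) (cs (rf (nat_lit 4)) (cs (nd (nat_lit 207) (nat_lit 0) (cs (rf (nat_lit 5)) (cs (rf (nat_lit 6)) (cs (rf (nat_lit 7)) (cs (rf (nat_lit 8)) (nd (nat_lit 210) (nat_lit 0) (cs (rf (nat_lit 9)) (cs (rf (nat_lit 10)) (rf (nat_lit 11)))))))))) (cs (rf (nat_lit 12)) (cs (nd (nat_lit 207) (nat_lit 0) (cs (rf (nat_lit 13)) (cs (rf (nat_lit 14)) (cs (rf (nat_lit 15)) (cs (rf (nat_lit 16)) (cs (rf (nat_lit 17)) (cs (rf (nat_lit 18)) (rf (nat_lit 19))))))))) (cs (nd (nat_lit 186) (nat_lit 0) (cs (rf (nat_lit 20)) (cs (rf (nat_lit 21)) (cs (rf (nat_lit 22)) (cs (rf (nat_lit 23)) (cs (rf (nat_lit 24)) (rf (nat_lit 25)))))))) (cs (rf (nat_lit 26)) (cs (rf (nat_lit 27)) (cs (rf (nat_lit 28)) (cs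 (rf (nat_lit 29)) (cs (rf (nat_lit 30)) (cs (nd (nat_lit 186) (nat_lit 0) (cs (rf (nat_lit 31)) (cs (rf (nat_lit 32)) (cs (rf (nat_lit 23)) (cs (rf (nat_lit 24)) (cs (rf (nat_lit 25)) (nd (nat_lit 164) (nat_lit 0) (cs (rf (nat_lit 33)) (cs (rf (nat_lit 34)) (cs (rf (nat_lit 35)) (cs (rf (nat_lit 36)) (nd (nat_lit 230) (nat_lit 0) (cs (lf (nat_lit 28) (nat_lit 164)) (nd (nat_lit 229) (nat_lit 0) (cs (lf (nat_lit 41) (nat_lit 163)) (nd (nat_lit 210) (nat_lit 0) (cs (lf (nat_lit 6) (nat_lit 207)) (nd (nat_lit 143) (nat_lit 0) (cs (lf (nat_lit 34) (nat_lit 142)) (nd (nat_lit 163) (nat_lit 0) (cs (lf (nat_lit 47) (nat_lit 141)) (nd (nat_lit 185) (nat_lit 0) (cs (rf (nat_lit 37)) (lf (nat_lit 42) (nat_lit 163))))))))))))))))))))))))) (cs (nd (nat_lit 210) (nat_lit 0) (cs (rf (nat_lit 38)) (cs (rf (nat_lit 39)) (cs (rf (nat_lit 40)) (cs (rf (nat_lit 41)) (cs (rf (nat_lit 42)) (rf (nat_lit 43)))))))) (cs (rf (nat_lit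 44)) (rf (nat_lit 45)))))))))))))))))))) q11341 (by decide +kernel)
def q12645 : Q := Q.p (nat_lit 0x2000000000010000000000000000000000000000000000000000000000000000) (nat_lit 0x100001700007e0003fc001ffc003ffc01ffe0039fc00fff003efc0077f800ffc003ff800bf0000fc00000000000000000000000) (nat_lit 19)
theorem c12645 : QOK q12645 := cut [q11470, q1504, q7736, q10638, q11471, q11472, q11876, q11910, q12192, q12226, q12281, q12435, q1136, q1563, q4100, q10557, q12471, q12534, q4238, q4332, q5055, q1411, q5353, q10062, q2066, q933, q3951, q12540, q1156, q3318, q4032, q6597, q12587, q3989, q3996, q4183, q5362, q5054, q12469, q6611, q6790, q12594, q2412, q3899, q12644] ⟨c11470, c1504, c7736, c10638, c11471, c11472, c11876, c11910, c12192, c12226, c12281, c12435, c1136, c1563, c4100, c10557, c12471, c12534, c4238, c4332, c5055, c1411, c5353, c10062, c2066, c933, c3951, c12540, c1156, c3318, c4032, c6597, c12587, c3989, c3996,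 c4183, c5362, c5054, c12469, c6611, c6790, c12594, c2412, c3899, c12644, trivial⟩ (nd (nat_lit 207) (nat_lit 0) (cs (rf (nat_lit 0)) (cs (nd (nat_lit 209) (nat_lit 0) (cs (rf (nat_lit 1)) (cs (rf (nat_lit 2)) (cs (rf (nat_lit 3)) (cs (rf (nat_lit 4)) (rf (nat_lit 5))))))) (cs (rf (nat_lit 6)) (cs (rf (nat_lit 7)) (cs (rf (nat_lit 8)) (cs (rf (nat_lit 9)) (cs (rf (nat_lit 10)) (cs (rf (nat_lit 11)) (cs (nd (nat_lit 209) (nat_lit 0) (cs (rf (nat_lit 12)) (cs (nd (nat_lit 231) (nat_lit 0) (cs (rf (nat_lit 13)) (rf (nat_lit 14)))) (cs (rf (nat_lit 2)) (cs (rf (nat_lit 15)) (rf (nat_lit 4))))))) (cs (rf (nat_lit 16)) (cs (rf (nat_lit 17)) (cs (nd (nat_lit 230) (nat_lit 0) (cs (rf (nat_lit 18)) (cs (rf (nat_lit 19)) (cs (rf (nat_lit 20)) (cs (nd (nat_lit 252) (nat_lit 0) (cs (rf (nat_lit 21)) (cs (rf (nat_lit 22)) (nd (nat_lit 251) (nat_lit 0) (cs (rf (nat_lit 23)) (cs (nd (nat_lit 275) (nat_lit 0) (cs (lf (nat_lit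 24) (nat_lit 186)) (nd (nat_lit 297) (nat_lit 0) (cs (lf (nat_lit 42) (nat_lit 230)) (rf (nat_lit 24)))))) (nd (nat_lit 229) (nat_lit 0) (cs (rf (nat_lit 25)) (cs (nd (nat_lit 185) (nat_lit 0) (cs (lf (nat_lit 24) (nat_lit 163)) (nd (nat_lit 227) (nat_lit 0) (cs (lf (nat_lit 1) (nat_lit 227)) (rf (nat_lit 26)))))) (nd (nat_lit 227) (nat_lit 0) (cs (lf (nat_lit 1) (nat_lit 227)) (nd (nat_lit 273) (nat_lit 0) (cs (lf (nat_lit 30) (nat_lit 207)) (nd (nat_lit 163) (nat_lit 0) (cs (lf (nat_lit 25) (nat_lit 163)) (rf (nat_lit 27))))))))))))))))) (nd (nat_lit 206) (nat_lit 0) (cs (rf (nat_lit 28)) (cs (rf (nat_lit 29)) (cs (rf (nat_lit 30)) (rf (nat_lit 31))))))))))) (cs (rf (nat_lit 32)) (cs (nd (nat_lit 230) (nat_lit 0) (cs (rf (nat_lit 33)) (cs (rf (nat_lit 34)) (cs (rf (nat_lit 35)) (cs (rf (nat_lit 36)) (nd (nat_lit 252) (nat_lit 0) (cs (rf (nat_lit 21)) (cs (rf (nat_lit 37)) (cs (rf (nat_lit 38)) (nd (nat_lit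 206) (nat_lit 0) (cs (rf (nat_lit 30)) (cs (rf (nat_lit 39)) (cs (nd (nat_lit 184) (nat_lit 0) (cs (rf (nat_lit 40)) (rf (nat_lit 41)))) (nd (nat_lit 184) (nat_lit 0) (cs (rf (nat_lit 42)) (cs (rf (nat_lit 41)) (nd (nat_lit 209) (nat_lit 0) (cs (lf (nat_lit 23) (nat_lit 183)) (nd (nat_lit 231) (nat_lit 0) (cs (lf (nat_lit 5) (nat_lit 206)) (nd (nat_lit 275) (nat_lit 0) (cs (lf (nat_lit 42) (nat_lit 208)) (nd (nat_lit 188) (nat_lit 0) (cs (lf (nat_lit 34) (nat_lit 187)) (nd (nat_lit 276) (nat_lit 0) (cs (lf (nat_lit 29) (nat_lit 209)) (nd (nat_lit 251) (nat_lit 0) (cs (lf (nat_lit 0) (nat_lit 250)) (nd (nat_lit 277) (nat_lit 0) (cs (lf (nat_lit 18) (nat_lit 252)) (nd (nat_lit 229) (nat_lit 0) (cs (lf (nat_lit 42) (nat_lit 184)) (rf (nat_lit 43)))))))))))))))))))))))))))))))))) (rf (nat_lit 44))))))))))))))))) q12645 (by decide +kernel)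
def q12669 : Q := Q.p (nat_lit 0xc00003000000000010000000000000000000000000000000000000000000000000000) (nat_lit 0x1ee0007380000e00004000020000080000000000000000000000000000000000000000000000) (nat_lit 10)
theorem c12669 : QOK q12669 := cut [q12668] ⟨c12668, trivial⟩ (nd (nat_lit 230) (nat_lit 0) (cs (lf (nat_lit 29) (nat_lit 208)) (rf (nat_lit 0)))) q12669 (by decide +kernel)
def q13237 : Q := Q.p (nat_lit 0xc00002000000000010000000000000000000000000000000000000000000000000000) (nat_lit 0x500003ff000ff8007ff0007180019e000678000280000c0000000000000000000000000000000000000000000000) (nat_lit 15)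
theorem c13237 : QOK q13237 := cut [q13049, q13058, q13063, q13073, q13099, q13106, q13126, q13129, q13156, q13155, q13158, q12652, q700, q13174, q13199, q5304, q13203, q11017, q13045, q13214, q13222, q13228, q13229, q13232, q13236] ⟨c13049, c13058, c13063, c13073, c13099, c13106, c13126, c13129, c13156, c13155, c13158, c12652, c700, c13174, c13199, c5304, c13203, c11017, c13045, c13214, c13222, c13228, c13229, c13232, c13236, trivial⟩ (nd (nat_lit 318) (nat_lit 0) (cs (nd (nat_lit 319) (nat_lit 0) (cs (rf (nat_lit 0)) (cs (nd (nat_lit 320) (nat_lit 0) (cs (rf (nat_lit 1)) (cs (rf (nat_lit 2)) (cs (rf (nat_lit 3)) (cs (rf (nat_lit 4)) (cs (rf (nat_lit 5)) (cs (rf (nat_lit 6)) (rf (nat_lit 7))))))))) (cs (rf (nat_lit 8)) (cs (nd (nat_lit 297) (nat_lit 0) (cs (lf (nat_lit 41) (nat_lit 252)) (rf (nat_lit 9)))) (nd (nat_lit 320) (nat_lit 0) (cs (rf (nat_lit 2)) (cs (rf (nat_lit 3)) (rf (nat_lit 10)))))))))) (cs (nd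 (nat_lit 252) (nat_lit 0) (cs (rf (nat_lit 11)) (cs (nd (nat_lit 276) (nat_lit 0) (cs (rf (nat_lit 12)) (cs (rf (nat_lit 13)) (rf (nat_lit 14))))) (nd (nat_lit 251) (nat_lit 0) (cs (rf (nat_lit 15)) (cs (nd (nat_lit 230) (nat_lit 0) (cs (lf (nat_lit 24) (nat_lit 186)) (nd (nat_lit 276) (nat_lit 0) (cs (lf (nat_lit 18) (nat_lit 251)) (nd (nat_lit 187) (nat_lit 0) (cs (lf (nat_lit 34) (nat_lit 186)) (rf (nat_lit 16)))))))) (nd (nat_lit 229) (nat_lit 0) (cs (lf (nat_lit 43) (nat_lit 229)) (nd (nat_lit 186) (nat_lit 0) (cs (lf (nat_lit 26) (nat_lit 186)) (nd (nat_lit 250) (nat_lit 0) (cs (lf (nat_lit 0) (nat_lit 249)) (nd (nat_lit 228) (nat_lit 0) (cs (lf (nat_lit 23) (nat_lit 227)) (rf (nat_lit 17)))))))))))))))) (cs (nd (nat_lit 296) (nat_lit 0) (cs (lf (nat_lit 30) (nat_lit 252)) (nd (nat_lit 252) (nat_lit 0) (cs (rf (nat_lit 18)) (nd (nat_lit 319) (nat_lit 0) (cs (lf (nat_lit 29) (nat_lit 252)) (rf (nat_lit 19))))))))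 (cs (nd (nat_lit 340) (nat_lit 0) (cs (lf (nat_lit 32) (nat_lit 252)) (nd (nat_lit 319) (nat_lit 0) (cs (nd (nat_lit 320) (nat_lit 0) (cs (rf (nat_lit 1)) (cs (rf (nat_lit 3)) (cs (rf (nat_lit 5)) (cs (rf (nat_lit 6)) (cs (rf (nat_lit 7)) (rf (nat_lit 20)))))))) (lf (nat_lit 38) (nat_lit 252)))))) (cs (nd (nat_lit 319) (nat_lit 0) (cs (rf (nat_lit 8)) (cs (rf (nat_lit 21)) (rf (nat_lit 22))))) (cs (nd (nat_lit 252) (nat_lit 0) (cs (rf (nat_lit 11)) (rf (nat_lit 23)))) (rf (nat_lit 24))))))))) q13237 (by decide +kernel)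
def q13453 : Q := Q.p (nat_lit 0xc00003000000000010000000000000000000000000000000000000000000000000000) (nat_lit 0x1ce0007380000e000040000200000c0000000000000000000000000000000000000000000000) (nat_lit 10)
theorem c13453 : QOK q13453 := cut [q12668] ⟨c12668, trivial⟩ (nd (nat_lit 230) (nat_lit 0) (cs (lf (nat_lit 24) (nat_lit 186)) (rf (nat_lit 0)))) q13453 (by decide +kernel)

end Crest.Agent.H3.Snaky.CR
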