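import Crest.Agent.H3.Snaky.Cert
import Crest.Agent.H3.Snaky.CR.CR0
import Crest.Agent.H3.Snaky.CR.CR1
import Crest.Agent.H3.Snaky.CR.CR2
import Crest.Agent.H3.Snaky.CR.CR3
import Crest.Agent.H3.Snaky.CR.CR4
import Crest.Agent.H3.Snaky.CR.CR5
import Crest.Agent.H3.Snaky.CR.CR6
import Crest.Agent.H3.Snaky.CR.CR7
import Crest.Agent.H3.Snaky.CR.CR8
import Crest.Agent.H3.Snaky.CR.CR9
import Crest.Agent.H3.Snaky.CR.CR10
import Crest.Agent.H3.Snaky.CR.CR11
import Crest.Agent.H3.Snaky.CR.CR12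
import Crest.Agent.H3.Snaky.CR.CR13
import Crest.Agent.H3.Snaky.CR.CR14
import Crest.Agent.H3.Snaky.CR.CR15
import Crest.Agent.H3.Snaky.CR.CR16
import Crest.Agent.H3.Snaky.CR.CR17
import Crest.Agent.H3.Snaky.CR.CR18
import Crest.Agent.H3.Snaky.CR.CR19
import Crest.Agent.H3.Snaky.CR.CR20
import Crest.Agent.H3.Snaky.CR.CR21
import Crest.Agent.H3.Snaky.CR.CR22
import Crest.Agent.H3.Snaky.CR.CR23
import Crest.Agent.H3.Snaky.CR.CR24
import Crest.Agent.H3.Snaky.CR.CR25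
import Crest.Agent.H3.Snaky.CR.CR26
import Crest.Agent.H3.Snaky.CR.CR27
import Crest.Agent.H3.Snaky.CR.CR28
import Crest.Agent.H3.Snaky.CR.CR29
import Crest.Agent.H3.Snaky.CR.CR30
import Crest.Agent.H3.Snaky.CR.CR31
import Crest.Agent.H3.Snaky.CR.CR32
import Crest.Agent.H3.Snaky.CR.CR33
import Crest.Agent.H3.Snaky.CR.CR34
import Crest.Agent.H3.Snaky.CR.CR35
import Crest.Agent.H3.Snaky.CR.CR36
import Crest.Agent.H3.Snaky.CR.CR37
import Crest.Agent.H3.Snaky.CR.CR38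
import Crest.Agent.H3.Snaky.CR.CR39
import Crest.Agent.H3.Snaky.CR.CR40
import Crest.Agent.H3.Snaky.CR.CR41
import Crest.Agent.H3.Snaky.CR.CR42
import Crest.Agent.H3.Snaky.CR.CR43
import Crest.Agent.H3.Snaky.CR.CR44
import Crest.Agent.H3.Snaky.CR.CR45
import Crest.Agent.H3.Snaky.CR.CR46
import Crest.Agent.H3.Snaky.CR.CR47
import Crest.Agent.H3.Snaky.CR.CR48
import Crest.Agent.H3.Snaky.CR.CR49
import Crest.Agent.H3.Snaky.CR.CR50
import Crest.Agent.H3.Snaky.CR.CR51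
import Crest.Agent.H3.Snaky.CR.CR52
import Crest.Agent.H3.Snaky.CR.CR53
import Crest.Agent.H3.Snaky.CR.CR54
import Crest.Agent.H3.Snaky.CR.CR55
import Crest.Agent.H3.Snaky.CR.CR56
import Crest.Agent.H3.Snaky.CR.CR57
import Crest.Agent.H3.Snaky.CR.CR58
import Crest.Agent.H3.Snaky.CR.CR59
import Crest.Agent.H3.Snaky.CR.CR60
import Crest.Agent.H3.Snaky.CR.CR61
import Crest.Agent.H3.Snaky.CR.CR62
import Crest.Agent.H3.Snaky.CR.CR63
import Crest.Agent.H3.Snaky.CR.CR64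
import Crest.Agent.H3.Snaky.CR.CR65
import Crest.Agent.H3.Snaky.CR.CR66
import Crest.Agent.H3.Snaky.CR.CR67
import Crest.Agent.H3.Snaky.CR.CR68
import Crest.Agent.H3.Snaky.CR.CR69
import Crest.Agent.H3.Snaky.CR.CR70
import Crest.Agent.H3.Snaky.CR.CR71
import Crest.Agent.H3.Snaky.CR.CR72
import Crest.Agent.H3.Snaky.CR.CR73
import Crest.Agent.H3.Snaky.CR.CR74
import Crest.Agent.H3.Snaky.CR.CR75
import Crest.Agent.H3.Snaky.CR.CR76
import Crest.Agent.H3.Snaky.CR.CR77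

set_option autoImplicit false
set_option maxRecDepth 100000

namespace Crest.Agent.H3.Snaky.CR

open T

def q14612 : Q := Q.p (nat_lit 0xc00002000000000010000000000000000000000000000000000000000000000000000) (nat_lit 0x1500007c0003f0003ff000fff007ff80063f0011f0000780000e000058000120000000000000000000000000000000000000000) (nat_lit 16)
theorem c14612 : QOK q14612 := cut [q12652, q14320, q2560, q14326, q14322, q14327, q14329, q14340, q14354, q14360, q12834, q13479, q14432, q14452, q14455, q2579, q13048, q12673, q13408, q12953, q12678, q14471, q14529, q14538, q13481, q14396, q13257, q1203, q14557, q14582, q14601, q14608, q14431] ⟨c12652, c14320, c2560, c14326, c14322, c14327, c14329, c14340, c14354, c14360, c12834, c13479, c14432, c14452, c14455, c2579, c13048, c12673, c13408, c12953, c12678, c14471, c14529, c14538, c13481, c14396, c13257, c1203, c14557, c14582, c14601, c14608, c14431, trivial⟩ (nd (nat_lit 297)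 (nat_lit 0) (cs (nd (nat_lit 252) (nat_lit 0) (cs (rf (nat_lit 0)) (nd (nat_lit 296) (nat_lit 0) (cs (rf (nat_lit 1)) (cs (nd (nat_lit 298) (nat_lit 0) (cs (rf (nat_lit 2)) (cs (rf (nat_lit 3)) (nd (nat_lit 295) (nat_lit 0) (cs (rf (nat_lit 4)) (cs (nd (nat_lit 273) (nat_lit 0) (cs (lf (nat_lit 0) (nat_lit 272)) (rf (nat_lit 5)))) (nd (nat_lit 320) (nat_lit 0) (cs (nd (nat_lit 342) (nat_lit 0) (cs (lf (nat_lit 42) (nat_lit 275)) (nd (nat_lit 272) (nat_lit 0) (cs (lf (nat_lit 1) (nat_lit 272)) (rf (nat_lit 6)))))) (lf (nat_lit 5) (nat_lit 295)))))))))) (cs (nd (nat_lit 318) (nat_lit 0) (cs (lf (nat_lit 30) (nat_lit 252)) (nd (nat_lit 317) (nat_lit 0) (cs (lf (nat_lit 41) (nat_lit 251)) (nd (nat_lit 315) (nat_lit 0) (cs (lf (nat_lit 13) (nat_lit 293)) (nd (nat_lit 251) (nat_lit 0) (cs (lf (nat_lit 47) (nat_lit 229)) (rf (nat_lit 7)))))))))) (cs (rf (nat_lit 8)) (rf (nat_lit 9))))))))) (cs (nd (nat_lit 273) (nat_lit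 0) (cs (rf (nat_lit 10)) (cs (rf (nat_lit 11)) (cs (rf (nat_lit 12)) (rf (nat_lit 13)))))) (cs (nd (nat_lit 273) (nat_lit 0) (cs (rf (nat_lit 11)) (cs (rf (nat_lit 14)) (cs (nd (nat_lit 319) (nat_lit 0) (cs (rf (nat_lit 15)) (cs (rf (nat_lit 16)) (nd (nat_lit 272) (nat_lit 0) (cs (rf (nat_lit 17)) (cs (rf (nat_lit 18)) (nd (nat_lit 251) (nat_lit 0) (cs (nd (nat_lit 230) (nat_lit 0) (cs (lf (nat_lit 46) (nat_lit 230)) (nd (nat_lit 229) (nat_lit 0) (cs (lf (nat_lit 30) (nat_lit 207)) (rf (nat_lit 19)))))) (cs (nd (nat_lit 294) (nat_lit 0) (cs (lf (nat_lit 11) (nat_lit 271)) (nd (nat_lit 250) (nat_lit 0) (cs (lf (nat_lit 23) (nat_lit 249)) (rf (nat_lit 20)))))) (nd (nat_lit 250) (nat_lit 0) (cs (lf (nat_lit 23) (nat_lit 249)) (nd (nat_lit 230) (nat_lit 0) (cs (lf (nat_lit 26) (nat_lit 208)) (nd (nat_lit 294) (nat_lit 0) (cs (lf (nat_lit 11) (nat_lit 271)) (nd (nat_lit 320) (nat_lit 0) (cs (lf (nat_lit 29) (nat_lit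 253)) (nd (nat_lit 316) (nat_lit 0) (cs (lf (nat_lit 30) (nat_lit 250)) (nd (nat_lit 317) (nat_lit 0) (cs (lf (nat_lit 29) (nat_lit 250)) (nd (nat_lit 318) (nat_lit 0) (cs (lf (nat_lit 41) (nat_lit 252)) (lf (nat_lit 22) (nat_lit 294))))))))))))))))))))))))) (rf (nat_lit 21)))))) (cs (rf (nat_lit 22)) (cs (rf (nat_lit 23)) (cs (nd (nat_lit 273) (nat_lit 0) (cs (rf (nat_lit 10)) (cs (rf (nat_lit 24)) (cs (nd (nat_lit 319) (nat_lit 0) (cs (rf (nat_lit 16)) (rf (nat_lit 25)))) (nd (nat_lit 294) (nat_lit 0) (cs (rf (nat_lit 26)) (cs (nd (nat_lit 252) (nat_lit 0) (cs (lf (nat_lit 25) (nat_lit 208)) (nd (nat_lit 319) (nat_lit 0) (cs (lf (nat_lit 42) (nat_lit 252)) (nd (nat_lit 320) (nat_lit 0) (cs (lf (nat_lit 29) (nat_lit 253)) (nd (nat_lit 295) (nat_lit 0) (cs (lf (nat_lit 2) (nat_lit 294)) (nd (nat_lit 317) (nat_lit 0) (cs (lf (nat_lit 30) (nat_lit 251)) (lf (nat_lit 20) (nat_lit 294)))))))))))) (nd (nat_lit 272)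 (nat_lit 0) (cs (lf (nat_lit 11) (nat_lit 271)) (rf (nat_lit 27))))))))))) (cs (rf (nat_lit 28)) (cs (rf (nat_lit 29)) (cs (rf (nat_lit 30)) (cs (nd (nat_lit 273) (nat_lit 0) (cs (rf (nat_lit 10)) (cs (rf (nat_lit 24)) (cs (rf (nat_lit 13)) (rf (nat_lit 31)))))) (nd (nat_lit 273) (nat_lit 0) (cs (rf (nat_lit 10)) (cs (rf (nat_lit 24)) (cs (rf (nat_lit 13)) (nd (nat_lit 319) (nat_lit 0) (cs (rf (nat_lit 16)) (rf (nat_lit 32))))))))))))))))))) q14612 (by decide +kernel)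
def q14696 : Q := Q.p (nat_lit 0xc00002000000000010000000000000000000000000000000000000000000000000000) (nat_lit 0x1fc0001f0001f80007380019e000278000ec0000d0000000000000000000000000000000000000000000000) (nat_lit 13)
theorem c14696 : QOK q14696 := cut [q12652, q700, q2180, q13445, q5304, q13507, q14665, q13603, q14673, q14678, q14689, q14694, q14695] ⟨c12652, c700, c2180, c13445, c5304, c13507, c14665, c13603, c14673, c14678, c14689, c14694, c14695, trivial⟩ (nd (nat_lit 252) (nat_lit 0) (cs (rf (nat_lit 0)) (cs (nd (nat_lit 276) (nat_lit 0) (cs (rf (nat_lit 1)) (cs (nd (nat_lit 273) (nat_lit 0) (cs (rf (nat_lit 2)) (cs (rf (nat_lit 3)) (nd (nat_lit 251) (nat_lit 0) (cs (rf (nat_lit 4)) (nd (nat_lit 298) (nat_lit 0) (cs (lf (nat_lit 5) (nat_lit 273)) (nd (nat_lit 318) (nat_lit 0) (cs (rf (nat_lit 5)) (cs (nd (nat_lit 317) (nat_lit 0) (cs (nd (nat_lit 295) (nat_lit 0) (cs (lf (nat_lit 29) (nat_lit 251)) (lf (nat_lit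 30) (nat_lit 251)))) (cs (nd (nat_lit 320) (nat_lit 0) (cs (lf (nat_lit 42) (nat_lit 253)) (nd (nat_lit 339) (nat_lit 0) (cs (lf (nat_lit 32) (nat_lit 251)) (nd (nat_lit 319) (nat_lit 0) (cs (lf (nat_lit 11) (nat_lit 316)) (rf (nat_lit 6)))))))) (nd (nat_lit 319) (nat_lit 0) (cs (rf (nat_lit 7)) (cs (rf (nat_lit 6)) (cs (nd (nat_lit 297) (nat_lit 0) (cs (lf (nat_lit 41) (nat_lit 252)) (lf (nat_lit 12) (nat_lit 294)))) (nd (nat_lit 342) (nat_lit 0) (cs (lf (nat_lit 43) (nat_lit 253)) (rf (nat_lit 8))))))))))) (nd (nat_lit 320) (nat_lit 0) (cs (lf (nat_lit 42) (nat_lit 253)) (nd (nat_lit 229) (nat_lit 0) (cs (lf (nat_lit 43) (nat_lit 229)) (nd (nat_lit 207) (nat_lit 0) (cs (lf (nat_lit 35) (nat_lit 185)) (rf (nat_lit 9)))))))))))))))))) (rf (nat_lit 10))))) (cs (rf (nat_lit 11)) (rf (nat_lit 12)))))) q14696 (by decide +kernel)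
def q14759 : Q := Q.p (nat_lit 0xc00002000000000010000000000000000000000000000000000000000000000000000) (nat_lit 0x100000e00003c0003ff000ff8007ff0007380039700005000004000000000000000000000000000000000000000000000000000) (nat_lit 14)
theorem c14759 : QOK q14759 := cut [q14455, q14557, q12834, q13007, q14655, q14698, q1310, q14709, q12932, q13048, q13026, q14713, q14715, q2556, q2579, q12921, q14726, q12919, q14731, q12937, q14313, q14745, q14368, q14393, q14748, q14754, q14608] ⟨c14455, c14557, c12834, c13007, c14655, c14698, c1310, c14709, c12932, c13048, c13026, c14713, c14715, c2556, c2579, c12921, c14726, c12919, c14731, c12937, c14313, c14745, c14368, c14393, c14748, c14754, c14608, trivial⟩ (nd (nat_lit 297) (nat_lit 0) (cs (rf (nat_lit 0)) (cs (rf (nat_lit 1)) (cs (nd (nat_lit 273) (nat_lit 0) (cs (rf (nat_lit 2)) (cs (nd (nat_lit 276) (nat_lit 0) (cs (rf (nat_lit 3)) (cs (rf (nat_lit 4)) (cs (nd (nat_lit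 298) (nat_lit 0) (cs (lf (nat_lit 5) (nat_lit 273)) (nd (nat_lit 252) (nat_lit 0) (cs (lf (nat_lit 25) (nat_lit 208)) (nd (nat_lit 295) (nat_lit 0) (cs (lf (nat_lit 11) (nat_lit 272)) (nd (nat_lit 320) (nat_lit 0) (cs (lf (nat_lit 42) (nat_lit 253)) (rf (nat_lit 5)))))))))) (nd (nat_lit 252) (nat_lit 0) (cs (rf (nat_lit 6)) (lf (nat_lit 25) (nat_lit 208)))))))) (rf (nat_lit 7))))) (cs (nd (nat_lit 319) (nat_lit 0) (cs (rf (nat_lit 8)) (cs (rf (nat_lit 9)) (nd (nat_lit 320) (nat_lit 0) (cs (lf (nat_lit 29) (nat_lit 253)) (nd (nat_lit 295) (nat_lit 0) (cs (rf (nat_lit 10)) (cs (nd (nat_lit 230) (nat_lit 0) (cs (lf (nat_lit 26) (nat_lit 208)) (rf (nat_lit 11)))) (rf (nat_lit 12)))))))))) (cs (nd (nat_lit 298) (nat_lit 0) (cs (rf (nat_lit 13)) (cs (nd (nat_lit 319) (nat_lit 0) (cs (rf (nat_lit 14)) (cs (rf (nat_lit 15)) (cs (nd (nat_lit 320) (nat_lit 0) (cs (lf (nat_lit 29) (nat_lit 253)) (rf (nat_lit 16)))) (nd (nat_lit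 340) (nat_lit 0) (cs (lf (nat_lit 40) (nat_lit 252)) (nd (nat_lit 341) (nat_lit 0) (cs (lf (nat_lit 41) (nat_lit 274)) (rf (nat_lit 17)))))))))) (cs (rf (nat_lit 18)) (nd (nat_lit 319) (nat_lit 0) (cs (rf (nat_lit 14)) (cs (rf (nat_lit 15)) (cs (rf (nat_lit 8)) (cs (rf (nat_lit 19)) (rf (nat_lit 20))))))))))) (cs (rf (nat_lit 21)) (cs (nd (nat_lit 319) (nat_lit 0) (cs (rf (nat_lit 8)) (cs (rf (nat_lit 9)) (nd (nat_lit 320) (nat_lit 0) (cs (lf (nat_lit 29) (nat_lit 253)) (nd (nat_lit 321) (nat_lit 0) (cs (rf (nat_lit 22)) (cs (rf (nat_lit 23)) (cs (nd (nat_lit 318) (nat_lit 0) (cs (lf (nat_lit 41) (nat_lit 252)) (nd (nat_lit 343) (nat_lit 0) (cs (lf (nat_lit 5) (nat_lit 318)) (nd (nat_lit 299) (nat_lit 0) (cs (lf (nat_lit 17) (nat_lit 296)) (nd (nat_lit 296) (nat_lit 0) (cs (lf (nat_lit 23) (nat_lit 295)) (nd (nat_lit 230) (nat_lit 0) (cs (lf (nat_lit 46) (nat_lit 230)) (rf (nat_lit 24)))))))))))) (rf (nat_lit 25)))))))))))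 (nd (nat_lit 273) (nat_lit 0) (cs (rf (nat_lit 2)) (cs (rf (nat_lit 26)) (rf (nat_lit 7))))))))))))) q14759 (by decide +kernel)
def q15458 : Q := Q.p (nat_lit 0x800002000000000030000000000000000000000000000000000000000000000000000) (nat_lit 0x8000778003fe001df80077f8009f801f7f003cf801fde007f3001ffc001f000000000000000000000000000000) (nat_lit 17)
theorem c15458 : QOK q15458 := cut [q15404, q15405, q1177, q15411, q15421, q15426, q2454, q694, q1683, q15438, q379, q15442, q15448, q15457] ⟨c15404, c15405, c1177, c15411, c15421, c15426, c2454, c694, c1683, c15438, c379, c15442, c15448, c15457, trivial⟩ (nd (nat_lit 210) (nat_lit 0) (cs (rf (nat_lit 0)) (cs (nd (nat_lit 230) (nat_lit 0) (cs (nd (nat_lit 252) (nat_lit 0) (cs (lf (nat_lit 24) (nat_lit 186)) (rf (nat_lit 1)))) (nd (nat_lit 229) (nat_lit 0) (cs (lf (nat_lit 6) (nat_lit 207)) (rf (nat_lit 2)))))) (cs (nd (nat_lit 211) (nat_lit 0) (cs (rf (nat_lit 3)) (cs (nd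 (nat_lit 233) (nat_lit 0) (cs (lf (nat_lit 5) (nat_lit 208)) (nd (nat_lit 230) (nat_lit 0) (cs (lf (nat_lit 11) (nat_lit 207)) (nd (nat_lit 252) (nat_lit 0) (cs (lf (nat_lit 24) (nat_lit 186)) (nd (nat_lit 274) (nat_lit 0) (cs (lf (nat_lit 35) (nat_lit 186)) (rf (nat_lit 4)))))))))) (cs (rf (nat_lit 5)) (nd (nat_lit 230) (nat_lit 0) (cs (lf (nat_lit 11) (nat_lit 207)) (nd (nat_lit 186) (nat_lit 0) (cs (lf (nat_lit 27) (nat_lit 186)) (rf (nat_lit 6)))))))))) (cs (nd (nat_lit 211) (nat_lit 0) (cs (rf (nat_lit 7)) (cs (rf (nat_lit 3)) (cs (nd (nat_lit 233) (nat_lit 0) (cs (lf (nat_lit 5) (nat_lit 208)) (nd (nat_lit 207) (nat_lit 0) (cs (lf (nat_lit 4) (nat_lit 207)) (nd (nat_lit 188) (nat_lit 0) (cs (lf (nat_lit 17) (nat_lit 185)) (nd (nat_lit 187) (nat_lit 0) (cs (lf (nat_lit 12) (nat_lit 184)) (rf (nat_lit 8)))))))))) (cs (rf (nat_lit 9)) (nd (nat_lit 189) (nat_lit 0) (cs (lf (nat_lit 17) (nat_lit 186)) (nd (nat_lit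 188) (nat_lit 0) (cs (lf (nat_lit 12) (nat_lit 185)) (nd (nat_lit 166) (nat_lit 0) (cs (nd (nat_lit 144) (nat_lit 0) (cs (lf (nat_lit 29) (nat_lit 144)) (lf (nat_lit 24) (nat_lit 122)))) (cs (nd (nat_lit 167) (nat_lit 0) (cs (rf (nat_lit 10)) (nd (nat_lit 233) (nat_lit 0) (cs (lf (nat_lit 42) (nat_lit 166)) (nd (nat_lit 168) (nat_lit 0) (cs (lf (nat_lit 35) (nat_lit 145)) (rf (nat_lit 11)))))))) (nd (nat_lit 144) (nat_lit 0) (cs (lf (nat_lit 24) (nat_lit 122)) (nd (nat_lit 121) (nat_lit 0) (cs (lf (nat_lit 46) (nat_lit 121)) (nd (nat_lit 145) (nat_lit 0) (cs (lf (nat_lit 35) (nat_lit 122)) (nd (nat_lit 167) (nat_lit 0) (cs (lf (nat_lit 30) (nat_lit 144)) (rf (nat_lit 12)))))))))))))))))))))) (rf (nat_lit 13))))))) q15458 (by decide +kernel)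
def q16023 : Q := Q.p (nat_lit 0x800002000000000010000000000000000000000000000000000000000000000000000) (nat_lit 0x370001fc000ff8003ff001ffe00fff801f7e00f9f800fbe003ef800fdc003c20001000000000000000000000000000000000000) (nat_lit 18)
theorem c16023 : QOK q16023 := cut [q14663, q15630, q15708, q15683, q14538, q15712, q15717, q15723, q2609, q15729, q15792, q15794, q15797, q14660, q14661, q15522, q15538, q15629, q15990, q15711, q15716, q15992, q12683, q12945, q12989, q13008, q13042, q15707, q13007, q15513, q15999, q12834, q12908, q12938, q12897, q12906, q16004, q15801, q15828, q13426, q14626, q14662, q12991, q14659, q14764, q11700, q16011, q15536, q15802, q15829, q15831, q15835, q15836, q15842, q15848, q15882, q15883] ⟨c14663, c15630, c15708, c15683, c14538, c15712, c15717, c15723, c2609, c15729, c15792, c15794, c15797, c14660, c14661, c15522, c15538, c15629, c15990, c15711, c15716, c15992, c12683, c12945, c12989,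 c13008, c13042, c15707, c13007, c15513, c15999, c12834, c12908, c12938, c12897, c12906, c16004, c15801, c15828, c13426, c14626, c14662, c12991, c14659, c14764, c11700, c16011, c15536, c15802, c15829, c15831, c15835, c15836, c15842, c15848, c15882, c15883, trivial⟩ (nd (nat_lit 274) (nat_lit 0) (cs (rf (nat_lit 0)) (cs (rf (nat_lit 1)) (cs (rf (nat_lit 2)) (cs (nd (nat_lit 231) (nat_lit 0) (cs (rf (nat_lit 3)) (cs (nd (nat_lit 297) (nat_lit 0) (cs (rf (nat_lit 4)) (cs (rf (nat_lit 5)) (cs (rf (nat_lit 6)) (cs (rf (nat_lit 7)) (cs (nd (nat_lit 318) (nat_lit 0) (cs (lf (nat_lit 40) (nat_lit 230)) (nd (nat_lit 210) (nat_lit 0) (cs (lf (nat_lit 34) (nat_lit 209)) (nd (nat_lit 319) (nat_lit 0) (cs (lf (nat_lit 41) (nat_lit 252)) (nd (nat_lit 341) (nat_lit 0) (cs (lf (nat_lit 47) (nat_lit 252)) (rf (nat_lit 8)))))))))) (nd (nat_lit 277) (nat_lit 0) (cs (rf (nat_lit 9)) (cs (rf (nat_lit 10)) (rf (nat_lit 11)))))))))))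 (rf (nat_lit 12))))) (cs (nd (nat_lit 276) (nat_lit 0) (cs (rf (nat_lit 13)) (cs (rf (nat_lit 14)) (cs (rf (nat_lit 15)) (cs (rf (nat_lit 16)) (rf (nat_lit 17))))))) (cs (rf (nat_lit 18)) (cs (nd (nat_lit 231) (nat_lit 0) (cs (rf (nat_lit 3)) (cs (rf (nat_lit 12)) (nd (nat_lit 297) (nat_lit 0) (cs (rf (nat_lit 19)) (cs (rf (nat_lit 20)) (cs (rf (nat_lit 11)) (rf (nat_lit 21))))))))) (cs (nd (nat_lit 273) (nat_lit 0) (cs (rf (nat_lit 22)) (cs (rf (nat_lit 23)) (cs (rf (nat_lit 24)) (cs (rf (nat_lit 25)) (cs (rf (nat_lit 26)) (cs (rf (nat_lit 27)) (cs (nd (nat_lit 276) (nat_lit 0) (cs (rf (nat_lit 28)) (cs (rf (nat_lit 29)) (rf (nat_lit 30))))) (nd (nat_lit 297) (nat_lit 0) (cs (rf (nat_lit 31)) (cs (rf (nat_lit 32)) (cs (rf (nat_lit 33)) (nd (nat_lit 296) (nat_lit 0) (cs (rf (nat_lit 34)) (cs (rf (nat_lit 35)) (nd (nat_lit 209) (nat_lit 0) (cs (lf (nat_lit 37) (nat_lit 208)) (rf (nat_lit 36))))))))))))))))))) (cs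 (nd (nat_lit 231) (nat_lit 0) (cs (rf (nat_lit 3)) (cs (rf (nat_lit 12)) (cs (nd (nat_lit 296) (nat_lit 0) (cs (rf (nat_lit 37)) (cs (rf (nat_lit 38)) (nd (nat_lit 276) (nat_lit 0) (cs (rf (nat_lit 39)) (cs (rf (nat_lit 40)) (cs (rf (nat_lit 14)) (cs (rf (nat_lit 41)) (nd (nat_lit 273) (nat_lit 0) (cs (rf (nat_lit 42)) (cs (rf (nat_lit 43)) (cs (rf (nat_lit 27)) (nd (nat_lit 295) (nat_lit 0) (cs (rf (nat_lit 44)) (nd (nat_lit 317) (nat_lit 0) (cs (rf (nat_lit 45)) (nd (nat_lit 251) (nat_lit 0) (cs (lf (nat_lit 23) (nat_lit 250)) (rf (nat_lit 46)))))))))))))))))))) (nd (nat_lit 209) (nat_lit 0) (cs (lf (nat_lit 41) (nat_lit 208)) (nd (nat_lit 276) (nat_lit 0) (cs (lf (nat_lit 29) (nat_lit 209)) (rf (nat_lit 47)))))))))) (nd (nat_lit 296) (nat_lit 0) (cs (rf (nat_lit 48)) (cs (rf (nat_lit 49)) (cs (nd (nat_lit 318) (nat_lit 0) (cs (lf (nat_lit 30) (nat_lit 252)) (nd (nat_lit 317) (nat_lit 0) (cs (nd (nat_lit 319)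 (nat_lit 0) (cs (rf (nat_lit 50)) (cs (rf (nat_lit 51)) (rf (nat_lit 52))))) (cs (nd (nat_lit 319) (nat_lit 0) (cs (rf (nat_lit 52)) (cs (rf (nat_lit 53)) (nd (nat_lit 252) (nat_lit 0) (cs (lf (nat_lit 29) (nat_lit 252)) (rf (nat_lit 54))))))) (cs (rf (nat_lit 55)) (rf (nat_lit 56)))))))) (nd (nat_lit 276) (nat_lit 0) (cs (rf (nat_lit 39)) (cs (rf (nat_lit 40)) (cs (rf (nat_lit 14)) (rf (nat_lit 17)))))))))))))))))))) q16023 (by decide +kernel)
def q16316 : Q := Q.p (nat_lit 0x2000000000030000000000000000000000000000000000000000000000000000) (nat_lit 0x1f00001e0007be001cf800efe001ff8003fc001ff0003f8000fa000060000000000000) (nat_lit 18)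
theorem c16316 : QOK q16316 := cut [q35, q325, q344, q16059, q2456, q2399, q16237, q4318, q16243, q16306, q4102, q167, q1982, q3156, q16158, q3145, q3128, q117, q130, q156, q170, q1983] ⟨c35, c325, c344, c16059, c2456, c2399, c16237, c4318, c16243, c16306, c4102, c167, c1982, c3156, c16158, c3145, c3128, c117, c130, c156, c170, c1983, trivial⟩ (nd (nat_lit 186) (nat_lit 0) (cs (rf (nat_lit 0)) (cs (nd (nat_lit 207) (nat_lit 0) (cs (rf (nat_lit 1)) (cs (rf (nat_lit 2)) (cs (nd (nat_lit 210) (nat_lit 0) (cs (rf (nat_lit 3)) (cs (nd (nat_lit 231) (nat_lit 0) (cs (lf (nat_lit 42) (nat_lit 186)) (nd (nat_lit 228) (nat_lit 0) (cs (lf (nat_lit 10) (nat_lit 206)) (rf (nat_lit 4)))))) (nd (nat_lit 229) (nat_lit 0) (cs (lf (nat_lit 11) (nat_lit 206)) (nd (nat_lit 251) (nat_lit 0) (cs (lf (nat_lit 30) (nat_lit 185)) (nd (nat_lit 275) (nat_lit 0) (cs (lf (nat_lit 44) (nat_lit 186)) (nd (nat_lit 232) (nat_lit 0) (cs (lf (nat_lit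 5) (nat_lit 207)) (nd (nat_lit 185) (nat_lit 0) (cs (lf (nat_lit 23) (nat_lit 184)) (rf (nat_lit 5))))))))))))))) (cs (nd (nat_lit 231) (nat_lit 0) (cs (lf (nat_lit 42) (nat_lit 186)) (nd (nat_lit 206) (nat_lit 0) (cs (lf (nat_lit 5) (nat_lit 206)) (rf (nat_lit 6)))))) (cs (nd (nat_lit 206) (nat_lit 0) (cs (rf (nat_lit 7)) (cs (rf (nat_lit 6)) (nd (nat_lit 231) (nat_lit 0) (cs (lf (nat_lit 42) (nat_lit 186)) (rf (nat_lit 8))))))) (nd (nat_lit 231) (nat_lit 0) (cs (lf (nat_lit 42) (nat_lit 186)) (nd (nat_lit 206) (nat_lit 0) (cs (lf (nat_lit 5) (nat_lit 206)) (rf (nat_lit 8)))))))))))) (cs (rf (nat_lit 9)) (nd (nat_lit 207) (nat_lit 0) (cs (rf (nat_lit 2)) (cs (rf (nat_lit 10)) (cs (nd (nat_lit 185) (nat_lit 0) (cs (rf (nat_lit 11)) (cs (rf (nat_lit 12)) (nd (nat_lit 163) (nat_lit 0) (cs (rf (nat_lit 13)) (cs (rf (nat_lit 14)) (cs (nd (nat_lit 231) (nat_lit 0) (cs (lf (nat_lit 42) (nat_lit 186)) (rf (nat_lit 15))))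 (nd (nat_lit 231) (nat_lit 0) (cs (lf (nat_lit 42) (nat_lit 186)) (nd (nat_lit 142) (nat_lit 0) (cs (lf (nat_lit 25) (nat_lit 142)) (rf (nat_lit 16))))))))))))) (nd (nat_lit 206) (nat_lit 0) (cs (rf (nat_lit 17)) (cs (rf (nat_lit 18)) (cs (rf (nat_lit 19)) (cs (rf (nat_lit 20)) (cs (rf (nat_lit 7)) (nd (nat_lit 183) (nat_lit 0) (cs (lf (nat_lit 22) (nat_lit 183)) (nd (nat_lit 205) (nat_lit 0) (cs (lf (nat_lit 23) (nat_lit 182)) (rf (nat_lit 21)))))))))))))))))))) q16316 (by decide +kernel)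
def q17522 : Q := Q.p (nat_lit 0x2000000000030000000000000000000000000000000000000000000000000000) (nat_lit 0x4000070000fe0003fe003ffc00fff801fff8079fc01fbf007cfe03fbf001ffe007ff0018a00000000000000000000000000000) (nat_lit 18)
theorem c17522 : QOK q17522 := cut [q16448, q4294, q10640, q16145, q17110, q17112, q17484, q689, q16708, q16715, q2187, q13425, q16953, q17490, q16707, q16964, q17322, q17502, q17515, q4622, q139, q82, q690] ⟨c16448, c4294, c10640, c16145, c17110, c17112, c17484, c689, c16708, c16715, c2187, c13425, c16953, c17490, c16707, c16964, c17322, c17502, c17515, c4622, c139, c82, c690, trivial⟩ (nd (nat_lit 210) (nat_lit 0) (cs (rf (nat_lit 0)) (cs (nd (nat_lit 207) (nat_lit 0) (cs (rf (nat_lit 1)) (cs (rf (nat_lit 2)) (cs (rf (nat_lit 3)) (rf (nat_lit 4)))))) (cs (nd (nat_lit 232) (nat_lit 0) (cs (rf (nat_lit 5)) (cs (rf (nat_lit 6)) (nd (nat_lit 233) (nat_lit 0) (cs (nd (nat_lit 188) (nat_lit 0)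 (cs (rf (nat_lit 7)) (cs (nd (nat_lit 277) (nat_lit 0) (cs (nd (nat_lit 255) (nat_lit 0) (cs (lf (nat_lit 42) (nat_lit 210)) (lf (nat_lit 45) (nat_lit 188)))) (cs (nd (nat_lit 275) (nat_lit 0) (cs (lf (nat_lit 32) (nat_lit 187)) (nd (nat_lit 276) (nat_lit 0) (cs (rf (nat_lit 8)) (cs (rf (nat_lit 9)) (cs (nd (nat_lit 274) (nat_lit 0) (cs (rf (nat_lit 10)) (cs (rf (nat_lit 11)) (cs (rf (nat_lit 12)) (rf (nat_lit 13)))))) (nd (nat_lit 278) (nat_lit 0) (cs (rf (nat_lit 14)) (cs (rf (nat_lit 15)) (nd (nat_lit 257) (nat_lit 0) (cs (lf (nat_lit 16) (nat_lit 253)) (nd (nat_lit 297) (nat_lit 0) (cs (lf (nat_lit 11) (nat_lit 274)) (nd (nat_lit 279) (nat_lit 0) (cs (lf (nat_lit 10) (nat_lit 275)) (lf (nat_lit 17) (nat_lit 254))))))))))))))))) (nd (nat_lit 275) (nat_lit 0) (cs (rf (nat_lit 16)) (nd (nat_lit 276) (nat_lit 0) (cs (rf (nat_lit 8)) (cs (rf (nat_lit 9)) (cs (nd (nat_lit 255) (nat_lit 0) (cs (lf (nat_lit 45) (nat_lit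 188)) (nd (nat_lit 274) (nat_lit 0) (cs (lf (nat_lit 17) (nat_lit 252)) (rf (nat_lit 13)))))) (nd (nat_lit 255) (nat_lit 0) (cs (lf (nat_lit 45) (nat_lit 188)) (nd (nat_lit 256) (nat_lit 0) (cs (rf (nat_lit 17)) (lf (nat_lit 12) (nat_lit 252))))))))))))))) (nd (nat_lit 166) (nat_lit 0) (cs (lf (nat_lit 29) (nat_lit 166)) (nd (nat_lit 145) (nat_lit 0) (cs (lf (nat_lit 34) (nat_lit 144)) (nd (nat_lit 144) (nat_lit 0) (cs (lf (nat_lit 35) (nat_lit 122)) (lf (nat_lit 28) (nat_lit 144))))))))))) (cs (rf (nat_lit 18)) (nd (nat_lit 234) (nat_lit 0) (cs (lf (nat_lit 21) (nat_lit 208)) (lf (nat_lit 18) (nat_lit 209)))))))))) (cs (nd (nat_lit 188) (nat_lit 0) (cs (rf (nat_lit 7)) (rf (nat_lit 19)))) (cs (nd (nat_lit 207) (nat_lit 0) (cs (rf (nat_lit 20)) (rf (nat_lit 3)))) (nd (nat_lit 207) (nat_lit 0) (cs (rf (nat_lit 21)) (rf (nat_lit 22)))))))))) q17522 (by decide +kernel)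
def q21906 : Q := Q.p (nat_lit 0x2000000000010000000000000000000000000000000000000000000000000000) (nat_lit 0x280007e0001fe0007f8007ff0019fc00f7f00fefc01fff007ffc03fff807ffc00ffc003ff003fe0000000000000) (nat_lit 19)
theorem c21906 : QOK q21906 := cut [q18461, q19147, q20089, q20184, q20312, q20775, q500, q18160, q18184, q448, q495, q18159, q20787, q21016, q21102, q21325, q21392, q21724, q2888, q2900, q20779, q21027, q21769, q21852, q21, q435, q6130, q4850, q21331, q3044, q20094, q20098, q21094, q20113, q21073, q18447, q20128, q20132, q21361, q5534, q8581, q3803, q5672, q5675, q18178, q21905] ⟨c18461, c19147, c20089, c20184, c20312, c20775, c500, c18160, c18184, c448, c495, c18159, c20787, c21016, c21102, c21325, c21392, c21724, c2888, c2900, c20779, c21027, c21769, c21852, c21, c435, c6130, c4850, c21331, c3044, c20094, c20098, c21094, c20113, c21073, c18447, c20128, c20132, c21361, c5534, c8581, c3803, c5672,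 c5675, c18178, c21905, trivial⟩ (nd (nat_lit 186) (nat_lit 0) (cs (rf (nat_lit 0)) (cs (rf (nat_lit 1)) (cs (rf (nat_lit 2)) (cs (rf (nat_lit 3)) (cs (rf (nat_lit 4)) (cs (rf (nat_lit 5)) (cs (nd (nat_lit 230) (nat_lit 0) (cs (rf (nat_lit 6)) (cs (rf (nat_lit 7)) (cs (rf (nat_lit 8)) (nd (nat_lit 164) (nat_lit 0) (cs (rf (nat_lit 9)) (cs (rf (nat_lit 10)) (cs (rf (nat_lit 11)) (rf (nat_lit 12)))))))))) (cs (rf (nat_lit 13)) (cs (rf (nat_lit 14)) (cs (rf (nat_lit 15)) (cs (rf (nat_lit 16)) (cs (rf (nat_lit 17)) (cs (nd (nat_lit 230) (nat_lit 0) (cs (rf (nat_lit 6)) (cs (rf (nat_lit 7)) (cs (rf (nat_lit 8)) (nd (nat_lit 164) (nat_lit 0) (cs (rf (nat_lit 9)) (cs (rf (nat_lit 10)) (cs (rf (nat_lit 11)) (nd (nat_lit 163) (nat_lit 0) (cs (lf (nat_lit 47) (nat_lit 141)) (nd (nat_lit 188) (nat_lit 0) (cs (rf (nat_lit 18)) (cs (rf (nat_lit 19)) (cs (rf (nat_lit 20)) (nd (nat_lit 229) (nat_lit 0) (cs (lf (nat_lit 41) (nat_lit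 163)) (nd (nat_lit 165) (nat_lit 0) (cs (lf (nat_lit 35) (nat_lit 142)) (nd (nat_lit 162) (nat_lit 0) (cs (lf (nat_lit 4) (nat_lit 162)) (rf (nat_lit 21)))))))))))))))))))))) (cs (rf (nat_lit 22)) (cs (rf (nat_lit 23)) (cs (nd (nat_lit 230) (nat_lit 0) (cs (rf (nat_lit 24)) (cs (rf (nat_lit 25)) (cs (rf (nat_lit 6)) (cs (rf (nat_lit 7)) (nd (nat_lit 164) (nat_lit 0) (cs (rf (nat_lit 9)) (cs (rf (nat_lit 10)) (cs (rf (nat_lit 26)) (rf (nat_lit 11))))))))))) (cs (nd (nat_lit 230) (nat_lit 0) (cs (rf (nat_lit 24)) (cs (rf (nat_lit 25)) (cs (rf (nat_lit 6)) (cs (rf (nat_lit 7)) (nd (nat_lit 164) (nat_lit 0) (cs (rf (nat_lit 9)) (cs (rf (nat_lit 10)) (cs (rf (nat_lit 11)) (nd (nat_lit 165) (nat_lit 0) (cs (rf (nat_lit 27)) (cs (rf (nat_lit 28)) (nd (nat_lit 166) (nat_lit 0) (cs (rf (nat_lit 29)) (cs (rf (nat_lit 30)) (cs (rf (nat_lit 31)) (nd (nat_lit 163) (nat_lit 0) (cs (lf (nat_lit 47) (nat_lit 141)) (rf (nat_lit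 32)))))))))))))))))))) (cs (nd (nat_lit 230) (nat_lit 0) (cs (rf (nat_lit 24)) (cs (rf (nat_lit 25)) (cs (rf (nat_lit 6)) (cs (rf (nat_lit 7)) (nd (nat_lit 164) (nat_lit 0) (cs (rf (nat_lit 9)) (cs (rf (nat_lit 10)) (cs (rf (nat_lit 11)) (nd (nat_lit 165) (nat_lit 0) (cs (lf (nat_lit 35) (nat_lit 142)) (nd (nat_lit 166) (nat_lit 0) (cs (rf (nat_lit 29)) (cs (rf (nat_lit 30)) (cs (rf (nat_lit 31)) (cs (rf (nat_lit 33)) (nd (nat_lit 229) (nat_lit 0) (cs (lf (nat_lit 41) (nat_lit 163)) (nd (nat_lit 163) (nat_lit 0) (cs (lf (nat_lit 47) (nat_lit 141)) (rf (nat_lit 34)))))))))))))))))))))) (cs (nd (nat_lit 164) (nat_lit 0) (cs (rf (nat_lit 35)) (cs (rf (nat_lit 36)) (cs (rf (nat_lit 37)) (cs (rf (nat_lit 38)) (nd (nat_lit 230) (nat_lit 0) (cs (rf (nat_lit 10)) (cs (rf (nat_lit 39)) (rf (nat_lit 40)))))))))) (cs (nd (nat_lit 230) (nat_lit 0) (cs (rf (nat_lit 24)) (cs (rf (nat_lit 25)) (cs (rf (nat_lit 6)) (cs (rf (nat_lit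 7)) (nd (nat_lit 164) (nat_lit 0) (cs (rf (nat_lit 9)) (cs (rf (nat_lit 10)) (cs (rf (nat_lit 11)) (nd (nat_lit 163) (nat_lit 0) (cs (lf (nat_lit 47) (nat_lit 141)) (nd (nat_lit 162) (nat_lit 0) (cs (rf (nat_lit 41)) (cs (rf (nat_lit 42)) (cs (rf (nat_lit 43)) (rf (nat_lit 44))))))))))))))))) (rf (nat_lit 45))))))))))))))))))))))) q21906 (by decide +kernel)
def q22902 : Q := Q.p (nat_lit 0xc00002000000000010000000000000000000000000000000000000000000000000000) (nat_lit 0x40000700001c000ffc001fe000ffc003df80073e0039fc007bc001ef0007be0014e0000100000000000000000000000000000000000) (nat_lit 17)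
theorem c22902 : QOK q22902 := cut [q22132, q22118, q22622, q1301, q15652, q22662, q22663, q12654, q15644, q22665, q13396, q22678, q22691, q22705, q22710, q22796, q22802, q22821, q22900, q22901] ⟨c22132, c22118, c22622, c1301, c15652, c22662, c22663, c12654, c15644, c22665, c13396, c22678, c22691, c22705, c22710, c22796, c22802, c22821, c22900, c22901, trivial⟩ (nd (nat_lit 273) (nat_lit 0) (cs (rf (nat_lit 0)) (cs (nd (nat_lit 276) (nat_lit 0) (cs (rf (nat_lit 1)) (cs (rf (nat_lit 2)) (cs (nd (nat_lit 209) (nat_lit 0) (cs (rf (nat_lit 3)) (cs (rf (nat_lit 4)) (nd (nat_lit 295) (nat_lit 0) (cs (lf (nat_lit 11) (nat_lit 272)) (nd (nat_lit 317) (nat_lit 0) (cs (rf (nat_lit 5)) (cs (nd (nat_lit 251) (nat_lit 0) (cs (lf (nat_lit 23) (nat_lit 250)) (nd (nat_lit 229) (nat_lit 0) (cs (rf (nat_lit 6)) (nd (nat_lit 207) (nat_lit 0) (cs (rf (nat_lit 7)) (cs (rf (nat_lit 8)) (rf (nat_lit 9))))))))) (cs (nd (nat_lit 251) (nat_lit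 0) (cs (lf (nat_lit 23) (nat_lit 250)) (nd (nat_lit 298) (nat_lit 0) (cs (lf (nat_lit 5) (nat_lit 273)) (nd (nat_lit 320) (nat_lit 0) (cs (lf (nat_lit 42) (nat_lit 253)) (nd (nat_lit 318) (nat_lit 0) (cs (lf (nat_lit 29) (nat_lit 251)) (nd (nat_lit 229) (nat_lit 0) (cs (lf (nat_lit 28) (nat_lit 229)) (nd (nat_lit 206) (nat_lit 0) (cs (lf (nat_lit 46) (nat_lit 206)) (nd (nat_lit 184) (nat_lit 0) (cs (rf (nat_lit 10)) (lf (nat_lit 45) (nat_lit 184)))))))))))))))) (cs (nd (nat_lit 298) (nat_lit 0) (cs (lf (nat_lit 5) (nat_lit 273)) (nd (nat_lit 320) (nat_lit 0) (cs (lf (nat_lit 42) (nat_lit 253)) (nd (nat_lit 250) (nat_lit 0) (cs (lf (nat_lit 22) (nat_lit 250)) (nd (nat_lit 339) (nat_lit 0) (cs (lf (nat_lit 35) (nat_lit 251)) (nd (nat_lit 338) (nat_lit 0) (cs (lf (nat_lit 41) (nat_lit 272)) (nd (nat_lit 318) (nat_lit 0) (cs (lf (nat_lit 7) (nat_lit 316)) (nd (nat_lit 361) (nat_lit 0) (cs (lf (nat_lit 34) (nat_lit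 273)) (nd (nat_lit 384) (nat_lit 0) (cs (lf (nat_lit 28) (nat_lit 295)) (nd (nat_lit 383) (nat_lit 0) (cs (lf (nat_lit 29) (nat_lit 317)) (nd (nat_lit 405) (nat_lit 0) (cs (rf (nat_lit 11)) (lf (nat_lit 47) (nat_lit 316)))))))))))))))))))))) (cs (nd (nat_lit 298) (nat_lit 0) (cs (lf (nat_lit 5) (nat_lit 273)) (nd (nat_lit 320) (nat_lit 0) (cs (lf (nat_lit 42) (nat_lit 253)) (nd (nat_lit 250) (nat_lit 0) (cs (lf (nat_lit 22) (nat_lit 250)) (nd (nat_lit 339) (nat_lit 0) (cs (lf (nat_lit 35) (nat_lit 251)) (nd (nat_lit 338) (nat_lit 0) (cs (lf (nat_lit 41) (nat_lit 272)) (rf (nat_lit 12)))))))))))) (rf (nat_lit 13))))))))))))) (rf (nat_lit 14)))))) (cs (rf (nat_lit 15)) (cs (rf (nat_lit 16)) (cs (rf (nat_lit 17)) (cs (rf (nat_lit 18)) (rf (nat_lit 19))))))))) q22902 (by decide +kernel)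
def q24470 : Q := Q.p (nat_lit 0x800002000000000018000000000000000000000000000000000000000000000000000) (nat_lit 0x380001e00007e001dfc0077f0001fc001ff80007c0003f8007fc001ff800ffc0007e0000f800028000000000000) (nat_lit 17)
theorem c24470 : QOK q24470 := cut [q18354, q23522, q23523, q23529, q23679, q23681, q22352, q23698, q23721, q23886, q23905, q24319, q24360, q24406, q23758, q24370, q12282, q24416, q12211, q24183, q21655, q24425, q24431, q24438, q24448, q3506, q24318, q24449, q20529, q24464, q24469] ⟨c18354, c23522, c23523, c23529, c23679, c23681, c22352, c23698, c23721, c23886, c23905, c24319, c24360, c24406, c23758, c24370, c12282, c24416, c12211, c24183, c21655, c24425, c24431, c24438, c24448, c3506, c24318, c24449, c20529, c24464, c24469, trivial⟩ (nd (nat_lit 206) (nat_lit 0) (cs (nd (nat_lit 205) (nat_lit 0) (cs (rf (nat_lit 0)) (cs (rf (nat_lit 1)) (cs (rf (nat_lit 2)) (rf (nat_lit 3)))))) (cs (rf (nat_lit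 4)) (cs (nd (nat_lit 205) (nat_lit 0) (cs (rf (nat_lit 0)) (cs (rf (nat_lit 1)) (cs (rf (nat_lit 2)) (nd (nat_lit 227) (nat_lit 0) (cs (lf (nat_lit 11) (nat_lit 204)) (nd (nat_lit 249) (nat_lit 0) (cs (rf (nat_lit 5)) (cs (nd (nat_lit 230) (nat_lit 0) (cs (lf (nat_lit 5) (nat_lit 205)) (nd (nat_lit 271) (nat_lit 0) (cs (lf (nat_lit 35) (nat_lit 183)) (nd (nat_lit 272) (nat_lit 0) (cs (lf (nat_lit 29) (nat_lit 205)) (nd (nat_lit 292) (nat_lit 0) (cs (lf (nat_lit 40) (nat_lit 204)) (nd (nat_lit 293) (nat_lit 0) (cs (lf (nat_lit 41) (nat_lit 226)) (nd (nat_lit 290) (nat_lit 0) (cs (nd (nat_lit 274) (nat_lit 0) (cs (nd (nat_lit 252) (nat_lit 0) (cs (lf (nat_lit 47) (nat_lit 185)) (nd (nat_lit 250) (nat_lit 0) (cs (lf (nat_lit 8) (nat_lit 249)) (rf (nat_lit 6)))))) (lf (nat_lit 7) (nat_lit 270)))) (lf (nat_lit 13) (nat_lit 268)))))))))))))) (rf (nat_lit 7))))))))))) (cs (nd (nat_lit 205) (nat_lit 0) (cs (rf (nat_lit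 0)) (cs (rf (nat_lit 1)) (cs (rf (nat_lit 2)) (rf (nat_lit 8)))))) (cs (rf (nat_lit 9)) (cs (rf (nat_lit 10)) (cs (rf (nat_lit 11)) (cs (rf (nat_lit 12)) (cs (rf (nat_lit 13)) (cs (nd (nat_lit 205) (nat_lit 0) (cs (rf (nat_lit 14)) (cs (rf (nat_lit 15)) (cs (nd (nat_lit 230) (nat_lit 0) (cs (lf (nat_lit 5) (nat_lit 205)) (nd (nat_lit 229) (nat_lit 0) (cs (nd (nat_lit 251) (nat_lit 0) (cs (rf (nat_lit 16)) (cs (nd (nat_lit 227) (nat_lit 0) (cs (lf (nat_lit 11) (nat_lit 204)) (nd (nat_lit 249) (nat_lit 0) (cs (nd (nat_lit 184) (nat_lit 0) (cs (lf (nat_lit 30) (nat_lit 183)) (nd (nat_lit 162) (nat_lit 0) (cs (lf (nat_lit 45) (nat_lit 162)) (lf (nat_lit 36) (nat_lit 139)))))) (nd (nat_lit 248) (nat_lit 0) (cs (lf (nat_lit 8) (nat_lit 226)) (lf (nat_lit 14) (nat_lit 226)))))))) (nd (nat_lit 226) (nat_lit 0) (cs (lf (nat_lit 10) (nat_lit 204)) (rf (nat_lit 17))))))) (cs (nd (nat_lit 251) (nat_lit 0) (cs (rf (nat_lit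 16)) (cs (rf (nat_lit 17)) (nd (nat_lit 185) (nat_lit 0) (cs (rf (nat_lit 18)) (rf (nat_lit 19))))))) (cs (nd (nat_lit 227) (nat_lit 0) (cs (lf (nat_lit 11) (nat_lit 204)) (nd (nat_lit 228) (nat_lit 0) (cs (lf (nat_lit 4) (nat_lit 227)) (nd (nat_lit 249) (nat_lit 0) (cs (lf (nat_lit 11) (nat_lit 226)) (rf (nat_lit 20)))))))) (nd (nat_lit 227) (nat_lit 0) (cs (lf (nat_lit 11) (nat_lit 204)) (nd (nat_lit 228) (nat_lit 0) (cs (lf (nat_lit 4) (nat_lit 227)) (nd (nat_lit 249) (nat_lit 0) (cs (lf (nat_lit 11) (nat_lit 226)) (rf (nat_lit 21)))))))))))))) (cs (rf (nat_lit 22)) (rf (nat_lit 23))))))) (cs (rf (nat_lit 24)) (cs (nd (nat_lit 205) (nat_lit 0) (cs (rf (nat_lit 1)) (cs (rf (nat_lit 3)) (cs (rf (nat_lit 15)) (nd (nat_lit 184) (nat_lit 0) (cs (rf (nat_lit 25)) (cs (rf (nat_lit 26)) (cs (nd (nat_lit 182) (nat_lit 0) (cs (lf (nat_lit 22) (nat_lit 182)) (nd (nat_lit 227) (nat_lit 0) (cs (lf (nat_lit 11) (nat_lit 204))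 (nd (nat_lit 204) (nat_lit 0) (cs (lf (nat_lit 23) (nat_lit 181)) (nd (nat_lit 249) (nat_lit 0) (cs (lf (nat_lit 30) (nat_lit 183)) (nd (nat_lit 138) (nat_lit 0) (cs (lf (nat_lit 25) (nat_lit 138)) (nd (nat_lit 203) (nat_lit 0) (cs (lf (nat_lit 17) (nat_lit 181)) (rf (nat_lit 27)))))))))))))) (nd (nat_lit 227) (nat_lit 0) (cs (lf (nat_lit 11) (nat_lit 204)) (nd (nat_lit 183) (nat_lit 0) (cs (lf (nat_lit 23) (nat_lit 182)) (rf (nat_lit 28)))))))))))))) (cs (rf (nat_lit 29)) (rf (nat_lit 30)))))))))))))))) q24470 (by decide +kernel)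
def q24645 : Q := Q.p (nat_lit 0x800002000000000018000000000000000000000000000000000000000000000000000) (nat_lit 0x19000064003df80077e0039fc01ffc003e2000fbc0017c0005f00001c00005000000000000000000000000) (nat_lit 17)
theorem c24645 : QOK q24645 := cut [q24533, q24555, q2359, q21979, q24557, q24562, q13356, q24608, q24611, q24540, q24613, q9426, q24523, q24525, q24530, q24607, q23492, q24644] ⟨c24533, c24555, c2359, c21979, c24557, c24562, c13356, c24608, c24611, c24540, c24613, c9426, c24523, c24525, c24530, c24607, c23492, c24644, trivial⟩ (nd (nat_lit 209) (nat_lit 0) (cs (rf (nat_lit 0)) (cs (rf (nat_lit 1)) (cs (nd (nat_lit 231) (nat_lit 0) (cs (rf (nat_lit 2)) (cs (rf (nat_lit 3)) (nd (nat_lit 210) (nat_lit 0) (cs (lf (nat_lit 35) (nat_lit 187)) (nd (nat_lit 276) (nat_lit 0) (cs (lf (nat_lit 29) (nat_lit 209)) (nd (nat_lit 184) (nat_lit 0) (cs (lf (nat_lit 22) (nat_lit 184)) (rf (nat_lit 4))))))))))) (cs (rf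 (nat_lit 5)) (cs (nd (nat_lit 229) (nat_lit 0) (cs (nd (nat_lit 210) (nat_lit 0) (cs (lf (nat_lit 11) (nat_lit 206)) (nd (nat_lit 184) (nat_lit 0) (cs (lf (nat_lit 22) (nat_lit 184)) (rf (nat_lit 6)))))) (cs (rf (nat_lit 7)) (cs (nd (nat_lit 185) (nat_lit 0) (cs (rf (nat_lit 8)) (cs (nd (nat_lit 252) (nat_lit 0) (cs (rf (nat_lit 9)) (nd (nat_lit 163) (nat_lit 0) (cs (lf (nat_lit 28) (nat_lit 163)) (rf (nat_lit 10)))))) (nd (nat_lit 210) (nat_lit 0) (cs (lf (nat_lit 23) (nat_lit 184)) (nd (nat_lit 232) (nat_lit 0) (cs (lf (nat_lit 5) (nat_lit 207)) (nd (nat_lit 211) (nat_lit 0) (cs (lf (nat_lit 10) (nat_lit 207)) (nd (nat_lit 190) (nat_lit 0) (cs (lf (nat_lit 16) (nat_lit 186)) (nd (nat_lit 212) (nat_lit 0) (cs (lf (nat_lit 17) (nat_lit 187)) (nd (nat_lit 213) (nat_lit 0) (cs (rf (nat_lit 11)) (lf (nat_lit 11) (nat_lit 209))))))))))))))))) (cs (nd (nat_lit 274) (nat_lit 0) (cs (rf (nat_lit 12)) (cs (rf (nat_lit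 13)) (cs (rf (nat_lit 14)) (cs (rf (nat_lit 15)) (nd (nat_lit 231) (nat_lit 0) (cs (lf (nat_lit 41) (nat_lit 208)) (nd (nat_lit 252) (nat_lit 0) (cs (lf (nat_lit 36) (nat_lit 186)) (nd (nat_lit 276) (nat_lit 0) (cs (lf (nat_lit 29) (nat_lit 209)) (nd (nat_lit 230) (nat_lit 0) (cs (lf (nat_lit 47) (nat_lit 185)) (nd (nat_lit 273) (nat_lit 0) (cs (lf (nat_lit 41) (nat_lit 207)) (nd (nat_lit 277) (nat_lit 0) (cs (lf (nat_lit 18) (nat_lit 252)) (nd (nat_lit 272) (nat_lit 0) (cs (lf (nat_lit 12) (nat_lit 249)) (nd (nat_lit 299) (nat_lit 0) (cs (lf (nat_lit 5) (nat_lit 274)) (nd (nat_lit 294) (nat_lit 0) (cs (lf (nat_lit 11) (nat_lit 271)) (nd (nat_lit 228) (nat_lit 0) (cs (lf (nat_lit 12) (nat_lit 205)) (lf (nat_lit 32) (nat_lit 206))))))))))))))))))))))))))) (nd (nat_lit 210) (nat_lit 0) (cs (lf (nat_lit 11) (nat_lit 206)) (rf (nat_lit 16))))))))) (rf (nat_lit 17)))))))) q24645 (by decide +kernel)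
def q24672 : Q := Q.p (nat_lit 0x800002000000000018000000000000000000000000000000000000000000000000000) (nat_lit 0x380000e00003e001df00077d0001fc001df80067c003bf8000f80007e0000700001400000000000000000000000) (nat_lit 17)
theorem c24672 : QOK q24672 := cut [q23886, q23501, q3392, q23599, q23929, q24654, q24659, q18354, q24661, q22368, q721, q24650, q24671] ⟨c23886, c23501, c3392, c23599, c23929, c24654, c24659, c18354, c24661, c22368, c721, c24650, c24671, trivial⟩ (nd (nat_lit 206) (nat_lit 0) (cs (rf (nat_lit 0)) (cs (nd (nat_lit 209) (nat_lit 0) (cs (rf (nat_lit 1)) (cs (nd (nat_lit 188) (nat_lit 0) (cs (lf (nat_lit 16) (nat_lit 184)) (nd (nat_lit 228) (nat_lit 0) (cs (lf (nat_lit 11) (nat_lit 205)) (nd (nat_lit 250) (nat_lit 0) (cs (rf (nat_lit 2)) (cs (rf (nat_lit 3)) (cs (nd (nat_lit 210) (nat_lit 0) (cs (lf (nat_lit 17) (nat_lit 185)) (nd (nat_lit 184) (nat_lit 0) (cs (lf (nat_lit 22) (nat_lit 184)) (rf (nat_lit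 4)))))) (rf (nat_lit 5)))))))))) (rf (nat_lit 6))))) (cs (nd (nat_lit 205) (nat_lit 0) (cs (rf (nat_lit 7)) (nd (nat_lit 231) (nat_lit 0) (cs (lf (nat_lit 4) (nat_lit 205)) (rf (nat_lit 8)))))) (cs (nd (nat_lit 209) (nat_lit 0) (cs (rf (nat_lit 9)) (cs (rf (nat_lit 1)) (cs (nd (nat_lit 231) (nat_lit 0) (cs (lf (nat_lit 5) (nat_lit 206)) (nd (nat_lit 274) (nat_lit 0) (cs (lf (nat_lit 41) (nat_lit 208)) (nd (nat_lit 252) (nat_lit 0) (cs (lf (nat_lit 36) (nat_lit 186)) (nd (nat_lit 185) (nat_lit 0) (cs (lf (nat_lit 44) (nat_lit 185)) (rf (nat_lit 10)))))))))) (nd (nat_lit 231) (nat_lit 0) (cs (lf (nat_lit 5) (nat_lit 206)) (rf (nat_lit 11)))))))) (rf (nat_lit 12))))))) q24672 (by decide +kernel)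
def q24887 : Q := Q.p (nat_lit 0x800002000000000018000000000000000000000000000000000000000000000000000) (nat_lit 0x780003f0003df00077c0039f0007ee001e7000fbc000720001c80001000000000000000000000000000000) (nat_lit 17)
theorem c24887 : QOK q24887 := cut [q24742, q11501, q11503, q2192, q22233, q22294, q24747, q22293, q15503, q22857, q24752, q24756, q24759, q24763, q700, q13451, q16886, q24768, q24772, q24794, q24527, q11502, q24705, q24795, q24818, q24866, q2190, q2182, q22310, q24867, q24869, q24876] ⟨c24742, c11501, c11503, c2192, c22233, c22294, c24747, c22293, c15503, c22857, c24752, c24756, c24759, c24763, c700, c13451, c16886, c24768, c24772, c24794, c24527, c11502, c24705, c24795, c24818, c24866, c2190, c2182, c22310, c24867, c24869, c24876, trivial⟩ (nd (nat_lit 274) (nat_lit 0) (cs (rf (nat_lit 0)) (cs (nd (nat_lit 252) (nat_lit 0) (cs (rf (nat_lit 1)) (cs (rf (nat_lit 2)) (cs (nd (nat_lit 273) (nat_lit 0)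 (cs (rf (nat_lit 3)) (cs (rf (nat_lit 4)) (nd (nat_lit 271) (nat_lit 0) (cs (lf (nat_lit 13) (nat_lit 249)) (nd (nat_lit 230) (nat_lit 0) (cs (lf (nat_lit 41) (nat_lit 207)) (rf (nat_lit 5))))))))) (cs (rf (nat_lit 6)) (nd (nat_lit 230) (nat_lit 0) (cs (lf (nat_lit 47) (nat_lit 185)) (nd (nat_lit 273) (nat_lit 0) (cs (lf (nat_lit 41) (nat_lit 207)) (nd (nat_lit 271) (nat_lit 0) (cs (lf (nat_lit 13) (nat_lit 249)) (rf (nat_lit 5))))))))))))) (cs (nd (nat_lit 252) (nat_lit 0) (cs (rf (nat_lit 1)) (cs (nd (nat_lit 296) (nat_lit 0) (cs (rf (nat_lit 7)) (cs (nd (nat_lit 209) (nat_lit 0) (cs (rf (nat_lit 8)) (nd (nat_lit 276) (nat_lit 0) (cs (rf (nat_lit 9)) (rf (nat_lit 10)))))) (rf (nat_lit 11))))) (rf (nat_lit 12))))) (cs (nd (nat_lit 252) (nat_lit 0) (cs (rf (nat_lit 13)) (cs (nd (nat_lit 276) (nat_lit 0) (cs (rf (nat_lit 14)) (cs (rf (nat_lit 15)) (nd (nat_lit 209) (nat_lit 0) (cs (rf (nat_lit 16)) (rf (nat_lit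 10))))))) (rf (nat_lit 17))))) (cs (nd (nat_lit 252) (nat_lit 0) (cs (rf (nat_lit 1)) (cs (rf (nat_lit 2)) (cs (rf (nat_lit 17)) (nd (nat_lit 230) (nat_lit 0) (cs (lf (nat_lit 47) (nat_lit 185)) (rf (nat_lit 18)))))))) (cs (rf (nat_lit 19)) (cs (nd (nat_lit 252) (nat_lit 0) (cs (nd (nat_lit 230) (nat_lit 0) (cs (lf (nat_lit 47) (nat_lit 185)) (rf (nat_lit 20)))) (cs (rf (nat_lit 12)) (cs (rf (nat_lit 13)) (nd (nat_lit 251) (nat_lit 0) (cs (rf (nat_lit 21)) (cs (rf (nat_lit 22)) (nd (nat_lit 250) (nat_lit 0) (cs (lf (nat_lit 0) (nat_lit 249)) (nd (nat_lit 231) (nat_lit 0) (cs (lf (nat_lit 17) (nat_lit 228)) (nd (nat_lit 187) (nat_lit 0) (cs (lf (nat_lit 37) (nat_lit 186)) (nd (nat_lit 229) (nat_lit 0) (cs (lf (nat_lit 24) (nat_lit 185)) (rf (nat_lit 23))))))))))))))))) (cs (rf (nat_lit 24)) (cs (nd (nat_lit 252) (nat_lit 0) (cs (rf (nat_lit 1)) (cs (rf (nat_lit 2)) (rf (nat_lit 12))))) (cs (rf (nat_lit 25)) (nd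 (nat_lit 252) (nat_lit 0) (cs (rf (nat_lit 6)) (cs (rf (nat_lit 12)) (nd (nat_lit 276) (nat_lit 0) (cs (rf (nat_lit 14)) (cs (rf (nat_lit 26)) (nd (nat_lit 273) (nat_lit 0) (cs (rf (nat_lit 27)) (cs (rf (nat_lit 28)) (nd (nat_lit 318) (nat_lit 0) (cs (rf (nat_lit 29)) (cs (nd (nat_lit 251) (nat_lit 0) (cs (lf (nat_lit 0) (nat_lit 250)) (nd (nat_lit 298) (nat_lit 0) (cs (lf (nat_lit 5) (nat_lit 273)) (nd (nat_lit 320) (nat_lit 0) (cs (lf (nat_lit 42) (nat_lit 253)) (nd (nat_lit 209) (nat_lit 0) (cs (lf (nat_lit 25) (nat_lit 209)) (rf (nat_lit 30)))))))))) (cs (nd (nat_lit 294) (nat_lit 0) (cs (lf (nat_lit 10) (nat_lit 272)) (rf (nat_lit 31)))) (nd (nat_lit 296) (nat_lit 0) (cs (lf (nat_lit 30) (nat_lit 252)) (nd (nat_lit 298) (nat_lit 0) (cs (lf (nat_lit 5) (nat_lit 273)) (nd (nat_lit 320) (nat_lit 0) (cs (lf (nat_lit 42) (nat_lit 253)) (nd (nat_lit 319) (nat_lit 0) (cs (lf (nat_lit 29) (nat_lit 252)) (nd (nat_lit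 295) (nat_lit 0) (cs (lf (nat_lit 11) (nat_lit 272)) (lf (nat_lit 18) (nat_lit 295)))))))))))))))))))))))))))))))))))) q24887 (by decide +kernel)
def q25087 : Q := Q.p (nat_lit 0x800002000000000018000000000000000000000000000000000000000000000000000) (nat_lit 0x19000064003df80077e0039fc000fe000e70007be0007f0001fc0001700001400000000000000000000000) (nat_lit 17)
theorem c25087 : QOK q25087 := cut [q24533, q743, q25072, q23499, q117, q668, q1123, q23905, q25022, q25031, q684, q22368] ⟨c24533, c743, c25072, c23499, c117, c668, c1123, c23905, c25022, c25031, c684, c22368, trivial⟩ (nd (nat_lit 209) (nat_lit 0) (cs (rf (nat_lit 0)) (cs (nd (nat_lit 188) (nat_lit 0) (cs (rf (nat_lit 1)) (cs (rf (nat_lit 2)) (cs (nd (nat_lit 187) (nat_lit 0) (cs (lf (nat_lit 12) (nat_lit 184)) (nd (nat_lit 189) (nat_lit 0) (cs (lf (nat_lit 6) (nat_lit 186)) (nd (nat_lit 231) (nat_lit 0) (cs (lf (nat_lit 35) (nat_lit 165)) (rf (nat_lit 3))))))))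 (nd (nat_lit 187) (nat_lit 0) (cs (lf (nat_lit 12) (nat_lit 184)) (nd (nat_lit 231) (nat_lit 0) (cs (lf (nat_lit 35) (nat_lit 165)) (lf (nat_lit 34) (nat_lit 187)))))))))) (cs (nd (nat_lit 206) (nat_lit 0) (cs (rf (nat_lit 4)) (cs (rf (nat_lit 5)) (cs (rf (nat_lit 6)) (cs (rf (nat_lit 7)) (cs (rf (nat_lit 8)) (rf (nat_lit 9)))))))) (nd (nat_lit 206) (nat_lit 0) (cs (rf (nat_lit 4)) (cs (rf (nat_lit 10)) (rf (nat_lit 11))))))))) q25087 (by decide +kernel)
def q25560 : Q := Q.p (nat_lit 0xc00003000000000010000000000000000000000000000000000000000000000000000) (nat_lit 0x140003ff000ff8007ef0000000000000004000000000000000000000000000000000000000000000000000000000) (nat_lit 13)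
theorem c25560 : QOK q25560 := cut [q25559] ⟨c25559, trivial⟩ (nd (nat_lit 297) (nat_lit 0) (cs (lf (nat_lit 25) (nat_lit 208)) (rf (nat_lit 0)))) q25560 (by decide +kernel)
def q26169 : Q := Q.p (nat_lit 0x800002400000000014000000000000000000000000000000000000000000000000000) (nat_lit 0x300001e0003ff000ff8007ef000178000120001d8000620001380000e0000280000000000000000000000000000000000) (nat_lit 14)
theorem c26169 : QOK q26169 := cut [q11865, q16036, q26068, q2547, q11597, q26099, q21912, q2556, q14363, q17127, q26108, q26111, q26116, q26166, q25894] ⟨c11865, c16036, c26068, c2547, c11597, c26099, c21912, c2556, c14363, c17127, c26108, c26111, c26116, c26166, c25894, trivial⟩ (nd (nat_lit 297) (nat_lit 0) (cs (rf (nat_lit 0)) (cs (rf (nat_lit 1)) (cs (rf (nat_lit 2)) (nd (nat_lit 320) (nat_lit 0) (cs (nd (nat_lit 319) (nat_lit 0) (cs (lf (nat_lit 29) (nat_lit 253)) (rf (nat_lit 3)))) (cs (nd (nat_lit 298) (nat_lit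 0) (cs (lf (nat_lit 24) (nat_lit 231)) (nd (nat_lit 319) (nat_lit 0) (cs (rf (nat_lit 4)) (cs (nd (nat_lit 340) (nat_lit 0) (cs (lf (nat_lit 40) (nat_lit 252)) (nd (nat_lit 341) (nat_lit 0) (cs (lf (nat_lit 41) (nat_lit 274)) (rf (nat_lit 5)))))) (cs (nd (nat_lit 341) (nat_lit 0) (cs (rf (nat_lit 6)) (cs (nd (nat_lit 274) (nat_lit 0) (cs (lf (nat_lit 47) (nat_lit 252)) (rf (nat_lit 7)))) (nd (nat_lit 252) (nat_lit 0) (cs (lf (nat_lit 46) (nat_lit 252)) (nd (nat_lit 363) (nat_lit 0) (cs (lf (nat_lit 30) (nat_lit 297)) (rf (nat_lit 8))))))))) (nd (nat_lit 272) (nat_lit 0) (cs (nd (nat_lit 273) (nat_lit 0) (cs (lf (nat_lit 2) (nat_lit 272)) (nd (nat_lit 228) (nat_lit 0) (cs (lf (nat_lit 29) (nat_lit 206)) (rf (nat_lit 9)))))) (cs (nd (nat_lit 228) (nat_lit 0) (cs (rf (nat_lit 10)) (cs (nd (nat_lit 205) (nat_lit 0) (cs (lf (nat_lit 47) (nat_lit 183)) (nd (nat_lit 294) (nat_lit 0) (cs (lf (nat_lit 46) (nat_lit 205))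 (nd (nat_lit 293) (nat_lit 0) (cs (lf (nat_lit 41) (nat_lit 227)) (rf (nat_lit 11)))))))) (cs (rf (nat_lit 12)) (nd (nat_lit 293) (nat_lit 0) (cs (lf (nat_lit 40) (nat_lit 205)) (nd (nat_lit 294) (nat_lit 0) (cs (lf (nat_lit 41) (nat_lit 227)) (nd (nat_lit 205) (nat_lit 0) (cs (lf (nat_lit 46) (nat_lit 205)) (rf (nat_lit 11)))))))))))) (nd (nat_lit 274) (nat_lit 0) (cs (lf (nat_lit 1) (nat_lit 272)) (nd (nat_lit 299) (nat_lit 0) (cs (lf (nat_lit 18) (nat_lit 274)) (nd (nat_lit 317) (nat_lit 0) (cs (nd (nat_lit 341) (nat_lit 0) (cs (lf (nat_lit 47) (nat_lit 252)) (rf (nat_lit 5)))) (lf (nat_lit 13) (nat_lit 295))))))))))))))))) (cs (rf (nat_lit 13)) (nd (nat_lit 298) (nat_lit 0) (cs (lf (nat_lit 24) (nat_lit 231)) (rf (nat_lit 14)))))))))))) q26169 (by decide +kernel)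
def q26170 : Q := Q.p (nat_lit 0x800003000000000010000000000000000000000000000000000000000000000000000) (nat_lit 0x140003ff000ff8007ef000140000000001c000060000100000000000000000000000000000000000000000000000) (nat_lit 13)
theorem c26170 : QOK q26170 := cut [q11865, q16036, q25559] ⟨c11865, c16036, c25559, trivial⟩ (nd (nat_lit 297) (nat_lit 0) (cs (rf (nat_lit 0)) (cs (rf (nat_lit 1)) (rf (nat_lit 2))))) q26170 (by decide +kernel)
def q26425 : Q := Q.p (nat_lit 0x800002000000000014000000000000000000000000000000000000000000000000000) (nat_lit 0x1c0003ff000ff8007ef000f780039e0007f8001680003b80000e0000380000a00000000000000000000000000000) (nat_lit 16)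
theorem c26425 : QOK q26425 := cut [q11865, q16036, q26068, q16981, q11581, q11531, q16795, q2070, q1496, q23533, q1525, q26399, q26405, q684, q22368, q25022, q26412, q26366, q17482, q11593, q11597, q11600, q21929] ⟨c11865, c16036, c26068, c16981, c11581, c11531, c16795, c2070, c1496, c23533, c1525, c26399, c26405, c684, c22368, c25022, c26412, c26366, c17482, c11593, c11597, c11600, c21929, trivial⟩ (nd (nat_lit 297) (nat_lit 0) (cs (rf (nat_lit 0)) (cs (rf (nat_lit 1)) (cs (rf (nat_lit 2)) (nd (nat_lit 298) (nat_lit 0) (cs (rf (nat_lit 3)) (cs (nd (nat_lit 209) (nat_lit 0) (cs (rf (nat_lit 4)) (cs (nd (nat_lit 276) (nat_lit 0) (cs (lf (nat_lit 25) (nat_lit 209)) (nd (nat_lit 299) (nat_lit 0) (cs (rf (nat_lit 5)) (cs (nd (nat_lit 277) (nat_lit 0) (cs (rf (nat_lit 6)) (cs (nd (nat_lit 251) (nat_lit 0) (cs (nd (nat_lit 252) (nat_lit 0) (cs (lf (nat_lit 0) (nat_lit 250)) (lf (nat_lit 21) (nat_lit 251)))) (cs (nd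 (nat_lit 274) (nat_lit 0) (cs (lf (nat_lit 22) (nat_lit 251)) (lf (nat_lit 0) (nat_lit 273)))) (cs (nd (nat_lit 228) (nat_lit 0) (cs (nd (nat_lit 250) (nat_lit 0) (cs (rf (nat_lit 7)) (lf (nat_lit 2) (nat_lit 250)))) (cs (nd (nat_lit 207) (nat_lit 0) (cs (lf (nat_lit 11) (nat_lit 205)) (nd (nat_lit 187) (nat_lit 0) (cs (lf (nat_lit 17) (nat_lit 184)) (nd (nat_lit 250) (nat_lit 0) (cs (rf (nat_lit 8)) (lf (nat_lit 2) (nat_lit 250)))))))) (cs (nd (nat_lit 250) (nat_lit 0) (cs (lf (nat_lit 2) (nat_lit 250)) (rf (nat_lit 9)))) (nd (nat_lit 207) (nat_lit 0) (cs (lf (nat_lit 11) (nat_lit 205)) (nd (nat_lit 187) (nat_lit 0) (cs (lf (nat_lit 17) (nat_lit 184)) (nd (nat_lit 184) (nat_lit 0) (cs (lf (nat_lit 23) (nat_lit 183)) (nd (nat_lit 229) (nat_lit 0) (cs (lf (nat_lit 42) (nat_lit 184)) (lf (nat_lit 24) (nat_lit 162)))))))))))))) (nd (nat_lit 184) (nat_lit 0) (cs (nd (nat_lit 273) (nat_lit 0) (cs (nd (nat_lit 207) (nat_lit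 0) (cs (lf (nat_lit 23) (nat_lit 183)) (lf (nat_lit 44) (nat_lit 184)))) (lf (nat_lit 1) (nat_lit 273)))) (cs (nd (nat_lit 207) (nat_lit 0) (cs (lf (nat_lit 23) (nat_lit 183)) (nd (nat_lit 187) (nat_lit 0) (cs (lf (nat_lit 17) (nat_lit 184)) (nd (nat_lit 228) (nat_lit 0) (cs (lf (nat_lit 11) (nat_lit 205)) (rf (nat_lit 10)))))))) (cs (nd (nat_lit 273) (nat_lit 0) (cs (lf (nat_lit 1) (nat_lit 273)) (nd (nat_lit 228) (nat_lit 0) (cs (lf (nat_lit 27) (nat_lit 184)) (nd (nat_lit 229) (nat_lit 0) (cs (lf (nat_lit 42) (nat_lit 206)) (lf (nat_lit 24) (nat_lit 162)))))))) (nd (nat_lit 273) (nat_lit 0) (cs (lf (nat_lit 1) (nat_lit 273)) (nd (nat_lit 228) (nat_lit 0) (cs (lf (nat_lit 27) (nat_lit 184)) (nd (nat_lit 207) (nat_lit 0) (cs (lf (nat_lit 11) (nat_lit 205)) (lf (nat_lit 23) (nat_lit 183)))))))))))))))) (nd (nat_lit 273) (nat_lit 0) (cs (lf (nat_lit 1) (nat_lit 273)) (nd (nat_lit 278) (nat_lit 0) (cs (lf (nat_lit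 6) (nat_lit 275)) (nd (nat_lit 256) (nat_lit 0) (cs (lf (nat_lit 17) (nat_lit 253)) (nd (nat_lit 321) (nat_lit 0) (cs (lf (nat_lit 30) (nat_lit 255)) (rf (nat_lit 11))))))))))))) (nd (nat_lit 300) (nat_lit 0) (cs (lf (nat_lit 18) (nat_lit 275)) (nd (nat_lit 322) (nat_lit 0) (cs (lf (nat_lit 5) (nat_lit 297)) (nd (nat_lit 278) (nat_lit 0) (cs (lf (nat_lit 17) (nat_lit 275)) (nd (nat_lit 277) (nat_lit 0) (cs (lf (nat_lit 23) (nat_lit 252)) (rf (nat_lit 12))))))))))))))) (cs (nd (nat_lit 207) (nat_lit 0) (cs (rf (nat_lit 13)) (cs (rf (nat_lit 14)) (cs (rf (nat_lit 15)) (nd (nat_lit 273) (nat_lit 0) (cs (rf (nat_lit 16)) (nd (nat_lit 228) (nat_lit 0) (cs (lf (nat_lit 11) (nat_lit 205)) (nd (nat_lit 187) (nat_lit 0) (cs (lf (nat_lit 17) (nat_lit 184)) (nd (nat_lit 184) (nat_lit 0) (cs (lf (nat_lit 23) (nat_lit 183)) (nd (nat_lit 251) (nat_lit 0) (cs (lf (nat_lit 27) (nat_lit 184)) (lf (nat_lit 44) (nat_lit 184))))))))))))))))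 (cs (nd (nat_lit 231) (nat_lit 0) (cs (lf (nat_lit 28) (nat_lit 209)) (rf (nat_lit 17)))) (nd (nat_lit 210) (nat_lit 0) (cs (rf (nat_lit 18)) (nd (nat_lit 231) (nat_lit 0) (cs (lf (nat_lit 35) (nat_lit 187)) (lf (nat_lit 34) (nat_lit 209))))))))))) (nd (nat_lit 319) (nat_lit 0) (cs (rf (nat_lit 19)) (cs (rf (nat_lit 20)) (cs (rf (nat_lit 21)) (rf (nat_lit 22))))))))))))) q26425 (by decide +kernel)
def q32027 : Q := Q.p (nat_lit 0x200000800002000000000010000000000000000000000000000000000000000000000000000) (nat_lit 0x20001fa001ffc007ff801ffe00fffc03ffe01fffc03fde00ff3c01f9c003f7000be0000100000000000000000000000000000000000000000000000) (nat_lit 17)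
theorem c32027 : QOK q32027 := cut [q31176, q2577, q31202, q31208, q31219, q31223, q31228, q31235, q31236, q31305, q31268, q31265, q31576, q31831, q31958, q28386, q31989, q32009, q32010, q30001, q31331, q31869, q32016, q28377, q12856, q31452, q28378, q31451, q13962, q31931, q31970, q25960, q31904, q28010, q11848] ⟨c31176, c2577, c31202, c31208, c31219, c31223, c31228, c31235, c31236, c31305, c31268, c31265, c31576, c31831, c31958, c28386, c31989, c32009, c32010, c30001, c31331, c31869, c32016, c28377, c12856, c31452, c28378, c31451, c13962, c31931, c31970, c25960, c31904, c28010, c11848, trivial⟩ (nd (nat_lit 342) (nat_lit 0) (cs (rf (nat_lit 0)) (cs (nd (nat_lit 340) (nat_lit 0) (cs (nd (nat_lit 319) (nat_lit 0) (cs (lf (nat_lit 40) (nat_lit 252)) (rf (nat_lit 1)))) (cs (nd (nat_lit 318) (nat_lit 0) (cs (lf (nat_lit 39) (nat_lit 252)) (rf (nat_lit 2)))) (cs (nd (nat_lit 341) (nat_lit 0) (cs (nd (nat_lit 319) (nat_lit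 0) (cs (lf (nat_lit 29) (nat_lit 275)) (lf (nat_lit 40) (nat_lit 252)))) (cs (rf (nat_lit 3)) (cs (rf (nat_lit 4)) (rf (nat_lit 5)))))) (cs (nd (nat_lit 341) (nat_lit 0) (cs (rf (nat_lit 5)) (cs (rf (nat_lit 6)) (cs (rf (nat_lit 7)) (rf (nat_lit 8)))))) (cs (rf (nat_lit 9)) (nd (nat_lit 341) (nat_lit 0) (cs (rf (nat_lit 3)) (cs (rf (nat_lit 6)) (cs (rf (nat_lit 10)) (nd (nat_lit 319) (nat_lit 0) (cs (lf (nat_lit 41) (nat_lit 274)) (lf (nat_lit 40) (nat_lit 252)))))))))))))) (cs (nd (nat_lit 322) (nat_lit 0) (cs (nd (nat_lit 319) (nat_lit 0) (cs (lf (nat_lit 28) (nat_lit 253)) (nd (nat_lit 230) (nat_lit 0) (cs (lf (nat_lit 46) (nat_lit 230)) (nd (nat_lit 340) (nat_lit 0) (cs (lf (nat_lit 40) (nat_lit 252)) (nd (nat_lit 341) (nat_lit 0) (cs (lf (nat_lit 41) (nat_lit 274)) (nd (nat_lit 343) (nat_lit 0) (cs (lf (nat_lit 16) (nat_lit 318)) (rf (nat_lit 11)))))))))))) (cs (rf (nat_lit 12)) (cs (rf (nat_lit 13)) (cs (rf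 (nat_lit 14)) (cs (nd (nat_lit 278) (nat_lit 0) (cs (nd (nat_lit 320) (nat_lit 0) (cs (lf (nat_lit 27) (nat_lit 253)) (rf (nat_lit 15)))) (cs (rf (nat_lit 16)) (cs (nd (nat_lit 344) (nat_lit 0) (cs (rf (nat_lit 17)) (cs (rf (nat_lit 18)) (cs (nd (nat_lit 300) (nat_lit 0) (cs (rf (nat_lit 19)) (cs (nd (nat_lit 319) (nat_lit 0) (cs (lf (nat_lit 28) (nat_lit 253)) (nd (nat_lit 230) (nat_lit 0) (cs (lf (nat_lit 46) (nat_lit 230)) (nd (nat_lit 318) (nat_lit 0) (cs (lf (nat_lit 41) (nat_lit 252)) (nd (nat_lit 299) (nat_lit 0) (cs (rf (nat_lit 20)) (lf (nat_lit 8) (nat_lit 296)))))))))) (rf (nat_lit 21))))) (rf (nat_lit 22)))))) (cs (nd (nat_lit 277) (nat_lit 0) (cs (rf (nat_lit 23)) (cs (nd (nat_lit 300) (nat_lit 0) (cs (rf (nat_lit 24)) (cs (rf (nat_lit 25)) (cs (nd (nat_lit 299) (nat_lit 0) (cs (rf (nat_lit 26)) (cs (nd (nat_lit 298) (nat_lit 0) (cs (lf (nat_lit 5) (nat_lit 297)) (lf (nat_lit 12) (nat_lit 274)))) (nd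 (nat_lit 256) (nat_lit 0) (cs (nd (nat_lit 255) (nat_lit 0) (cs (rf (nat_lit 27)) (nd (nat_lit 323) (nat_lit 0) (cs (lf (nat_lit 29) (nat_lit 256)) (nd (nat_lit 324) (nat_lit 0) (cs (lf (nat_lit 18) (nat_lit 299)) (nd (nat_lit 257) (nat_lit 0) (cs (lf (nat_lit 35) (nat_lit 234)) (nd (nat_lit 258) (nat_lit 0) (cs (lf (nat_lit 6) (nat_lit 255)) (nd (nat_lit 280) (nat_lit 0) (cs (rf (nat_lit 28)) (lf (nat_lit 5) (nat_lit 255)))))))))))))) (cs (nd (nat_lit 235) (nat_lit 0) (cs (lf (nat_lit 34) (nat_lit 234)) (nd (nat_lit 234) (nat_lit 0) (cs (lf (nat_lit 36) (nat_lit 211)) (lf (nat_lit 35) (nat_lit 212)))))) (nd (nat_lit 233) (nat_lit 0) (cs (lf (nat_lit 46) (nat_lit 233)) (nd (nat_lit 234) (nat_lit 0) (cs (lf (nat_lit 36) (nat_lit 211)) (lf (nat_lit 47) (nat_lit 211)))))))))))) (nd (nat_lit 344) (nat_lit 0) (cs (rf (nat_lit 29)) (rf (nat_lit 30)))))))) (nd (nat_lit 276) (nat_lit 0) (cs (lf (nat_lit 23) (nat_lit 252))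 (nd (nat_lit 256) (nat_lit 0) (cs (lf (nat_lit 17) (nat_lit 253)) (rf (nat_lit 31))))))))) (nd (nat_lit 344) (nat_lit 0) (cs (rf (nat_lit 32)) (cs (rf (nat_lit 17)) (cs (rf (nat_lit 18)) (rf (nat_lit 22))))))))))) (nd (nat_lit 320) (nat_lit 0) (cs (lf (nat_lit 27) (nat_lit 253)) (nd (nat_lit 298) (nat_lit 0) (cs (lf (nat_lit 45) (nat_lit 253)) (rf (nat_lit 33)))))))))))) (nd (nat_lit 320) (nat_lit 0) (cs (lf (nat_lit 27) (nat_lit 253)) (rf (nat_lit 34)))))))) q32027 (by decide +kernel)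
def q33486 : Q := Q.p (nat_lit 0x2000000000010000040000040000000000000000000000000000000000000000) (nat_lit 0x80000380001e00033e001cfc01fbe007f9c01ffe007ff800fff000fe0001f00007c0000000) (nat_lit 17)
theorem c33486 : QOK q33486 := cut [q32789, q617, q619, q18163, q32588, q32792, q32802, q32214, q32809, q32821, q33024, q33065, q33116, q33348, q32985, q33021, q33023, q32986, q33018, q456, q32721, q33350, q33364, q33451, q2869, q33069, q33115, q527, q32527, q33094, q32493, q33452, q33453, q20055, q33077, q33462, q33480] ⟨c32789, c617, c619, c18163, c32588, c32792, c32802, c32214, c32809, c32821, c33024, c33065, c33116, c33348, c32985, c33021, c33023, c32986, c33018, c456, c32721, c33350, c33364, c33451, c2869, c33069, c33115, c527, c32527, c33094, c32493, c33452, c33453, c20055, c33077, c33462, c33480, trivial⟩ (nd (nat_lit 164) (nat_lit 0) (cs (rf (nat_lit 0)) (cs (nd (nat_lit 142) (nat_lit 0) (cs (rf (nat_lit 1))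 (cs (rf (nat_lit 2)) (cs (rf (nat_lit 3)) (nd (nat_lit 141) (nat_lit 0) (cs (lf (nat_lit 47) (nat_lit 119)) (nd (nat_lit 143) (nat_lit 0) (cs (lf (nat_lit 35) (nat_lit 120)) (nd (nat_lit 144) (nat_lit 0) (cs (rf (nat_lit 4)) (cs (nd (nat_lit 207) (nat_lit 0) (cs (lf (nat_lit 41) (nat_lit 141)) (rf (nat_lit 5)))) (cs (nd (nat_lit 207) (nat_lit 0) (cs (lf (nat_lit 41) (nat_lit 141)) (rf (nat_lit 6)))) (cs (nd (nat_lit 207) (nat_lit 0) (cs (lf (nat_lit 41) (nat_lit 141)) (rf (nat_lit 7)))) (nd (nat_lit 123) (nat_lit 0) (cs (lf (nat_lit 16) (nat_lit 119)) (nd (nat_lit 207) (nat_lit 0) (cs (lf (nat_lit 41) (nat_lit 141)) (rf (nat_lit 8))))))))))))))))))) (cs (rf (nat_lit 9)) (cs (rf (nat_lit 10)) (cs (rf (nat_lit 11)) (cs (rf (nat_lit 12)) (cs (rf (nat_lit 13)) (cs (nd (nat_lit 121) (nat_lit 0) (cs (rf (nat_lit 14)) (cs (rf (nat_lit 15)) (cs (rf (nat_lit 16)) (nd (nat_lit 165) (nat_lit 0) (cs (rf (nat_lit 17)) (cs (rf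 (nat_lit 18)) (nd (nat_lit 184) (nat_lit 0) (cs (rf (nat_lit 19)) (cs (rf (nat_lit 20)) (cs (rf (nat_lit 21)) (rf (nat_lit 22))))))))))))) (cs (rf (nat_lit 23)) (cs (nd (nat_lit 207) (nat_lit 0) (cs (rf (nat_lit 24)) (cs (rf (nat_lit 25)) (cs (rf (nat_lit 26)) (nd (nat_lit 206) (nat_lit 0) (cs (rf (nat_lit 27)) (cs (rf (nat_lit 28)) (cs (rf (nat_lit 29)) (nd (nat_lit 163) (nat_lit 0) (cs (rf (nat_lit 30)) (cs (rf (nat_lit 31)) (cs (rf (nat_lit 32)) (nd (nat_lit 141) (nat_lit 0) (cs (rf (nat_lit 33)) (rf (nat_lit 34)))))))))))))))) (cs (rf (nat_lit 35)) (cs (rf (nat_lit 36)) (nd (nat_lit 142) (nat_lit 0) (cs (rf (nat_lit 1)) (cs (rf (nat_lit 2)) (cs (rf (nat_lit 3)) (nd (nat_lit 141) (nat_lit 0) (cs (lf (nat_lit 47) (nat_lit 119)) (nd (nat_lit 207) (nat_lit 0) (cs (lf (nat_lit 41) (nat_lit 141)) (nd (nat_lit 143) (nat_lit 0) (cs (lf (nat_lit 35) (nat_lit 120)) (nd (nat_lit 144) (nat_lit 0) (cs (lf (nat_lit 10) (nat_lit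 140)) (rf (nat_lit 5))))))))))))))))))))))))))) q33486 (by decide +kernel)
def q34461 : Q := Q.p (nat_lit 0x10000040000040000100000000000000000000000000000000000) (nat_lit 0xc0003f0000ff000af800f3f007efc01fff00fff001ffe000ff0003e8000b80) (nat_lit 16)
theorem c34461 : QOK q34461 := cut [q33510, q33511, q33514, q33517, q33774, q34405, q33508, q34409, q34414, q34418, q34426, q34427, q34446, q34445, q20129, q34450, q34442, q34421, q32271, q34425, q34454] ⟨c33510, c33511, c33514, c33517, c33774, c34405, c33508, c34409, c34414, c34418, c34426, c34427, c34446, c34445, c20129, c34450, c34442, c34421, c32271, c34425, c34454, trivial⟩ (nd (nat_lit 142) (nat_lit 0) (cs (nd (nat_lit 141) (nat_lit 0) (cs (rf (nat_lit 0)) (cs (rf (nat_lit 1)) (cs (rf (nat_lit 2)) (rf (nat_lit 3)))))) (cs (rf (nat_lit 4)) (cs (rf (nat_lit 5)) (cs (nd (nat_lit 141) (nat_lit 0) (cs (rf (nat_lit 6)) (cs (rf (nat_lit 0)) (cs (rf (nat_lit 7)) (cs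 (rf (nat_lit 8)) (rf (nat_lit 9))))))) (cs (nd (nat_lit 141) (nat_lit 0) (cs (rf (nat_lit 1)) (cs (rf (nat_lit 2)) (cs (rf (nat_lit 7)) (cs (rf (nat_lit 10)) (rf (nat_lit 11))))))) (cs (rf (nat_lit 12)) (cs (nd (nat_lit 141) (nat_lit 0) (cs (rf (nat_lit 8)) (cs (rf (nat_lit 11)) (cs (rf (nat_lit 13)) (cs (nd (nat_lit 164) (nat_lit 0) (cs (lf (nat_lit 47) (nat_lit 119)) (nd (nat_lit 139) (nat_lit 0) (cs (lf (nat_lit 5) (nat_lit 139)) (nd (nat_lit 120) (nat_lit 0) (cs (lf (nat_lit 17) (nat_lit 117)) (rf (nat_lit 14)))))))) (rf (nat_lit 15))))))) (cs (nd (nat_lit 141) (nat_lit 0) (cs (rf (nat_lit 6)) (cs (rf (nat_lit 1)) (cs (rf (nat_lit 16)) (rf (nat_lit 15)))))) (cs (nd (nat_lit 141) (nat_lit 0) (cs (rf (nat_lit 6)) (cs (rf (nat_lit 0)) (cs (rf (nat_lit 2)) (rf (nat_lit 11)))))) (nd (nat_lit 143) (nat_lit 0) (cs (rf (nat_lit 17)) (cs (nd (nat_lit 164) (nat_lit 0) (cs (lf (nat_lit 35) (nat_lit 120)) (nd (nat_lit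 207) (nat_lit 0) (cs (lf (nat_lit 41) (nat_lit 141)) (nd (nat_lit 120) (nat_lit 0) (cs (lf (nat_lit 40) (nat_lit 119)) (rf (nat_lit 18)))))))) (cs (rf (nat_lit 19)) (nd (nat_lit 141) (nat_lit 0) (cs (lf (nat_lit 11) (nat_lit 139)) (nd (nat_lit 119) (nat_lit 0) (cs (lf (nat_lit 44) (nat_lit 119)) (nd (nat_lit 75) (nat_lit 0) (cs (lf (nat_lit 37) (nat_lit 74)) (nd (nat_lit 165) (nat_lit 0) (cs (lf (nat_lit 5) (nat_lit 140)) (nd (nat_lit 144) (nat_lit 0) (cs (lf (nat_lit 23) (nat_lit 118)) (rf (nat_lit 20)))))))))))))))))))))))))) q34461 (by decide +kernel)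
def q37826 : Q := Q.p (nat_lit 0x2000000000010000040000060000000000000000000000000000000000000000) (nat_lit 0x300001e00003e0004f0007be000f80003ec001fb0002ec000a0000000000000000000) (nat_lit 14)
theorem c37826 : QOK q37826 := cut [q32821, q35636, q559, q37807, q37812, q37817, q37820, q4880, q20060] ⟨c32821, c35636, c559, c37807, c37812, c37817, c37820, c4880, c20060, trivial⟩ (nd (nat_lit 164) (nat_lit 0) (cs (rf (nat_lit 0)) (cs (rf (nat_lit 1)) (cs (nd (nat_lit 207) (nat_lit 0) (cs (rf (nat_lit 2)) (cs (rf (nat_lit 3)) (rf (nat_lit 4))))) (cs (rf (nat_lit 5)) (cs (rf (nat_lit 6)) (nd (nat_lit 207) (nat_lit 0) (cs (rf (nat_lit 7)) (cs (rf (nat_lit 3)) (cs (rf (nat_lit 4)) (nd (nat_lit 142) (nat_lit 0) (cs (lf (nat_lit 41) (nat_lit 141)) (nd (nat_lit 119) (nat_lit 0) (cs (lf (nat_lit 46) (nat_lit 119)) (nd (nat_lit 120) (nat_lit 0) (cs (lf (nat_lit 47) (nat_lit 97)) (nd (nat_lit 187) (nat_lit 0) (cs (lf (nat_lit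 2) (nat_lit 161)) (rf (nat_lit 8)))))))))))))))))))) q37826 (by decide +kernel)
def q38889 : Q := Q.p (nat_lit 0x10000040000040000000000000000000000000000000000000000) (nat_lit 0x500003f0000fc0003f8000fe007bfc00fbf003dfc003fe000ff0003dc00085000000000000) (nat_lit 16)
theorem c38889 : QOK q38889 := cut [q38210, q6771, q38615, q38618, q35614, q37817, q37820, q38651, q37110, q38614, q38849, q38873, q38880, q32546, q32556, q38212, q38881, q38888] ⟨c38210, c6771, c38615, c38618, c35614, c37817, c37820, c38651, c37110, c38614, c38849, c38873, c38880, c32546, c32556, c38212, c38881, c38888, trivial⟩ (nd (nat_lit 161) (nat_lit 0) (cs (rf (nat_lit 0)) (cs (nd (nat_lit 163) (nat_lit 0) (cs (rf (nat_lit 1)) (cs (rf (nat_lit 2)) (rf (nat_lit 3))))) (cs (nd (nat_lit 164) (nat_lit 0) (cs (rf (nat_lit 4)) (cs (rf (nat_lit 5)) (cs (rf (nat_lit 6)) (cs (rf (nat_lit 7)) (cs (nd (nat_lit 163) (nat_lit 0) (cs (rf (nat_lit 8)) (rf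 (nat_lit 9)))) (nd (nat_lit 163) (nat_lit 0) (cs (lf (nat_lit 5) (nat_lit 161)) (nd (nat_lit 182) (nat_lit 0) (cs (lf (nat_lit 10) (nat_lit 160)) (rf (nat_lit 9)))))))))))) (cs (rf (nat_lit 10)) (cs (rf (nat_lit 11)) (cs (rf (nat_lit 12)) (cs (nd (nat_lit 163) (nat_lit 0) (cs (nd (nat_lit 164) (nat_lit 0) (cs (lf (nat_lit 5) (nat_lit 161)) (nd (nat_lit 142) (nat_lit 0) (cs (lf (nat_lit 17) (nat_lit 139)) (nd (nat_lit 207) (nat_lit 0) (cs (lf (nat_lit 41) (nat_lit 141)) (nd (nat_lit 120) (nat_lit 0) (cs (lf (nat_lit 40) (nat_lit 119)) (nd (nat_lit 99) (nat_lit 0) (cs (lf (nat_lit 34) (nat_lit 98)) (nd (nat_lit 77) (nat_lit 0) (cs (nd (nat_lit 139) (nat_lit 0) (cs (lf (nat_lit 23) (nat_lit 138)) (nd (nat_lit 97) (nat_lit 0) (cs (lf (nat_lit 46) (nat_lit 97)) (rf (nat_lit 13)))))) (lf (nat_lit 33) (nat_lit 76)))))))))))))) (cs (rf (nat_lit 14)) (cs (rf (nat_lit 15)) (rf (nat_lit 16)))))) (rf (nat_lit 17))))))))))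 q38889 (by decide +kernel)
def q38911 : Q := Q.p (nat_lit 0x10000040000040000000000000000000000000000000000000000) (nat_lit 0x3f0000fc0003f0000fe007bfc00fbf003ffc0037e000ff0003dc00025000000000000) (nat_lit 16)
theorem c38911 : QOK q38911 := cut [q38210, q38222, q38873, q38888, q37817, q37820, q38651, q38895, q37110, q38172, q38770, q38826, q38829, q38830, q38831, q38832, q38846, q38847, q38848, q36506, q38169, q38022, q32496, q32461, q37999, q38005, q32463, q32564, q38212, q38215, q6771, q32462, q38618] ⟨c38210, c38222, c38873, c38888, c37817, c37820, c38651, c38895, c37110, c38172, c38770, c38826, c38829, c38830, c38831, c38832, c38846, c38847, c38848, c36506, c38169, c38022, c32496, c32461, c37999, c38005, c32463, c32564, c38212, c38215, c6771, c32462, c38618, trivial⟩ (nd (nat_lit 161) (nat_lit 0) (cs (rf (nat_lit 0)) (cs (rf (nat_lit 1)) (cs (rf (nat_lit 2)) (cs (rf (nat_lit 3)) (cs (nd (nat_lit 164) (nat_lit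 0) (cs (rf (nat_lit 4)) (cs (rf (nat_lit 5)) (cs (rf (nat_lit 6)) (cs (nd (nat_lit 163) (nat_lit 0) (cs (lf (nat_lit 5) (nat_lit 161)) (rf (nat_lit 7)))) (nd (nat_lit 163) (nat_lit 0) (cs (rf (nat_lit 8)) (rf (nat_lit 7))))))))) (cs (nd (nat_lit 183) (nat_lit 0) (cs (rf (nat_lit 9)) (cs (rf (nat_lit 10)) (cs (rf (nat_lit 11)) (cs (rf (nat_lit 12)) (cs (rf (nat_lit 13)) (cs (rf (nat_lit 14)) (cs (rf (nat_lit 15)) (cs (rf (nat_lit 16)) (cs (rf (nat_lit 17)) (cs (rf (nat_lit 18)) (nd (nat_lit 205) (nat_lit 0) (cs (rf (nat_lit 19)) (cs (rf (nat_lit 20)) (nd (nat_lit 163) (nat_lit 0) (cs (rf (nat_lit 21)) (cs (nd (nat_lit 164) (nat_lit 0) (cs (lf (nat_lit 5) (nat_lit 161)) (nd (nat_lit 142) (nat_lit 0) (cs (lf (nat_lit 17) (nat_lit 139)) (nd (nat_lit 141) (nat_lit 0) (cs (lf (nat_lit 12) (nat_lit 138)) (nd (nat_lit 207) (nat_lit 0) (cs (lf (nat_lit 41) (nat_lit 141)) (rf (nat_lit 22)))))))))) (nd (nat_lit 160) (nat_lit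 0) (cs (rf (nat_lit 23)) (cs (rf (nat_lit 24)) (cs (rf (nat_lit 25)) (nd (nat_lit 138) (nat_lit 0) (cs (lf (nat_lit 23) (nat_lit 137)) (nd (nat_lit 182) (nat_lit 0) (cs (lf (nat_lit 11) (nat_lit 159)) (lf (nat_lit 24) (nat_lit 116))))))))))))))))))))))))))) (cs (nd (nat_lit 163) (nat_lit 0) (cs (rf (nat_lit 26)) (cs (nd (nat_lit 164) (nat_lit 0) (cs (lf (nat_lit 5) (nat_lit 161)) (nd (nat_lit 138) (nat_lit 0) (cs (lf (nat_lit 22) (nat_lit 138)) (rf (nat_lit 27)))))) (cs (rf (nat_lit 28)) (rf (nat_lit 29)))))) (nd (nat_lit 163) (nat_lit 0) (cs (rf (nat_lit 30)) (cs (rf (nat_lit 31)) (rf (nat_lit 32))))))))))))) q38911 (by decide +kernel)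
def q39274 : Q := Q.p (nat_lit 0x10000040000040000000000000000000000000000000000000000) (nat_lit 0xc000230000bc00fbf803fbe007ff803fdc003f70007fc000f5000140000000) (nat_lit 16)
theorem c39274 : QOK q39274 := cut [q32578, q617, q32582, q32589, q8320, q32595, q32608, q32610, q35563, q35565, q35614, q35616, q39246, q3803, q35592, q37167, q39254, q35562, q33046, q33064, q6395, q36704, q36954, q38887, q35634, q37203] ⟨c32578, c617, c32582, c32589, c8320, c32595, c32608, c32610, c35563, c35565, c35614, c35616, c39246, c3803, c35592, c37167, c39254, c35562, c33046, c33064, c6395, c36704, c36954, c38887, c35634, c37203, trivial⟩ (nd (nat_lit 164) (nat_lit 0) (cs (nd (nat_lit 141) (nat_lit 0) (cs (rf (nat_lit 0)) (cs (nd (nat_lit 142) (nat_lit 0) (cs (rf (nat_lit 1)) (cs (nd (nat_lit 207) (nat_lit 0) (cs (lf (nat_lit 41) (nat_lit 141)) (rf (nat_lit 2)))) (cs (nd (nat_lit 143) (nat_lit 0) (cs (lf (nat_lit 35) (nat_lit 120))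 (rf (nat_lit 3)))) (nd (nat_lit 165) (nat_lit 0) (cs (rf (nat_lit 4)) (cs (nd (nat_lit 207) (nat_lit 0) (cs (lf (nat_lit 41) (nat_lit 141)) (nd (nat_lit 120) (nat_lit 0) (cs (lf (nat_lit 40) (nat_lit 119)) (nd (nat_lit 98) (nat_lit 0) (cs (lf (nat_lit 29) (nat_lit 98)) (nd (nat_lit 76) (nat_lit 0) (cs (lf (nat_lit 41) (nat_lit 75)) (lf (nat_lit 28) (nat_lit 76)))))))))) (rf (nat_lit 5))))))))) (cs (rf (nat_lit 6)) (nd (nat_lit 142) (nat_lit 0) (cs (lf (nat_lit 47) (nat_lit 119)) (rf (nat_lit 7)))))))) (cs (rf (nat_lit 8)) (cs (rf (nat_lit 9)) (cs (rf (nat_lit 10)) (cs (rf (nat_lit 11)) (cs (rf (nat_lit 12)) (cs (nd (nat_lit 163) (nat_lit 0) (cs (rf (nat_lit 13)) (cs (rf (nat_lit 14)) (cs (rf (nat_lit 15)) (rf (nat_lit 16)))))) (cs (nd (nat_lit 163) (nat_lit 0) (cs (rf (nat_lit 13)) (cs (rf (nat_lit 17)) (cs (rf (nat_lit 15)) (rf (nat_lit 16)))))) (cs (nd (nat_lit 142) (nat_lit 0) (cs (rf (nat_lit 1)) (cs (rf (nat_lit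 18)) (cs (rf (nat_lit 19)) (cs (nd (nat_lit 207) (nat_lit 0) (cs (lf (nat_lit 41) (nat_lit 141)) (nd (nat_lit 120) (nat_lit 0) (cs (lf (nat_lit 40) (nat_lit 119)) (nd (nat_lit 99) (nat_lit 0) (cs (lf (nat_lit 34) (nat_lit 98)) (nd (nat_lit 98) (nat_lit 0) (cs (lf (nat_lit 35) (nat_lit 76)) (nd (nat_lit 75) (nat_lit 0) (cs (lf (nat_lit 46) (nat_lit 75)) (nd (nat_lit 165) (nat_lit 0) (cs (lf (nat_lit 29) (nat_lit 98)) (nd (nat_lit 76) (nat_lit 0) (cs (lf (nat_lit 47) (nat_lit 53)) (nd (nat_lit 73) (nat_lit 0) (cs (lf (nat_lit 1) (nat_lit 73)) (nd (nat_lit 100) (nat_lit 0) (cs (lf (nat_lit 18) (nat_lit 75)) (nd (nat_lit 163) (nat_lit 0) (cs (lf (nat_lit 40) (nat_lit 75)) (nd (nat_lit 139) (nat_lit 0) (cs (lf (nat_lit 22) (nat_lit 139)) (nd (nat_lit 161) (nat_lit 0) (cs (lf (nat_lit 23) (nat_lit 138)) (rf (nat_lit 20)))))))))))))))))))))))))) (nd (nat_lit 161) (nat_lit 0) (cs (rf (nat_lit 21)) (cs (rf (nat_lit 22))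 (nd (nat_lit 207) (nat_lit 0) (cs (lf (nat_lit 41) (nat_lit 141)) (nd (nat_lit 185) (nat_lit 0) (cs (lf (nat_lit 36) (nat_lit 119)) (rf (nat_lit 23)))))))))))))) (nd (nat_lit 142) (nat_lit 0) (cs (rf (nat_lit 1)) (cs (rf (nat_lit 24)) (rf (nat_lit 25))))))))))))))) q39274 (by decide +kernel)
def q40222 : Q := Q.p (nat_lit 0x10000040000040000000000000000000000000000000000000000) (nat_lit 0x140001fe0003f0000fe0003fc00fbf003ffc007fe000ff0003fc0007f000140000000) (nat_lit 17)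
theorem c40222 : QOK q40222 := cut [q38222, q39942, q39944, q38174, q38209, q38221, q38875, q39962, q40028, q38217, q34076, q34806, q34070, q34071, q34258, q34842, q35462, q17608, q39514, q40033, q36953, q38363, q40011, q40035, q39943, q38870, q37498, q40013, q36506, q37653, q8669, q36613, q26883, q40049, q40193, q40204, q39651, q37819, q40208, q40209, q32545, q38181, q40220, q38223, q38881] ⟨c38222, c39942, c39944, c38174, c38209, c38221, c38875, c39962, c40028, c38217, c34076, c34806, c34070, c34071, c34258, c34842, c35462, c17608, c39514, c40033, c36953, c38363, c40011, c40035, c39943, c38870, c37498, c40013, c36506, c37653, c8669, c36613, c26883, c40049, c40193, c40204, c39651, c37819, c40208, c40209, c32545, c38181, c40220, c38223, c38881, trivial⟩ (nd (nat_lit 161) (nat_lit 0) (cs (rf (nat_lit 0)) (cs (rf (nat_lit 1)) (cs (rf (nat_lit 2)) (cs (nd (nat_lit 160) (nat_lit 0) (cs (rf (nat_lit 3)) (cs (rf (nat_lit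 4)) (cs (rf (nat_lit 5)) (cs (rf (nat_lit 6)) (rf (nat_lit 7))))))) (cs (rf (nat_lit 8)) (cs (nd (nat_lit 160) (nat_lit 0) (cs (rf (nat_lit 9)) (cs (rf (nat_lit 6)) (cs (nd (nat_lit 140) (nat_lit 0) (cs (rf (nat_lit 10)) (cs (rf (nat_lit 11)) (cs (nd (nat_lit 118) (nat_lit 0) (cs (rf (nat_lit 12)) (cs (rf (nat_lit 13)) (cs (rf (nat_lit 14)) (cs (rf (nat_lit 15)) (rf (nat_lit 16))))))) (nd (nat_lit 184) (nat_lit 0) (cs (rf (nat_lit 17)) (rf (nat_lit 18)))))))) (rf (nat_lit 19)))))) (cs (nd (nat_lit 160) (nat_lit 0) (cs (rf (nat_lit 20)) (cs (rf (nat_lit 3)) (cs (rf (nat_lit 6)) (nd (nat_lit 183) (nat_lit 0) (cs (rf (nat_lit 21)) (cs (rf (nat_lit 22)) (rf (nat_lit 23))))))))) (cs (nd (nat_lit 160) (nat_lit 0) (cs (rf (nat_lit 5)) (cs (rf (nat_lit 6)) (cs (rf (nat_lit 24)) (cs (nd (nat_lit 184) (nat_lit 0) (cs (rf (nat_lit 17)) (cs (rf (nat_lit 25)) (cs (nd (nat_lit 183) (nat_lit 0) (cs (rf (nat_lit 26)) (cs (rf (nat_lit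 27)) (nd (nat_lit 205) (nat_lit 0) (cs (rf (nat_lit 28)) (cs (rf (nat_lit 29)) (nd (nat_lit 139) (nat_lit 0) (cs (rf (nat_lit 30)) (cs (rf (nat_lit 31)) (nd (nat_lit 118) (nat_lit 0) (cs (lf (nat_lit 37) (nat_lit 117)) (nd (nat_lit 204) (nat_lit 0) (cs (lf (nat_lit 41) (nat_lit 138)) (nd (nat_lit 203) (nat_lit 0) (cs (lf (nat_lit 12) (nat_lit 180)) (nd (nat_lit 206) (nat_lit 0) (cs (lf (nat_lit 29) (nat_lit 139)) (nd (nat_lit 225) (nat_lit 0) (cs (lf (nat_lit 11) (nat_lit 202)) (nd (nat_lit 182) (nat_lit 0) (cs (lf (nat_lit 19) (nat_lit 182)) (rf (nat_lit 32))))))))))))))))))))))) (nd (nat_lit 140) (nat_lit 0) (cs (rf (nat_lit 10)) (rf (nat_lit 18)))))))) (rf (nat_lit 33))))))) (cs (rf (nat_lit 34)) (cs (rf (nat_lit 35)) (cs (nd (nat_lit 163) (nat_lit 0) (cs (rf (nat_lit 36)) (cs (nd (nat_lit 160) (nat_lit 0) (cs (lf (nat_lit 4) (nat_lit 160)) (nd (nat_lit 138) (nat_lit 0) (cs (lf (nat_lit 23) (nat_lit 137)) (nd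 (nat_lit 164) (nat_lit 0) (cs (lf (nat_lit 22) (nat_lit 138)) (rf (nat_lit 37)))))))) (cs (rf (nat_lit 38)) (cs (rf (nat_lit 39)) (cs (nd (nat_lit 160) (nat_lit 0) (cs (lf (nat_lit 4) (nat_lit 160)) (nd (nat_lit 137) (nat_lit 0) (cs (lf (nat_lit 22) (nat_lit 137)) (nd (nat_lit 159) (nat_lit 0) (cs (lf (nat_lit 23) (nat_lit 136)) (nd (nat_lit 140) (nat_lit 0) (cs (lf (nat_lit 17) (nat_lit 137)) (nd (nat_lit 139) (nat_lit 0) (cs (lf (nat_lit 12) (nat_lit 136)) (nd (nat_lit 164) (nat_lit 0) (cs (lf (nat_lit 18) (nat_lit 139)) (rf (nat_lit 40)))))))))))))) (nd (nat_lit 160) (nat_lit 0) (cs (lf (nat_lit 4) (nat_lit 160)) (nd (nat_lit 141) (nat_lit 0) (cs (lf (nat_lit 17) (nat_lit 138)) (nd (nat_lit 159) (nat_lit 0) (cs (lf (nat_lit 16) (nat_lit 137)) (rf (nat_lit 41)))))))))))))) (cs (rf (nat_lit 42)) (nd (nat_lit 163) (nat_lit 0) (cs (rf (nat_lit 43)) (cs (rf (nat_lit 44)) (cs (rf (nat_lit 36)) (cs (rf (nat_lit 38))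 (rf (nat_lit 39)))))))))))))))))))) q40222 (by decide +kernel)
def q44347 : Q := Q.p (nat_lit 0x40000000000000003400000000010000040000000000000000000000000000000000000000000000) (nat_lit 0xa0000380002e8001ff0007fc003ff800fbf001ffc0077f0000bc001ae00009000004000000000000000000000000000000000000000000000) (nat_lit 15)
theorem c44347 : QOK q44347 := cut [q42099, q43911, q44302, q9773, q41949, q25276, q44321, q15852, q15854, q41937, q41944, q42247] ⟨c42099, c43911, c44302, c9773, c41949, c25276, c44321, c15852, c15854, c41937, c41944, c42247, trivial⟩ (nd (nat_lit 296) (nat_lit 0) (cs (rf (nat_lit 0)) (cs (nd (nat_lit 274) (nat_lit 0) (cs (lf (nat_lit 35) (nat_lit 230)) (nd (nat_lit 319) (nat_lit 0) (cs (lf (nat_lit 29) (nat_lit 252)) (rf (nat_lit 1)))))) (cs (rf (nat_lit 2)) (cs (nd (nat_lit 274) (nat_lit 0) (cs (lf (nat_lit 35) (nat_lit 230)) (nd (nat_lit 319) (nat_lit 0) (cs (lf (nat_lit 29) (nat_lit 252)) (nd (nat_lit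 317) (nat_lit 0) (cs (lf (nat_lit 41) (nat_lit 251)) (nd (nat_lit 251) (nat_lit 0) (cs (rf (nat_lit 3)) (lf (nat_lit 47) (nat_lit 229)))))))))) (cs (nd (nat_lit 274) (nat_lit 0) (cs (lf (nat_lit 35) (nat_lit 230)) (nd (nat_lit 317) (nat_lit 0) (cs (lf (nat_lit 41) (nat_lit 251)) (rf (nat_lit 1)))))) (nd (nat_lit 317) (nat_lit 0) (cs (rf (nat_lit 4)) (cs (nd (nat_lit 251) (nat_lit 0) (cs (nd (nat_lit 229) (nat_lit 0) (cs (nd (nat_lit 273) (nat_lit 0) (cs (lf (nat_lit 33) (nat_lit 185)) (lf (nat_lit 27) (nat_lit 229)))) (lf (nat_lit 44) (nat_lit 229)))) (cs (nd (nat_lit 271) (nat_lit 0) (cs (lf (nat_lit 10) (nat_lit 249)) (nd (nat_lit 249) (nat_lit 0) (cs (lf (nat_lit 11) (nat_lit 248)) (nd (nat_lit 226) (nat_lit 0) (cs (lf (nat_lit 22) (nat_lit 226)) (nd (nat_lit 248) (nat_lit 0) (cs (lf (nat_lit 23) (nat_lit 225)) (nd (nat_lit 182) (nat_lit 0) (cs (lf (nat_lit 25) (nat_lit 182)) (nd (nat_lit 315) (nat_lit 0) (cs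 (lf (nat_lit 43) (nat_lit 226)) (nd (nat_lit 316) (nat_lit 0) (cs (lf (nat_lit 17) (nat_lit 293)) (nd (nat_lit 314) (nat_lit 0) (cs (rf (nat_lit 5)) (lf (nat_lit 16) (nat_lit 292)))))))))))))))))) (nd (nat_lit 271) (nat_lit 0) (cs (lf (nat_lit 10) (nat_lit 249)) (nd (nat_lit 249) (nat_lit 0) (cs (lf (nat_lit 11) (nat_lit 248)) (nd (nat_lit 226) (nat_lit 0) (cs (lf (nat_lit 22) (nat_lit 226)) (nd (nat_lit 225) (nat_lit 0) (cs (lf (nat_lit 21) (nat_lit 225)) (nd (nat_lit 274) (nat_lit 0) (cs (lf (nat_lit 47) (nat_lit 229)) (nd (nat_lit 341) (nat_lit 0) (cs (lf (nat_lit 28) (nat_lit 252)) (rf (nat_lit 6))))))))))))))))) (cs (nd (nat_lit 316) (nat_lit 0) (cs (rf (nat_lit 7)) (cs (rf (nat_lit 8)) (cs (rf (nat_lit 9)) (nd (nat_lit 319) (nat_lit 0) (cs (rf (nat_lit 10)) (rf (nat_lit 11)))))))) (cs (nd (nat_lit 274) (nat_lit 0) (cs (lf (nat_lit 41) (nat_lit 251)) (nd (nat_lit 341) (nat_lit 0) (cs (lf (nat_lit 28) (nat_lit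 252)) (nd (nat_lit 251) (nat_lit 0) (cs (lf (nat_lit 47) (nat_lit 229)) (rf (nat_lit 6)))))))) (cs (nd (nat_lit 274) (nat_lit 0) (cs (lf (nat_lit 41) (nat_lit 251)) (nd (nat_lit 319) (nat_lit 0) (cs (lf (nat_lit 29) (nat_lit 252)) (nd (nat_lit 251) (nat_lit 0) (cs (lf (nat_lit 47) (nat_lit 229)) (nd (nat_lit 271) (nat_lit 0) (cs (lf (nat_lit 10) (nat_lit 249)) (nd (nat_lit 249) (nat_lit 0) (cs (lf (nat_lit 11) (nat_lit 248)) (nd (nat_lit 226) (nat_lit 0) (cs (lf (nat_lit 22) (nat_lit 226)) (nd (nat_lit 248) (nat_lit 0) (cs (lf (nat_lit 23) (nat_lit 225)) (nd (nat_lit 182) (nat_lit 0) (cs (lf (nat_lit 25) (nat_lit 182)) (nd (nat_lit 293) (nat_lit 0) (cs (lf (nat_lit 42) (nat_lit 226)) (nd (nat_lit 294) (nat_lit 0) (cs (lf (nat_lit 21) (nat_lit 293)) (lf (nat_lit 2) (nat_lit 293)))))))))))))))))))))) (nd (nat_lit 274) (nat_lit 0) (cs (lf (nat_lit 41) (nat_lit 251)) (rf (nat_lit 1)))))))))))))))) q44347 (by decide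 +kernel)
def q52409 : Q := Q.p (nat_lit 0x100003400000000010000040000000000000000000000000000000000000000000000) (nat_lit 0x340003fc003ffc00ffe0037fc00eff0003fc00bff000ffc00bff000ff8001fe0001d0000500000000000000000000000) (nat_lit 15)
theorem c52409 : QOK q52409 := cut [q49196, q51474, q51996, q45320, q45353, q17292, q44691, q51505, q51540, q44818, q51497, q52039, q52080, q52206, q52264, q49168, q52004, q52038, q44797, q52054, q46571, q48696, q45536, q47472, q52268, q52277, q45638, q44494, q45092, q49085, q52280, q14184, q45150, q52292, q52293, q45169, q52291, q46687, q52300, q44571, q44584, q44740, q45500, q52333, q52373, q52405, q49158, q52005, q51479, q52191, q52205, q52082, q52107, q52141, q52188, q52245] ⟨c49196, c51474, c51996, c45320, c45353, c17292, c44691, c51505, c51540, c44818, c51497, c52039, c52080, c52206, c52264, c49168, c52004, c52038, c44797, c52054, c46571, c48696, c45536, c47472, c52268, c52277,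 c45638, c44494, c45092, c49085, c52280, c14184, c45150, c52292, c52293, c45169, c52291, c46687, c52300, c44571, c44584, c44740, c45500, c52333, c52373, c52405, c49158, c52005, c51479, c52191, c52205, c52082, c52107, c52141, c52188, c52245, trivial⟩ (nd (nat_lit 247) (nat_lit 0) (cs (rf (nat_lit 0)) (cs (rf (nat_lit 1)) (cs (rf (nat_lit 2)) (cs (nd (nat_lit 249) (nat_lit 0) (cs (rf (nat_lit 3)) (cs (rf (nat_lit 4)) (nd (nat_lit 248) (nat_lit 0) (cs (lf (nat_lit 5) (nat_lit 247)) (nd (nat_lit 225) (nat_lit 0) (cs (lf (nat_lit 23) (nat_lit 224)) (nd (nat_lit 203) (nat_lit 0) (cs (rf (nat_lit 5)) (cs (rf (nat_lit 6)) (cs (rf (nat_lit 7)) (rf (nat_lit 8))))))))))))) (cs (nd (nat_lit 249) (nat_lit 0) (cs (rf (nat_lit 9)) (cs (rf (nat_lit 4)) (nd (nat_lit 248) (nat_lit 0) (cs (lf (nat_lit 5) (nat_lit 247)) (rf (nat_lit 10))))))) (cs (rf (nat_lit 11)) (cs (rf (nat_lit 12)) (cs (rf (nat_lit 13)) (cs (rf (nat_lit 14)) (cs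 (nd (nat_lit 271) (nat_lit 0) (cs (rf (nat_lit 15)) (cs (rf (nat_lit 16)) (cs (rf (nat_lit 17)) (cs (nd (nat_lit 249) (nat_lit 0) (cs (rf (nat_lit 18)) (cs (rf (nat_lit 19)) (nd (nat_lit 293) (nat_lit 0) (cs (rf (nat_lit 20)) (cs (rf (nat_lit 21)) (nd (nat_lit 227) (nat_lit 0) (cs (rf (nat_lit 22)) (cs (rf (nat_lit 23)) (rf (nat_lit 24))))))))))) (rf (nat_lit 25))))))) (cs (nd (nat_lit 249) (nat_lit 0) (cs (rf (nat_lit 3)) (cs (rf (nat_lit 26)) (cs (nd (nat_lit 294) (nat_lit 0) (cs (nd (nat_lit 228) (nat_lit 0) (cs (rf (nat_lit 27)) (cs (nd (nat_lit 205) (nat_lit 0) (cs (lf (nat_lit 46) (nat_lit 205)) (rf (nat_lit 28)))) (cs (nd (nat_lit 227) (nat_lit 0) (cs (lf (nat_lit 47) (nat_lit 205)) (nd (nat_lit 226) (nat_lit 0) (cs (rf (nat_lit 29)) (nd (nat_lit 207) (nat_lit 0) (cs (lf (nat_lit 34) (nat_lit 206)) (nd (nat_lit 293) (nat_lit 0) (cs (lf (nat_lit 41) (nat_lit 227)) (nd (nat_lit 271) (nat_lit 0) (cs (lf (nat_lit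 47) (nat_lit 204)) (rf (nat_lit 30)))))))))))) (nd (nat_lit 293) (nat_lit 0) (cs (lf (nat_lit 41) (nat_lit 227)) (nd (nat_lit 271) (nat_lit 0) (cs (lf (nat_lit 36) (nat_lit 205)) (nd (nat_lit 227) (nat_lit 0) (cs (lf (nat_lit 47) (nat_lit 205)) (rf (nat_lit 30)))))))))))) (cs (nd (nat_lit 316) (nat_lit 0) (cs (lf (nat_lit 47) (nat_lit 227)) (rf (nat_lit 31)))) (cs (nd (nat_lit 315) (nat_lit 0) (cs (rf (nat_lit 32)) (cs (rf (nat_lit 33)) (cs (rf (nat_lit 34)) (nd (nat_lit 293) (nat_lit 0) (cs (lf (nat_lit 36) (nat_lit 227)) (nd (nat_lit 316) (nat_lit 0) (cs (rf (nat_lit 35)) (cs (rf (nat_lit 36)) (nd (nat_lit 271) (nat_lit 0) (cs (lf (nat_lit 29) (nat_lit 249)) (nd (nat_lit 273) (nat_lit 0) (cs (lf (nat_lit 15) (nat_lit 249)) (nd (nat_lit 291) (nat_lit 0) (cs (lf (nat_lit 13) (nat_lit 269)) (rf (nat_lit 37))))))))))))))))) (nd (nat_lit 227) (nat_lit 0) (cs (lf (nat_lit 42) (nat_lit 227)) (rf (nat_lit 38))))))))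 (nd (nat_lit 248) (nat_lit 0) (cs (rf (nat_lit 39)) (cs (rf (nat_lit 40)) (cs (rf (nat_lit 41)) (rf (nat_lit 42)))))))))) (cs (rf (nat_lit 43)) (cs (rf (nat_lit 44)) (cs (rf (nat_lit 45)) (cs (nd (nat_lit 271) (nat_lit 0) (cs (rf (nat_lit 46)) (cs (rf (nat_lit 16)) (cs (rf (nat_lit 47)) (cs (rf (nat_lit 17)) (rf (nat_lit 25))))))) (nd (nat_lit 248) (nat_lit 0) (cs (rf (nat_lit 48)) (cs (rf (nat_lit 49)) (cs (rf (nat_lit 50)) (nd (nat_lit 270) (nat_lit 0) (cs (rf (nat_lit 51)) (cs (rf (nat_lit 52)) (cs (rf (nat_lit 53)) (cs (rf (nat_lit 54)) (rf (nat_lit 55))))))))))))))))))))))))))) q52409 (by decide +kernel)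
def q53151 : Q := Q.p (nat_lit 0x10000000000000000c00002000000000010000000000000000000000000000000000000000000000000000) (nat_lit 0x8e0007fc001ffc03fff807efc03fbf007ff800f3e0038fc00078000060000380000e0000280000000000000000000000000000000000) (nat_lit 16)
theorem c53151 : QOK q53151 := cut [q23284, q52668, q52904, q53031, q53049, q53062, q14764, q25398, q53114, q14489, q14763, q25388, q53116, q31285, q52714, q52728, q52753, q52760, q52717, q5464, q25387, q12673, q12676, q23283, q13007, q14624, q15625] ⟨c23284, c52668, c52904, c53031, c53049, c53062, c14764, c25398, c53114, c14489, c14763, c25388, c53116, c31285, c52714, c52728, c52753, c52760, c52717, c5464, c25387, c12673, c12676, c23283, c13007, c14624, c15625, trivial⟩ (nd (nat_lit 273) (nat_lit 0) (cs (rf (nat_lit 0)) (cs (rf (nat_lit 1)) (cs (rf (nat_lit 2)) (cs (rf (nat_lit 3)) (cs (rf (nat_lit 4)) (cs (rf (nat_lit 5)) (cs (nd (nat_lit 295) (nat_lit 0) (cs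 (rf (nat_lit 6)) (cs (rf (nat_lit 7)) (cs (rf (nat_lit 8)) (cs (nd (nat_lit 294) (nat_lit 0) (cs (rf (nat_lit 9)) (cs (rf (nat_lit 10)) (nd (nat_lit 339) (nat_lit 0) (cs (rf (nat_lit 11)) (cs (nd (nat_lit 338) (nat_lit 0) (cs (nd (nat_lit 316) (nat_lit 0) (cs (lf (nat_lit 30) (nat_lit 272)) (rf (nat_lit 12)))) (cs (nd (nat_lit 341) (nat_lit 0) (cs (rf (nat_lit 13)) (cs (rf (nat_lit 14)) (cs (rf (nat_lit 15)) (cs (rf (nat_lit 16)) (rf (nat_lit 17))))))) (nd (nat_lit 341) (nat_lit 0) (cs (rf (nat_lit 18)) (cs (rf (nat_lit 15)) (cs (nd (nat_lit 315) (nat_lit 0) (cs (lf (nat_lit 22) (nat_lit 315)) (nd (nat_lit 319) (nat_lit 0) (cs (lf (nat_lit 17) (nat_lit 316)) (nd (nat_lit 297) (nat_lit 0) (cs (lf (nat_lit 41) (nat_lit 274)) (nd (nat_lit 272) (nat_lit 0) (cs (lf (nat_lit 5) (nat_lit 272)) (nd (nat_lit 271) (nat_lit 0) (cs (lf (nat_lit 19) (nat_lit 271)) (nd (nat_lit 270) (nat_lit 0) (cs (rf (nat_lit 19)) (lf (nat_lit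 0) (nat_lit 269)))))))))))))) (nd (nat_lit 319) (nat_lit 0) (cs (lf (nat_lit 17) (nat_lit 316)) (nd (nat_lit 363) (nat_lit 0) (cs (lf (nat_lit 5) (nat_lit 338)) (nd (nat_lit 296) (nat_lit 0) (cs (lf (nat_lit 45) (nat_lit 274)) (nd (nat_lit 316) (nat_lit 0) (cs (lf (nat_lit 23) (nat_lit 315)) (rf (nat_lit 12))))))))))))))))) (cs (nd (nat_lit 272) (nat_lit 0) (cs (nd (nat_lit 297) (nat_lit 0) (cs (lf (nat_lit 5) (nat_lit 272)) (nd (nat_lit 271) (nat_lit 0) (cs (lf (nat_lit 4) (nat_lit 271)) (nd (nat_lit 248) (nat_lit 0) (cs (lf (nat_lit 22) (nat_lit 248)) (nd (nat_lit 270) (nat_lit 0) (cs (lf (nat_lit 23) (nat_lit 247)) (lf (nat_lit 0) (nat_lit 269)))))))))) (nd (nat_lit 317) (nat_lit 0) (cs (lf (nat_lit 42) (nat_lit 272)) (rf (nat_lit 20)))))) (nd (nat_lit 317) (nat_lit 0) (cs (lf (nat_lit 29) (nat_lit 273)) (nd (nat_lit 361) (nat_lit 0) (cs (lf (nat_lit 34) (nat_lit 273)) (lf (nat_lit 47) (nat_lit 272)))))))))))))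 (nd (nat_lit 276) (nat_lit 0) (cs (lf (nat_lit 11) (nat_lit 272)) (nd (nat_lit 298) (nat_lit 0) (cs (lf (nat_lit 5) (nat_lit 273)) (nd (nat_lit 320) (nat_lit 0) (cs (lf (nat_lit 42) (nat_lit 253)) (nd (nat_lit 277) (nat_lit 0) (cs (lf (nat_lit 10) (nat_lit 273)) (nd (nat_lit 297) (nat_lit 0) (cs (lf (nat_lit 0) (nat_lit 272)) (nd (nat_lit 256) (nat_lit 0) (cs (lf (nat_lit 16) (nat_lit 252)) (nd (nat_lit 278) (nat_lit 0) (cs (lf (nat_lit 17) (nat_lit 253)) (lf (nat_lit 6) (nat_lit 275))))))))))))))))))))) (cs (nd (nat_lit 272) (nat_lit 0) (cs (rf (nat_lit 21)) (cs (rf (nat_lit 22)) (rf (nat_lit 23))))) (nd (nat_lit 276) (nat_lit 0) (cs (rf (nat_lit 24)) (cs (rf (nat_lit 25)) (rf (nat_lit 26)))))))))))))) q53151 (by decide +kernel)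
def q55687 : Q := Q.p (nat_lit 0xc00002000000000010000000000000000000000000000000000000000000000000000) (nat_lit 0xa0000f80000ff0007ff001ff8001fb00073c0019f00047c000240000d0000000000000000000000000000000000000000000000) (nat_lit 17)
theorem c55687 : QOK q55687 := cut [q12652, q14694, q5304, q55654, q14769, q55519, q13507, q13172, q53547, q55425, q54356, q14470, q44464, q14897] ⟨c12652, c14694, c5304, c55654, c14769, c55519, c13507, c13172, c53547, c55425, c54356, c14470, c44464, c14897, trivial⟩ (nd (nat_lit 252) (nat_lit 0) (cs (rf (nat_lit 0)) (cs (rf (nat_lit 1)) (nd (nat_lit 251) (nat_lit 0) (cs (rf (nat_lit 2)) (cs (rf (nat_lit 3)) (nd (nat_lit 273) (nat_lit 0) (cs (rf (nat_lit 4)) (cs (nd (nat_lit 272) (nat_lit 0) (cs (lf (nat_lit 12) (nat_lit 249)) (nd (nat_lit 297) (nat_lit 0) (cs (lf (nat_lit 5) (nat_lit 272)) (rf (nat_lit 5)))))) (cs (nd (nat_lit 318) (nat_lit 0) (cs (rf (nat_lit 6)) (cs (nd (nat_lit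 319) (nat_lit 0) (cs (rf (nat_lit 7)) (cs (nd (nat_lit 320) (nat_lit 0) (cs (nd (nat_lit 342) (nat_lit 0) (cs (lf (nat_lit 26) (nat_lit 253)) (nd (nat_lit 343) (nat_lit 0) (cs (lf (nat_lit 0) (nat_lit 317)) (rf (nat_lit 8)))))) (cs (nd (nat_lit 271) (nat_lit 0) (cs (lf (nat_lit 13) (nat_lit 249)) (nd (nat_lit 249) (nat_lit 0) (cs (lf (nat_lit 1) (nat_lit 249)) (nd (nat_lit 296) (nat_lit 0) (cs (lf (nat_lit 47) (nat_lit 229)) (nd (nat_lit 317) (nat_lit 0) (cs (lf (nat_lit 41) (nat_lit 251)) (rf (nat_lit 9)))))))))) (cs (nd (nat_lit 271) (nat_lit 0) (cs (lf (nat_lit 13) (nat_lit 249)) (nd (nat_lit 249) (nat_lit 0) (cs (lf (nat_lit 1) (nat_lit 249)) (nd (nat_lit 296) (nat_lit 0) (cs (lf (nat_lit 47) (nat_lit 229)) (nd (nat_lit 317) (nat_lit 0) (cs (lf (nat_lit 41) (nat_lit 251)) (nd (nat_lit 298) (nat_lit 0) (cs (lf (nat_lit 17) (nat_lit 295)) (nd (nat_lit 316) (nat_lit 0) (cs (lf (nat_lit 16) (nat_lit 294)) (nd (nat_lit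 337) (nat_lit 0) (cs (lf (nat_lit 10) (nat_lit 315)) (nd (nat_lit 315) (nat_lit 0) (cs (lf (nat_lit 11) (nat_lit 314)) (nd (nat_lit 293) (nat_lit 0) (cs (lf (nat_lit 23) (nat_lit 292)) (rf (nat_lit 10)))))))))))))))))))) (nd (nat_lit 229) (nat_lit 0) (cs (lf (nat_lit 43) (nat_lit 229)) (nd (nat_lit 297) (nat_lit 0) (cs (lf (nat_lit 29) (nat_lit 253)) (rf (nat_lit 11)))))))))) (nd (nat_lit 272) (nat_lit 0) (cs (lf (nat_lit 12) (nat_lit 249)) (nd (nat_lit 297) (nat_lit 0) (cs (lf (nat_lit 5) (nat_lit 272)) (lf (nat_lit 42) (nat_lit 252))))))))) (nd (nat_lit 249) (nat_lit 0) (cs (lf (nat_lit 1) (nat_lit 249)) (nd (nat_lit 272) (nat_lit 0) (cs (lf (nat_lit 12) (nat_lit 249)) (rf (nat_lit 12))))))))) (nd (nat_lit 272) (nat_lit 0) (cs (lf (nat_lit 12) (nat_lit 249)) (nd (nat_lit 250) (nat_lit 0) (cs (lf (nat_lit 23) (nat_lit 249)) (nd (nat_lit 297) (nat_lit 0) (cs (lf (nat_lit 5) (nat_lit 272)) (nd (nat_lit 319) (nat_lit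 0) (cs (lf (nat_lit 42) (nat_lit 252)) (rf (nat_lit 13)))))))))))))))))))) q55687 (by decide +kernel)
def q56296 : Q := Q.p (nat_lit 0x800002000000000010000000000000000000000000000000000000000000000000000) (nat_lit 0x370001fe000ffe003ffc00fff007ff801f7e00f9fc01fb8007e6003fe8001e0000700001c000040000000000000000000000000) (nat_lit 18)
theorem c56296 : QOK q56296 := cut [q55515, q15623, q22607, q55825, q13258, q15516, q15625, q15540, q15551, q25532, q15553, q25388, q15557, q15564, q15611, q15570, q15588, q22752, q52963, q55832, q15512, q15626, q56030, q55283, q13240, q15513, q56028, q56029, q15683, q15797, q15712, q56032, q56035, q12834, q22195, q56040, q52528, q15711, q15717, q15723, q56240, q56265, q15801, q15828, q14626, q54810, q12991, q14659, q14764, q11700, q16010, q56293] ⟨c55515, c15623, c22607, c55825, c13258, c15516, c15625, c15540, c15551, c25532, c15553, c25388, c15557, c15564, c15611, c15570, c15588,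 c22752, c52963, c55832, c15512, c15626, c56030, c55283, c13240, c15513, c56028, c56029, c15683, c15797, c15712, c56032, c56035, c12834, c22195, c56040, c52528, c15711, c15717, c15723, c56240, c56265, c15801, c15828, c14626, c54810, c12991, c14659, c14764, c11700, c16010, c56293, trivial⟩ (nd (nat_lit 274) (nat_lit 0) (cs (rf (nat_lit 0)) (cs (nd (nat_lit 276) (nat_lit 0) (cs (rf (nat_lit 1)) (cs (rf (nat_lit 2)) (cs (rf (nat_lit 3)) (cs (nd (nat_lit 273) (nat_lit 0) (cs (rf (nat_lit 4)) (cs (rf (nat_lit 5)) (cs (rf (nat_lit 6)) (cs (nd (nat_lit 251) (nat_lit 0) (cs (lf (nat_lit 23) (nat_lit 250)) (nd (nat_lit 295) (nat_lit 0) (cs (lf (nat_lit 11) (nat_lit 272)) (nd (nat_lit 340) (nat_lit 0) (cs (rf (nat_lit 7)) (cs (rf (nat_lit 8)) (cs (rf (nat_lit 9)) (nd (nat_lit 339) (nat_lit 0) (cs (rf (nat_lit 10)) (cs (rf (nat_lit 11)) (nd (nat_lit 342) (nat_lit 0) (cs (rf (nat_lit 12)) (cs (rf (nat_lit 13)) (cs (rf (nat_lit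 14)) (nd (nat_lit 341) (nat_lit 0) (cs (rf (nat_lit 15)) (cs (rf (nat_lit 16)) (cs (rf (nat_lit 17)) (rf (nat_lit 18))))))))))))))))))))) (rf (nat_lit 19))))))) (nd (nat_lit 298) (nat_lit 0) (cs (rf (nat_lit 20)) (rf (nat_lit 21))))))))) (cs (rf (nat_lit 22)) (cs (nd (nat_lit 276) (nat_lit 0) (cs (rf (nat_lit 2)) (cs (rf (nat_lit 23)) (cs (nd (nat_lit 273) (nat_lit 0) (cs (rf (nat_lit 24)) (rf (nat_lit 25)))) (cs (rf (nat_lit 3)) (cs (rf (nat_lit 26)) (rf (nat_lit 27)))))))) (cs (nd (nat_lit 231) (nat_lit 0) (cs (rf (nat_lit 28)) (cs (rf (nat_lit 29)) (nd (nat_lit 297) (nat_lit 0) (cs (rf (nat_lit 30)) (cs (nd (nat_lit 210) (nat_lit 0) (cs (lf (nat_lit 34) (nat_lit 209)) (rf (nat_lit 31)))) (cs (nd (nat_lit 318) (nat_lit 0) (cs (lf (nat_lit 40) (nat_lit 230)) (nd (nat_lit 210) (nat_lit 0) (cs (lf (nat_lit 34) (nat_lit 209)) (nd (nat_lit 319) (nat_lit 0) (cs (lf (nat_lit 41) (nat_lit 252)) (rf (nat_lit 32))))))))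 (nd (nat_lit 273) (nat_lit 0) (cs (rf (nat_lit 33)) (cs (nd (nat_lit 272) (nat_lit 0) (cs (lf (nat_lit 5) (nat_lit 272)) (rf (nat_lit 34)))) (rf (nat_lit 35)))))))))))) (cs (nd (nat_lit 231) (nat_lit 0) (cs (rf (nat_lit 28)) (cs (rf (nat_lit 36)) (nd (nat_lit 297) (nat_lit 0) (cs (rf (nat_lit 37)) (cs (rf (nat_lit 38)) (cs (rf (nat_lit 39)) (rf (nat_lit 35))))))))) (cs (rf (nat_lit 40)) (cs (rf (nat_lit 41)) (cs (nd (nat_lit 231) (nat_lit 0) (cs (rf (nat_lit 28)) (cs (rf (nat_lit 29)) (nd (nat_lit 296) (nat_lit 0) (cs (rf (nat_lit 42)) (cs (rf (nat_lit 43)) (nd (nat_lit 276) (nat_lit 0) (cs (rf (nat_lit 44)) (cs (rf (nat_lit 45)) (cs (rf (nat_lit 23)) (nd (nat_lit 273) (nat_lit 0) (cs (rf (nat_lit 46)) (cs (rf (nat_lit 24)) (cs (rf (nat_lit 47)) (nd (nat_lit 295) (nat_lit 0) (cs (rf (nat_lit 48)) (nd (nat_lit 317) (nat_lit 0) (cs (rf (nat_lit 49)) (nd (nat_lit 298) (nat_lit 0) (cs (lf (nat_lit 5) (nat_lit 273))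 (nd (nat_lit 251) (nat_lit 0) (cs (lf (nat_lit 23) (nat_lit 250)) (rf (nat_lit 50)))))))))))))))))))))))) (cs (rf (nat_lit 51)) (nd (nat_lit 231) (nat_lit 0) (cs (rf (nat_lit 28)) (cs (rf (nat_lit 36)) (nd (nat_lit 297) (nat_lit 0) (cs (rf (nat_lit 37)) (cs (rf (nat_lit 31)) (rf (nat_lit 35))))))))))))))))))) q56296 (by decide +kernel)
def q60354 : Q := Q.p (nat_lit 0x20000800002400000000010000000000000000000000000000000000000000000000000000) (nat_lit 0x220004fc0077f001ffe007ff803ddf0077f0039bc007af001e7c005dc000050000000000000000000000000000000000000000) (nat_lit 16)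
theorem c60354 : QOK q60354 := cut [q58928, q59990, q58871, q58881, q60011, q60120, q58910, q58926, q60121, q60228, q46683, q58889, q60233, q60244, q60247, q60286, q60322, q60324, q23069, q58887, q60238, q60338, q59254, q60042, q59835, q60027, q14498] ⟨c58928, c59990, c58871, c58881, c60011, c60120, c58910, c58926, c60121, c60228, c46683, c58889, c60233, c60244, c60247, c60286, c60322, c60324, c23069, c58887, c60238, c60338, c59254, c60042, c59835, c60027, c14498, trivial⟩ (nd (nat_lit 294) (nat_lit 0) (cs (rf (nat_lit 0)) (cs (rf (nat_lit 1)) (cs (nd (nat_lit 295) (nat_lit 0) (cs (rf (nat_lit 2)) (cs (rf (nat_lit 3)) (rf (nat_lit 4))))) (cs (rf (nat_lit 5)) (cs (nd (nat_lit 272) (nat_lit 0) (cs (rf (nat_lit 6)) (cs (rf (nat_lit 7)) (cs (rf (nat_lit 8)) (cs (rf (nat_lit 9)) (cs (nd (nat_lit 316) (nat_lit 0) (cs (rf (nat_lit 10)) (cs (rf (nat_lit 11)) (cs (rf (nat_lit 12)) (rf (nat_lit 13)))))) (rf (nat_lit 14))))))))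 (cs (rf (nat_lit 15)) (cs (rf (nat_lit 16)) (cs (nd (nat_lit 295) (nat_lit 0) (cs (rf (nat_lit 3)) (cs (rf (nat_lit 4)) (rf (nat_lit 17))))) (cs (nd (nat_lit 272) (nat_lit 0) (cs (rf (nat_lit 6)) (cs (rf (nat_lit 7)) (cs (rf (nat_lit 8)) (cs (nd (nat_lit 316) (nat_lit 0) (cs (rf (nat_lit 18)) (cs (rf (nat_lit 19)) (nd (nat_lit 273) (nat_lit 0) (cs (lf (nat_lit 7) (nat_lit 271)) (nd (nat_lit 291) (nat_lit 0) (cs (lf (nat_lit 13) (nat_lit 269)) (rf (nat_lit 20))))))))) (cs (rf (nat_lit 21)) (nd (nat_lit 316) (nat_lit 0) (cs (rf (nat_lit 18)) (cs (rf (nat_lit 19)) (rf (nat_lit 12))))))))))) (nd (nat_lit 295) (nat_lit 0) (cs (rf (nat_lit 3)) (cs (rf (nat_lit 4)) (cs (nd (nat_lit 271) (nat_lit 0) (cs (rf (nat_lit 22)) (cs (nd (nat_lit 274) (nat_lit 0) (cs (lf (nat_lit 15) (nat_lit 271)) (nd (nat_lit 272) (nat_lit 0) (cs (lf (nat_lit 8) (nat_lit 271)) (rf (nat_lit 23)))))) (cs (nd (nat_lit 272) (nat_lit 0) (cs (rf (nat_lit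 24)) (cs (rf (nat_lit 23)) (nd (nat_lit 270) (nat_lit 0) (cs (lf (nat_lit 0) (nat_lit 269)) (nd (nat_lit 273) (nat_lit 0) (cs (lf (nat_lit 7) (nat_lit 271)) (nd (nat_lit 317) (nat_lit 0) (cs (lf (nat_lit 42) (nat_lit 250)) (nd (nat_lit 248) (nat_lit 0) (cs (lf (nat_lit 23) (nat_lit 247)) (nd (nat_lit 226) (nat_lit 0) (cs (lf (nat_lit 24) (nat_lit 204)) (nd (nat_lit 315) (nat_lit 0) (cs (lf (nat_lit 30) (nat_lit 249)) (lf (nat_lit 45) (nat_lit 226))))))))))))))))) (nd (nat_lit 270) (nat_lit 0) (cs (lf (nat_lit 18) (nat_lit 270)) (rf (nat_lit 25)))))))) (nd (nat_lit 274) (nat_lit 0) (cs (lf (nat_lit 15) (nat_lit 271)) (rf (nat_lit 26)))))))))))))))))) q60354 (by decide +kernel)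
def q62910 : Q := Q.p (nat_lit 0x800002600000000010000000000000000000000000000000000000000000000000000) (nat_lit 0x20003fe0007f001dfe0037780009c000ff800e7e00ffe001ff800fff000ff0001f8000380000a0000000000000) (nat_lit 16)
theorem c62910 : QOK q62910 := cut [q62399, q62426, q62510, q62581, q62689, q62697, q62688, q62701, q62705, q56677, q62472, q62614, q62668, q62707, q62714, q62717, q62743, q62672, q62495, q62576, q56859, q62450, q62497, q51495, q62501, q62505, q62152, q62909] ⟨c62399, c62426, c62510, c62581, c62689, c62697, c62688, c62701, c62705, c56677, c62472, c62614, c62668, c62707, c62714, c62717, c62743, c62672, c62495, c62576, c56859, c62450, c62497, c51495, c62501, c62505, c62152, c62909, trivial⟩ (nd (nat_lit 228) (nat_lit 0) (cs (rf (nat_lit 0)) (cs (rf (nat_lit 1)) (cs (rf (nat_lit 2)) (cs (rf (nat_lit 3)) (cs (rf (nat_lit 4)) (cs (rf (nat_lit 5)) (cs (nd (nat_lit 227) (nat_lit 0) (cs (rf (nat_lit 6))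 (cs (nd (nat_lit 226) (nat_lit 0) (cs (rf (nat_lit 7)) (cs (rf (nat_lit 8)) (cs (nd (nat_lit 248) (nat_lit 0) (cs (rf (nat_lit 9)) (cs (rf (nat_lit 10)) (nd (nat_lit 204) (nat_lit 0) (cs (rf (nat_lit 11)) (cs (rf (nat_lit 12)) (nd (nat_lit 182) (nat_lit 0) (cs (lf (nat_lit 24) (nat_lit 160)) (nd (nat_lit 161) (nat_lit 0) (cs (lf (nat_lit 34) (nat_lit 160)) (nd (nat_lit 181) (nat_lit 0) (cs (lf (nat_lit 47) (nat_lit 159)) (nd (nat_lit 270) (nat_lit 0) (cs (lf (nat_lit 46) (nat_lit 181)) (rf (nat_lit 13)))))))))))))))) (cs (rf (nat_lit 14)) (rf (nat_lit 15))))))) (cs (rf (nat_lit 16)) (cs (nd (nat_lit 226) (nat_lit 0) (cs (rf (nat_lit 17)) (cs (rf (nat_lit 7)) (cs (rf (nat_lit 8)) (cs (nd (nat_lit 248) (nat_lit 0) (cs (rf (nat_lit 9)) (cs (rf (nat_lit 18)) (rf (nat_lit 19))))) (nd (nat_lit 248) (nat_lit 0) (cs (rf (nat_lit 20)) (cs (rf (nat_lit 21)) (cs (rf (nat_lit 18)) (rf (nat_lit 22))))))))))) (cs (nd (nat_lit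 272) (nat_lit 0) (cs (rf (nat_lit 23)) (cs (nd (nat_lit 273) (nat_lit 0) (cs (lf (nat_lit 19) (nat_lit 249)) (rf (nat_lit 24)))) (nd (nat_lit 183) (nat_lit 0) (cs (lf (nat_lit 25) (nat_lit 183)) (nd (nat_lit 273) (nat_lit 0) (cs (lf (nat_lit 19) (nat_lit 249)) (rf (nat_lit 25))))))))) (nd (nat_lit 226) (nat_lit 0) (cs (rf (nat_lit 7)) (cs (rf (nat_lit 8)) (cs (rf (nat_lit 14)) (cs (rf (nat_lit 15)) (nd (nat_lit 248) (nat_lit 0) (cs (rf (nat_lit 9)) (cs (nd (nat_lit 229) (nat_lit 0) (cs (lf (nat_lit 6) (nat_lit 226)) (nd (nat_lit 204) (nat_lit 0) (cs (lf (nat_lit 23) (nat_lit 203)) (nd (nat_lit 182) (nat_lit 0) (cs (lf (nat_lit 24) (nat_lit 160)) (nd (nat_lit 159) (nat_lit 0) (cs (lf (nat_lit 46) (nat_lit 159)) (nd (nat_lit 183) (nat_lit 0) (cs (lf (nat_lit 35) (nat_lit 160)) (rf (nat_lit 26)))))))))))) (rf (nat_lit 10)))))))))))))))) (rf (nat_lit 27)))))))))) q62910 (by decide +kernel)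
def q67309 : Q := Q.p (nat_lit 0x800002600000000010000040000000000000000000000000000000000000000000000) (nat_lit 0x780003e0003fe000ff801dfe0077f80191c006df801e7c00fbd0000f0000180000000000000000000000000000000000) (nat_lit 15)
theorem c67309 : QOK q67309 := cut [q66937, q67098, q66774, q61527, q66773, q67025, q67027, q67105, q67110, q66770, q67050, q67054, q67069, q67141, q67157, q67161, q67181, q67186, q67196, q67199, q67236, q61516, q66778, q67011, q67068, q67249, q67278, q67298, q67300, q67033, q67037, q67289, q67295, q66758, q67053, q58513, q67296, q59916, q66762, q61939, q66998] ⟨c66937, c67098, c66774, c61527, c66773, c67025, c67027, c67105, c67110, c66770, c67050, c67054, c67069, c67141, c67157, c67161, c67181, c67186, c67196, c67199, c67236, c61516, c66778, c67011, c67068, c67249, c67278, c67298, c67300, c67033, c67037, c67289, c67295, c66758, c67053, c58513, c67296, c59916, c66762, c61939, c66998, trivial⟩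 (nd (nat_lit 293) (nat_lit 0) (cs (rf (nat_lit 0)) (cs (rf (nat_lit 1)) (cs (nd (nat_lit 271) (nat_lit 0) (cs (rf (nat_lit 2)) (cs (nd (nat_lit 209) (nat_lit 0) (cs (lf (nat_lit 44) (nat_lit 186)) (nd (nat_lit 227) (nat_lit 0) (cs (rf (nat_lit 3)) (cs (rf (nat_lit 4)) (cs (rf (nat_lit 5)) (rf (nat_lit 6)))))))) (cs (nd (nat_lit 230) (nat_lit 0) (cs (lf (nat_lit 27) (nat_lit 186)) (rf (nat_lit 7)))) (rf (nat_lit 8)))))) (cs (nd (nat_lit 271) (nat_lit 0) (cs (rf (nat_lit 2)) (cs (rf (nat_lit 7)) (cs (nd (nat_lit 227) (nat_lit 0) (cs (nd (nat_lit 209) (nat_lit 0) (cs (lf (nat_lit 44) (nat_lit 186)) (nd (nat_lit 206) (nat_lit 0) (cs (lf (nat_lit 34) (nat_lit 205)) (nd (nat_lit 184) (nat_lit 0) (cs (lf (nat_lit 33) (nat_lit 183)) (nd (nat_lit 204) (nat_lit 0) (cs (lf (nat_lit 46) (nat_lit 204)) (nd (nat_lit 230) (nat_lit 0) (cs (lf (nat_lit 27) (nat_lit 186)) (rf (nat_lit 9)))))))))))) (cs (rf (nat_lit 10)) (cs (rf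 (nat_lit 11)) (cs (rf (nat_lit 12)) (rf (nat_lit 13))))))) (rf (nat_lit 14)))))) (cs (nd (nat_lit 209) (nat_lit 0) (cs (lf (nat_lit 44) (nat_lit 186)) (nd (nat_lit 315) (nat_lit 0) (cs (nd (nat_lit 228) (nat_lit 0) (cs (lf (nat_lit 32) (nat_lit 227)) (nd (nat_lit 272) (nat_lit 0) (cs (lf (nat_lit 39) (nat_lit 227)) (nd (nat_lit 273) (nat_lit 0) (cs (lf (nat_lit 19) (nat_lit 249)) (nd (nat_lit 247) (nat_lit 0) (cs (lf (nat_lit 1) (nat_lit 247)) (rf (nat_lit 15)))))))))) (cs (rf (nat_lit 16)) (cs (nd (nat_lit 230) (nat_lit 0) (cs (lf (nat_lit 27) (nat_lit 186)) (rf (nat_lit 17)))) (cs (rf (nat_lit 18)) (nd (nat_lit 230) (nat_lit 0) (cs (lf (nat_lit 27) (nat_lit 186)) (rf (nat_lit 19))))))))))) (cs (rf (nat_lit 20)) (cs (nd (nat_lit 271) (nat_lit 0) (cs (rf (nat_lit 21)) (cs (rf (nat_lit 2)) (cs (rf (nat_lit 22)) (nd (nat_lit 227) (nat_lit 0) (cs (rf (nat_lit 23)) (cs (rf (nat_lit 11)) (cs (rf (nat_lit 24)) (rf (nat_lit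 12)))))))))) (cs (rf (nat_lit 25)) (cs (rf (nat_lit 26)) (cs (rf (nat_lit 27)) (cs (rf (nat_lit 28)) (cs (nd (nat_lit 271) (nat_lit 0) (cs (rf (nat_lit 21)) (cs (nd (nat_lit 209) (nat_lit 0) (cs (lf (nat_lit 44) (nat_lit 186)) (nd (nat_lit 227) (nat_lit 0) (cs (rf (nat_lit 3)) (cs (rf (nat_lit 6)) (cs (rf (nat_lit 29)) (rf (nat_lit 30)))))))) (rf (nat_lit 31))))) (cs (nd (nat_lit 209) (nat_lit 0) (cs (lf (nat_lit 44) (nat_lit 186)) (nd (nat_lit 271) (nat_lit 0) (cs (rf (nat_lit 21)) (cs (rf (nat_lit 2)) (cs (rf (nat_lit 32)) (nd (nat_lit 227) (nat_lit 0) (cs (rf (nat_lit 3)) (cs (rf (nat_lit 33)) (cs (rf (nat_lit 34)) (rf (nat_lit 11)))))))))))) (nd (nat_lit 209) (nat_lit 0) (cs (lf (nat_lit 44) (nat_lit 186)) (nd (nat_lit 271) (nat_lit 0) (cs (rf (nat_lit 35)) (cs (rf (nat_lit 21)) (cs (rf (nat_lit 36)) (nd (nat_lit 227) (nat_lit 0) (cs (rf (nat_lit 37)) (cs (rf (nat_lit 38)) (cs (rf (nat_lit 4)) (nd (nat_lit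 294) (nat_lit 0) (cs (rf (nat_lit 39)) (rf (nat_lit 40)))))))))))))))))))))))))))) q67309 (by decide +kernel)
def q67630 : Q := Q.p (nat_lit 0x800002600000000010000040000000000000000000000000000000000000000000000) (nat_lit 0x700003c0003fe001ff803dfe0077f80391c00fff801e3c00ebf00007c000150000000000000000000000000000000000) (nat_lit 15)
theorem c67630 : QOK q67630 := cut [q67300, q67362, q67497, q67105, q67157, q67234, q67524, q67541, q67287, q67027, q67384, q67513, q67372, q67554, q66782, q67181, q67186, q67196, q67193, q56930, q66776, q67569, q67570, q67594, q67608, q67620, q67623, q67288, q67289, q67295, q67296, q64507, q66758, q67495, q56929, q67108, q67515, q67519, q67622] ⟨c67300, c67362, c67497, c67105, c67157, c67234, c67524, c67541, c67287, c67027, c67384, c67513, c67372, c67554, c66782, c67181, c67186, c67196, c67193, c56930, c66776, c67569, c67570, c67594, c67608, c67620, c67623, c67288, c67289, c67295,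 c67296, c64507, c66758, c67495, c56929, c67108, c67515, c67519, c67622, trivial⟩ (nd (nat_lit 293) (nat_lit 0) (cs (rf (nat_lit 0)) (cs (rf (nat_lit 1)) (cs (rf (nat_lit 2)) (cs (nd (nat_lit 271) (nat_lit 0) (cs (rf (nat_lit 3)) (cs (rf (nat_lit 4)) (cs (rf (nat_lit 5)) (cs (rf (nat_lit 6)) (rf (nat_lit 7))))))) (cs (nd (nat_lit 271) (nat_lit 0) (cs (rf (nat_lit 3)) (cs (rf (nat_lit 8)) (cs (nd (nat_lit 209) (nat_lit 0) (cs (lf (nat_lit 44) (nat_lit 186)) (nd (nat_lit 227) (nat_lit 0) (cs (rf (nat_lit 9)) (cs (rf (nat_lit 10)) (cs (rf (nat_lit 11)) (nd (nat_lit 230) (nat_lit 0) (cs (lf (nat_lit 27) (nat_lit 186)) (nd (nat_lit 228) (nat_lit 0) (cs (lf (nat_lit 14) (nat_lit 205)) (nd (nat_lit 294) (nat_lit 0) (cs (lf (nat_lit 29) (nat_lit 227)) (nd (nat_lit 292) (nat_lit 0) (cs (lf (nat_lit 41) (nat_lit 226)) (nd (nat_lit 205) (nat_lit 0) (cs (lf (nat_lit 40) (nat_lit 204)) (rf (nat_lit 12)))))))))))))))))) (rf (nat_lit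 13)))))) (cs (nd (nat_lit 209) (nat_lit 0) (cs (lf (nat_lit 44) (nat_lit 186)) (nd (nat_lit 211) (nat_lit 0) (cs (rf (nat_lit 14)) (nd (nat_lit 315) (nat_lit 0) (cs (rf (nat_lit 15)) (cs (rf (nat_lit 16)) (cs (rf (nat_lit 17)) (cs (nd (nat_lit 271) (nat_lit 0) (cs (lf (nat_lit 35) (nat_lit 227)) (rf (nat_lit 18)))) (cs (nd (nat_lit 230) (nat_lit 0) (cs (lf (nat_lit 27) (nat_lit 186)) (nd (nat_lit 271) (nat_lit 0) (cs (lf (nat_lit 35) (nat_lit 227)) (rf (nat_lit 19)))))) (nd (nat_lit 271) (nat_lit 0) (cs (lf (nat_lit 35) (nat_lit 227)) (rf (nat_lit 20)))))))))))))) (cs (nd (nat_lit 271) (nat_lit 0) (cs (rf (nat_lit 5)) (cs (rf (nat_lit 7)) (cs (rf (nat_lit 13)) (cs (rf (nat_lit 21)) (rf (nat_lit 22))))))) (cs (rf (nat_lit 23)) (cs (rf (nat_lit 24)) (cs (rf (nat_lit 25)) (cs (rf (nat_lit 26)) (cs (nd (nat_lit 209) (nat_lit 0) (cs (lf (nat_lit 44) (nat_lit 186)) (nd (nat_lit 211) (nat_lit 0) (cs (rf (nat_lit 14))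 (nd (nat_lit 271) (nat_lit 0) (cs (rf (nat_lit 8)) (cs (rf (nat_lit 27)) (cs (rf (nat_lit 28)) (cs (rf (nat_lit 29)) (cs (rf (nat_lit 30)) (cs (nd (nat_lit 227) (nat_lit 0) (cs (rf (nat_lit 31)) (cs (rf (nat_lit 32)) (cs (rf (nat_lit 9)) (rf (nat_lit 33)))))) (nd (nat_lit 315) (nat_lit 0) (cs (rf (nat_lit 34)) (cs (rf (nat_lit 20)) (rf (nat_lit 35)))))))))))))))) (nd (nat_lit 271) (nat_lit 0) (cs (rf (nat_lit 5)) (cs (rf (nat_lit 28)) (cs (rf (nat_lit 36)) (cs (rf (nat_lit 37)) (cs (nd (nat_lit 230) (nat_lit 0) (cs (lf (nat_lit 27) (nat_lit 186)) (nd (nat_lit 209) (nat_lit 0) (cs (lf (nat_lit 44) (nat_lit 186)) (nd (nat_lit 228) (nat_lit 0) (cs (lf (nat_lit 30) (nat_lit 227)) (nd (nat_lit 227) (nat_lit 0) (cs (lf (nat_lit 14) (nat_lit 205)) (rf (nat_lit 9)))))))))) (rf (nat_lit 38))))))))))))))))))))) q67630 (by decide +kernel)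
def q69023 : Q := Q.p (nat_lit 0x800002600000000010000040000000000000000000000000000000000000000000000) (nat_lit 0x100003fe0007f0001fe0007f00011c0007fc0027e000bfc000f00001c0000500000000000000000000000000000) (nat_lit 14)
theorem c69023 : QOK q69023 := cut [q68124, q66753, q68931, q61412, q56640, q67921, q56874, q68953, q68954, q68960, q5153, q68959, q68969, q68991, q40988, q67650, q68992, q68995, q40965, q66938, q66981, q68088, q56953, q67641, q67929, q68990, q69002, q61687, q23761, q40983, q61437, q68107, q69020, q68123, q41027] ⟨c68124, c66753, c68931, c61412, c56640, c67921, c56874, c68953, c68954, c68960, c5153, c68959, c68969, c68991, c40988, c67650, c68992, c68995, c40965, c66938, c66981, c68088, c56953, c67641, c67929, c68990, c69002, c61687, c23761, c40983, c61437, c68107, c69020, c68123, c41027, trivial⟩ (nd (nat_lit 227) (nat_lit 0) (cs (rf (nat_lit 0)) (cs (nd (nat_lit 228) (nat_lit 0) (cs (rf (nat_lit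 1)) (cs (rf (nat_lit 2)) (cs (nd (nat_lit 230) (nat_lit 0) (cs (lf (nat_lit 27) (nat_lit 186)) (nd (nat_lit 229) (nat_lit 0) (cs (lf (nat_lit 11) (nat_lit 226)) (rf (nat_lit 3)))))) (nd (nat_lit 205) (nat_lit 0) (cs (rf (nat_lit 4)) (cs (rf (nat_lit 5)) (nd (nat_lit 183) (nat_lit 0) (cs (lf (nat_lit 24) (nat_lit 161)) (nd (nat_lit 160) (nat_lit 0) (cs (lf (nat_lit 46) (nat_lit 160)) (nd (nat_lit 248) (nat_lit 0) (cs (lf (nat_lit 41) (nat_lit 182)) (nd (nat_lit 246) (nat_lit 0) (cs (lf (nat_lit 13) (nat_lit 224)) (rf (nat_lit 6))))))))))))))))) (cs (nd (nat_lit 228) (nat_lit 0) (cs (rf (nat_lit 1)) (cs (rf (nat_lit 7)) (rf (nat_lit 8))))) (cs (nd (nat_lit 228) (nat_lit 0) (cs (rf (nat_lit 2)) (cs (rf (nat_lit 7)) (cs (nd (nat_lit 230) (nat_lit 0) (cs (lf (nat_lit 27) (nat_lit 186)) (nd (nat_lit 229) (nat_lit 0) (cs (lf (nat_lit 17) (nat_lit 205)) (rf (nat_lit 9)))))) (cs (nd (nat_lit 205) (nat_lit 0) (cs (rf (nat_lit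 10)) (cs (rf (nat_lit 5)) (rf (nat_lit 11))))) (rf (nat_lit 12))))))) (cs (rf (nat_lit 13)) (cs (nd (nat_lit 205) (nat_lit 0) (cs (rf (nat_lit 14)) (cs (rf (nat_lit 15)) (cs (rf (nat_lit 16)) (cs (nd (nat_lit 230) (nat_lit 0) (cs (lf (nat_lit 27) (nat_lit 186)) (rf (nat_lit 17)))) (nd (nat_lit 230) (nat_lit 0) (cs (lf (nat_lit 27) (nat_lit 186)) (rf (nat_lit 18))))))))) (cs (nd (nat_lit 205) (nat_lit 0) (cs (rf (nat_lit 19)) (cs (rf (nat_lit 20)) (cs (rf (nat_lit 21)) (rf (nat_lit 16)))))) (cs (nd (nat_lit 228) (nat_lit 0) (cs (rf (nat_lit 1)) (cs (rf (nat_lit 8)) (rf (nat_lit 12))))) (cs (nd (nat_lit 205) (nat_lit 0) (cs (rf (nat_lit 22)) (cs (rf (nat_lit 20)) (cs (rf (nat_lit 17)) (cs (nd (nat_lit 271) (nat_lit 0) (cs (rf (nat_lit 23)) (cs (rf (nat_lit 24)) (rf (nat_lit 25))))) (rf (nat_lit 26))))))) (cs (nd (nat_lit 205) (nat_lit 0) (cs (rf (nat_lit 14)) (cs (rf (nat_lit 20)) (cs (nd (nat_lit 271) (nat_lit 0)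 (cs (rf (nat_lit 23)) (cs (rf (nat_lit 25)) (nd (nat_lit 230) (nat_lit 0) (cs (lf (nat_lit 27) (nat_lit 186)) (nd (nat_lit 272) (nat_lit 0) (cs (lf (nat_lit 29) (nat_lit 205)) (nd (nat_lit 273) (nat_lit 0) (cs (lf (nat_lit 19) (nat_lit 249)) (nd (nat_lit 247) (nat_lit 0) (cs (lf (nat_lit 1) (nat_lit 247)) (rf (nat_lit 27))))))))))))) (nd (nat_lit 183) (nat_lit 0) (cs (rf (nat_lit 28)) (cs (rf (nat_lit 29)) (nd (nat_lit 230) (nat_lit 0) (cs (lf (nat_lit 27) (nat_lit 186)) (nd (nat_lit 248) (nat_lit 0) (cs (lf (nat_lit 41) (nat_lit 182)) (nd (nat_lit 228) (nat_lit 0) (cs (lf (nat_lit 7) (nat_lit 226)) (nd (nat_lit 246) (nat_lit 0) (cs (lf (nat_lit 13) (nat_lit 224)) (nd (nat_lit 160) (nat_lit 0) (cs (lf (nat_lit 46) (nat_lit 160)) (nd (nat_lit 184) (nat_lit 0) (cs (lf (nat_lit 35) (nat_lit 161)) (nd (nat_lit 206) (nat_lit 0) (cs (lf (nat_lit 41) (nat_lit 183)) (rf (nat_lit 30))))))))))))))))))))))) (cs (nd (nat_lit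 205) (nat_lit 0) (cs (rf (nat_lit 22)) (cs (rf (nat_lit 20)) (cs (rf (nat_lit 31)) (cs (rf (nat_lit 17)) (rf (nat_lit 26))))))) (cs (rf (nat_lit 32)) (nd (nat_lit 205) (nat_lit 0) (cs (rf (nat_lit 20)) (cs (rf (nat_lit 33)) (cs (rf (nat_lit 17)) (nd (nat_lit 183) (nat_lit 0) (cs (rf (nat_lit 34)) (rf (nat_lit 6))))))))))))))))))))) q69023 (by decide +kernel)
def q69306 : Q := Q.p (nat_lit 0x800002600000000010000040000000000000000000000000000000000000000000000) (nat_lit 0x500003f0003fe000ff8001fe0017f80011e000ffc0007c0003f00007c000050000000000000000000000000000000000) (nat_lit 15)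
theorem c69306 : QOK q69306 := cut [q61331, q66728, q69112, q58513, q67287, q61527, q67025, q67027, q67384, q69114, q69264, q61516, q66774, q59775, q67146, q67194, q67299, q68841, q68842, q46564, q69118, q52052, q69111, q69231, q67288, q67289, q67296, q65860, q69210, q57225, q56988, q67564, q68212, q61939, q68803, q69277, q47375, q69283, q60148, q66866, q68261, q57236, q69288, q69289, q67245, q69106, q46560, q69301, q68505, q67234, q67295] ⟨c61331, c66728, c69112, c58513, c67287, c61527, c67025, c67027, c67384, c69114, c69264, c61516, c66774, c59775, c67146, c67194, c67299, c68841, c68842, c46564, c69118, c52052, c69111, c69231, c67288, c67289, c67296, c65860, c69210, c57225, c56988, c67564, c68212, c61939, c68803, c69277, c47375, c69283, c60148, c66866, c68261, c57236, c69288, c69289, c67245, c69106, c46560, c69301, c68505, c67234, c67295, trivial⟩ (nd (nat_lit 271) (nat_lit 0) (cs (nd (nat_lit 228) (nat_lit 0)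 (cs (rf (nat_lit 0)) (rf (nat_lit 1)))) (cs (rf (nat_lit 2)) (cs (nd (nat_lit 293) (nat_lit 0) (cs (rf (nat_lit 3)) (cs (rf (nat_lit 4)) (cs (nd (nat_lit 227) (nat_lit 0) (cs (rf (nat_lit 5)) (cs (rf (nat_lit 6)) (cs (rf (nat_lit 7)) (rf (nat_lit 8)))))) (nd (nat_lit 230) (nat_lit 0) (cs (lf (nat_lit 27) (nat_lit 186)) (rf (nat_lit 9)))))))) (cs (rf (nat_lit 10)) (cs (nd (nat_lit 293) (nat_lit 0) (cs (rf (nat_lit 11)) (cs (rf (nat_lit 12)) (cs (nd (nat_lit 315) (nat_lit 0) (cs (rf (nat_lit 13)) (cs (rf (nat_lit 14)) (rf (nat_lit 15))))) (rf (nat_lit 16)))))) (cs (nd (nat_lit 272) (nat_lit 0) (cs (nd (nat_lit 270) (nat_lit 0) (cs (rf (nat_lit 17)) (cs (rf (nat_lit 18)) (nd (nat_lit 230) (nat_lit 0) (cs (lf (nat_lit 27) (nat_lit 186)) (rf (nat_lit 19))))))) (cs (rf (nat_lit 20)) (nd (nat_lit 228) (nat_lit 0) (cs (rf (nat_lit 21)) (rf (nat_lit 1))))))) (cs (nd (nat_lit 272) (nat_lit 0) (cs (rf (nat_lit 22)) (cs (rf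 (nat_lit 23)) (cs (nd (nat_lit 293) (nat_lit 0) (cs (rf (nat_lit 4)) (cs (rf (nat_lit 24)) (cs (rf (nat_lit 25)) (cs (rf (nat_lit 26)) (nd (nat_lit 294) (nat_lit 0) (cs (rf (nat_lit 27)) (rf (nat_lit 28))))))))) (cs (nd (nat_lit 227) (nat_lit 0) (cs (rf (nat_lit 29)) (cs (nd (nat_lit 293) (nat_lit 0) (cs (rf (nat_lit 30)) (cs (rf (nat_lit 31)) (cs (rf (nat_lit 32)) (nd (nat_lit 294) (nat_lit 0) (cs (rf (nat_lit 33)) (rf (nat_lit 34)))))))) (rf (nat_lit 35))))) (cs (nd (nat_lit 269) (nat_lit 0) (cs (nd (nat_lit 230) (nat_lit 0) (cs (lf (nat_lit 27) (nat_lit 186)) (rf (nat_lit 36)))) (cs (rf (nat_lit 37)) (cs (nd (nat_lit 248) (nat_lit 0) (cs (rf (nat_lit 38)) (nd (nat_lit 294) (nat_lit 0) (cs (rf (nat_lit 39)) (cs (rf (nat_lit 40)) (nd (nat_lit 293) (nat_lit 0) (cs (rf (nat_lit 41)) (rf (nat_lit 28))))))))) (cs (rf (nat_lit 42)) (nd (nat_lit 273) (nat_lit 0) (cs (lf (nat_lit 19) (nat_lit 249)) (nd (nat_lit 230)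 (nat_lit 0) (cs (lf (nat_lit 27) (nat_lit 186)) (rf (nat_lit 43))))))))))) (cs (nd (nat_lit 227) (nat_lit 0) (cs (rf (nat_lit 29)) (cs (rf (nat_lit 35)) (nd (nat_lit 293) (nat_lit 0) (cs (rf (nat_lit 30)) (cs (rf (nat_lit 44)) (rf (nat_lit 32)))))))) (nd (nat_lit 270) (nat_lit 0) (cs (rf (nat_lit 17)) (cs (rf (nat_lit 45)) (cs (nd (nat_lit 273) (nat_lit 0) (cs (lf (nat_lit 19) (nat_lit 249)) (nd (nat_lit 295) (nat_lit 0) (cs (lf (nat_lit 5) (nat_lit 270)) (nd (nat_lit 317) (nat_lit 0) (cs (lf (nat_lit 42) (nat_lit 250)) (nd (nat_lit 292) (nat_lit 0) (cs (lf (nat_lit 11) (nat_lit 269)) (nd (nat_lit 230) (nat_lit 0) (cs (lf (nat_lit 27) (nat_lit 186)) (rf (nat_lit 46)))))))))))) (rf (nat_lit 47))))))))))))) (cs (nd (nat_lit 293) (nat_lit 0) (cs (rf (nat_lit 3)) (cs (rf (nat_lit 11)) (cs (rf (nat_lit 26)) (rf (nat_lit 48)))))) (nd (nat_lit 293) (nat_lit 0) (cs (rf (nat_lit 49)) (cs (rf (nat_lit 4)) (cs (rf (nat_lit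 50)) (cs (rf (nat_lit 26)) (rf (nat_lit 16)))))))))))))))) q69306 (by decide +kernel)
def q72142 : Q := Q.p (nat_lit 0x900002600000000010000040000000000000000000000000000000000000000000000) (nat_lit 0xc0000f80003f0007fe000ffc001ff8036fe0011c006e7801e1c00ebf000004000000000000000000000000000000000000000) (nat_lit 14)
theorem c72142 : QOK q72142 := cut [q71566, q71738, q71781, q71807, q71893, q71923, q71945, q71997, q72022, q72068, q60708, q71751, q71854, q71964, q66782, q63708, q71921, q71456, q71906, q63452, q45149, q60327, q71441, q71455, q71457, q72084, q72088, q12751, q72093, q72102, q72104, q60492, q71454, q61983, q60326, q60786, q72141] ⟨c71566, c71738, c71781, c71807, c71893, c71923, c71945, c71997, c72022, c72068, c60708, c71751, c71854, c71964, c66782, c63708, c71921, c71456, c71906, c63452, c45149, c60327, c71441, c71455, c71457, c72084, c72088, c12751, c72093, c72102, c72104, c60492, c71454, c61983, c60326,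 c60786, c72141, trivial⟩ (nd (nat_lit 293) (nat_lit 0) (cs (rf (nat_lit 0)) (cs (rf (nat_lit 1)) (cs (rf (nat_lit 2)) (cs (rf (nat_lit 3)) (cs (rf (nat_lit 4)) (cs (rf (nat_lit 5)) (cs (rf (nat_lit 6)) (cs (rf (nat_lit 7)) (cs (rf (nat_lit 8)) (cs (rf (nat_lit 9)) (cs (nd (nat_lit 271) (nat_lit 0) (cs (rf (nat_lit 10)) (cs (rf (nat_lit 11)) (cs (rf (nat_lit 12)) (rf (nat_lit 13)))))) (cs (nd (nat_lit 209) (nat_lit 0) (cs (lf (nat_lit 44) (nat_lit 186)) (nd (nat_lit 211) (nat_lit 0) (cs (rf (nat_lit 14)) (nd (nat_lit 248) (nat_lit 0) (cs (rf (nat_lit 15)) (cs (rf (nat_lit 16)) (nd (nat_lit 273) (nat_lit 0) (cs (lf (nat_lit 19) (nat_lit 249)) (nd (nat_lit 315) (nat_lit 0) (cs (rf (nat_lit 17)) (cs (rf (nat_lit 18)) (cs (nd (nat_lit 226) (nat_lit 0) (cs (lf (nat_lit 44) (nat_lit 226)) (nd (nat_lit 292) (nat_lit 0) (cs (lf (nat_lit 26) (nat_lit 226)) (nd (nat_lit 291) (nat_lit 0) (cs (lf (nat_lit 15) (nat_lit 269))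 (nd (nat_lit 290) (nat_lit 0) (cs (lf (nat_lit 5) (nat_lit 290)) (rf (nat_lit 19)))))))))) (nd (nat_lit 294) (nat_lit 0) (cs (rf (nat_lit 20)) (nd (nat_lit 230) (nat_lit 0) (cs (lf (nat_lit 27) (nat_lit 186)) (nd (nat_lit 292) (nat_lit 0) (cs (lf (nat_lit 12) (nat_lit 269)) (nd (nat_lit 270) (nat_lit 0) (cs (lf (nat_lit 24) (nat_lit 226)) (rf (nat_lit 21))))))))))))))))))))))) (cs (nd (nat_lit 209) (nat_lit 0) (cs (lf (nat_lit 44) (nat_lit 186)) (nd (nat_lit 315) (nat_lit 0) (cs (rf (nat_lit 22)) (cs (rf (nat_lit 23)) (cs (rf (nat_lit 17)) (cs (rf (nat_lit 24)) (nd (nat_lit 211) (nat_lit 0) (cs (rf (nat_lit 14)) (nd (nat_lit 292) (nat_lit 0) (cs (rf (nat_lit 25)) (cs (rf (nat_lit 26)) (cs (nd (nat_lit 337) (nat_lit 0) (cs (nd (nat_lit 230) (nat_lit 0) (cs (lf (nat_lit 27) (nat_lit 186)) (nd (nat_lit 316) (nat_lit 0) (cs (lf (nat_lit 38) (nat_lit 249)) (nd (nat_lit 317) (nat_lit 0) (cs (lf (nat_lit 18) (nat_lit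 292)) (rf (nat_lit 27)))))))) (cs (nd (nat_lit 359) (nat_lit 0) (cs (lf (nat_lit 47) (nat_lit 270)) (lf (nat_lit 34) (nat_lit 271)))) (rf (nat_lit 28))))) (cs (rf (nat_lit 29)) (rf (nat_lit 30)))))))))))))))) (cs (nd (nat_lit 209) (nat_lit 0) (cs (lf (nat_lit 44) (nat_lit 186)) (nd (nat_lit 315) (nat_lit 0) (cs (rf (nat_lit 31)) (cs (rf (nat_lit 22)) (cs (rf (nat_lit 32)) (cs (nd (nat_lit 294) (nat_lit 0) (cs (rf (nat_lit 20)) (nd (nat_lit 295) (nat_lit 0) (cs (rf (nat_lit 33)) (cs (nd (nat_lit 273) (nat_lit 0) (cs (lf (nat_lit 19) (nat_lit 249)) (nd (nat_lit 247) (nat_lit 0) (cs (lf (nat_lit 1) (nat_lit 247)) (nd (nat_lit 292) (nat_lit 0) (cs (lf (nat_lit 12) (nat_lit 269)) (rf (nat_lit 34)))))))) (nd (nat_lit 296) (nat_lit 0) (cs (lf (nat_lit 11) (nat_lit 292)) (nd (nat_lit 318) (nat_lit 0) (cs (lf (nat_lit 5) (nat_lit 293)) (nd (nat_lit 292) (nat_lit 0) (cs (lf (nat_lit 4) (nat_lit 292)) (nd (nat_lit 273) (nat_lit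 0) (cs (lf (nat_lit 12) (nat_lit 269)) (nd (nat_lit 248) (nat_lit 0) (cs (lf (nat_lit 0) (nat_lit 247)) (nd (nat_lit 270) (nat_lit 0) (cs (lf (nat_lit 23) (nat_lit 269)) (lf (nat_lit 24) (nat_lit 226))))))))))))))))))) (nd (nat_lit 273) (nat_lit 0) (cs (lf (nat_lit 19) (nat_lit 249)) (nd (nat_lit 247) (nat_lit 0) (cs (lf (nat_lit 1) (nat_lit 247)) (rf (nat_lit 35))))))))))))) (rf (nat_lit 36))))))))))))))))) q72142 (by decide +kernel)
def q74163 : Q := Q.p (nat_lit 0x890002600000000010000040000000000000000000000000000000000000000000000) (nat_lit 0x1200007e0001ff0007f8003ff001ff80004e0011e00eefc01e7e00ebf80004e000000000000000000000000000000000000000) (nat_lit 13)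
theorem c74163 : QOK q74163 := cut [q73855, q66782, q67617, q73840, q73862, q73868, q73870, q73871, q73873, q56522, q73837, q73850, q73877, q73879, q73880, q67184, q73810, q73872, q73885, q73777, q73782, q73931, q73949, q73985, q74010, q74056, q74103, q74067, q74090, q74101, q74102, q74129, q50866, q73737, q68408, q73407, q73745, q50957, q74020, q74027, q74046, q74162] ⟨c73855, c66782, c67617, c73840, c73862, c73868, c73870, c73871, c73873, c56522, c73837, c73850, c73877, c73879, c73880, c67184, c73810, c73872, c73885, c73777, c73782, c73931, c73949, c73985, c74010, c74056, c74103, c74067, c74090, c74101, c74102, c74129, c50866, c73737, c68408, c73407, c73745, c50957, c74020, c74027, c74046, c74162, trivial⟩ (nd (nat_lit 290) (nat_lit 0) (cs (rf (nat_lit 0)) (cs (nd (nat_lit 209) (nat_lit 0) (cs (lf (nat_lit 44) (nat_lit 186)) (nd (nat_lit 211) (nat_lit 0) (cs (rf (nat_lit 1)) (cs (rf (nat_lit 2)) (nd (nat_lit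 293) (nat_lit 0) (cs (nd (nat_lit 292) (nat_lit 0) (cs (rf (nat_lit 3)) (cs (rf (nat_lit 4)) (rf (nat_lit 5))))) (cs (rf (nat_lit 6)) (cs (rf (nat_lit 7)) (cs (rf (nat_lit 8)) (cs (nd (nat_lit 292) (nat_lit 0) (cs (rf (nat_lit 9)) (cs (rf (nat_lit 10)) (cs (rf (nat_lit 3)) (rf (nat_lit 4)))))) (cs (nd (nat_lit 292) (nat_lit 0) (cs (rf (nat_lit 9)) (cs (rf (nat_lit 11)) (cs (rf (nat_lit 5)) (rf (nat_lit 12)))))) (cs (rf (nat_lit 13)) (rf (nat_lit 14))))))))))))))) (cs (nd (nat_lit 209) (nat_lit 0) (cs (lf (nat_lit 44) (nat_lit 186)) (nd (nat_lit 211) (nat_lit 0) (cs (rf (nat_lit 1)) (cs (rf (nat_lit 2)) (nd (nat_lit 293) (nat_lit 0) (cs (rf (nat_lit 6)) (cs (rf (nat_lit 7)) (cs (nd (nat_lit 315) (nat_lit 0) (cs (rf (nat_lit 15)) (cs (rf (nat_lit 16)) (rf (nat_lit 17))))) (cs (nd (nat_lit 292) (nat_lit 0) (cs (rf (nat_lit 3)) (nd (nat_lit 230) (nat_lit 0) (cs (lf (nat_lit 27) (nat_lit 186)) (rf (nat_lit 18))))))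 (nd (nat_lit 315) (nat_lit 0) (cs (rf (nat_lit 19)) (cs (rf (nat_lit 20)) (cs (rf (nat_lit 16)) (nd (nat_lit 230) (nat_lit 0) (cs (lf (nat_lit 27) (nat_lit 186)) (nd (nat_lit 314) (nat_lit 0) (cs (lf (nat_lit 41) (nat_lit 248)) (nd (nat_lit 292) (nat_lit 0) (cs (lf (nat_lit 36) (nat_lit 226)) (rf (nat_lit 18)))))))))))))))))))))) (cs (rf (nat_lit 21)) (cs (rf (nat_lit 22)) (cs (rf (nat_lit 23)) (cs (rf (nat_lit 24)) (cs (rf (nat_lit 25)) (cs (nd (nat_lit 209) (nat_lit 0) (cs (lf (nat_lit 44) (nat_lit 186)) (nd (nat_lit 211) (nat_lit 0) (cs (rf (nat_lit 1)) (rf (nat_lit 26)))))) (cs (nd (nat_lit 209) (nat_lit 0) (cs (lf (nat_lit 44) (nat_lit 186)) (nd (nat_lit 211) (nat_lit 0) (cs (rf (nat_lit 1)) (nd (nat_lit 312) (nat_lit 0) (cs (rf (nat_lit 27)) (cs (rf (nat_lit 28)) (cs (rf (nat_lit 29)) (cs (rf (nat_lit 30)) (cs (rf (nat_lit 31)) (cs (nd (nat_lit 246) (nat_lit 0) (cs (rf (nat_lit 32)) (cs (rf (nat_lit 33))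 (nd (nat_lit 293) (nat_lit 0) (cs (nd (nat_lit 245) (nat_lit 0) (cs (lf (nat_lit 47) (nat_lit 223)) (nd (nat_lit 247) (nat_lit 0) (cs (lf (nat_lit 35) (nat_lit 224)) (nd (nat_lit 248) (nat_lit 0) (cs (lf (nat_lit 11) (nat_lit 245)) (nd (nat_lit 226) (nat_lit 0) (cs (lf (nat_lit 42) (nat_lit 226)) (lf (nat_lit 17) (nat_lit 223)))))))))) (nd (nat_lit 230) (nat_lit 0) (cs (lf (nat_lit 27) (nat_lit 186)) (rf (nat_lit 34))))))))) (cs (nd (nat_lit 246) (nat_lit 0) (cs (rf (nat_lit 35)) (cs (rf (nat_lit 33)) (rf (nat_lit 36))))) (nd (nat_lit 246) (nat_lit 0) (cs (rf (nat_lit 37)) (cs (rf (nat_lit 38)) (cs (rf (nat_lit 39)) (rf (nat_lit 40)))))))))))))))))) (rf (nat_lit 41))))))))))))) q74163 (by decide +kernel)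
def q78518 : Q := Q.p (nat_lit 0x880002600000000010000040000000000000000000000000000000000000000000000) (nat_lit 0x150001fe000ffc001ef80077f0011fc0eeff01e7fc0ebff000ffc007ff000ffc003f80001e00000000000000000) (nat_lit 14)
theorem c78518 : QOK q78518 := cut [q72393, q72396, q75334, q75335, q76231, q77629, q78023, q78042, q77716, q77729, q77738, q77718, q77735, q75372, q57500, q63766, q68600, q73417, q78057, q78062, q78064, q45756, q47435, q45757, q78075, q78078, q78080, q78161, q78189, q78514, q72395, q63759, q63832] ⟨c72393, c72396, c75334, c75335, c76231, c77629, c78023, c78042, c77716, c77729, c77738, c77718, c77735, c75372, c57500, c63766, c68600, c73417, c78057, c78062, c78064, c45756, c47435, c45757, c78075, c78078, c78080, c78161, c78189, c78514, c72395, c63759, c63832, trivial⟩ (nd (nat_lit 224) (nat_lit 0) (cs (nd (nat_lit 248) (nat_lit 0) (cs (rf (nat_lit 0)) (cs (rf (nat_lit 1)) (cs (rf (nat_lit 2)) (nd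 (nat_lit 230) (nat_lit 0) (cs (lf (nat_lit 27) (nat_lit 186)) (rf (nat_lit 3)))))))) (cs (rf (nat_lit 4)) (cs (rf (nat_lit 5)) (cs (rf (nat_lit 6)) (cs (rf (nat_lit 7)) (cs (nd (nat_lit 209) (nat_lit 0) (cs (lf (nat_lit 44) (nat_lit 186)) (nd (nat_lit 226) (nat_lit 0) (cs (rf (nat_lit 8)) (cs (rf (nat_lit 9)) (cs (rf (nat_lit 10)) (cs (nd (nat_lit 204) (nat_lit 0) (cs (rf (nat_lit 11)) (cs (rf (nat_lit 12)) (cs (nd (nat_lit 230) (nat_lit 0) (cs (lf (nat_lit 27) (nat_lit 186)) (nd (nat_lit 293) (nat_lit 0) (cs (lf (nat_lit 45) (nat_lit 204)) (rf (nat_lit 13)))))) (nd (nat_lit 227) (nat_lit 0) (cs (lf (nat_lit 42) (nat_lit 204)) (rf (nat_lit 14)))))))) (nd (nat_lit 248) (nat_lit 0) (cs (rf (nat_lit 15)) (rf (nat_lit 16))))))))))) (cs (nd (nat_lit 247) (nat_lit 0) (cs (nd (nat_lit 269) (nat_lit 0) (cs (rf (nat_lit 17)) (cs (nd (nat_lit 209) (nat_lit 0) (cs (lf (nat_lit 44) (nat_lit 186)) (rf (nat_lit 18)))) (nd (nat_lit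 202) (nat_lit 0) (cs (nd (nat_lit 230) (nat_lit 0) (cs (lf (nat_lit 27) (nat_lit 186)) (rf (nat_lit 19)))) (cs (nd (nat_lit 180) (nat_lit 0) (cs (lf (nat_lit 27) (nat_lit 180)) (rf (nat_lit 20)))) (nd (nat_lit 209) (nat_lit 0) (cs (lf (nat_lit 44) (nat_lit 186)) (nd (nat_lit 225) (nat_lit 0) (cs (lf (nat_lit 42) (nat_lit 202)) (rf (nat_lit 21)))))))))))) (cs (nd (nat_lit 269) (nat_lit 0) (cs (rf (nat_lit 22)) (cs (rf (nat_lit 18)) (nd (nat_lit 230) (nat_lit 0) (cs (lf (nat_lit 27) (nat_lit 186)) (nd (nat_lit 225) (nat_lit 0) (cs (rf (nat_lit 23)) (lf (nat_lit 20) (nat_lit 224))))))))) (cs (nd (nat_lit 209) (nat_lit 0) (cs (lf (nat_lit 44) (nat_lit 186)) (rf (nat_lit 24)))) (cs (rf (nat_lit 25)) (rf (nat_lit 26))))))) (cs (rf (nat_lit 27)) (cs (rf (nat_lit 28)) (cs (rf (nat_lit 29)) (nd (nat_lit 209) (nat_lit 0) (cs (lf (nat_lit 44) (nat_lit 186)) (nd (nat_lit 248) (nat_lit 0) (cs (rf (nat_lit 30)) (cs (rf (nat_lit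 2)) (cs (rf (nat_lit 3)) (nd (nat_lit 226) (nat_lit 0) (cs (rf (nat_lit 31)) (rf (nat_lit 32))))))))))))))))))))) q78518 (by decide +kernel)
def q79003 : Q := Q.p (nat_lit 0x2000000000010000000000000000000000000000000000000000000000000000) (nat_lit 0x200003e0007f80019e000ff0007ee003fff003ff8007ff000ff8000f8000380000a0000000000000) (nat_lit 17)
theorem c79003 : QOK q79003 := cut [q516, q8, q26, q30, q32043, q416, q424, q430, q280, q360, q39, q204, q78840, q210, q225, q231, q259, q261, q242, q75, q78839, q78872, q4580, q78881, q7908, q7801, q294, q78899, q17, q367, q371, q78905, q35, q78912, q78919, q9703, q78994, q517, q614, q631, q78986, q78995, q21, q639, q438, q3194, q78935, q6133] ⟨c516, c8, c26, c30, c32043, c416, c424, c430, c280, c360, c39, c204, c78840, c210, c225, c231, c259, c261, c242, c75, c78839, c78872, c4580, c78881, c7908, c7801, c294, c78899, c17, c367, c371, c78905, c35, c78912, c78919, c9703,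 c78994, c517, c614, c631, c78986, c78995, c21, c639, c438, c3194, c78935, c6133, trivial⟩ (nd (nat_lit 186) (nat_lit 0) (cs (rf (nat_lit 0)) (cs (nd (nat_lit 230) (nat_lit 0) (cs (rf (nat_lit 1)) (cs (rf (nat_lit 2)) (cs (rf (nat_lit 3)) (rf (nat_lit 4)))))) (cs (nd (nat_lit 252) (nat_lit 0) (cs (rf (nat_lit 5)) (cs (rf (nat_lit 6)) (cs (rf (nat_lit 7)) (cs (nd (nat_lit 209) (nat_lit 0) (cs (rf (nat_lit 8)) (cs (rf (nat_lit 9)) (cs (nd (nat_lit 210) (nat_lit 0) (cs (rf (nat_lit 10)) (cs (rf (nat_lit 11)) (cs (rf (nat_lit 12)) (nd (nat_lit 211) (nat_lit 0) (cs (rf (nat_lit 13)) (cs (rf (nat_lit 14)) (cs (rf (nat_lit 15)) (cs (rf (nat_lit 16)) (cs (rf (nat_lit 17)) (nd (nat_lit 275) (nat_lit 0) (cs (lf (nat_lit 44) (nat_lit 186)) (nd (nat_lit 233) (nat_lit 0) (cs (lf (nat_lit 5) (nat_lit 208)) (nd (nat_lit 207) (nat_lit 0) (cs (lf (nat_lit 4) (nat_lit 207)) (nd (nat_lit 228) (nat_lit 0) (cs (lf (nat_lit 10) (nat_lit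 206)) (rf (nat_lit 18)))))))))))))))))))) (cs (nd (nat_lit 210) (nat_lit 0) (cs (rf (nat_lit 10)) (cs (rf (nat_lit 19)) (cs (nd (nat_lit 207) (nat_lit 0) (cs (rf (nat_lit 20)) (cs (rf (nat_lit 21)) (nd (nat_lit 188) (nat_lit 0) (cs (lf (nat_lit 17) (nat_lit 185)) (nd (nat_lit 187) (nat_lit 0) (cs (lf (nat_lit 12) (nat_lit 184)) (nd (nat_lit 185) (nat_lit 0) (cs (lf (nat_lit 0) (nat_lit 184)) (nd (nat_lit 232) (nat_lit 0) (cs (lf (nat_lit 5) (nat_lit 207)) (rf (nat_lit 22))))))))))))) (rf (nat_lit 23)))))) (cs (nd (nat_lit 231) (nat_lit 0) (cs (lf (nat_lit 42) (nat_lit 186)) (nd (nat_lit 187) (nat_lit 0) (cs (lf (nat_lit 41) (nat_lit 186)) (nd (nat_lit 210) (nat_lit 0) (cs (rf (nat_lit 19)) (cs (rf (nat_lit 24)) (nd (nat_lit 207) (nat_lit 0) (cs (rf (nat_lit 25)) (cs (nd (nat_lit 184) (nat_lit 0) (cs (rf (nat_lit 26)) (lf (nat_lit 1) (nat_lit 184)))) (nd (nat_lit 228) (nat_lit 0) (cs (lf (nat_lit 10) (nat_lit 206))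 (nd (nat_lit 184) (nat_lit 0) (cs (lf (nat_lit 1) (nat_lit 184)) (nd (nat_lit 206) (nat_lit 0) (cs (lf (nat_lit 12) (nat_lit 183)) (lf (nat_lit 23) (nat_lit 183)))))))))))))))))) (cs (rf (nat_lit 27)) (nd (nat_lit 210) (nat_lit 0) (cs (rf (nat_lit 10)) (cs (rf (nat_lit 11)) (cs (rf (nat_lit 12)) (rf (nat_lit 23))))))))))))) (cs (nd (nat_lit 230) (nat_lit 0) (cs (rf (nat_lit 28)) (cs (rf (nat_lit 29)) (cs (rf (nat_lit 30)) (rf (nat_lit 31)))))) (nd (nat_lit 230) (nat_lit 0) (cs (lf (nat_lit 29) (nat_lit 186)) (rf (nat_lit 31)))))))))) (cs (nd (nat_lit 209) (nat_lit 0) (cs (rf (nat_lit 32)) (cs (rf (nat_lit 27)) (cs (rf (nat_lit 33)) (cs (rf (nat_lit 34)) (nd (nat_lit 231) (nat_lit 0) (cs (lf (nat_lit 42) (nat_lit 186)) (rf (nat_lit 35))))))))) (cs (rf (nat_lit 36)) (cs (nd (nat_lit 164) (nat_lit 0) (cs (rf (nat_lit 37)) (cs (rf (nat_lit 38)) (cs (rf (nat_lit 39)) (cs (rf (nat_lit 40)) (nd (nat_lit 230) (nat_lit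 0) (cs (lf (nat_lit 28) (nat_lit 164)) (rf (nat_lit 41))))))))) (cs (nd (nat_lit 230) (nat_lit 0) (cs (rf (nat_lit 42)) (cs (rf (nat_lit 43)) (nd (nat_lit 164) (nat_lit 0) (cs (lf (nat_lit 28) (nat_lit 164)) (rf (nat_lit 41))))))) (cs (nd (nat_lit 230) (nat_lit 0) (cs (rf (nat_lit 1)) (cs (rf (nat_lit 44)) (rf (nat_lit 43))))) (nd (nat_lit 164) (nat_lit 0) (cs (rf (nat_lit 37)) (cs (rf (nat_lit 45)) (cs (rf (nat_lit 46)) (nd (nat_lit 209) (nat_lit 0) (cs (rf (nat_lit 47)) (cs (rf (nat_lit 33)) (rf (nat_lit 34)))))))))))))))))) q79003 (by decide +kernel)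
def q80389 : Q := Q.p (nat_lit 0x6000000000000000000000000000000000000000000000000000000000000000) (nat_lit 0x80000e00003e0003fc000ff80031c003ff801ffc003ff0007f80007800016000008000000000000000000000000) (nat_lit 17)
theorem c80389 : QOK q80389 := cut [q79598, q79989, q80061, q80187, q80242, q80275, q79123, q79128, q79160, q79913, q79590, q79753, q79967, q80278, q80303, q79118, q79165, q79734, q79739, q80301, q79771, q80304, q79422, q79765, q80313, q79442, q79181, q80206, q80216, q80232, q80310, q80324, q80328, q80331, q80339, q80344, q79800, q79867, q79876, q80348, q80363, q80385, q79964, q80388] ⟨c79598, c79989, c80061, c80187, c80242, c80275, c79123, c79128, c79160, c79913, c79590, c79753, c79967, c80278, c80303, c79118, c79165, c79734, c79739, c80301, c79771, c80304, c79422, c79765, c80313, c79442, c79181, c80206, c80216, c80232, c80310, c80324, c80328, c80331, c80339, c80344, c79800, c79867, c79876, c80348,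 c80363, c80385, c79964, c80388, trivial⟩ (nd (nat_lit 232) (nat_lit 0) (cs (rf (nat_lit 0)) (cs (rf (nat_lit 1)) (cs (rf (nat_lit 2)) (cs (rf (nat_lit 3)) (cs (rf (nat_lit 4)) (cs (rf (nat_lit 5)) (cs (nd (nat_lit 210) (nat_lit 0) (cs (rf (nat_lit 6)) (cs (rf (nat_lit 7)) (cs (rf (nat_lit 8)) (cs (rf (nat_lit 9)) (nd (nat_lit 276) (nat_lit 0) (cs (rf (nat_lit 10)) (cs (rf (nat_lit 11)) (cs (rf (nat_lit 12)) (nd (nat_lit 187) (nat_lit 0) (cs (lf (nat_lit 46) (nat_lit 187)) (nd (nat_lit 189) (nat_lit 0) (cs (lf (nat_lit 34) (nat_lit 188)) (rf (nat_lit 13))))))))))))))) (cs (rf (nat_lit 14)) (cs (nd (nat_lit 252) (nat_lit 0) (cs (rf (nat_lit 15)) (cs (rf (nat_lit 16)) (cs (nd (nat_lit 275) (nat_lit 0) (cs (rf (nat_lit 17)) (cs (rf (nat_lit 18)) (cs (rf (nat_lit 19)) (cs (nd (nat_lit 276) (nat_lit 0) (cs (rf (nat_lit 20)) (cs (rf (nat_lit 21)) (nd (nat_lit 298) (nat_lit 0) (cs (rf (nat_lit 22)) (cs (rf (nat_lit 23))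 (nd (nat_lit 277) (nat_lit 0) (cs (lf (nat_lit 18) (nat_lit 252)) (rf (nat_lit 24)))))))))) (nd (nat_lit 276) (nat_lit 0) (cs (rf (nat_lit 21)) (cs (nd (nat_lit 277) (nat_lit 0) (cs (lf (nat_lit 18) (nat_lit 252)) (nd (nat_lit 299) (nat_lit 0) (cs (lf (nat_lit 24) (nat_lit 210)) (nd (nat_lit 321) (nat_lit 0) (cs (lf (nat_lit 42) (nat_lit 254)) (nd (nat_lit 274) (nat_lit 0) (cs (lf (nat_lit 5) (nat_lit 274)) (rf (nat_lit 25)))))))))) (cs (nd (nat_lit 231) (nat_lit 0) (cs (rf (nat_lit 26)) (cs (nd (nat_lit 230) (nat_lit 0) (cs (rf (nat_lit 27)) (cs (rf (nat_lit 28)) (rf (nat_lit 29))))) (rf (nat_lit 30))))) (nd (nat_lit 231) (nat_lit 0) (cs (rf (nat_lit 26)) (cs (rf (nat_lit 30)) (rf (nat_lit 31)))))))))))))) (nd (nat_lit 276) (nat_lit 0) (cs (nd (nat_lit 251) (nat_lit 0) (cs (lf (nat_lit 5) (nat_lit 251)) (rf (nat_lit 32)))) (cs (nd (nat_lit 251) (nat_lit 0) (cs (lf (nat_lit 5) (nat_lit 251)) (rf (nat_lit 33))))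 (cs (rf (nat_lit 34)) (rf (nat_lit 35)))))))))) (cs (nd (nat_lit 210) (nat_lit 0) (cs (rf (nat_lit 6)) (cs (rf (nat_lit 7)) (cs (rf (nat_lit 8)) (cs (rf (nat_lit 9)) (nd (nat_lit 211) (nat_lit 0) (cs (rf (nat_lit 36)) (cs (rf (nat_lit 37)) (cs (rf (nat_lit 38)) (nd (nat_lit 276) (nat_lit 0) (cs (lf (nat_lit 35) (nat_lit 188)) (rf (nat_lit 39))))))))))))) (cs (rf (nat_lit 40)) (cs (rf (nat_lit 41)) (cs (nd (nat_lit 210) (nat_lit 0) (cs (rf (nat_lit 6)) (cs (rf (nat_lit 8)) (cs (rf (nat_lit 9)) (rf (nat_lit 42)))))) (rf (nat_lit 43)))))))))))))))) q80389 (by decide +kernel)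
def q83609 : Q := Q.p (nat_lit 0x3800000000000000000000000000000000000000000000000000000000000000) (nat_lit 0xa0002b8000ff8003fc007ffc00ffe001ffc006de001c78007be001ffe007ff001ffc003fe000ff0003bc00005000000000000000000) (nat_lit 18)
theorem c83609 : QOK q83609 := cut [q2623, q82718, q83171, q83317, q11483, q83440, q83551, q83579, q83580, q83322] ⟨c2623, c82718, c83171, c83317, c11483, c83440, c83551, c83579, c83580, c83322, trivial⟩ (nd (nat_lit 250) (nat_lit 0) (cs (rf (nat_lit 0)) (cs (rf (nat_lit 1)) (cs (rf (nat_lit 2)) (nd (nat_lit 185) (nat_lit 0) (cs (rf (nat_lit 3)) (cs (nd (nat_lit 232) (nat_lit 0) (cs (lf (nat_lit 16) (nat_lit 228)) (nd (nat_lit 254) (nat_lit 0) (cs (lf (nat_lit 17) (nat_lit 229)) (nd (nat_lit 229) (nat_lit 0) (cs (lf (nat_lit 23) (nat_lit 228)) (nd (nat_lit 207) (nat_lit 0) (cs (lf (nat_lit 29) (nat_lit 185)) (rf (nat_lit 4)))))))))) (cs (rf (nat_lit 5)) (cs (nd (nat_lit 271) (nat_lit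 0) (cs (lf (nat_lit 10) (nat_lit 249)) (nd (nat_lit 249) (nat_lit 0) (cs (lf (nat_lit 11) (nat_lit 248)) (rf (nat_lit 6)))))) (cs (rf (nat_lit 7)) (cs (nd (nat_lit 272) (nat_lit 0) (cs (lf (nat_lit 11) (nat_lit 249)) (nd (nat_lit 231) (nat_lit 0) (cs (lf (nat_lit 17) (nat_lit 228)) (nd (nat_lit 187) (nat_lit 0) (cs (nd (nat_lit 207) (nat_lit 0) (cs (lf (nat_lit 38) (nat_lit 184)) (nd (nat_lit 206) (nat_lit 0) (cs (lf (nat_lit 32) (nat_lit 184)) (nd (nat_lit 209) (nat_lit 0) (cs (lf (nat_lit 41) (nat_lit 186)) (rf (nat_lit 8)))))))) (cs (nd (nat_lit 207) (nat_lit 0) (cs (lf (nat_lit 38) (nat_lit 184)) (nd (nat_lit 206) (nat_lit 0) (cs (lf (nat_lit 32) (nat_lit 184)) (nd (nat_lit 186) (nat_lit 0) (cs (lf (nat_lit 6) (nat_lit 184)) (rf (nat_lit 9)))))))) (cs (nd (nat_lit 209) (nat_lit 0) (cs (lf (nat_lit 41) (nat_lit 186)) (nd (nat_lit 166) (nat_lit 0) (cs (lf (nat_lit 34) (nat_lit 165)) (nd (nat_lit 144) (nat_lit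 0) (cs (lf (nat_lit 33) (nat_lit 143)) (nd (nat_lit 186) (nat_lit 0) (cs (lf (nat_lit 47) (nat_lit 164)) (nd (nat_lit 184) (nat_lit 0) (cs (lf (nat_lit 5) (nat_lit 184)) (nd (nat_lit 208) (nat_lit 0) (cs (lf (nat_lit 0) (nat_lit 183)) (lf (nat_lit 42) (nat_lit 186)))))))))))))) (nd (nat_lit 207) (nat_lit 0) (cs (lf (nat_lit 38) (nat_lit 184)) (nd (nat_lit 206) (nat_lit 0) (cs (lf (nat_lit 32) (nat_lit 184)) (nd (nat_lit 209) (nat_lit 0) (cs (lf (nat_lit 41) (nat_lit 186)) (nd (nat_lit 164) (nat_lit 0) (cs (lf (nat_lit 46) (nat_lit 164)) (nd (nat_lit 165) (nat_lit 0) (cs (lf (nat_lit 47) (nat_lit 142)) (nd (nat_lit 166) (nat_lit 0) (cs (lf (nat_lit 35) (nat_lit 143)) (nd (nat_lit 184) (nat_lit 0) (cs (lf (nat_lit 9) (nat_lit 162)) (nd (nat_lit 208) (nat_lit 0) (cs (lf (nat_lit 23) (nat_lit 183)) (lf (nat_lit 18) (nat_lit 184)))))))))))))))))))))))))) (nd (nat_lit 272) (nat_lit 0) (cs (lf (nat_lit 11) (nat_lit 249))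 (nd (nat_lit 232) (nat_lit 0) (cs (lf (nat_lit 16) (nat_lit 228)) (nd (nat_lit 254) (nat_lit 0) (cs (lf (nat_lit 17) (nat_lit 229)) (nd (nat_lit 229) (nat_lit 0) (cs (lf (nat_lit 37) (nat_lit 184)) (lf (nat_lit 23) (nat_lit 228))))))))))))))))))))) q83609 (by decide +kernel)
def q86698 : Q := Q.p (nat_lit 0x3000000000000000000000000000000000000000000000000000000000000000) (nat_lit 0x288000fe0007f8001ffc007fe001ffc01efe007cf80ffde03fffc0fffe007ffc00ffe003ff80078e00002800000000000000000) (nat_lit 19)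
theorem c86698 : QOK q86698 := cut [q84074, q85748, q86260, q86311, q80881, q86317, q82283, q84613, q81545, q86394, q86426, q86430, q86433, q11506, q25883, q86434, q86437, q86441, q14914, q25851, q83984, q86325, q79167, q86570, q86601, q86645, q86667, q86697] ⟨c84074, c85748, c86260, c86311, c80881, c86317, c82283, c84613, c81545, c86394, c86426, c86430, c86433, c11506, c25883, c86434, c86437, c86441, c14914, c25851, c83984, c86325, c79167, c86570, c86601, c86645, c86667, c86697, trivial⟩ (nd (nat_lit 274) (nat_lit 0) (cs (rf (nat_lit 0)) (cs (rf (nat_lit 1)) (cs (rf (nat_lit 2)) (cs (rf (nat_lit 3)) (cs (nd (nat_lit 275) (nat_lit 0) (cs (nd (nat_lit 231) (nat_lit 0) (cs (rf (nat_lit 4)) (cs (rf (nat_lit 5)) (nd (nat_lit 297) (nat_lit 0) (cs (rf (nat_lit 6)) (cs (rf (nat_lit 7)) (nd (nat_lit 296) (nat_lit 0) (cs (lf (nat_lit 30) (nat_lit 230)) (nd (nat_lit 298) (nat_lit 0) (cs (lf (nat_lit 29) (nat_lit 231)) (nd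 (nat_lit 299) (nat_lit 0) (cs (lf (nat_lit 18) (nat_lit 274)) (nd (nat_lit 321) (nat_lit 0) (cs (lf (nat_lit 5) (nat_lit 296)) (nd (nat_lit 277) (nat_lit 0) (cs (lf (nat_lit 17) (nat_lit 274)) (nd (nat_lit 232) (nat_lit 0) (cs (lf (nat_lit 35) (nat_lit 209)) (nd (nat_lit 254) (nat_lit 0) (cs (lf (nat_lit 45) (nat_lit 232)) (rf (nat_lit 8)))))))))))))))))))))) (cs (rf (nat_lit 9)) (cs (rf (nat_lit 10)) (cs (nd (nat_lit 297) (nat_lit 0) (cs (rf (nat_lit 11)) (cs (rf (nat_lit 12)) (cs (nd (nat_lit 296) (nat_lit 0) (cs (rf (nat_lit 13)) (cs (rf (nat_lit 14)) (rf (nat_lit 15))))) (cs (nd (nat_lit 319) (nat_lit 0) (cs (lf (nat_lit 42) (nat_lit 252)) (nd (nat_lit 318) (nat_lit 0) (cs (lf (nat_lit 41) (nat_lit 252)) (nd (nat_lit 296) (nat_lit 0) (cs (lf (nat_lit 35) (nat_lit 230)) (rf (nat_lit 16)))))))) (cs (nd (nat_lit 319) (nat_lit 0) (cs (lf (nat_lit 42) (nat_lit 252)) (nd (nat_lit 318) (nat_lit 0) (cs (lf (nat_lit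 41) (nat_lit 252)) (rf (nat_lit 17)))))) (nd (nat_lit 296) (nat_lit 0) (cs (rf (nat_lit 18)) (cs (rf (nat_lit 19)) (cs (rf (nat_lit 14)) (nd (nat_lit 319) (nat_lit 0) (cs (lf (nat_lit 42) (nat_lit 252)) (nd (nat_lit 318) (nat_lit 0) (cs (lf (nat_lit 30) (nat_lit 252)) (rf (nat_lit 16)))))))))))))))) (nd (nat_lit 254) (nat_lit 0) (cs (rf (nat_lit 20)) (cs (rf (nat_lit 21)) (nd (nat_lit 255) (nat_lit 0) (cs (lf (nat_lit 6) (nat_lit 252)) (nd (nat_lit 277) (nat_lit 0) (cs (lf (nat_lit 5) (nat_lit 252)) (nd (nat_lit 233) (nat_lit 0) (cs (lf (nat_lit 17) (nat_lit 230)) (nd (nat_lit 232) (nat_lit 0) (cs (lf (nat_lit 12) (nat_lit 229)) (nd (nat_lit 210) (nat_lit 0) (cs (rf (nat_lit 22)) (lf (nat_lit 24) (nat_lit 188)))))))))))))))))))) (cs (rf (nat_lit 23)) (cs (rf (nat_lit 24)) (cs (rf (nat_lit 25)) (cs (rf (nat_lit 26)) (rf (nat_lit 27)))))))))))) q86698 (by decide +kernel)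
def q87125 : Q := Q.p (nat_lit 0x3000000000000000000000000000000000000000000000000000000000000000) (nat_lit 0x280000f0001fc0007f8003ff800efc003cf001fee00fff001ff8003ff000fe0000f000000000000000000000000000000) (nat_lit 19)
theorem c87125 : QOK q87125 := cut [q84990, q86836, q82275, q82278, q82297, q85496, q85521, q86313, q86631, q86864, q84439, q84442, q84453, q86930, q86932, q86952, q87015, q87048, q87063, q82300, q82301, q82309, q84332, q1563, q85065, q11001, q11053, q85001, q85212, q87100, q86823, q82302, q82350, q17544, q86638, q7464, q84298, q84304, q84315, q84324, q84555, q102, q84319, q86796, q87053, q84608, q13430, q87115, q84626] ⟨c84990, c86836, c82275, c82278, c82297, c85496, c85521, c86313, c86631, c86864, c84439, c84442, c84453, c86930, c86932, c86952, c87015, c87048, c87063, c82300, c82301, c82309, c84332, c1563, c85065, c11001, c11053, c85001, c85212, c87100, c86823, c82302, c82350, c17544, c86638,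 c7464, c84298, c84304, c84315, c84324, c84555, c102, c84319, c86796, c87053, c84608, c13430, c87115, c84626, trivial⟩ (nd (nat_lit 231) (nat_lit 0) (cs (rf (nat_lit 0)) (cs (rf (nat_lit 1)) (cs (nd (nat_lit 251) (nat_lit 0) (cs (rf (nat_lit 2)) (cs (rf (nat_lit 3)) (cs (rf (nat_lit 4)) (cs (rf (nat_lit 5)) (rf (nat_lit 6))))))) (cs (nd (nat_lit 232) (nat_lit 0) (cs (rf (nat_lit 7)) (cs (rf (nat_lit 8)) (cs (rf (nat_lit 9)) (nd (nat_lit 230) (nat_lit 0) (cs (rf (nat_lit 10)) (cs (rf (nat_lit 11)) (rf (nat_lit 12))))))))) (cs (rf (nat_lit 13)) (cs (nd (nat_lit 232) (nat_lit 0) (cs (rf (nat_lit 7)) (cs (rf (nat_lit 8)) (cs (rf (nat_lit 9)) (rf (nat_lit 14)))))) (cs (rf (nat_lit 15)) (cs (rf (nat_lit 16)) (cs (rf (nat_lit 17)) (cs (rf (nat_lit 18)) (cs (nd (nat_lit 209) (nat_lit 0) (cs (rf (nat_lit 19)) (cs (rf (nat_lit 20)) (cs (rf (nat_lit 21)) (cs (rf (nat_lit 22)) (nd (nat_lit 208) (nat_lit 0) (cs (rf (nat_lit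 23)) (cs (rf (nat_lit 24)) (cs (nd (nat_lit 230) (nat_lit 0) (cs (rf (nat_lit 25)) (cs (rf (nat_lit 26)) (rf (nat_lit 27))))) (nd (nat_lit 230) (nat_lit 0) (cs (rf (nat_lit 25)) (rf (nat_lit 28))))))))))))) (cs (rf (nat_lit 29)) (cs (nd (nat_lit 209) (nat_lit 0) (cs (rf (nat_lit 19)) (cs (rf (nat_lit 20)) (cs (rf (nat_lit 21)) (cs (rf (nat_lit 22)) (nd (nat_lit 232) (nat_lit 0) (cs (rf (nat_lit 7)) (cs (rf (nat_lit 30)) (nd (nat_lit 275) (nat_lit 0) (cs (rf (nat_lit 31)) (cs (rf (nat_lit 32)) (nd (nat_lit 274) (nat_lit 0) (cs (rf (nat_lit 33)) (rf (nat_lit 34))))))))))))))) (cs (nd (nat_lit 209) (nat_lit 0) (cs (rf (nat_lit 19)) (cs (rf (nat_lit 20)) (cs (rf (nat_lit 21)) (cs (rf (nat_lit 22)) (nd (nat_lit 210) (nat_lit 0) (cs (rf (nat_lit 35)) (cs (rf (nat_lit 36)) (cs (nd (nat_lit 211) (nat_lit 0) (cs (rf (nat_lit 37)) (cs (rf (nat_lit 38)) (cs (rf (nat_lit 39)) (cs (rf (nat_lit 40)) (nd (nat_lit 208) (nat_lit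 0) (cs (rf (nat_lit 41)) (rf (nat_lit 42))))))))) (nd (nat_lit 232) (nat_lit 0) (cs (rf (nat_lit 7)) (cs (rf (nat_lit 43)) (rf (nat_lit 44)))))))))))))) (cs (nd (nat_lit 209) (nat_lit 0) (cs (rf (nat_lit 19)) (cs (rf (nat_lit 20)) (cs (rf (nat_lit 21)) (cs (rf (nat_lit 45)) (nd (nat_lit 232) (nat_lit 0) (cs (rf (nat_lit 7)) (cs (rf (nat_lit 30)) (nd (nat_lit 275) (nat_lit 0) (cs (rf (nat_lit 31)) (cs (rf (nat_lit 32)) (nd (nat_lit 230) (nat_lit 0) (cs (nd (nat_lit 208) (nat_lit 0) (cs (lf (nat_lit 47) (nat_lit 186)) (nd (nat_lit 206) (nat_lit 0) (cs (lf (nat_lit 1) (nat_lit 206)) (nd (nat_lit 250) (nat_lit 0) (cs (lf (nat_lit 13) (nat_lit 228)) (nd (nat_lit 274) (nat_lit 0) (cs (lf (nat_lit 30) (nat_lit 208)) (rf (nat_lit 46)))))))))) (rf (nat_lit 47))))))))))))))) (nd (nat_lit 209) (nat_lit 0) (cs (rf (nat_lit 19)) (cs (rf (nat_lit 20)) (cs (rf (nat_lit 21)) (cs (rf (nat_lit 22)) (nd (nat_lit 232) (nat_lit 0)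 (cs (rf (nat_lit 7)) (cs (rf (nat_lit 8)) (nd (nat_lit 275) (nat_lit 0) (cs (rf (nat_lit 31)) (cs (rf (nat_lit 32)) (nd (nat_lit 274) (nat_lit 0) (cs (rf (nat_lit 33)) (nd (nat_lit 230) (nat_lit 0) (cs (rf (nat_lit 48)) (rf (nat_lit 47))))))))))))))))))))))))))))))))) q87125 (by decide +kernel)
def q87392 : Q := Q.p (nat_lit 0x3000000000000000000000000000000000000000000000000000000000000000) (nat_lit 0x80000380004e0001ff0007fc001fe001eee007cf80fffe03fffc0fffe007ffc00ffe003ff80050e00002800000000000000000) (nat_lit 19)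
theorem c87392 : QOK q87392 := cut [q83960, q86260, q87302, q87343, q81014, q83915, q83724, q87350, q87354, q87363, q81320, q82288, q82291, q87377, q87385, q80649, q83838, q87372, q87386, q81787, q86011] ⟨c83960, c86260, c87302, c87343, c81014, c83915, c83724, c87350, c87354, c87363, c81320, c82288, c82291, c87377, c87385, c80649, c83838, c87372, c87386, c81787, c86011, trivial⟩ (nd (nat_lit 274) (nat_lit 0) (cs (rf (nat_lit 0)) (cs (rf (nat_lit 1)) (cs (rf (nat_lit 2)) (cs (rf (nat_lit 3)) (cs (nd (nat_lit 296) (nat_lit 0) (cs (rf (nat_lit 4)) (cs (rf (nat_lit 5)) (nd (nat_lit 230) (nat_lit 0) (cs (rf (nat_lit 6)) (cs (rf (nat_lit 7)) (cs (rf (nat_lit 8)) (rf (nat_lit 9))))))))) (cs (nd (nat_lit 296) (nat_lit 0) (cs (rf (nat_lit 4)) (cs (rf (nat_lit 5)) (nd (nat_lit 230) (nat_lit 0) (cs (rf (nat_lit 10)) (cs (rf (nat_lit 11)) (cs (rf (nat_lit 12)) (rf (nat_lit 8))))))))) (cs (rf (nat_lit 13)) (cs (rf (nat_lit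 14)) (cs (nd (nat_lit 296) (nat_lit 0) (cs (rf (nat_lit 15)) (cs (rf (nat_lit 16)) (cs (rf (nat_lit 17)) (rf (nat_lit 18)))))) (cs (nd (nat_lit 296) (nat_lit 0) (cs (rf (nat_lit 4)) (cs (rf (nat_lit 5)) (nd (nat_lit 230) (nat_lit 0) (cs (rf (nat_lit 10)) (cs (rf (nat_lit 11)) (cs (rf (nat_lit 12)) (rf (nat_lit 9))))))))) (nd (nat_lit 296) (nat_lit 0) (cs (rf (nat_lit 4)) (cs (rf (nat_lit 5)) (nd (nat_lit 230) (nat_lit 0) (cs (rf (nat_lit 19)) (cs (rf (nat_lit 11)) (cs (rf (nat_lit 20)) (rf (nat_lit 7)))))))))))))))))))) q87392 (by decide +kernel)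
def q87806 : Q := Q.p (nat_lit 0x3000000000000000000000000000000000000000000000000000000000000000) (nat_lit 0x280000e0000380001f8000be000edc001cf000ffe007ff000ffe007fe0007f0000a800000000000000000000000000000) (nat_lit 19)
theorem c87806 : QOK q87806 := cut [q87414, q87427, q87457, q83712, q87145, q87161, q80983, q87228, q80982, q87227, q87458, q87462, q79118, q85434, q87469, q87473, q83719, q83728, q87479, q6259, q79029, q79066, q87244, q10803, q87498, q85212, q82344, q86313, q86958, q84155, q87416, q87424, q1411, q82213, q87574, q87597, q87630, q87675, q87696, q87717, q87769, q87778, q87779, q87394, q87534, q87629, q87804, q87582] ⟨c87414, c87427, c87457, c83712, c87145, c87161, c80983, c87228, c80982, c87227, c87458, c87462, c79118, c85434, c87469, c87473, c83719, c83728, c87479, c6259, c79029, c79066, c87244, c10803, c87498, c85212, c82344, c86313, c86958, c84155, c87416, c87424, c1411, c82213, c87574, c87597,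 c87630, c87675, c87696, c87717, c87769, c87778, c87779, c87394, c87534, c87629, c87804, c87582, trivial⟩ (nd (nat_lit 230) (nat_lit 0) (cs (rf (nat_lit 0)) (cs (rf (nat_lit 1)) (cs (rf (nat_lit 2)) (cs (nd (nat_lit 229) (nat_lit 0) (cs (rf (nat_lit 3)) (cs (rf (nat_lit 4)) (cs (rf (nat_lit 5)) (nd (nat_lit 274) (nat_lit 0) (cs (rf (nat_lit 6)) (cs (rf (nat_lit 7)) (cs (nd (nat_lit 207) (nat_lit 0) (cs (rf (nat_lit 8)) (cs (rf (nat_lit 9)) (nd (nat_lit 254) (nat_lit 0) (cs (lf (nat_lit 18) (nat_lit 229)) (nd (nat_lit 209) (nat_lit 0) (cs (rf (nat_lit 10)) (cs (rf (nat_lit 11)) (cs (nd (nat_lit 232) (nat_lit 0) (cs (rf (nat_lit 12)) (cs (rf (nat_lit 13)) (rf (nat_lit 14))))) (rf (nat_lit 15))))))))))) (nd (nat_lit 296) (nat_lit 0) (cs (rf (nat_lit 16)) (cs (rf (nat_lit 17)) (nd (nat_lit 254) (nat_lit 0) (cs (lf (nat_lit 18) (nat_lit 229)) (nd (nat_lit 295) (nat_lit 0) (cs (lf (nat_lit 41) (nat_lit 229)) (rf (nat_lit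 18))))))))))))))))) (cs (nd (nat_lit 208) (nat_lit 0) (cs (rf (nat_lit 19)) (cs (rf (nat_lit 20)) (cs (rf (nat_lit 21)) (cs (rf (nat_lit 22)) (nd (nat_lit 209) (nat_lit 0) (cs (rf (nat_lit 23)) (cs (nd (nat_lit 274) (nat_lit 0) (cs (lf (nat_lit 35) (nat_lit 186)) (nd (nat_lit 275) (nat_lit 0) (cs (lf (nat_lit 29) (nat_lit 208)) (nd (nat_lit 207) (nat_lit 0) (cs (lf (nat_lit 47) (nat_lit 185)) (nd (nat_lit 229) (nat_lit 0) (cs (lf (nat_lit 42) (nat_lit 207)) (nd (nat_lit 210) (nat_lit 0) (cs (lf (nat_lit 6) (nat_lit 207)) (nd (nat_lit 232) (nat_lit 0) (cs (lf (nat_lit 5) (nat_lit 207)) (nd (nat_lit 254) (nat_lit 0) (cs (lf (nat_lit 18) (nat_lit 229)) (lf (nat_lit 36) (nat_lit 187)))))))))))))))) (cs (rf (nat_lit 24)) (nd (nat_lit 231) (nat_lit 0) (cs (rf (nat_lit 25)) (cs (nd (nat_lit 232) (nat_lit 0) (cs (rf (nat_lit 26)) (rf (nat_lit 27)))) (rf (nat_lit 28)))))))))))))) (cs (nd (nat_lit 208) (nat_lit 0) (cs (rf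 (nat_lit 19)) (cs (rf (nat_lit 20)) (cs (rf (nat_lit 21)) (cs (rf (nat_lit 22)) (nd (nat_lit 229) (nat_lit 0) (cs (rf (nat_lit 3)) (nd (nat_lit 274) (nat_lit 0) (cs (rf (nat_lit 29)) (cs (rf (nat_lit 30)) (cs (rf (nat_lit 31)) (nd (nat_lit 207) (nat_lit 0) (cs (rf (nat_lit 32)) (rf (nat_lit 33))))))))))))))) (cs (rf (nat_lit 34)) (cs (rf (nat_lit 35)) (cs (rf (nat_lit 36)) (cs (rf (nat_lit 37)) (cs (rf (nat_lit 38)) (cs (rf (nat_lit 39)) (cs (rf (nat_lit 40)) (cs (rf (nat_lit 41)) (cs (rf (nat_lit 42)) (cs (nd (nat_lit 208) (nat_lit 0) (cs (rf (nat_lit 21)) (cs (rf (nat_lit 43)) (cs (rf (nat_lit 44)) (rf (nat_lit 45)))))) (cs (rf (nat_lit 46)) (nd (nat_lit 208) (nat_lit 0) (cs (rf (nat_lit 19)) (cs (rf (nat_lit 21)) (cs (rf (nat_lit 43)) (rf (nat_lit 47)))))))))))))))))))))))) q87806 (by decide +kernel)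
def q88713 : Q := Q.p (nat_lit 0x3000000000000000000000000000000000000000000000000000000000000000) (nat_lit 0x80000380000e000078000ef8001c8000ffc007fe000ffc001fc0003e00002800000000000000000000000000000) (nat_lit 12)
theorem c88713 : QOK q88713 := cut [q87162, q87167, q87197, q79029, q87128, q83736, q85711, q85714, q87199, q87201, q6259, q87203, q87205, q6561, q79066, q87210, q79032, q81406, q3797, q83712, q87161, q86959, q81014, q84221, q87229, q84852, q85063, q87136, q87141, q87130, q87234, q87163, q87188, q79031, q79034, q87246, q85018, q87126, q87778] ⟨c87162, c87167, c87197, c79029, c87128, c83736, c85711, c85714, c87199, c87201, c6259, c87203, c87205, c6561, c79066, c87210, c79032, c81406, c3797, c83712, c87161, c86959, c81014, c84221, c87229, c84852, c85063, c87136, c87141, c87130, c87234, c87163, c87188, c79031, c79034, c87246, c85018, c87126, c87778, trivial⟩ (nd (nat_lit 230) (nat_lit 0) (cs (rf (nat_lit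 0)) (cs (rf (nat_lit 1)) (cs (rf (nat_lit 2)) (cs (nd (nat_lit 208) (nat_lit 0) (cs (rf (nat_lit 3)) (cs (rf (nat_lit 4)) (cs (nd (nat_lit 274) (nat_lit 0) (cs (rf (nat_lit 5)) (cs (rf (nat_lit 6)) (rf (nat_lit 7))))) (cs (rf (nat_lit 8)) (rf (nat_lit 9))))))) (cs (nd (nat_lit 208) (nat_lit 0) (cs (rf (nat_lit 10)) (cs (rf (nat_lit 11)) (rf (nat_lit 12))))) (cs (nd (nat_lit 208) (nat_lit 0) (cs (rf (nat_lit 13)) (cs (rf (nat_lit 14)) (cs (rf (nat_lit 11)) (nd (nat_lit 273) (nat_lit 0) (cs (nd (nat_lit 274) (nat_lit 0) (cs (lf (nat_lit 41) (nat_lit 207)) (nd (nat_lit 271) (nat_lit 0) (cs (lf (nat_lit 13) (nat_lit 249)) (nd (nat_lit 254) (nat_lit 0) (cs (lf (nat_lit 6) (nat_lit 251)) (rf (nat_lit 15)))))))) (cs (nd (nat_lit 186) (nat_lit 0) (cs (lf (nat_lit 40) (nat_lit 185)) (rf (nat_lit 16)))) (cs (nd (nat_lit 274) (nat_lit 0) (cs (lf (nat_lit 41) (nat_lit 207)) (nd (nat_lit 271) (nat_lit 0) (cs (lf (nat_lit 13)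 (nat_lit 249)) (nd (nat_lit 254) (nat_lit 0) (cs (lf (nat_lit 6) (nat_lit 251)) (nd (nat_lit 207) (nat_lit 0) (cs (lf (nat_lit 47) (nat_lit 185)) (nd (nat_lit 229) (nat_lit 0) (cs (lf (nat_lit 42) (nat_lit 207)) (rf (nat_lit 17)))))))))))) (nd (nat_lit 274) (nat_lit 0) (cs (lf (nat_lit 41) (nat_lit 207)) (nd (nat_lit 271) (nat_lit 0) (cs (lf (nat_lit 13) (nat_lit 249)) (nd (nat_lit 254) (nat_lit 0) (cs (lf (nat_lit 6) (nat_lit 251)) (nd (nat_lit 186) (nat_lit 0) (cs (lf (nat_lit 40) (nat_lit 185)) (rf (nat_lit 18)))))))))))))))))) (cs (nd (nat_lit 229) (nat_lit 0) (cs (rf (nat_lit 19)) (cs (rf (nat_lit 20)) (cs (nd (nat_lit 274) (nat_lit 0) (cs (rf (nat_lit 21)) (cs (nd (nat_lit 296) (nat_lit 0) (cs (rf (nat_lit 22)) (rf (nat_lit 23)))) (rf (nat_lit 24))))) (nd (nat_lit 231) (nat_lit 0) (cs (rf (nat_lit 25)) (cs (rf (nat_lit 26)) (cs (rf (nat_lit 27)) (rf (nat_lit 28)))))))))) (cs (nd (nat_lit 208) (nat_lit 0)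 (cs (rf (nat_lit 13)) (cs (rf (nat_lit 3)) (cs (rf (nat_lit 29)) (nd (nat_lit 274) (nat_lit 0) (cs (rf (nat_lit 7)) (rf (nat_lit 30)))))))) (cs (nd (nat_lit 208) (nat_lit 0) (cs (rf (nat_lit 10)) (cs (rf (nat_lit 13)) (cs (rf (nat_lit 31)) (cs (rf (nat_lit 32)) (nd (nat_lit 187) (nat_lit 0) (cs (rf (nat_lit 33)) (cs (rf (nat_lit 34)) (cs (rf (nat_lit 35)) (nd (nat_lit 274) (nat_lit 0) (cs (lf (nat_lit 34) (nat_lit 186)) (nd (nat_lit 273) (nat_lit 0) (cs (lf (nat_lit 41) (nat_lit 207)) (nd (nat_lit 271) (nat_lit 0) (cs (lf (nat_lit 13) (nat_lit 249)) (nd (nat_lit 254) (nat_lit 0) (cs (lf (nat_lit 6) (nat_lit 251)) (nd (nat_lit 186) (nat_lit 0) (cs (lf (nat_lit 40) (nat_lit 185)) (nd (nat_lit 231) (nat_lit 0) (cs (lf (nat_lit 24) (nat_lit 164)) (nd (nat_lit 229) (nat_lit 0) (cs (lf (nat_lit 0) (nat_lit 228)) (rf (nat_lit 36))))))))))))))))))))))))) (cs (nd (nat_lit 208) (nat_lit 0) (cs (rf (nat_lit 13)) (cs (rf (nat_lit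 14)) (cs (rf (nat_lit 37)) (nd (nat_lit 274) (nat_lit 0) (cs (rf (nat_lit 7)) (rf (nat_lit 15)))))))) (rf (nat_lit 38))))))))))))) q88713 (by decide +kernel)
def q88737 : Q := Q.p (nat_lit 0x3000000000000000000000000000000000000000000000000000000000000000) (nat_lit 0x700001d0000fe000eff003cf801fff001fe000ff80007c0001700000000000000000000000000000000000) (nat_lit 15)
theorem c88737 : QOK q88737 := cut [q82247, q2623, q82187, q82272, q82315, q82388, q83617, q88305, q88307, q88711, q2624, q82275, q82353, q80881, q82280, q82368, q82292, q88714, q81803, q82378, q88014, q88725, q7092] ⟨c82247, c2623, c82187, c82272, c82315, c82388, c83617, c88305, c88307, c88711, c2624, c82275, c82353, c80881, c82280, c82368, c82292, c88714, c81803, c82378, c88014, c88725, c7092, trivial⟩ (nd (nat_lit 251) (nat_lit 0) (cs (rf (nat_lit 0)) (cs (nd (nat_lit 250) (nat_lit 0) (cs (rf (nat_lit 1)) (cs (rf (nat_lit 2)) (rf (nat_lit 3)))))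 (cs (rf (nat_lit 4)) (cs (rf (nat_lit 5)) (cs (rf (nat_lit 6)) (cs (rf (nat_lit 7)) (cs (rf (nat_lit 8)) (cs (rf (nat_lit 9)) (nd (nat_lit 231) (nat_lit 0) (cs (rf (nat_lit 10)) (cs (rf (nat_lit 11)) (cs (rf (nat_lit 12)) (nd (nat_lit 274) (nat_lit 0) (cs (rf (nat_lit 13)) (cs (rf (nat_lit 14)) (cs (rf (nat_lit 15)) (nd (nat_lit 230) (nat_lit 0) (cs (rf (nat_lit 16)) (cs (nd (nat_lit 296) (nat_lit 0) (cs (lf (nat_lit 30) (nat_lit 230)) (nd (nat_lit 297) (nat_lit 0) (cs (lf (nat_lit 29) (nat_lit 230)) (nd (nat_lit 229) (nat_lit 0) (cs (lf (nat_lit 47) (nat_lit 207)) (nd (nat_lit 249) (nat_lit 0) (cs (lf (nat_lit 13) (nat_lit 227)) (nd (nat_lit 228) (nat_lit 0) (cs (lf (nat_lit 0) (nat_lit 227)) (nd (nat_lit 206) (nat_lit 0) (cs (lf (nat_lit 23) (nat_lit 205)) (nd (nat_lit 162) (nat_lit 0) (cs (lf (nat_lit 25) (nat_lit 162)) (nd (nat_lit 273) (nat_lit 0) (cs (lf (nat_lit 42) (nat_lit 206)) (nd (nat_lit 272) (nat_lit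 0) (cs (lf (nat_lit 12) (nat_lit 249)) (rf (nat_lit 17)))))))))))))))))))) (cs (nd (nat_lit 208) (nat_lit 0) (cs (rf (nat_lit 18)) (cs (rf (nat_lit 19)) (rf (nat_lit 20))))) (cs (nd (nat_lit 249) (nat_lit 0) (cs (lf (nat_lit 13) (nat_lit 227)) (nd (nat_lit 296) (nat_lit 0) (cs (lf (nat_lit 30) (nat_lit 230)) (nd (nat_lit 297) (nat_lit 0) (cs (lf (nat_lit 29) (nat_lit 230)) (nd (nat_lit 208) (nat_lit 0) (cs (lf (nat_lit 28) (nat_lit 208)) (rf (nat_lit 21)))))))))) (nd (nat_lit 296) (nat_lit 0) (cs (lf (nat_lit 30) (nat_lit 230)) (nd (nat_lit 207) (nat_lit 0) (cs (lf (nat_lit 46) (nat_lit 207)) (nd (nat_lit 185) (nat_lit 0) (cs (lf (nat_lit 45) (nat_lit 185)) (nd (nat_lit 250) (nat_lit 0) (cs (lf (nat_lit 12) (nat_lit 227)) (rf (nat_lit 22)))))))))))))))))))))))))))))))) q88737 (by decide +kernel)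
def q90867 : Q := Q.p (nat_lit 0x3000000000000000000000000000000000000000000000000000000000000000) (nat_lit 0x1e00007e0001f8001ffc003ff801fff0004e0007fc0005e0003f80003e0000500000000000000000000000000000000000) (nat_lit 16)
theorem c90867 : QOK q90867 := cut [q90775, q2091, q89735, q90778, q89876, q90247, q90785, q89928, q88302, q89798, q90720, q90731, q90790, q4050, q90710, q2059, q90729, q90828, q90829, q90831, q88933, q88941, q89530, q90752, q79111, q88337, q88742, q90835, q90838, q90846, q90849, q90856, q90864, q90866] ⟨c90775, c2091, c89735, c90778, c89876, c90247, c90785, c89928, c88302, c89798, c90720, c90731, c90790, c4050, c90710, c2059, c90729, c90828, c90829, c90831, c88933, c88941, c89530, c90752, c79111, c88337, c88742, c90835, c90838, c90846, c90849, c90856, c90864, c90866, trivial⟩ (nd (nat_lit 275) (nat_lit 0) (cs (rf (nat_lit 0)) (cs (nd (nat_lit 251) (nat_lit 0) (cs (rf (nat_lit 1)) (cs (rf (nat_lit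 2)) (rf (nat_lit 3))))) (cs (nd (nat_lit 251) (nat_lit 0) (cs (rf (nat_lit 2)) (cs (rf (nat_lit 4)) (cs (rf (nat_lit 5)) (rf (nat_lit 6)))))) (cs (nd (nat_lit 251) (nat_lit 0) (cs (rf (nat_lit 1)) (cs (rf (nat_lit 2)) (cs (rf (nat_lit 7)) (nd (nat_lit 273) (nat_lit 0) (cs (rf (nat_lit 8)) (cs (rf (nat_lit 9)) (cs (nd (nat_lit 274) (nat_lit 0) (cs (rf (nat_lit 10)) (cs (rf (nat_lit 11)) (cs (rf (nat_lit 12)) (nd (nat_lit 296) (nat_lit 0) (cs (rf (nat_lit 13)) (nd (nat_lit 229) (nat_lit 0) (cs (lf (nat_lit 24) (nat_lit 207)) (rf (nat_lit 14)))))))))) (nd (nat_lit 274) (nat_lit 0) (cs (rf (nat_lit 15)) (cs (rf (nat_lit 16)) (rf (nat_lit 11))))))))))))) (cs (rf (nat_lit 17)) (cs (rf (nat_lit 18)) (cs (rf (nat_lit 19)) (cs (nd (nat_lit 297) (nat_lit 0) (cs (rf (nat_lit 20)) (cs (rf (nat_lit 21)) (cs (rf (nat_lit 22)) (nd (nat_lit 296) (nat_lit 0) (cs (rf (nat_lit 23)) (cs (nd (nat_lit 230) (nat_lit 0) (cs (rf (nat_lit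 24)) (cs (rf (nat_lit 25)) (nd (nat_lit 276) (nat_lit 0) (cs (rf (nat_lit 26)) (cs (nd (nat_lit 250) (nat_lit 0) (cs (lf (nat_lit 1) (nat_lit 250)) (nd (nat_lit 295) (nat_lit 0) (cs (lf (nat_lit 12) (nat_lit 272)) (rf (nat_lit 27)))))) (rf (nat_lit 28)))))))) (cs (rf (nat_lit 29)) (rf (nat_lit 30)))))))))) (cs (rf (nat_lit 31)) (cs (rf (nat_lit 32)) (rf (nat_lit 33))))))))))))) q90867 (by decide +kernel)
def q91616 : Q := Q.p (nat_lit 0x3000000000000000000000000000000000000000000000000000000000000000) (nat_lit 0x140003fe0007f0001fe0007f70004f8007ff000ff0007fe000fc0001500000000000000000000000000000000000) (nat_lit 17)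
theorem c91616 : QOK q91616 := cut [q89753, q89976, q90144, q90255, q82198, q90169, q5482, q11484, q90204, q85252, q89713, q90198, q80450, q89688, q85301, q89677, q89683, q26370, q90139, q90143, q88692, q91589, q82275, q91441, q18255, q2091, q91174, q91591, q88776, q88896, q89735, q40524, q88804, q10888, q15253, q87179] ⟨c89753, c89976, c90144, c90255, c82198, c90169, c5482, c11484, c90204, c85252, c89713, c90198, c80450, c89688, c85301, c89677, c89683, c26370, c90139, c90143, c88692, c91589, c82275, c91441, c18255, c2091, c91174, c91591, c88776, c88896, c89735, c40524, c88804, c10888, c15253, c87179, trivial⟩ (nd (nat_lit 251) (nat_lit 0) (cs (rf (nat_lit 0)) (cs (rf (nat_lit 1)) (cs (rf (nat_lit 2)) (cs (rf (nat_lit 3)) (cs (nd (nat_lit 229) (nat_lit 0) (cs (rf (nat_lit 4)) (cs (rf (nat_lit 5)) (cs (nd (nat_lit 207) (nat_lit 0) (cs (rf (nat_lit 6)) (cs (rf (nat_lit 7)) (cs (rf (nat_lit 8)) (nd (nat_lit 273) (nat_lit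 0) (cs (rf (nat_lit 9)) (cs (rf (nat_lit 10)) (rf (nat_lit 11))))))))) (nd (nat_lit 207) (nat_lit 0) (cs (rf (nat_lit 6)) (cs (rf (nat_lit 7)) (cs (rf (nat_lit 12)) (cs (rf (nat_lit 13)) (nd (nat_lit 273) (nat_lit 0) (cs (rf (nat_lit 14)) (cs (rf (nat_lit 15)) (cs (rf (nat_lit 16)) (nd (nat_lit 206) (nat_lit 0) (cs (lf (nat_lit 47) (nat_lit 184)) (nd (nat_lit 231) (nat_lit 0) (cs (nd (nat_lit 230) (nat_lit 0) (cs (lf (nat_lit 18) (nat_lit 206)) (nd (nat_lit 205) (nat_lit 0) (cs (lf (nat_lit 0) (nat_lit 204)) (lf (nat_lit 21) (nat_lit 205)))))) (cs (nd (nat_lit 274) (nat_lit 0) (cs (lf (nat_lit 29) (nat_lit 207)) (nd (nat_lit 208) (nat_lit 0) (cs (lf (nat_lit 35) (nat_lit 185)) (nd (nat_lit 209) (nat_lit 0) (cs (lf (nat_lit 5) (nat_lit 206)) (lf (nat_lit 36) (nat_lit 186)))))))) (nd (nat_lit 274) (nat_lit 0) (cs (lf (nat_lit 29) (nat_lit 207)) (nd (nat_lit 187) (nat_lit 0) (cs (lf (nat_lit 37) (nat_lit 186)) (nd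 (nat_lit 208) (nat_lit 0) (cs (lf (nat_lit 35) (nat_lit 185)) (nd (nat_lit 272) (nat_lit 0) (cs (lf (nat_lit 41) (nat_lit 206)) (rf (nat_lit 17)))))))))))))))))))))))))))) (cs (nd (nat_lit 276) (nat_lit 0) (cs (rf (nat_lit 18)) (cs (rf (nat_lit 19)) (nd (nat_lit 250) (nat_lit 0) (cs (lf (nat_lit 4) (nat_lit 250)) (rf (nat_lit 20))))))) (cs (rf (nat_lit 21)) (cs (nd (nat_lit 231) (nat_lit 0) (cs (rf (nat_lit 22)) (cs (rf (nat_lit 23)) (cs (nd (nat_lit 250) (nat_lit 0) (cs (lf (nat_lit 17) (nat_lit 228)) (rf (nat_lit 24)))) (nd (nat_lit 275) (nat_lit 0) (cs (rf (nat_lit 25)) (cs (rf (nat_lit 26)) (rf (nat_lit 27))))))))) (cs (nd (nat_lit 231) (nat_lit 0) (cs (rf (nat_lit 22)) (cs (rf (nat_lit 28)) (cs (rf (nat_lit 29)) (nd (nat_lit 275) (nat_lit 0) (cs (rf (nat_lit 30)) (rf (nat_lit 27)))))))) (nd (nat_lit 250) (nat_lit 0) (cs (rf (nat_lit 31)) (cs (rf (nat_lit 32)) (cs (nd (nat_lit 275) (nat_lit 0) (cs (lf (nat_lit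 5) (nat_lit 250)) (nd (nat_lit 249) (nat_lit 0) (cs (lf (nat_lit 4) (nat_lit 249)) (nd (nat_lit 230) (nat_lit 0) (cs (lf (nat_lit 17) (nat_lit 227)) (nd (nat_lit 229) (nat_lit 0) (cs (lf (nat_lit 12) (nat_lit 226)) (nd (nat_lit 297) (nat_lit 0) (cs (lf (nat_lit 42) (nat_lit 230)) (nd (nat_lit 226) (nat_lit 0) (cs (lf (nat_lit 22) (nat_lit 226)) (nd (nat_lit 208) (nat_lit 0) (cs (lf (nat_lit 24) (nat_lit 186)) (nd (nat_lit 273) (nat_lit 0) (cs (lf (nat_lit 30) (nat_lit 207)) (nd (nat_lit 272) (nat_lit 0) (cs (rf (nat_lit 33)) (lf (nat_lit 6) (nat_lit 250)))))))))))))))))))) (cs (nd (nat_lit 227) (nat_lit 0) (cs (lf (nat_lit 22) (nat_lit 227)) (nd (nat_lit 249) (nat_lit 0) (cs (lf (nat_lit 23) (nat_lit 226)) (nd (nat_lit 230) (nat_lit 0) (cs (lf (nat_lit 17) (nat_lit 227)) (nd (nat_lit 248) (nat_lit 0) (cs (lf (nat_lit 16) (nat_lit 226)) (rf (nat_lit 34)))))))))) (nd (nat_lit 275) (nat_lit 0) (cs (lf (nat_lit 5)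 (nat_lit 250)) (nd (nat_lit 249) (nat_lit 0) (cs (lf (nat_lit 4) (nat_lit 249)) (nd (nat_lit 230) (nat_lit 0) (cs (lf (nat_lit 17) (nat_lit 227)) (nd (nat_lit 229) (nat_lit 0) (cs (lf (nat_lit 12) (nat_lit 226)) (nd (nat_lit 254) (nat_lit 0) (cs (lf (nat_lit 23) (nat_lit 228)) (nd (nat_lit 208) (nat_lit 0) (cs (lf (nat_lit 24) (nat_lit 186)) (rf (nat_lit 35))))))))))))))))))))))))))))) q91616 (by decide +kernel)
def q92151 : Q := Q.p (nat_lit 0x3000000000000000000000000000000000000000000000000000000000000000) (nat_lit 0x100001e0001fc0007f80014e001ffc00ffe001ffc000fc0003700000000000000000000000000000000000) (nat_lit 17)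
theorem c92151 : QOK q92151 := cut [q88776, q88874, q88875, q82275, q82278, q88808, q80881, q88898, q88746, q81477, q88900, q88744, q88909, q88931, q90999, q91149, q91150, q91165, q91188, q91297] ⟨c88776, c88874, c88875, c82275, c82278, c88808, c80881, c88898, c88746, c81477, c88900, c88744, c88909, c88931, c90999, c91149, c91150, c91165, c91188, c91297, trivial⟩ (nd (nat_lit 231) (nat_lit 0) (cs (rf (nat_lit 0)) (cs (rf (nat_lit 1)) (cs (rf (nat_lit 2)) (cs (nd (nat_lit 251) (nat_lit 0) (cs (rf (nat_lit 3)) (cs (rf (nat_lit 4)) (cs (rf (nat_lit 5)) (nd (nat_lit 274) (nat_lit 0) (cs (rf (nat_lit 6)) (cs (nd (nat_lit 275) (nat_lit 0) (cs (rf (nat_lit 7)) (cs (nd (nat_lit 209) (nat_lit 0) (cs (lf (nat_lit 36) (nat_lit 186)) (rf (nat_lit 8)))) (nd (nat_lit 230) (nat_lit 0) (cs (rf (nat_lit 9)) (cs (nd (nat_lit 276) (nat_lit 0) (cs (lf (nat_lit 18) (nat_lit 251)) (nd (nat_lit 232) (nat_lit 0) (cs (lf (nat_lit 6) (nat_lit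 229)) (nd (nat_lit 297) (nat_lit 0) (cs (lf (nat_lit 42) (nat_lit 230)) (nd (nat_lit 298) (nat_lit 0) (cs (lf (nat_lit 29) (nat_lit 231)) (rf (nat_lit 10)))))))))) (nd (nat_lit 208) (nat_lit 0) (cs (lf (nat_lit 24) (nat_lit 186)) (nd (nat_lit 276) (nat_lit 0) (cs (lf (nat_lit 18) (nat_lit 251)) (rf (nat_lit 11)))))))))))) (rf (nat_lit 12))))))))) (cs (rf (nat_lit 13)) (cs (rf (nat_lit 14)) (cs (rf (nat_lit 15)) (cs (rf (nat_lit 16)) (cs (rf (nat_lit 17)) (cs (rf (nat_lit 18)) (rf (nat_lit 19))))))))))))) q92151 (by decide +kernel)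
def q94950 : Q := Q.p (nat_lit 0x3000000000000000000000000000000000000000000000000000000000000000) (nat_lit 0x500003c0003fc001ff001dfe007cf003fee003ff001ffc001ff0005e00000000000000000000000000000000000) (nat_lit 18)
theorem c94950 : QOK q94950 := cut [q92997, q93273, q94719, q94759, q94790, q94836, q94839, q82309, q92707, q94159, q94424, q94789, q87016, q93181, q94773, q94878, q82300, q91187, q93179, q94847, q94907, q82301, q93255, q1563, q93250, q94869, q85001, q92713, q85714, q4198, q84408, q91956, q87979, q12221, q84626, q92742, q80993, q81706, q82063, q93008, q94943, q82275, q82278, q94721, q87069, q87098, q92346, q94893, q87068, q93139, q93141, q82277, q83627, q93029, q80160, q94897] ⟨c92997, c93273, c94719, c94759, c94790, c94836, c94839, c82309, c92707, c94159, c94424, c94789, c87016, c93181, c94773, c94878, c82300, c91187, c93179, c94847, c94907, c82301, c93255, c1563, c93250, c94869, c85001, c92713, c85714,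 c4198, c84408, c91956, c87979, c12221, c84626, c92742, c80993, c81706, c82063, c93008, c94943, c82275, c82278, c94721, c87069, c87098, c92346, c94893, c87068, c93139, c93141, c82277, c83627, c93029, c80160, c94897, trivial⟩ (nd (nat_lit 231) (nat_lit 0) (cs (rf (nat_lit 0)) (cs (rf (nat_lit 1)) (cs (rf (nat_lit 2)) (cs (rf (nat_lit 3)) (cs (rf (nat_lit 4)) (cs (rf (nat_lit 5)) (cs (rf (nat_lit 6)) (cs (nd (nat_lit 209) (nat_lit 0) (cs (rf (nat_lit 7)) (cs (rf (nat_lit 8)) (nd (nat_lit 232) (nat_lit 0) (cs (rf (nat_lit 9)) (cs (rf (nat_lit 10)) (cs (rf (nat_lit 11)) (nd (nat_lit 275) (nat_lit 0) (cs (rf (nat_lit 12)) (cs (rf (nat_lit 13)) (rf (nat_lit 14)))))))))))) (cs (rf (nat_lit 15)) (cs (nd (nat_lit 209) (nat_lit 0) (cs (rf (nat_lit 16)) (cs (rf (nat_lit 17)) (cs (rf (nat_lit 8)) (cs (rf (nat_lit 18)) (rf (nat_lit 19))))))) (cs (rf (nat_lit 20)) (cs (nd (nat_lit 209) (nat_lit 0) (cs (rf (nat_lit 16)) (cs (rf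 (nat_lit 21)) (cs (rf (nat_lit 7)) (cs (rf (nat_lit 22)) (nd (nat_lit 208) (nat_lit 0) (cs (rf (nat_lit 23)) (cs (rf (nat_lit 24)) (cs (rf (nat_lit 25)) (nd (nat_lit 230) (nat_lit 0) (cs (rf (nat_lit 26)) (cs (rf (nat_lit 27)) (nd (nat_lit 164) (nat_lit 0) (cs (lf (nat_lit 25) (nat_lit 164)) (nd (nat_lit 274) (nat_lit 0) (cs (lf (nat_lit 30) (nat_lit 208)) (rf (nat_lit 28)))))))))))))))))) (cs (nd (nat_lit 232) (nat_lit 0) (cs (rf (nat_lit 9)) (cs (rf (nat_lit 10)) (cs (rf (nat_lit 11)) (nd (nat_lit 275) (nat_lit 0) (cs (rf (nat_lit 12)) (cs (nd (nat_lit 274) (nat_lit 0) (cs (rf (nat_lit 29)) (cs (nd (nat_lit 273) (nat_lit 0) (cs (rf (nat_lit 30)) (cs (rf (nat_lit 31)) (nd (nat_lit 230) (nat_lit 0) (cs (rf (nat_lit 32)) (nd (nat_lit 254) (nat_lit 0) (cs (lf (nat_lit 6) (nat_lit 251)) (nd (nat_lit 210) (nat_lit 0) (cs (rf (nat_lit 33)) (lf (nat_lit 36) (nat_lit 187))))))))))) (nd (nat_lit 230) (nat_lit 0) (cs (rf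 (nat_lit 34)) (cs (rf (nat_lit 35)) (nd (nat_lit 250) (nat_lit 0) (cs (lf (nat_lit 13) (nat_lit 228)) (nd (nat_lit 296) (nat_lit 0) (cs (lf (nat_lit 30) (nat_lit 230)) (rf (nat_lit 36)))))))))))) (nd (nat_lit 297) (nat_lit 0) (cs (rf (nat_lit 37)) (cs (rf (nat_lit 38)) (rf (nat_lit 39)))))))))))) (cs (rf (nat_lit 40)) (nd (nat_lit 251) (nat_lit 0) (cs (rf (nat_lit 41)) (cs (rf (nat_lit 42)) (cs (rf (nat_lit 43)) (nd (nat_lit 273) (nat_lit 0) (cs (rf (nat_lit 44)) (cs (rf (nat_lit 45)) (cs (rf (nat_lit 46)) (cs (rf (nat_lit 47)) (nd (nat_lit 254) (nat_lit 0) (cs (rf (nat_lit 48)) (cs (rf (nat_lit 49)) (cs (rf (nat_lit 50)) (nd (nat_lit 232) (nat_lit 0) (cs (rf (nat_lit 51)) (nd (nat_lit 209) (nat_lit 0) (cs (rf (nat_lit 52)) (cs (rf (nat_lit 53)) (nd (nat_lit 275) (nat_lit 0) (cs (rf (nat_lit 54)) (rf (nat_lit 55))))))))))))))))))))))))))))))))))))) q94950 (by decide +kernel)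
def q95650 : Q := Q.p (nat_lit 0x3000000000000000000000000000000000000000000000000000000000000000) (nat_lit 0x500001f0003ff0007fc001ff001dfe007cf003ffc003fe0003dc000f00002c00000000000000000000000000000000000) (nat_lit 18)
theorem c95650 : QOK q95650 := cut [q94959, q95098, q95102, q95139, q95157, q95171, q83839, q85713, q95148, q95420, q95421, q95429, q95630, q46633, q91672, q95444, q95060, q95438, q95632, q84258, q92617, q92260, q92291, q92327, q92344, q79013, q81729, q92329, q85690] ⟨c94959, c95098, c95102, c95139, c95157, c95171, c83839, c85713, c95148, c95420, c95421, c95429, c95630, c46633, c91672, c95444, c95060, c95438, c95632, c84258, c92617, c92260, c92291, c92327, c92344, c79013, c81729, c92329, c85690, trivial⟩ (nd (nat_lit 274) (nat_lit 0) (cs (rf (nat_lit 0)) (cs (rf (nat_lit 1)) (cs (rf (nat_lit 2)) (cs (rf (nat_lit 3)) (cs (rf (nat_lit 4)) (cs (rf (nat_lit 5)) (cs (nd (nat_lit 273) (nat_lit 0) (cs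 (rf (nat_lit 6)) (cs (rf (nat_lit 7)) (cs (rf (nat_lit 8)) (nd (nat_lit 251) (nat_lit 0) (cs (rf (nat_lit 9)) (cs (rf (nat_lit 10)) (cs (rf (nat_lit 11)) (nd (nat_lit 254) (nat_lit 0) (cs (lf (nat_lit 6) (nat_lit 251)) (nd (nat_lit 232) (nat_lit 0) (cs (lf (nat_lit 17) (nat_lit 229)) (nd (nat_lit 229) (nat_lit 0) (cs (lf (nat_lit 23) (nat_lit 228)) (nd (nat_lit 296) (nat_lit 0) (cs (lf (nat_lit 42) (nat_lit 229)) (lf (nat_lit 24) (nat_lit 207)))))))))))))))))) (cs (rf (nat_lit 12)) (cs (nd (nat_lit 296) (nat_lit 0) (cs (rf (nat_lit 13)) (cs (rf (nat_lit 14)) (cs (nd (nat_lit 273) (nat_lit 0) (cs (rf (nat_lit 6)) (cs (rf (nat_lit 7)) (cs (rf (nat_lit 15)) (nd (nat_lit 251) (nat_lit 0) (cs (rf (nat_lit 16)) (cs (rf (nat_lit 17)) (rf (nat_lit 18))))))))) (nd (nat_lit 251) (nat_lit 0) (cs (rf (nat_lit 19)) (cs (rf (nat_lit 20)) (nd (nat_lit 318) (nat_lit 0) (cs (lf (nat_lit 47) (nat_lit 229)) (nd (nat_lit 340) (nat_lit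 0) (cs (lf (nat_lit 34) (nat_lit 252)) (lf (nat_lit 46) (nat_lit 251))))))))))))) (nd (nat_lit 254) (nat_lit 0) (cs (rf (nat_lit 21)) (cs (rf (nat_lit 22)) (cs (rf (nat_lit 23)) (cs (rf (nat_lit 24)) (nd (nat_lit 251) (nat_lit 0) (cs (rf (nat_lit 25)) (cs (rf (nat_lit 26)) (cs (rf (nat_lit 27)) (nd (nat_lit 272) (nat_lit 0) (cs (lf (nat_lit 10) (nat_lit 250)) (nd (nat_lit 232) (nat_lit 0) (cs (lf (nat_lit 17) (nat_lit 229)) (nd (nat_lit 229) (nat_lit 0) (cs (lf (nat_lit 23) (nat_lit 228)) (nd (nat_lit 296) (nat_lit 0) (cs (lf (nat_lit 42) (nat_lit 229)) (nd (nat_lit 230) (nat_lit 0) (cs (lf (nat_lit 47) (nat_lit 207)) (nd (nat_lit 209) (nat_lit 0) (cs (lf (nat_lit 34) (nat_lit 208)) (nd (nat_lit 187) (nat_lit 0) (cs (lf (nat_lit 33) (nat_lit 186)) (nd (nat_lit 295) (nat_lit 0) (cs (lf (nat_lit 41) (nat_lit 229)) (nd (nat_lit 210) (nat_lit 0) (cs (lf (nat_lit 42) (nat_lit 187)) (rf (nat_lit 28)))))))))))))))))))))))))))))))))))))))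 q95650 (by decide +kernel)
def q96653 : Q := Q.p (nat_lit 0x2000008000000000000000000000000000000000000000000000000000000000) (nat_lit 0x1c0001f00007e001ffc003de001f7c003de0007f8001fc0000500000000000000000000000000000000000) (nat_lit 17)
theorem c96653 : QOK q96653 := cut [q96389, q82278, q96401, q96402, q96403, q96442, q96454, q79201, q80546, q82100, q96466, q96397, q96398, q96473, q79217, q96299, q96503, q96567, q82275, q96577, q96579, q88808, q96502, q96400, q96572, q96582, q96607, q96608, q96618, q96622, q96497, q96350, q96601, q96646, q82198, q93918, q5482, q11484, q96624, q96630, q96631, q96641, q96643, q96645] ⟨c96389, c82278, c96401, c96402, c96403, c96442, c96454, c79201, c80546, c82100, c96466, c96397, c96398, c96473, c79217, c96299, c96503, c96567, c82275, c96577, c96579, c88808, c96502, c96400, c96572, c96582, c96607, c96608, c96618, c96622, c96497, c96350, c96601, c96646, c82198, c93918, c5482, c11484,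 c96624, c96630, c96631, c96641, c96643, c96645, trivial⟩ (nd (nat_lit 252) (nat_lit 0) (cs (rf (nat_lit 0)) (cs (nd (nat_lit 251) (nat_lit 0) (cs (rf (nat_lit 1)) (cs (rf (nat_lit 2)) (cs (rf (nat_lit 3)) (rf (nat_lit 4)))))) (cs (rf (nat_lit 5)) (cs (nd (nat_lit 254) (nat_lit 0) (cs (rf (nat_lit 6)) (cs (nd (nat_lit 251) (nat_lit 0) (cs (rf (nat_lit 7)) (cs (rf (nat_lit 8)) (cs (rf (nat_lit 9)) (rf (nat_lit 10)))))) (cs (nd (nat_lit 251) (nat_lit 0) (cs (rf (nat_lit 9)) (cs (rf (nat_lit 11)) (rf (nat_lit 12))))) (cs (rf (nat_lit 13)) (nd (nat_lit 255) (nat_lit 0) (cs (rf (nat_lit 14)) (rf (nat_lit 15))))))))) (cs (rf (nat_lit 16)) (cs (rf (nat_lit 17)) (cs (nd (nat_lit 251) (nat_lit 0) (cs (rf (nat_lit 18)) (cs (rf (nat_lit 1)) (cs (rf (nat_lit 19)) (rf (nat_lit 20)))))) (cs (nd (nat_lit 251) (nat_lit 0) (cs (rf (nat_lit 21)) (cs (rf (nat_lit 3)) (cs (rf (nat_lit 22)) (cs (nd (nat_lit 254) (nat_lit 0) (cs (rf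 (nat_lit 23)) (cs (rf (nat_lit 6)) (cs (rf (nat_lit 10)) (rf (nat_lit 24)))))) (rf (nat_lit 25))))))) (cs (rf (nat_lit 26)) (cs (nd (nat_lit 251) (nat_lit 0) (cs (rf (nat_lit 18)) (cs (rf (nat_lit 1)) (cs (rf (nat_lit 21)) (rf (nat_lit 27)))))) (cs (nd (nat_lit 251) (nat_lit 0) (cs (rf (nat_lit 18)) (cs (rf (nat_lit 1)) (cs (rf (nat_lit 19)) (rf (nat_lit 28)))))) (cs (nd (nat_lit 251) (nat_lit 0) (cs (rf (nat_lit 1)) (cs (rf (nat_lit 3)) (cs (rf (nat_lit 27)) (rf (nat_lit 29)))))) (cs (nd (nat_lit 251) (nat_lit 0) (cs (rf (nat_lit 1)) (cs (rf (nat_lit 3)) (cs (rf (nat_lit 30)) (nd (nat_lit 254) (nat_lit 0) (cs (rf (nat_lit 31)) (cs (rf (nat_lit 11)) (cs (rf (nat_lit 13)) (nd (nat_lit 273) (nat_lit 0) (cs (lf (nat_lit 11) (nat_lit 250)) (rf (nat_lit 32)))))))))))) (cs (nd (nat_lit 251) (nat_lit 0) (cs (rf (nat_lit 21)) (cs (rf (nat_lit 2)) (cs (rf (nat_lit 22)) (rf (nat_lit 25)))))) (nd (nat_lit 251) (nat_lit 0)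 (cs (rf (nat_lit 18)) (cs (rf (nat_lit 1)) (cs (rf (nat_lit 33)) (nd (nat_lit 229) (nat_lit 0) (cs (rf (nat_lit 34)) (cs (rf (nat_lit 35)) (cs (nd (nat_lit 207) (nat_lit 0) (cs (rf (nat_lit 36)) (cs (rf (nat_lit 37)) (cs (nd (nat_lit 230) (nat_lit 0) (cs (rf (nat_lit 38)) (cs (rf (nat_lit 39)) (nd (nat_lit 274) (nat_lit 0) (cs (lf (nat_lit 42) (nat_lit 207)) (rf (nat_lit 40))))))) (cs (nd (nat_lit 230) (nat_lit 0) (cs (rf (nat_lit 38)) (cs (rf (nat_lit 40)) (rf (nat_lit 41))))) (rf (nat_lit 42))))))) (rf (nat_lit 43))))))))))))))))))))))))) q96653 (by decide +kernel)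
def q96755 : Q := Q.p (nat_lit 0x2000008000000000000000000000000000000000000000000000000000000000) (nat_lit 0x400001c0000700001f0001c0001f7800ffe000ff8000fe0003c00007000000000000000000000000000000) (nat_lit 11)
theorem c96755 : QOK q96755 := cut [q96308, q96713, q96724, q96725, q3443, q94775, q96731, q96737, q96742, q1580, q84386, q84392, q96747, q96750, q96751] ⟨c96308, c96713, c96724, c96725, c3443, c94775, c96731, c96737, c96742, c1580, c84386, c84392, c96747, c96750, c96751, trivial⟩ (nd (nat_lit 209) (nat_lit 0) (cs (rf (nat_lit 0)) (cs (rf (nat_lit 1)) (cs (rf (nat_lit 2)) (cs (rf (nat_lit 3)) (cs (nd (nat_lit 275) (nat_lit 0) (cs (rf (nat_lit 4)) (cs (rf (nat_lit 5)) (cs (rf (nat_lit 6)) (rf (nat_lit 7)))))) (cs (rf (nat_lit 8)) (nd (nat_lit 187) (nat_lit 0) (cs (rf (nat_lit 9)) (cs (rf (nat_lit 10)) (cs (rf (nat_lit 11)) (cs (rf (nat_lit 12)) (cs (rf (nat_lit 13)) (nd (nat_lit 186) (nat_lit 0) (cs (lf (nat_lit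 47) (nat_lit 164)) (nd (nat_lit 166) (nat_lit 0) (cs (lf (nat_lit 34) (nat_lit 165)) (rf (nat_lit 14))))))))))))))))))) q96755 (by decide +kernel)
def q97297 : Q := Q.p (nat_lit 0x2000008000000000000000000000000000000000000000000000000000000000) (nat_lit 0x100001c0000700001c00011c001f7800ffc000ff8001fe0003d00007400010000000000000000000000000) (nat_lit 17)
theorem c97297 : QOK q97297 := cut [q96713, q97263, q97265, q3443, q96325, q97238, q1580, q97268, q97289, q97295] ⟨c96713, c97263, c97265, c3443, c96325, c97238, c1580, c97268, c97289, c97295, trivial⟩ (nd (nat_lit 209) (nat_lit 0) (cs (rf (nat_lit 0)) (cs (rf (nat_lit 1)) (cs (rf (nat_lit 2)) (cs (nd (nat_lit 275) (nat_lit 0) (cs (rf (nat_lit 3)) (cs (rf (nat_lit 4)) (rf (nat_lit 5))))) (nd (nat_lit 187) (nat_lit 0) (cs (rf (nat_lit 6)) (cs (nd (nat_lit 166) (nat_lit 0) (cs (lf (nat_lit 34) (nat_lit 165)) (nd (nat_lit 165) (nat_lit 0) (cs (lf (nat_lit 35) (nat_lit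 143)) (nd (nat_lit 142) (nat_lit 0) (cs (lf (nat_lit 46) (nat_lit 142)) (nd (nat_lit 230) (nat_lit 0) (cs (lf (nat_lit 41) (nat_lit 164)) (rf (nat_lit 7)))))))))) (cs (nd (nat_lit 164) (nat_lit 0) (cs (lf (nat_lit 46) (nat_lit 164)) (nd (nat_lit 165) (nat_lit 0) (cs (lf (nat_lit 47) (nat_lit 142)) (nd (nat_lit 144) (nat_lit 0) (cs (lf (nat_lit 34) (nat_lit 143)) (nd (nat_lit 230) (nat_lit 0) (cs (lf (nat_lit 41) (nat_lit 164)) (nd (nat_lit 143) (nat_lit 0) (cs (lf (nat_lit 35) (nat_lit 121)) (lf (nat_lit 40) (nat_lit 142)))))))))))) (cs (nd (nat_lit 164) (nat_lit 0) (cs (lf (nat_lit 46) (nat_lit 164)) (nd (nat_lit 165) (nat_lit 0) (cs (lf (nat_lit 47) (nat_lit 142)) (nd (nat_lit 230) (nat_lit 0) (cs (lf (nat_lit 41) (nat_lit 164)) (nd (nat_lit 143) (nat_lit 0) (cs (lf (nat_lit 40) (nat_lit 142)) (nd (nat_lit 122) (nat_lit 0) (cs (lf (nat_lit 34) (nat_lit 121)) (nd (nat_lit 121) (nat_lit 0) (cs (lf (nat_lit 35)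 (nat_lit 99)) (nd (nat_lit 210) (nat_lit 0) (cs (lf (nat_lit 29) (nat_lit 143)) (lf (nat_lit 28) (nat_lit 121)))))))))))))))) (cs (nd (nat_lit 188) (nat_lit 0) (cs (lf (nat_lit 35) (nat_lit 165)) (nd (nat_lit 164) (nat_lit 0) (cs (lf (nat_lit 46) (nat_lit 164)) (rf (nat_lit 8)))))) (rf (nat_lit 9))))))))))))) q97297 (by decide +kernel)
def q98284 : Q := Q.p (nat_lit 0x2000008000000000000000000000000000000000000000000000000000000000) (nat_lit 0x14000150001ff0003de001f7e00fff800ffe001ff0003400000000000000000000000000000000000) (nat_lit 16)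
theorem c98284 : QOK q98284 := cut [q80819, q96570, q80765, q96992, q81381, q96472, q96795, q79996, q88247, q98190, q80728, q80931, q96725, q7464, q96705, q96712, q98194, q98196, q98184, q98199, q98203, q98210, q98222, q98243, q81054, q80685, q98248, q96337, q95696, q79601, q98253, q98254, q80921, q80922, q85178, q96990, q98259, q98279, q98277, q79217, q98280] ⟨c80819, c96570, c80765, c96992, c81381, c96472, c96795, c79996, c88247, c98190, c80728, c80931, c96725, c7464, c96705, c96712, c98194, c98196, c98184, c98199, c98203, c98210, c98222, c98243, c81054, c80685, c98248, c96337, c95696, c79601, c98253, c98254, c80921, c80922, c85178, c96990, c98259, c98279, c98277, c79217, c98280, trivial⟩ (nd (nat_lit 254) (nat_lit 0) (cs (nd (nat_lit 255) (nat_lit 0) (cs (rf (nat_lit 0)) (cs (rf (nat_lit 1)) (cs (nd (nat_lit 230) (nat_lit 0) (cs (rf (nat_lit 2)) (cs (rf (nat_lit 3)) (nd (nat_lit 252) (nat_lit 0) (cs (rf (nat_lit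 4)) (cs (rf (nat_lit 5)) (cs (rf (nat_lit 6)) (nd (nat_lit 208) (nat_lit 0) (cs (rf (nat_lit 7)) (nd (nat_lit 277) (nat_lit 0) (cs (lf (nat_lit 5) (nat_lit 252)) (rf (nat_lit 8))))))))))))) (rf (nat_lit 9)))))) (cs (nd (nat_lit 209) (nat_lit 0) (cs (rf (nat_lit 10)) (cs (rf (nat_lit 11)) (cs (rf (nat_lit 12)) (cs (nd (nat_lit 210) (nat_lit 0) (cs (rf (nat_lit 13)) (cs (rf (nat_lit 14)) (cs (rf (nat_lit 15)) (rf (nat_lit 16)))))) (rf (nat_lit 17))))))) (cs (nd (nat_lit 255) (nat_lit 0) (cs (rf (nat_lit 0)) (cs (nd (nat_lit 252) (nat_lit 0) (cs (rf (nat_lit 5)) (cs (rf (nat_lit 18)) (nd (nat_lit 229) (nat_lit 0) (cs (lf (nat_lit 22) (nat_lit 229)) (nd (nat_lit 228) (nat_lit 0) (cs (lf (nat_lit 21) (nat_lit 228)) (rf (nat_lit 19))))))))) (cs (nd (nat_lit 256) (nat_lit 0) (cs (lf (nat_lit 23) (nat_lit 230)) (nd (nat_lit 278) (nat_lit 0) (cs (lf (nat_lit 5) (nat_lit 253)) (nd (nat_lit 234) (nat_lit 0) (cs (lf (nat_lit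 17) (nat_lit 231)) (rf (nat_lit 20)))))))) (nd (nat_lit 256) (nat_lit 0) (cs (rf (nat_lit 20)) (rf (nat_lit 21)))))))) (cs (rf (nat_lit 22)) (cs (rf (nat_lit 23)) (cs (nd (nat_lit 255) (nat_lit 0) (cs (rf (nat_lit 1)) (cs (nd (nat_lit 252) (nat_lit 0) (cs (rf (nat_lit 24)) (cs (rf (nat_lit 5)) (rf (nat_lit 18))))) (nd (nat_lit 256) (nat_lit 0) (cs (lf (nat_lit 23) (nat_lit 230)) (rf (nat_lit 25))))))) (cs (nd (nat_lit 255) (nat_lit 0) (cs (rf (nat_lit 0)) (cs (rf (nat_lit 1)) (cs (rf (nat_lit 9)) (nd (nat_lit 252) (nat_lit 0) (cs (rf (nat_lit 18)) (cs (rf (nat_lit 19)) (nd (nat_lit 277) (nat_lit 0) (cs (lf (nat_lit 5) (nat_lit 252)) (rf (nat_lit 26))))))))))) (cs (nd (nat_lit 209) (nat_lit 0) (cs (rf (nat_lit 10)) (cs (rf (nat_lit 11)) (cs (rf (nat_lit 27)) (nd (nat_lit 210) (nat_lit 0) (cs (rf (nat_lit 13)) (cs (rf (nat_lit 16)) (cs (nd (nat_lit 232) (nat_lit 0) (cs (rf (nat_lit 28)) (cs (nd (nat_lit 276) (nat_lit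 0) (cs (lf (nat_lit 42) (nat_lit 209)) (rf (nat_lit 29)))) (cs (rf (nat_lit 30)) (nd (nat_lit 276) (nat_lit 0) (cs (lf (nat_lit 42) (nat_lit 209)) (rf (nat_lit 31)))))))) (nd (nat_lit 276) (nat_lit 0) (cs (rf (nat_lit 32)) (cs (rf (nat_lit 33)) (nd (nat_lit 230) (nat_lit 0) (cs (rf (nat_lit 34)) (cs (rf (nat_lit 35)) (rf (nat_lit 36)))))))))))))))) (cs (rf (nat_lit 37)) (nd (nat_lit 255) (nat_lit 0) (cs (rf (nat_lit 0)) (cs (rf (nat_lit 1)) (cs (rf (nat_lit 38)) (nd (nat_lit 252) (nat_lit 0) (cs (rf (nat_lit 39)) (cs (rf (nat_lit 5)) (nd (nat_lit 230) (nat_lit 0) (cs (lf (nat_lit 23) (nat_lit 229)) (rf (nat_lit 40))))))))))))))))))))) q98284 (by decide +kernel)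
def q98684 : Q := Q.p (nat_lit 0x800003000000000000000000000000000000000000000000000000000000000000000) (nat_lit 0x40000380007e0001fc0001e00007c000ce0007fc001fe0001f8000400000000000000000000000000000000000000000) (nat_lit 15)
theorem c98684 : QOK q98684 := cut [q98467, q98575, q82286, q98378, q98580, q14769, q14907, q98595, q98604, q98607, q98610, q56839, q98620, q98624, q98643, q98557, q98664, q24705, q87021, q11506, q98392, q80993, q98394, q89787, q98678, q98679, q98540, q98547, q98558, q98562, q25587, q98565] ⟨c98467, c98575, c82286, c98378, c98580, c14769, c14907, c98595, c98604, c98607, c98610, c56839, c98620, c98624, c98643, c98557, c98664, c24705, c87021, c11506, c98392, c80993, c98394, c89787, c98678, c98679, c98540, c98547, c98558, c98562, c25587, c98565, trivial⟩ (nd (nat_lit 274) (nat_lit 0) (cs (rf (nat_lit 0)) (cs (rf (nat_lit 1)) (cs (nd (nat_lit 251) (nat_lit 0) (cs (rf (nat_lit 2)) (cs (rf (nat_lit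 3)) (cs (rf (nat_lit 4)) (cs (nd (nat_lit 250) (nat_lit 0) (cs (lf (nat_lit 0) (nat_lit 249)) (nd (nat_lit 231) (nat_lit 0) (cs (lf (nat_lit 17) (nat_lit 228)) (nd (nat_lit 209) (nat_lit 0) (cs (lf (nat_lit 36) (nat_lit 186)) (nd (nat_lit 188) (nat_lit 0) (cs (lf (nat_lit 34) (nat_lit 187)) (nd (nat_lit 208) (nat_lit 0) (cs (lf (nat_lit 47) (nat_lit 186)) (nd (nat_lit 228) (nat_lit 0) (cs (lf (nat_lit 23) (nat_lit 227)) (nd (nat_lit 254) (nat_lit 0) (cs (lf (nat_lit 22) (nat_lit 228)) (nd (nat_lit 273) (nat_lit 0) (cs (lf (nat_lit 6) (nat_lit 251)) (nd (nat_lit 295) (nat_lit 0) (cs (lf (nat_lit 42) (nat_lit 228)) (lf (nat_lit 37) (nat_lit 207)))))))))))))))))))) (cs (nd (nat_lit 273) (nat_lit 0) (cs (rf (nat_lit 5)) (cs (rf (nat_lit 6)) (cs (rf (nat_lit 7)) (rf (nat_lit 8)))))) (nd (nat_lit 250) (nat_lit 0) (cs (lf (nat_lit 0) (nat_lit 249)) (rf (nat_lit 9)))))))))) (cs (nd (nat_lit 250) (nat_lit 0) (cs (rf (nat_lit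 10)) (cs (nd (nat_lit 231) (nat_lit 0) (cs (rf (nat_lit 11)) (cs (rf (nat_lit 12)) (rf (nat_lit 13))))) (cs (rf (nat_lit 14)) (cs (nd (nat_lit 251) (nat_lit 0) (cs (lf (nat_lit 0) (nat_lit 249)) (rf (nat_lit 15)))) (nd (nat_lit 251) (nat_lit 0) (cs (lf (nat_lit 0) (nat_lit 249)) (rf (nat_lit 9))))))))) (cs (rf (nat_lit 16)) (cs (nd (nat_lit 251) (nat_lit 0) (cs (rf (nat_lit 17)) (cs (rf (nat_lit 2)) (nd (nat_lit 273) (nat_lit 0) (cs (rf (nat_lit 6)) (cs (rf (nat_lit 18)) (nd (nat_lit 296) (nat_lit 0) (cs (rf (nat_lit 19)) (cs (rf (nat_lit 20)) (nd (nat_lit 230) (nat_lit 0) (cs (rf (nat_lit 21)) (cs (rf (nat_lit 22)) (nd (nat_lit 254) (nat_lit 0) (cs (lf (nat_lit 6) (nat_lit 251)) (nd (nat_lit 209) (nat_lit 0) (cs (lf (nat_lit 37) (nat_lit 208)) (nd (nat_lit 232) (nat_lit 0) (cs (lf (nat_lit 17) (nat_lit 229)) (nd (nat_lit 188) (nat_lit 0) (cs (lf (nat_lit 37) (nat_lit 187)) (nd (nat_lit 229) (nat_lit 0) (cs (lf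 (nat_lit 47) (nat_lit 207)) (rf (nat_lit 23)))))))))))))))))))))))) (cs (rf (nat_lit 24)) (cs (nd (nat_lit 251) (nat_lit 0) (cs (rf (nat_lit 17)) (cs (rf (nat_lit 3)) (rf (nat_lit 25))))) (cs (nd (nat_lit 251) (nat_lit 0) (cs (rf (nat_lit 17)) (cs (rf (nat_lit 26)) (rf (nat_lit 27))))) (nd (nat_lit 251) (nat_lit 0) (cs (rf (nat_lit 2)) (cs (rf (nat_lit 3)) (cs (rf (nat_lit 27)) (cs (rf (nat_lit 28)) (cs (rf (nat_lit 29)) (nd (nat_lit 273) (nat_lit 0) (cs (rf (nat_lit 5)) (cs (rf (nat_lit 6)) (cs (rf (nat_lit 30)) (rf (nat_lit 31)))))))))))))))))))))) q98684 (by decide +kernel)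
def q99065 : Q := Q.p (nat_lit 0xc00002000000000000000000000000000000000000000000000000000000000000000) (nat_lit 0x1fc0007f8001fe00003c000de00077c000fe0001f8000080000000000000000000000000000000000000000) (nat_lit 15)
theorem c99065 : QOK q99065 := cut [q98575, q98874, q82286, q91655, q98580, q98756, q14769, q14907, q99030, q25707, q94337, q94343, q94359, q98954, q88425, q89773, q94384, q99041, q98547, q98562, q25587, q2054, q99045, q84214, q98468, q98863, q83723, q87228, q14939] ⟨c98575, c98874, c82286, c91655, c98580, c98756, c14769, c14907, c99030, c25707, c94337, c94343, c94359, c98954, c88425, c89773, c94384, c99041, c98547, c98562, c25587, c2054, c99045, c84214, c98468, c98863, c83723, c87228, c14939, trivial⟩ (nd (nat_lit 252) (nat_lit 0) (cs (rf (nat_lit 0)) (cs (rf (nat_lit 1)) (cs (nd (nat_lit 251) (nat_lit 0) (cs (rf (nat_lit 2)) (cs (rf (nat_lit 3)) (cs (rf (nat_lit 4)) (cs (rf (nat_lit 5)) (cs (nd (nat_lit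 250) (nat_lit 0) (cs (lf (nat_lit 0) (nat_lit 249)) (nd (nat_lit 228) (nat_lit 0) (cs (lf (nat_lit 23) (nat_lit 227)) (nd (nat_lit 254) (nat_lit 0) (cs (lf (nat_lit 22) (nat_lit 228)) (nd (nat_lit 233) (nat_lit 0) (cs (lf (nat_lit 16) (nat_lit 229)) (nd (nat_lit 255) (nat_lit 0) (cs (lf (nat_lit 17) (nat_lit 230)) (lf (nat_lit 11) (nat_lit 251)))))))))))) (nd (nat_lit 273) (nat_lit 0) (cs (rf (nat_lit 6)) (cs (rf (nat_lit 7)) (nd (nat_lit 249) (nat_lit 0) (cs (lf (nat_lit 1) (nat_lit 249)) (rf (nat_lit 8))))))))))))) (cs (nd (nat_lit 296) (nat_lit 0) (cs (rf (nat_lit 9)) (cs (rf (nat_lit 10)) (cs (rf (nat_lit 11)) (cs (rf (nat_lit 12)) (cs (rf (nat_lit 13)) (nd (nat_lit 297) (nat_lit 0) (cs (rf (nat_lit 14)) (cs (rf (nat_lit 15)) (rf (nat_lit 16))))))))))) (cs (rf (nat_lit 17)) (cs (nd (nat_lit 251) (nat_lit 0) (cs (rf (nat_lit 2)) (cs (rf (nat_lit 3)) (cs (rf (nat_lit 18)) (cs (rf (nat_lit 19)) (cs (rf (nat_lit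 5)) (nd (nat_lit 273) (nat_lit 0) (cs (rf (nat_lit 6)) (cs (rf (nat_lit 7)) (cs (rf (nat_lit 20)) (nd (nat_lit 249) (nat_lit 0) (cs (rf (nat_lit 21)) (lf (nat_lit 1) (nat_lit 249)))))))))))))) (cs (nd (nat_lit 296) (nat_lit 0) (cs (rf (nat_lit 10)) (cs (rf (nat_lit 22)) (cs (nd (nat_lit 318) (nat_lit 0) (cs (lf (nat_lit 30) (nat_lit 252)) (nd (nat_lit 317) (nat_lit 0) (cs (lf (nat_lit 41) (nat_lit 251)) (nd (nat_lit 251) (nat_lit 0) (cs (lf (nat_lit 47) (nat_lit 229)) (nd (nat_lit 250) (nat_lit 0) (cs (lf (nat_lit 0) (nat_lit 249)) (nd (nat_lit 227) (nat_lit 0) (cs (lf (nat_lit 22) (nat_lit 227)) (nd (nat_lit 272) (nat_lit 0) (cs (lf (nat_lit 11) (nat_lit 249)) (nd (nat_lit 273) (nat_lit 0) (cs (lf (nat_lit 17) (nat_lit 250)) (nd (nat_lit 297) (nat_lit 0) (cs (lf (nat_lit 5) (nat_lit 272)) (nd (nat_lit 294) (nat_lit 0) (cs (lf (nat_lit 11) (nat_lit 271)) (nd (nat_lit 316) (nat_lit 0) (cs (lf (nat_lit 30) (nat_lit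 250)) (lf (nat_lit 12) (nat_lit 293)))))))))))))))))))))) (nd (nat_lit 318) (nat_lit 0) (cs (lf (nat_lit 30) (nat_lit 252)) (rf (nat_lit 23)))))))) (nd (nat_lit 230) (nat_lit 0) (cs (rf (nat_lit 24)) (cs (rf (nat_lit 25)) (nd (nat_lit 229) (nat_lit 0) (cs (rf (nat_lit 26)) (cs (rf (nat_lit 27)) (nd (nat_lit 319) (nat_lit 0) (cs (lf (nat_lit 43) (nat_lit 230)) (nd (nat_lit 227) (nat_lit 0) (cs (lf (nat_lit 1) (nat_lit 227)) (nd (nat_lit 254) (nat_lit 0) (cs (lf (nat_lit 18) (nat_lit 229)) (nd (nat_lit 272) (nat_lit 0) (cs (lf (nat_lit 13) (nat_lit 250)) (nd (nat_lit 296) (nat_lit 0) (cs (lf (nat_lit 47) (nat_lit 207)) (rf (nat_lit 28)))))))))))))))))))))))))) q99065 (by decide +kernel)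
def q102724 : Q := Q.p (nat_lit 0x2000000000000000000000000000000000000000000000000000000000000000) (nat_lit 0x100001d0001fe000ffc003ff0003fc00fdf003ffc00fff803ffe003ff0007f80017c00015000000000000000000000000) (nat_lit 19)
theorem c102724 : QOK q102724 := cut [q101202, q100886, q101216, q101232, q101233, q101234, q101235, q101290, q101526, q101550, q101557, q101562, q101563, q101564, q101565, q101590, q101715, q101917, q102015, q102138, q102190, q102296, q102393, q101587, q101751, q101951, q102404, q98317, q98359, q100881, q2935, q2938, q21994, q101552, q52527, q102385, q102411, q102413, q97971, q99649, q88774, q101733, q101742, q96312, q97786, q101214, q101924, q100882, q102586, q102661, q102716, q97957, q101963, q96758, q96769, q101438, q101628, q87016, q101761, q102402, q102721, q102308] ⟨c101202, c100886, c101216, c101232, c101233, c101234, c101235, c101290, c101526, c101550, c101557, c101562, c101563, c101564,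 c101565, c101590, c101715, c101917, c102015, c102138, c102190, c102296, c102393, c101587, c101751, c101951, c102404, c98317, c98359, c100881, c2935, c2938, c21994, c101552, c52527, c102385, c102411, c102413, c97971, c99649, c88774, c101733, c101742, c96312, c97786, c101214, c101924, c100882, c102586, c102661, c102716, c97957, c101963, c96758, c96769, c101438, c101628, c87016, c101761, c102402, c102721, c102308, trivial⟩ (nd (nat_lit 231) (nat_lit 0) (cs (rf (nat_lit 0)) (cs (nd (nat_lit 209) (nat_lit 0) (cs (rf (nat_lit 1)) (cs (rf (nat_lit 2)) (cs (rf (nat_lit 3)) (cs (rf (nat_lit 4)) (cs (rf (nat_lit 5)) (rf (nat_lit 6)))))))) (cs (rf (nat_lit 7)) (cs (rf (nat_lit 8)) (cs (nd (nat_lit 275) (nat_lit 0) (cs (rf (nat_lit 9)) (cs (rf (nat_lit 10)) (cs (rf (nat_lit 11)) (cs (rf (nat_lit 12)) (cs (rf (nat_lit 13)) (rf (nat_lit 14)))))))) (cs (rf (nat_lit 15)) (cs (rf (nat_lit 16)) (cs (rf (nat_lit 17)) (cs (rf (nat_lit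 18)) (cs (rf (nat_lit 19)) (cs (rf (nat_lit 20)) (cs (rf (nat_lit 21)) (cs (rf (nat_lit 22)) (cs (nd (nat_lit 275) (nat_lit 0) (cs (rf (nat_lit 14)) (cs (rf (nat_lit 23)) (cs (rf (nat_lit 24)) (cs (rf (nat_lit 25)) (cs (rf (nat_lit 26)) (cs (nd (nat_lit 209) (nat_lit 0) (cs (rf (nat_lit 27)) (cs (rf (nat_lit 28)) (cs (rf (nat_lit 29)) (nd (nat_lit 208) (nat_lit 0) (cs (lf (nat_lit 47) (nat_lit 186)) (nd (nat_lit 207) (nat_lit 0) (cs (rf (nat_lit 30)) (cs (rf (nat_lit 31)) (cs (rf (nat_lit 32)) (nd (nat_lit 276) (nat_lit 0) (cs (lf (nat_lit 29) (nat_lit 209)) (rf (nat_lit 33)))))))))))))) (cs (nd (nat_lit 209) (nat_lit 0) (cs (rf (nat_lit 34)) (cs (rf (nat_lit 35)) (rf (nat_lit 36))))) (cs (rf (nat_lit 37)) (nd (nat_lit 209) (nat_lit 0) (cs (rf (nat_lit 38)) (cs (rf (nat_lit 39)) (cs (rf (nat_lit 36)) (nd (nat_lit 188) (nat_lit 0) (cs (lf (nat_lit 34) (nat_lit 187)) (nd (nat_lit 187) (nat_lit 0) (cs (lf (nat_lit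 35) (nat_lit 165)) (rf (nat_lit 40))))))))))))))))))) (cs (nd (nat_lit 275) (nat_lit 0) (cs (rf (nat_lit 9)) (cs (rf (nat_lit 11)) (cs (rf (nat_lit 13)) (cs (rf (nat_lit 41)) (cs (rf (nat_lit 42)) (cs (rf (nat_lit 37)) (nd (nat_lit 209) (nat_lit 0) (cs (rf (nat_lit 43)) (cs (rf (nat_lit 44)) (rf (nat_lit 39)))))))))))) (cs (nd (nat_lit 275) (nat_lit 0) (cs (nd (nat_lit 209) (nat_lit 0) (cs (rf (nat_lit 28)) (rf (nat_lit 45)))) (cs (rf (nat_lit 9)) (cs (rf (nat_lit 11)) (cs (rf (nat_lit 42)) (cs (rf (nat_lit 46)) (cs (rf (nat_lit 25)) (nd (nat_lit 209) (nat_lit 0) (cs (rf (nat_lit 39)) (cs (rf (nat_lit 47)) (rf (nat_lit 45)))))))))))) (cs (rf (nat_lit 48)) (cs (rf (nat_lit 49)) (cs (rf (nat_lit 50)) (cs (nd (nat_lit 275) (nat_lit 0) (cs (rf (nat_lit 10)) (cs (rf (nat_lit 11)) (cs (rf (nat_lit 12)) (cs (rf (nat_lit 13)) (cs (rf (nat_lit 14)) (nd (nat_lit 230) (nat_lit 0) (cs (rf (nat_lit 51)) (cs (rf (nat_lit 52))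 (cs (nd (nat_lit 229) (nat_lit 0) (cs (rf (nat_lit 53)) (cs (rf (nat_lit 54)) (cs (rf (nat_lit 55)) (rf (nat_lit 56)))))) (nd (nat_lit 232) (nat_lit 0) (cs (rf (nat_lit 57)) (cs (rf (nat_lit 58)) (rf (nat_lit 59))))))))))))))) (cs (rf (nat_lit 60)) (cs (nd (nat_lit 275) (nat_lit 0) (cs (rf (nat_lit 10)) (cs (rf (nat_lit 11)) (cs (rf (nat_lit 12)) (cs (rf (nat_lit 13)) (rf (nat_lit 26))))))) (nd (nat_lit 209) (nat_lit 0) (cs (rf (nat_lit 29)) (cs (rf (nat_lit 1)) (cs (rf (nat_lit 2)) (cs (rf (nat_lit 6)) (rf (nat_lit 61)))))))))))))))))))))))))))))) q102724 (by decide +kernel)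
def q102888 : Q := Q.p (nat_lit 0x6000010000000000000000000000000000000000000000000000000000000000) (nat_lit 0x300000e8001ff80079c000e7800190000640001800000000000000000000000000000000000000000) (nat_lit 12)
theorem c102888 : QOK q102888 := cut [q81677, q81730, q102885, q102887] ⟨c81677, c81730, c102885, c102887, trivial⟩ (nd (nat_lit 252) (nat_lit 0) (cs (rf (nat_lit 0)) (cs (rf (nat_lit 1)) (cs (rf (nat_lit 2)) (rf (nat_lit 3)))))) q102888 (by decide +kernel)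
def q103259 : Q := Q.p (nat_lit 0x2000018000000000000000000000000000000000000000000000000000000000) (nat_lit 0x500001c0000f80007f00039c000070003fc000ff0000500000000000000000000000000000000000000000) (nat_lit 13)
theorem c103259 : QOK q103259 := cut [q26315, q103131, q103149, q96312, q96325, q95343, q103254, q81901] ⟨c26315, c103131, c103149, c96312, c96325, c95343, c103254, c81901, trivial⟩ (nd (nat_lit 275) (nat_lit 0) (cs (rf (nat_lit 0)) (cs (rf (nat_lit 1)) (cs (rf (nat_lit 2)) (nd (nat_lit 209) (nat_lit 0) (cs (rf (nat_lit 3)) (cs (rf (nat_lit 4)) (cs (nd (nat_lit 210) (nat_lit 0) (cs (rf (nat_lit 5)) (nd (nat_lit 276) (nat_lit 0) (cs (lf (nat_lit 29) (nat_lit 209)) (rf (nat_lit 6)))))) (nd (nat_lit 276) (nat_lit 0) (cs (lf (nat_lit 29) (nat_lit 209)) (rf (nat_lit 7)))))))))))) q103259 (by decide +kernel)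
def q103751 : Q := Q.p (nat_lit 0x6000010000000000000000000000000000000000000000000000000000000000) (nat_lit 0x1c0000f00006f00078c000ef0007fc000ff0001f80000000000000000000000000000000000000000) (nat_lit 14)
theorem c103751 : QOK q103751 := cut [q103342, q80040, q87016, q79463, q94235, q97348, q79307, q79326, q79322, q103350, q81708, q79503, q79737, q103722, q103733, q79394, q102740, q79384, q103735, q79389] ⟨c103342, c80040, c87016, c79463, c94235, c97348, c79307, c79326, c79322, c103350, c81708, c79503, c79737, c103722, c103733, c79394, c102740, c79384, c103735, c79389, trivial⟩ (nd (nat_lit 231) (nat_lit 0) (cs (rf (nat_lit 0)) (cs (nd (nat_lit 275) (nat_lit 0) (cs (rf (nat_lit 1)) (cs (rf (nat_lit 2)) (nd (nat_lit 209) (nat_lit 0) (cs (rf (nat_lit 3)) (cs (rf (nat_lit 4)) (rf (nat_lit 5)))))))) (cs (nd (nat_lit 230) (nat_lit 0) (cs (rf (nat_lit 6)) (cs (rf (nat_lit 7)) (nd (nat_lit 233) (nat_lit 0) (cs (rf (nat_lit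 8)) (cs (rf (nat_lit 9)) (nd (nat_lit 255) (nat_lit 0) (cs (rf (nat_lit 10)) (nd (nat_lit 211) (nat_lit 0) (cs (lf (nat_lit 17) (nat_lit 208)) (nd (nat_lit 189) (nat_lit 0) (cs (lf (nat_lit 36) (nat_lit 166)) (nd (nat_lit 207) (nat_lit 0) (cs (lf (nat_lit 22) (nat_lit 207)) (rf (nat_lit 11)))))))))))))))) (cs (nd (nat_lit 275) (nat_lit 0) (cs (rf (nat_lit 2)) (cs (nd (nat_lit 297) (nat_lit 0) (cs (lf (nat_lit 30) (nat_lit 231)) (rf (nat_lit 12)))) (nd (nat_lit 209) (nat_lit 0) (cs (rf (nat_lit 3)) (cs (rf (nat_lit 4)) (rf (nat_lit 13)))))))) (cs (rf (nat_lit 14)) (nd (nat_lit 275) (nat_lit 0) (cs (rf (nat_lit 1)) (cs (rf (nat_lit 2)) (nd (nat_lit 233) (nat_lit 0) (cs (rf (nat_lit 15)) (cs (rf (nat_lit 16)) (cs (nd (nat_lit 255) (nat_lit 0) (cs (rf (nat_lit 17)) (rf (nat_lit 18)))) (cs (nd (nat_lit 188) (nat_lit 0) (cs (lf (nat_lit 37) (nat_lit 187)) (nd (nat_lit 234) (nat_lit 0) (cs (lf (nat_lit 6) (nat_lit 231))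 (nd (nat_lit 212) (nat_lit 0) (cs (lf (nat_lit 17) (nat_lit 209)) (nd (nat_lit 211) (nat_lit 0) (cs (lf (nat_lit 12) (nat_lit 208)) (nd (nat_lit 189) (nat_lit 0) (cs (lf (nat_lit 36) (nat_lit 166)) (nd (nat_lit 186) (nat_lit 0) (cs (nd (nat_lit 255) (nat_lit 0) (cs (lf (nat_lit 47) (nat_lit 166)) (nd (nat_lit 190) (nat_lit 0) (cs (lf (nat_lit 35) (nat_lit 167)) (lf (nat_lit 30) (nat_lit 189)))))) (lf (nat_lit 1) (nat_lit 186)))))))))))))) (nd (nat_lit 234) (nat_lit 0) (cs (lf (nat_lit 6) (nat_lit 231)) (nd (nat_lit 212) (nat_lit 0) (cs (lf (nat_lit 17) (nat_lit 209)) (nd (nat_lit 188) (nat_lit 0) (cs (rf (nat_lit 19)) (lf (nat_lit 37) (nat_lit 187)))))))))))))))))))))) q103751 (by decide +kernel)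
def q104144 : Q := Q.p (nat_lit 0x800002000018000000000000000000000000000000000000000000000000000000000) (nat_lit 0x1000004000010000070003fc000ff0000500000000000000000000000000000000000000000) (nat_lit 10)
theorem c104144 : QOK q104144 := cut [q96312, q96325, q103722] ⟨c96312, c96325, c103722, trivial⟩ (nd (nat_lit 209) (nat_lit 0) (cs (rf (nat_lit 0)) (cs (rf (nat_lit 1)) (rf (nat_lit 2))))) q104144 (by decide +kernel)
def q104149 : Q := Q.p (nat_lit 0x2000018000000000000000000000000000000000000000000000000000000000) (nat_lit 0x400001800006000018000040000070003fc000ff0000700000000000000000000000000000000000000000) (nat_lit 11)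
theorem c104149 : QOK q104149 := cut [q26315, q87016, q94775, q98317, q103722, q81706, q85187, q104141] ⟨c26315, c87016, c94775, c98317, c103722, c81706, c85187, c104141, trivial⟩ (nd (nat_lit 275) (nat_lit 0) (cs (rf (nat_lit 0)) (cs (rf (nat_lit 1)) (cs (nd (nat_lit 209) (nat_lit 0) (cs (rf (nat_lit 2)) (cs (rf (nat_lit 3)) (rf (nat_lit 4))))) (nd (nat_lit 297) (nat_lit 0) (cs (rf (nat_lit 5)) (cs (rf (nat_lit 6)) (rf (nat_lit 7))))))))) q104149 (by decide +kernel)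
def q104409 : Q := Q.p (nat_lit 0x2000010000000000000000000000000000000000000000000000000000000000) (nat_lit 0x3e0000f8000f70007de003ef800ffe000ff0001fe0007800014000000000000000000000000000000) (nat_lit 16)
theorem c104409 : QOK q104409 := cut [q103273, q104045, q103789, q104003, q80089, q103413, q103470, q103590, q103603, q104180, q104052, q104183, q96537, q103812, q79193, q103771, q90869, q79894, q92282, q104218, q103352, q103733, q103777, q103787, q103809, q103821, q104232, q104262, q104291, q104326, q104341, q104344, q104348, q104368, q104377, q104402, q104408] ⟨c103273, c104045, c103789, c104003, c80089, c103413, c103470, c103590, c103603, c104180, c104052, c104183, c96537, c103812, c79193, c103771, c90869, c79894, c92282, c104218, c103352, c103733, c103777, c103787, c103809, c103821, c104232, c104262, c104291, c104326, c104341, c104344, c104348, c104368, c104377, c104402, c104408, trivial⟩ (nd (nat_lit 231)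 (nat_lit 0) (cs (rf (nat_lit 0)) (cs (rf (nat_lit 1)) (cs (nd (nat_lit 254) (nat_lit 0) (cs (rf (nat_lit 2)) (cs (rf (nat_lit 3)) (cs (nd (nat_lit 252) (nat_lit 0) (cs (rf (nat_lit 4)) (cs (rf (nat_lit 5)) (nd (nat_lit 255) (nat_lit 0) (cs (rf (nat_lit 6)) (cs (rf (nat_lit 7)) (cs (rf (nat_lit 8)) (rf (nat_lit 9))))))))) (cs (nd (nat_lit 252) (nat_lit 0) (cs (rf (nat_lit 4)) (cs (rf (nat_lit 10)) (rf (nat_lit 11))))) (nd (nat_lit 252) (nat_lit 0) (cs (rf (nat_lit 4)) (cs (rf (nat_lit 10)) (nd (nat_lit 210) (nat_lit 0) (cs (rf (nat_lit 12)) (cs (rf (nat_lit 13)) (cs (nd (nat_lit 209) (nat_lit 0) (cs (rf (nat_lit 14)) (cs (rf (nat_lit 15)) (nd (nat_lit 234) (nat_lit 0) (cs (lf (nat_lit 7) (nat_lit 230)) (nd (nat_lit 276) (nat_lit 0) (cs (lf (nat_lit 42) (nat_lit 209)) (rf (nat_lit 16))))))))) (cs (nd (nat_lit 233) (nat_lit 0) (cs (lf (nat_lit 6) (nat_lit 230)) (nd (nat_lit 188) (nat_lit 0) (cs (lf (nat_lit 36) (nat_lit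 165)) (nd (nat_lit 189) (nat_lit 0) (cs (lf (nat_lit 35) (nat_lit 166)) (nd (nat_lit 276) (nat_lit 0) (cs (lf (nat_lit 34) (nat_lit 188)) (rf (nat_lit 17)))))))))) (nd (nat_lit 188) (nat_lit 0) (cs (lf (nat_lit 36) (nat_lit 165)) (nd (nat_lit 233) (nat_lit 0) (cs (lf (nat_lit 6) (nat_lit 230)) (nd (nat_lit 167) (nat_lit 0) (cs (lf (nat_lit 34) (nat_lit 166)) (nd (nat_lit 187) (nat_lit 0) (cs (lf (nat_lit 47) (nat_lit 165)) (nd (nat_lit 209) (nat_lit 0) (cs (lf (nat_lit 41) (nat_lit 186)) (rf (nat_lit 18))))))))))))))))))))))))) (cs (rf (nat_lit 19)) (cs (nd (nat_lit 254) (nat_lit 0) (cs (rf (nat_lit 20)) (cs (rf (nat_lit 21)) (cs (rf (nat_lit 22)) (cs (rf (nat_lit 23)) (cs (rf (nat_lit 2)) (cs (rf (nat_lit 24)) (rf (nat_lit 25))))))))) (cs (rf (nat_lit 26)) (cs (rf (nat_lit 27)) (cs (rf (nat_lit 28)) (cs (rf (nat_lit 29)) (cs (rf (nat_lit 30)) (cs (rf (nat_lit 31)) (cs (rf (nat_lit 32)) (cs (rf (nat_lit 33)) (cs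 (rf (nat_lit 34)) (cs (rf (nat_lit 35)) (rf (nat_lit 36)))))))))))))))))) q104409 (by decide +kernel)
def q104731 : Q := Q.p (nat_lit 0x2000010000000000000000000000000000000000000000000000000000000000) (nat_lit 0x360000d8000ff0007de003ef800ffe000ff0001f80007c00014000000000000000000000000000000) (nat_lit 16)
theorem c104731 : QOK q104731 := cut [q103273, q104119, q104218, q104232, q104291, q104326, q104341, q104344, q104348, q104368, q104377, q104402, q104408, q97375, q97498, q102742, q104401, q91035, q104107, q104694, q104698, q92275, q104112, q102423, q95343, q104116, q104706, q104711, q104722, q104106, q104117, q12221, q97436, q102505, q104347, q104397, q104307] ⟨c103273, c104119, c104218, c104232, c104291, c104326, c104341, c104344, c104348, c104368, c104377, c104402, c104408, c97375, c97498, c102742, c104401, c91035, c104107, c104694, c104698, c92275, c104112, c102423, c95343, c104116, c104706, c104711, c104722,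 c104106, c104117, c12221, c97436, c102505, c104347, c104397, c104307, trivial⟩ (nd (nat_lit 231) (nat_lit 0) (cs (rf (nat_lit 0)) (cs (rf (nat_lit 1)) (cs (rf (nat_lit 2)) (cs (rf (nat_lit 3)) (cs (rf (nat_lit 4)) (cs (rf (nat_lit 5)) (cs (rf (nat_lit 6)) (cs (rf (nat_lit 7)) (cs (rf (nat_lit 8)) (cs (rf (nat_lit 9)) (cs (rf (nat_lit 10)) (cs (rf (nat_lit 11)) (cs (rf (nat_lit 12)) (cs (nd (nat_lit 233) (nat_lit 0) (cs (rf (nat_lit 13)) (cs (rf (nat_lit 14)) (cs (rf (nat_lit 15)) (cs (rf (nat_lit 16)) (cs (nd (nat_lit 210) (nat_lit 0) (cs (rf (nat_lit 17)) (cs (nd (nat_lit 209) (nat_lit 0) (cs (rf (nat_lit 18)) (cs (rf (nat_lit 19)) (cs (rf (nat_lit 20)) (nd (nat_lit 254) (nat_lit 0) (cs (rf (nat_lit 21)) (cs (rf (nat_lit 22)) (nd (nat_lit 187) (nat_lit 0) (cs (lf (nat_lit 24) (nat_lit 165)) (rf (nat_lit 23))))))))))) (cs (nd (nat_lit 209) (nat_lit 0) (cs (rf (nat_lit 24)) (cs (rf (nat_lit 25)) (rf (nat_lit 19)))))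 (cs (nd (nat_lit 188) (nat_lit 0) (cs (lf (nat_lit 36) (nat_lit 165)) (nd (nat_lit 254) (nat_lit 0) (cs (lf (nat_lit 41) (nat_lit 187)) (nd (nat_lit 251) (nat_lit 0) (cs (lf (nat_lit 13) (nat_lit 229)) (rf (nat_lit 26)))))))) (rf (nat_lit 27))))))) (rf (nat_lit 28)))))))) (nd (nat_lit 210) (nat_lit 0) (cs (rf (nat_lit 17)) (cs (rf (nat_lit 29)) (cs (rf (nat_lit 30)) (nd (nat_lit 230) (nat_lit 0) (cs (rf (nat_lit 31)) (cs (rf (nat_lit 32)) (nd (nat_lit 233) (nat_lit 0) (cs (rf (nat_lit 33)) (cs (rf (nat_lit 34)) (cs (rf (nat_lit 35)) (nd (nat_lit 255) (nat_lit 0) (cs (lf (nat_lit 5) (nat_lit 230)) (nd (nat_lit 277) (nat_lit 0) (cs (lf (nat_lit 42) (nat_lit 210)) (nd (nat_lit 207) (nat_lit 0) (cs (lf (nat_lit 22) (nat_lit 207)) (nd (nat_lit 211) (nat_lit 0) (cs (lf (nat_lit 17) (nat_lit 208)) (rf (nat_lit 36)))))))))))))))))))))))))))))))))))) q104731 (by decide +kernel)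
def q104923 : Q := Q.p (nat_lit 0x2000010000000000000000000000000000000000000000000000000000000000) (nat_lit 0x280000e00003c0000fc001ff0007d8003ef8007fe001ff8007f8000380000a000000000000000000000000000000) (nat_lit 14)
theorem c104923 : QOK q104923 := cut [q102851, q103084, q103911, q103930, q104455, q79118, q102862, q104917, q102885, q79128, q79988, q103081, q79868, q103965, q103980, q95696, q103355, q103995] ⟨c102851, c103084, c103911, c103930, c104455, c79118, c102862, c104917, c102885, c79128, c79988, c103081, c79868, c103965, c103980, c95696, c103355, c103995, trivial⟩ (nd (nat_lit 254) (nat_lit 0) (cs (rf (nat_lit 0)) (cs (rf (nat_lit 1)) (cs (rf (nat_lit 2)) (cs (rf (nat_lit 3)) (cs (rf (nat_lit 4)) (cs (nd (nat_lit 252) (nat_lit 0) (cs (rf (nat_lit 5)) (cs (rf (nat_lit 6)) (rf (nat_lit 7))))) (cs (nd (nat_lit 252) (nat_lit 0) (cs (rf (nat_lit 5)) (cs (rf (nat_lit 8)) (rf (nat_lit 7))))) (nd (nat_lit 210)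 (nat_lit 0) (cs (rf (nat_lit 9)) (cs (rf (nat_lit 10)) (cs (rf (nat_lit 11)) (nd (nat_lit 209) (nat_lit 0) (cs (rf (nat_lit 12)) (cs (rf (nat_lit 13)) (cs (rf (nat_lit 14)) (nd (nat_lit 231) (nat_lit 0) (cs (rf (nat_lit 15)) (cs (rf (nat_lit 16)) (rf (nat_lit 17))))))))))))))))))))) q104923 (by decide +kernel)
def q105044 : Q := Q.p (nat_lit 0x2000010000000000000000000000000000000000000000000000000000000000) (nat_lit 0x80000e0000380000f8000fb8007dc003ef8007fe001ff0003fe000f80000a000000000000000000000000000000) (nat_lit 16)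
theorem c105044 : QOK q105044 := cut [q103082, q103658, q103822, q103930, q104412, q104968, q104997, q105037, q79988, q102829, q103962, q104967, q79128, q102805, q102828, q102814, q104966, q104995, q79607, q79273] ⟨c103082, c103658, c103822, c103930, c104412, c104968, c104997, c105037, c79988, c102829, c103962, c104967, c79128, c102805, c102828, c102814, c104966, c104995, c79607, c79273, trivial⟩ (nd (nat_lit 254) (nat_lit 0) (cs (rf (nat_lit 0)) (cs (rf (nat_lit 1)) (cs (rf (nat_lit 2)) (cs (rf (nat_lit 3)) (cs (rf (nat_lit 4)) (cs (rf (nat_lit 5)) (cs (rf (nat_lit 6)) (cs (rf (nat_lit 7)) (cs (nd (nat_lit 210) (nat_lit 0) (cs (rf (nat_lit 8)) (cs (rf (nat_lit 9)) (cs (rf (nat_lit 10)) (rf (nat_lit 11)))))) (nd (nat_lit 210) (nat_lit 0) (cs (rf (nat_lit 12)) (cs (rf (nat_lit 13)) (cs (rf (nat_lit 14)) (cs (rf (nat_lit 9)) (nd (nat_lit 276) (nat_lit 0) (cs (rf (nat_lit 15)) (cs (rf (nat_lit 16)) (cs (rf (nat_lit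 17)) (nd (nat_lit 209) (nat_lit 0) (cs (lf (nat_lit 47) (nat_lit 187)) (nd (nat_lit 231) (nat_lit 0) (cs (rf (nat_lit 18)) (nd (nat_lit 275) (nat_lit 0) (cs (lf (nat_lit 30) (nat_lit 209)) (rf (nat_lit 19))))))))))))))))))))))))))) q105044 (by decide +kernel)
def q105421 : Q := Q.p (nat_lit 0x800003000000000000000000000000000000000000000000000000000000000000000) (nat_lit 0x700003c0003f0000ff0003f8001ff000778001c6000780001fc0003c0000000000000000000000000000000000000000000000) (nat_lit 18)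
theorem c105421 : QOK q105421 := cut [q105268, q105308, q94500, q105334, q11506, q22018, q25883, q84334, q105339, q24703, q105349, q105352, q105404, q84408, q98384, q1310, q105248, q105405, q79079, q98826, q22569, q105353, q105402] ⟨c105268, c105308, c94500, c105334, c11506, c22018, c25883, c84334, c105339, c24703, c105349, c105352, c105404, c84408, c98384, c1310, c105248, c105405, c79079, c98826, c22569, c105353, c105402, trivial⟩ (nd (nat_lit 274) (nat_lit 0) (cs (rf (nat_lit 0)) (cs (rf (nat_lit 1)) (cs (nd (nat_lit 297) (nat_lit 0) (cs (rf (nat_lit 2)) (cs (rf (nat_lit 3)) (cs (nd (nat_lit 296) (nat_lit 0) (cs (rf (nat_lit 4)) (cs (rf (nat_lit 5)) (rf (nat_lit 6))))) (cs (nd (nat_lit 319) (nat_lit 0) (cs (lf (nat_lit 42) (nat_lit 252)) (nd (nat_lit 320) (nat_lit 0) (cs (lf (nat_lit 29) (nat_lit 253)) (rf (nat_lit 7)))))) (nd (nat_lit 319) (nat_lit 0) (cs (lf (nat_lit 42) (nat_lit 252)) (rf (nat_lit 8)))))))))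 (cs (nd (nat_lit 231) (nat_lit 0) (cs (rf (nat_lit 9)) (cs (rf (nat_lit 10)) (nd (nat_lit 297) (nat_lit 0) (cs (rf (nat_lit 3)) (cs (rf (nat_lit 11)) (nd (nat_lit 296) (nat_lit 0) (cs (lf (nat_lit 41) (nat_lit 230)) (nd (nat_lit 210) (nat_lit 0) (cs (lf (nat_lit 34) (nat_lit 209)) (nd (nat_lit 298) (nat_lit 0) (cs (lf (nat_lit 29) (nat_lit 231)) (nd (nat_lit 299) (nat_lit 0) (cs (lf (nat_lit 18) (nat_lit 274)) (nd (nat_lit 277) (nat_lit 0) (cs (lf (nat_lit 17) (nat_lit 274)) (nd (nat_lit 276) (nat_lit 0) (cs (lf (nat_lit 12) (nat_lit 273)) (nd (nat_lit 255) (nat_lit 0) (cs (lf (nat_lit 17) (nat_lit 252)) (nd (nat_lit 233) (nat_lit 0) (cs (lf (nat_lit 36) (nat_lit 210)) (nd (nat_lit 234) (nat_lit 0) (cs (lf (nat_lit 35) (nat_lit 211)) (lf (nat_lit 14) (nat_lit 230)))))))))))))))))))))))))) (cs (rf (nat_lit 12)) (cs (nd (nat_lit 273) (nat_lit 0) (cs (rf (nat_lit 13)) (cs (rf (nat_lit 14)) (nd (nat_lit 276) (nat_lit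 0) (cs (rf (nat_lit 15)) (cs (rf (nat_lit 16)) (nd (nat_lit 296) (nat_lit 0) (cs (rf (nat_lit 4)) (cs (nd (nat_lit 254) (nat_lit 0) (cs (lf (nat_lit 6) (nat_lit 251)) (nd (nat_lit 298) (nat_lit 0) (cs (lf (nat_lit 5) (nat_lit 273)) (nd (nat_lit 209) (nat_lit 0) (cs (lf (nat_lit 37) (nat_lit 208)) (nd (nat_lit 295) (nat_lit 0) (cs (lf (nat_lit 11) (nat_lit 272)) (nd (nat_lit 317) (nat_lit 0) (cs (lf (nat_lit 30) (nat_lit 251)) (nd (nat_lit 297) (nat_lit 0) (cs (lf (nat_lit 11) (nat_lit 294)) (rf (nat_lit 17)))))))))))))) (nd (nat_lit 254) (nat_lit 0) (cs (rf (nat_lit 18)) (nd (nat_lit 298) (nat_lit 0) (cs (lf (nat_lit 5) (nat_lit 273)) (nd (nat_lit 294) (nat_lit 0) (cs (lf (nat_lit 10) (nat_lit 272)) (nd (nat_lit 318) (nat_lit 0) (cs (lf (nat_lit 30) (nat_lit 252)) (nd (nat_lit 319) (nat_lit 0) (cs (lf (nat_lit 29) (nat_lit 252)) (rf (nat_lit 19))))))))))))))))))))) (nd (nat_lit 231) (nat_lit 0) (cs (rf (nat_lit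 9)) (cs (nd (nat_lit 297) (nat_lit 0) (cs (nd (nat_lit 298) (nat_lit 0) (cs (lf (nat_lit 29) (nat_lit 231)) (nd (nat_lit 319) (nat_lit 0) (cs (lf (nat_lit 42) (nat_lit 252)) (rf (nat_lit 20)))))) (cs (rf (nat_lit 11)) (rf (nat_lit 21))))) (rf (nat_lit 22)))))))))))) q105421 (by decide +kernel)
def q106072 : Q := Q.p (nat_lit 0x3000000000000000000000000000000000000000000000000000000000000000) (nat_lit 0x80003f0000fc000f7c003cf800fff003fe001ff8003fc0001400000000000000000000000000000000000) (nat_lit 16)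
theorem c106072 : QOK q106072 := cut [q2624, q82278, q79020, q79231, q105767, q105861, q105871, q105910, q105922, q105949, q82275, q101089, q105858, q82301, q2065, q12246, q96776, q105952, q91260, q105982, q82309, q86313, q86631, q105961, q105990, q94756, q105996, q106022, q106027, q79260, q105827, q105860, q106035, q106059, q106034, q82198, q93918, q106060, q88829, q105902, q105924, q80237, q82297, q96398, q81463, q82184] ⟨c2624, c82278, c79020, c79231, c105767, c105861, c105871, c105910, c105922, c105949, c82275, c101089, c105858, c82301, c2065, c12246, c96776, c105952, c91260, c105982, c82309, c86313, c86631, c105961, c105990, c94756, c105996, c106022, c106027, c79260, c105827, c105860, c106035, c106059, c106034, c82198, c93918, c106060, c88829, c105902, c105924, c80237, c82297, c96398, c81463, c82184, trivial⟩ (nd (nat_lit 231) (nat_lit 0) (cs (nd (nat_lit 251) (nat_lit 0) (cs (rf (nat_lit 0)) (cs (rf (nat_lit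 1)) (cs (nd (nat_lit 254) (nat_lit 0) (cs (rf (nat_lit 2)) (cs (rf (nat_lit 3)) (cs (rf (nat_lit 4)) (rf (nat_lit 5)))))) (rf (nat_lit 6)))))) (cs (rf (nat_lit 7)) (cs (rf (nat_lit 8)) (cs (rf (nat_lit 9)) (cs (nd (nat_lit 251) (nat_lit 0) (cs (rf (nat_lit 10)) (cs (rf (nat_lit 6)) (nd (nat_lit 254) (nat_lit 0) (cs (rf (nat_lit 2)) (cs (rf (nat_lit 3)) (cs (rf (nat_lit 11)) (nd (nat_lit 233) (nat_lit 0) (cs (lf (nat_lit 16) (nat_lit 229)) (rf (nat_lit 12))))))))))) (cs (nd (nat_lit 209) (nat_lit 0) (cs (rf (nat_lit 13)) (cs (nd (nat_lit 251) (nat_lit 0) (cs (rf (nat_lit 0)) (cs (rf (nat_lit 10)) (cs (nd (nat_lit 250) (nat_lit 0) (cs (rf (nat_lit 14)) (cs (rf (nat_lit 15)) (cs (nd (nat_lit 230) (nat_lit 0) (cs (lf (nat_lit 12) (nat_lit 227)) (nd (nat_lit 274) (nat_lit 0) (cs (lf (nat_lit 30) (nat_lit 208)) (rf (nat_lit 16)))))) (nd (nat_lit 227) (nat_lit 0) (cs (lf (nat_lit 22) (nat_lit 227)) (nd (nat_lit 272) (nat_lit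 0) (cs (lf (nat_lit 11) (nat_lit 249)) (nd (nat_lit 254) (nat_lit 0) (cs (lf (nat_lit 10) (nat_lit 250)) (nd (nat_lit 277) (nat_lit 0) (cs (lf (nat_lit 4) (nat_lit 251)) (rf (nat_lit 17)))))))))))))) (nd (nat_lit 254) (nat_lit 0) (cs (rf (nat_lit 2)) (cs (rf (nat_lit 3)) (rf (nat_lit 18))))))))) (rf (nat_lit 19))))) (cs (nd (nat_lit 209) (nat_lit 0) (cs (rf (nat_lit 13)) (cs (rf (nat_lit 20)) (cs (rf (nat_lit 19)) (nd (nat_lit 232) (nat_lit 0) (cs (rf (nat_lit 21)) (cs (rf (nat_lit 22)) (cs (nd (nat_lit 254) (nat_lit 0) (cs (rf (nat_lit 23)) (cs (rf (nat_lit 24)) (nd (nat_lit 251) (nat_lit 0) (cs (lf (nat_lit 12) (nat_lit 228)) (rf (nat_lit 25))))))) (rf (nat_lit 26)))))))))) (cs (rf (nat_lit 27)) (cs (nd (nat_lit 251) (nat_lit 0) (cs (rf (nat_lit 0)) (cs (rf (nat_lit 10)) (cs (rf (nat_lit 28)) (nd (nat_lit 254) (nat_lit 0) (cs (rf (nat_lit 29)) (cs (rf (nat_lit 30)) (rf (nat_lit 31))))))))) (cs (rf (nat_lit 32))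 (cs (rf (nat_lit 33)) (cs (nd (nat_lit 251) (nat_lit 0) (cs (rf (nat_lit 0)) (cs (rf (nat_lit 10)) (cs (rf (nat_lit 34)) (nd (nat_lit 229) (nat_lit 0) (cs (rf (nat_lit 35)) (cs (rf (nat_lit 36)) (cs (rf (nat_lit 37)) (nd (nat_lit 230) (nat_lit 0) (cs (rf (nat_lit 38)) (cs (rf (nat_lit 39)) (cs (rf (nat_lit 40)) (nd (nat_lit 254) (nat_lit 0) (cs (lf (nat_lit 18) (nat_lit 229)) (nd (nat_lit 272) (nat_lit 0) (cs (lf (nat_lit 10) (nat_lit 250)) (nd (nat_lit 232) (nat_lit 0) (cs (lf (nat_lit 6) (nat_lit 229)) (rf (nat_lit 41)))))))))))))))))))) (nd (nat_lit 251) (nat_lit 0) (cs (rf (nat_lit 0)) (cs (rf (nat_lit 42)) (cs (rf (nat_lit 28)) (cs (nd (nat_lit 254) (nat_lit 0) (cs (rf (nat_lit 3)) (cs (rf (nat_lit 43)) (nd (nat_lit 228) (nat_lit 0) (cs (lf (nat_lit 22) (nat_lit 228)) (nd (nat_lit 276) (nat_lit 0) (cs (lf (nat_lit 5) (nat_lit 251)) (rf (nat_lit 44))))))))) (nd (nat_lit 250) (nat_lit 0) (cs (lf (nat_lit 17)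 (nat_lit 228)) (rf (nat_lit 45)))))))))))))))))))))) q106072 (by decide +kernel)
def q106689 : Q := Q.p (nat_lit 0x3000000000000000000000000000000000000000000000000000000000000000) (nat_lit 0x380000e00007c0001f00007f000eff001cf8007ff001fe0003f00007c0001500000000000000000000000000000000000) (nat_lit 19)
theorem c106689 : QOK q106689 := cut [q89928, q93921, q106626, q106627, q106628, q106663, q106665, q2624, q82275, q106675, q80881, q82301, q2065, q12246, q88836, q106680, q81820, q87384, q105695, q105701, q82377, q84221, q89931, q91682, q106687, q12247, q88839, q89927] ⟨c89928, c93921, c106626, c106627, c106628, c106663, c106665, c2624, c82275, c106675, c80881, c82301, c2065, c12246, c88836, c106680, c81820, c87384, c105695, c105701, c82377, c84221, c89931, c91682, c106687, c12247, c88839, c89927, trivial⟩ (nd (nat_lit 251) (nat_lit 0) (cs (rf (nat_lit 0)) (cs (rf (nat_lit 1)) (cs (rf (nat_lit 2)) (cs (rf (nat_lit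 3)) (cs (rf (nat_lit 4)) (cs (rf (nat_lit 5)) (cs (rf (nat_lit 6)) (cs (nd (nat_lit 231) (nat_lit 0) (cs (rf (nat_lit 7)) (cs (rf (nat_lit 8)) (cs (rf (nat_lit 9)) (nd (nat_lit 274) (nat_lit 0) (cs (rf (nat_lit 10)) (cs (nd (nat_lit 209) (nat_lit 0) (cs (rf (nat_lit 11)) (nd (nat_lit 250) (nat_lit 0) (cs (rf (nat_lit 12)) (cs (rf (nat_lit 13)) (cs (rf (nat_lit 14)) (rf (nat_lit 15)))))))) (nd (nat_lit 296) (nat_lit 0) (cs (rf (nat_lit 16)) (cs (rf (nat_lit 17)) (cs (nd (nat_lit 318) (nat_lit 0) (cs (lf (nat_lit 35) (nat_lit 230)) (nd (nat_lit 229) (nat_lit 0) (cs (lf (nat_lit 46) (nat_lit 229)) (nd (nat_lit 207) (nat_lit 0) (cs (lf (nat_lit 45) (nat_lit 207)) (rf (nat_lit 18)))))))) (cs (nd (nat_lit 318) (nat_lit 0) (cs (lf (nat_lit 35) (nat_lit 230)) (nd (nat_lit 229) (nat_lit 0) (cs (lf (nat_lit 46) (nat_lit 229)) (nd (nat_lit 207) (nat_lit 0) (cs (lf (nat_lit 45) (nat_lit 207)) (nd (nat_lit 317) (nat_lit 0)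 (cs (lf (nat_lit 41) (nat_lit 251)) (rf (nat_lit 19)))))))))) (nd (nat_lit 230) (nat_lit 0) (cs (rf (nat_lit 20)) (cs (rf (nat_lit 21)) (cs (rf (nat_lit 22)) (rf (nat_lit 23)))))))))))))))))) (cs (rf (nat_lit 24)) (nd (nat_lit 250) (nat_lit 0) (cs (rf (nat_lit 25)) (cs (rf (nat_lit 26)) (rf (nat_lit 27))))))))))))))) q106689 (by decide +kernel)
def q107322 : Q := Q.p (nat_lit 0x2000008000000000000000000000000000000000000000000000000000000000) (nat_lit 0x100000e0003f8000ff00077c001df000f7e007ff8007f8000fe0000f00001c00005000000000000000000000000) (nat_lit 15)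
theorem c107322 : QOK q107322 := cut [q107224, q107232, q107098, q107199, q96797, q102009, q105939, q107236, q87526, q96868, q96873, q84998, q87683, q107200, q85001, q92803, q107252, q96409, q96917, q96920, q96956, q107202, q88136, q88151, q88162, q101466, q79097, q85044, q11005, q85040, q426, q92055, q92061, q107258, q107275, q96758, q96836, q107186, q107280, q107283, q96769, q97207, q97173, q97225, q97174, q97175, q97183, q87919, q88302, q100955, q100922, q101510, q79182, q107292, q96846, q97120, q97111, q107248, q107305, q85172, q107303, q97029, q97039, q97045, q97051, q107299, q107307, q107319, q107321] ⟨c107224, c107232, c107098, c107199, c96797, c102009, c105939, c107236, c87526, c96868, c96873, c84998, c87683, c107200, c85001, c92803, c107252, c96409, c96917, c96920, c96956, c107202, c88136, c88151, c88162, c101466, c79097, c85044, c11005, c85040, c426, c92055, c92061, c107258, c107275, c96758, c96836, c107186,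 c107280, c107283, c96769, c97207, c97173, c97225, c97174, c97175, c97183, c87919, c88302, c100955, c100922, c101510, c79182, c107292, c96846, c97120, c97111, c107248, c107305, c85172, c107303, c97029, c97039, c97045, c97051, c107299, c107307, c107319, c107321, trivial⟩ (nd (nat_lit 230) (nat_lit 0) (cs (rf (nat_lit 0)) (cs (rf (nat_lit 1)) (cs (nd (nat_lit 252) (nat_lit 0) (cs (rf (nat_lit 2)) (cs (rf (nat_lit 3)) (cs (nd (nat_lit 254) (nat_lit 0) (cs (rf (nat_lit 4)) (cs (rf (nat_lit 5)) (rf (nat_lit 6))))) (cs (rf (nat_lit 7)) (nd (nat_lit 208) (nat_lit 0) (cs (rf (nat_lit 8)) (cs (rf (nat_lit 9)) (cs (rf (nat_lit 10)) (cs (nd (nat_lit 209) (nat_lit 0) (cs (rf (nat_lit 11)) (cs (rf (nat_lit 12)) (rf (nat_lit 13))))) (nd (nat_lit 209) (nat_lit 0) (cs (rf (nat_lit 11)) (cs (rf (nat_lit 14)) (nd (nat_lit 164) (nat_lit 0) (cs (lf (nat_lit 25) (nat_lit 164)) (rf (nat_lit 15))))))))))))))))) (cs (rf (nat_lit 16)) (cs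 (nd (nat_lit 252) (nat_lit 0) (cs (rf (nat_lit 17)) (cs (rf (nat_lit 18)) (cs (rf (nat_lit 19)) (cs (rf (nat_lit 20)) (cs (rf (nat_lit 21)) (cs (rf (nat_lit 7)) (cs (nd (nat_lit 228) (nat_lit 0) (cs (rf (nat_lit 22)) (cs (rf (nat_lit 23)) (cs (rf (nat_lit 24)) (rf (nat_lit 25)))))) (cs (nd (nat_lit 274) (nat_lit 0) (cs (rf (nat_lit 26)) (cs (rf (nat_lit 27)) (nd (nat_lit 208) (nat_lit 0) (cs (rf (nat_lit 28)) (cs (rf (nat_lit 29)) (nd (nat_lit 251) (nat_lit 0) (cs (rf (nat_lit 30)) (cs (rf (nat_lit 31)) (nd (nat_lit 209) (nat_lit 0) (cs (rf (nat_lit 32)) (rf (nat_lit 13))))))))))))) (rf (nat_lit 33))))))))))) (cs (rf (nat_lit 34)) (cs (nd (nat_lit 229) (nat_lit 0) (cs (rf (nat_lit 35)) (cs (rf (nat_lit 36)) (cs (rf (nat_lit 37)) (rf (nat_lit 38)))))) (cs (rf (nat_lit 39)) (cs (nd (nat_lit 229) (nat_lit 0) (cs (rf (nat_lit 35)) (cs (rf (nat_lit 40)) (cs (rf (nat_lit 36)) (cs (rf (nat_lit 41)) (nd (nat_lit 251) (nat_lit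 0) (cs (rf (nat_lit 42)) (cs (rf (nat_lit 43)) (cs (nd (nat_lit 273) (nat_lit 0) (cs (rf (nat_lit 44)) (cs (rf (nat_lit 45)) (cs (rf (nat_lit 46)) (nd (nat_lit 252) (nat_lit 0) (cs (rf (nat_lit 47)) (cs (rf (nat_lit 48)) (rf (nat_lit 49))))))))) (cs (nd (nat_lit 252) (nat_lit 0) (cs (rf (nat_lit 50)) (cs (rf (nat_lit 51)) (cs (rf (nat_lit 33)) (nd (nat_lit 232) (nat_lit 0) (cs (lf (nat_lit 6) (nat_lit 229)) (nd (nat_lit 254) (nat_lit 0) (cs (lf (nat_lit 5) (nat_lit 229)) (nd (nat_lit 206) (nat_lit 0) (cs (lf (nat_lit 22) (nat_lit 206)) (rf (nat_lit 52)))))))))))) (rf (nat_lit 53)))))))))))) (cs (nd (nat_lit 229) (nat_lit 0) (cs (rf (nat_lit 40)) (cs (rf (nat_lit 54)) (cs (rf (nat_lit 55)) (cs (rf (nat_lit 38)) (nd (nat_lit 206) (nat_lit 0) (cs (rf (nat_lit 56)) (cs (rf (nat_lit 57)) (nd (nat_lit 205) (nat_lit 0) (cs (lf (nat_lit 21) (nat_lit 205)) (nd (nat_lit 207) (nat_lit 0) (cs (lf (nat_lit 18) (nat_lit 206))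 (lf (nat_lit 3) (nat_lit 205)))))))))))))) (cs (rf (nat_lit 58)) (cs (nd (nat_lit 229) (nat_lit 0) (cs (rf (nat_lit 35)) (cs (rf (nat_lit 40)) (cs (rf (nat_lit 36)) (cs (rf (nat_lit 37)) (nd (nat_lit 207) (nat_lit 0) (cs (rf (nat_lit 59)) (cs (rf (nat_lit 60)) (cs (nd (nat_lit 185) (nat_lit 0) (cs (rf (nat_lit 61)) (cs (rf (nat_lit 62)) (cs (rf (nat_lit 63)) (cs (rf (nat_lit 64)) (rf (nat_lit 65))))))) (rf (nat_lit 66))))))))))) (cs (rf (nat_lit 67)) (rf (nat_lit 68)))))))))))))))) q107322 (by decide +kernel)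
def q107864 : Q := Q.p (nat_lit 0x2000008000000000000000000000000000000000000000000000000000000000) (nat_lit 0x140000f00007f0003fe0007f8001df000f78003bf0003e0000f80001400000000000000000000000000000000000) (nat_lit 16)
theorem c107864 : QOK q107864 := cut [q98133, q101918, q107367, q107786, q79736, q84365, q97798, q81896, q97957, q96990, q102009, q107016, q107808, q90300, q105925, q107205, q107817, q96758, q96769, q96836, q97207, q80734, q96759, q80708, q98359, q99316, q107716, q107833, q97173, q97188, q101964, q107292, q99559, q100922, q107072, q101985, q91378, q107845, q107848, q80609, q81381, q107853, q107858, q107862, q82063, q101581] ⟨c98133, c101918, c107367, c107786, c79736, c84365, c97798, c81896, c97957, c96990, c102009, c107016, c107808, c90300, c105925, c107205, c107817, c96758, c96769, c96836, c97207, c80734, c96759, c80708, c98359, c99316, c107716, c107833, c97173, c97188, c101964, c107292, c99559,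 c100922, c107072, c101985, c91378, c107845, c107848, c80609, c81381, c107853, c107858, c107862, c82063, c101581, trivial⟩ (nd (nat_lit 275) (nat_lit 0) (cs (rf (nat_lit 0)) (cs (rf (nat_lit 1)) (cs (rf (nat_lit 2)) (cs (rf (nat_lit 3)) (cs (nd (nat_lit 297) (nat_lit 0) (cs (rf (nat_lit 4)) (cs (rf (nat_lit 5)) (rf (nat_lit 6))))) (cs (nd (nat_lit 230) (nat_lit 0) (cs (rf (nat_lit 7)) (cs (rf (nat_lit 8)) (cs (nd (nat_lit 254) (nat_lit 0) (cs (rf (nat_lit 9)) (cs (rf (nat_lit 10)) (cs (rf (nat_lit 11)) (cs (rf (nat_lit 12)) (nd (nat_lit 252) (nat_lit 0) (cs (rf (nat_lit 13)) (cs (rf (nat_lit 14)) (cs (rf (nat_lit 15)) (rf (nat_lit 16))))))))))) (nd (nat_lit 229) (nat_lit 0) (cs (rf (nat_lit 17)) (cs (rf (nat_lit 18)) (cs (rf (nat_lit 19)) (cs (rf (nat_lit 20)) (nd (nat_lit 254) (nat_lit 0) (cs (rf (nat_lit 21)) (cs (rf (nat_lit 22)) (nd (nat_lit 209) (nat_lit 0) (cs (rf (nat_lit 23)) (cs (rf (nat_lit 24)) (cs (rf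 (nat_lit 25)) (rf (nat_lit 26)))))))))))))))))) (cs (nd (nat_lit 230) (nat_lit 0) (cs (rf (nat_lit 8)) (cs (rf (nat_lit 27)) (cs (nd (nat_lit 229) (nat_lit 0) (cs (rf (nat_lit 17)) (cs (rf (nat_lit 18)) (cs (rf (nat_lit 19)) (cs (rf (nat_lit 20)) (nd (nat_lit 251) (nat_lit 0) (cs (rf (nat_lit 28)) (cs (rf (nat_lit 29)) (cs (rf (nat_lit 30)) (cs (rf (nat_lit 31)) (nd (nat_lit 252) (nat_lit 0) (cs (rf (nat_lit 32)) (cs (rf (nat_lit 33)) (rf (nat_lit 34))))))))))))))) (nd (nat_lit 254) (nat_lit 0) (cs (rf (nat_lit 10)) (cs (rf (nat_lit 11)) (cs (nd (nat_lit 229) (nat_lit 0) (cs (rf (nat_lit 17)) (cs (rf (nat_lit 19)) (nd (nat_lit 297) (nat_lit 0) (cs (rf (nat_lit 5)) (cs (rf (nat_lit 35)) (nd (nat_lit 274) (nat_lit 0) (cs (rf (nat_lit 36)) (cs (rf (nat_lit 37)) (rf (nat_lit 38))))))))))) (nd (nat_lit 255) (nat_lit 0) (cs (lf (nat_lit 18) (nat_lit 230)) (nd (nat_lit 252) (nat_lit 0) (cs (rf (nat_lit 39)) (cs (rf (nat_lit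 40)) (rf (nat_lit 41))))))))))))))) (cs (rf (nat_lit 42)) (cs (rf (nat_lit 43)) (nd (nat_lit 297) (nat_lit 0) (cs (rf (nat_lit 44)) (cs (rf (nat_lit 6)) (rf (nat_lit 45))))))))))))))) q107864 (by decide +kernel)
def q107909 : Q := Q.p (nat_lit 0x2000008000000000000000000000000000000000000000000000000000000000) (nat_lit 0x500003c0001fc0007b0001df000f7e007ff8007f8001fc0000c00002000000000000000000000000000000) (nat_lit 17)
theorem c107909 : QOK q107909 := cut [q107232, q107283, q107319, q107321, q96836, q97957, q84365, q97982, q107872, q97984, q98317, q98359, q97285, q107883, q81896, q107885, q32034, q107893, q107899, q107904, q107908] ⟨c107232, c107283, c107319, c107321, c96836, c97957, c84365, c97982, c107872, c97984, c98317, c98359, c97285, c107883, c81896, c107885, c32034, c107893, c107899, c107904, c107908, trivial⟩ (nd (nat_lit 230) (nat_lit 0) (cs (rf (nat_lit 0)) (cs (rf (nat_lit 1)) (cs (rf (nat_lit 2)) (cs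 (rf (nat_lit 3)) (cs (nd (nat_lit 229) (nat_lit 0) (cs (rf (nat_lit 4)) (cs (nd (nat_lit 275) (nat_lit 0) (cs (rf (nat_lit 5)) (cs (nd (nat_lit 297) (nat_lit 0) (cs (rf (nat_lit 6)) (cs (rf (nat_lit 7)) (cs (nd (nat_lit 298) (nat_lit 0) (cs (lf (nat_lit 29) (nat_lit 231)) (nd (nat_lit 209) (nat_lit 0) (cs (lf (nat_lit 28) (nat_lit 209)) (nd (nat_lit 188) (nat_lit 0) (cs (lf (nat_lit 34) (nat_lit 187)) (nd (nat_lit 187) (nat_lit 0) (cs (lf (nat_lit 35) (nat_lit 165)) (nd (nat_lit 296) (nat_lit 0) (cs (lf (nat_lit 41) (nat_lit 230)) (nd (nat_lit 164) (nat_lit 0) (cs (lf (nat_lit 46) (nat_lit 164)) (nd (nat_lit 165) (nat_lit 0) (cs (lf (nat_lit 47) (nat_lit 142)) (lf (nat_lit 41) (nat_lit 164)))))))))))))))) (rf (nat_lit 8)))))) (cs (nd (nat_lit 209) (nat_lit 0) (cs (rf (nat_lit 9)) (cs (rf (nat_lit 10)) (rf (nat_lit 11))))) (nd (nat_lit 297) (nat_lit 0) (cs (lf (nat_lit 47) (nat_lit 208)) (nd (nat_lit 298) (nat_lit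 0) (cs (lf (nat_lit 29) (nat_lit 231)) (nd (nat_lit 209) (nat_lit 0) (cs (lf (nat_lit 28) (nat_lit 209)) (nd (nat_lit 188) (nat_lit 0) (cs (lf (nat_lit 34) (nat_lit 187)) (nd (nat_lit 166) (nat_lit 0) (cs (lf (nat_lit 33) (nat_lit 165)) (rf (nat_lit 12)))))))))))))))) (rf (nat_lit 13))))) (cs (nd (nat_lit 275) (nat_lit 0) (cs (rf (nat_lit 14)) (cs (rf (nat_lit 5)) (cs (rf (nat_lit 15)) (nd (nat_lit 297) (nat_lit 0) (cs (rf (nat_lit 16)) (rf (nat_lit 8)))))))) (cs (rf (nat_lit 17)) (cs (rf (nat_lit 18)) (cs (rf (nat_lit 19)) (rf (nat_lit 20)))))))))))) q107909 (by decide +kernel)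
def q108126 : Q := Q.p (nat_lit 0x2000008000000000000000000000000000000000000000000000000000000000) (nat_lit 0xc0000300003e0001ec0007f0001df000f7e007ff8007fc001fc0000f00003400000000000000000000000000000) (nat_lit 17)
theorem c108126 : QOK q108126 := cut [q107232, q107252, q107283, q107319, q107321, q107899, q107904, q107908, q96758, q96769, q96836, q107883, q3984, q98012, q98091, q98107, q81896, q97957, q107885, q89373, q81383, q108115, q98112, q80169] ⟨c107232, c107252, c107283, c107319, c107321, c107899, c107904, c107908, c96758, c96769, c96836, c107883, c3984, c98012, c98091, c98107, c81896, c97957, c107885, c89373, c81383, c108115, c98112, c80169, trivial⟩ (nd (nat_lit 230) (nat_lit 0) (cs (rf (nat_lit 0)) (cs (rf (nat_lit 1)) (cs (rf (nat_lit 2)) (cs (rf (nat_lit 3)) (cs (rf (nat_lit 4)) (cs (rf (nat_lit 5)) (cs (rf (nat_lit 6)) (cs (rf (nat_lit 7)) (cs (nd (nat_lit 229) (nat_lit 0) (cs (rf (nat_lit 8)) (cs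 (rf (nat_lit 9)) (cs (rf (nat_lit 10)) (cs (rf (nat_lit 11)) (nd (nat_lit 208) (nat_lit 0) (cs (rf (nat_lit 12)) (cs (rf (nat_lit 13)) (cs (rf (nat_lit 14)) (rf (nat_lit 15))))))))))) (nd (nat_lit 275) (nat_lit 0) (cs (rf (nat_lit 16)) (cs (rf (nat_lit 17)) (cs (rf (nat_lit 18)) (nd (nat_lit 298) (nat_lit 0) (cs (nd (nat_lit 297) (nat_lit 0) (cs (lf (nat_lit 29) (nat_lit 231)) (rf (nat_lit 19)))) (cs (nd (nat_lit 297) (nat_lit 0) (cs (lf (nat_lit 29) (nat_lit 231)) (nd (nat_lit 210) (nat_lit 0) (cs (lf (nat_lit 34) (nat_lit 209)) (nd (nat_lit 252) (nat_lit 0) (cs (lf (nat_lit 42) (nat_lit 230)) (rf (nat_lit 20)))))))) (cs (nd (nat_lit 209) (nat_lit 0) (cs (lf (nat_lit 28) (nat_lit 209)) (nd (nat_lit 188) (nat_lit 0) (cs (lf (nat_lit 34) (nat_lit 187)) (nd (nat_lit 187) (nat_lit 0) (cs (lf (nat_lit 35) (nat_lit 165)) (rf (nat_lit 21)))))))) (cs (nd (nat_lit 297) (nat_lit 0) (cs (lf (nat_lit 29) (nat_lit 231)) (nd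 (nat_lit 210) (nat_lit 0) (cs (lf (nat_lit 34) (nat_lit 209)) (rf (nat_lit 22)))))) (nd (nat_lit 297) (nat_lit 0) (cs (lf (nat_lit 29) (nat_lit 231)) (nd (nat_lit 209) (nat_lit 0) (cs (lf (nat_lit 28) (nat_lit 209)) (nd (nat_lit 252) (nat_lit 0) (cs (lf (nat_lit 42) (nat_lit 230)) (rf (nat_lit 23))))))))))))))))))))))))))) q108126 (by decide +kernel)
def q108227 : Q := Q.p (nat_lit 0x2000008000000000000000000000000000000000000000000000000000000000) (nat_lit 0x14000070000ff8003fe0007f8001df000770001f80001e0000300000400000000000000000000000000000000000) (nat_lit 12)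
theorem c108227 : QOK q108227 := cut [q96655, q100882, q107059, q107352, q107392, q107786, q108223, q98359, q99649, q98315] ⟨c96655, c100882, c107059, c107352, c107392, c107786, c108223, c98359, c99649, c98315, trivial⟩ (nd (nat_lit 275) (nat_lit 0) (cs (nd (nat_lit 209) (nat_lit 0) (cs (rf (nat_lit 0)) (rf (nat_lit 1)))) (cs (rf (nat_lit 2)) (cs (rf (nat_lit 3)) (cs (rf (nat_lit 4)) (cs (rf (nat_lit 5)) (cs (rf (nat_lit 6)) (cs (nd (nat_lit 209) (nat_lit 0) (cs (rf (nat_lit 0)) (cs (rf (nat_lit 7)) (rf (nat_lit 8))))) (nd (nat_lit 209) (nat_lit 0) (cs (rf (nat_lit 9)) (rf (nat_lit 8)))))))))))) q108227 (by decide +kernel)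
def q108692 : Q := Q.p (nat_lit 0x800002000000000000000000000000000000000000000000000000000000000000000) (nat_lit 0x70003ff001ff8003ff00077c003df000f7c001fe0007f0000140000000000000000000000000000000000000000) (nat_lit 16)
theorem c108692 : QOK q108692 := cut [q1999, q108367, q108370, q108372, q108380, q108385, q25707, q94337, q94343, q94356, q94359, q88933, q89773, q98948, q108394, q108397, q108405, q79079, q108365, q108412, q108415, q94392, q94384, q97408, q97409, q99005, q108359, q108361, q108391, q108421, q108433, q108436, q108483, q108586, q99103, q108587, q98857, q108590, q108645, q108666, q99185, q98972, q108673, q99215, q11768, q98137, q108685, q108364, q108664] ⟨c1999, c108367, c108370, c108372, c108380, c108385, c25707, c94337, c94343, c94356, c94359, c88933, c89773, c98948, c108394, c108397, c108405, c79079, c108365, c108412, c108415, c94392, c94384, c97408, c97409, c99005, c108359, c108361, c108391,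 c108421, c108433, c108436, c108483, c108586, c99103, c108587, c98857, c108590, c108645, c108666, c99185, c98972, c108673, c99215, c11768, c98137, c108685, c108364, c108664, trivial⟩ (nd (nat_lit 274) (nat_lit 0) (cs (nd (nat_lit 252) (nat_lit 0) (cs (nd (nat_lit 251) (nat_lit 0) (cs (rf (nat_lit 0)) (rf (nat_lit 1)))) (cs (rf (nat_lit 2)) (cs (nd (nat_lit 251) (nat_lit 0) (cs (rf (nat_lit 0)) (cs (nd (nat_lit 250) (nat_lit 0) (cs (lf (nat_lit 0) (nat_lit 249)) (nd (nat_lit 271) (nat_lit 0) (cs (lf (nat_lit 10) (nat_lit 249)) (nd (nat_lit 228) (nat_lit 0) (cs (lf (nat_lit 23) (nat_lit 227)) (nd (nat_lit 254) (nat_lit 0) (cs (lf (nat_lit 22) (nat_lit 228)) (rf (nat_lit 3)))))))))) (rf (nat_lit 4))))) (cs (rf (nat_lit 5)) (nd (nat_lit 296) (nat_lit 0) (cs (rf (nat_lit 6)) (cs (rf (nat_lit 7)) (cs (rf (nat_lit 8)) (cs (rf (nat_lit 9)) (cs (rf (nat_lit 10)) (nd (nat_lit 297) (nat_lit 0) (cs (rf (nat_lit 11)) (cs (rf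 (nat_lit 12)) (rf (nat_lit 13)))))))))))))))) (cs (rf (nat_lit 14)) (cs (nd (nat_lit 252) (nat_lit 0) (cs (rf (nat_lit 2)) (cs (rf (nat_lit 15)) (cs (rf (nat_lit 16)) (cs (nd (nat_lit 254) (nat_lit 0) (cs (rf (nat_lit 17)) (cs (rf (nat_lit 18)) (rf (nat_lit 19))))) (cs (rf (nat_lit 20)) (nd (nat_lit 296) (nat_lit 0) (cs (rf (nat_lit 6)) (cs (rf (nat_lit 7)) (cs (rf (nat_lit 8)) (cs (rf (nat_lit 10)) (cs (rf (nat_lit 21)) (nd (nat_lit 297) (nat_lit 0) (cs (rf (nat_lit 11)) (cs (rf (nat_lit 12)) (rf (nat_lit 22))))))))))))))))) (cs (nd (nat_lit 273) (nat_lit 0) (cs (rf (nat_lit 23)) (cs (rf (nat_lit 24)) (cs (nd (nat_lit 276) (nat_lit 0) (cs (rf (nat_lit 25)) (cs (rf (nat_lit 26)) (cs (rf (nat_lit 27)) (cs (rf (nat_lit 28)) (nd (nat_lit 250) (nat_lit 0) (cs (lf (nat_lit 22) (nat_lit 250)) (nd (nat_lit 294) (nat_lit 0) (cs (lf (nat_lit 10) (nat_lit 272)) (rf (nat_lit 29))))))))))) (cs (rf (nat_lit 30)) (rf (nat_lit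 31))))))) (cs (rf (nat_lit 32)) (cs (rf (nat_lit 33)) (cs (nd (nat_lit 273) (nat_lit 0) (cs (rf (nat_lit 23)) (cs (rf (nat_lit 24)) (cs (rf (nat_lit 34)) (rf (nat_lit 35)))))) (cs (nd (nat_lit 273) (nat_lit 0) (cs (rf (nat_lit 23)) (cs (rf (nat_lit 24)) (cs (rf (nat_lit 36)) (rf (nat_lit 37)))))) (cs (rf (nat_lit 38)) (cs (rf (nat_lit 39)) (cs (nd (nat_lit 273) (nat_lit 0) (cs (rf (nat_lit 23)) (cs (rf (nat_lit 24)) (cs (rf (nat_lit 40)) (rf (nat_lit 35)))))) (cs (nd (nat_lit 273) (nat_lit 0) (cs (rf (nat_lit 24)) (cs (rf (nat_lit 41)) (cs (rf (nat_lit 37)) (rf (nat_lit 42)))))) (cs (nd (nat_lit 273) (nat_lit 0) (cs (rf (nat_lit 23)) (cs (rf (nat_lit 24)) (cs (rf (nat_lit 43)) (nd (nat_lit 251) (nat_lit 0) (cs (rf (nat_lit 44)) (cs (rf (nat_lit 45)) (cs (rf (nat_lit 46)) (nd (nat_lit 252) (nat_lit 0) (cs (rf (nat_lit 1)) (cs (rf (nat_lit 4)) (rf (nat_lit 5))))))))))))) (nd (nat_lit 273) (nat_lit 0) (cs (rf (nat_lit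 24)) (cs (rf (nat_lit 41)) (cs (rf (nat_lit 30)) (nd (nat_lit 276) (nat_lit 0) (cs (rf (nat_lit 27)) (cs (rf (nat_lit 47)) (cs (rf (nat_lit 28)) (nd (nat_lit 295) (nat_lit 0) (cs (lf (nat_lit 11) (nat_lit 272)) (rf (nat_lit 48)))))))))))))))))))))))))) q108692 (by decide +kernel)
def q108822 : Q := Q.p (nat_lit 0x800003000000000000000000000000000000000000000000000000000000000000000) (nat_lit 0x40000380003e0001fc0009e000678001ce0007f8001fe0001f8000000000000000000000000000000000000000000000) (nat_lit 14)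
theorem c108822 : QOK q108822 := cut [q108397, q108710, q108757, q108777, q108780, q98610, q98643, q24703, q98620, q98624, q108372, q11506, q25707, q98394, q105227, q84408, q108787, q79097, q44471, q108819, q83724, q98468, q105295] ⟨c108397, c108710, c108757, c108777, c108780, c98610, c98643, c24703, c98620, c98624, c108372, c11506, c25707, c98394, c105227, c84408, c108787, c79097, c44471, c108819, c83724, c98468, c105295, trivial⟩ (nd (nat_lit 274) (nat_lit 0) (cs (rf (nat_lit 0)) (cs (rf (nat_lit 1)) (cs (rf (nat_lit 2)) (cs (rf (nat_lit 3)) (cs (rf (nat_lit 4)) (cs (nd (nat_lit 250) (nat_lit 0) (cs (rf (nat_lit 5)) (cs (rf (nat_lit 6)) (cs (nd (nat_lit 231) (nat_lit 0) (cs (rf (nat_lit 7)) (cs (rf (nat_lit 8)) (rf (nat_lit 9))))) (nd (nat_lit 251) (nat_lit 0) (cs (lf (nat_lit 0) (nat_lit 249)) (nd (nat_lit 227) (nat_lit 0) (cs (lf (nat_lit 22) (nat_lit 227)) (nd (nat_lit 272) (nat_lit 0) (cs (lf (nat_lit 11)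 (nat_lit 249)) (nd (nat_lit 254) (nat_lit 0) (cs (lf (nat_lit 10) (nat_lit 250)) (rf (nat_lit 10)))))))))))))) (cs (nd (nat_lit 296) (nat_lit 0) (cs (rf (nat_lit 11)) (cs (rf (nat_lit 12)) (nd (nat_lit 230) (nat_lit 0) (cs (rf (nat_lit 13)) (cs (rf (nat_lit 14)) (nd (nat_lit 273) (nat_lit 0) (cs (rf (nat_lit 15)) (cs (nd (nat_lit 231) (nat_lit 0) (cs (lf (nat_lit 36) (nat_lit 208)) (nd (nat_lit 295) (nat_lit 0) (cs (lf (nat_lit 41) (nat_lit 229)) (nd (nat_lit 294) (nat_lit 0) (cs (lf (nat_lit 12) (nat_lit 271)) (nd (nat_lit 254) (nat_lit 0) (cs (lf (nat_lit 6) (nat_lit 251)) (nd (nat_lit 229) (nat_lit 0) (cs (lf (nat_lit 47) (nat_lit 207)) (nd (nat_lit 251) (nat_lit 0) (cs (lf (nat_lit 41) (nat_lit 228)) (rf (nat_lit 16)))))))))))))) (nd (nat_lit 231) (nat_lit 0) (cs (rf (nat_lit 17)) (nd (nat_lit 207) (nat_lit 0) (cs (lf (nat_lit 46) (nat_lit 207)) (nd (nat_lit 272) (nat_lit 0) (cs (lf (nat_lit 12) (nat_lit 249))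 (nd (nat_lit 294) (nat_lit 0) (cs (lf (nat_lit 11) (nat_lit 271)) (nd (nat_lit 250) (nat_lit 0) (cs (lf (nat_lit 23) (nat_lit 249)) (nd (nat_lit 317) (nat_lit 0) (cs (lf (nat_lit 40) (nat_lit 229)) (nd (nat_lit 251) (nat_lit 0) (cs (lf (nat_lit 17) (nat_lit 228)) (rf (nat_lit 18))))))))))))))))))))))))) (cs (rf (nat_lit 19)) (nd (nat_lit 296) (nat_lit 0) (cs (rf (nat_lit 11)) (cs (rf (nat_lit 12)) (nd (nat_lit 230) (nat_lit 0) (cs (rf (nat_lit 20)) (cs (rf (nat_lit 21)) (rf (nat_lit 22))))))))))))))))) q108822 (by decide +kernel)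
def q109673 : Q := Q.p (nat_lit 0x800002000000000000000000000000000000000000000000000000000000000000000) (nat_lit 0x140000f00007f0001ec00077c003df801ffe001fe0007f0000300000800000000000000000000000000000000000) (nat_lit 17)
theorem c109673 : QOK q109673 := cut [q108753, q108914, q108980, q108985, q2066, q88933, q99489, q99495, q32034, q88936, q109625, q109636, q88941, q89530, q109650, q109654, q109663, q109668, q109672] ⟨c108753, c108914, c108980, c108985, c2066, c88933, c99489, c99495, c32034, c88936, c109625, c109636, c88941, c89530, c109650, c109654, c109663, c109668, c109672, trivial⟩ (nd (nat_lit 252) (nat_lit 0) (cs (rf (nat_lit 0)) (cs (rf (nat_lit 1)) (cs (rf (nat_lit 2)) (cs (rf (nat_lit 3)) (cs (nd (nat_lit 251) (nat_lit 0) (cs (rf (nat_lit 4)) (cs (nd (nat_lit 297) (nat_lit 0) (cs (rf (nat_lit 5)) (cs (rf (nat_lit 6)) (cs (rf (nat_lit 7)) (nd (nat_lit 231) (nat_lit 0) (cs (rf (nat_lit 8)) (cs (rf (nat_lit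 9)) (rf (nat_lit 10))))))))) (rf (nat_lit 11))))) (cs (nd (nat_lit 297) (nat_lit 0) (cs (rf (nat_lit 5)) (cs (rf (nat_lit 12)) (cs (rf (nat_lit 13)) (rf (nat_lit 14)))))) (cs (rf (nat_lit 15)) (cs (rf (nat_lit 16)) (cs (rf (nat_lit 17)) (rf (nat_lit 18)))))))))))) q109673 (by decide +kernel)
def q109857 : Q := Q.p (nat_lit 0x800002000000000000000000000000000000000000000000000000000000000000000) (nat_lit 0x300000c0000f80007b0001fc00077c003df801ffe001ff0007f00003c0000d00000000000000000000000000000000000) (nat_lit 17)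
theorem c109857 : QOK q109857 := cut [q108753, q108773, q108914, q108980, q108985, q109663, q109668, q109672, q1999, q2066, q2091, q109636, q79078, q79112, q90300, q91971, q100641, q22313, q100649, q100653, q88933, q88941, q109650, q94169, q88949, q105208, q88945, q90672] ⟨c108753, c108773, c108914, c108980, c108985, c109663, c109668, c109672, c1999, c2066, c2091, c109636, c79078, c79112, c90300, c91971, c100641, c22313, c100649, c100653, c88933, c88941, c109650, c94169, c88949, c105208, c88945, c90672, trivial⟩ (nd (nat_lit 252) (nat_lit 0) (cs (rf (nat_lit 0)) (cs (rf (nat_lit 1)) (cs (rf (nat_lit 2)) (cs (rf (nat_lit 3)) (cs (rf (nat_lit 4)) (cs (rf (nat_lit 5)) (cs (rf (nat_lit 6)) (cs (rf (nat_lit 7)) (cs (nd (nat_lit 251) (nat_lit 0) (cs (rf (nat_lit 8)) (cs (rf (nat_lit 9)) (cs (rf (nat_lit 10)) (cs (rf (nat_lit 11)) (nd (nat_lit 230) (nat_lit 0) (cs (rf (nat_lit 12)) (cs (rf (nat_lit 13)) (cs (nd (nat_lit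 231) (nat_lit 0) (cs (rf (nat_lit 14)) (cs (rf (nat_lit 15)) (rf (nat_lit 16))))) (nd (nat_lit 208) (nat_lit 0) (cs (lf (nat_lit 24) (nat_lit 186)) (nd (nat_lit 274) (nat_lit 0) (cs (rf (nat_lit 17)) (cs (rf (nat_lit 18)) (rf (nat_lit 19)))))))))))))))) (nd (nat_lit 297) (nat_lit 0) (cs (rf (nat_lit 20)) (cs (rf (nat_lit 21)) (cs (rf (nat_lit 22)) (nd (nat_lit 320) (nat_lit 0) (cs (nd (nat_lit 319) (nat_lit 0) (cs (lf (nat_lit 29) (nat_lit 253)) (nd (nat_lit 232) (nat_lit 0) (cs (lf (nat_lit 34) (nat_lit 231)) (rf (nat_lit 23)))))) (cs (nd (nat_lit 319) (nat_lit 0) (cs (lf (nat_lit 29) (nat_lit 253)) (rf (nat_lit 24)))) (cs (nd (nat_lit 231) (nat_lit 0) (cs (lf (nat_lit 28) (nat_lit 231)) (rf (nat_lit 25)))) (cs (nd (nat_lit 319) (nat_lit 0) (cs (lf (nat_lit 29) (nat_lit 253)) (nd (nat_lit 232) (nat_lit 0) (cs (lf (nat_lit 34) (nat_lit 231)) (rf (nat_lit 26)))))) (nd (nat_lit 319) (nat_lit 0) (cs (lf (nat_lit 29)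 (nat_lit 253)) (rf (nat_lit 27))))))))))))))))))))))) q109857 (by decide +kernel)
def q110268 : Q := Q.p (nat_lit 0x3000004000000000000000000000000000000000000000000000000000000000) (nat_lit 0x80000380001e0001fe000ff8001c00007b8001f80001a0000200000000000000000000000000000000000000000) (nat_lit 11)
theorem c110268 : QOK q110268 := cut [q79028, q110257, q110262, q110267] ⟨c79028, c110257, c110262, c110267, trivial⟩ (nd (nat_lit 254) (nat_lit 0) (cs (rf (nat_lit 0)) (cs (rf (nat_lit 1)) (cs (rf (nat_lit 2)) (rf (nat_lit 3)))))) q110268 (by decide +kernel)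
def q110500 : Q := Q.p (nat_lit 0x3000000000000000000000000000000000000000000000000000000000000000) (nat_lit 0x1c0003fe0007f8001fe0007fc0018e0007fc001ff0001f80007a0001e00000000000000000000000000000000000) (nat_lit 17)
theorem c110500 : QOK q110500 := cut [q110342, q110374, q110391, q110408, q88933, q88941, q110332, q94433, q110081, q11531, q105422, q93020, q110442, q110447, q90752, q96004, q110458, q110459, q110461, q110468, q2091, q24207, q100796, q100816, q110466, q100798, q100801, q79097, q88898, q110474, q110477, q110483, q110486, q110497, q91138] ⟨c110342, c110374, c110391, c110408, c88933, c88941, c110332, c94433, c110081, c11531, c105422, c93020, c110442, c110447, c90752, c96004, c110458, c110459, c110461, c110468, c2091, c24207, c100796, c100816, c110466, c100798, c100801, c79097, c88898, c110474, c110477, c110483, c110486, c110497, c91138, trivial⟩ (nd (nat_lit 275) (nat_lit 0) (cs (rf (nat_lit 0)) (cs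 (rf (nat_lit 1)) (cs (rf (nat_lit 2)) (cs (rf (nat_lit 3)) (cs (nd (nat_lit 297) (nat_lit 0) (cs (rf (nat_lit 4)) (cs (rf (nat_lit 5)) (cs (rf (nat_lit 6)) (nd (nat_lit 231) (nat_lit 0) (cs (rf (nat_lit 7)) (cs (rf (nat_lit 8)) (nd (nat_lit 298) (nat_lit 0) (cs (lf (nat_lit 29) (nat_lit 231)) (nd (nat_lit 299) (nat_lit 0) (cs (rf (nat_lit 9)) (cs (rf (nat_lit 10)) (cs (nd (nat_lit 208) (nat_lit 0) (cs (lf (nat_lit 46) (nat_lit 208)) (nd (nat_lit 210) (nat_lit 0) (cs (lf (nat_lit 34) (nat_lit 209)) (nd (nat_lit 296) (nat_lit 0) (cs (lf (nat_lit 41) (nat_lit 230)) (nd (nat_lit 277) (nat_lit 0) (cs (lf (nat_lit 17) (nat_lit 274)) (nd (nat_lit 295) (nat_lit 0) (cs (lf (nat_lit 16) (nat_lit 273)) (nd (nat_lit 321) (nat_lit 0) (cs (lf (nat_lit 5) (nat_lit 296)) (rf (nat_lit 11)))))))))))))) (nd (nat_lit 296) (nat_lit 0) (cs (lf (nat_lit 41) (nat_lit 230)) (nd (nat_lit 321) (nat_lit 0) (cs (lf (nat_lit 5) (nat_lit 296))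 (nd (nat_lit 274) (nat_lit 0) (cs (lf (nat_lit 18) (nat_lit 274)) (nd (nat_lit 208) (nat_lit 0) (cs (lf (nat_lit 25) (nat_lit 208)) (nd (nat_lit 277) (nat_lit 0) (cs (lf (nat_lit 17) (nat_lit 274)) (nd (nat_lit 276) (nat_lit 0) (cs (lf (nat_lit 12) (nat_lit 273)) (nd (nat_lit 255) (nat_lit 0) (cs (lf (nat_lit 17) (nat_lit 252)) (nd (nat_lit 233) (nat_lit 0) (cs (lf (nat_lit 36) (nat_lit 210)) (nd (nat_lit 232) (nat_lit 0) (cs (lf (nat_lit 6) (nat_lit 230)) (lf (nat_lit 35) (nat_lit 209))))))))))))))))))))))))))))))))) (cs (rf (nat_lit 12)) (cs (rf (nat_lit 13)) (cs (nd (nat_lit 297) (nat_lit 0) (cs (rf (nat_lit 4)) (cs (rf (nat_lit 5)) (cs (nd (nat_lit 296) (nat_lit 0) (cs (rf (nat_lit 14)) (cs (rf (nat_lit 15)) (cs (rf (nat_lit 16)) (rf (nat_lit 17)))))) (rf (nat_lit 18)))))) (cs (rf (nat_lit 19)) (cs (nd (nat_lit 251) (nat_lit 0) (cs (rf (nat_lit 20)) (cs (rf (nat_lit 21)) (cs (nd (nat_lit 230) (nat_lit 0) (cs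 (rf (nat_lit 22)) (cs (rf (nat_lit 23)) (cs (rf (nat_lit 24)) (cs (nd (nat_lit 231) (nat_lit 0) (cs (rf (nat_lit 25)) (cs (rf (nat_lit 26)) (nd (nat_lit 274) (nat_lit 0) (cs (rf (nat_lit 27)) (cs (rf (nat_lit 28)) (rf (nat_lit 29)))))))) (rf (nat_lit 30))))))) (rf (nat_lit 31)))))) (cs (rf (nat_lit 32)) (cs (rf (nat_lit 33)) (nd (nat_lit 297) (nat_lit 0) (cs (rf (nat_lit 4)) (cs (rf (nat_lit 5)) (cs (rf (nat_lit 18)) (nd (nat_lit 296) (nat_lit 0) (cs (rf (nat_lit 14)) (cs (rf (nat_lit 34)) (cs (rf (nat_lit 16)) (rf (nat_lit 17))))))))))))))))))))))) q110500 (by decide +kernel)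
def q110631 : Q := Q.p (nat_lit 0x3000000000000000000000000000000000000000000000000000000000000000) (nat_lit 0x1c0003fe0007f0001fe0007fc0004e0007fc001fe0003f8000fc0001f00001400000000000000000000000000000) (nat_lit 15)
theorem c110631 : QOK q110631 := cut [q110342, q110442, q110447, q110468, q110486, q110497, q88933, q88941, q110332, q94433, q110081, q81477, q89447, q110610, q1999, q2066, q2091, q82198, q89739, q80246, q98559, q14866, q89807, q90627, q110614, q89928, q15386, q88741, q91107, q6232, q109922, q110461, q91882, q79111, q88337] ⟨c110342, c110442, c110447, c110468, c110486, c110497, c88933, c88941, c110332, c94433, c110081, c81477, c89447, c110610, c1999, c2066, c2091, c82198, c89739, c80246, c98559, c14866, c89807, c90627, c110614, c89928, c15386, c88741, c91107, c6232, c109922, c110461, c91882, c79111, c88337, trivial⟩ (nd (nat_lit 275) (nat_lit 0) (cs (rf (nat_lit 0)) (cs (rf (nat_lit 1)) (cs (rf (nat_lit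 2)) (cs (rf (nat_lit 3)) (cs (rf (nat_lit 4)) (cs (rf (nat_lit 5)) (cs (nd (nat_lit 297) (nat_lit 0) (cs (rf (nat_lit 6)) (cs (rf (nat_lit 7)) (cs (rf (nat_lit 8)) (nd (nat_lit 231) (nat_lit 0) (cs (rf (nat_lit 9)) (cs (rf (nat_lit 10)) (nd (nat_lit 298) (nat_lit 0) (cs (lf (nat_lit 29) (nat_lit 231)) (nd (nat_lit 230) (nat_lit 0) (cs (rf (nat_lit 11)) (nd (nat_lit 296) (nat_lit 0) (cs (lf (nat_lit 41) (nat_lit 230)) (rf (nat_lit 12))))))))))))))) (cs (rf (nat_lit 13)) (cs (nd (nat_lit 251) (nat_lit 0) (cs (rf (nat_lit 14)) (cs (rf (nat_lit 15)) (cs (rf (nat_lit 16)) (cs (nd (nat_lit 229) (nat_lit 0) (cs (rf (nat_lit 17)) (cs (rf (nat_lit 18)) (nd (nat_lit 274) (nat_lit 0) (cs (rf (nat_lit 19)) (cs (rf (nat_lit 20)) (nd (nat_lit 273) (nat_lit 0) (cs (rf (nat_lit 21)) (cs (rf (nat_lit 22)) (rf (nat_lit 23))))))))))) (rf (nat_lit 24))))))) (cs (nd (nat_lit 251) (nat_lit 0) (cs (rf (nat_lit 14)) (cs (rf (nat_lit 25))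 (nd (nat_lit 276) (nat_lit 0) (cs (rf (nat_lit 26)) (cs (rf (nat_lit 27)) (nd (nat_lit 231) (nat_lit 0) (cs (rf (nat_lit 28)) (cs (nd (nat_lit 209) (nat_lit 0) (cs (lf (nat_lit 29) (nat_lit 209)) (rf (nat_lit 29)))) (cs (nd (nat_lit 297) (nat_lit 0) (cs (rf (nat_lit 30)) (rf (nat_lit 31)))) (nd (nat_lit 209) (nat_lit 0) (cs (rf (nat_lit 29)) (rf (nat_lit 32)))))))))))))) (nd (nat_lit 251) (nat_lit 0) (cs (rf (nat_lit 15)) (cs (rf (nat_lit 24)) (nd (nat_lit 297) (nat_lit 0) (cs (rf (nat_lit 6)) (cs (rf (nat_lit 7)) (cs (rf (nat_lit 31)) (nd (nat_lit 230) (nat_lit 0) (cs (rf (nat_lit 33)) (cs (rf (nat_lit 34)) (nd (nat_lit 276) (nat_lit 0) (cs (rf (nat_lit 27)) (nd (nat_lit 296) (nat_lit 0) (cs (nd (nat_lit 231) (nat_lit 0) (cs (lf (nat_lit 41) (nat_lit 230)) (nd (nat_lit 298) (nat_lit 0) (cs (lf (nat_lit 29) (nat_lit 231)) (lf (nat_lit 24) (nat_lit 209)))))) (nd (nat_lit 295) (nat_lit 0) (cs (lf (nat_lit 12) (nat_lit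 272)) (nd (nat_lit 317) (nat_lit 0) (cs (lf (nat_lit 32) (nat_lit 229)) (lf (nat_lit 38) (nat_lit 229))))))))))))))))))))))))))))))) q110631 (by decide +kernel)
def q111913 : Q := Q.p (nat_lit 0x6000000000000000000000000000000000000000000000000000000000000000) (nat_lit 0x600001c0000f00007f8003fe000ffc0031c000ff8003fc0003f0000740000000000000000000000000000000000000000) (nat_lit 17)
theorem c111913 : QOK q111913 := cut [q111577, q22016, q88940, q94433, q111581, q111587, q111588, q111643, q111673, q111764, q111779, q111806, q81192, q79198, q86322, q90750, q109161, q109167, q111647, q111810, q79763, q109162, q111870, q81209, q88936, q111871, q108332, q111578, q111875, q108319, q99624, q111900, q108318, q111868, q81207, q111861, q88849] ⟨c111577, c22016, c88940, c94433, c111581, c111587, c111588, c111643, c111673, c111764, c111779, c111806, c81192, c79198, c86322, c90750, c109161, c109167, c111647, c111810, c79763,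 c109162, c111870, c81209, c88936, c111871, c108332, c111578, c111875, c108319, c99624, c111900, c108318, c111868, c81207, c111861, c88849, trivial⟩ (nd (nat_lit 275) (nat_lit 0) (cs (nd (nat_lit 297) (nat_lit 0) (cs (rf (nat_lit 0)) (cs (nd (nat_lit 231) (nat_lit 0) (cs (rf (nat_lit 1)) (cs (rf (nat_lit 2)) (cs (rf (nat_lit 3)) (nd (nat_lit 232) (nat_lit 0) (cs (lf (nat_lit 35) (nat_lit 209)) (nd (nat_lit 296) (nat_lit 0) (cs (lf (nat_lit 41) (nat_lit 230)) (nd (nat_lit 298) (nat_lit 0) (cs (lf (nat_lit 29) (nat_lit 231)) (rf (nat_lit 4)))))))))))) (cs (rf (nat_lit 5)) (rf (nat_lit 6)))))) (cs (rf (nat_lit 7)) (cs (rf (nat_lit 8)) (cs (rf (nat_lit 9)) (cs (rf (nat_lit 10)) (cs (rf (nat_lit 11)) (cs (nd (nat_lit 297) (nat_lit 0) (cs (rf (nat_lit 12)) (cs (rf (nat_lit 6)) (nd (nat_lit 232) (nat_lit 0) (cs (rf (nat_lit 13)) (cs (rf (nat_lit 14)) (nd (nat_lit 298) (nat_lit 0) (cs (rf (nat_lit 15)) (cs (nd (nat_lit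 231) (nat_lit 0) (cs (lf (nat_lit 29) (nat_lit 231)) (nd (nat_lit 296) (nat_lit 0) (cs (lf (nat_lit 41) (nat_lit 230)) (rf (nat_lit 4)))))) (cs (nd (nat_lit 299) (nat_lit 0) (cs (rf (nat_lit 16)) (cs (rf (nat_lit 17)) (cs (nd (nat_lit 276) (nat_lit 0) (cs (lf (nat_lit 29) (nat_lit 232)) (rf (nat_lit 18)))) (nd (nat_lit 276) (nat_lit 0) (cs (lf (nat_lit 29) (nat_lit 232)) (nd (nat_lit 274) (nat_lit 0) (cs (lf (nat_lit 0) (nat_lit 273)) (nd (nat_lit 320) (nat_lit 0) (cs (lf (nat_lit 42) (nat_lit 253)) (nd (nat_lit 233) (nat_lit 0) (cs (lf (nat_lit 35) (nat_lit 210)) (nd (nat_lit 234) (nat_lit 0) (cs (lf (nat_lit 6) (nat_lit 231)) (nd (nat_lit 252) (nat_lit 0) (cs (lf (nat_lit 12) (nat_lit 229)) (nd (nat_lit 208) (nat_lit 0) (cs (lf (nat_lit 25) (nat_lit 208)) (rf (nat_lit 19)))))))))))))))))))) (nd (nat_lit 276) (nat_lit 0) (cs (rf (nat_lit 20)) (rf (nat_lit 21)))))))))))))) (cs (rf (nat_lit 22)) (cs (nd (nat_lit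 297) (nat_lit 0) (cs (rf (nat_lit 12)) (cs (rf (nat_lit 0)) (cs (nd (nat_lit 231) (nat_lit 0) (cs (rf (nat_lit 23)) (cs (rf (nat_lit 24)) (rf (nat_lit 25))))) (nd (nat_lit 319) (nat_lit 0) (cs (rf (nat_lit 26)) (rf (nat_lit 27)))))))) (cs (nd (nat_lit 297) (nat_lit 0) (cs (rf (nat_lit 12)) (cs (rf (nat_lit 28)) (nd (nat_lit 319) (nat_lit 0) (cs (rf (nat_lit 29)) (cs (rf (nat_lit 27)) (nd (nat_lit 230) (nat_lit 0) (cs (lf (nat_lit 46) (nat_lit 230)) (nd (nat_lit 208) (nat_lit 0) (cs (lf (nat_lit 45) (nat_lit 208)) (rf (nat_lit 30)))))))))))) (cs (rf (nat_lit 31)) (nd (nat_lit 297) (nat_lit 0) (cs (rf (nat_lit 12)) (cs (rf (nat_lit 28)) (nd (nat_lit 318) (nat_lit 0) (cs (nd (nat_lit 319) (nat_lit 0) (cs (lf (nat_lit 41) (nat_lit 252)) (rf (nat_lit 32)))) (cs (nd (nat_lit 319) (nat_lit 0) (cs (lf (nat_lit 41) (nat_lit 252)) (rf (nat_lit 33)))) (cs (nd (nat_lit 231) (nat_lit 0) (cs (lf (nat_lit 40) (nat_lit 230)) (nd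 (nat_lit 208) (nat_lit 0) (cs (lf (nat_lit 46) (nat_lit 208)) (nd (nat_lit 209) (nat_lit 0) (cs (lf (nat_lit 47) (nat_lit 186)) (rf (nat_lit 34)))))))) (cs (nd (nat_lit 319) (nat_lit 0) (cs (lf (nat_lit 41) (nat_lit 252)) (nd (nat_lit 230) (nat_lit 0) (cs (lf (nat_lit 46) (nat_lit 230)) (rf (nat_lit 35)))))) (nd (nat_lit 319) (nat_lit 0) (cs (lf (nat_lit 41) (nat_lit 252)) (nd (nat_lit 231) (nat_lit 0) (cs (lf (nat_lit 40) (nat_lit 230)) (nd (nat_lit 276) (nat_lit 0) (cs (lf (nat_lit 30) (nat_lit 253)) (rf (nat_lit 36)))))))))))))))))))))))))))) q111913 (by decide +kernel)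
def q112942 : Q := Q.p (nat_lit 0x800002000000000000000000000000000000000000000000000000000000000000000) (nat_lit 0x200000f0001ff0007f8007ff000f78003df000778000fe0003f80001e0000000000000000000000000000000000000000) (nat_lit 16)
theorem c112942 : QOK q112942 := cut [q112832, q97409, q98972, q98987, q98831, q98836, q103856, q112860, q112866, q97408, q108436, q99005, q108189, q112868, q112879, q98857, q108486, q99177, q99103, q112887, q112910, q112925, q98859, q14764, q108596, q108643, q99002, q99003, q108618, q98997, q112896, q112906, q108605, q99185, q15634, q112893, q108673, q99215, q11768, q98137, q108685, q108367, q108385, q98881] ⟨c112832, c97409, c98972, c98987, c98831, c98836, c103856, c112860, c112866, c97408, c108436, c99005, c108189, c112868, c112879, c98857, c108486, c99177, c99103, c112887, c112910, c112925, c98859, c14764, c108596, c108643, c99002, c99003, c108618, c98997, c112896, c112906, c108605,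 c99185, c15634, c112893, c108673, c99215, c11768, c98137, c108685, c108367, c108385, c98881, trivial⟩ (nd (nat_lit 274) (nat_lit 0) (cs (rf (nat_lit 0)) (cs (nd (nat_lit 273) (nat_lit 0) (cs (rf (nat_lit 1)) (cs (rf (nat_lit 2)) (cs (rf (nat_lit 3)) (nd (nat_lit 276) (nat_lit 0) (cs (rf (nat_lit 4)) (cs (rf (nat_lit 5)) (rf (nat_lit 6))))))))) (cs (rf (nat_lit 7)) (cs (rf (nat_lit 8)) (cs (nd (nat_lit 273) (nat_lit 0) (cs (rf (nat_lit 9)) (cs (rf (nat_lit 1)) (cs (rf (nat_lit 10)) (cs (nd (nat_lit 276) (nat_lit 0) (cs (rf (nat_lit 11)) (cs (rf (nat_lit 6)) (cs (rf (nat_lit 12)) (nd (nat_lit 250) (nat_lit 0) (cs (lf (nat_lit 22) (nat_lit 250)) (rf (nat_lit 13)))))))) (rf (nat_lit 14))))))) (cs (nd (nat_lit 273) (nat_lit 0) (cs (rf (nat_lit 9)) (cs (rf (nat_lit 1)) (cs (rf (nat_lit 15)) (nd (nat_lit 276) (nat_lit 0) (cs (rf (nat_lit 4)) (cs (rf (nat_lit 5)) (cs (rf (nat_lit 16)) (nd (nat_lit 254) (nat_lit 0) (cs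 (lf (nat_lit 17) (nat_lit 251)) (nd (nat_lit 294) (nat_lit 0) (cs (lf (nat_lit 10) (nat_lit 272)) (rf (nat_lit 17)))))))))))))) (cs (nd (nat_lit 273) (nat_lit 0) (cs (rf (nat_lit 9)) (cs (rf (nat_lit 1)) (cs (rf (nat_lit 18)) (rf (nat_lit 19)))))) (cs (rf (nat_lit 20)) (cs (nd (nat_lit 273) (nat_lit 0) (cs (rf (nat_lit 9)) (cs (rf (nat_lit 1)) (cs (rf (nat_lit 15)) (rf (nat_lit 21)))))) (cs (nd (nat_lit 273) (nat_lit 0) (cs (rf (nat_lit 22)) (cs (rf (nat_lit 2)) (cs (rf (nat_lit 10)) (nd (nat_lit 295) (nat_lit 0) (cs (rf (nat_lit 23)) (cs (rf (nat_lit 24)) (cs (rf (nat_lit 25)) (nd (nat_lit 317) (nat_lit 0) (cs (rf (nat_lit 26)) (cs (rf (nat_lit 27)) (cs (rf (nat_lit 28)) (nd (nat_lit 251) (nat_lit 0) (cs (rf (nat_lit 29)) (cs (rf (nat_lit 30)) (cs (rf (nat_lit 31)) (nd (nat_lit 318) (nat_lit 0) (cs (lf (nat_lit 29) (nat_lit 251)) (nd (nat_lit 316) (nat_lit 0) (cs (lf (nat_lit 41) (nat_lit 250)) (rf (nat_lit 32))))))))))))))))))))))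 (cs (nd (nat_lit 273) (nat_lit 0) (cs (rf (nat_lit 9)) (cs (rf (nat_lit 1)) (cs (rf (nat_lit 33)) (rf (nat_lit 19)))))) (cs (nd (nat_lit 273) (nat_lit 0) (cs (rf (nat_lit 1)) (cs (rf (nat_lit 2)) (cs (rf (nat_lit 14)) (nd (nat_lit 276) (nat_lit 0) (cs (rf (nat_lit 34)) (cs (rf (nat_lit 12)) (nd (nat_lit 295) (nat_lit 0) (cs (lf (nat_lit 11) (nat_lit 272)) (rf (nat_lit 35))))))))))) (cs (nd (nat_lit 273) (nat_lit 0) (cs (rf (nat_lit 1)) (cs (rf (nat_lit 2)) (cs (rf (nat_lit 36)) (rf (nat_lit 21)))))) (nd (nat_lit 273) (nat_lit 0) (cs (rf (nat_lit 9)) (cs (rf (nat_lit 1)) (cs (rf (nat_lit 37)) (nd (nat_lit 251) (nat_lit 0) (cs (rf (nat_lit 38)) (cs (rf (nat_lit 39)) (cs (rf (nat_lit 40)) (nd (nat_lit 252) (nat_lit 0) (cs (rf (nat_lit 41)) (cs (rf (nat_lit 42)) (nd (nat_lit 254) (nat_lit 0) (cs (lf (nat_lit 6) (nat_lit 251)) (rf (nat_lit 43))))))))))))))))))))))))))))) q112942 (by decide +kernel)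
def q113108 : Q := Q.p (nat_lit 0x800002000000000000000000000000000000000000000000000000000000000000000) (nat_lit 0xfc0003f0001df001f7c003df001ffc007fe000ff0000fc0002700001400000000000000000000000000000) (nat_lit 17)
theorem c113108 : QOK q113108 := cut [q112969, q2066, q24207, q93921, q98519, q98377, q98507, q112944, q112862, q112955, q1257, q13451, q105542, q112978, q98468, q98730, q108760, q112979, q98479, q105293, q22236, q112995, q113046, q113055, q90494, q108827, q108832, q108844, q80720, q105260, q108839, q108859, q112997, q2190, q105237, q112959, q112961, q1999, q98378, q113067, q2091, q108909, q113071, q108968, q113085, q98758, q113090, q108923, q98766, q108918, q108921, q113095, q113097, q113102, q108981, q113105] ⟨c112969, c2066, c24207, c93921, c98519, c98377, c98507, c112944, c112862, c112955, c1257, c13451, c105542, c112978, c98468, c98730, c108760, c112979, c98479, c105293, c22236, c112995, c113046,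 c113055, c90494, c108827, c108832, c108844, c80720, c105260, c108839, c108859, c112997, c2190, c105237, c112959, c112961, c1999, c98378, c113067, c2091, c108909, c113071, c108968, c113085, c98758, c113090, c108923, c98766, c108918, c108921, c113095, c113097, c113102, c108981, c113105, trivial⟩ (nd (nat_lit 252) (nat_lit 0) (cs (rf (nat_lit 0)) (cs (nd (nat_lit 251) (nat_lit 0) (cs (rf (nat_lit 1)) (cs (rf (nat_lit 2)) (cs (rf (nat_lit 3)) (cs (rf (nat_lit 4)) (nd (nat_lit 254) (nat_lit 0) (cs (rf (nat_lit 5)) (cs (rf (nat_lit 6)) (rf (nat_lit 7)))))))))) (cs (nd (nat_lit 274) (nat_lit 0) (cs (rf (nat_lit 8)) (cs (rf (nat_lit 9)) (cs (nd (nat_lit 276) (nat_lit 0) (cs (rf (nat_lit 10)) (cs (rf (nat_lit 11)) (rf (nat_lit 12))))) (cs (rf (nat_lit 13)) (nd (nat_lit 230) (nat_lit 0) (cs (rf (nat_lit 14)) (cs (rf (nat_lit 15)) (cs (rf (nat_lit 16)) (cs (rf (nat_lit 17)) (nd (nat_lit 231) (nat_lit 0) (cs (rf (nat_lit 18))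 (cs (rf (nat_lit 19)) (nd (nat_lit 209) (nat_lit 0) (cs (lf (nat_lit 36) (nat_lit 186)) (nd (nat_lit 186) (nat_lit 0) (cs (rf (nat_lit 20)) (lf (nat_lit 46) (nat_lit 186))))))))))))))))))) (cs (rf (nat_lit 21)) (cs (rf (nat_lit 22)) (cs (rf (nat_lit 23)) (cs (nd (nat_lit 276) (nat_lit 0) (cs (rf (nat_lit 24)) (cs (rf (nat_lit 25)) (cs (rf (nat_lit 26)) (cs (nd (nat_lit 254) (nat_lit 0) (cs (rf (nat_lit 27)) (cs (nd (nat_lit 274) (nat_lit 0) (cs (rf (nat_lit 28)) (cs (rf (nat_lit 29)) (rf (nat_lit 30))))) (nd (nat_lit 274) (nat_lit 0) (cs (rf (nat_lit 28)) (cs (rf (nat_lit 31)) (rf (nat_lit 32)))))))) (nd (nat_lit 274) (nat_lit 0) (cs (rf (nat_lit 33)) (cs (rf (nat_lit 34)) (cs (rf (nat_lit 35)) (rf (nat_lit 36))))))))))) (cs (nd (nat_lit 251) (nat_lit 0) (cs (rf (nat_lit 37)) (cs (rf (nat_lit 2)) (cs (rf (nat_lit 38)) (rf (nat_lit 39)))))) (cs (nd (nat_lit 251) (nat_lit 0) (cs (rf (nat_lit 40)) (cs (rf (nat_lit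 2)) (cs (rf (nat_lit 38)) (rf (nat_lit 41)))))) (cs (rf (nat_lit 42)) (cs (nd (nat_lit 251) (nat_lit 0) (cs (rf (nat_lit 40)) (cs (rf (nat_lit 2)) (cs (rf (nat_lit 38)) (rf (nat_lit 43)))))) (cs (rf (nat_lit 44)) (cs (nd (nat_lit 251) (nat_lit 0) (cs (rf (nat_lit 40)) (cs (rf (nat_lit 4)) (cs (rf (nat_lit 45)) (cs (rf (nat_lit 39)) (rf (nat_lit 46))))))) (cs (nd (nat_lit 251) (nat_lit 0) (cs (rf (nat_lit 37)) (cs (rf (nat_lit 1)) (cs (rf (nat_lit 40)) (cs (rf (nat_lit 47)) (nd (nat_lit 273) (nat_lit 0) (cs (rf (nat_lit 48)) (cs (rf (nat_lit 49)) (cs (rf (nat_lit 50)) (cs (rf (nat_lit 51)) (cs (rf (nat_lit 52)) (rf (nat_lit 53))))))))))))) (nd (nat_lit 251) (nat_lit 0) (cs (rf (nat_lit 40)) (cs (rf (nat_lit 2)) (cs (rf (nat_lit 47)) (nd (nat_lit 273) (nat_lit 0) (cs (rf (nat_lit 48)) (cs (rf (nat_lit 50)) (cs (rf (nat_lit 54)) (cs (rf (nat_lit 51)) (rf (nat_lit 55)))))))))))))))))))))))))) q113108 (by decide +kernel)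
def q113921 : Q := Q.p (nat_lit 0x800002000000000000000000000000000000000000000000000000000000000000000) (nat_lit 0x140000f00007e0003fe000778003df800ffe003bf8007e0001f80001400000000000000000000000000000000000) (nat_lit 16)
theorem c113921 : QOK q113921 := cut [q98133, q101562, q102012, q107858, q113591, q113877, q81706, q84365, q98131, q99260, q97957, q107833, q96758, q96769, q96836, q109761, q97173, q101516, q109757, q87917, q108892, q94744, q12193, q113897, q94745, q102009, q107016, q113909, q81054, q95511, q101313, q107853, q79188, q97689, q107861, q113918, q82063, q97681, q100729] ⟨c98133, c101562, c102012, c107858, c113591, c113877, c81706, c84365, c98131, c99260, c97957, c107833, c96758, c96769, c96836, c109761, c97173, c101516, c109757, c87917, c108892, c94744, c12193, c113897, c94745, c102009, c107016, c113909, c81054, c95511, c101313, c107853, c79188, c97689, c107861, c113918, c82063, c97681, c100729,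 trivial⟩ (nd (nat_lit 231) (nat_lit 0) (cs (rf (nat_lit 0)) (cs (rf (nat_lit 1)) (cs (rf (nat_lit 2)) (cs (rf (nat_lit 3)) (cs (rf (nat_lit 4)) (cs (rf (nat_lit 5)) (cs (nd (nat_lit 297) (nat_lit 0) (cs (rf (nat_lit 6)) (cs (rf (nat_lit 7)) (cs (rf (nat_lit 8)) (rf (nat_lit 9)))))) (cs (nd (nat_lit 230) (nat_lit 0) (cs (rf (nat_lit 10)) (cs (rf (nat_lit 11)) (cs (nd (nat_lit 229) (nat_lit 0) (cs (rf (nat_lit 12)) (cs (rf (nat_lit 13)) (cs (rf (nat_lit 14)) (cs (rf (nat_lit 15)) (nd (nat_lit 251) (nat_lit 0) (cs (rf (nat_lit 16)) (cs (rf (nat_lit 17)) (cs (rf (nat_lit 18)) (cs (nd (nat_lit 252) (nat_lit 0) (cs (rf (nat_lit 19)) (cs (rf (nat_lit 20)) (cs (nd (nat_lit 232) (nat_lit 0) (cs (lf (nat_lit 6) (nat_lit 229)) (nd (nat_lit 206) (nat_lit 0) (cs (lf (nat_lit 22) (nat_lit 206)) (nd (nat_lit 208) (nat_lit 0) (cs (lf (nat_lit 24) (nat_lit 186)) (nd (nat_lit 273) (nat_lit 0) (cs (lf (nat_lit 30) (nat_lit 207))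 (nd (nat_lit 254) (nat_lit 0) (cs (lf (nat_lit 11) (nat_lit 250)) (lf (nat_lit 5) (nat_lit 229)))))))))))) (nd (nat_lit 232) (nat_lit 0) (cs (lf (nat_lit 6) (nat_lit 229)) (nd (nat_lit 186) (nat_lit 0) (cs (lf (nat_lit 25) (nat_lit 186)) (nd (nat_lit 254) (nat_lit 0) (cs (lf (nat_lit 18) (nat_lit 229)) (nd (nat_lit 276) (nat_lit 0) (cs (lf (nat_lit 5) (nat_lit 251)) (nd (nat_lit 298) (nat_lit 0) (cs (lf (nat_lit 42) (nat_lit 231)) (nd (nat_lit 273) (nat_lit 0) (cs (lf (nat_lit 11) (nat_lit 250)) (rf (nat_lit 21)))))))))))))))))) (cs (nd (nat_lit 252) (nat_lit 0) (cs (rf (nat_lit 22)) (cs (rf (nat_lit 20)) (rf (nat_lit 23))))) (nd (nat_lit 232) (nat_lit 0) (cs (lf (nat_lit 11) (nat_lit 228)) (nd (nat_lit 206) (nat_lit 0) (cs (lf (nat_lit 22) (nat_lit 206)) (nd (nat_lit 252) (nat_lit 0) (cs (lf (nat_lit 6) (nat_lit 229)) (nd (nat_lit 208) (nat_lit 0) (cs (lf (nat_lit 24) (nat_lit 186)) (nd (nat_lit 273) (nat_lit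 0) (cs (lf (nat_lit 30) (nat_lit 207)) (nd (nat_lit 254) (nat_lit 0) (cs (lf (nat_lit 11) (nat_lit 250)) (nd (nat_lit 276) (nat_lit 0) (cs (lf (nat_lit 5) (nat_lit 251)) (rf (nat_lit 24))))))))))))))))))))))))))) (nd (nat_lit 254) (nat_lit 0) (cs (rf (nat_lit 25)) (cs (rf (nat_lit 26)) (cs (rf (nat_lit 27)) (nd (nat_lit 255) (nat_lit 0) (cs (lf (nat_lit 18) (nat_lit 230)) (nd (nat_lit 252) (nat_lit 0) (cs (rf (nat_lit 28)) (cs (rf (nat_lit 29)) (cs (rf (nat_lit 30)) (rf (nat_lit 31)))))))))))))))) (cs (nd (nat_lit 297) (nat_lit 0) (cs (rf (nat_lit 32)) (cs (rf (nat_lit 33)) (cs (rf (nat_lit 34)) (rf (nat_lit 35)))))) (nd (nat_lit 297) (nat_lit 0) (cs (rf (nat_lit 36)) (cs (rf (nat_lit 37)) (cs (rf (nat_lit 8)) (cs (rf (nat_lit 38)) (rf (nat_lit 35))))))))))))))))) q113921 (by decide +kernel)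
def q113958 : Q := Q.p (nat_lit 0x800002000000000000000000000000000000000000000000000000000000000000000) (nat_lit 0x300000c0000fc0007b8001fe001f7c003df001ffc003ff0003f80007e0000500000000000000000000000000000000000) (nat_lit 16)
theorem c113958 : QOK q113958 := cut [q99375, q112995, q113055, q113071, q113085, q1999, q24207, q99497, q100642, q106480, q22510, q100649, q100654, q82275, q106743, q96312, q99649, q100882, q100641, q113628, q56839, q56032, q87559, q102212, q87874, q102193, q88809, q98641, q99134, q102199, q83723, q96758, q99564, q87917, q113079, q81384, q84409, q88933, q88941, q100639, q113371, q32034, q81706, q94433, q109649, q2066, q2091, q108923, q98766, q108918, q108922, q113097, q113102, q14907, q89807, q90627, q98377, q98529, q108825, q112952] ⟨c99375, c112995, c113055, c113071, c113085, c1999, c24207, c99497, c100642, c106480, c22510, c100649, c100654, c82275, c106743, c96312, c99649, c100882, c100641,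 c113628, c56839, c56032, c87559, c102212, c87874, c102193, c88809, c98641, c99134, c102199, c83723, c96758, c99564, c87917, c113079, c81384, c84409, c88933, c88941, c100639, c113371, c32034, c81706, c94433, c109649, c2066, c2091, c108923, c98766, c108918, c108922, c113097, c113102, c14907, c89807, c90627, c98377, c98529, c108825, c112952, trivial⟩ (nd (nat_lit 252) (nat_lit 0) (cs (rf (nat_lit 0)) (cs (rf (nat_lit 1)) (cs (rf (nat_lit 2)) (cs (rf (nat_lit 3)) (cs (rf (nat_lit 4)) (cs (nd (nat_lit 251) (nat_lit 0) (cs (rf (nat_lit 5)) (cs (rf (nat_lit 6)) (cs (nd (nat_lit 230) (nat_lit 0) (cs (rf (nat_lit 7)) (cs (rf (nat_lit 8)) (cs (rf (nat_lit 9)) (nd (nat_lit 208) (nat_lit 0) (cs (lf (nat_lit 24) (nat_lit 186)) (nd (nat_lit 274) (nat_lit 0) (cs (rf (nat_lit 10)) (cs (rf (nat_lit 11)) (rf (nat_lit 12))))))))))) (nd (nat_lit 231) (nat_lit 0) (cs (rf (nat_lit 13)) (cs (rf (nat_lit 14)) (nd (nat_lit 209) (nat_lit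 0) (cs (rf (nat_lit 15)) (cs (rf (nat_lit 16)) (rf (nat_lit 17)))))))))))) (cs (nd (nat_lit 230) (nat_lit 0) (cs (rf (nat_lit 7)) (cs (rf (nat_lit 9)) (cs (nd (nat_lit 231) (nat_lit 0) (cs (rf (nat_lit 18)) (cs (rf (nat_lit 19)) (cs (nd (nat_lit 274) (nat_lit 0) (cs (rf (nat_lit 20)) (cs (nd (nat_lit 297) (nat_lit 0) (cs (lf (nat_lit 42) (nat_lit 230)) (rf (nat_lit 21)))) (nd (nat_lit 228) (nat_lit 0) (cs (rf (nat_lit 22)) (cs (rf (nat_lit 23)) (cs (nd (nat_lit 250) (nat_lit 0) (cs (rf (nat_lit 24)) (cs (nd (nat_lit 227) (nat_lit 0) (cs (lf (nat_lit 20) (nat_lit 227)) (nd (nat_lit 187) (nat_lit 0) (cs (lf (nat_lit 37) (nat_lit 186)) (rf (nat_lit 25)))))) (cs (nd (nat_lit 272) (nat_lit 0) (cs (rf (nat_lit 26)) (cs (rf (nat_lit 27)) (rf (nat_lit 28))))) (nd (nat_lit 297) (nat_lit 0) (cs (lf (nat_lit 42) (nat_lit 230)) (nd (nat_lit 251) (nat_lit 0) (cs (lf (nat_lit 12) (nat_lit 227)) (nd (nat_lit 187) (nat_lit 0)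 (cs (lf (nat_lit 37) (nat_lit 186)) (rf (nat_lit 29)))))))))))) (nd (nat_lit 229) (nat_lit 0) (cs (lf (nat_lit 0) (nat_lit 227)) (nd (nat_lit 209) (nat_lit 0) (cs (lf (nat_lit 36) (nat_lit 186)) (lf (nat_lit 17) (nat_lit 206))))))))))))) (cs (nd (nat_lit 229) (nat_lit 0) (cs (rf (nat_lit 30)) (cs (rf (nat_lit 31)) (cs (rf (nat_lit 32)) (nd (nat_lit 251) (nat_lit 0) (cs (rf (nat_lit 33)) (nd (nat_lit 250) (nat_lit 0) (cs (lf (nat_lit 12) (nat_lit 227)) (nd (nat_lit 297) (nat_lit 0) (cs (lf (nat_lit 42) (nat_lit 230)) (nd (nat_lit 272) (nat_lit 0) (cs (lf (nat_lit 11) (nat_lit 249)) (rf (nat_lit 34)))))))))))))) (nd (nat_lit 297) (nat_lit 0) (cs (lf (nat_lit 42) (nat_lit 230)) (nd (nat_lit 298) (nat_lit 0) (cs (lf (nat_lit 29) (nat_lit 231)) (rf (nat_lit 35))))))))))) (nd (nat_lit 208) (nat_lit 0) (cs (lf (nat_lit 24) (nat_lit 186)) (nd (nat_lit 274) (nat_lit 0) (cs (rf (nat_lit 10)) (rf (nat_lit 36)))))))))) (cs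 (nd (nat_lit 297) (nat_lit 0) (cs (rf (nat_lit 37)) (cs (rf (nat_lit 38)) (cs (rf (nat_lit 39)) (cs (rf (nat_lit 40)) (nd (nat_lit 231) (nat_lit 0) (cs (rf (nat_lit 41)) (cs (rf (nat_lit 42)) (cs (rf (nat_lit 43)) (rf (nat_lit 44))))))))))) (cs (nd (nat_lit 251) (nat_lit 0) (cs (rf (nat_lit 5)) (cs (rf (nat_lit 45)) (cs (rf (nat_lit 46)) (cs (rf (nat_lit 47)) (nd (nat_lit 273) (nat_lit 0) (cs (rf (nat_lit 48)) (cs (rf (nat_lit 49)) (cs (rf (nat_lit 50)) (cs (rf (nat_lit 51)) (cs (rf (nat_lit 52)) (nd (nat_lit 274) (nat_lit 0) (cs (rf (nat_lit 53)) (cs (rf (nat_lit 54)) (rf (nat_lit 55)))))))))))))))) (nd (nat_lit 251) (nat_lit 0) (cs (rf (nat_lit 46)) (cs (rf (nat_lit 6)) (cs (rf (nat_lit 47)) (nd (nat_lit 254) (nat_lit 0) (cs (rf (nat_lit 56)) (cs (rf (nat_lit 57)) (cs (rf (nat_lit 58)) (rf (nat_lit 59)))))))))))))))))))) q113958 (by decide +kernel)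
def q114088 : Q := Q.p (nat_lit 0x3000000000000000000000000000000000000000000000000000000000000000) (nat_lit 0x80000b80007e0001fe000ff8001c60007fe001ff0007fe000ff0000e00003000008000000000000000000000000) (nat_lit 17)
theorem c114088 : QOK q114088 := cut [q110051, q110236, q110305, q110309, q110056, q110064, q110097, q80169, q105875, q114022, q114025, q110074, q87940, q110099, q110114, q110142, q114034, q114035, q114038, q114041, q105886, q110160, q114043, q79097, q105883, q85039, q85040, q86677, q114055, q114060, q114068, q79028, q110257, q110262, q114071, q114083, q114084, q114087] ⟨c110051, c110236, c110305, c110309, c110056, c110064, c110097, c80169, c105875, c114022, c114025, c110074, c87940, c110099, c110114, c110142, c114034, c114035, c114038, c114041, c105886, c110160, c114043, c79097, c105883, c85039, c85040, c86677, c114055, c114060, c114068, c79028, c110257, c110262, c114071, c114083, c114084, c114087,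 trivial⟩ (nd (nat_lit 230) (nat_lit 0) (cs (rf (nat_lit 0)) (cs (rf (nat_lit 1)) (cs (rf (nat_lit 2)) (cs (rf (nat_lit 3)) (cs (nd (nat_lit 231) (nat_lit 0) (cs (rf (nat_lit 4)) (cs (rf (nat_lit 5)) (cs (rf (nat_lit 6)) (cs (nd (nat_lit 209) (nat_lit 0) (cs (rf (nat_lit 7)) (cs (rf (nat_lit 8)) (rf (nat_lit 9))))) (cs (nd (nat_lit 209) (nat_lit 0) (cs (rf (nat_lit 7)) (cs (rf (nat_lit 10)) (nd (nat_lit 187) (nat_lit 0) (cs (lf (nat_lit 36) (nat_lit 164)) (nd (nat_lit 164) (nat_lit 0) (cs (lf (nat_lit 46) (nat_lit 164)) (nd (nat_lit 254) (nat_lit 0) (cs (lf (nat_lit 29) (nat_lit 187)) (nd (nat_lit 188) (nat_lit 0) (cs (lf (nat_lit 35) (nat_lit 165)) (rf (nat_lit 11))))))))))))) (nd (nat_lit 209) (nat_lit 0) (cs (rf (nat_lit 7)) (cs (rf (nat_lit 12)) (rf (nat_lit 13))))))))))) (cs (nd (nat_lit 231) (nat_lit 0) (cs (rf (nat_lit 4)) (cs (rf (nat_lit 14)) (cs (rf (nat_lit 15)) (cs (rf (nat_lit 16)) (cs (rf (nat_lit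 17)) (cs (rf (nat_lit 18)) (rf (nat_lit 19))))))))) (cs (nd (nat_lit 231) (nat_lit 0) (cs (rf (nat_lit 20)) (cs (rf (nat_lit 14)) (cs (rf (nat_lit 21)) (cs (rf (nat_lit 22)) (cs (nd (nat_lit 274) (nat_lit 0) (cs (rf (nat_lit 23)) (cs (rf (nat_lit 24)) (nd (nat_lit 208) (nat_lit 0) (cs (rf (nat_lit 25)) (cs (rf (nat_lit 26)) (rf (nat_lit 27)))))))) (rf (nat_lit 28)))))))) (cs (rf (nat_lit 29)) (cs (rf (nat_lit 30)) (cs (nd (nat_lit 254) (nat_lit 0) (cs (rf (nat_lit 31)) (cs (rf (nat_lit 32)) (cs (rf (nat_lit 33)) (rf (nat_lit 34)))))) (cs (rf (nat_lit 35)) (cs (rf (nat_lit 36)) (rf (nat_lit 37))))))))))))))) q114088 (by decide +kernel)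
def q114154 : Q := Q.p (nat_lit 0x400003000004000010000000000000000000000000000000000000000000000000000) (nat_lit 0x1ee0007b80000e00000000020000080000000000000000000000000000000000000000000000) (nat_lit 10)
theorem c114154 : QOK q114154 := cut [q12668] ⟨c12668, trivial⟩ (nd (nat_lit 275) (nat_lit 0) (cs (lf (nat_lit 29) (nat_lit 208)) (rf (nat_lit 0)))) q114154 (by decide +kernel)
def q114382 : Q := Q.p (nat_lit 0x3000000000000000000000000000000000000000000000000000000000000000) (nat_lit 0x80000f80003e0001fe000ff8003c8000ffe001ff0007fe000fc0002e00003000008000000000000000000000000) (nat_lit 17)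
theorem c114382 : QOK q114382 := cut [q110051, q110309, q114060, q114068, q114083, q114084, q79028, q81409, q79217, q81054, q111146, q113999, q114345, q79118, q110565, q114349, q106115, q114035, q114038, q114050, q114352, q110564, q114354, q102284, q114375, q79026, q88829, q114378, q110584] ⟨c110051, c110309, c114060, c114068, c114083, c114084, c79028, c81409, c79217, c81054, c111146, c113999, c114345, c79118, c110565, c114349, c106115, c114035, c114038, c114050, c114352, c110564, c114354, c102284, c114375, c79026, c88829, c114378, c110584, trivial⟩ (nd (nat_lit 230) (nat_lit 0) (cs (rf (nat_lit 0)) (cs (rf (nat_lit 1)) (cs (rf (nat_lit 2)) (cs (rf (nat_lit 3)) (cs (rf (nat_lit 4)) (cs (rf (nat_lit 5)) (cs (nd (nat_lit 254) (nat_lit 0) (cs (rf (nat_lit 6)) (cs (rf (nat_lit 7)) (cs (nd (nat_lit 255) (nat_lit 0) (cs (rf (nat_lit 8)) (cs (rf (nat_lit 9)) (cs (rf (nat_lit 10)) (rf (nat_lit 11)))))) (rf (nat_lit 12))))))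 (cs (nd (nat_lit 254) (nat_lit 0) (cs (rf (nat_lit 6)) (cs (rf (nat_lit 7)) (cs (nd (nat_lit 232) (nat_lit 0) (cs (rf (nat_lit 13)) (cs (rf (nat_lit 14)) (cs (rf (nat_lit 15)) (nd (nat_lit 231) (nat_lit 0) (cs (rf (nat_lit 16)) (cs (rf (nat_lit 17)) (cs (rf (nat_lit 18)) (rf (nat_lit 19)))))))))) (rf (nat_lit 20)))))) (cs (nd (nat_lit 254) (nat_lit 0) (cs (rf (nat_lit 6)) (cs (rf (nat_lit 7)) (cs (rf (nat_lit 20)) (nd (nat_lit 251) (nat_lit 0) (cs (rf (nat_lit 21)) (cs (rf (nat_lit 22)) (cs (nd (nat_lit 231) (nat_lit 0) (cs (rf (nat_lit 23)) (cs (rf (nat_lit 24)) (nd (nat_lit 229) (nat_lit 0) (cs (rf (nat_lit 25)) (rf (nat_lit 26))))))) (rf (nat_lit 27)))))))))) (nd (nat_lit 254) (nat_lit 0) (cs (rf (nat_lit 6)) (cs (rf (nat_lit 7)) (cs (rf (nat_lit 28)) (rf (nat_lit 20)))))))))))))))) q114382 (by decide +kernel)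
def q114612 : Q := Q.p (nat_lit 0x3000000000000000000000000000000000000000000000000000000000000000) (nat_lit 0x100001c0001f0001fc0007fc0004e0007fc003fe0003f8000fc0001c00000000000000000000000000000000000) (nat_lit 15)
theorem c114612 : QOK q114612 := cut [q88776, q88875, q88931, q82275, q114272, q88302, q88785, q89844, q114287, q82309, q88751, q88756, q88748, q106705, q114581, q88824, q88746, q88920, q82278, q88834, q114596, q82198, q88872, q114598, q87928, q87951, q114035, q114601, q91430, q91853, q82274, q82277, q80881, q98559, q106730, q84852, q87953, q88829, q88896] ⟨c88776, c88875, c88931, c82275, c114272, c88302, c88785, c89844, c114287, c82309, c88751, c88756, c88748, c106705, c114581, c88824, c88746, c88920, c82278, c88834, c114596, c82198, c88872, c114598, c87928, c87951, c114035, c114601, c91430, c91853, c82274, c82277, c80881, c98559, c106730, c84852, c87953, c88829, c88896, trivial⟩ (nd (nat_lit 231)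 (nat_lit 0) (cs (rf (nat_lit 0)) (cs (rf (nat_lit 1)) (cs (rf (nat_lit 2)) (cs (nd (nat_lit 251) (nat_lit 0) (cs (rf (nat_lit 3)) (cs (rf (nat_lit 4)) (nd (nat_lit 273) (nat_lit 0) (cs (rf (nat_lit 5)) (cs (rf (nat_lit 6)) (cs (rf (nat_lit 7)) (rf (nat_lit 8))))))))) (cs (nd (nat_lit 209) (nat_lit 0) (cs (rf (nat_lit 9)) (cs (rf (nat_lit 10)) (cs (rf (nat_lit 11)) (nd (nat_lit 275) (nat_lit 0) (cs (rf (nat_lit 12)) (cs (rf (nat_lit 13)) (cs (rf (nat_lit 14)) (cs (nd (nat_lit 276) (nat_lit 0) (cs (lf (nat_lit 29) (nat_lit 209)) (nd (nat_lit 277) (nat_lit 0) (cs (lf (nat_lit 18) (nat_lit 252)) (nd (nat_lit 186) (nat_lit 0) (cs (lf (nat_lit 46) (nat_lit 186)) (rf (nat_lit 15)))))))) (cs (nd (nat_lit 274) (nat_lit 0) (cs (lf (nat_lit 41) (nat_lit 208)) (nd (nat_lit 276) (nat_lit 0) (cs (lf (nat_lit 29) (nat_lit 209)) (nd (nat_lit 277) (nat_lit 0) (cs (lf (nat_lit 18) (nat_lit 252)) (nd (nat_lit 299) (nat_lit 0) (cs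 (lf (nat_lit 5) (nat_lit 274)) (rf (nat_lit 16)))))))))) (nd (nat_lit 276) (nat_lit 0) (cs (lf (nat_lit 29) (nat_lit 209)) (nd (nat_lit 277) (nat_lit 0) (cs (lf (nat_lit 18) (nat_lit 252)) (nd (nat_lit 274) (nat_lit 0) (cs (lf (nat_lit 41) (nat_lit 208)) (nd (nat_lit 299) (nat_lit 0) (cs (lf (nat_lit 5) (nat_lit 274)) (rf (nat_lit 17)))))))))))))))))))) (cs (nd (nat_lit 251) (nat_lit 0) (cs (rf (nat_lit 3)) (cs (rf (nat_lit 18)) (cs (nd (nat_lit 273) (nat_lit 0) (cs (rf (nat_lit 19)) (cs (rf (nat_lit 7)) (rf (nat_lit 8))))) (rf (nat_lit 20)))))) (cs (nd (nat_lit 251) (nat_lit 0) (cs (rf (nat_lit 3)) (cs (rf (nat_lit 18)) (cs (nd (nat_lit 229) (nat_lit 0) (cs (rf (nat_lit 21)) (cs (rf (nat_lit 22)) (cs (rf (nat_lit 23)) (nd (nat_lit 230) (nat_lit 0) (cs (rf (nat_lit 24)) (cs (rf (nat_lit 25)) (rf (nat_lit 26))))))))) (rf (nat_lit 27)))))) (cs (nd (nat_lit 251) (nat_lit 0) (cs (rf (nat_lit 3)) (cs (rf (nat_lit 18))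 (cs (rf (nat_lit 20)) (nd (nat_lit 209) (nat_lit 0) (cs (rf (nat_lit 9)) (cs (rf (nat_lit 10)) (nd (nat_lit 275) (nat_lit 0) (cs (rf (nat_lit 28)) (rf (nat_lit 29))))))))))) (cs (nd (nat_lit 251) (nat_lit 0) (cs (rf (nat_lit 3)) (cs (rf (nat_lit 18)) (cs (rf (nat_lit 27)) (nd (nat_lit 229) (nat_lit 0) (cs (rf (nat_lit 21)) (cs (rf (nat_lit 22)) (cs (nd (nat_lit 232) (nat_lit 0) (cs (rf (nat_lit 30)) (cs (rf (nat_lit 31)) (nd (nat_lit 274) (nat_lit 0) (cs (rf (nat_lit 32)) (cs (rf (nat_lit 33)) (rf (nat_lit 34)))))))) (nd (nat_lit 230) (nat_lit 0) (cs (rf (nat_lit 35)) (cs (rf (nat_lit 36)) (rf (nat_lit 37))))))))))))) (nd (nat_lit 251) (nat_lit 0) (cs (rf (nat_lit 3)) (cs (rf (nat_lit 18)) (cs (rf (nat_lit 38)) (rf (nat_lit 20)))))))))))))))) q114612 (by decide +kernel)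
def q114790 : Q := Q.p (nat_lit 0x800003000000000000000000000000000000000000000000000000000000000000000) (nat_lit 0x380001f8000fe000678001ce000778000fe0001e0000000000000000000000000000000000000000000000) (nat_lit 14)
theorem c114790 : QOK q114790 := cut [q108397, q108405, q114758, q114769, q114774, q79079, q86391, q108395, q108403, q87021, q108410, q112857, q112570, q86717, q112561, q94337, q86318] ⟨c108397, c108405, c114758, c114769, c114774, c79079, c86391, c108395, c108403, c87021, c108410, c112857, c112570, c86717, c112561, c94337, c86318, trivial⟩ (nd (nat_lit 274) (nat_lit 0) (cs (rf (nat_lit 0)) (cs (rf (nat_lit 1)) (cs (rf (nat_lit 2)) (cs (rf (nat_lit 3)) (cs (rf (nat_lit 4)) (cs (nd (nat_lit 254) (nat_lit 0) (cs (rf (nat_lit 5)) (cs (rf (nat_lit 6)) (nd (nat_lit 251) (nat_lit 0) (cs (rf (nat_lit 7)) (cs (rf (nat_lit 8)) (nd (nat_lit 273) (nat_lit 0) (cs (rf (nat_lit 9)) (rf (nat_lit 10)))))))))) (nd (nat_lit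 254) (nat_lit 0) (cs (rf (nat_lit 5)) (cs (rf (nat_lit 6)) (nd (nat_lit 296) (nat_lit 0) (cs (rf (nat_lit 11)) (cs (nd (nat_lit 318) (nat_lit 0) (cs (lf (nat_lit 30) (nat_lit 252)) (nd (nat_lit 319) (nat_lit 0) (cs (lf (nat_lit 29) (nat_lit 252)) (rf (nat_lit 12)))))) (cs (nd (nat_lit 297) (nat_lit 0) (cs (rf (nat_lit 13)) (rf (nat_lit 14)))) (cs (nd (nat_lit 272) (nat_lit 0) (cs (lf (nat_lit 13) (nat_lit 250)) (rf (nat_lit 15)))) (nd (nat_lit 318) (nat_lit 0) (cs (lf (nat_lit 30) (nat_lit 252)) (nd (nat_lit 319) (nat_lit 0) (cs (lf (nat_lit 29) (nat_lit 252)) (nd (nat_lit 232) (nat_lit 0) (cs (lf (nat_lit 31) (nat_lit 231)) (nd (nat_lit 188) (nat_lit 0) (cs (lf (nat_lit 37) (nat_lit 187)) (nd (nat_lit 317) (nat_lit 0) (cs (lf (nat_lit 41) (nat_lit 251)) (nd (nat_lit 272) (nat_lit 0) (cs (lf (nat_lit 13) (nat_lit 250)) (rf (nat_lit 16))))))))))))))))))))))))))))) q114790 (by decide +kernel)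
def q115019 : Q := Q.p (nat_lit 0xc00002000000000000000000000000000000000000000000000000000000000000000) (nat_lit 0x780001e0001de0007380019e0007f8001fe0001f0000400000000000000000000000000000000000000000) (nat_lit 14)
theorem c115019 : QOK q115019 := cut [q114997, q115008, q700, q14689, q2180, q22299, q81450, q2182, q108450, q98468, q98730, q108760, q112979, q98479, q105293, q22284] ⟨c114997, c115008, c700, c14689, c2180, c22299, c81450, c2182, c108450, c98468, c98730, c108760, c112979, c98479, c105293, c22284, trivial⟩ (nd (nat_lit 252) (nat_lit 0) (cs (rf (nat_lit 0)) (cs (rf (nat_lit 1)) (cs (nd (nat_lit 276) (nat_lit 0) (cs (rf (nat_lit 2)) (cs (rf (nat_lit 3)) (nd (nat_lit 273) (nat_lit 0) (cs (rf (nat_lit 4)) (cs (nd (nat_lit 298) (nat_lit 0) (cs (lf (nat_lit 5) (nat_lit 273)) (nd (nat_lit 320) (nat_lit 0) (cs (lf (nat_lit 42) (nat_lit 253)) (rf (nat_lit 5)))))) (nd (nat_lit 295) (nat_lit 0) (cs (lf (nat_lit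 11) (nat_lit 272)) (nd (nat_lit 251) (nat_lit 0) (cs (lf (nat_lit 23) (nat_lit 250)) (rf (nat_lit 6)))))))))))) (cs (nd (nat_lit 276) (nat_lit 0) (cs (rf (nat_lit 2)) (cs (rf (nat_lit 3)) (nd (nat_lit 273) (nat_lit 0) (cs (rf (nat_lit 4)) (cs (rf (nat_lit 7)) (rf (nat_lit 8)))))))) (nd (nat_lit 230) (nat_lit 0) (cs (rf (nat_lit 9)) (cs (rf (nat_lit 10)) (cs (rf (nat_lit 11)) (cs (rf (nat_lit 12)) (nd (nat_lit 231) (nat_lit 0) (cs (rf (nat_lit 13)) (cs (rf (nat_lit 14)) (nd (nat_lit 209) (nat_lit 0) (cs (lf (nat_lit 36) (nat_lit 186)) (nd (nat_lit 186) (nat_lit 0) (cs (rf (nat_lit 15)) (lf (nat_lit 46) (nat_lit 186))))))))))))))))))) q115019 (by decide +kernel)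
def q115654 : Q := Q.p (nat_lit 0x3000000000000000000000000000000000000000000000000000000000000000) (nat_lit 0x80000f80007f8001fe000ff8001c60007fe001ff0007fe000ff0001e00003000008000000000000000000000000) (nat_lit 17)
theorem c115654 : QOK q115654 := cut [q110051, q110236, q110305, q110309, q110315, q114060, q114087, q110056, q110064, q110097, q110100, q82309, q105875, q114022, q110078, q114025, q110107, q110114, q110142, q114034, q114041, q115627, q105886, q110160, q114043, q114055, q79097, q105883, q105893, q115641, q79028, q110262, q110267, q95670, q110246, q110252, q98863, q110238, q110249, q115644, q115651, q79077, q115640, q79078, q79112, q110312] ⟨c110051, c110236, c110305, c110309, c110315, c114060, c114087, c110056, c110064, c110097, c110100, c82309, c105875, c114022, c110078, c114025, c110107, c110114, c110142, c114034, c114041, c115627, c105886, c110160, c114043, c114055, c79097, c105883, c105893, c115641,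 c79028, c110262, c110267, c95670, c110246, c110252, c98863, c110238, c110249, c115644, c115651, c79077, c115640, c79078, c79112, c110312, trivial⟩ (nd (nat_lit 230) (nat_lit 0) (cs (rf (nat_lit 0)) (cs (rf (nat_lit 1)) (cs (rf (nat_lit 2)) (cs (rf (nat_lit 3)) (cs (rf (nat_lit 4)) (cs (rf (nat_lit 5)) (cs (rf (nat_lit 6)) (cs (nd (nat_lit 231) (nat_lit 0) (cs (rf (nat_lit 7)) (cs (rf (nat_lit 8)) (cs (rf (nat_lit 9)) (cs (rf (nat_lit 10)) (cs (nd (nat_lit 209) (nat_lit 0) (cs (rf (nat_lit 11)) (cs (rf (nat_lit 12)) (rf (nat_lit 13))))) (nd (nat_lit 209) (nat_lit 0) (cs (rf (nat_lit 11)) (cs (rf (nat_lit 14)) (rf (nat_lit 15))))))))))) (cs (nd (nat_lit 231) (nat_lit 0) (cs (rf (nat_lit 7)) (cs (rf (nat_lit 16)) (cs (rf (nat_lit 17)) (cs (rf (nat_lit 18)) (cs (rf (nat_lit 19)) (cs (rf (nat_lit 20)) (rf (nat_lit 21))))))))) (cs (nd (nat_lit 231) (nat_lit 0) (cs (rf (nat_lit 22)) (cs (rf (nat_lit 17)) (cs (rf (nat_lit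 23)) (cs (rf (nat_lit 24)) (cs (rf (nat_lit 25)) (nd (nat_lit 274) (nat_lit 0) (cs (rf (nat_lit 26)) (cs (rf (nat_lit 27)) (rf (nat_lit 28))))))))))) (cs (rf (nat_lit 29)) (cs (nd (nat_lit 254) (nat_lit 0) (cs (rf (nat_lit 30)) (cs (rf (nat_lit 31)) (cs (rf (nat_lit 32)) (nd (nat_lit 275) (nat_lit 0) (cs (rf (nat_lit 33)) (cs (rf (nat_lit 34)) (cs (rf (nat_lit 35)) (cs (nd (nat_lit 274) (nat_lit 0) (cs (rf (nat_lit 36)) (cs (rf (nat_lit 37)) (rf (nat_lit 38))))) (rf (nat_lit 39))))))))))) (cs (rf (nat_lit 40)) (nd (nat_lit 254) (nat_lit 0) (cs (rf (nat_lit 30)) (cs (rf (nat_lit 41)) (cs (rf (nat_lit 42)) (nd (nat_lit 275) (nat_lit 0) (cs (rf (nat_lit 43)) (cs (rf (nat_lit 44)) (cs (rf (nat_lit 45)) (rf (nat_lit 39)))))))))))))))))))))))) q115654 (by decide +kernel)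
def q115725 : Q := Q.p (nat_lit 0x3000000000000000000000000000000000000000000000000000000000000000) (nat_lit 0x80000f80003f8001fe000ff8001c8000ffe001ff0007fe000fc0000e00003000008000000000000000000000000) (nat_lit 17)
theorem c115725 : QOK q115725 := cut [q110051, q110309, q110315, q114060, q115641, q115651, q79028, q114345, q115693, q110533, q106113, q106114, q114338, q79026, q81406, q79078, q114843, q114842, q110554, q79118, q115715, q106112, q114354, q114378, q102284, q114375, q115717, q89866, q110584] ⟨c110051, c110309, c110315, c114060, c115641, c115651, c79028, c114345, c115693, c110533, c106113, c106114, c114338, c79026, c81406, c79078, c114843, c114842, c110554, c79118, c115715, c106112, c114354, c114378, c102284, c114375, c115717, c89866, c110584, trivial⟩ (nd (nat_lit 230) (nat_lit 0) (cs (rf (nat_lit 0)) (cs (rf (nat_lit 1)) (cs (rf (nat_lit 2)) (cs (rf (nat_lit 3)) (cs (rf (nat_lit 4)) (cs (rf (nat_lit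 5)) (cs (nd (nat_lit 254) (nat_lit 0) (cs (rf (nat_lit 6)) (cs (rf (nat_lit 7)) (rf (nat_lit 8))))) (cs (nd (nat_lit 254) (nat_lit 0) (cs (rf (nat_lit 6)) (cs (rf (nat_lit 9)) (cs (nd (nat_lit 276) (nat_lit 0) (cs (rf (nat_lit 10)) (cs (rf (nat_lit 11)) (cs (rf (nat_lit 12)) (nd (nat_lit 229) (nat_lit 0) (cs (rf (nat_lit 13)) (cs (rf (nat_lit 14)) (nd (nat_lit 275) (nat_lit 0) (cs (rf (nat_lit 15)) (cs (nd (nat_lit 297) (nat_lit 0) (cs (lf (nat_lit 42) (nat_lit 230)) (rf (nat_lit 16)))) (nd (nat_lit 232) (nat_lit 0) (cs (rf (nat_lit 17)) (cs (nd (nat_lit 186) (nat_lit 0) (cs (lf (nat_lit 25) (nat_lit 186)) (nd (nat_lit 210) (nat_lit 0) (cs (lf (nat_lit 36) (nat_lit 187)) (rf (nat_lit 18)))))) (nd (nat_lit 188) (nat_lit 0) (cs (rf (nat_lit 19)) (lf (nat_lit 37) (nat_lit 187))))))))))))))))) (rf (nat_lit 20)))))) (cs (nd (nat_lit 254) (nat_lit 0) (cs (rf (nat_lit 6)) (cs (rf (nat_lit 9)) (cs (rf (nat_lit 20)) (nd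 (nat_lit 251) (nat_lit 0) (cs (rf (nat_lit 21)) (cs (rf (nat_lit 22)) (cs (rf (nat_lit 23)) (cs (nd (nat_lit 231) (nat_lit 0) (cs (rf (nat_lit 24)) (cs (rf (nat_lit 25)) (rf (nat_lit 26))))) (nd (nat_lit 276) (nat_lit 0) (cs (lf (nat_lit 5) (nat_lit 251)) (nd (nat_lit 273) (nat_lit 0) (cs (lf (nat_lit 11) (nat_lit 250)) (nd (nat_lit 228) (nat_lit 0) (cs (lf (nat_lit 22) (nat_lit 228)) (rf (nat_lit 27))))))))))))))))) (nd (nat_lit 254) (nat_lit 0) (cs (rf (nat_lit 6)) (cs (rf (nat_lit 9)) (cs (rf (nat_lit 28)) (rf (nat_lit 20)))))))))))))))) q115725 (by decide +kernel)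
def q4374 : Q := Q.p (nat_lit 0x2000000000010000000000000000000000000000000000000000000000000000) (nat_lit 0x360001f8001ff0007ff0001f8007ff801efc001ff801ff8007ff0007f0000f800000000000000000000000) (nat_lit 19)
theorem c4374 : QOK q4374 := cut [q443, q516, q3124, q35, q3138, q3160, q3171, q3193, q3195, q3206, q3319, q3296, q3328, q666, q671, q3211, q3329, q3364, q3365, q3376, q3381, q3469, q3820, q3825, q3982, q4070, q437, q641, q4079, q2632, q4078, q19, q280, q658, q3190, q4086, q3255, q3318, q3422, q3883, q4089, q1129, q1511, q1678, q4090, q4103, q4104, q4176, q3989, q3996, q4183, q4238, q4270, q4281, q4321, q4350, q3208, q3216, q3277, q3297, q3441, q4373] ⟨c443, c516, c3124, c35, c3138, c3160, c3171, c3193, c3195, c3206, c3319, c3296, c3328, c666, c671, c3211, c3329, c3364, c3365, c3376, c3381, c3469, c3820, c3825, c3982, c4070, c437, c641, c4079, c2632, c4078, c19, c280, c658, c3190, c4086, c3255, c3318, c3422,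 c3883, c4089, c1129, c1511, c1678, c4090, c4103, c4104, c4176, c3989, c3996, c4183, c4238, c4270, c4281, c4321, c4350, c3208, c3216, c3277, c3297, c3441, c4373, trivial⟩ (nd (nat_lit 207) (nat_lit 0) (cs (nd (nat_lit 186) (nat_lit 0) (cs (rf (nat_lit 0)) (cs (rf (nat_lit 1)) (cs (rf (nat_lit 2)) (cs (nd (nat_lit 209) (nat_lit 0) (cs (rf (nat_lit 3)) (cs (rf (nat_lit 4)) (cs (nd (nat_lit 231) (nat_lit 0) (cs (lf (nat_lit 42) (nat_lit 186)) (rf (nat_lit 5)))) (rf (nat_lit 6)))))) (cs (rf (nat_lit 7)) (cs (rf (nat_lit 8)) (rf (nat_lit 9))))))))) (cs (rf (nat_lit 10)) (cs (nd (nat_lit 206) (nat_lit 0) (cs (rf (nat_lit 11)) (cs (rf (nat_lit 12)) (cs (nd (nat_lit 205) (nat_lit 0) (cs (rf (nat_lit 13)) (cs (rf (nat_lit 14)) (cs (rf (nat_lit 15)) (nd (nat_lit 230) (nat_lit 0) (cs (lf (nat_lit 5) (nat_lit 205)) (nd (nat_lit 182) (nat_lit 0) (cs (lf (nat_lit 22) (nat_lit 182)) (nd (nat_lit 226) (nat_lit 0) (cs (lf (nat_lit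 10) (nat_lit 204)) (nd (nat_lit 186) (nat_lit 0) (cs (lf (nat_lit 17) (nat_lit 183)) (rf (nat_lit 16)))))))))))))) (cs (rf (nat_lit 17)) (cs (rf (nat_lit 18)) (cs (rf (nat_lit 19)) (rf (nat_lit 20))))))))) (cs (rf (nat_lit 21)) (cs (rf (nat_lit 22)) (cs (rf (nat_lit 23)) (cs (rf (nat_lit 24)) (cs (rf (nat_lit 25)) (cs (nd (nat_lit 186) (nat_lit 0) (cs (rf (nat_lit 26)) (cs (rf (nat_lit 0)) (cs (rf (nat_lit 27)) (cs (rf (nat_lit 2)) (cs (rf (nat_lit 9)) (cs (rf (nat_lit 28)) (nd (nat_lit 209) (nat_lit 0) (cs (rf (nat_lit 29)) (cs (rf (nat_lit 30)) (cs (nd (nat_lit 252) (nat_lit 0) (cs (nd (nat_lit 230) (nat_lit 0) (cs (rf (nat_lit 31)) (lf (nat_lit 29) (nat_lit 186)))) (cs (rf (nat_lit 32)) (cs (rf (nat_lit 33)) (rf (nat_lit 34)))))) (rf (nat_lit 35))))))))))))) (cs (nd (nat_lit 206) (nat_lit 0) (cs (rf (nat_lit 36)) (cs (rf (nat_lit 37)) (cs (rf (nat_lit 17)) (cs (rf (nat_lit 38)) (cs (rf (nat_lit 39)) (cs (rf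 (nat_lit 40)) (nd (nat_lit 209) (nat_lit 0) (cs (rf (nat_lit 41)) (cs (rf (nat_lit 42)) (cs (rf (nat_lit 43)) (nd (nat_lit 231) (nat_lit 0) (cs (lf (nat_lit 5) (nat_lit 206)) (nd (nat_lit 227) (nat_lit 0) (cs (lf (nat_lit 10) (nat_lit 205)) (nd (nat_lit 187) (nat_lit 0) (cs (lf (nat_lit 17) (nat_lit 184)) (nd (nat_lit 252) (nat_lit 0) (cs (lf (nat_lit 41) (nat_lit 186)) (rf (nat_lit 44))))))))))))))))))))) (cs (nd (nat_lit 186) (nat_lit 0) (cs (rf (nat_lit 26)) (cs (rf (nat_lit 0)) (cs (rf (nat_lit 2)) (cs (rf (nat_lit 9)) (cs (rf (nat_lit 45)) (nd (nat_lit 209) (nat_lit 0) (cs (rf (nat_lit 6)) (cs (rf (nat_lit 30)) (cs (rf (nat_lit 35)) (rf (nat_lit 46)))))))))))) (cs (rf (nat_lit 47)) (cs (nd (nat_lit 230) (nat_lit 0) (cs (rf (nat_lit 48)) (cs (rf (nat_lit 49)) (cs (rf (nat_lit 50)) (cs (rf (nat_lit 51)) (rf (nat_lit 52))))))) (cs (rf (nat_lit 53)) (cs (rf (nat_lit 54)) (cs (rf (nat_lit 55)) (cs (nd (nat_lit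 206) (nat_lit 0) (cs (rf (nat_lit 56)) (cs (rf (nat_lit 57)) (cs (rf (nat_lit 58)) (cs (rf (nat_lit 59)) (cs (rf (nat_lit 12)) (rf (nat_lit 60)))))))) (rf (nat_lit 61)))))))))))))))))))) q4374 (by decide +kernel)
def q6171 : Q := Q.p (nat_lit 0x2000000000010000000000000000000000000000000000000000000000000000) (nat_lit 0x200000c00003e0001fc0001f0007ff001ef800efe001ff8007fc001ff0003f8000fa000060000000000000) (nat_lit 19)
theorem c6171 : QOK q6171 := cut [q443, q516, q641, q35, q5627, q5700, q5892, q6119, q435, q438, q500, q6, q448, q495, q6130, q628, q3194, q4389, q6133, q2175, q160, q524, q4508, q5832, q5835, q5842, q558, q617, q619, q4753, q4772, q4774, q2312, q1699, q2703, q6170] ⟨c443, c516, c641, c35, c5627, c5700, c5892, c6119, c435, c438, c500, c6, c448, c495, c6130, c628, c3194, c4389, c6133, c2175, c160, c524, c4508, c5832, c5835, c5842, c558, c617, c619, c4753, c4772, c4774, c2312, c1699, c2703, c6170,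 trivial⟩ (nd (nat_lit 186) (nat_lit 0) (cs (rf (nat_lit 0)) (cs (rf (nat_lit 1)) (cs (rf (nat_lit 2)) (cs (nd (nat_lit 209) (nat_lit 0) (cs (rf (nat_lit 3)) (cs (rf (nat_lit 4)) (cs (rf (nat_lit 5)) (rf (nat_lit 6)))))) (cs (rf (nat_lit 7)) (cs (nd (nat_lit 230) (nat_lit 0) (cs (rf (nat_lit 8)) (cs (rf (nat_lit 9)) (cs (rf (nat_lit 10)) (nd (nat_lit 164) (nat_lit 0) (cs (rf (nat_lit 11)) (cs (rf (nat_lit 12)) (cs (rf (nat_lit 13)) (rf (nat_lit 14)))))))))) (cs (nd (nat_lit 164) (nat_lit 0) (cs (rf (nat_lit 15)) (cs (rf (nat_lit 16)) (nd (nat_lit 209) (nat_lit 0) (cs (rf (nat_lit 17)) (cs (rf (nat_lit 18)) (nd (nat_lit 185) (nat_lit 0) (cs (rf (nat_lit 19)) (cs (nd (nat_lit 207) (nat_lit 0) (cs (rf (nat_lit 20)) (cs (rf (nat_lit 21)) (nd (nat_lit 163) (nat_lit 0) (cs (rf (nat_lit 22)) (cs (rf (nat_lit 23)) (cs (rf (nat_lit 24)) (rf (nat_lit 25))))))))) (nd (nat_lit 142) (nat_lit 0) (cs (rf (nat_lit 26)) (cs (rf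 (nat_lit 27)) (cs (rf (nat_lit 28)) (nd (nat_lit 184) (nat_lit 0) (cs (rf (nat_lit 29)) (cs (rf (nat_lit 30)) (cs (rf (nat_lit 31)) (nd (nat_lit 206) (nat_lit 0) (cs (rf (nat_lit 32)) (cs (nd (nat_lit 143) (nat_lit 0) (cs (lf (nat_lit 35) (nat_lit 120)) (nd (nat_lit 119) (nat_lit 0) (cs (lf (nat_lit 46) (nat_lit 119)) (nd (nat_lit 187) (nat_lit 0) (cs (lf (nat_lit 11) (nat_lit 183)) (nd (nat_lit 161) (nat_lit 0) (cs (lf (nat_lit 22) (nat_lit 161)) (nd (nat_lit 165) (nat_lit 0) (cs (lf (nat_lit 17) (nat_lit 162)) (rf (nat_lit 33)))))))))))) (nd (nat_lit 207) (nat_lit 0) (cs (lf (nat_lit 41) (nat_lit 141)) (rf (nat_lit 34)))))))))))))))))))))))) (rf (nat_lit 35)))))))))) q6171 (by decide +kernel)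
def q7402 : Q := Q.p (nat_lit 0x2000000000010000000000000000000000000000000000000000000000000000) (nat_lit 0x200003e0001f8001ff0007ff0001f8003ff0002f800fff003ffc00fff003ffc001f800078000040000000000000) (nat_lit 19)
theorem c7402 : QOK q7402 := cut [q4070, q4176, q5364, q6589, q6704, q3216, q3255, q3260, q3296, q6682, q3218, q3398, q6595, q6596, q6681, q6770, q527, q530, q6800, q6805, q6867, q6921, q3195, q3816, q6892, q6924, q6937, q6940, q6971, q443, q516, q2904, q3124, q6975, q416, q3182, q3191, q3192, q3793, q7079, q7302, q7327, q3799, q7355, q7397, q3989, q3996, q4183, q4334, q5352, q5362, q4436, q4056, q5354, q6951] ⟨c4070, c4176, c5364, c6589, c6704, c3216, c3255, c3260, c3296, c6682, c3218, c3398, c6595, c6596, c6681, c6770, c527, c530, c6800, c6805, c6867, c6921, c3195, c3816, c6892, c6924, c6937, c6940, c6971, c443, c516, c2904, c3124, c6975, c416, c3182, c3191, c3192, c3793, c7079, c7302, c7327, c3799,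 c7355, c7397, c3989, c3996, c4183, c4334, c5352, c5362, c4436, c4056, c5354, c6951, trivial⟩ (nd (nat_lit 207) (nat_lit 0) (cs (rf (nat_lit 0)) (cs (rf (nat_lit 1)) (cs (rf (nat_lit 2)) (cs (rf (nat_lit 3)) (cs (rf (nat_lit 4)) (cs (nd (nat_lit 206) (nat_lit 0) (cs (rf (nat_lit 5)) (cs (rf (nat_lit 6)) (cs (rf (nat_lit 7)) (cs (rf (nat_lit 8)) (cs (rf (nat_lit 9)) (cs (nd (nat_lit 209) (nat_lit 0) (cs (rf (nat_lit 10)) (nd (nat_lit 228) (nat_lit 0) (cs (rf (nat_lit 11)) (cs (rf (nat_lit 12)) (cs (rf (nat_lit 13)) (rf (nat_lit 14)))))))) (cs (rf (nat_lit 15)) (nd (nat_lit 186) (nat_lit 0) (cs (rf (nat_lit 16)) (cs (rf (nat_lit 17)) (cs (rf (nat_lit 18)) (rf (nat_lit 19)))))))))))))) (cs (rf (nat_lit 20)) (cs (rf (nat_lit 21)) (cs (nd (nat_lit 186) (nat_lit 0) (cs (rf (nat_lit 22)) (cs (rf (nat_lit 23)) (cs (rf (nat_lit 24)) (cs (rf (nat_lit 25)) (cs (rf (nat_lit 26)) (rf (nat_lit 27)))))))) (cs (rf (nat_lit 28))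 (cs (nd (nat_lit 186) (nat_lit 0) (cs (rf (nat_lit 29)) (cs (rf (nat_lit 30)) (cs (rf (nat_lit 31)) (cs (rf (nat_lit 32)) (cs (rf (nat_lit 22)) (cs (nd (nat_lit 187) (nat_lit 0) (cs (rf (nat_lit 33)) (cs (nd (nat_lit 252) (nat_lit 0) (cs (rf (nat_lit 34)) (cs (rf (nat_lit 35)) (cs (rf (nat_lit 36)) (cs (rf (nat_lit 37)) (rf (nat_lit 38))))))) (nd (nat_lit 188) (nat_lit 0) (cs (lf (nat_lit 6) (nat_lit 185)) (nd (nat_lit 185) (nat_lit 0) (cs (lf (nat_lit 11) (nat_lit 184)) (nd (nat_lit 166) (nat_lit 0) (cs (lf (nat_lit 17) (nat_lit 163)) (nd (nat_lit 165) (nat_lit 0) (cs (lf (nat_lit 12) (nat_lit 162)) (nd (nat_lit 121) (nat_lit 0) (cs (lf (nat_lit 37) (nat_lit 120)) (nd (nat_lit 230) (nat_lit 0) (cs (lf (nat_lit 30) (nat_lit 164)) (nd (nat_lit 163) (nat_lit 0) (cs (lf (nat_lit 23) (nat_lit 162)) (lf (nat_lit 24) (nat_lit 141))))))))))))))))))) (rf (nat_lit 39))))))))) (cs (rf (nat_lit 40)) (cs (rf (nat_lit 41))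 (cs (nd (nat_lit 186) (nat_lit 0) (cs (rf (nat_lit 42)) (cs (rf (nat_lit 24)) (cs (rf (nat_lit 25)) (cs (rf (nat_lit 26)) (rf (nat_lit 27))))))) (cs (rf (nat_lit 43)) (cs (rf (nat_lit 44)) (cs (nd (nat_lit 230) (nat_lit 0) (cs (rf (nat_lit 45)) (cs (rf (nat_lit 46)) (cs (rf (nat_lit 47)) (cs (rf (nat_lit 48)) (cs (rf (nat_lit 49)) (rf (nat_lit 50)))))))) (cs (nd (nat_lit 186) (nat_lit 0) (cs (rf (nat_lit 30)) (cs (rf (nat_lit 31)) (cs (rf (nat_lit 32)) (cs (rf (nat_lit 22)) (cs (rf (nat_lit 51)) (nd (nat_lit 206) (nat_lit 0) (cs (rf (nat_lit 16)) (cs (rf (nat_lit 17)) (cs (rf (nat_lit 18)) (rf (nat_lit 19)))))))))))) (nd (nat_lit 230) (nat_lit 0) (cs (rf (nat_lit 45)) (cs (rf (nat_lit 46)) (cs (rf (nat_lit 52)) (cs (rf (nat_lit 53)) (rf (nat_lit 54)))))))))))))))))))))))))) q7402 (by decide +kernel)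
def q9694 : Q := Q.p (nat_lit 0x2000000000010000000000000000000000000000000000000000000000000000) (nat_lit 0x1000006e0007b80019e003fff007ef801ffe003ff801ffc003ff0003f8000fa000060000000000000) (nat_lit 19)
theorem c9694 : QOK q9694 := cut [q1561, q7792, q1136, q5373, q5374, q690, q738, q117, q893, q3823, q5370, q7437, q7440, q7451, q7452, q9364, q9380, q7785, q9415, q9462, q9472, q9474, q694, q7420, q1563, q2961, q1580, q1584, q9487, q9490, q9493, q9643, q2950, q9645, q9648, q2238, q5892, q8579, q1595, q9651, q9654, q9656, q9664, q2965, q7463, q9667, q119, q1715, q2926, q33, q1562, q39, q2384, q5634, q9693] ⟨c1561, c7792, c1136, c5373, c5374, c690, c738, c117, c893, c3823, c5370, c7437, c7440, c7451, c7452, c9364, c9380, c7785, c9415, c9462, c9472, c9474, c694, c7420, c1563, c2961, c1580, c1584, c9487, c9490, c9493, c9643, c2950, c9645, c9648, c2238, c5892, c8579, c1595, c9651, c9654, c9656, c9664, c2965, c7463,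 c9667, c119, c1715, c2926, c33, c1562, c39, c2384, c5634, c9693, trivial⟩ (nd (nat_lit 209) (nat_lit 0) (cs (rf (nat_lit 0)) (cs (rf (nat_lit 1)) (cs (nd (nat_lit 207) (nat_lit 0) (cs (rf (nat_lit 2)) (cs (rf (nat_lit 3)) (cs (rf (nat_lit 4)) (cs (nd (nat_lit 210) (nat_lit 0) (cs (rf (nat_lit 5)) (rf (nat_lit 6)))) (nd (nat_lit 206) (nat_lit 0) (cs (rf (nat_lit 7)) (cs (rf (nat_lit 8)) (cs (rf (nat_lit 9)) (rf (nat_lit 10))))))))))) (cs (nd (nat_lit 210) (nat_lit 0) (cs (rf (nat_lit 11)) (cs (rf (nat_lit 12)) (cs (rf (nat_lit 13)) (cs (rf (nat_lit 14)) (cs (rf (nat_lit 15)) (rf (nat_lit 16)))))))) (cs (nd (nat_lit 210) (nat_lit 0) (cs (rf (nat_lit 17)) (cs (rf (nat_lit 15)) (cs (rf (nat_lit 18)) (cs (rf (nat_lit 19)) (cs (rf (nat_lit 20)) (cs (rf (nat_lit 21)) (cs (nd (nat_lit 211) (nat_lit 0) (cs (rf (nat_lit 22)) (cs (rf (nat_lit 23)) (nd (nat_lit 233) (nat_lit 0) (cs (lf (nat_lit 5) (nat_lit 208)) (nd (nat_lit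 230) (nat_lit 0) (cs (lf (nat_lit 11) (nat_lit 207)) (nd (nat_lit 189) (nat_lit 0) (cs (lf (nat_lit 17) (nat_lit 186)) (nd (nat_lit 186) (nat_lit 0) (cs (lf (nat_lit 23) (nat_lit 185)) (nd (nat_lit 275) (nat_lit 0) (cs (lf (nat_lit 44) (nat_lit 186)) (lf (nat_lit 27) (nat_lit 186))))))))))))))) (cs (nd (nat_lit 231) (nat_lit 0) (cs (rf (nat_lit 24)) (cs (rf (nat_lit 25)) (nd (nat_lit 187) (nat_lit 0) (cs (rf (nat_lit 26)) (cs (rf (nat_lit 27)) (cs (rf (nat_lit 28)) (rf (nat_lit 29))))))))) (rf (nat_lit 30))))))))))) (cs (rf (nat_lit 31)) (cs (nd (nat_lit 231) (nat_lit 0) (cs (rf (nat_lit 24)) (cs (rf (nat_lit 32)) (rf (nat_lit 33))))) (cs (rf (nat_lit 34)) (cs (nd (nat_lit 186) (nat_lit 0) (cs (rf (nat_lit 35)) (cs (rf (nat_lit 36)) (rf (nat_lit 37))))) (cs (nd (nat_lit 231) (nat_lit 0) (cs (rf (nat_lit 24)) (cs (rf (nat_lit 38)) (cs (rf (nat_lit 39)) (rf (nat_lit 40)))))) (cs (rf (nat_lit 41)) (cs (nd (nat_lit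 231) (nat_lit 0) (cs (rf (nat_lit 24)) (cs (rf (nat_lit 38)) (cs (rf (nat_lit 40)) (rf (nat_lit 42)))))) (cs (nd (nat_lit 231) (nat_lit 0) (cs (rf (nat_lit 38)) (cs (nd (nat_lit 210) (nat_lit 0) (cs (rf (nat_lit 43)) (cs (rf (nat_lit 44)) (rf (nat_lit 45))))) (nd (nat_lit 207) (nat_lit 0) (cs (rf (nat_lit 46)) (cs (rf (nat_lit 47)) (cs (rf (nat_lit 48)) (nd (nat_lit 186) (nat_lit 0) (cs (rf (nat_lit 49)) (cs (rf (nat_lit 50)) (nd (nat_lit 210) (nat_lit 0) (cs (rf (nat_lit 51)) (cs (rf (nat_lit 52)) (rf (nat_lit 53))))))))))))))) (rf (nat_lit 54)))))))))))))))) q9694 (by decide +kernel)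
def q10392 : Q := Q.p (nat_lit 0x2000000000010000000000000000000000000000000000000000000000000000) (nat_lit 0x140001fe0007ff0018f803fff007efc01fff003ff801ffc003ff0003f8000f80000e0000000000000) (nat_lit 19)
theorem c10392 : QOK q10392 := cut [q2239, q7469, q9656, q792, q4295, q5373, q690, q4286, q3823, q5370, q7734, q10207, q9415, q9462, q9472, q9474, q9493, q10184, q1595, q9667, q1580, q9487, q9490, q9488, q10340, q10358, q732, q2931, q119, q2935, q2938, q7467, q10360, q33, q1562, q131, q179, q2631, q2677, q39, q10341, q1563, q9664, q10378, q35, q105, q111, q182, q789, q10386, q9651] ⟨c2239, c7469, c9656, c792, c4295, c5373, c690, c4286, c3823, c5370, c7734, c10207, c9415, c9462, c9472, c9474, c9493, c10184, c1595, c9667, c1580, c9487, c9490, c9488, c10340, c10358, c732, c2931, c119, c2935, c2938, c7467, c10360, c33, c1562, c131, c179, c2631, c2677, c39, c10341, c1563, c9664, c10378, c35, c105, c111, c182, c789,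 c10386, c9651, trivial⟩ (nd (nat_lit 209) (nat_lit 0) (cs (rf (nat_lit 0)) (cs (rf (nat_lit 1)) (cs (rf (nat_lit 2)) (cs (nd (nat_lit 207) (nat_lit 0) (cs (rf (nat_lit 3)) (cs (rf (nat_lit 4)) (cs (rf (nat_lit 5)) (cs (nd (nat_lit 210) (nat_lit 0) (cs (rf (nat_lit 6)) (rf (nat_lit 7)))) (nd (nat_lit 206) (nat_lit 0) (cs (rf (nat_lit 8)) (cs (rf (nat_lit 9)) (rf (nat_lit 10)))))))))) (cs (rf (nat_lit 11)) (cs (nd (nat_lit 210) (nat_lit 0) (cs (rf (nat_lit 12)) (cs (rf (nat_lit 13)) (cs (rf (nat_lit 14)) (cs (rf (nat_lit 15)) (cs (rf (nat_lit 16)) (cs (rf (nat_lit 17)) (nd (nat_lit 231) (nat_lit 0) (cs (rf (nat_lit 18)) (cs (rf (nat_lit 19)) (nd (nat_lit 187) (nat_lit 0) (cs (rf (nat_lit 20)) (cs (rf (nat_lit 21)) (cs (rf (nat_lit 22)) (nd (nat_lit 166) (nat_lit 0) (cs (lf (nat_lit 34) (nat_lit 165)) (nd (nat_lit 165) (nat_lit 0) (cs (lf (nat_lit 35) (nat_lit 143)) (rf (nat_lit 23)))))))))))))))))))) (cs (rf (nat_lit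 24)) (cs (rf (nat_lit 25)) (cs (nd (nat_lit 231) (nat_lit 0) (cs (rf (nat_lit 18)) (cs (nd (nat_lit 275) (nat_lit 0) (cs (rf (nat_lit 26)) (cs (rf (nat_lit 27)) (nd (nat_lit 207) (nat_lit 0) (cs (rf (nat_lit 28)) (cs (rf (nat_lit 29)) (cs (rf (nat_lit 30)) (cs (rf (nat_lit 31)) (nd (nat_lit 274) (nat_lit 0) (cs (lf (nat_lit 41) (nat_lit 208)) (nd (nat_lit 210) (nat_lit 0) (cs (lf (nat_lit 35) (nat_lit 187)) (nd (nat_lit 184) (nat_lit 0) (cs (lf (nat_lit 22) (nat_lit 184)) (nd (nat_lit 229) (nat_lit 0) (cs (lf (nat_lit 11) (nat_lit 206)) (nd (nat_lit 276) (nat_lit 0) (cs (lf (nat_lit 29) (nat_lit 209)) (rf (nat_lit 32)))))))))))))))))))) (nd (nat_lit 186) (nat_lit 0) (cs (rf (nat_lit 33)) (cs (rf (nat_lit 34)) (nd (nat_lit 207) (nat_lit 0) (cs (rf (nat_lit 28)) (cs (rf (nat_lit 35)) (cs (rf (nat_lit 36)) (cs (rf (nat_lit 37)) (cs (rf (nat_lit 38)) (nd (nat_lit 210) (nat_lit 0) (cs (rf (nat_lit 39)) (cs (rf (nat_lit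 7)) (rf (nat_lit 40))))))))))))))))) (cs (nd (nat_lit 231) (nat_lit 0) (cs (rf (nat_lit 41)) (cs (rf (nat_lit 18)) (cs (rf (nat_lit 42)) (rf (nat_lit 43)))))) (cs (nd (nat_lit 186) (nat_lit 0) (cs (rf (nat_lit 44)) (cs (rf (nat_lit 45)) (cs (rf (nat_lit 46)) (rf (nat_lit 47)))))) (cs (nd (nat_lit 231) (nat_lit 0) (cs (rf (nat_lit 41)) (cs (rf (nat_lit 18)) (cs (rf (nat_lit 43)) (nd (nat_lit 207) (nat_lit 0) (cs (rf (nat_lit 28)) (cs (rf (nat_lit 48)) (cs (rf (nat_lit 29)) (cs (rf (nat_lit 30)) (nd (nat_lit 210) (nat_lit 0) (cs (rf (nat_lit 6)) (cs (rf (nat_lit 19)) (nd (nat_lit 184) (nat_lit 0) (cs (lf (nat_lit 22) (nat_lit 184)) (rf (nat_lit 49)))))))))))))))) (nd (nat_lit 231) (nat_lit 0) (cs (rf (nat_lit 41)) (cs (rf (nat_lit 18)) (cs (rf (nat_lit 50)) (rf (nat_lit 43))))))))))))))))))) q10392 (by decide +kernel)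
def q14312 : Q := Q.p (nat_lit 0xc00002000000000010000000000000000000000000000000000000000000000000000) (nat_lit 0x4000072a001efc007bf001ffc0073f0019fc0077e001ef8007dc001060000080000000000000000000000000000000000) (nat_lit 17)
theorem c14312 : QOK q14312 := cut [q12652, q13453, q1257, q14252, q14255, q14270, q14275, q14279, q14283, q13863, q700, q2190, q1208, q14299, q14310] ⟨c12652, c13453, c1257, c14252, c14255, c14270, c14275, c14279, c14283, c13863, c700, c2190, c1208, c14299, c14310, trivial⟩ (nd (nat_lit 252) (nat_lit 0) (cs (rf (nat_lit 0)) (cs (rf (nat_lit 1)) (nd (nat_lit 272) (nat_lit 0) (cs (nd (nat_lit 276) (nat_lit 0) (cs (rf (nat_lit 2)) (cs (rf (nat_lit 3)) (nd (nat_lit 277) (nat_lit 0) (cs (lf (nat_lit 18) (nat_lit 252)) (nd (nat_lit 255) (nat_lit 0) (cs (lf (nat_lit 17) (nat_lit 252)) (nd (nat_lit 233) (nat_lit 0) (cs (rf (nat_lit 4)) (cs (nd (nat_lit 211) (nat_lit 0) (cs (nd (nat_lit 190) (nat_lit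 0) (cs (lf (nat_lit 34) (nat_lit 189)) (nd (nat_lit 168) (nat_lit 0) (cs (nd (nat_lit 210) (nat_lit 0) (cs (lf (nat_lit 47) (nat_lit 188)) (nd (nat_lit 209) (nat_lit 0) (cs (lf (nat_lit 5) (nat_lit 208)) (nd (nat_lit 207) (nat_lit 0) (cs (lf (nat_lit 4) (nat_lit 207)) (nd (nat_lit 228) (nat_lit 0) (cs (lf (nat_lit 10) (nat_lit 206)) (nd (nat_lit 206) (nat_lit 0) (cs (lf (nat_lit 11) (nat_lit 205)) (nd (nat_lit 183) (nat_lit 0) (cs (lf (nat_lit 22) (nat_lit 183)) (nd (nat_lit 205) (nat_lit 0) (cs (lf (nat_lit 23) (nat_lit 182)) (lf (nat_lit 43) (nat_lit 183)))))))))))))))) (lf (nat_lit 33) (nat_lit 167)))))) (lf (nat_lit 41) (nat_lit 210)))) (cs (nd (nat_lit 299) (nat_lit 0) (cs (lf (nat_lit 5) (nat_lit 274)) (nd (nat_lit 321) (nat_lit 0) (cs (rf (nat_lit 5)) (cs (nd (nat_lit 295) (nat_lit 0) (cs (lf (nat_lit 10) (nat_lit 273)) (nd (nat_lit 210) (nat_lit 0) (cs (lf (nat_lit 46) (nat_lit 210)) (nd (nat_lit 212) (nat_lit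 0) (cs (lf (nat_lit 34) (nat_lit 211)) (rf (nat_lit 6)))))))) (cs (nd (nat_lit 298) (nat_lit 0) (cs (lf (nat_lit 41) (nat_lit 232)) (nd (nat_lit 343) (nat_lit 0) (cs (rf (nat_lit 7)) (lf (nat_lit 42) (nat_lit 276)))))) (nd (nat_lit 344) (nat_lit 0) (cs (lf (nat_lit 28) (nat_lit 255)) (nd (nat_lit 295) (nat_lit 0) (cs (lf (nat_lit 10) (nat_lit 273)) (rf (nat_lit 8)))))))))))) (nd (nat_lit 295) (nat_lit 0) (cs (lf (nat_lit 10) (nat_lit 273)) (nd (nat_lit 299) (nat_lit 0) (cs (lf (nat_lit 5) (nat_lit 274)) (rf (nat_lit 9))))))))))))))))) (cs (nd (nat_lit 276) (nat_lit 0) (cs (rf (nat_lit 10)) (cs (rf (nat_lit 11)) (nd (nat_lit 250) (nat_lit 0) (cs (lf (nat_lit 1) (nat_lit 250)) (nd (nat_lit 273) (nat_lit 0) (cs (lf (nat_lit 23) (nat_lit 249)) (rf (nat_lit 12))))))))) (cs (nd (nat_lit 273) (nat_lit 0) (cs (lf (nat_lit 12) (nat_lit 249)) (nd (nat_lit 297) (nat_lit 0) (cs (lf (nat_lit 5) (nat_lit 272)) (nd (nat_lit 319)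 (nat_lit 0) (cs (lf (nat_lit 42) (nat_lit 252)) (rf (nat_lit 13)))))))) (rf (nat_lit 14))))))))) q14312 (by decide +kernel)
def q15088 : Q := Q.p (nat_lit 0xc00002000000000010000000000000000000000000000000000000000000000000000) (nat_lit 0x100000fe2003ff801fdf001ffc0073f0019fc0067e000af8000d8000060000000000000000000000000000000000000000) (nat_lit 17)
theorem c15088 : QOK q15088 := cut [q12652, q13453, q14911, q12906, q14354, q14914, q1203, q14356, q13915, q14920, q11636, q14923, q14689, q14939, q13164, q14951, q14954, q15082, q700, q2190, q13445] ⟨c12652, c13453, c14911, c12906, c14354, c14914, c1203, c14356, c13915, c14920, c11636, c14923, c14689, c14939, c13164, c14951, c14954, c15082, c700, c2190, c13445, trivial⟩ (nd (nat_lit 252) (nat_lit 0) (cs (rf (nat_lit 0)) (cs (rf (nat_lit 1)) (nd (nat_lit 296) (nat_lit 0) (cs (rf (nat_lit 2)) (cs (nd (nat_lit 297) (nat_lit 0) (cs (rf (nat_lit 3)) (cs (rf (nat_lit 4))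 (cs (rf (nat_lit 5)) (nd (nat_lit 272) (nat_lit 0) (cs (nd (nat_lit 273) (nat_lit 0) (cs (lf (nat_lit 5) (nat_lit 272)) (rf (nat_lit 6)))) (cs (nd (nat_lit 318) (nat_lit 0) (cs (lf (nat_lit 30) (nat_lit 252)) (nd (nat_lit 319) (nat_lit 0) (cs (lf (nat_lit 29) (nat_lit 252)) (nd (nat_lit 320) (nat_lit 0) (cs (lf (nat_lit 29) (nat_lit 253)) (rf (nat_lit 7)))))))) (nd (nat_lit 299) (nat_lit 0) (cs (rf (nat_lit 8)) (cs (nd (nat_lit 318) (nat_lit 0) (cs (lf (nat_lit 30) (nat_lit 252)) (nd (nat_lit 229) (nat_lit 0) (cs (lf (nat_lit 46) (nat_lit 229)) (rf (nat_lit 9)))))) (nd (nat_lit 298) (nat_lit 0) (cs (rf (nat_lit 10)) (nd (nat_lit 321) (nat_lit 0) (cs (lf (nat_lit 5) (nat_lit 296)) (nd (nat_lit 342) (nat_lit 0) (cs (rf (nat_lit 11)) (cs (nd (nat_lit 340) (nat_lit 0) (cs (lf (nat_lit 31) (nat_lit 252)) (nd (nat_lit 341) (nat_lit 0) (cs (nd (nat_lit 277) (nat_lit 0) (cs (lf (nat_lit 17) (nat_lit 274)) (nd (nat_lit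 343) (nat_lit 0) (cs (lf (nat_lit 41) (nat_lit 276)) (nd (nat_lit 366) (nat_lit 0) (cs (lf (nat_lit 28) (nat_lit 277)) (lf (nat_lit 4) (nat_lit 340)))))))) (lf (nat_lit 43) (nat_lit 252)))))) (nd (nat_lit 277) (nat_lit 0) (cs (lf (nat_lit 17) (nat_lit 274)) (nd (nat_lit 320) (nat_lit 0) (cs (lf (nat_lit 42) (nat_lit 275)) (lf (nat_lit 36) (nat_lit 254))))))))))))))))))))))) (cs (nd (nat_lit 276) (nat_lit 0) (cs (rf (nat_lit 12)) (cs (nd (nat_lit 319) (nat_lit 0) (cs (rf (nat_lit 13)) (cs (nd (nat_lit 320) (nat_lit 0) (cs (rf (nat_lit 14)) (cs (nd (nat_lit 298) (nat_lit 0) (cs (lf (nat_lit 42) (nat_lit 253)) (nd (nat_lit 318) (nat_lit 0) (cs (lf (nat_lit 30) (nat_lit 252)) (nd (nat_lit 295) (nat_lit 0) (cs (lf (nat_lit 18) (nat_lit 295)) (nd (nat_lit 273) (nat_lit 0) (cs (lf (nat_lit 5) (nat_lit 273)) (lf (nat_lit 11) (nat_lit 272)))))))))) (nd (nat_lit 318) (nat_lit 0) (cs (lf (nat_lit 30) (nat_lit 252)) (nd (nat_lit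 295) (nat_lit 0) (cs (lf (nat_lit 18) (nat_lit 295)) (nd (nat_lit 294) (nat_lit 0) (cs (lf (nat_lit 9) (nat_lit 272)) (lf (nat_lit 3) (nat_lit 294))))))))))) (nd (nat_lit 297) (nat_lit 0) (cs (lf (nat_lit 42) (nat_lit 252)) (rf (nat_lit 15))))))) (rf (nat_lit 16))))) (cs (rf (nat_lit 17)) (nd (nat_lit 276) (nat_lit 0) (cs (rf (nat_lit 18)) (cs (rf (nat_lit 19)) (nd (nat_lit 251) (nat_lit 0) (cs (lf (nat_lit 0) (nat_lit 250)) (nd (nat_lit 229) (nat_lit 0) (cs (lf (nat_lit 42) (nat_lit 229)) (nd (nat_lit 273) (nat_lit 0) (cs (lf (nat_lit 24) (nat_lit 207)) (rf (nat_lit 20))))))))))))))))))) q15088 (by decide +kernel)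
def q15105 : Q := Q.p (nat_lit 0xc00002000000000010000000000000000000000000000000000000000000000000000) (nat_lit 0x740003f0001fe0007380019e0000700002c0000d0000000000000000000000000000000000000000000000) (nat_lit 12)
theorem c15105 : QOK q15105 := cut [q12652, q12669, q13453, q700, q2190, q2180, q12665, q13235, q13437, q12657] ⟨c12652, c12669, c13453, c700, c2190, c2180, c12665, c13235, c13437, c12657, trivial⟩ (nd (nat_lit 252) (nat_lit 0) (cs (rf (nat_lit 0)) (cs (rf (nat_lit 1)) (cs (rf (nat_lit 2)) (nd (nat_lit 276) (nat_lit 0) (cs (rf (nat_lit 3)) (cs (rf (nat_lit 4)) (nd (nat_lit 273) (nat_lit 0) (cs (rf (nat_lit 5)) (cs (rf (nat_lit 6)) (nd (nat_lit 295) (nat_lit 0) (cs (lf (nat_lit 11) (nat_lit 272)) (nd (nat_lit 318) (nat_lit 0) (cs (rf (nat_lit 7)) (cs (nd (nat_lit 296) (nat_lit 0) (cs (lf (nat_lit 30) (nat_lit 252)) (nd (nat_lit 319) (nat_lit 0) (cs (lf (nat_lit 29) (nat_lit 252)) (nd (nat_lit 320) (nat_lit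 0) (cs (lf (nat_lit 18) (nat_lit 295)) (nd (nat_lit 298) (nat_lit 0) (cs (lf (nat_lit 5) (nat_lit 273)) (lf (nat_lit 42) (nat_lit 253)))))))))) (cs (nd (nat_lit 298) (nat_lit 0) (cs (lf (nat_lit 5) (nat_lit 273)) (nd (nat_lit 342) (nat_lit 0) (cs (lf (nat_lit 43) (nat_lit 253)) (nd (nat_lit 251) (nat_lit 0) (cs (lf (nat_lit 0) (nat_lit 250)) (nd (nat_lit 317) (nat_lit 0) (cs (lf (nat_lit 29) (nat_lit 251)) (nd (nat_lit 316) (nat_lit 0) (cs (lf (nat_lit 41) (nat_lit 250)) (rf (nat_lit 8)))))))))))) (nd (nat_lit 251) (nat_lit 0) (cs (lf (nat_lit 0) (nat_lit 250)) (nd (nat_lit 298) (nat_lit 0) (cs (lf (nat_lit 5) (nat_lit 273)) (nd (nat_lit 320) (nat_lit 0) (cs (lf (nat_lit 42) (nat_lit 253)) (rf (nat_lit 9)))))))))))))))))))))))) q15105 (by decide +kernel)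
def q18156 : Q := Q.p (nat_lit 0x2000000000010000000000000000000000000000000000000000000000000000) (nat_lit 0x4000070000fe0003fe003ffc00fff801fff8079fe07fbf00fefe03fff807ffe03fff807ffe01fff007ff400060000000000000) (nat_lit 19)
theorem c18156 : QOK q18156 := cut [q1460, q1476, q1504, q1560, q16100, q117, q1555, q16099, q1508, q1511, q1519, q1522, q4318, q1547, q9645, q16057, q119, q3019, q108, q1483, q16117, q16123, q2359, q16148, q16173, q1595, q2990, q2212, q1578, q9894, q4298, q10660, q1475, q139, q10665, q16090, q16227, q16316, q11471, q11472, q1459, q16321, q141, q12508, q16354, q16695, q17522, q18141, q18155] ⟨c1460, c1476, c1504, c1560, c16100, c117, c1555, c16099, c1508, c1511, c1519, c1522, c4318, c1547, c9645, c16057, c119, c3019, c108, c1483, c16117, c16123, c2359, c16148, c16173, c1595, c2990, c2212, c1578, c9894, c4298, c10660, c1475, c139, c10665, c16090, c16227, c16316, c11471, c11472, c1459, c16321,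 c141, c12508, c16354, c16695, c17522, c18141, c18155, trivial⟩ (nd (nat_lit 209) (nat_lit 0) (cs (nd (nat_lit 207) (nat_lit 0) (cs (rf (nat_lit 0)) (cs (rf (nat_lit 1)) (cs (rf (nat_lit 2)) (cs (rf (nat_lit 3)) (cs (rf (nat_lit 4)) (cs (nd (nat_lit 206) (nat_lit 0) (cs (rf (nat_lit 5)) (cs (rf (nat_lit 6)) (rf (nat_lit 7))))) (cs (nd (nat_lit 206) (nat_lit 0) (cs (rf (nat_lit 5)) (cs (rf (nat_lit 8)) (cs (rf (nat_lit 9)) (cs (rf (nat_lit 10)) (cs (rf (nat_lit 11)) (rf (nat_lit 12)))))))) (nd (nat_lit 206) (nat_lit 0) (cs (rf (nat_lit 5)) (cs (rf (nat_lit 13)) (rf (nat_lit 6))))))))))))) (cs (nd (nat_lit 231) (nat_lit 0) (cs (rf (nat_lit 14)) (cs (rf (nat_lit 15)) (cs (nd (nat_lit 207) (nat_lit 0) (cs (rf (nat_lit 16)) (cs (rf (nat_lit 17)) (cs (rf (nat_lit 4)) (cs (nd (nat_lit 210) (nat_lit 0) (cs (rf (nat_lit 18)) (cs (rf (nat_lit 19)) (nd (nat_lit 228) (nat_lit 0) (cs (lf (nat_lit 10) (nat_lit 206)) (rf (nat_lit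 20))))))) (rf (nat_lit 21))))))) (nd (nat_lit 275) (nat_lit 0) (cs (lf (nat_lit 47) (nat_lit 186)) (rf (nat_lit 22)))))))) (cs (rf (nat_lit 23)) (cs (rf (nat_lit 24)) (cs (nd (nat_lit 231) (nat_lit 0) (cs (rf (nat_lit 25)) (cs (rf (nat_lit 26)) (cs (rf (nat_lit 15)) (nd (nat_lit 187) (nat_lit 0) (cs (rf (nat_lit 27)) (cs (nd (nat_lit 165) (nat_lit 0) (cs (rf (nat_lit 28)) (cs (nd (nat_lit 144) (nat_lit 0) (cs (lf (nat_lit 34) (nat_lit 143)) (nd (nat_lit 143) (nat_lit 0) (cs (lf (nat_lit 35) (nat_lit 121)) (nd (nat_lit 252) (nat_lit 0) (cs (lf (nat_lit 41) (nat_lit 186)) (rf (nat_lit 29)))))))) (cs (nd (nat_lit 252) (nat_lit 0) (cs (lf (nat_lit 41) (nat_lit 186)) (rf (nat_lit 30)))) (nd (nat_lit 252) (nat_lit 0) (cs (lf (nat_lit 41) (nat_lit 186)) (rf (nat_lit 31)))))))) (nd (nat_lit 207) (nat_lit 0) (cs (rf (nat_lit 16)) (cs (rf (nat_lit 32)) (nd (nat_lit 210) (nat_lit 0) (cs (rf (nat_lit 33)) (cs (rf (nat_lit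 34)) (nd (nat_lit 232) (nat_lit 0) (cs (lf (nat_lit 5) (nat_lit 207)) (rf (nat_lit 35))))))))))))))))) (cs (rf (nat_lit 36)) (cs (rf (nat_lit 37)) (cs (nd (nat_lit 207) (nat_lit 0) (cs (rf (nat_lit 2)) (cs (rf (nat_lit 38)) (cs (rf (nat_lit 39)) (cs (nd (nat_lit 210) (nat_lit 0) (cs (rf (nat_lit 33)) (cs (rf (nat_lit 40)) (rf (nat_lit 41))))) (nd (nat_lit 206) (nat_lit 0) (cs (rf (nat_lit 5)) (cs (rf (nat_lit 42)) (nd (nat_lit 231) (nat_lit 0) (cs (lf (nat_lit 5) (nat_lit 206)) (nd (nat_lit 184) (nat_lit 0) (cs (lf (nat_lit 23) (nat_lit 183)) (nd (nat_lit 210) (nat_lit 0) (cs (lf (nat_lit 22) (nat_lit 184)) (rf (nat_lit 43)))))))))))))))) (cs (rf (nat_lit 44)) (cs (rf (nat_lit 45)) (cs (rf (nat_lit 46)) (cs (rf (nat_lit 47)) (rf (nat_lit 48))))))))))))))) q18156 (by decide +kernel)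
def q22520 : Q := Q.p (nat_lit 0x800002000000000010000000000000000000000000000000000000000000000000000) (nat_lit 0x40001700007f0001fc0006f8003ff00077e0039fc00ffc003ee000fbc003f0000bc00001000000000000000000000000000000) (nat_lit 17)
theorem c22520 : QOK q22520 := cut [q22166, q22282, q22342, q12669, q22348, q22349, q22393, q22295, q22396, q22404, q22000, q22001, q22161, q22165, q22481, q22109, q22354, q1402, q1431, q2204, q22486, q10925, q15466, q22490, q22340, q22505, q22508, q22510, q2195, q15503, q22285, q4036] ⟨c22166, c22282, c22342, c12669, c22348, c22349, c22393, c22295, c22396, c22404, c22000, c22001, c22161, c22165, c22481, c22109, c22354, c1402, c1431, c2204, c22486, c10925, c15466, c22490, c22340, c22505, c22508, c22510, c2195, c15503, c22285, c4036, trivial⟩ (nd (nat_lit 274) (nat_lit 0) (cs (rf (nat_lit 0)) (cs (rf (nat_lit 1)) (cs (rf (nat_lit 2)) (cs (nd (nat_lit 252) (nat_lit 0) (cs (rf (nat_lit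 3)) (cs (rf (nat_lit 4)) (rf (nat_lit 5))))) (cs (rf (nat_lit 6)) (cs (nd (nat_lit 252) (nat_lit 0) (cs (rf (nat_lit 4)) (cs (nd (nat_lit 230) (nat_lit 0) (cs (lf (nat_lit 29) (nat_lit 208)) (rf (nat_lit 7)))) (cs (rf (nat_lit 8)) (rf (nat_lit 9)))))) (cs (nd (nat_lit 231) (nat_lit 0) (cs (rf (nat_lit 10)) (cs (rf (nat_lit 11)) (cs (rf (nat_lit 12)) (cs (rf (nat_lit 13)) (nd (nat_lit 297) (nat_lit 0) (cs (lf (nat_lit 46) (nat_lit 208)) (rf (nat_lit 14))))))))) (cs (nd (nat_lit 230) (nat_lit 0) (cs (rf (nat_lit 15)) (cs (nd (nat_lit 252) (nat_lit 0) (cs (lf (nat_lit 29) (nat_lit 208)) (rf (nat_lit 16)))) (cs (nd (nat_lit 231) (nat_lit 0) (cs (lf (nat_lit 42) (nat_lit 208)) (nd (nat_lit 209) (nat_lit 0) (cs (lf (nat_lit 41) (nat_lit 208)) (rf (nat_lit 17)))))) (nd (nat_lit 209) (nat_lit 0) (cs (nd (nat_lit 252) (nat_lit 0) (cs (lf (nat_lit 35) (nat_lit 186)) (rf (nat_lit 18)))) (cs (nd (nat_lit 187) (nat_lit 0) (cs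 (lf (nat_lit 31) (nat_lit 186)) (nd (nat_lit 165) (nat_lit 0) (cs (lf (nat_lit 36) (nat_lit 142)) (nd (nat_lit 231) (nat_lit 0) (cs (lf (nat_lit 41) (nat_lit 208)) (rf (nat_lit 19)))))))) (cs (rf (nat_lit 20)) (nd (nat_lit 210) (nat_lit 0) (cs (rf (nat_lit 21)) (cs (nd (nat_lit 187) (nat_lit 0) (cs (lf (nat_lit 31) (nat_lit 186)) (nd (nat_lit 143) (nat_lit 0) (cs (lf (nat_lit 37) (nat_lit 142)) (nd (nat_lit 211) (nat_lit 0) (cs (lf (nat_lit 11) (nat_lit 207)) (rf (nat_lit 22)))))))) (cs (rf (nat_lit 23)) (nd (nat_lit 188) (nat_lit 0) (cs (lf (nat_lit 32) (nat_lit 187)) (nd (nat_lit 189) (nat_lit 0) (cs (lf (nat_lit 12) (nat_lit 185)) (nd (nat_lit 187) (nat_lit 0) (cs (lf (nat_lit 6) (nat_lit 186)) (lf (nat_lit 31) (nat_lit 186)))))))))))))))))))) (cs (nd (nat_lit 252) (nat_lit 0) (cs (rf (nat_lit 3)) (cs (rf (nat_lit 24)) (cs (rf (nat_lit 9)) (cs (rf (nat_lit 25)) (cs (rf (nat_lit 26)) (nd (nat_lit 230) (nat_lit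 0) (cs (lf (nat_lit 29) (nat_lit 208)) (nd (nat_lit 273) (nat_lit 0) (cs (lf (nat_lit 41) (nat_lit 207)) (nd (nat_lit 271) (nat_lit 0) (cs (lf (nat_lit 13) (nat_lit 249)) (rf (nat_lit 27)))))))))))))) (nd (nat_lit 252) (nat_lit 0) (cs (nd (nat_lit 209) (nat_lit 0) (cs (rf (nat_lit 28)) (cs (rf (nat_lit 29)) (rf (nat_lit 30))))) (cs (rf (nat_lit 8)) (cs (rf (nat_lit 25)) (cs (rf (nat_lit 26)) (nd (nat_lit 230) (nat_lit 0) (cs (lf (nat_lit 29) (nat_lit 208)) (nd (nat_lit 273) (nat_lit 0) (cs (lf (nat_lit 41) (nat_lit 207)) (nd (nat_lit 271) (nat_lit 0) (cs (lf (nat_lit 13) (nat_lit 249)) (nd (nat_lit 207) (nat_lit 0) (cs (lf (nat_lit 47) (nat_lit 185)) (rf (nat_lit 31))))))))))))))))))))))))) q22520 (by decide +kernel)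
def q23361 : Q := Q.p (nat_lit 0x800002000000000010000000000000000000000000000000000000000000000000000) (nat_lit 0x40000700017e000ffc003ff001ffc00fff801f7e00f9fc00fbe003efc00fbe003ce000a100000000000000000000000000000000000) (nat_lit 18)
theorem c23361 : QOK q23361 := cut [q22393, q22658, q22902, q22912, q22918, q2532, q11607, q21929, q22050, q22054, q22164, q22279, q15792, q22477, q15709, q15714, q15793, q11816, q15729, q22927, q14912, q11869, q15723, q21953, q22004, q23066, q23145, q15829, q15996, q22379, q22657, q22857, q15513, q22793, q23164, q23188, q23237, q23257, q23278, q15623, q14688, q22378, q23345, q23047, q23144, q23006, q16001, q23012, q22143, q23168, q14473, q22078, q22085, q22089] ⟨c22393, c22658, c22902, c22912, c22918, c2532, c11607, c21929, c22050, c22054, c22164, c22279, c15792, c22477, c15709, c15714, c15793, c11816, c15729, c22927, c14912, c11869, c15723, c21953, c22004, c23066, c23145, c15829,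 c15996, c22379, c22657, c22857, c15513, c22793, c23164, c23188, c23237, c23257, c23278, c15623, c14688, c22378, c23345, c23047, c23144, c23006, c16001, c23012, c22143, c23168, c14473, c22078, c22085, c22089, trivial⟩ (nd (nat_lit 274) (nat_lit 0) (cs (rf (nat_lit 0)) (cs (rf (nat_lit 1)) (cs (rf (nat_lit 2)) (cs (nd (nat_lit 297) (nat_lit 0) (cs (rf (nat_lit 3)) (cs (rf (nat_lit 4)) (cs (nd (nat_lit 319) (nat_lit 0) (cs (rf (nat_lit 5)) (cs (rf (nat_lit 6)) (cs (rf (nat_lit 7)) (cs (rf (nat_lit 8)) (rf (nat_lit 9))))))) (cs (nd (nat_lit 231) (nat_lit 0) (cs (rf (nat_lit 10)) (cs (rf (nat_lit 11)) (nd (nat_lit 277) (nat_lit 0) (cs (rf (nat_lit 12)) (cs (rf (nat_lit 13)) (cs (nd (nat_lit 319) (nat_lit 0) (cs (rf (nat_lit 14)) (cs (rf (nat_lit 15)) (cs (rf (nat_lit 16)) (nd (nat_lit 210) (nat_lit 0) (cs (lf (nat_lit 34) (nat_lit 209)) (nd (nat_lit 296) (nat_lit 0) (cs (lf (nat_lit 41) (nat_lit 230)) (rf (nat_lit 17))))))))))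 (nd (nat_lit 210) (nat_lit 0) (cs (lf (nat_lit 34) (nat_lit 209)) (rf (nat_lit 18))))))))))) (cs (nd (nat_lit 319) (nat_lit 0) (cs (rf (nat_lit 14)) (cs (rf (nat_lit 19)) (nd (nat_lit 320) (nat_lit 0) (cs (lf (nat_lit 29) (nat_lit 253)) (nd (nat_lit 341) (nat_lit 0) (cs (lf (nat_lit 47) (nat_lit 252)) (nd (nat_lit 296) (nat_lit 0) (cs (lf (nat_lit 42) (nat_lit 274)) (rf (nat_lit 20))))))))))) (nd (nat_lit 231) (nat_lit 0) (cs (rf (nat_lit 21)) (cs (rf (nat_lit 22)) (cs (rf (nat_lit 23)) (rf (nat_lit 24)))))))))))) (cs (rf (nat_lit 25)) (cs (rf (nat_lit 26)) (cs (nd (nat_lit 296) (nat_lit 0) (cs (rf (nat_lit 27)) (cs (rf (nat_lit 28)) (cs (nd (nat_lit 276) (nat_lit 0) (cs (rf (nat_lit 29)) (cs (rf (nat_lit 30)) (cs (rf (nat_lit 31)) (nd (nat_lit 273) (nat_lit 0) (cs (rf (nat_lit 32)) (rf (nat_lit 33)))))))) (rf (nat_lit 34)))))) (cs (rf (nat_lit 35)) (cs (rf (nat_lit 36)) (cs (rf (nat_lit 37)) (cs (rf (nat_lit 38))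 (cs (nd (nat_lit 296) (nat_lit 0) (cs (rf (nat_lit 27)) (cs (rf (nat_lit 28)) (cs (rf (nat_lit 34)) (nd (nat_lit 276) (nat_lit 0) (cs (rf (nat_lit 39)) (cs (rf (nat_lit 29)) (cs (rf (nat_lit 31)) (nd (nat_lit 277) (nat_lit 0) (cs (rf (nat_lit 40)) (rf (nat_lit 41)))))))))))) (cs (rf (nat_lit 42)) (nd (nat_lit 296) (nat_lit 0) (cs (rf (nat_lit 27)) (cs (rf (nat_lit 28)) (cs (rf (nat_lit 43)) (cs (rf (nat_lit 44)) (nd (nat_lit 297) (nat_lit 0) (cs (rf (nat_lit 4)) (cs (rf (nat_lit 45)) (cs (nd (nat_lit 276) (nat_lit 0) (cs (rf (nat_lit 46)) (cs (nd (nat_lit 277) (nat_lit 0) (cs (lf (nat_lit 6) (nat_lit 274)) (nd (nat_lit 255) (nat_lit 0) (cs (lf (nat_lit 17) (nat_lit 252)) (nd (nat_lit 251) (nat_lit 0) (cs (lf (nat_lit 22) (nat_lit 251)) (nd (nat_lit 273) (nat_lit 0) (cs (lf (nat_lit 23) (nat_lit 250)) (rf (nat_lit 47)))))))))) (nd (nat_lit 273) (nat_lit 0) (cs (rf (nat_lit 48)) (cs (rf (nat_lit 49)) (nd (nat_lit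 319) (nat_lit 0) (cs (rf (nat_lit 17)) (nd (nat_lit 295) (nat_lit 0) (cs (lf (nat_lit 12) (nat_lit 272)) (nd (nat_lit 320) (nat_lit 0) (cs (lf (nat_lit 29) (nat_lit 253)) (rf (nat_lit 50)))))))))))))) (nd (nat_lit 273) (nat_lit 0) (cs (rf (nat_lit 47)) (nd (nat_lit 209) (nat_lit 0) (cs (lf (nat_lit 37) (nat_lit 208)) (nd (nat_lit 207) (nat_lit 0) (cs (rf (nat_lit 51)) (cs (rf (nat_lit 52)) (rf (nat_lit 53)))))))))))))))))))))))))))))))) q23361 (by decide +kernel)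
def q25088 : Q := Q.p (nat_lit 0x800002000000000010000000000000000000000000000000000000000000000000000) (nat_lit 0x380007f0003fe003dfc0077f0039fc01fff803efc00fbf8017fc005ff800ffc0007e0000f800028000000000000) (nat_lit 18)
theorem c25088 : QOK q25088 := cut [q24470, q24645, q24672, q24702, q24887, q24555, q24562, q24644, q2359, q2935, q1017, q737, q697, q25039, q22628, q22627, q23492, q16142, q25042, q25043, q25060, q23502, q117, q10643, q173, q25067, q4294, q22087, q24533, q25070, q1590, q24693, q684, q25073, q22368, q23509, q23510, q24691, q25087] ⟨c24470, c24645, c24672, c24702, c24887, c24555, c24562, c24644, c2359, c2935, c1017, c737, c697, c25039, c22628, c22627, c23492, c16142, c25042, c25043, c25060, c23502, c117, c10643, c173, c25067, c4294, c22087, c24533, c25070, c1590, c24693, c684, c25073, c22368, c23509, c23510, c24691, c25087, trivial⟩ (nd (nat_lit 207) (nat_lit 0) (cs (rf (nat_lit 0)) (cs (rf (nat_lit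 1)) (cs (rf (nat_lit 2)) (cs (rf (nat_lit 3)) (cs (rf (nat_lit 4)) (cs (nd (nat_lit 209) (nat_lit 0) (cs (rf (nat_lit 5)) (cs (rf (nat_lit 6)) (cs (rf (nat_lit 7)) (cs (nd (nat_lit 231) (nat_lit 0) (cs (rf (nat_lit 8)) (rf (nat_lit 9)))) (nd (nat_lit 210) (nat_lit 0) (cs (rf (nat_lit 10)) (cs (nd (nat_lit 231) (nat_lit 0) (cs (lf (nat_lit 35) (nat_lit 187)) (nd (nat_lit 185) (nat_lit 0) (cs (lf (nat_lit 23) (nat_lit 184)) (nd (nat_lit 276) (nat_lit 0) (cs (lf (nat_lit 29) (nat_lit 209)) (rf (nat_lit 11)))))))) (nd (nat_lit 184) (nat_lit 0) (cs (lf (nat_lit 22) (nat_lit 184)) (nd (nat_lit 183) (nat_lit 0) (cs (lf (nat_lit 21) (nat_lit 183)) (rf (nat_lit 12)))))))))))))) (cs (rf (nat_lit 13)) (cs (nd (nat_lit 209) (nat_lit 0) (cs (rf (nat_lit 14)) (cs (nd (nat_lit 210) (nat_lit 0) (cs (rf (nat_lit 10)) (cs (rf (nat_lit 15)) (cs (nd (nat_lit 184) (nat_lit 0) (cs (lf (nat_lit 22) (nat_lit 184)) (nd (nat_lit 229) (nat_lit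 0) (cs (lf (nat_lit 11) (nat_lit 206)) (rf (nat_lit 16)))))) (nd (nat_lit 232) (nat_lit 0) (cs (lf (nat_lit 5) (nat_lit 207)) (nd (nat_lit 231) (nat_lit 0) (cs (lf (nat_lit 35) (nat_lit 187)) (nd (nat_lit 184) (nat_lit 0) (cs (lf (nat_lit 22) (nat_lit 184)) (rf (nat_lit 17)))))))))))) (cs (rf (nat_lit 18)) (rf (nat_lit 19)))))) (cs (rf (nat_lit 20)) (cs (nd (nat_lit 209) (nat_lit 0) (cs (rf (nat_lit 14)) (cs (rf (nat_lit 21)) (cs (rf (nat_lit 7)) (cs (rf (nat_lit 19)) (cs (nd (nat_lit 206) (nat_lit 0) (cs (rf (nat_lit 22)) (cs (rf (nat_lit 23)) (nd (nat_lit 232) (nat_lit 0) (cs (lf (nat_lit 4) (nat_lit 206)) (nd (nat_lit 210) (nat_lit 0) (cs (lf (nat_lit 5) (nat_lit 207)) (rf (nat_lit 24))))))))) (cs (rf (nat_lit 25)) (nd (nat_lit 210) (nat_lit 0) (cs (rf (nat_lit 26)) (cs (rf (nat_lit 27)) (rf (nat_lit 15)))))))))))) (cs (nd (nat_lit 209) (nat_lit 0) (cs (rf (nat_lit 28)) (cs (rf (nat_lit 18)) (cs (rf (nat_lit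 25)) (rf (nat_lit 29)))))) (cs (nd (nat_lit 209) (nat_lit 0) (cs (rf (nat_lit 21)) (cs (nd (nat_lit 231) (nat_lit 0) (cs (rf (nat_lit 30)) (rf (nat_lit 9)))) (cs (rf (nat_lit 6)) (cs (rf (nat_lit 31)) (cs (rf (nat_lit 29)) (nd (nat_lit 206) (nat_lit 0) (cs (rf (nat_lit 22)) (cs (rf (nat_lit 32)) (nd (nat_lit 183) (nat_lit 0) (cs (lf (nat_lit 22) (nat_lit 183)) (nd (nat_lit 182) (nat_lit 0) (cs (lf (nat_lit 21) (nat_lit 182)) (rf (nat_lit 33))))))))))))))) (cs (nd (nat_lit 209) (nat_lit 0) (cs (rf (nat_lit 14)) (cs (rf (nat_lit 21)) (cs (nd (nat_lit 206) (nat_lit 0) (cs (rf (nat_lit 22)) (cs (rf (nat_lit 34)) (cs (rf (nat_lit 35)) (nd (nat_lit 227) (nat_lit 0) (cs (lf (nat_lit 10) (nat_lit 205)) (nd (nat_lit 205) (nat_lit 0) (cs (lf (nat_lit 11) (nat_lit 204)) (nd (nat_lit 187) (nat_lit 0) (cs (lf (nat_lit 17) (nat_lit 184)) (nd (nat_lit 230) (nat_lit 0) (cs (lf (nat_lit 5) (nat_lit 205)) (nd (nat_lit 252) (nat_lit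 0) (cs (lf (nat_lit 30) (nat_lit 186)) (nd (nat_lit 229) (nat_lit 0) (cs (lf (nat_lit 0) (nat_lit 204)) (nd (nat_lit 143) (nat_lit 0) (cs (lf (nat_lit 37) (nat_lit 142)) (nd (nat_lit 210) (nat_lit 0) (cs (lf (nat_lit 6) (nat_lit 207)) (rf (nat_lit 36)))))))))))))))))))))) (cs (rf (nat_lit 6)) (cs (rf (nat_lit 37)) (rf (nat_lit 31)))))))) (rf (nat_lit 38)))))))))))))))) q25088 (by decide +kernel)
def q25612 : Q := Q.p (nat_lit 0xc00002000000000010000000000000000000000000000000000000000000000000000) (nat_lit 0x140003ff000ff8007ef0007380019e000278000ac0000b0000000000000000000000000000000000000000000000) (nat_lit 14)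
theorem c25612 : QOK q25612 := cut [q24768, q25560, q5304, q1257, q2182, q25564, q25565, q25570, q25581, q25587, q25594, q25611] ⟨c24768, c25560, c5304, c1257, c2182, c25564, c25565, c25570, c25581, c25587, c25594, c25611, trivial⟩ (nd (nat_lit 252) (nat_lit 0) (cs (rf (nat_lit 0)) (cs (rf (nat_lit 1)) (cs (nd (nat_lit 251) (nat_lit 0) (cs (rf (nat_lit 2)) (cs (nd (nat_lit 276) (nat_lit 0) (cs (rf (nat_lit 3)) (nd (nat_lit 273) (nat_lit 0) (cs (rf (nat_lit 4)) (cs (rf (nat_lit 5)) (rf (nat_lit 6))))))) (nd (nat_lit 273) (nat_lit 0) (cs (rf (nat_lit 7)) (cs (nd (nat_lit 272) (nat_lit 0) (cs (lf (nat_lit 12) (nat_lit 249)) (nd (nat_lit 297) (nat_lit 0) (cs (lf (nat_lit 5) (nat_lit 272)) (nd (nat_lit 319) (nat_lit 0) (cs (lf (nat_lit 42) (nat_lit 252)) (nd (nat_lit 294) (nat_lit 0) (cs (lf (nat_lit 11) (nat_lit 271)) (nd (nat_lit 320) (nat_lit 0) (cs (lf (nat_lit 29) (nat_lit 253)) (nd (nat_lit 207) (nat_lit 0) (cs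 (lf (nat_lit 37) (nat_lit 206)) (nd (nat_lit 338) (nat_lit 0) (cs (nd (nat_lit 318) (nat_lit 0) (cs (lf (nat_lit 41) (nat_lit 252)) (nd (nat_lit 317) (nat_lit 0) (cs (lf (nat_lit 22) (nat_lit 294)) (lf (nat_lit 10) (nat_lit 316)))))) (lf (nat_lit 31) (nat_lit 250)))))))))))))))) (cs (nd (nat_lit 272) (nat_lit 0) (cs (lf (nat_lit 12) (nat_lit 249)) (nd (nat_lit 297) (nat_lit 0) (cs (lf (nat_lit 5) (nat_lit 272)) (nd (nat_lit 250) (nat_lit 0) (cs (lf (nat_lit 0) (nat_lit 249)) (rf (nat_lit 8)))))))) (rf (nat_lit 9))))))))) (cs (nd (nat_lit 230) (nat_lit 0) (cs (lf (nat_lit 29) (nat_lit 208)) (nd (nat_lit 187) (nat_lit 0) (cs (lf (nat_lit 34) (nat_lit 186)) (nd (nat_lit 185) (nat_lit 0) (cs (lf (nat_lit 46) (nat_lit 185)) (nd (nat_lit 273) (nat_lit 0) (cs (lf (nat_lit 41) (nat_lit 207)) (rf (nat_lit 10)))))))))) (rf (nat_lit 11))))))) q25612 (by decide +kernel)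
def q25887 : Q := Q.p (nat_lit 0xc00002000000000010000000000000000000000000000000000000000000000000000) (nat_lit 0x20001f8003ff000ff8007ff80003e0001f80007e000ef8003bf0000e0000180000000000000000000000000000000000) (nat_lit 17)
theorem c25887 : QOK q25887 := cut [q22349, q25560, q22314, q22324, q22821, q25614, q24671, q25645, q25622, q25721, q18354, q25629, q25639, q25641, q25744, q25886] ⟨c22349, c25560, c22314, c22324, c22821, c25614, c24671, c25645, c25622, c25721, c18354, c25629, c25639, c25641, c25744, c25886, trivial⟩ (nd (nat_lit 252) (nat_lit 0) (cs (rf (nat_lit 0)) (cs (rf (nat_lit 1)) (cs (nd (nat_lit 273) (nat_lit 0) (cs (rf (nat_lit 2)) (cs (rf (nat_lit 3)) (cs (rf (nat_lit 4)) (cs (nd (nat_lit 207) (nat_lit 0) (cs (rf (nat_lit 5)) (cs (nd (nat_lit 206) (nat_lit 0) (cs (rf (nat_lit 6)) (cs (rf (nat_lit 7)) (cs (nd (nat_lit 205) (nat_lit 0) (cs (rf (nat_lit 8)) (cs (nd (nat_lit 271) (nat_lit 0) (cs (lf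 (nat_lit 13) (nat_lit 249)) (nd (nat_lit 182) (nat_lit 0) (cs (lf (nat_lit 22) (nat_lit 182)) (nd (nat_lit 204) (nat_lit 0) (cs (lf (nat_lit 23) (nat_lit 181)) (nd (nat_lit 226) (nat_lit 0) (cs (lf (nat_lit 11) (nat_lit 203)) (rf (nat_lit 9)))))))))) (nd (nat_lit 183) (nat_lit 0) (cs (lf (nat_lit 23) (nat_lit 182)) (nd (nat_lit 271) (nat_lit 0) (cs (lf (nat_lit 13) (nat_lit 249)) (nd (nat_lit 184) (nat_lit 0) (cs (lf (nat_lit 18) (nat_lit 183)) (nd (nat_lit 249) (nat_lit 0) (cs (nd (nat_lit 250) (nat_lit 0) (cs (lf (nat_lit 38) (nat_lit 183)) (lf (nat_lit 2) (nat_lit 249)))) (lf (nat_lit 32) (nat_lit 183))))))))))))) (cs (nd (nat_lit 205) (nat_lit 0) (cs (rf (nat_lit 10)) (cs (rf (nat_lit 11)) (cs (rf (nat_lit 12)) (rf (nat_lit 13)))))) (nd (nat_lit 185) (nat_lit 0) (cs (lf (nat_lit 44) (nat_lit 185)) (nd (nat_lit 272) (nat_lit 0) (cs (lf (nat_lit 12) (nat_lit 249)) (nd (nat_lit 250) (nat_lit 0) (cs (lf (nat_lit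 23) (nat_lit 249)) (lf (nat_lit 32) (nat_lit 184))))))))))))) (cs (nd (nat_lit 272) (nat_lit 0) (cs (lf (nat_lit 12) (nat_lit 249)) (nd (nat_lit 294) (nat_lit 0) (cs (lf (nat_lit 11) (nat_lit 271)) (nd (nat_lit 249) (nat_lit 0) (cs (lf (nat_lit 22) (nat_lit 249)) (nd (nat_lit 229) (nat_lit 0) (cs (lf (nat_lit 38) (nat_lit 206)) (nd (nat_lit 230) (nat_lit 0) (cs (lf (nat_lit 47) (nat_lit 185)) (lf (nat_lit 42) (nat_lit 207)))))))))))) (nd (nat_lit 272) (nat_lit 0) (cs (lf (nat_lit 12) (nat_lit 249)) (rf (nat_lit 14)))))))) (nd (nat_lit 272) (nat_lit 0) (cs (lf (nat_lit 12) (nat_lit 249)) (nd (nat_lit 230) (nat_lit 0) (cs (lf (nat_lit 41) (nat_lit 207)) (nd (nat_lit 187) (nat_lit 0) (cs (lf (nat_lit 34) (nat_lit 186)) (nd (nat_lit 294) (nat_lit 0) (cs (lf (nat_lit 11) (nat_lit 271)) (nd (nat_lit 249) (nat_lit 0) (cs (lf (nat_lit 22) (nat_lit 249)) (nd (nat_lit 207) (nat_lit 0) (cs (lf (nat_lit 47) (nat_lit 185))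 (nd (nat_lit 229) (nat_lit 0) (cs (lf (nat_lit 42) (nat_lit 207)) (lf (nat_lit 38) (nat_lit 206))))))))))))))))))))) (rf (nat_lit 15)))))) q25887 (by decide +kernel)
def q26358 : Q := Q.p (nat_lit 0x800002000000000014000000000000000000000000000000000000000000000000000) (nat_lit 0x700001e0003ff800ffe007ef80077f8001fc007ff80063c0013e0004e80002a0000000000000000000000000000000000) (nat_lit 15)
theorem c26358 : QOK q26358 := cut [q15215, q23596, q15267, q14766, q26066, q11865, q16036, q26068, q14454, q21929, q26074, q26081, q22569, q14306, q14973, q23595, q26169, q2281, q26170, q23594, q26172, q26194, q26258, q3767, q26180, q26177, q26269, q26275, q26276, q26298, q26313, q23605, q24654, q2279, q26173, q26316, q26319, q26197, q26063, q26357] ⟨c15215, c23596, c15267, c14766, c26066, c11865, c16036, c26068, c14454, c21929, c26074, c26081, c22569, c14306, c14973, c23595, c26169, c2281, c26170, c23594, c26172, c26194, c26258,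 c3767, c26180, c26177, c26269, c26275, c26276, c26298, c26313, c23605, c24654, c2279, c26173, c26316, c26319, c26197, c26063, c26357, trivial⟩ (nd (nat_lit 250) (nat_lit 0) (cs (nd (nat_lit 251) (nat_lit 0) (cs (rf (nat_lit 0)) (cs (rf (nat_lit 1)) (cs (nd (nat_lit 273) (nat_lit 0) (cs (rf (nat_lit 2)) (nd (nat_lit 228) (nat_lit 0) (cs (lf (nat_lit 24) (nat_lit 184)) (rf (nat_lit 3)))))) (rf (nat_lit 4)))))) (cs (nd (nat_lit 297) (nat_lit 0) (cs (rf (nat_lit 5)) (cs (rf (nat_lit 6)) (cs (rf (nat_lit 7)) (nd (nat_lit 319) (nat_lit 0) (cs (rf (nat_lit 8)) (cs (rf (nat_lit 9)) (cs (rf (nat_lit 10)) (cs (rf (nat_lit 11)) (nd (nat_lit 298) (nat_lit 0) (cs (nd (nat_lit 274) (nat_lit 0) (cs (rf (nat_lit 12)) (cs (nd (nat_lit 272) (nat_lit 0) (cs (lf (nat_lit 1) (nat_lit 272)) (nd (nat_lit 252) (nat_lit 0) (cs (lf (nat_lit 42) (nat_lit 252)) (rf (nat_lit 13)))))) (nd (nat_lit 299) (nat_lit 0) (cs (lf (nat_lit 18) (nat_lit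 274)) (nd (nat_lit 252) (nat_lit 0) (cs (lf (nat_lit 42) (nat_lit 252)) (rf (nat_lit 14))))))))) (nd (nat_lit 320) (nat_lit 0) (cs (lf (nat_lit 29) (nat_lit 253)) (lf (nat_lit 24) (nat_lit 231))))))))))))))) (cs (nd (nat_lit 297) (nat_lit 0) (cs (rf (nat_lit 5)) (cs (rf (nat_lit 6)) (cs (rf (nat_lit 7)) (nd (nat_lit 319) (nat_lit 0) (cs (rf (nat_lit 8)) (cs (rf (nat_lit 10)) (cs (rf (nat_lit 11)) (nd (nat_lit 342) (nat_lit 0) (cs (lf (nat_lit 28) (nat_lit 253)) (nd (nat_lit 341) (nat_lit 0) (cs (lf (nat_lit 29) (nat_lit 275)) (nd (nat_lit 252) (nat_lit 0) (cs (lf (nat_lit 46) (nat_lit 252)) (nd (nat_lit 251) (nat_lit 0) (cs (lf (nat_lit 5) (nat_lit 250)) (nd (nat_lit 271) (nat_lit 0) (cs (lf (nat_lit 10) (nat_lit 249)) (rf (nat_lit 15)))))))))))))))))))) (cs (rf (nat_lit 16)) (cs (nd (nat_lit 252) (nat_lit 0) (cs (rf (nat_lit 17)) (cs (rf (nat_lit 18)) (nd (nat_lit 251) (nat_lit 0) (cs (rf (nat_lit 19)) (rf (nat_lit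 20))))))) (cs (nd (nat_lit 228) (nat_lit 0) (cs (rf (nat_lit 21)) (cs (rf (nat_lit 22)) (cs (nd (nat_lit 184) (nat_lit 0) (cs (rf (nat_lit 23)) (cs (rf (nat_lit 24)) (cs (nd (nat_lit 249) (nat_lit 0) (cs (lf (nat_lit 41) (nat_lit 183)) (nd (nat_lit 163) (nat_lit 0) (cs (lf (nat_lit 34) (nat_lit 162)) (nd (nat_lit 141) (nat_lit 0) (cs (lf (nat_lit 33) (nat_lit 140)) (rf (nat_lit 25)))))))) (nd (nat_lit 249) (nat_lit 0) (cs (lf (nat_lit 41) (nat_lit 183)) (nd (nat_lit 161) (nat_lit 0) (cs (lf (nat_lit 46) (nat_lit 161)) (nd (nat_lit 139) (nat_lit 0) (cs (lf (nat_lit 45) (nat_lit 139)) (rf (nat_lit 25)))))))))))) (cs (rf (nat_lit 26)) (cs (rf (nat_lit 27)) (rf (nat_lit 28)))))))) (cs (rf (nat_lit 29)) (cs (rf (nat_lit 30)) (cs (nd (nat_lit 228) (nat_lit 0) (cs (rf (nat_lit 31)) (cs (rf (nat_lit 32)) (cs (rf (nat_lit 21)) (rf (nat_lit 28)))))) (cs (nd (nat_lit 252) (nat_lit 0) (cs (rf (nat_lit 33)) (cs (rf (nat_lit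 18)) (cs (rf (nat_lit 34)) (nd (nat_lit 231) (nat_lit 0) (cs (nd (nat_lit 232) (nat_lit 0) (cs (lf (nat_lit 13) (nat_lit 228)) (rf (nat_lit 35)))) (cs (nd (nat_lit 297) (nat_lit 0) (cs (lf (nat_lit 46) (nat_lit 208)) (nd (nat_lit 210) (nat_lit 0) (cs (lf (nat_lit 34) (nat_lit 209)) (nd (nat_lit 188) (nat_lit 0) (cs (lf (nat_lit 33) (nat_lit 187)) (rf (nat_lit 36)))))))) (cs (nd (nat_lit 230) (nat_lit 0) (cs (lf (nat_lit 42) (nat_lit 208)) (nd (nat_lit 249) (nat_lit 0) (cs (nd (nat_lit 228) (nat_lit 0) (cs (lf (nat_lit 8) (nat_lit 227)) (rf (nat_lit 37)))) (lf (nat_lit 14) (nat_lit 227)))))) (nd (nat_lit 251) (nat_lit 0) (cs (lf (nat_lit 17) (nat_lit 228)) (rf (nat_lit 38)))))))))))) (rf (nat_lit 39))))))))))))) q26358 (by decide +kernel)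
def q35553 : Q := Q.p (nat_lit 0x2000000000010000040000040000000000000000000000000000000000000000) (nat_lit 0xc0000fc0003f0001fc0003fe03cff007bfe03f3f007ffc01fff00fffc01ffe001ff0003f8000b80) (nat_lit 17)
theorem c35553 : QOK q35553 := cut [q34461, q34615, q32761, q19066, q19014, q33500, q33503, q34630, q34631, q34633, q34635, q34739, q33490, q34696, q34257, q34747, q34725, q34752, q16276, q32743, q34737, q34765, q34771, q34785, q34787, q34794, q34721, q34780, q34803, q34819, q34825, q34833, q34842, q35012, q35132, q35164, q35442, q35549, q35162, q35457, q35550] ⟨c34461, c34615, c32761, c19066, c19014, c33500, c33503, c34630, c34631, c34633, c34635, c34739, c33490, c34696, c34257, c34747, c34725, c34752, c16276, c32743, c34737, c34765, c34771, c34785, c34787, c34794, c34721, c34780, c34803, c34819, c34825, c34833, c34842, c35012, c35132, c35164, c35442, c35549, c35162, c35457, c35550, trivial⟩ (nd (nat_lit 140)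 (nat_lit 0) (cs (rf (nat_lit 0)) (cs (rf (nat_lit 1)) (cs (nd (nat_lit 184) (nat_lit 0) (cs (rf (nat_lit 2)) (cs (nd (nat_lit 118) (nat_lit 0) (cs (rf (nat_lit 3)) (cs (nd (nat_lit 185) (nat_lit 0) (cs (lf (nat_lit 29) (nat_lit 118)) (nd (nat_lit 97) (nat_lit 0) (cs (lf (nat_lit 34) (nat_lit 96)) (nd (nat_lit 75) (nat_lit 0) (cs (rf (nat_lit 4)) (lf (nat_lit 33) (nat_lit 74)))))))) (cs (nd (nat_lit 185) (nat_lit 0) (cs (lf (nat_lit 29) (nat_lit 118)) (nd (nat_lit 95) (nat_lit 0) (cs (lf (nat_lit 46) (nat_lit 95)) (nd (nat_lit 73) (nat_lit 0) (cs (rf (nat_lit 4)) (lf (nat_lit 45) (nat_lit 73)))))))) (nd (nat_lit 97) (nat_lit 0) (cs (lf (nat_lit 34) (nat_lit 96)) (rf (nat_lit 5)))))))) (cs (rf (nat_lit 6)) (cs (rf (nat_lit 7)) (nd (nat_lit 205) (nat_lit 0) (cs (rf (nat_lit 8)) (cs (rf (nat_lit 9)) (nd (nat_lit 118) (nat_lit 0) (cs (lf (nat_lit 40) (nat_lit 117)) (nd (nat_lit 95) (nat_lit 0) (cs (lf (nat_lit 46) (nat_lit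 95)) (nd (nat_lit 73) (nat_lit 0) (cs (lf (nat_lit 45) (nat_lit 73)) (rf (nat_lit 10)))))))))))))))) (cs (rf (nat_lit 11)) (cs (nd (nat_lit 184) (nat_lit 0) (cs (rf (nat_lit 7)) (cs (nd (nat_lit 118) (nat_lit 0) (cs (rf (nat_lit 12)) (cs (rf (nat_lit 13)) (cs (nd (nat_lit 185) (nat_lit 0) (cs (lf (nat_lit 29) (nat_lit 118)) (nd (nat_lit 97) (nat_lit 0) (cs (lf (nat_lit 34) (nat_lit 96)) (nd (nat_lit 96) (nat_lit 0) (cs (lf (nat_lit 35) (nat_lit 74)) (nd (nat_lit 161) (nat_lit 0) (cs (lf (nat_lit 18) (nat_lit 161)) (nd (nat_lit 159) (nat_lit 0) (cs (lf (nat_lit 1) (nat_lit 159)) (rf (nat_lit 14)))))))))))) (rf (nat_lit 15)))))) (cs (nd (nat_lit 185) (nat_lit 0) (cs (rf (nat_lit 4)) (cs (nd (nat_lit 118) (nat_lit 0) (cs (lf (nat_lit 29) (nat_lit 118)) (rf (nat_lit 16)))) (rf (nat_lit 17))))) (cs (nd (nat_lit 206) (nat_lit 0) (cs (rf (nat_lit 18)) (cs (rf (nat_lit 19)) (rf (nat_lit 20))))) (cs (rf (nat_lit 21)) (cs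 (rf (nat_lit 22)) (cs (rf (nat_lit 23)) (rf (nat_lit 24)))))))))) (cs (nd (nat_lit 118) (nat_lit 0) (cs (rf (nat_lit 25)) (cs (nd (nat_lit 184) (nat_lit 0) (cs (rf (nat_lit 5)) (cs (rf (nat_lit 26)) (rf (nat_lit 16))))) (cs (nd (nat_lit 184) (nat_lit 0) (cs (rf (nat_lit 16)) (cs (rf (nat_lit 27)) (rf (nat_lit 28))))) (cs (rf (nat_lit 29)) (cs (nd (nat_lit 184) (nat_lit 0) (cs (rf (nat_lit 26)) (cs (rf (nat_lit 28)) (cs (rf (nat_lit 30)) (rf (nat_lit 31)))))) (rf (nat_lit 32)))))))) (cs (rf (nat_lit 33)) (cs (rf (nat_lit 34)) (cs (rf (nat_lit 35)) (cs (rf (nat_lit 36)) (cs (rf (nat_lit 37)) (nd (nat_lit 184) (nat_lit 0) (cs (rf (nat_lit 23)) (cs (rf (nat_lit 38)) (cs (rf (nat_lit 39)) (cs (rf (nat_lit 40)) (nd (nat_lit 118) (nat_lit 0) (cs (rf (nat_lit 3)) (cs (rf (nat_lit 26)) (rf (nat_lit 27)))))))))))))))))))))) q35553 (by decide +kernel)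
def q38231 : Q := Q.p (nat_lit 0x2000000000010000040000040000000000000000000000000000000000000000) (nat_lit 0x400007a0003f8001fe0003f8004fe007bfc00fbf003efc01ffe003ff800a7c00015000000000000) (nat_lit 17)
theorem c38231 : QOK q38231 := cut [q37340, q33487, q35170, q37449, q37480, q36613, q35180, q36670, q37212, q37476, q37483, q37488, q3431, q37496, q37498, q37606, q37641, q37717, q37215, q37653, q5968, q35179, q37555, q37724, q37785, q17920, q37792, q37793, q37798, q37826, q38173, q38210, q38216, q38222, q38224, q6771, q32463, q32470, q38229] ⟨c37340, c33487, c35170, c37449, c37480, c36613, c35180, c36670, c37212, c37476, c37483, c37488, c3431, c37496, c37498, c37606, c37641, c37717, c37215, c37653, c5968, c35179, c37555, c37724, c37785, c17920, c37792, c37793, c37798, c37826, c38173, c38210, c38216, c38222, c38224, c6771, c32463, c32470, c38229, trivial⟩ (nd (nat_lit 161) (nat_lit 0) (cs (nd (nat_lit 183) (nat_lit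 0) (cs (rf (nat_lit 0)) (cs (nd (nat_lit 184) (nat_lit 0) (cs (rf (nat_lit 1)) (cs (rf (nat_lit 2)) (rf (nat_lit 3))))) (cs (rf (nat_lit 4)) (cs (nd (nat_lit 184) (nat_lit 0) (cs (nd (nat_lit 139) (nat_lit 0) (cs (rf (nat_lit 5)) (cs (nd (nat_lit 205) (nat_lit 0) (cs (rf (nat_lit 6)) (rf (nat_lit 7)))) (nd (nat_lit 117) (nat_lit 0) (cs (lf (nat_lit 24) (nat_lit 95)) (rf (nat_lit 8))))))) (cs (rf (nat_lit 9)) (cs (rf (nat_lit 10)) (rf (nat_lit 11)))))) (cs (nd (nat_lit 184) (nat_lit 0) (cs (rf (nat_lit 1)) (cs (rf (nat_lit 10)) (cs (nd (nat_lit 139) (nat_lit 0) (cs (rf (nat_lit 5)) (cs (nd (nat_lit 205) (nat_lit 0) (cs (rf (nat_lit 6)) (nd (nat_lit 227) (nat_lit 0) (cs (lf (nat_lit 30) (nat_lit 161)) (rf (nat_lit 12)))))) (rf (nat_lit 13))))) (rf (nat_lit 14)))))) (cs (nd (nat_lit 184) (nat_lit 0) (cs (rf (nat_lit 1)) (cs (rf (nat_lit 2)) (rf (nat_lit 15))))) (cs (rf (nat_lit 16)) (cs (nd (nat_lit 184) (nat_lit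 0) (cs (rf (nat_lit 1)) (cs (rf (nat_lit 2)) (rf (nat_lit 17))))) (cs (nd (nat_lit 184) (nat_lit 0) (cs (rf (nat_lit 1)) (cs (rf (nat_lit 18)) (nd (nat_lit 205) (nat_lit 0) (cs (rf (nat_lit 19)) (cs (nd (nat_lit 206) (nat_lit 0) (cs (rf (nat_lit 20)) (rf (nat_lit 21)))) (cs (nd (nat_lit 227) (nat_lit 0) (cs (lf (nat_lit 30) (nat_lit 161)) (rf (nat_lit 22)))) (rf (nat_lit 23))))))))) (cs (nd (nat_lit 184) (nat_lit 0) (cs (rf (nat_lit 1)) (cs (rf (nat_lit 9)) (rf (nat_lit 17))))) (cs (nd (nat_lit 184) (nat_lit 0) (cs (rf (nat_lit 1)) (cs (rf (nat_lit 2)) (nd (nat_lit 205) (nat_lit 0) (cs (rf (nat_lit 23)) (cs (rf (nat_lit 24)) (cs (nd (nat_lit 227) (nat_lit 0) (cs (lf (nat_lit 30) (nat_lit 161)) (nd (nat_lit 226) (nat_lit 0) (cs (lf (nat_lit 41) (nat_lit 160)) (nd (nat_lit 206) (nat_lit 0) (cs (lf (nat_lit 7) (nat_lit 204)) (nd (nat_lit 224) (nat_lit 0) (cs (lf (nat_lit 13) (nat_lit 202)) (nd (nat_lit 160) (nat_lit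 0) (cs (lf (nat_lit 47) (nat_lit 138)) (rf (nat_lit 25)))))))))))) (cs (rf (nat_lit 26)) (nd (nat_lit 227) (nat_lit 0) (cs (lf (nat_lit 30) (nat_lit 161)) (nd (nat_lit 138) (nat_lit 0) (cs (lf (nat_lit 46) (nat_lit 138)) (rf (nat_lit 27)))))))))))))) (rf (nat_lit 28)))))))))))))) (cs (rf (nat_lit 29)) (cs (rf (nat_lit 30)) (cs (rf (nat_lit 31)) (cs (rf (nat_lit 32)) (cs (rf (nat_lit 33)) (cs (rf (nat_lit 34)) (nd (nat_lit 163) (nat_lit 0) (cs (rf (nat_lit 35)) (cs (rf (nat_lit 36)) (cs (rf (nat_lit 37)) (rf (nat_lit 38)))))))))))))) q38231 (by decide +kernel)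
def q39067 : Q := Q.p (nat_lit 0x2000000000010000040000040000000000000000000000000000000000000000) (nat_lit 0x380001fc0003f0004fc007bfc00fbf003ffc01fbc002ef000a3c0000f000000000000) (nat_lit 16)
theorem c39067 : QOK q39067 := cut [q37826, q38210, q38216, q38222, q38224, q33487, q38871, q5854, q38855, q39033, q32638, q23943, q26833, q38867, q18707, q38864, q39066] ⟨c37826, c38210, c38216, c38222, c38224, c33487, c38871, c5854, c38855, c39033, c32638, c23943, c26833, c38867, c18707, c38864, c39066, trivial⟩ (nd (nat_lit 161) (nat_lit 0) (cs (rf (nat_lit 0)) (cs (rf (nat_lit 1)) (cs (rf (nat_lit 2)) (cs (rf (nat_lit 3)) (cs (rf (nat_lit 4)) (cs (nd (nat_lit 184) (nat_lit 0) (cs (rf (nat_lit 5)) (cs (rf (nat_lit 6)) (cs (nd (nat_lit 206) (nat_lit 0) (cs (rf (nat_lit 7)) (cs (rf (nat_lit 8)) (cs (nd (nat_lit 187) (nat_lit 0) (cs (lf (nat_lit 20) (nat_lit 161)) (nd (nat_lit 205) (nat_lit 0) (cs (lf (nat_lit 14) (nat_lit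 183)) (rf (nat_lit 9)))))) (nd (nat_lit 187) (nat_lit 0) (cs (lf (nat_lit 20) (nat_lit 161)) (nd (nat_lit 205) (nat_lit 0) (cs (lf (nat_lit 14) (nat_lit 183)) (rf (nat_lit 10)))))))))) (cs (nd (nat_lit 206) (nat_lit 0) (cs (rf (nat_lit 7)) (cs (rf (nat_lit 11)) (nd (nat_lit 187) (nat_lit 0) (cs (lf (nat_lit 20) (nat_lit 161)) (nd (nat_lit 205) (nat_lit 0) (cs (lf (nat_lit 14) (nat_lit 183)) (nd (nat_lit 227) (nat_lit 0) (cs (lf (nat_lit 36) (nat_lit 139)) (rf (nat_lit 12))))))))))) (nd (nat_lit 206) (nat_lit 0) (cs (rf (nat_lit 7)) (cs (rf (nat_lit 11)) (cs (rf (nat_lit 13)) (nd (nat_lit 205) (nat_lit 0) (cs (rf (nat_lit 14)) (cs (rf (nat_lit 15)) (rf (nat_lit 9)))))))))))))) (rf (nat_lit 16))))))))) q39067 (by decide +kernel)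
def q44488 : Q := Q.p (nat_lit 0x3400000000010000040000000000000000000000000000000000000000000000) (nat_lit 0x280000e0000f80007fc001ff800ffc007ffc01fff007ffc01fff0018bc007ae00189000024000000000000000000000000000000000000000000000) (nat_lit 16)
theorem c44488 : QOK q44488 := cut [q41896, q42167, q42168, q42171, q42176, q14308, q14305, q14973, q42184, q42190, q42194, q42197, q43907, q44347, q44389, q17024, q41783, q44391, q44396, q44398, q44422, q40773, q44423, q41745, q44429, q3762, q11143, q44442, q44449, q44487] ⟨c41896, c42167, c42168, c42171, c42176, c14308, c14305, c14973, c42184, c42190, c42194, c42197, c43907, c44347, c44389, c17024, c41783, c44391, c44396, c44398, c44422, c40773, c44423, c41745, c44429, c3762, c11143, c44442, c44449, c44487, trivial⟩ (nd (nat_lit 318) (nat_lit 0) (cs (rf (nat_lit 0)) (cs (rf (nat_lit 1)) (cs (nd (nat_lit 274) (nat_lit 0) (cs (nd (nat_lit 296) (nat_lit 0) (cs (lf (nat_lit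 35) (nat_lit 230)) (nd (nat_lit 319) (nat_lit 0) (cs (lf (nat_lit 29) (nat_lit 252)) (nd (nat_lit 320) (nat_lit 0) (cs (nd (nat_lit 295) (nat_lit 0) (cs (lf (nat_lit 18) (nat_lit 295)) (rf (nat_lit 2)))) (cs (rf (nat_lit 3)) (rf (nat_lit 4))))))))) (cs (nd (nat_lit 272) (nat_lit 0) (cs (rf (nat_lit 5)) (cs (nd (nat_lit 275) (nat_lit 0) (cs (rf (nat_lit 6)) (cs (rf (nat_lit 7)) (cs (nd (nat_lit 273) (nat_lit 0) (cs (lf (nat_lit 23) (nat_lit 249)) (rf (nat_lit 8)))) (rf (nat_lit 9)))))) (cs (nd (nat_lit 273) (nat_lit 0) (cs (lf (nat_lit 12) (nat_lit 249)) (nd (nat_lit 275) (nat_lit 0) (cs (lf (nat_lit 23) (nat_lit 249)) (rf (nat_lit 8)))))) (rf (nat_lit 10)))))) (rf (nat_lit 11))))) (cs (rf (nat_lit 12)) (cs (rf (nat_lit 13)) (cs (rf (nat_lit 14)) (cs (nd (nat_lit 275) (nat_lit 0) (cs (nd (nat_lit 296) (nat_lit 0) (cs (nd (nat_lit 231) (nat_lit 0) (cs (lf (nat_lit 39) (nat_lit 230)) (lf (nat_lit 32) (nat_lit 230))))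 (cs (nd (nat_lit 274) (nat_lit 0) (cs (lf (nat_lit 35) (nat_lit 230)) (lf (nat_lit 30) (nat_lit 252)))) (cs (nd (nat_lit 297) (nat_lit 0) (cs (lf (nat_lit 36) (nat_lit 230)) (rf (nat_lit 15)))) (nd (nat_lit 340) (nat_lit 0) (cs (lf (nat_lit 33) (nat_lit 252)) (nd (nat_lit 297) (nat_lit 0) (cs (lf (nat_lit 39) (nat_lit 252)) (lf (nat_lit 30) (nat_lit 274)))))))))) (cs (nd (nat_lit 251) (nat_lit 0) (cs (lf (nat_lit 5) (nat_lit 250)) (rf (nat_lit 16)))) (nd (nat_lit 251) (nat_lit 0) (cs (lf (nat_lit 5) (nat_lit 250)) (nd (nat_lit 231) (nat_lit 0) (cs (lf (nat_lit 17) (nat_lit 228)) (nd (nat_lit 297) (nat_lit 0) (cs (lf (nat_lit 40) (nat_lit 230)) (rf (nat_lit 17))))))))))) (cs (nd (nat_lit 274) (nat_lit 0) (cs (rf (nat_lit 11)) (cs (nd (nat_lit 296) (nat_lit 0) (cs (lf (nat_lit 35) (nat_lit 230)) (rf (nat_lit 18)))) (nd (nat_lit 272) (nat_lit 0) (cs (rf (nat_lit 5)) (cs (rf (nat_lit 10)) (cs (nd (nat_lit 273) (nat_lit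 0) (cs (lf (nat_lit 12) (nat_lit 249)) (nd (nat_lit 275) (nat_lit 0) (cs (lf (nat_lit 23) (nat_lit 249)) (rf (nat_lit 19)))))) (nd (nat_lit 275) (nat_lit 0) (cs (rf (nat_lit 6)) (cs (rf (nat_lit 7)) (cs (rf (nat_lit 9)) (nd (nat_lit 273) (nat_lit 0) (cs (lf (nat_lit 23) (nat_lit 249)) (rf (nat_lit 19))))))))))))))) (cs (rf (nat_lit 20)) (cs (nd (nat_lit 251) (nat_lit 0) (cs (rf (nat_lit 21)) (cs (nd (nat_lit 231) (nat_lit 0) (cs (lf (nat_lit 17) (nat_lit 228)) (nd (nat_lit 274) (nat_lit 0) (cs (lf (nat_lit 31) (nat_lit 230)) (rf (nat_lit 22)))))) (cs (nd (nat_lit 272) (nat_lit 0) (cs (lf (nat_lit 11) (nat_lit 249)) (nd (nat_lit 316) (nat_lit 0) (cs (rf (nat_lit 23)) (rf (nat_lit 24)))))) (cs (nd (nat_lit 249) (nat_lit 0) (cs (rf (nat_lit 25)) (cs (rf (nat_lit 26)) (cs (nd (nat_lit 231) (nat_lit 0) (cs (lf (nat_lit 17) (nat_lit 228)) (rf (nat_lit 27)))) (nd (nat_lit 272) (nat_lit 0) (cs (lf (nat_lit 11) (nat_lit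 249)) (nd (nat_lit 231) (nat_lit 0) (cs (lf (nat_lit 17) (nat_lit 228)) (rf (nat_lit 28)))))))))) (nd (nat_lit 271) (nat_lit 0) (cs (lf (nat_lit 10) (nat_lit 249)) (nd (nat_lit 249) (nat_lit 0) (cs (lf (nat_lit 11) (nat_lit 248)) (nd (nat_lit 226) (nat_lit 0) (cs (lf (nat_lit 22) (nat_lit 226)) (nd (nat_lit 225) (nat_lit 0) (cs (lf (nat_lit 21) (nat_lit 225)) (nd (nat_lit 274) (nat_lit 0) (cs (lf (nat_lit 5) (nat_lit 249)) (nd (nat_lit 231) (nat_lit 0) (cs (lf (nat_lit 17) (nat_lit 228)) (lf (nat_lit 31) (nat_lit 230))))))))))))))))))) (rf (nat_lit 29))))))))))))) q44488 (by decide +kernel)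
def q52449 : Q := Q.p (nat_lit 0x3400000000010000040000000000000000000000000000000000000000000000) (nat_lit 0x140000f00007e8003fe001ffe007ffc03fffc0fffe07fffc07fff0183fc03bff00cffc00bff000ff8003fe000fd0003d00000000000000000000000) (nat_lit 16)
theorem c52449 : QOK q52449 := cut [q44537, q44917, q45098, q45299, q46557, q47857, q48543, q48599, q48623, q45110, q45298, q48563, q44494, q45097, q44501, q44508, q48549, q20189, q44515, q45196, q48631, q48639, q44492, q48690, q52409, q44534, q45084, q48622, q44517, q45327, q52443, q45172, q48560, q48566, q48598, q48553, q48676, q52446] ⟨c44537, c44917, c45098, c45299, c46557, c47857, c48543, c48599, c48623, c45110, c45298, c48563, c44494, c45097, c44501, c44508, c48549, c20189, c44515, c45196, c48631, c48639, c44492, c48690, c52409, c44534, c45084, c48622, c44517, c45327, c52443, c45172, c48560, c48566, c48598, c48553, c48676, c52446, trivial⟩ (nd (nat_lit 272) (nat_lit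 0) (cs (rf (nat_lit 0)) (cs (rf (nat_lit 1)) (cs (rf (nat_lit 2)) (cs (rf (nat_lit 3)) (cs (rf (nat_lit 4)) (cs (rf (nat_lit 5)) (cs (rf (nat_lit 6)) (cs (rf (nat_lit 7)) (cs (rf (nat_lit 8)) (cs (nd (nat_lit 294) (nat_lit 0) (cs (rf (nat_lit 9)) (cs (rf (nat_lit 10)) (cs (rf (nat_lit 11)) (cs (nd (nat_lit 228) (nat_lit 0) (cs (rf (nat_lit 12)) (cs (rf (nat_lit 13)) (nd (nat_lit 295) (nat_lit 0) (cs (lf (nat_lit 29) (nat_lit 228)) (nd (nat_lit 296) (nat_lit 0) (cs (rf (nat_lit 14)) (cs (rf (nat_lit 15)) (rf (nat_lit 16)))))))))) (cs (nd (nat_lit 228) (nat_lit 0) (cs (rf (nat_lit 17)) (cs (rf (nat_lit 18)) (cs (nd (nat_lit 207) (nat_lit 0) (cs (lf (nat_lit 34) (nat_lit 206)) (nd (nat_lit 206) (nat_lit 0) (cs (lf (nat_lit 35) (nat_lit 184)) (nd (nat_lit 295) (nat_lit 0) (cs (lf (nat_lit 29) (nat_lit 228)) (rf (nat_lit 19)))))))) (nd (nat_lit 295) (nat_lit 0) (cs (lf (nat_lit 29) (nat_lit 228)) (rf (nat_lit 20))))))))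 (cs (rf (nat_lit 21)) (nd (nat_lit 228) (nat_lit 0) (cs (rf (nat_lit 22)) (cs (rf (nat_lit 12)) (cs (rf (nat_lit 13)) (rf (nat_lit 20))))))))))))) (cs (rf (nat_lit 23)) (cs (rf (nat_lit 24)) (cs (nd (nat_lit 228) (nat_lit 0) (cs (rf (nat_lit 25)) (cs (rf (nat_lit 26)) (cs (rf (nat_lit 13)) (cs (rf (nat_lit 27)) (nd (nat_lit 294) (nat_lit 0) (cs (rf (nat_lit 28)) (cs (rf (nat_lit 29)) (nd (nat_lit 295) (nat_lit 0) (cs (lf (nat_lit 29) (nat_lit 228)) (nd (nat_lit 296) (nat_lit 0) (cs (rf (nat_lit 15)) (cs (rf (nat_lit 16)) (cs (nd (nat_lit 205) (nat_lit 0) (cs (lf (nat_lit 46) (nat_lit 205)) (nd (nat_lit 293) (nat_lit 0) (cs (lf (nat_lit 41) (nat_lit 227)) (nd (nat_lit 318) (nat_lit 0) (cs (lf (nat_lit 5) (nat_lit 293)) (nd (nat_lit 271) (nat_lit 0) (cs (lf (nat_lit 18) (nat_lit 271)) (nd (nat_lit 274) (nat_lit 0) (cs (lf (nat_lit 35) (nat_lit 230)) (lf (nat_lit 14) (nat_lit 249)))))))))))) (nd (nat_lit 205) (nat_lit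 0) (cs (lf (nat_lit 46) (nat_lit 205)) (nd (nat_lit 293) (nat_lit 0) (cs (lf (nat_lit 41) (nat_lit 227)) (nd (nat_lit 271) (nat_lit 0) (cs (lf (nat_lit 18) (nat_lit 271)) (nd (nat_lit 274) (nat_lit 0) (cs (lf (nat_lit 14) (nat_lit 249)) (lf (nat_lit 17) (nat_lit 271)))))))))))))))))))))))) (cs (rf (nat_lit 30)) (nd (nat_lit 294) (nat_lit 0) (cs (rf (nat_lit 31)) (cs (rf (nat_lit 10)) (cs (rf (nat_lit 32)) (cs (rf (nat_lit 11)) (cs (rf (nat_lit 33)) (cs (rf (nat_lit 34)) (nd (nat_lit 293) (nat_lit 0) (cs (rf (nat_lit 35)) (cs (rf (nat_lit 36)) (rf (nat_lit 37))))))))))))))))))))))))))) q52449 (by decide +kernel)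
def q54895 : Q := Q.p (nat_lit 0xc00002000000000010000000000000000000000000000000000000000000000000000) (nat_lit 0x150001fe000ffc007ffc0ffff81fffc0ffff01fff80ff3e0078fc01e7c007060004380000e0000280000000000000000000000000000000000) (nat_lit 17)
theorem c54895 : QOK q54895 := cut [q53151, q53930, q53963, q54764, q54770, q23284, q53049, q53062, q52669, q54414, q25532, q25390, q12908, q13222, q52647, q13071, q54783, q54785, q54790, q12991, q14624, q15625, q14764, q26009, q54810, q54814, q54809, q41733, q54851, q54880, q54890, q43240, q52663, q53337, q54768, q2590, q13066] ⟨c53151, c53930, c53963, c54764, c54770, c23284, c53049, c53062, c52669, c54414, c25532, c25390, c12908, c13222, c52647, c13071, c54783, c54785, c54790, c12991, c14624, c15625, c14764, c26009, c54810, c54814, c54809, c41733, c54851, c54880, c54890, c43240, c52663, c53337, c54768, c2590, c13066, trivial⟩ (nd (nat_lit 340) (nat_lit 0) (cs (rf (nat_lit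 0)) (cs (rf (nat_lit 1)) (cs (rf (nat_lit 2)) (cs (rf (nat_lit 3)) (cs (nd (nat_lit 318) (nat_lit 0) (cs (lf (nat_lit 32) (nat_lit 252)) (rf (nat_lit 4)))) (cs (nd (nat_lit 273) (nat_lit 0) (cs (rf (nat_lit 5)) (cs (rf (nat_lit 6)) (cs (rf (nat_lit 7)) (cs (nd (nat_lit 295) (nat_lit 0) (cs (nd (nat_lit 276) (nat_lit 0) (cs (lf (nat_lit 11) (nat_lit 272)) (nd (nat_lit 250) (nat_lit 0) (cs (lf (nat_lit 22) (nat_lit 250)) (rf (nat_lit 8)))))) (cs (rf (nat_lit 9)) (cs (nd (nat_lit 276) (nat_lit 0) (cs (lf (nat_lit 11) (nat_lit 272)) (nd (nat_lit 251) (nat_lit 0) (cs (lf (nat_lit 23) (nat_lit 250)) (nd (nat_lit 298) (nat_lit 0) (cs (lf (nat_lit 5) (nat_lit 273)) (rf (nat_lit 10)))))))) (nd (nat_lit 318) (nat_lit 0) (cs (lf (nat_lit 32) (nat_lit 252)) (nd (nat_lit 297) (nat_lit 0) (cs (lf (nat_lit 39) (nat_lit 252)) (rf (nat_lit 11)))))))))) (nd (nat_lit 318) (nat_lit 0) (cs (lf (nat_lit 32) (nat_lit 252)) (nd (nat_lit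 297) (nat_lit 0) (cs (rf (nat_lit 12)) (lf (nat_lit 39) (nat_lit 252))))))))))) (cs (nd (nat_lit 318) (nat_lit 0) (cs (lf (nat_lit 32) (nat_lit 252)) (nd (nat_lit 319) (nat_lit 0) (cs (lf (nat_lit 38) (nat_lit 252)) (nd (nat_lit 320) (nat_lit 0) (cs (rf (nat_lit 13)) (cs (rf (nat_lit 14)) (cs (nd (nat_lit 317) (nat_lit 0) (cs (rf (nat_lit 15)) (rf (nat_lit 16)))) (cs (rf (nat_lit 17)) (rf (nat_lit 18))))))))))) (cs (nd (nat_lit 296) (nat_lit 0) (cs (lf (nat_lit 31) (nat_lit 252)) (nd (nat_lit 276) (nat_lit 0) (cs (nd (nat_lit 273) (nat_lit 0) (cs (rf (nat_lit 19)) (cs (rf (nat_lit 20)) (cs (rf (nat_lit 21)) (nd (nat_lit 295) (nat_lit 0) (cs (rf (nat_lit 22)) (nd (nat_lit 250) (nat_lit 0) (cs (lf (nat_lit 22) (nat_lit 250)) (nd (nat_lit 298) (nat_lit 0) (cs (lf (nat_lit 5) (nat_lit 273)) (nd (nat_lit 320) (nat_lit 0) (cs (lf (nat_lit 42) (nat_lit 253)) (nd (nat_lit 297) (nat_lit 0) (cs (lf (nat_lit 5) (nat_lit 295))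 (rf (nat_lit 23)))))))))))))))) (cs (rf (nat_lit 24)) (cs (nd (nat_lit 277) (nat_lit 0) (cs (lf (nat_lit 11) (nat_lit 273)) (rf (nat_lit 25)))) (nd (nat_lit 277) (nat_lit 0) (cs (lf (nat_lit 11) (nat_lit 273)) (rf (nat_lit 26)))))))))) (cs (nd (nat_lit 318) (nat_lit 0) (cs (lf (nat_lit 32) (nat_lit 252)) (nd (nat_lit 319) (nat_lit 0) (cs (lf (nat_lit 38) (nat_lit 252)) (nd (nat_lit 320) (nat_lit 0) (cs (rf (nat_lit 13)) (cs (rf (nat_lit 14)) (cs (rf (nat_lit 17)) (cs (rf (nat_lit 18)) (nd (nat_lit 317) (nat_lit 0) (cs (rf (nat_lit 15)) (cs (rf (nat_lit 27)) (rf (nat_lit 28)))))))))))))) (cs (rf (nat_lit 29)) (cs (rf (nat_lit 30)) (nd (nat_lit 318) (nat_lit 0) (cs (lf (nat_lit 32) (nat_lit 252)) (nd (nat_lit 319) (nat_lit 0) (cs (lf (nat_lit 38) (nat_lit 252)) (nd (nat_lit 320) (nat_lit 0) (cs (rf (nat_lit 31)) (cs (rf (nat_lit 32)) (cs (rf (nat_lit 33)) (cs (rf (nat_lit 34)) (nd (nat_lit 317) (nat_lit 0) (cs (rf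 (nat_lit 35)) (cs (rf (nat_lit 36)) (cs (rf (nat_lit 16)) (rf (nat_lit 28))))))))))))))))))))))))))) q54895 (by decide +kernel)
def q61017 : Q := Q.p (nat_lit 0x800002400000000010000000000000000000000000000000000000000000000000000) (nat_lit 0x370004fc0077f801ffe007ffe03dff0077fe039bf007bfc01e7e005ff0007fc0003e0000000000000000000000000000000000) (nat_lit 17)
theorem c61017 : QOK q61017 := cut [q58794, q58845, q58929, q59403, q59470, q59491, q59831, q59932, q59989, q60354, q60363, q60365, q60408, q60444, q60449, q60540, q60635, q58521, q59778, q59779, q59829, q60649, q60668, q56985, q59771, q59822, q59823, q54931, q58517, q58806, q60670, q60673, q60676, q60788, q60858, q60895, q60985, q61012, q15267, q58479, q25568, q58483, q58485, q58494, q56381, q58497, q58499, q58508, q58791, q58793, q58844, q59828, q58937] ⟨c58794, c58845, c58929, c59403, c59470, c59491, c59831, c59932, c59989, c60354, c60363, c60365, c60408,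 c60444, c60449, c60540, c60635, c58521, c59778, c59779, c59829, c60649, c60668, c56985, c59771, c59822, c59823, c54931, c58517, c58806, c60670, c60673, c60676, c60788, c60858, c60895, c60985, c61012, c15267, c58479, c25568, c58483, c58485, c58494, c56381, c58497, c58499, c58508, c58791, c58793, c58844, c59828, c58937, trivial⟩ (nd (nat_lit 293) (nat_lit 0) (cs (rf (nat_lit 0)) (cs (rf (nat_lit 1)) (cs (rf (nat_lit 2)) (cs (rf (nat_lit 3)) (cs (rf (nat_lit 4)) (cs (rf (nat_lit 5)) (cs (rf (nat_lit 6)) (cs (rf (nat_lit 7)) (cs (rf (nat_lit 8)) (cs (rf (nat_lit 9)) (cs (nd (nat_lit 271) (nat_lit 0) (cs (rf (nat_lit 10)) (cs (rf (nat_lit 11)) (cs (rf (nat_lit 12)) (cs (rf (nat_lit 13)) (rf (nat_lit 14))))))) (cs (rf (nat_lit 15)) (cs (rf (nat_lit 16)) (cs (nd (nat_lit 271) (nat_lit 0) (cs (rf (nat_lit 17)) (cs (rf (nat_lit 18)) (cs (rf (nat_lit 19)) (cs (rf (nat_lit 20)) (cs (rf (nat_lit 11)) (cs (rf (nat_lit 21))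 (cs (rf (nat_lit 22)) (nd (nat_lit 315) (nat_lit 0) (cs (rf (nat_lit 23)) (cs (rf (nat_lit 24)) (cs (rf (nat_lit 25)) (cs (rf (nat_lit 26)) (nd (nat_lit 249) (nat_lit 0) (cs (rf (nat_lit 27)) (cs (rf (nat_lit 28)) (cs (rf (nat_lit 29)) (nd (nat_lit 269) (nat_lit 0) (cs (rf (nat_lit 30)) (cs (nd (nat_lit 316) (nat_lit 0) (cs (lf (nat_lit 29) (nat_lit 249)) (nd (nat_lit 314) (nat_lit 0) (cs (lf (nat_lit 41) (nat_lit 248)) (rf (nat_lit 31)))))) (nd (nat_lit 316) (nat_lit 0) (cs (lf (nat_lit 29) (nat_lit 249)) (nd (nat_lit 314) (nat_lit 0) (cs (lf (nat_lit 41) (nat_lit 248)) (rf (nat_lit 32)))))))))))))))))))))))))) (cs (rf (nat_lit 33)) (cs (rf (nat_lit 34)) (cs (rf (nat_lit 35)) (cs (rf (nat_lit 36)) (cs (rf (nat_lit 37)) (cs (nd (nat_lit 251) (nat_lit 0) (cs (nd (nat_lit 273) (nat_lit 0) (cs (rf (nat_lit 38)) (cs (rf (nat_lit 39)) (nd (nat_lit 228) (nat_lit 0) (cs (rf (nat_lit 40)) (cs (rf (nat_lit 41)) (nd (nat_lit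 294) (nat_lit 0) (cs (nd (nat_lit 295) (nat_lit 0) (cs (lf (nat_lit 42) (nat_lit 228)) (nd (nat_lit 229) (nat_lit 0) (cs (lf (nat_lit 41) (nat_lit 228)) (nd (nat_lit 296) (nat_lit 0) (cs (lf (nat_lit 29) (nat_lit 229)) (rf (nat_lit 42)))))))) (cs (rf (nat_lit 43)) (cs (nd (nat_lit 295) (nat_lit 0) (cs (lf (nat_lit 42) (nat_lit 228)) (nd (nat_lit 229) (nat_lit 0) (cs (lf (nat_lit 41) (nat_lit 228)) (rf (nat_lit 44)))))) (cs (rf (nat_lit 45)) (nd (nat_lit 272) (nat_lit 0) (cs (lf (nat_lit 41) (nat_lit 227)) (nd (nat_lit 291) (nat_lit 0) (cs (lf (nat_lit 13) (nat_lit 269)) (rf (nat_lit 46))))))))))))))))) (cs (rf (nat_lit 47)) (cs (rf (nat_lit 48)) (cs (rf (nat_lit 49)) (rf (nat_lit 50))))))) (nd (nat_lit 271) (nat_lit 0) (cs (rf (nat_lit 19)) (cs (rf (nat_lit 11)) (cs (rf (nat_lit 12)) (cs (rf (nat_lit 21)) (cs (rf (nat_lit 22)) (nd (nat_lit 315) (nat_lit 0) (cs (rf (nat_lit 23)) (cs (rf (nat_lit 51)) (nd (nat_lit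 249) (nat_lit 0) (cs (lf (nat_lit 35) (nat_lit 227)) (rf (nat_lit 52)))))))))))))))))))))))))))))))))) q61017 (by decide +kernel)
def q65956 : Q := Q.p (nat_lit 0x800002400000000010000000000000000000000000000000000000000000000000000) (nat_lit 0x1fc003ff800ffe007ffc01fff01dffc037fe008bf00fffe01e7f80fffe03ffe00fff801ff8005f8000380000a0000000000000) (nat_lit 17)
theorem c65956 : QOK q65956 := cut [q62135, q62910, q63536, q63510, q63545, q63548, q63549, q63594, q63627, q63686, q63706, q62911, q63777, q63778, q44571, q62166, q63781, q63798, q63834, q63844, q64002, q63492, q64037, q64040, q64156, q63489, q63626, q63493, q64164, q64166, q64239, q64406, q64539, q64554, q64565, q64568, q63519, q57373, q64036, q60700, q63294, q46743, q63299, q63634, q57626, q63418, q64005, q64647, q64960, q64976, q65000, q65245, q65293, q65421, q65536, q65872, q65953, q64540] ⟨c62135, c62910, c63536, c63510, c63545, c63548, c63549, c63594,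 c63627, c63686, c63706, c62911, c63777, c63778, c44571, c62166, c63781, c63798, c63834, c63844, c64002, c63492, c64037, c64040, c64156, c63489, c63626, c63493, c64164, c64166, c64239, c64406, c64539, c64554, c64565, c64568, c63519, c57373, c64036, c60700, c63294, c46743, c63299, c63634, c57626, c63418, c64005, c64647, c64960, c64976, c65000, c65245, c65293, c65421, c65536, c65872, c65953, c64540, trivial⟩ (nd (nat_lit 249) (nat_lit 0) (cs (rf (nat_lit 0)) (cs (rf (nat_lit 1)) (cs (rf (nat_lit 2)) (cs (nd (nat_lit 248) (nat_lit 0) (cs (rf (nat_lit 3)) (cs (rf (nat_lit 4)) (cs (rf (nat_lit 5)) (cs (rf (nat_lit 6)) (cs (rf (nat_lit 7)) (cs (rf (nat_lit 8)) (cs (rf (nat_lit 9)) (rf (nat_lit 10)))))))))) (cs (nd (nat_lit 248) (nat_lit 0) (cs (rf (nat_lit 11)) (cs (rf (nat_lit 4)) (cs (rf (nat_lit 12)) (cs (rf (nat_lit 13)) (cs (nd (nat_lit 247) (nat_lit 0) (cs (rf (nat_lit 14)) (cs (rf (nat_lit 15)) (rf (nat_lit 16)))))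 (cs (rf (nat_lit 17)) (cs (rf (nat_lit 18)) (rf (nat_lit 19)))))))))) (cs (rf (nat_lit 20)) (cs (nd (nat_lit 248) (nat_lit 0) (cs (rf (nat_lit 21)) (cs (rf (nat_lit 19)) (cs (rf (nat_lit 22)) (rf (nat_lit 23)))))) (cs (nd (nat_lit 248) (nat_lit 0) (cs (rf (nat_lit 21)) (cs (rf (nat_lit 8)) (cs (rf (nat_lit 12)) (cs (rf (nat_lit 24)) (cs (nd (nat_lit 247) (nat_lit 0) (cs (rf (nat_lit 25)) (cs (rf (nat_lit 26)) (nd (nat_lit 228) (nat_lit 0) (cs (lf (nat_lit 17) (nat_lit 225)) (nd (nat_lit 246) (nat_lit 0) (cs (lf (nat_lit 16) (nat_lit 224)) (nd (nat_lit 267) (nat_lit 0) (cs (lf (nat_lit 10) (nat_lit 245)) (nd (nat_lit 245) (nat_lit 0) (cs (lf (nat_lit 11) (nat_lit 244)) (rf (nat_lit 27))))))))))))) (cs (rf (nat_lit 28)) (cs (rf (nat_lit 29)) (rf (nat_lit 30)))))))))) (cs (rf (nat_lit 31)) (cs (rf (nat_lit 32)) (cs (rf (nat_lit 33)) (cs (nd (nat_lit 248) (nat_lit 0) (cs (rf (nat_lit 21)) (cs (rf (nat_lit 9)) (cs (rf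 (nat_lit 18)) (cs (rf (nat_lit 24)) (cs (rf (nat_lit 28)) (cs (rf (nat_lit 29)) (cs (rf (nat_lit 30)) (rf (nat_lit 34)))))))))) (cs (rf (nat_lit 35)) (cs (nd (nat_lit 248) (nat_lit 0) (cs (rf (nat_lit 21)) (cs (rf (nat_lit 3)) (cs (rf (nat_lit 36)) (cs (rf (nat_lit 19)) (nd (nat_lit 270) (nat_lit 0) (cs (rf (nat_lit 37)) (cs (rf (nat_lit 38)) (cs (nd (nat_lit 226) (nat_lit 0) (cs (rf (nat_lit 39)) (cs (rf (nat_lit 40)) (nd (nat_lit 204) (nat_lit 0) (cs (rf (nat_lit 41)) (cs (rf (nat_lit 42)) (rf (nat_lit 43)))))))) (nd (nat_lit 292) (nat_lit 0) (cs (rf (nat_lit 44)) (cs (rf (nat_lit 45)) (cs (rf (nat_lit 46)) (nd (nat_lit 314) (nat_lit 0) (cs (lf (nat_lit 35) (nat_lit 226)) (nd (nat_lit 313) (nat_lit 0) (cs (lf (nat_lit 41) (nat_lit 247)) (nd (nat_lit 226) (nat_lit 0) (cs (lf (nat_lit 40) (nat_lit 225)) (nd (nat_lit 203) (nat_lit 0) (cs (lf (nat_lit 46) (nat_lit 203)) (nd (nat_lit 204) (nat_lit 0) (cs (lf (nat_lit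 47) (nat_lit 181)) (nd (nat_lit 271) (nat_lit 0) (cs (lf (nat_lit 24) (nat_lit 182)) (lf (nat_lit 30) (nat_lit 248))))))))))))))))))))))))))) (cs (rf (nat_lit 47)) (cs (rf (nat_lit 48)) (cs (rf (nat_lit 49)) (cs (rf (nat_lit 50)) (cs (rf (nat_lit 51)) (cs (rf (nat_lit 52)) (cs (rf (nat_lit 53)) (cs (rf (nat_lit 54)) (cs (rf (nat_lit 55)) (cs (rf (nat_lit 56)) (cs (nd (nat_lit 248) (nat_lit 0) (cs (rf (nat_lit 11)) (cs (rf (nat_lit 3)) (cs (rf (nat_lit 36)) (cs (rf (nat_lit 8)) (cs (rf (nat_lit 9)) (cs (rf (nat_lit 10)) (rf (nat_lit 22))))))))) (nd (nat_lit 248) (nat_lit 0) (cs (rf (nat_lit 11)) (cs (rf (nat_lit 4)) (cs (rf (nat_lit 19)) (cs (rf (nat_lit 57)) (rf (nat_lit 34))))))))))))))))))))))))))))))))) q65956 (by decide +kernel)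
def q72171 : Q := Q.p (nat_lit 0x800002600000000010000040000000000000000000000000000000000000000000000) (nat_lit 0xc0000fd0003fc007ff000ffe001ffc037ff0011f806f7f01e7f80ebff00014000000000000000000000000000000000000000) (nat_lit 15)
theorem c72171 : QOK q72171 := cut [q70442, q68282, q70811, q71311, q68778, q71440, q72142, q48553, q14127, q52291, q64935, q70937, q71520, q68238, q14188, q41472, q72170] ⟨c70442, c68282, c70811, c71311, c68778, c71440, c72142, c48553, c14127, c52291, c64935, c70937, c71520, c68238, c14188, c41472, c72170, trivial⟩ (nd (nat_lit 272) (nat_lit 0) (cs (rf (nat_lit 0)) (cs (nd (nat_lit 231) (nat_lit 0) (cs (lf (nat_lit 45) (nat_lit 186)) (rf (nat_lit 1)))) (cs (rf (nat_lit 2)) (cs (rf (nat_lit 3)) (cs (nd (nat_lit 231) (nat_lit 0) (cs (lf (nat_lit 45) (nat_lit 186)) (rf (nat_lit 4)))) (cs (rf (nat_lit 5)) (cs (rf (nat_lit 6)) (cs (nd (nat_lit 274) (nat_lit 0) (cs (lf (nat_lit 20) (nat_lit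 249)) (nd (nat_lit 231) (nat_lit 0) (cs (lf (nat_lit 45) (nat_lit 186)) (nd (nat_lit 294) (nat_lit 0) (cs (nd (nat_lit 252) (nat_lit 0) (cs (lf (nat_lit 26) (nat_lit 186)) (nd (nat_lit 296) (nat_lit 0) (cs (lf (nat_lit 30) (nat_lit 230)) (nd (nat_lit 293) (nat_lit 0) (cs (lf (nat_lit 14) (nat_lit 271)) (rf (nat_lit 7)))))))) (cs (nd (nat_lit 316) (nat_lit 0) (cs (rf (nat_lit 8)) (cs (rf (nat_lit 9)) (nd (nat_lit 315) (nat_lit 0) (cs (lf (nat_lit 41) (nat_lit 249)) (nd (nat_lit 230) (nat_lit 0) (cs (lf (nat_lit 27) (nat_lit 186)) (rf (nat_lit 10))))))))) (cs (nd (nat_lit 316) (nat_lit 0) (cs (rf (nat_lit 8)) (cs (rf (nat_lit 9)) (cs (rf (nat_lit 11)) (nd (nat_lit 293) (nat_lit 0) (cs (rf (nat_lit 7)) (rf (nat_lit 12)))))))) (cs (nd (nat_lit 316) (nat_lit 0) (cs (rf (nat_lit 8)) (cs (rf (nat_lit 9)) (nd (nat_lit 315) (nat_lit 0) (cs (lf (nat_lit 41) (nat_lit 249)) (nd (nat_lit 317) (nat_lit 0) (cs (lf (nat_lit 29)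 (nat_lit 250)) (rf (nat_lit 13))))))))) (cs (nd (nat_lit 252) (nat_lit 0) (cs (lf (nat_lit 26) (nat_lit 186)) (nd (nat_lit 296) (nat_lit 0) (cs (lf (nat_lit 30) (nat_lit 230)) (nd (nat_lit 295) (nat_lit 0) (cs (lf (nat_lit 12) (nat_lit 271)) (nd (nat_lit 276) (nat_lit 0) (cs (lf (nat_lit 6) (nat_lit 273)) (rf (nat_lit 14)))))))))) (nd (nat_lit 316) (nat_lit 0) (cs (rf (nat_lit 8)) (cs (rf (nat_lit 15)) (rf (nat_lit 9))))))))))))))) (rf (nat_lit 16))))))))))) q72171 (by decide +kernel)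
def q75205 : Q := Q.p (nat_lit 0x880002600000000010000040000000000000000000000000000000000000000000000) (nat_lit 0x1200007e0001ff0007fc003ff001ffc0007f0011fc0eeff01e7fc0ebff0005f80007e000020000000000000000000000000000) (nat_lit 14)
theorem c75205 : QOK q75205 := cut [q74163, q74694, q73554, q73873, q74699, q74702, q74706, q74709, q72584, q75072, q75089, q69992, q70734, q45697, q47395, q74600, q73401, q50957, q73407, q75102, q75124, q75147, q75192, q73875, q75193, q70733, q73406, q73409] ⟨c74163, c74694, c73554, c73873, c74699, c74702, c74706, c74709, c72584, c75072, c75089, c69992, c70734, c45697, c47395, c74600, c73401, c50957, c73407, c75102, c75124, c75147, c75192, c73875, c75193, c70733, c73406, c73409, trivial⟩ (nd (nat_lit 268) (nat_lit 0) (cs (rf (nat_lit 0)) (cs (rf (nat_lit 1)) (cs (nd (nat_lit 293) (nat_lit 0) (cs (rf (nat_lit 2)) (cs (rf (nat_lit 3)) (cs (rf (nat_lit 4)) (cs (rf (nat_lit 5)) (nd (nat_lit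 314) (nat_lit 0) (cs (rf (nat_lit 6)) (cs (nd (nat_lit 269) (nat_lit 0) (cs (lf (nat_lit 14) (nat_lit 246)) (rf (nat_lit 7)))) (nd (nat_lit 209) (nat_lit 0) (cs (lf (nat_lit 44) (nat_lit 186)) (nd (nat_lit 315) (nat_lit 0) (cs (lf (nat_lit 41) (nat_lit 248)) (nd (nat_lit 270) (nat_lit 0) (cs (lf (nat_lit 13) (nat_lit 246)) (nd (nat_lit 316) (nat_lit 0) (cs (lf (nat_lit 29) (nat_lit 249)) (nd (nat_lit 230) (nat_lit 0) (cs (lf (nat_lit 27) (nat_lit 186)) (rf (nat_lit 8)))))))))))))))))))) (cs (rf (nat_lit 9)) (cs (rf (nat_lit 10)) (cs (nd (nat_lit 269) (nat_lit 0) (cs (lf (nat_lit 14) (nat_lit 246)) (nd (nat_lit 247) (nat_lit 0) (cs (lf (nat_lit 8) (nat_lit 246)) (nd (nat_lit 290) (nat_lit 0) (cs (rf (nat_lit 11)) (cs (rf (nat_lit 12)) (cs (nd (nat_lit 225) (nat_lit 0) (cs (lf (nat_lit 36) (nat_lit 202)) (nd (nat_lit 224) (nat_lit 0) (cs (rf (nat_lit 13)) (cs (rf (nat_lit 14)) (cs (nd (nat_lit 230) (nat_lit 0) (cs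 (lf (nat_lit 27) (nat_lit 186)) (nd (nat_lit 226) (nat_lit 0) (cs (lf (nat_lit 3) (nat_lit 224)) (nd (nat_lit 204) (nat_lit 0) (cs (lf (nat_lit 30) (nat_lit 203)) (nd (nat_lit 223) (nat_lit 0) (cs (lf (nat_lit 17) (nat_lit 201)) (nd (nat_lit 201) (nat_lit 0) (cs (lf (nat_lit 23) (nat_lit 200)) (lf (nat_lit 44) (nat_lit 201)))))))))))) (nd (nat_lit 246) (nat_lit 0) (cs (rf (nat_lit 15)) (nd (nat_lit 226) (nat_lit 0) (cs (lf (nat_lit 3) (nat_lit 224)) (nd (nat_lit 244) (nat_lit 0) (cs (lf (nat_lit 13) (nat_lit 222)) (rf (nat_lit 16)))))))))))))) (nd (nat_lit 312) (nat_lit 0) (cs (lf (nat_lit 30) (nat_lit 246)) (nd (nat_lit 246) (nat_lit 0) (cs (rf (nat_lit 17)) (cs (rf (nat_lit 18)) (rf (nat_lit 19))))))))))))))) (cs (rf (nat_lit 20)) (cs (rf (nat_lit 21)) (cs (rf (nat_lit 22)) (cs (nd (nat_lit 293) (nat_lit 0) (cs (rf (nat_lit 2)) (cs (rf (nat_lit 3)) (cs (rf (nat_lit 4)) (cs (rf (nat_lit 5)) (nd (nat_lit 292) (nat_lit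 0) (cs (rf (nat_lit 23)) (nd (nat_lit 230) (nat_lit 0) (cs (lf (nat_lit 27) (nat_lit 186)) (nd (nat_lit 269) (nat_lit 0) (cs (lf (nat_lit 14) (nat_lit 246)) (nd (nat_lit 247) (nat_lit 0) (cs (lf (nat_lit 8) (nat_lit 246)) (rf (nat_lit 24))))))))))))))) (nd (nat_lit 209) (nat_lit 0) (cs (lf (nat_lit 44) (nat_lit 186)) (nd (nat_lit 269) (nat_lit 0) (cs (lf (nat_lit 14) (nat_lit 246)) (nd (nat_lit 247) (nat_lit 0) (cs (lf (nat_lit 8) (nat_lit 246)) (nd (nat_lit 290) (nat_lit 0) (cs (rf (nat_lit 11)) (cs (rf (nat_lit 25)) (cs (rf (nat_lit 26)) (nd (nat_lit 312) (nat_lit 0) (cs (lf (nat_lit 30) (nat_lit 246)) (nd (nat_lit 246) (nat_lit 0) (cs (rf (nat_lit 17)) (cs (rf (nat_lit 27)) (rf (nat_lit 19)))))))))))))))))))))))))))) q75205 (by decide +kernel)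
def q82178 : Q := Q.p (nat_lit 0x2000000000000000000000000000000000000000000000000000000000000000) (nat_lit 0x6a0003fc000ff0003fe007ffe00fdf007ffe01ffe003ffc007fe000ff00017000008000000000000000000000000) (nat_lit 20)
theorem c82178 : QOK q82178 := cut [q79956, q80389, q79229, q79233, q80430, q80454, q80465, q80466, q80509, q80529, q80543, q80559, q80563, q80564, q80417, q80425, q80574, q80577, q80580, q80607, q80610, q80625, q79210, q79217, q80704, q80969, q81051, q81314, q81496, q81635, q81754, q81877, q81989, q82081, q82165, q80702, q81072, q81178, q81988, q82167, q81514, q81555, q79257, q81411, q81764, q79587, q81413, q81447, q82169, q81908, q80703, q82175, q82097] ⟨c79956, c80389, c79229, c79233, c80430, c80454, c80465, c80466, c80509, c80529, c80543, c80559, c80563, c80564, c80417, c80425, c80574, c80577, c80580, c80607, c80610, c80625, c79210, c79217, c80704, c80969, c81051, c81314, c81496, c81635, c81754,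 c81877, c81989, c82081, c82165, c80702, c81072, c81178, c81988, c82167, c81514, c81555, c79257, c81411, c81764, c79587, c81413, c81447, c82169, c81908, c80703, c82175, c82097, trivial⟩ (nd (nat_lit 254) (nat_lit 0) (cs (rf (nat_lit 0)) (cs (rf (nat_lit 1)) (cs (nd (nat_lit 252) (nat_lit 0) (cs (rf (nat_lit 2)) (cs (rf (nat_lit 3)) (cs (rf (nat_lit 4)) (cs (rf (nat_lit 5)) (cs (rf (nat_lit 6)) (rf (nat_lit 7)))))))) (cs (nd (nat_lit 255) (nat_lit 0) (cs (rf (nat_lit 8)) (cs (rf (nat_lit 9)) (cs (rf (nat_lit 10)) (cs (rf (nat_lit 11)) (cs (rf (nat_lit 12)) (rf (nat_lit 13)))))))) (cs (nd (nat_lit 252) (nat_lit 0) (cs (rf (nat_lit 6)) (cs (rf (nat_lit 7)) (cs (nd (nat_lit 255) (nat_lit 0) (cs (rf (nat_lit 14)) (cs (rf (nat_lit 15)) (cs (rf (nat_lit 16)) (cs (rf (nat_lit 17)) (rf (nat_lit 18))))))) (cs (rf (nat_lit 19)) (cs (rf (nat_lit 20)) (cs (rf (nat_lit 21)) (nd (nat_lit 255) (nat_lit 0) (cs (rf (nat_lit 22))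 (cs (rf (nat_lit 23)) (rf (nat_lit 15)))))))))))) (cs (rf (nat_lit 24)) (cs (rf (nat_lit 25)) (cs (rf (nat_lit 26)) (cs (rf (nat_lit 27)) (cs (rf (nat_lit 28)) (cs (rf (nat_lit 29)) (cs (rf (nat_lit 30)) (cs (rf (nat_lit 31)) (cs (rf (nat_lit 32)) (cs (rf (nat_lit 33)) (cs (rf (nat_lit 34)) (cs (nd (nat_lit 255) (nat_lit 0) (cs (rf (nat_lit 8)) (cs (rf (nat_lit 12)) (cs (rf (nat_lit 35)) (cs (rf (nat_lit 36)) (cs (rf (nat_lit 37)) (rf (nat_lit 38)))))))) (cs (rf (nat_lit 39)) (cs (nd (nat_lit 255) (nat_lit 0) (cs (rf (nat_lit 8)) (cs (rf (nat_lit 12)) (cs (rf (nat_lit 35)) (cs (rf (nat_lit 37)) (cs (rf (nat_lit 40)) (rf (nat_lit 41)))))))) (cs (nd (nat_lit 252) (nat_lit 0) (cs (rf (nat_lit 2)) (cs (rf (nat_lit 3)) (cs (rf (nat_lit 42)) (cs (rf (nat_lit 4)) (cs (rf (nat_lit 6)) (nd (nat_lit 276) (nat_lit 0) (cs (rf (nat_lit 43)) (cs (rf (nat_lit 44)) (nd (nat_lit 298) (nat_lit 0) (cs (rf (nat_lit 45)) (cs (rf (nat_lit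 46)) (cs (rf (nat_lit 47)) (rf (nat_lit 48))))))))))))))) (cs (nd (nat_lit 255) (nat_lit 0) (cs (rf (nat_lit 9)) (cs (rf (nat_lit 10)) (cs (rf (nat_lit 11)) (cs (rf (nat_lit 12)) (cs (rf (nat_lit 13)) (rf (nat_lit 49)))))))) (cs (nd (nat_lit 255) (nat_lit 0) (cs (rf (nat_lit 8)) (cs (rf (nat_lit 10)) (cs (rf (nat_lit 12)) (cs (rf (nat_lit 50)) (rf (nat_lit 51))))))) (nd (nat_lit 255) (nat_lit 0) (cs (rf (nat_lit 10)) (cs (rf (nat_lit 12)) (cs (rf (nat_lit 52)) (rf (nat_lit 51))))))))))))))))))))))))))))) q82178 (by decide +kernel)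
def q83692 : Q := Q.p (nat_lit 0x3000000000000000000000000000000000000000000000000000000000000000) (nat_lit 0xa0002f8000ff8003fe007ffc00ffe001ffc00eff003cf801fbf001ffe007ff001ffc003fe000ff0003bc00005000000000000000000) (nat_lit 19)
theorem c83692 : QOK q83692 := cut [q82195, q82233, q82580, q82584, q82592, q82232, q82659, q82719, q83609, q83617, q83618, q79013, q83611, q79471, q81878, q79467, q83621, q83627, q83650, q2623, q40773, q83658, q83665, q82663, q82665, q83666, q20365, q83671, q83684, q40738, q82256, q82387, q83686] ⟨c82195, c82233, c82580, c82584, c82592, c82232, c82659, c82719, c83609, c83617, c83618, c79013, c83611, c79471, c81878, c79467, c83621, c83627, c83650, c2623, c40773, c83658, c83665, c82663, c82665, c83666, c20365, c83671, c83684, c40738, c82256, c82387, c83686, trivial⟩ (nd (nat_lit 251) (nat_lit 0) (cs (rf (nat_lit 0)) (cs (nd (nat_lit 273) (nat_lit 0) (cs (rf (nat_lit 1)) (cs (rf (nat_lit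 2)) (cs (nd (nat_lit 229) (nat_lit 0) (cs (rf (nat_lit 3)) (cs (rf (nat_lit 4)) (nd (nat_lit 254) (nat_lit 0) (cs (lf (nat_lit 23) (nat_lit 228)) (rf (nat_lit 5))))))) (rf (nat_lit 6)))))) (cs (rf (nat_lit 7)) (cs (rf (nat_lit 8)) (cs (rf (nat_lit 9)) (cs (rf (nat_lit 10)) (cs (nd (nat_lit 254) (nat_lit 0) (cs (rf (nat_lit 11)) (cs (rf (nat_lit 12)) (cs (nd (nat_lit 232) (nat_lit 0) (cs (lf (nat_lit 17) (nat_lit 229)) (nd (nat_lit 231) (nat_lit 0) (cs (lf (nat_lit 12) (nat_lit 228)) (nd (nat_lit 275) (nat_lit 0) (cs (rf (nat_lit 13)) (cs (rf (nat_lit 14)) (nd (nat_lit 209) (nat_lit 0) (cs (rf (nat_lit 15)) (cs (nd (nat_lit 210) (nat_lit 0) (cs (lf (nat_lit 36) (nat_lit 187)) (nd (nat_lit 274) (nat_lit 0) (cs (lf (nat_lit 41) (nat_lit 208)) (nd (nat_lit 255) (nat_lit 0) (cs (lf (nat_lit 6) (nat_lit 252)) (nd (nat_lit 277) (nat_lit 0) (cs (lf (nat_lit 5) (nat_lit 252)) (nd (nat_lit 299) (nat_lit 0) (cs (lf (nat_lit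 42) (nat_lit 232)) (rf (nat_lit 16)))))))))))) (rf (nat_lit 17)))))))))))) (rf (nat_lit 18)))))) (cs (nd (nat_lit 250) (nat_lit 0) (cs (rf (nat_lit 19)) (cs (rf (nat_lit 20)) (cs (rf (nat_lit 21)) (cs (rf (nat_lit 22)) (nd (nat_lit 274) (nat_lit 0) (cs (rf (nat_lit 23)) (cs (rf (nat_lit 24)) (nd (nat_lit 229) (nat_lit 0) (cs (rf (nat_lit 25)) (cs (nd (nat_lit 296) (nat_lit 0) (cs (lf (nat_lit 42) (nat_lit 229)) (nd (nat_lit 271) (nat_lit 0) (cs (lf (nat_lit 10) (nat_lit 249)) (nd (nat_lit 249) (nat_lit 0) (cs (lf (nat_lit 11) (nat_lit 248)) (nd (nat_lit 248) (nat_lit 0) (cs (lf (nat_lit 4) (nat_lit 248)) (rf (nat_lit 26)))))))))) (nd (nat_lit 272) (nat_lit 0) (cs (lf (nat_lit 11) (nat_lit 249)) (rf (nat_lit 27))))))))))))))) (cs (rf (nat_lit 28)) (nd (nat_lit 250) (nat_lit 0) (cs (rf (nat_lit 29)) (cs (rf (nat_lit 20)) (cs (rf (nat_lit 30)) (cs (rf (nat_lit 31)) (nd (nat_lit 271) (nat_lit 0) (cs (lf (nat_lit 10)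 (nat_lit 249)) (nd (nat_lit 249) (nat_lit 0) (cs (lf (nat_lit 11) (nat_lit 248)) (nd (nat_lit 274) (nat_lit 0) (cs (lf (nat_lit 5) (nat_lit 249)) (nd (nat_lit 273) (nat_lit 0) (cs (lf (nat_lit 0) (nat_lit 248)) (rf (nat_lit 32))))))))))))))))))))))))) q83692 (by decide +kernel)
def q92237 : Q := Q.p (nat_lit 0x2000000000000000000000000000000000000000000000000000000000000000) (nat_lit 0xc0001fa000ff8007ff003fff007ff803fff0015f803fff00fff801ffe003ff0007f8001d800044000000000000000000000000) (nat_lit 20)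
theorem c92237 : QOK q92237 := cut [q89657, q89690, q89691, q89695, q89753, q89757, q1999, q89735, q89797, q89819, q89827, q89840, q89991, q90149, q90256, q90569, q90749, q90867, q90965, q91080, q91141, q91205, q91238, q91303, q91449, q91561, q91616, q91666, q91674, q91680, q91685, q91778, q90323, q84112, q87228, q90319, q91783, q91786, q91788, q91794, q91796, q91813, q91831, q91832, q91833, q91834, q91852, q91861, q91881, q92142, q90576, q90633, q90735, q90775, q90828, q90829, q90831, q90856, q90864, q91236, q2091, q15386, q88741, q82198, q89664, q89672, q5482, q11484, q80450, q90221, q89861, q90144, q90246, q82275, q91441, q91896, q15387, q91174, q91591, q92151, q92236] ⟨c89657, c89690, c89691, c89695, c89753, c89757, c1999, c89735, c89797, c89819, c89827, c89840, c89991, c90149, c90256, c90569, c90749, c90867, c90965, c91080, c91141, c91205, c91238, c91303, c91449, c91561, c91616, c91666, c91674, c91680, c91685,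 c91778, c90323, c84112, c87228, c90319, c91783, c91786, c91788, c91794, c91796, c91813, c91831, c91832, c91833, c91834, c91852, c91861, c91881, c92142, c90576, c90633, c90735, c90775, c90828, c90829, c90831, c90856, c90864, c91236, c2091, c15386, c88741, c82198, c89664, c89672, c5482, c11484, c80450, c90221, c89861, c90144, c90246, c82275, c91441, c91896, c15387, c91174, c91591, c92151, c92236, trivial⟩ (nd (nat_lit 252) (nat_lit 0) (cs (rf (nat_lit 0)) (cs (nd (nat_lit 251) (nat_lit 0) (cs (rf (nat_lit 1)) (cs (rf (nat_lit 2)) (cs (rf (nat_lit 3)) (cs (rf (nat_lit 4)) (cs (rf (nat_lit 5)) (cs (nd (nat_lit 275) (nat_lit 0) (cs (rf (nat_lit 6)) (cs (rf (nat_lit 7)) (cs (rf (nat_lit 8)) (rf (nat_lit 9)))))) (cs (rf (nat_lit 10)) (rf (nat_lit 11)))))))))) (cs (rf (nat_lit 12)) (cs (rf (nat_lit 13)) (cs (rf (nat_lit 14)) (cs (rf (nat_lit 15)) (cs (rf (nat_lit 16)) (cs (rf (nat_lit 17)) (cs (rf (nat_lit 18)) (cs (rf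 (nat_lit 19)) (cs (rf (nat_lit 20)) (cs (rf (nat_lit 21)) (cs (rf (nat_lit 22)) (cs (rf (nat_lit 23)) (cs (rf (nat_lit 24)) (cs (rf (nat_lit 25)) (cs (rf (nat_lit 26)) (cs (nd (nat_lit 274) (nat_lit 0) (cs (rf (nat_lit 27)) (cs (rf (nat_lit 28)) (cs (rf (nat_lit 29)) (cs (rf (nat_lit 30)) (cs (rf (nat_lit 31)) (cs (nd (nat_lit 273) (nat_lit 0) (cs (rf (nat_lit 32)) (cs (nd (nat_lit 230) (nat_lit 0) (cs (rf (nat_lit 33)) (nd (nat_lit 229) (nat_lit 0) (cs (rf (nat_lit 34)) (rf (nat_lit 35)))))) (cs (rf (nat_lit 36)) (cs (rf (nat_lit 37)) (rf (nat_lit 38))))))) (cs (rf (nat_lit 39)) (cs (rf (nat_lit 40)) (cs (rf (nat_lit 41)) (cs (rf (nat_lit 42)) (cs (rf (nat_lit 43)) (cs (rf (nat_lit 44)) (rf (nat_lit 45))))))))))))))) (cs (rf (nat_lit 46)) (cs (rf (nat_lit 47)) (cs (rf (nat_lit 48)) (cs (rf (nat_lit 49)) (cs (nd (nat_lit 275) (nat_lit 0) (cs (rf (nat_lit 50)) (cs (rf (nat_lit 51)) (cs (rf (nat_lit 52)) (cs (rf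 (nat_lit 53)) (cs (rf (nat_lit 54)) (cs (rf (nat_lit 55)) (cs (rf (nat_lit 56)) (cs (rf (nat_lit 57)) (cs (rf (nat_lit 58)) (cs (rf (nat_lit 59)) (nd (nat_lit 251) (nat_lit 0) (cs (rf (nat_lit 60)) (cs (rf (nat_lit 7)) (cs (rf (nat_lit 11)) (nd (nat_lit 276) (nat_lit 0) (cs (rf (nat_lit 61)) (cs (rf (nat_lit 62)) (nd (nat_lit 229) (nat_lit 0) (cs (rf (nat_lit 63)) (cs (rf (nat_lit 64)) (cs (rf (nat_lit 65)) (nd (nat_lit 207) (nat_lit 0) (cs (rf (nat_lit 66)) (cs (rf (nat_lit 67)) (cs (rf (nat_lit 68)) (rf (nat_lit 69)))))))))))))))))))))))))))) (cs (nd (nat_lit 251) (nat_lit 0) (cs (rf (nat_lit 1)) (cs (rf (nat_lit 70)) (cs (rf (nat_lit 71)) (cs (rf (nat_lit 72)) (nd (nat_lit 231) (nat_lit 0) (cs (rf (nat_lit 73)) (cs (rf (nat_lit 74)) (cs (rf (nat_lit 75)) (nd (nat_lit 275) (nat_lit 0) (cs (rf (nat_lit 76)) (cs (rf (nat_lit 77)) (rf (nat_lit 78)))))))))))))) (cs (rf (nat_lit 79)) (rf (nat_lit 80))))))))))))))))))))))))))))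 q92237 (by decide +kernel)
def q96230 : Q := Q.p (nat_lit 0x2000000000000000000000000000000000000000000000000000000000000000) (nat_lit 0x1080007e0007ff001ff803fff00fff803fff01dff007dfc03fff00ffff01fff80ffff00ffe0007f80007e00005800000000000000000) (nat_lit 20)
theorem c96230 : QOK q96230 := cut [q92609, q92702, q93284, q93548, q93914, q94048, q94158, q94554, q94704, q89928, q92592, q92600, q92601, q92608, q94712, q94950, q95197, q95384, q95459, q95550, q93525, q94047, q23543, q40546, q92591, q95553, q82275, q94839, q95560, q94647, q95561, q84557, q93008, q95564, q85549, q93524, q95569, q79256, q92334, q81672, q78662, q95588, q95650, q95777, q95871, q93915, q93921, q93976, q94046, q95939, q82277, q40738, q96078, q93727, q93912, q94053, q94061, q94113, q94157, q95260, q95276, q95320, q95342, q96106, q96229] ⟨c92609, c92702, c93284, c93548, c93914, c94048, c94158, c94554, c94704, c89928, c92592, c92600, c92601, c92608,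 c94712, c94950, c95197, c95384, c95459, c95550, c93525, c94047, c23543, c40546, c92591, c95553, c82275, c94839, c95560, c94647, c95561, c84557, c93008, c95564, c85549, c93524, c95569, c79256, c92334, c81672, c78662, c95588, c95650, c95777, c95871, c93915, c93921, c93976, c94046, c95939, c82277, c40738, c96078, c93727, c93912, c94053, c94061, c94113, c94157, c95260, c95276, c95320, c95342, c96106, c96229, trivial⟩ (nd (nat_lit 252) (nat_lit 0) (cs (rf (nat_lit 0)) (cs (rf (nat_lit 1)) (cs (rf (nat_lit 2)) (cs (rf (nat_lit 3)) (cs (rf (nat_lit 4)) (cs (rf (nat_lit 5)) (cs (rf (nat_lit 6)) (cs (rf (nat_lit 7)) (cs (rf (nat_lit 8)) (cs (nd (nat_lit 251) (nat_lit 0) (cs (rf (nat_lit 9)) (cs (rf (nat_lit 10)) (cs (rf (nat_lit 11)) (cs (rf (nat_lit 12)) (cs (rf (nat_lit 13)) (rf (nat_lit 14)))))))) (cs (rf (nat_lit 15)) (cs (rf (nat_lit 16)) (cs (rf (nat_lit 17)) (cs (rf (nat_lit 18)) (cs (rf (nat_lit 19)) (cs (nd (nat_lit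 251) (nat_lit 0) (cs (rf (nat_lit 12)) (cs (rf (nat_lit 20)) (cs (rf (nat_lit 21)) (cs (rf (nat_lit 14)) (cs (nd (nat_lit 250) (nat_lit 0) (cs (rf (nat_lit 22)) (cs (rf (nat_lit 23)) (cs (rf (nat_lit 24)) (nd (nat_lit 271) (nat_lit 0) (cs (lf (nat_lit 10) (nat_lit 249)) (nd (nat_lit 275) (nat_lit 0) (cs (lf (nat_lit 5) (nat_lit 250)) (nd (nat_lit 232) (nat_lit 0) (cs (lf (nat_lit 16) (nat_lit 228)) (nd (nat_lit 254) (nat_lit 0) (cs (lf (nat_lit 17) (nat_lit 229)) (nd (nat_lit 297) (nat_lit 0) (cs (lf (nat_lit 30) (nat_lit 231)) (rf (nat_lit 25)))))))))))))))) (cs (nd (nat_lit 231) (nat_lit 0) (cs (rf (nat_lit 26)) (cs (rf (nat_lit 27)) (cs (rf (nat_lit 28)) (nd (nat_lit 275) (nat_lit 0) (cs (rf (nat_lit 29)) (cs (rf (nat_lit 30)) (nd (nat_lit 297) (nat_lit 0) (cs (rf (nat_lit 31)) (cs (rf (nat_lit 32)) (rf (nat_lit 33)))))))))))) (cs (nd (nat_lit 250) (nat_lit 0) (cs (rf (nat_lit 23)) (cs (rf (nat_lit 34)) (cs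 (rf (nat_lit 35)) (rf (nat_lit 36)))))) (nd (nat_lit 254) (nat_lit 0) (cs (rf (nat_lit 37)) (cs (rf (nat_lit 38)) (cs (nd (nat_lit 232) (nat_lit 0) (cs (lf (nat_lit 17) (nat_lit 229)) (nd (nat_lit 250) (nat_lit 0) (cs (lf (nat_lit 16) (nat_lit 228)) (nd (nat_lit 275) (nat_lit 0) (cs (lf (nat_lit 5) (nat_lit 250)) (nd (nat_lit 297) (nat_lit 0) (cs (lf (nat_lit 30) (nat_lit 231)) (nd (nat_lit 188) (nat_lit 0) (cs (lf (nat_lit 37) (nat_lit 187)) (rf (nat_lit 39)))))))))))) (cs (nd (nat_lit 229) (nat_lit 0) (cs (lf (nat_lit 23) (nat_lit 228)) (nd (nat_lit 232) (nat_lit 0) (cs (lf (nat_lit 17) (nat_lit 229)) (nd (nat_lit 250) (nat_lit 0) (cs (lf (nat_lit 16) (nat_lit 228)) (nd (nat_lit 275) (nat_lit 0) (cs (lf (nat_lit 5) (nat_lit 250)) (nd (nat_lit 249) (nat_lit 0) (cs (lf (nat_lit 4) (nat_lit 249)) (rf (nat_lit 40)))))))))))) (rf (nat_lit 41))))))))))))))) (cs (rf (nat_lit 42)) (cs (rf (nat_lit 43)) (cs (rf (nat_lit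 44)) (cs (nd (nat_lit 251) (nat_lit 0) (cs (rf (nat_lit 9)) (cs (rf (nat_lit 45)) (cs (rf (nat_lit 46)) (cs (rf (nat_lit 47)) (cs (rf (nat_lit 48)) (cs (rf (nat_lit 14)) (cs (rf (nat_lit 49)) (nd (nat_lit 232) (nat_lit 0) (cs (nd (nat_lit 231) (nat_lit 0) (cs (lf (nat_lit 12) (nat_lit 228)) (rf (nat_lit 50)))) (cs (nd (nat_lit 254) (nat_lit 0) (cs (lf (nat_lit 17) (nat_lit 229)) (rf (nat_lit 41)))) (nd (nat_lit 250) (nat_lit 0) (cs (lf (nat_lit 16) (nat_lit 228)) (rf (nat_lit 51))))))))))))))) (cs (rf (nat_lit 52)) (cs (nd (nat_lit 230) (nat_lit 0) (cs (rf (nat_lit 53)) (cs (rf (nat_lit 54)) (cs (rf (nat_lit 55)) (cs (rf (nat_lit 56)) (cs (rf (nat_lit 57)) (cs (rf (nat_lit 58)) (cs (rf (nat_lit 59)) (cs (rf (nat_lit 60)) (cs (rf (nat_lit 61)) (rf (nat_lit 62)))))))))))) (cs (rf (nat_lit 63)) (rf (nat_lit 64)))))))))))))))))))))))))) q96230 (by decide +kernel)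
def q98313 : Q := Q.p (nat_lit 0x2000000000000000000000000000000000000000000000000000000000000000) (nat_lit 0x400001c00007c0005fc0077e001ffc00fdf003ffe00fff801ffe003ff0003f0000fc00015000000000000000000000000) (nat_lit 20)
theorem c98313 : QOK q98313 := cut [q96653, q96308, q96680, q96693, q96694, q96698, q96312, q96314, q96655, q96755, q97234, q96337, q96725, q3443, q96676, q97237, q97238, q97241, q97242, q97297, q97529, q97783, q97808, q97915, q97593, q97951, q97967, q97968, q94775, q96730, q97872, q97971, q97976, q96728, q97286, q97978, q98062, q97578, q97669, q96310, q97969, q98068, q97263, q97264, q97912, q98073, q91300, q96751, q98075, q98083, q84386, q84392, q84607, q96747, q96750, q1568, q96335, q98118, q98119, q98180, q97588, q98179, q98284, q96323, q96333, q97832, q98312] ⟨c96653, c96308, c96680, c96693, c96694, c96698, c96312, c96314, c96655, c96755, c97234, c96337, c96725, c3443, c96676, c97237, c97238,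 c97241, c97242, c97297, c97529, c97783, c97808, c97915, c97593, c97951, c97967, c97968, c94775, c96730, c97872, c97971, c97976, c96728, c97286, c97978, c98062, c97578, c97669, c96310, c97969, c98068, c97263, c97264, c97912, c98073, c91300, c96751, c98075, c98083, c84386, c84392, c84607, c96747, c96750, c1568, c96335, c98118, c98119, c98180, c97588, c98179, c98284, c96323, c96333, c97832, c98312, trivial⟩ (nd (nat_lit 231) (nat_lit 0) (cs (rf (nat_lit 0)) (cs (nd (nat_lit 209) (nat_lit 0) (cs (rf (nat_lit 1)) (cs (rf (nat_lit 2)) (cs (rf (nat_lit 3)) (cs (rf (nat_lit 4)) (cs (rf (nat_lit 5)) (nd (nat_lit 275) (nat_lit 0) (cs (rf (nat_lit 6)) (cs (rf (nat_lit 7)) (rf (nat_lit 8))))))))))) (cs (rf (nat_lit 9)) (cs (rf (nat_lit 10)) (cs (nd (nat_lit 209) (nat_lit 0) (cs (rf (nat_lit 11)) (cs (rf (nat_lit 4)) (cs (rf (nat_lit 12)) (cs (nd (nat_lit 275) (nat_lit 0) (cs (rf (nat_lit 13)) (cs (rf (nat_lit 14)) (cs (rf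 (nat_lit 15)) (nd (nat_lit 188) (nat_lit 0) (cs (lf (nat_lit 34) (nat_lit 187)) (rf (nat_lit 16)))))))) (cs (rf (nat_lit 17)) (rf (nat_lit 18)))))))) (cs (rf (nat_lit 19)) (cs (rf (nat_lit 20)) (cs (rf (nat_lit 21)) (cs (rf (nat_lit 22)) (cs (rf (nat_lit 23)) (cs (nd (nat_lit 275) (nat_lit 0) (cs (rf (nat_lit 24)) (cs (rf (nat_lit 25)) (cs (rf (nat_lit 26)) (cs (rf (nat_lit 27)) (cs (nd (nat_lit 209) (nat_lit 0) (cs (rf (nat_lit 28)) (cs (rf (nat_lit 29)) (cs (rf (nat_lit 16)) (cs (rf (nat_lit 30)) (rf (nat_lit 31))))))) (cs (rf (nat_lit 32)) (nd (nat_lit 297) (nat_lit 0) (cs (rf (nat_lit 33)) (cs (rf (nat_lit 34)) (rf (nat_lit 35)))))))))))) (cs (rf (nat_lit 36)) (cs (nd (nat_lit 275) (nat_lit 0) (cs (rf (nat_lit 37)) (cs (rf (nat_lit 24)) (cs (rf (nat_lit 38)) (cs (rf (nat_lit 27)) (cs (nd (nat_lit 209) (nat_lit 0) (cs (rf (nat_lit 39)) (cs (rf (nat_lit 29)) (cs (rf (nat_lit 16)) (nd (nat_lit 188) (nat_lit 0)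 (cs (lf (nat_lit 34) (nat_lit 187)) (nd (nat_lit 186) (nat_lit 0) (cs (lf (nat_lit 46) (nat_lit 186)) (nd (nat_lit 187) (nat_lit 0) (cs (lf (nat_lit 35) (nat_lit 165)) (rf (nat_lit 40)))))))))))) (rf (nat_lit 41)))))))) (cs (nd (nat_lit 209) (nat_lit 0) (cs (rf (nat_lit 5)) (cs (rf (nat_lit 42)) (cs (rf (nat_lit 43)) (cs (rf (nat_lit 44)) (cs (rf (nat_lit 45)) (cs (nd (nat_lit 186) (nat_lit 0) (cs (rf (nat_lit 46)) (cs (rf (nat_lit 47)) (rf (nat_lit 48))))) (cs (rf (nat_lit 49)) (cs (nd (nat_lit 187) (nat_lit 0) (cs (rf (nat_lit 50)) (cs (rf (nat_lit 51)) (cs (rf (nat_lit 52)) (cs (rf (nat_lit 53)) (rf (nat_lit 54))))))) (nd (nat_lit 187) (nat_lit 0) (cs (rf (nat_lit 55)) (cs (rf (nat_lit 56)) (rf (nat_lit 54)))))))))))))) (cs (rf (nat_lit 57)) (cs (rf (nat_lit 58)) (cs (rf (nat_lit 59)) (cs (nd (nat_lit 275) (nat_lit 0) (cs (rf (nat_lit 60)) (cs (rf (nat_lit 24)) (cs (rf (nat_lit 25)) (cs (rf (nat_lit 26)) (cs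 (rf (nat_lit 27)) (cs (rf (nat_lit 61)) (nd (nat_lit 209) (nat_lit 0) (cs (rf (nat_lit 28)) (cs (rf (nat_lit 8)) (cs (rf (nat_lit 29)) (rf (nat_lit 31))))))))))))) (cs (rf (nat_lit 62)) (cs (nd (nat_lit 209) (nat_lit 0) (cs (rf (nat_lit 1)) (cs (rf (nat_lit 63)) (cs (rf (nat_lit 11)) (cs (rf (nat_lit 3)) (cs (rf (nat_lit 4)) (rf (nat_lit 45)))))))) (cs (nd (nat_lit 209) (nat_lit 0) (cs (rf (nat_lit 1)) (cs (rf (nat_lit 64)) (cs (rf (nat_lit 11)) (cs (rf (nat_lit 2)) (rf (nat_lit 65))))))) (rf (nat_lit 66)))))))))))))))))))))))) q98313 (by decide +kernel)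
def q98784 : Q := Q.p (nat_lit 0x800002000000000000000000000000000000000000000000000000000000000000000) (nat_lit 0x4000038000fe0003fc001de00077c000de000ffc003fe000ff80007c0000500000000000000000000000000000000000) (nat_lit 19)
theorem c98784 : QOK q98784 := cut [q98385, q98390, q98460, q98464, q98467, q98505, q98520, q98541, q98684, q1257, q87021, q98380, q12665, q98690, q98678, q98697, q14866, q98384, q2091, q14769, q98701, q14907, q98595, q98604, q98714, q98720, q98695, q2180, q24705, q22344, q98468, q98478, q56839, q98476, q98728, q98730, q98479, q98732, q22337, q98747, q98759, q98761, q98783] ⟨c98385, c98390, c98460, c98464, c98467, c98505, c98520, c98541, c98684, c1257, c87021, c98380, c12665, c98690, c98678, c98697, c14866, c98384, c2091, c14769, c98701, c14907, c98595, c98604, c98714, c98720, c98695, c2180, c24705, c22344, c98468, c98478, c56839, c98476, c98728, c98730, c98479, c98732, c22337, c98747, c98759,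 c98761, c98783, trivial⟩ (nd (nat_lit 252) (nat_lit 0) (cs (nd (nat_lit 274) (nat_lit 0) (cs (rf (nat_lit 0)) (cs (rf (nat_lit 1)) (cs (rf (nat_lit 2)) (cs (rf (nat_lit 3)) (cs (rf (nat_lit 4)) (rf (nat_lit 5)))))))) (cs (rf (nat_lit 6)) (cs (rf (nat_lit 7)) (cs (rf (nat_lit 8)) (cs (nd (nat_lit 274) (nat_lit 0) (cs (rf (nat_lit 3)) (cs (rf (nat_lit 4)) (cs (rf (nat_lit 5)) (cs (nd (nat_lit 276) (nat_lit 0) (cs (rf (nat_lit 9)) (nd (nat_lit 273) (nat_lit 0) (cs (rf (nat_lit 10)) (cs (rf (nat_lit 11)) (nd (nat_lit 298) (nat_lit 0) (cs (lf (nat_lit 5) (nat_lit 273)) (nd (nat_lit 320) (nat_lit 0) (cs (lf (nat_lit 42) (nat_lit 253)) (nd (nat_lit 209) (nat_lit 0) (cs (lf (nat_lit 25) (nat_lit 209)) (rf (nat_lit 12))))))))))))) (nd (nat_lit 276) (nat_lit 0) (cs (rf (nat_lit 9)) (rf (nat_lit 13))))))))) (cs (nd (nat_lit 274) (nat_lit 0) (cs (rf (nat_lit 3)) (cs (rf (nat_lit 14)) (cs (rf (nat_lit 15)) (cs (nd (nat_lit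 273) (nat_lit 0) (cs (rf (nat_lit 16)) (cs (rf (nat_lit 17)) (cs (nd (nat_lit 251) (nat_lit 0) (cs (rf (nat_lit 18)) (cs (rf (nat_lit 19)) (rf (nat_lit 20))))) (cs (nd (nat_lit 251) (nat_lit 0) (cs (rf (nat_lit 19)) (cs (rf (nat_lit 21)) (cs (rf (nat_lit 22)) (rf (nat_lit 23)))))) (cs (rf (nat_lit 24)) (rf (nat_lit 25)))))))) (cs (nd (nat_lit 276) (nat_lit 0) (cs (rf (nat_lit 9)) (cs (rf (nat_lit 26)) (nd (nat_lit 273) (nat_lit 0) (cs (rf (nat_lit 27)) (cs (rf (nat_lit 12)) (nd (nat_lit 251) (nat_lit 0) (cs (rf (nat_lit 18)) (cs (rf (nat_lit 28)) (nd (nat_lit 298) (nat_lit 0) (cs (lf (nat_lit 5) (nat_lit 273)) (nd (nat_lit 320) (nat_lit 0) (cs (lf (nat_lit 42) (nat_lit 253)) (nd (nat_lit 209) (nat_lit 0) (cs (lf (nat_lit 25) (nat_lit 209)) (rf (nat_lit 29))))))))))))))))) (nd (nat_lit 230) (nat_lit 0) (cs (rf (nat_lit 30)) (cs (rf (nat_lit 31)) (cs (nd (nat_lit 231) (nat_lit 0) (cs (rf (nat_lit 32)) (cs (rf (nat_lit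 33)) (rf (nat_lit 34))))) (cs (rf (nat_lit 35)) (cs (nd (nat_lit 231) (nat_lit 0) (cs (rf (nat_lit 33)) (cs (rf (nat_lit 36)) (rf (nat_lit 37))))) (nd (nat_lit 208) (nat_lit 0) (cs (lf (nat_lit 24) (nat_lit 186)) (nd (nat_lit 185) (nat_lit 0) (cs (lf (nat_lit 46) (nat_lit 185)) (rf (nat_lit 38)))))))))))))))))) (cs (rf (nat_lit 39)) (cs (rf (nat_lit 40)) (cs (rf (nat_lit 41)) (rf (nat_lit 42)))))))))))) q98784 (by decide +kernel)
def q99229 : Q := Q.p (nat_lit 0x800002000000000000000000000000000000000000000000000000000000000000000) (nat_lit 0x30001fc0007f8007ff000f7c000df00077c000fe0003f80001e0000000000000000000000000000000000000000) (nat_lit 16)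
theorem c99229 : QOK q99229 := cut [q98956, q98831, q98836, q98961, q98970, q98972, q98984, q98986, q98987, q99024, q99065, q98349, q98847, q98857, q98859, q15634, q99066, q99100, q99101, q99103, q98697, q98947, q99041, q14866, q91660, q99105, q1257, q98695, q99108, q99110, q99124, q99140, q99144, q99145, q99154, q98468, q98863, q99172, q99179, q99185, q14658, q22115, q22378, q99023, q11768, q99193, q99209, q99212, q99215, q99226, q98137] ⟨c98956, c98831, c98836, c98961, c98970, c98972, c98984, c98986, c98987, c99024, c99065, c98349, c98847, c98857, c98859, c15634, c99066, c99100, c99101, c99103, c98697, c98947, c99041, c14866, c91660, c99105, c1257, c98695, c99108, c99110, c99124, c99140, c99144, c99145, c99154, c98468, c98863, c99172, c99179, c99185, c14658, c22115, c22378, c99023, c11768, c99193, c99209, c99212, c99215, c99226, c98137, trivial⟩ (nd (nat_lit 274) (nat_lit 0) (cs (rf (nat_lit 0)) (cs (nd (nat_lit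 273) (nat_lit 0) (cs (nd (nat_lit 276) (nat_lit 0) (cs (rf (nat_lit 1)) (cs (rf (nat_lit 2)) (cs (rf (nat_lit 3)) (rf (nat_lit 4)))))) (cs (rf (nat_lit 5)) (cs (rf (nat_lit 6)) (cs (rf (nat_lit 7)) (rf (nat_lit 8))))))) (cs (rf (nat_lit 9)) (cs (rf (nat_lit 10)) (cs (nd (nat_lit 273) (nat_lit 0) (cs (rf (nat_lit 11)) (cs (nd (nat_lit 254) (nat_lit 0) (cs (lf (nat_lit 12) (nat_lit 250)) (nd (nat_lit 276) (nat_lit 0) (cs (lf (nat_lit 17) (nat_lit 251)) (nd (nat_lit 250) (nat_lit 0) (cs (lf (nat_lit 22) (nat_lit 250)) (rf (nat_lit 12)))))))) (cs (rf (nat_lit 13)) (cs (rf (nat_lit 14)) (nd (nat_lit 276) (nat_lit 0) (cs (rf (nat_lit 15)) (cs (rf (nat_lit 1)) (nd (nat_lit 251) (nat_lit 0) (cs (lf (nat_lit 23) (nat_lit 250)) (nd (nat_lit 294) (nat_lit 0) (cs (lf (nat_lit 10) (nat_lit 272)) (nd (nat_lit 252) (nat_lit 0) (cs (lf (nat_lit 18) (nat_lit 251)) (rf (nat_lit 16)))))))))))))))) (cs (rf (nat_lit 17)) (cs (nd (nat_lit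 273) (nat_lit 0) (cs (rf (nat_lit 11)) (cs (rf (nat_lit 5)) (cs (rf (nat_lit 18)) (rf (nat_lit 19)))))) (cs (nd (nat_lit 252) (nat_lit 0) (cs (rf (nat_lit 20)) (cs (rf (nat_lit 21)) (cs (rf (nat_lit 22)) (cs (nd (nat_lit 273) (nat_lit 0) (cs (rf (nat_lit 23)) (cs (rf (nat_lit 24)) (rf (nat_lit 25))))) (cs (nd (nat_lit 276) (nat_lit 0) (cs (rf (nat_lit 26)) (cs (rf (nat_lit 27)) (rf (nat_lit 28))))) (cs (nd (nat_lit 272) (nat_lit 0) (cs (rf (nat_lit 29)) (cs (rf (nat_lit 30)) (cs (rf (nat_lit 31)) (cs (rf (nat_lit 32)) (cs (rf (nat_lit 33)) (rf (nat_lit 34)))))))) (nd (nat_lit 230) (nat_lit 0) (cs (rf (nat_lit 35)) (cs (rf (nat_lit 36)) (rf (nat_lit 37)))))))))))) (cs (nd (nat_lit 273) (nat_lit 0) (cs (rf (nat_lit 11)) (cs (rf (nat_lit 13)) (cs (rf (nat_lit 5)) (rf (nat_lit 38)))))) (cs (nd (nat_lit 273) (nat_lit 0) (cs (rf (nat_lit 11)) (cs (rf (nat_lit 14)) (cs (rf (nat_lit 7)) (cs (rf (nat_lit 18)) (rf (nat_lit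 39))))))) (cs (nd (nat_lit 273) (nat_lit 0) (cs (rf (nat_lit 11)) (cs (rf (nat_lit 5)) (cs (rf (nat_lit 38)) (nd (nat_lit 250) (nat_lit 0) (cs (rf (nat_lit 40)) (cs (rf (nat_lit 41)) (nd (nat_lit 276) (nat_lit 0) (cs (lf (nat_lit 22) (nat_lit 250)) (nd (nat_lit 299) (nat_lit 0) (cs (lf (nat_lit 4) (nat_lit 273)) (nd (nat_lit 277) (nat_lit 0) (cs (lf (nat_lit 5) (nat_lit 274)) (nd (nat_lit 296) (nat_lit 0) (cs (lf (nat_lit 11) (nat_lit 273)) (rf (nat_lit 42))))))))))))))))) (cs (nd (nat_lit 273) (nat_lit 0) (cs (rf (nat_lit 11)) (cs (rf (nat_lit 6)) (cs (rf (nat_lit 43)) (cs (nd (nat_lit 251) (nat_lit 0) (cs (rf (nat_lit 44)) (cs (rf (nat_lit 45)) (cs (rf (nat_lit 46)) (rf (nat_lit 47)))))) (rf (nat_lit 48))))))) (cs (rf (nat_lit 49)) (nd (nat_lit 273) (nat_lit 0) (cs (rf (nat_lit 11)) (cs (rf (nat_lit 5)) (cs (rf (nat_lit 48)) (nd (nat_lit 251) (nat_lit 0) (cs (rf (nat_lit 44)) (cs (rf (nat_lit 50)) (cs (rf (nat_lit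 46)) (rf (nat_lit 47)))))))))))))))))))))))) q99229 (by decide +kernel)
def q103104 : Q := Q.p (nat_lit 0x2000010000000000000000000000000000000000000000000000000000000000) (nat_lit 0x80000e00003e0000fc001ff8007dc003e78007fe001ff0007f8000fc0000a000000000000000000000000000000) (nat_lit 15)
theorem c103104 : QOK q103104 := cut [q102851, q102874, q102888, q102899, q102959, q103011, q103082, q103083, q103084, q81677, q81730, q102873, q102855, q102860, q102884, q102978, q103085, q103091] ⟨c102851, c102874, c102888, c102899, c102959, c103011, c103082, c103083, c103084, c81677, c81730, c102873, c102855, c102860, c102884, c102978, c103085, c103091, trivial⟩ (nd (nat_lit 254) (nat_lit 0) (cs (rf (nat_lit 0)) (cs (rf (nat_lit 1)) (cs (rf (nat_lit 2)) (cs (rf (nat_lit 3)) (cs (rf (nat_lit 4)) (cs (rf (nat_lit 5)) (cs (rf (nat_lit 6)) (cs (rf (nat_lit 7)) (cs (rf (nat_lit 8)) (nd (nat_lit 252) (nat_lit 0) (cs (rf (nat_lit 9))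 (cs (rf (nat_lit 10)) (cs (rf (nat_lit 11)) (nd (nat_lit 255) (nat_lit 0) (cs (rf (nat_lit 12)) (cs (rf (nat_lit 13)) (cs (rf (nat_lit 14)) (cs (rf (nat_lit 15)) (nd (nat_lit 276) (nat_lit 0) (cs (rf (nat_lit 16)) (cs (rf (nat_lit 17)) (nd (nat_lit 277) (nat_lit 0) (cs (lf (nat_lit 5) (nat_lit 252)) (nd (nat_lit 210) (nat_lit 0) (cs (lf (nat_lit 24) (nat_lit 188)) (nd (nat_lit 273) (nat_lit 0) (cs (lf (nat_lit 10) (nat_lit 251)) (nd (nat_lit 275) (nat_lit 0) (cs (lf (nat_lit 41) (nat_lit 209)) (nd (nat_lit 211) (nat_lit 0) (cs (lf (nat_lit 35) (nat_lit 188)) (nd (nat_lit 233) (nat_lit 0) (cs (lf (nat_lit 17) (nat_lit 230)) (nd (nat_lit 209) (nat_lit 0) (cs (lf (nat_lit 47) (nat_lit 187)) (nd (nat_lit 230) (nat_lit 0) (cs (lf (nat_lit 23) (nat_lit 229)) (nd (nat_lit 208) (nat_lit 0) (cs (lf (nat_lit 24) (nat_lit 186)) (lf (nat_lit 0) (nat_lit 207)))))))))))))))))))))))))))))))))))))))))) q103104 (by decide +kernel)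
def q103337 : Q := Q.p (nat_lit 0x2000010000000000000000000000000000000000000000000000000000000000) (nat_lit 0x500001f0000fc0007f00079f000ef8007ff001ff0001f80007c00005000000000000000000000000000000) (nat_lit 17)
theorem c103337 : QOK q103337 := cut [q103130, q103150, q103206, q103253, q103259, q103273, q103310, q103311, q26315, q101562, q103131, q81901, q96312, q96325, q87115, q103184, q103321] ⟨c103130, c103150, c103206, c103253, c103259, c103273, c103310, c103311, c26315, c101562, c103131, c81901, c96312, c96325, c87115, c103184, c103321, trivial⟩ (nd (nat_lit 231) (nat_lit 0) (cs (rf (nat_lit 0)) (cs (rf (nat_lit 1)) (cs (rf (nat_lit 2)) (cs (rf (nat_lit 3)) (cs (rf (nat_lit 4)) (cs (rf (nat_lit 5)) (cs (rf (nat_lit 6)) (cs (rf (nat_lit 7)) (nd (nat_lit 275) (nat_lit 0) (cs (rf (nat_lit 8)) (cs (rf (nat_lit 9)) (cs (rf (nat_lit 10)) (nd (nat_lit 209) (nat_lit 0) (cs (rf (nat_lit 11)) (cs (rf (nat_lit 12)) (cs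 (rf (nat_lit 13)) (nd (nat_lit 230) (nat_lit 0) (cs (rf (nat_lit 14)) (cs (nd (nat_lit 274) (nat_lit 0) (cs (lf (nat_lit 41) (nat_lit 208)) (nd (nat_lit 276) (nat_lit 0) (cs (lf (nat_lit 29) (nat_lit 209)) (nd (nat_lit 208) (nat_lit 0) (cs (lf (nat_lit 47) (nat_lit 186)) (nd (nat_lit 233) (nat_lit 0) (cs (lf (nat_lit 18) (nat_lit 208)) (nd (nat_lit 211) (nat_lit 0) (cs (lf (nat_lit 17) (nat_lit 208)) (nd (nat_lit 255) (nat_lit 0) (cs (lf (nat_lit 5) (nat_lit 230)) (rf (nat_lit 15)))))))))))))) (cs (nd (nat_lit 210) (nat_lit 0) (cs (lf (nat_lit 35) (nat_lit 187)) (nd (nat_lit 276) (nat_lit 0) (cs (lf (nat_lit 29) (nat_lit 209)) (nd (nat_lit 228) (nat_lit 0) (cs (lf (nat_lit 13) (nat_lit 206)) (nd (nat_lit 274) (nat_lit 0) (cs (lf (nat_lit 41) (nat_lit 208)) (nd (nat_lit 208) (nat_lit 0) (cs (lf (nat_lit 47) (nat_lit 186)) (rf (nat_lit 16)))))))))))) (nd (nat_lit 208) (nat_lit 0) (cs (lf (nat_lit 47) (nat_lit 186))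 (nd (nat_lit 276) (nat_lit 0) (cs (lf (nat_lit 29) (nat_lit 209)) (nd (nat_lit 210) (nat_lit 0) (cs (lf (nat_lit 35) (nat_lit 187)) (nd (nat_lit 274) (nat_lit 0) (cs (lf (nat_lit 41) (nat_lit 208)) (nd (nat_lit 211) (nat_lit 0) (cs (lf (nat_lit 6) (nat_lit 208)) (nd (nat_lit 189) (nat_lit 0) (cs (lf (nat_lit 17) (nat_lit 186)) (nd (nat_lit 145) (nat_lit 0) (cs (lf (nat_lit 37) (nat_lit 144)) (rf (nat_lit 16))))))))))))))))))))))))))))))))))))) q103337 (by decide +kernel)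
def q103713 : Q := Q.p (nat_lit 0x2000010000000000000000000000000000000000000000000000000000000000) (nat_lit 0x380003e0000fc003ff8007dc003ef8007bc000ff0003fc0000f00000000000000000000000000000000000) (nat_lit 17)
theorem c103713 : QOK q103713 := cut [q102888, q103396, q103340, q102740, q102742, q103129, q80001, q80003, q103397, q102734, q79193, q79320, q79297, q103354, q80010, q10759, q80019, q103410, q80059, q103482, q103517, q103586, q103609, q103613, q103624, q103658, q103667, q81677, q103623, q103657, q80207, q103473, q103480, q81730, q103516, q102855, q103606, q80649, q81014, q103702, q103712] ⟨c102888, c103396, c103340, c102740, c102742, c103129, c80001, c80003, c103397, c102734, c79193, c79320, c79297, c103354, c80010, c10759, c80019, c103410, c80059, c103482, c103517, c103586, c103609, c103613, c103624, c103658, c103667, c81677, c103623, c103657, c80207, c103473, c103480, c81730, c103516, c102855, c103606,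 c80649, c81014, c103702, c103712, trivial⟩ (nd (nat_lit 254) (nat_lit 0) (cs (rf (nat_lit 0)) (cs (rf (nat_lit 1)) (cs (nd (nat_lit 231) (nat_lit 0) (cs (rf (nat_lit 2)) (cs (nd (nat_lit 233) (nat_lit 0) (cs (rf (nat_lit 3)) (cs (rf (nat_lit 4)) (cs (rf (nat_lit 5)) (nd (nat_lit 230) (nat_lit 0) (cs (rf (nat_lit 6)) (cs (rf (nat_lit 7)) (rf (nat_lit 8))))))))) (cs (nd (nat_lit 233) (nat_lit 0) (cs (rf (nat_lit 3)) (cs (rf (nat_lit 4)) (nd (nat_lit 230) (nat_lit 0) (cs (rf (nat_lit 9)) (rf (nat_lit 8))))))) (cs (nd (nat_lit 209) (nat_lit 0) (cs (rf (nat_lit 10)) (cs (rf (nat_lit 11)) (nd (nat_lit 275) (nat_lit 0) (cs (rf (nat_lit 12)) (cs (rf (nat_lit 13)) (nd (nat_lit 276) (nat_lit 0) (cs (lf (nat_lit 42) (nat_lit 209)) (rf (nat_lit 14)))))))))) (cs (nd (nat_lit 233) (nat_lit 0) (cs (rf (nat_lit 3)) (cs (rf (nat_lit 4)) (cs (rf (nat_lit 5)) (nd (nat_lit 230) (nat_lit 0) (cs (rf (nat_lit 7)) (cs (rf (nat_lit 8))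 (nd (nat_lit 252) (nat_lit 0) (cs (rf (nat_lit 15)) (rf (nat_lit 16))))))))))) (cs (rf (nat_lit 17)) (nd (nat_lit 233) (nat_lit 0) (cs (rf (nat_lit 18)) (cs (rf (nat_lit 3)) (cs (rf (nat_lit 4)) (rf (nat_lit 5))))))))))))) (cs (rf (nat_lit 19)) (cs (rf (nat_lit 20)) (cs (rf (nat_lit 21)) (cs (rf (nat_lit 22)) (cs (rf (nat_lit 23)) (cs (rf (nat_lit 24)) (cs (rf (nat_lit 25)) (cs (rf (nat_lit 26)) (cs (nd (nat_lit 252) (nat_lit 0) (cs (rf (nat_lit 27)) (cs (rf (nat_lit 28)) (cs (rf (nat_lit 29)) (nd (nat_lit 231) (nat_lit 0) (cs (rf (nat_lit 30)) (cs (rf (nat_lit 31)) (rf (nat_lit 32))))))))) (cs (nd (nat_lit 252) (nat_lit 0) (cs (rf (nat_lit 27)) (cs (rf (nat_lit 33)) (cs (rf (nat_lit 34)) (nd (nat_lit 255) (nat_lit 0) (cs (rf (nat_lit 35)) (cs (rf (nat_lit 36)) (nd (nat_lit 274) (nat_lit 0) (cs (lf (nat_lit 11) (nat_lit 251)) (nd (nat_lit 296) (nat_lit 0) (cs (rf (nat_lit 37)) (cs (rf (nat_lit 38)) (nd (nat_lit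 230) (nat_lit 0) (cs (lf (nat_lit 23) (nat_lit 229)) (nd (nat_lit 277) (nat_lit 0) (cs (lf (nat_lit 5) (nat_lit 252)) (nd (nat_lit 299) (nat_lit 0) (cs (lf (nat_lit 42) (nat_lit 232)) (nd (nat_lit 295) (nat_lit 0) (cs (lf (nat_lit 41) (nat_lit 229)) (nd (nat_lit 297) (nat_lit 0) (cs (lf (nat_lit 29) (nat_lit 230)) (nd (nat_lit 275) (nat_lit 0) (cs (lf (nat_lit 24) (nat_lit 208)) (lf (nat_lit 7) (nat_lit 273)))))))))))))))))))))))))) (cs (rf (nat_lit 39)) (rf (nat_lit 40))))))))))))))))) q103713 (by decide +kernel)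
def q103999 : Q := Q.p (nat_lit 0x2000010000000000000000000000000000000000000000000000000000000000) (nat_lit 0x280000e00003e0000fc000ff0007cc003ef801ffe001ff8007fe0006800000000000000000000000000000000000) (nat_lit 17)
theorem c103999 : QOK q103999 := cut [q103396, q103751, q79128, q79988, q102850, q102832, q102835, q102931, q79558, q79570, q79572, q79562, q103763, q103822, q103889, q103911, q103914, q103930, q103951, q102805, q102828, q102829, q79800, q79841, q79867, q97763, q79193, q97337, q103956, q103961, q103950, q103962, q79868, q103965, q103980, q103339, q103342, q103352, q103982, q103987, q103819, q103995] ⟨c103396, c103751, c79128, c79988, c102850, c102832, c102835, c102931, c79558, c79570, c79572, c79562, c103763, c103822, c103889, c103911, c103914, c103930, c103951, c102805, c102828, c102829, c79800, c79841, c79867, c97763, c79193, c97337, c103956, c103961, c103950, c103962, c79868, c103965, c103980,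 c103339, c103342, c103352, c103982, c103987, c103819, c103995, trivial⟩ (nd (nat_lit 254) (nat_lit 0) (cs (rf (nat_lit 0)) (cs (rf (nat_lit 1)) (cs (nd (nat_lit 210) (nat_lit 0) (cs (rf (nat_lit 2)) (cs (rf (nat_lit 3)) (cs (rf (nat_lit 4)) (nd (nat_lit 276) (nat_lit 0) (cs (rf (nat_lit 5)) (cs (rf (nat_lit 6)) (cs (rf (nat_lit 7)) (cs (nd (nat_lit 211) (nat_lit 0) (cs (lf (nat_lit 35) (nat_lit 188)) (nd (nat_lit 212) (nat_lit 0) (cs (rf (nat_lit 8)) (cs (rf (nat_lit 9)) (cs (rf (nat_lit 10)) (nd (nat_lit 209) (nat_lit 0) (cs (lf (nat_lit 47) (nat_lit 187)) (nd (nat_lit 275) (nat_lit 0) (cs (lf (nat_lit 41) (nat_lit 209)) (nd (nat_lit 190) (nat_lit 0) (cs (lf (nat_lit 17) (nat_lit 187)) (nd (nat_lit 277) (nat_lit 0) (cs (lf (nat_lit 29) (nat_lit 210)) (nd (nat_lit 278) (nat_lit 0) (cs (lf (nat_lit 18) (nat_lit 253)) (nd (nat_lit 256) (nat_lit 0) (cs (lf (nat_lit 17) (nat_lit 253)) (rf (nat_lit 11))))))))))))))))))))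 (rf (nat_lit 12))))))))))) (cs (rf (nat_lit 13)) (cs (rf (nat_lit 14)) (cs (rf (nat_lit 15)) (cs (rf (nat_lit 16)) (cs (rf (nat_lit 17)) (cs (rf (nat_lit 18)) (cs (nd (nat_lit 210) (nat_lit 0) (cs (rf (nat_lit 2)) (cs (rf (nat_lit 19)) (cs (rf (nat_lit 20)) (cs (rf (nat_lit 21)) (nd (nat_lit 211) (nat_lit 0) (cs (rf (nat_lit 22)) (cs (rf (nat_lit 23)) (cs (rf (nat_lit 24)) (nd (nat_lit 231) (nat_lit 0) (cs (rf (nat_lit 25)) (nd (nat_lit 209) (nat_lit 0) (cs (rf (nat_lit 26)) (cs (nd (nat_lit 275) (nat_lit 0) (cs (lf (nat_lit 30) (nat_lit 209)) (nd (nat_lit 274) (nat_lit 0) (cs (lf (nat_lit 41) (nat_lit 208)) (nd (nat_lit 186) (nat_lit 0) (cs (lf (nat_lit 46) (nat_lit 186)) (rf (nat_lit 27)))))))) (rf (nat_lit 28)))))))))))))))) (cs (rf (nat_lit 29)) (cs (nd (nat_lit 210) (nat_lit 0) (cs (rf (nat_lit 3)) (cs (rf (nat_lit 21)) (cs (rf (nat_lit 30)) (rf (nat_lit 31)))))) (cs (nd (nat_lit 210) (nat_lit 0) (cs (rf (nat_lit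 2)) (cs (rf (nat_lit 3)) (cs (nd (nat_lit 209) (nat_lit 0) (cs (rf (nat_lit 32)) (cs (rf (nat_lit 33)) (cs (rf (nat_lit 34)) (nd (nat_lit 231) (nat_lit 0) (cs (rf (nat_lit 35)) (cs (rf (nat_lit 36)) (cs (rf (nat_lit 37)) (rf (nat_lit 38)))))))))) (rf (nat_lit 39)))))) (nd (nat_lit 210) (nat_lit 0) (cs (rf (nat_lit 2)) (cs (rf (nat_lit 19)) (cs (rf (nat_lit 20)) (cs (rf (nat_lit 21)) (nd (nat_lit 209) (nat_lit 0) (cs (rf (nat_lit 32)) (cs (rf (nat_lit 33)) (cs (rf (nat_lit 34)) (nd (nat_lit 231) (nat_lit 0) (cs (rf (nat_lit 35)) (cs (rf (nat_lit 40)) (cs (rf (nat_lit 38)) (rf (nat_lit 41))))))))))))))))))))))))))))) q103999 (by decide +kernel)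
def q104146 : Q := Q.p (nat_lit 0x2000018000000000000000000000000000000000000000000000000000000000) (nat_lit 0x400001c0000700000c000050000070003fc000ff0000500000000000000000000000000000000000000000) (nat_lit 11)
theorem c104146 : QOK q104146 := cut [q87016, q104144, q79188, q85187] ⟨c87016, c104144, c79188, c85187, trivial⟩ (nd (nat_lit 275) (nat_lit 0) (cs (rf (nat_lit 0)) (cs (rf (nat_lit 1)) (nd (nat_lit 297) (nat_lit 0) (cs (rf (nat_lit 2)) (rf (nat_lit 3))))))) q104146 (by decide +kernel)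
def q104177 : Q := Q.p (nat_lit 0x2000018000000000000000000000000000000000000000000000000000000000) (nat_lit 0x100000c0000300001c000050000070003fc000ff0000700000000000000000000000000000000000000000) (nat_lit 11)
theorem c104177 : QOK q104177 := cut [q87016, q104144, q97586, q104141, q97738] ⟨c87016, c104144, c97586, c104141, c97738, trivial⟩ (nd (nat_lit 275) (nat_lit 0) (cs (rf (nat_lit 0)) (cs (rf (nat_lit 1)) (nd (nat_lit 296) (nat_lit 0) (cs (rf (nat_lit 2)) (cs (nd (nat_lit 297) (nat_lit 0) (cs (lf (nat_lit 41) (nat_lit 230)) (rf (nat_lit 3)))) (nd (nat_lit 209) (nat_lit 0) (cs (lf (nat_lit 40) (nat_lit 208)) (nd (nat_lit 186) (nat_lit 0) (cs (lf (nat_lit 46) (nat_lit 186)) (nd (nat_lit 187) (nat_lit 0) (cs (lf (nat_lit 47) (nat_lit 164)) (rf (nat_lit 4)))))))))))))) q104177 (by decide +kernel)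
def q104799 : Q := Q.p (nat_lit 0x2000010000000000000000000000000000000000000000000000000000000000) (nat_lit 0x10000fc0003f0000fc003ff8007dc003ef8003fc000770001d80002000000000000000000000000000000000000) (nat_lit 18)
theorem c104799 : QOK q104799 := cut [q102888, q103609, q103961, q104422, q104432, q79118, q81730, q79199, q79739, q80289, q104732, q79422, q80343, q80309, q21953, q79188, q80298, q81706, q80339, q104451, q104414, q79895, q104745, q104797, q104798] ⟨c102888, c103609, c103961, c104422, c104432, c79118, c81730, c79199, c79739, c80289, c104732, c79422, c80343, c80309, c21953, c79188, c80298, c81706, c80339, c104451, c104414, c79895, c104745, c104797, c104798, trivial⟩ (nd (nat_lit 254) (nat_lit 0) (cs (rf (nat_lit 0)) (cs (rf (nat_lit 1)) (cs (rf (nat_lit 2)) (cs (rf (nat_lit 3)) (cs (rf (nat_lit 4)) (cs (nd (nat_lit 252) (nat_lit 0) (cs (rf (nat_lit 5)) (cs (rf (nat_lit 6)) (cs (nd (nat_lit 275) (nat_lit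 0) (cs (rf (nat_lit 7)) (cs (rf (nat_lit 8)) (cs (nd (nat_lit 276) (nat_lit 0) (cs (rf (nat_lit 9)) (cs (rf (nat_lit 10)) (nd (nat_lit 298) (nat_lit 0) (cs (rf (nat_lit 11)) (cs (rf (nat_lit 12)) (nd (nat_lit 277) (nat_lit 0) (cs (lf (nat_lit 18) (nat_lit 252)) (nd (nat_lit 299) (nat_lit 0) (cs (lf (nat_lit 29) (nat_lit 232)) (nd (nat_lit 273) (nat_lit 0) (cs (lf (nat_lit 1) (nat_lit 273)) (nd (nat_lit 231) (nat_lit 0) (cs (lf (nat_lit 24) (nat_lit 209)) (rf (nat_lit 13)))))))))))))))) (nd (nat_lit 297) (nat_lit 0) (cs (lf (nat_lit 30) (nat_lit 231)) (nd (nat_lit 231) (nat_lit 0) (cs (rf (nat_lit 14)) (cs (rf (nat_lit 15)) (cs (rf (nat_lit 16)) (rf (nat_lit 17)))))))))))) (nd (nat_lit 276) (nat_lit 0) (cs (rf (nat_lit 18)) (cs (rf (nat_lit 19)) (nd (nat_lit 297) (nat_lit 0) (cs (rf (nat_lit 20)) (cs (nd (nat_lit 210) (nat_lit 0) (cs (lf (nat_lit 40) (nat_lit 209)) (nd (nat_lit 189) (nat_lit 0) (cs (lf (nat_lit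 34) (nat_lit 188)) (nd (nat_lit 188) (nat_lit 0) (cs (lf (nat_lit 35) (nat_lit 166)) (rf (nat_lit 21)))))))) (rf (nat_lit 22)))))))))))) (cs (rf (nat_lit 23)) (rf (nat_lit 24)))))))))) q104799 (by decide +kernel)
def q105508 : Q := Q.p (nat_lit 0x3000000000000000000000000000000000000000000000000000000000000000) (nat_lit 0x700003c0003f0000ff0003f8003ff0007f8001c60007f8003fe0003e0000700000400000000000000000000000000000000000) (nat_lit 19)
theorem c105508 : QOK q105508 := cut [q88941, q94168, q11869, q88936, q89353, q81477, q105218, q105223, q105297, q105251, q105300, q98468, q105295, q83734, q105298, q105303, q105308, q98863, q105237, q105257, q105309, q79079, q105260, q105312, q105314, q105321, q105332, q105421, q105435, q88933, q79111, q88337, q90752, q105437, q105445, q11728, q25972, q105451, q105459, q105473, q94443, q94444, q105208, q105467, q90293, q105475, q89530, q105483, q105498, q21908, q84333, q105339,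 q88940, q105482, q94532, q94533, q90671] ⟨c88941, c94168, c11869, c88936, c89353, c81477, c105218, c105223, c105297, c105251, c105300, c98468, c105295, c83734, c105298, c105303, c105308, c98863, c105237, c105257, c105309, c79079, c105260, c105312, c105314, c105321, c105332, c105421, c105435, c88933, c79111, c88337, c90752, c105437, c105445, c11728, c25972, c105451, c105459, c105473, c94443, c94444, c105208, c105467, c90293, c105475, c89530, c105483, c105498, c21908, c84333, c105339, c88940, c105482, c94532, c94533, c90671, trivial⟩ (nd (nat_lit 275) (nat_lit 0) (cs (nd (nat_lit 297) (nat_lit 0) (cs (rf (nat_lit 0)) (cs (rf (nat_lit 1)) (cs (nd (nat_lit 231) (nat_lit 0) (cs (rf (nat_lit 2)) (cs (rf (nat_lit 3)) (cs (rf (nat_lit 4)) (nd (nat_lit 230) (nat_lit 0) (cs (rf (nat_lit 5)) (nd (nat_lit 298) (nat_lit 0) (cs (lf (nat_lit 29) (nat_lit 231)) (nd (nat_lit 296) (nat_lit 0) (cs (lf (nat_lit 41) (nat_lit 230))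 (rf (nat_lit 6)))))))))))) (rf (nat_lit 7)))))) (cs (rf (nat_lit 8)) (cs (nd (nat_lit 274) (nat_lit 0) (cs (rf (nat_lit 9)) (cs (rf (nat_lit 10)) (cs (nd (nat_lit 230) (nat_lit 0) (cs (rf (nat_lit 11)) (cs (rf (nat_lit 12)) (nd (nat_lit 296) (nat_lit 0) (cs (rf (nat_lit 13)) (cs (rf (nat_lit 14)) (rf (nat_lit 15)))))))) (cs (rf (nat_lit 16)) (cs (nd (nat_lit 230) (nat_lit 0) (cs (rf (nat_lit 11)) (cs (rf (nat_lit 17)) (nd (nat_lit 276) (nat_lit 0) (cs (rf (nat_lit 18)) (cs (rf (nat_lit 19)) (cs (rf (nat_lit 20)) (cs (nd (nat_lit 254) (nat_lit 0) (cs (rf (nat_lit 21)) (cs (rf (nat_lit 22)) (rf (nat_lit 23))))) (cs (rf (nat_lit 24)) (rf (nat_lit 25))))))))))) (rf (nat_lit 26)))))))) (cs (rf (nat_lit 27)) (cs (rf (nat_lit 28)) (cs (nd (nat_lit 297) (nat_lit 0) (cs (rf (nat_lit 29)) (cs (rf (nat_lit 7)) (nd (nat_lit 230) (nat_lit 0) (cs (rf (nat_lit 30)) (cs (rf (nat_lit 31)) (nd (nat_lit 296) (nat_lit 0) (cs (rf (nat_lit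 32)) (cs (rf (nat_lit 33)) (cs (rf (nat_lit 34)) (nd (nat_lit 295) (nat_lit 0) (cs (rf (nat_lit 35)) (cs (nd (nat_lit 274) (nat_lit 0) (cs (lf (nat_lit 41) (nat_lit 229)) (rf (nat_lit 36)))) (cs (rf (nat_lit 37)) (rf (nat_lit 38)))))))))))))))) (cs (rf (nat_lit 39)) (cs (nd (nat_lit 297) (nat_lit 0) (cs (rf (nat_lit 1)) (cs (rf (nat_lit 40)) (cs (rf (nat_lit 41)) (nd (nat_lit 231) (nat_lit 0) (cs (rf (nat_lit 2)) (cs (rf (nat_lit 42)) (cs (rf (nat_lit 43)) (nd (nat_lit 298) (nat_lit 0) (cs (lf (nat_lit 29) (nat_lit 231)) (nd (nat_lit 276) (nat_lit 0) (cs (nd (nat_lit 296) (nat_lit 0) (cs (lf (nat_lit 41) (nat_lit 230)) (rf (nat_lit 44)))) (nd (nat_lit 232) (nat_lit 0) (cs (lf (nat_lit 35) (nat_lit 209)) (nd (nat_lit 233) (nat_lit 0) (cs (lf (nat_lit 6) (nat_lit 230)) (rf (nat_lit 45)))))))))))))))))) (cs (nd (nat_lit 297) (nat_lit 0) (cs (rf (nat_lit 29)) (cs (rf (nat_lit 46)) (rf (nat_lit 47))))) (cs (rf (nat_lit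 48)) (cs (nd (nat_lit 297) (nat_lit 0) (cs (rf (nat_lit 29)) (cs (rf (nat_lit 0)) (cs (nd (nat_lit 319) (nat_lit 0) (cs (rf (nat_lit 49)) (cs (nd (nat_lit 274) (nat_lit 0) (cs (lf (nat_lit 42) (nat_lit 252)) (rf (nat_lit 50)))) (rf (nat_lit 51))))) (nd (nat_lit 231) (nat_lit 0) (cs (rf (nat_lit 52)) (cs (rf (nat_lit 42)) (rf (nat_lit 53))))))))) (nd (nat_lit 297) (nat_lit 0) (cs (rf (nat_lit 29)) (cs (rf (nat_lit 47)) (nd (nat_lit 232) (nat_lit 0) (cs (rf (nat_lit 54)) (cs (rf (nat_lit 55)) (nd (nat_lit 319) (nat_lit 0) (cs (lf (nat_lit 34) (nat_lit 231)) (nd (nat_lit 320) (nat_lit 0) (cs (lf (nat_lit 29) (nat_lit 253)) (nd (nat_lit 231) (nat_lit 0) (cs (lf (nat_lit 28) (nat_lit 231)) (nd (nat_lit 233) (nat_lit 0) (cs (lf (nat_lit 6) (nat_lit 230)) (rf (nat_lit 56)))))))))))))))))))))))))))) q105508 (by decide +kernel)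
def q108256 : Q := Q.p (nat_lit 0x2000000000000000000000000000000000000000000000000000000000000000) (nat_lit 0x1d0000fe000ffc003ff000ffc001df003ffe007ff800ffe003ff0007f80017c00015000000000000000000000000) (nat_lit 20)
theorem c108256 : QOK q108256 := cut [q107184, q107322, q101233, q107337, q80750, q92706, q100877, q101231, q107343, q107344, q107345, q107347, q107384, q107050, q107367, q107383, q107385, q107390, q96655, q99317, q99325, q99649, q107392, q717, q107335, q107402, q107403, q107404, q1593, q98317, q107549, q107721, q107783, q107864, q107909, q107917, q108048, q108108, q108126, q108224, q108227, q107324, q108003, q108051, q108078, q82301, q107926, q108231, q107031, q79736, q81706, q82063, q107048, q107366, q97956, q97957, q99594, q108128, q108248, q80754, q107925, q107034, q107059, q98315, q107567, q108129] ⟨c107184, c107322, c101233, c107337, c80750, c92706, c100877, c101231, c107343, c107344, c107345,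 c107347, c107384, c107050, c107367, c107383, c107385, c107390, c96655, c99317, c99325, c99649, c107392, c717, c107335, c107402, c107403, c107404, c1593, c98317, c107549, c107721, c107783, c107864, c107909, c107917, c108048, c108108, c108126, c108224, c108227, c107324, c108003, c108051, c108078, c82301, c107926, c108231, c107031, c79736, c81706, c82063, c107048, c107366, c97956, c97957, c99594, c108128, c108248, c80754, c107925, c107034, c107059, c98315, c107567, c108129, trivial⟩ (nd (nat_lit 231) (nat_lit 0) (cs (rf (nat_lit 0)) (cs (rf (nat_lit 1)) (cs (nd (nat_lit 209) (nat_lit 0) (cs (rf (nat_lit 2)) (cs (rf (nat_lit 3)) (cs (nd (nat_lit 187) (nat_lit 0) (cs (rf (nat_lit 4)) (cs (rf (nat_lit 5)) (cs (rf (nat_lit 6)) (rf (nat_lit 7)))))) (cs (rf (nat_lit 8)) (cs (rf (nat_lit 9)) (cs (rf (nat_lit 10)) (rf (nat_lit 11))))))))) (cs (rf (nat_lit 12)) (cs (nd (nat_lit 275) (nat_lit 0) (cs (rf (nat_lit 13)) (cs (rf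 (nat_lit 14)) (cs (rf (nat_lit 15)) (cs (rf (nat_lit 16)) (cs (rf (nat_lit 17)) (cs (nd (nat_lit 209) (nat_lit 0) (cs (rf (nat_lit 18)) (cs (rf (nat_lit 19)) (cs (rf (nat_lit 20)) (rf (nat_lit 21)))))) (rf (nat_lit 22))))))))) (cs (nd (nat_lit 209) (nat_lit 0) (cs (rf (nat_lit 2)) (cs (nd (nat_lit 275) (nat_lit 0) (cs (rf (nat_lit 23)) (cs (rf (nat_lit 21)) (rf (nat_lit 24))))) (cs (rf (nat_lit 25)) (cs (rf (nat_lit 26)) (cs (rf (nat_lit 27)) (nd (nat_lit 275) (nat_lit 0) (cs (rf (nat_lit 23)) (cs (rf (nat_lit 28)) (rf (nat_lit 29))))))))))) (cs (rf (nat_lit 30)) (cs (rf (nat_lit 31)) (cs (rf (nat_lit 32)) (cs (rf (nat_lit 33)) (cs (rf (nat_lit 34)) (cs (rf (nat_lit 35)) (cs (rf (nat_lit 36)) (cs (rf (nat_lit 37)) (cs (rf (nat_lit 38)) (cs (rf (nat_lit 39)) (cs (rf (nat_lit 40)) (cs (nd (nat_lit 209) (nat_lit 0) (cs (rf (nat_lit 41)) (cs (rf (nat_lit 11)) (cs (rf (nat_lit 25)) (cs (rf (nat_lit 42)) (cs (rf (nat_lit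 43)) (rf (nat_lit 44)))))))) (cs (nd (nat_lit 209) (nat_lit 0) (cs (rf (nat_lit 2)) (cs (rf (nat_lit 3)) (cs (rf (nat_lit 8)) (cs (rf (nat_lit 9)) (cs (rf (nat_lit 10)) (cs (rf (nat_lit 27)) (nd (nat_lit 252) (nat_lit 0) (cs (rf (nat_lit 45)) (cs (rf (nat_lit 46)) (rf (nat_lit 47)))))))))))) (cs (nd (nat_lit 275) (nat_lit 0) (cs (rf (nat_lit 48)) (cs (nd (nat_lit 297) (nat_lit 0) (cs (rf (nat_lit 49)) (cs (rf (nat_lit 50)) (cs (rf (nat_lit 51)) (rf (nat_lit 52)))))) (cs (rf (nat_lit 13)) (cs (rf (nat_lit 53)) (cs (rf (nat_lit 15)) (nd (nat_lit 230) (nat_lit 0) (cs (rf (nat_lit 54)) (cs (rf (nat_lit 55)) (cs (rf (nat_lit 56)) (rf (nat_lit 57)))))))))))) (cs (rf (nat_lit 58)) (cs (nd (nat_lit 209) (nat_lit 0) (cs (rf (nat_lit 2)) (cs (rf (nat_lit 3)) (cs (rf (nat_lit 8)) (cs (rf (nat_lit 9)) (cs (rf (nat_lit 10)) (cs (rf (nat_lit 11)) (nd (nat_lit 252) (nat_lit 0) (cs (rf (nat_lit 45)) (cs (rf (nat_lit 47)) (nd (nat_lit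 254) (nat_lit 0) (cs (rf (nat_lit 59)) (rf (nat_lit 60)))))))))))))) (cs (nd (nat_lit 275) (nat_lit 0) (cs (rf (nat_lit 48)) (cs (rf (nat_lit 61)) (cs (rf (nat_lit 13)) (cs (rf (nat_lit 62)) (cs (rf (nat_lit 14)) (cs (rf (nat_lit 16)) (nd (nat_lit 209) (nat_lit 0) (cs (rf (nat_lit 63)) (nd (nat_lit 210) (nat_lit 0) (cs (lf (nat_lit 35) (nat_lit 187)) (rf (nat_lit 64))))))))))))) (nd (nat_lit 275) (nat_lit 0) (cs (rf (nat_lit 48)) (cs (rf (nat_lit 61)) (cs (rf (nat_lit 62)) (cs (rf (nat_lit 14)) (cs (rf (nat_lit 17)) (rf (nat_lit 65)))))))))))))))))))))))))))))))) q108256 (by decide +kernel)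
def q108986 : Q := Q.p (nat_lit 0x800002000000000000000000000000000000000000000000000000000000000000000) (nat_lit 0x4000038000fe0003fc001df00077c003df801ffe001fe0003f80003c0000700001400000000000000000000000000000) (nat_lit 15)
theorem c108986 : QOK q108986 := cut [q108745, q108753, q108452, q108707, q14689, q104510, q105542, q108757, q98468, q98730, q79097, q98728, q105293, q98479, q98732, q108760, q108773, q108822, q90494, q108827, q108832, q79079, q96515, q108839, q108844, q22898, q108859, q91101, q108710, q1999, q2066, q108693, q108870, q2091, q108909, q108914, q98519, q98758, q82314, q108769, q108924, q108969, q108980, q108923, q98766, q98781, q108921, q108922, q108981, q108985] ⟨c108745, c108753, c108452, c108707, c14689, c104510, c105542, c108757, c98468, c98730, c79097, c98728, c105293, c98479, c98732, c108760, c108773, c108822, c90494, c108827, c108832, c79079, c96515, c108839, c108844, c22898, c108859,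 c91101, c108710, c1999, c2066, c108693, c108870, c2091, c108909, c108914, c98519, c98758, c82314, c108769, c108924, c108969, c108980, c108923, c98766, c98781, c108921, c108922, c108981, c108985, trivial⟩ (nd (nat_lit 252) (nat_lit 0) (cs (rf (nat_lit 0)) (cs (rf (nat_lit 1)) (cs (nd (nat_lit 274) (nat_lit 0) (cs (rf (nat_lit 2)) (cs (rf (nat_lit 3)) (cs (nd (nat_lit 276) (nat_lit 0) (cs (rf (nat_lit 4)) (cs (rf (nat_lit 5)) (rf (nat_lit 6))))) (cs (rf (nat_lit 7)) (nd (nat_lit 230) (nat_lit 0) (cs (rf (nat_lit 8)) (cs (rf (nat_lit 9)) (cs (nd (nat_lit 231) (nat_lit 0) (cs (rf (nat_lit 10)) (cs (rf (nat_lit 11)) (rf (nat_lit 12))))) (cs (nd (nat_lit 231) (nat_lit 0) (cs (rf (nat_lit 13)) (cs (rf (nat_lit 14)) (rf (nat_lit 12))))) (rf (nat_lit 15)))))))))))) (cs (rf (nat_lit 16)) (cs (rf (nat_lit 17)) (cs (nd (nat_lit 276) (nat_lit 0) (cs (rf (nat_lit 18)) (cs (rf (nat_lit 19)) (cs (rf (nat_lit 20)) (cs (nd (nat_lit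 254) (nat_lit 0) (cs (nd (nat_lit 274) (nat_lit 0) (cs (rf (nat_lit 21)) (cs (nd (nat_lit 255) (nat_lit 0) (cs (lf (nat_lit 6) (nat_lit 252)) (nd (nat_lit 233) (nat_lit 0) (cs (lf (nat_lit 17) (nat_lit 230)) (nd (nat_lit 232) (nat_lit 0) (cs (lf (nat_lit 12) (nat_lit 229)) (rf (nat_lit 22)))))))) (rf (nat_lit 23))))) (cs (rf (nat_lit 24)) (cs (nd (nat_lit 274) (nat_lit 0) (cs (rf (nat_lit 21)) (cs (rf (nat_lit 23)) (nd (nat_lit 255) (nat_lit 0) (cs (lf (nat_lit 6) (nat_lit 252)) (nd (nat_lit 230) (nat_lit 0) (cs (lf (nat_lit 23) (nat_lit 229)) (nd (nat_lit 208) (nat_lit 0) (cs (lf (nat_lit 24) (nat_lit 186)) (nd (nat_lit 185) (nat_lit 0) (cs (lf (nat_lit 46) (nat_lit 185)) (nd (nat_lit 209) (nat_lit 0) (cs (lf (nat_lit 35) (nat_lit 186)) (rf (nat_lit 25))))))))))))))) (nd (nat_lit 274) (nat_lit 0) (cs (rf (nat_lit 21)) (cs (nd (nat_lit 255) (nat_lit 0) (cs (lf (nat_lit 6) (nat_lit 252)) (nd (nat_lit 233) (nat_lit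 0) (cs (lf (nat_lit 17) (nat_lit 230)) (nd (nat_lit 232) (nat_lit 0) (cs (lf (nat_lit 12) (nat_lit 229)) (nd (nat_lit 188) (nat_lit 0) (cs (lf (nat_lit 37) (nat_lit 187)) (nd (nat_lit 189) (nat_lit 0) (cs (lf (nat_lit 37) (nat_lit 188)) (nd (nat_lit 230) (nat_lit 0) (cs (lf (nat_lit 23) (nat_lit 229)) (nd (nat_lit 208) (nat_lit 0) (cs (lf (nat_lit 24) (nat_lit 186)) (nd (nat_lit 207) (nat_lit 0) (cs (lf (nat_lit 47) (nat_lit 185)) (lf (nat_lit 20) (nat_lit 207)))))))))))))))))) (rf (nat_lit 26))))))))) (nd (nat_lit 274) (nat_lit 0) (cs (rf (nat_lit 4)) (cs (rf (nat_lit 27)) (rf (nat_lit 28)))))))))) (cs (nd (nat_lit 251) (nat_lit 0) (cs (rf (nat_lit 29)) (cs (rf (nat_lit 30)) (cs (rf (nat_lit 31)) (rf (nat_lit 32)))))) (cs (nd (nat_lit 251) (nat_lit 0) (cs (rf (nat_lit 29)) (cs (rf (nat_lit 30)) (cs (rf (nat_lit 33)) (cs (rf (nat_lit 31)) (rf (nat_lit 34))))))) (cs (rf (nat_lit 35)) (cs (nd (nat_lit 251) (nat_lit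 0) (cs (rf (nat_lit 33)) (cs (rf (nat_lit 36)) (cs (rf (nat_lit 37)) (cs (rf (nat_lit 32)) (nd (nat_lit 228) (nat_lit 0) (cs (rf (nat_lit 38)) (cs (rf (nat_lit 39)) (rf (nat_lit 40)))))))))) (cs (rf (nat_lit 41)) (cs (rf (nat_lit 42)) (cs (nd (nat_lit 251) (nat_lit 0) (cs (rf (nat_lit 29)) (cs (rf (nat_lit 30)) (cs (rf (nat_lit 33)) (cs (rf (nat_lit 43)) (nd (nat_lit 273) (nat_lit 0) (cs (rf (nat_lit 44)) (cs (rf (nat_lit 45)) (cs (rf (nat_lit 46)) (cs (rf (nat_lit 47)) (rf (nat_lit 48)))))))))))) (rf (nat_lit 49)))))))))))))))) q108986 (by decide +kernel)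
def q110325 : Q := Q.p (nat_lit 0x3000000000000000000000000000000000000000000000000000000000000000) (nat_lit 0x80000b80003f8001fe000ff8001c60007fe001ff0007fe000ff0001e00003000008000000000000000000000000) (nat_lit 17)
theorem c110325 : QOK q110325 := cut [q110051, q110056, q82309, q105875, q90445, q110053, q82279, q110059, q110064, q110071, q110078, q110097, q110100, q92803, q92805, q92807, q79996, q85001, q110104, q110107, q110112, q110114, q110142, q84417, q105905, q84418, q110054, q110148, q110154, q105886, q105909, q110160, q110163, q79097, q105893, q110022, q85044, q85049, q85048, q106147, q80003, q110185, q110227, q110236, q110268, q110283, q110305, q110309, q110314, q110315, q6259, q79029, q79066, q110304, q10803, q87238, q110316, q110321] ⟨c110051, c110056, c82309, c105875, c90445, c110053, c82279, c110059, c110064, c110071, c110078, c110097, c110100, c92803, c92805, c92807, c79996, c85001, c110104, c110107,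 c110112, c110114, c110142, c84417, c105905, c84418, c110054, c110148, c110154, c105886, c105909, c110160, c110163, c79097, c105893, c110022, c85044, c85049, c85048, c106147, c80003, c110185, c110227, c110236, c110268, c110283, c110305, c110309, c110314, c110315, c6259, c79029, c79066, c110304, c10803, c87238, c110316, c110321, trivial⟩ (nd (nat_lit 230) (nat_lit 0) (cs (rf (nat_lit 0)) (cs (nd (nat_lit 231) (nat_lit 0) (cs (rf (nat_lit 1)) (cs (nd (nat_lit 209) (nat_lit 0) (cs (rf (nat_lit 2)) (cs (rf (nat_lit 3)) (nd (nat_lit 275) (nat_lit 0) (cs (rf (nat_lit 4)) (cs (rf (nat_lit 5)) (nd (nat_lit 274) (nat_lit 0) (cs (rf (nat_lit 6)) (rf (nat_lit 7)))))))))) (cs (rf (nat_lit 8)) (cs (nd (nat_lit 209) (nat_lit 0) (cs (rf (nat_lit 2)) (cs (rf (nat_lit 9)) (rf (nat_lit 10))))) (cs (rf (nat_lit 11)) (rf (nat_lit 12)))))))) (cs (nd (nat_lit 231) (nat_lit 0) (cs (rf (nat_lit 1)) (cs (nd (nat_lit 209) (nat_lit 0) (cs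 (rf (nat_lit 13)) (cs (rf (nat_lit 14)) (cs (rf (nat_lit 15)) (nd (nat_lit 208) (nat_lit 0) (cs (rf (nat_lit 16)) (cs (rf (nat_lit 17)) (rf (nat_lit 18))))))))) (cs (rf (nat_lit 19)) (cs (rf (nat_lit 20)) (cs (rf (nat_lit 21)) (cs (rf (nat_lit 22)) (nd (nat_lit 229) (nat_lit 0) (cs (rf (nat_lit 23)) (cs (rf (nat_lit 24)) (nd (nat_lit 232) (nat_lit 0) (cs (rf (nat_lit 25)) (cs (rf (nat_lit 26)) (nd (nat_lit 208) (nat_lit 0) (cs (rf (nat_lit 16)) (cs (rf (nat_lit 27)) (rf (nat_lit 28)))))))))))))))))) (cs (nd (nat_lit 231) (nat_lit 0) (cs (rf (nat_lit 29)) (cs (rf (nat_lit 30)) (cs (rf (nat_lit 8)) (cs (rf (nat_lit 21)) (cs (rf (nat_lit 31)) (cs (rf (nat_lit 32)) (cs (nd (nat_lit 274) (nat_lit 0) (cs (rf (nat_lit 33)) (cs (rf (nat_lit 34)) (rf (nat_lit 35))))) (nd (nat_lit 274) (nat_lit 0) (cs (rf (nat_lit 33)) (cs (rf (nat_lit 36)) (nd (nat_lit 254) (nat_lit 0) (cs (rf (nat_lit 37)) (nd (nat_lit 232) (nat_lit 0)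 (cs (rf (nat_lit 38)) (cs (rf (nat_lit 39)) (cs (nd (nat_lit 233) (nat_lit 0) (cs (lf (nat_lit 6) (nat_lit 230)) (nd (nat_lit 211) (nat_lit 0) (cs (lf (nat_lit 17) (nat_lit 208)) (nd (nat_lit 167) (nat_lit 0) (cs (lf (nat_lit 37) (nat_lit 166)) (nd (nat_lit 276) (nat_lit 0) (cs (lf (nat_lit 30) (nat_lit 210)) (rf (nat_lit 40)))))))))) (nd (nat_lit 233) (nat_lit 0) (cs (lf (nat_lit 6) (nat_lit 230)) (nd (nat_lit 187) (nat_lit 0) (cs (lf (nat_lit 37) (nat_lit 186)) (rf (nat_lit 40))))))))))))))))))))))) (cs (rf (nat_lit 41)) (cs (rf (nat_lit 42)) (cs (rf (nat_lit 43)) (cs (rf (nat_lit 44)) (cs (rf (nat_lit 45)) (cs (rf (nat_lit 46)) (cs (rf (nat_lit 47)) (cs (rf (nat_lit 48)) (cs (rf (nat_lit 49)) (nd (nat_lit 208) (nat_lit 0) (cs (rf (nat_lit 50)) (cs (rf (nat_lit 51)) (cs (rf (nat_lit 52)) (cs (rf (nat_lit 53)) (nd (nat_lit 209) (nat_lit 0) (cs (rf (nat_lit 54)) (cs (rf (nat_lit 55)) (cs (rf (nat_lit 56)) (nd (nat_lit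 231) (nat_lit 0) (cs (rf (nat_lit 9)) (cs (rf (nat_lit 18)) (cs (rf (nat_lit 31)) (rf (nat_lit 57))))))))))))))))))))))))))))) q110325 (by decide +kernel)
def q110586 : Q := Q.p (nat_lit 0x3000000000000000000000000000000000000000000000000000000000000000) (nat_lit 0x80000b80003f8001fe000ff8001c8000ffe003ff0007fe000fc0003e00003000008000000000000000000000000) (nat_lit 17)
theorem c110586 : QOK q110586 := cut [q110051, q110185, q110227, q110268, q110283, q110309, q110314, q110315, q79028, q106098, q110536, q110533, q79118, q79123, q106084, q106078, q110503, q110554, q110560, q80232, q106115, q110107, q110112, q110565, q110567, q110550, q96534, q106138, q79093, q82300, q86612, q94096, q110163, q110584] ⟨c110051, c110185, c110227, c110268, c110283, c110309, c110314, c110315, c79028, c106098, c110536, c110533, c79118, c79123, c106084, c106078, c110503, c110554, c110560, c80232, c106115, c110107, c110112, c110565, c110567,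 c110550, c96534, c106138, c79093, c82300, c86612, c94096, c110163, c110584, trivial⟩ (nd (nat_lit 230) (nat_lit 0) (cs (rf (nat_lit 0)) (cs (rf (nat_lit 1)) (cs (rf (nat_lit 2)) (cs (rf (nat_lit 3)) (cs (rf (nat_lit 4)) (cs (rf (nat_lit 5)) (cs (rf (nat_lit 6)) (cs (rf (nat_lit 7)) (cs (nd (nat_lit 254) (nat_lit 0) (cs (rf (nat_lit 8)) (cs (rf (nat_lit 9)) (rf (nat_lit 10))))) (cs (nd (nat_lit 254) (nat_lit 0) (cs (rf (nat_lit 8)) (cs (rf (nat_lit 11)) (cs (nd (nat_lit 232) (nat_lit 0) (cs (rf (nat_lit 12)) (cs (nd (nat_lit 210) (nat_lit 0) (cs (rf (nat_lit 13)) (cs (rf (nat_lit 14)) (cs (nd (nat_lit 276) (nat_lit 0) (cs (rf (nat_lit 15)) (cs (rf (nat_lit 16)) (nd (nat_lit 187) (nat_lit 0) (cs (lf (nat_lit 46) (nat_lit 187)) (nd (nat_lit 251) (nat_lit 0) (cs (lf (nat_lit 5) (nat_lit 251)) (nd (nat_lit 272) (nat_lit 0) (cs (lf (nat_lit 10) (nat_lit 250)) (nd (nat_lit 229) (nat_lit 0) (cs (lf (nat_lit 23) (nat_lit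 228)) (rf (nat_lit 17))))))))))))) (rf (nat_lit 18)))))) (cs (nd (nat_lit 231) (nat_lit 0) (cs (rf (nat_lit 19)) (cs (rf (nat_lit 20)) (cs (rf (nat_lit 21)) (rf (nat_lit 22)))))) (rf (nat_lit 23)))))) (rf (nat_lit 24)))))) (cs (nd (nat_lit 254) (nat_lit 0) (cs (rf (nat_lit 8)) (cs (rf (nat_lit 25)) (nd (nat_lit 232) (nat_lit 0) (cs (rf (nat_lit 12)) (cs (rf (nat_lit 23)) (cs (nd (nat_lit 231) (nat_lit 0) (cs (rf (nat_lit 26)) (cs (rf (nat_lit 27)) (cs (nd (nat_lit 209) (nat_lit 0) (cs (rf (nat_lit 28)) (cs (rf (nat_lit 29)) (nd (nat_lit 274) (nat_lit 0) (cs (lf (nat_lit 30) (nat_lit 208)) (nd (nat_lit 276) (nat_lit 0) (cs (lf (nat_lit 42) (nat_lit 209)) (nd (nat_lit 251) (nat_lit 0) (cs (lf (nat_lit 5) (nat_lit 251)) (rf (nat_lit 30))))))))))) (nd (nat_lit 229) (nat_lit 0) (cs (lf (nat_lit 0) (nat_lit 228)) (nd (nat_lit 210) (nat_lit 0) (cs (lf (nat_lit 17) (nat_lit 207)) (nd (nat_lit 207) (nat_lit 0) (cs (lf (nat_lit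 23) (nat_lit 206)) (nd (nat_lit 163) (nat_lit 0) (cs (lf (nat_lit 25) (nat_lit 163)) (nd (nat_lit 274) (nat_lit 0) (cs (lf (nat_lit 42) (nat_lit 207)) (nd (nat_lit 209) (nat_lit 0) (cs (lf (nat_lit 36) (nat_lit 186)) (nd (nat_lit 276) (nat_lit 0) (cs (lf (nat_lit 42) (nat_lit 209)) (rf (nat_lit 15)))))))))))))))))))) (nd (nat_lit 231) (nat_lit 0) (cs (rf (nat_lit 31)) (cs (rf (nat_lit 27)) (rf (nat_lit 32)))))))))))) (nd (nat_lit 254) (nat_lit 0) (cs (rf (nat_lit 8)) (cs (rf (nat_lit 11)) (cs (rf (nat_lit 24)) (rf (nat_lit 33)))))))))))))))))) q110586 (by decide +kernel)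
def q112749 : Q := Q.p (nat_lit 0x2000000000000000000000000000000000000000000000000000000000000000) (nat_lit 0xe0000f80007e0001fe0007f8007fe007ffe00fdf007ffe007fe000ff0003fc000ff00000000000000000000000000000000000) (nat_lit 20)
theorem c112749 : QOK q112749 := cut [q111576, q111913, q79233, q80454, q80466, q111927, q111928, q111929, q111963, q80607, q80610, q80625, q80577, q93924, q111926, q111965, q79217, q80425, q81927, q111984, q112128, q81098, q81304, q111983, q112147, q112148, q112195, q112300, q80428, q80609, q105822, q81312, q81722, q98210, q112303, q112368, q112435, q81660, q81661, q81726, q81753, q92327, q112437, q112449, q79118, q81730, q106987, q112454, q112554, q112586, q112623, q112691, q81988, q111943, q111960, q111961, q112693, q112383, q112390, q112694, q112741, q79257, q112558, q112307, q112748] ⟨c111576, c111913, c79233, c80454, c80466, c111927, c111928, c111929, c111963, c80607, c80610, c80625,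 c80577, c93924, c111926, c111965, c79217, c80425, c81927, c111984, c112128, c81098, c81304, c111983, c112147, c112148, c112195, c112300, c80428, c80609, c105822, c81312, c81722, c98210, c112303, c112368, c112435, c81660, c81661, c81726, c81753, c92327, c112437, c112449, c79118, c81730, c106987, c112454, c112554, c112586, c112623, c112691, c81988, c111943, c111960, c111961, c112693, c112383, c112390, c112694, c112741, c79257, c112558, c112307, c112748, trivial⟩ (nd (nat_lit 254) (nat_lit 0) (cs (rf (nat_lit 0)) (cs (rf (nat_lit 1)) (cs (nd (nat_lit 252) (nat_lit 0) (cs (rf (nat_lit 2)) (cs (rf (nat_lit 3)) (cs (rf (nat_lit 4)) (cs (rf (nat_lit 5)) (cs (rf (nat_lit 6)) (rf (nat_lit 7)))))))) (cs (rf (nat_lit 8)) (cs (nd (nat_lit 252) (nat_lit 0) (cs (rf (nat_lit 4)) (cs (rf (nat_lit 9)) (cs (rf (nat_lit 10)) (cs (rf (nat_lit 11)) (cs (rf (nat_lit 6)) (cs (nd (nat_lit 255) (nat_lit 0) (cs (rf (nat_lit 12)) (cs (rf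 (nat_lit 13)) (cs (rf (nat_lit 14)) (rf (nat_lit 15)))))) (nd (nat_lit 255) (nat_lit 0) (cs (rf (nat_lit 16)) (cs (rf (nat_lit 17)) (rf (nat_lit 18)))))))))))) (cs (rf (nat_lit 19)) (cs (rf (nat_lit 20)) (cs (nd (nat_lit 255) (nat_lit 0) (cs (rf (nat_lit 21)) (cs (rf (nat_lit 22)) (cs (rf (nat_lit 23)) (cs (rf (nat_lit 24)) (cs (rf (nat_lit 25)) (cs (rf (nat_lit 26)) (cs (rf (nat_lit 27)) (cs (nd (nat_lit 252) (nat_lit 0) (cs (rf (nat_lit 28)) (cs (rf (nat_lit 29)) (rf (nat_lit 30))))) (cs (nd (nat_lit 256) (nat_lit 0) (cs (rf (nat_lit 31)) (cs (rf (nat_lit 32)) (rf (nat_lit 33))))) (rf (nat_lit 34)))))))))))) (cs (rf (nat_lit 35)) (cs (rf (nat_lit 36)) (cs (nd (nat_lit 252) (nat_lit 0) (cs (rf (nat_lit 4)) (cs (rf (nat_lit 37)) (cs (rf (nat_lit 38)) (cs (rf (nat_lit 39)) (cs (rf (nat_lit 40)) (cs (rf (nat_lit 41)) (cs (rf (nat_lit 42)) (cs (rf (nat_lit 43)) (nd (nat_lit 232) (nat_lit 0) (cs (rf (nat_lit 44)) (cs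 (rf (nat_lit 45)) (cs (rf (nat_lit 46)) (rf (nat_lit 47))))))))))))))) (cs (rf (nat_lit 48)) (cs (rf (nat_lit 49)) (cs (rf (nat_lit 50)) (cs (rf (nat_lit 51)) (cs (nd (nat_lit 255) (nat_lit 0) (cs (rf (nat_lit 52)) (cs (rf (nat_lit 53)) (cs (rf (nat_lit 54)) (cs (rf (nat_lit 55)) (cs (rf (nat_lit 24)) (cs (rf (nat_lit 25)) (cs (rf (nat_lit 27)) (rf (nat_lit 34)))))))))) (cs (rf (nat_lit 56)) (cs (nd (nat_lit 255) (nat_lit 0) (cs (rf (nat_lit 53)) (cs (rf (nat_lit 54)) (cs (rf (nat_lit 55)) (cs (rf (nat_lit 25)) (cs (rf (nat_lit 57)) (cs (rf (nat_lit 58)) (rf (nat_lit 59))))))))) (cs (rf (nat_lit 60)) (cs (nd (nat_lit 252) (nat_lit 0) (cs (rf (nat_lit 2)) (cs (rf (nat_lit 61)) (cs (rf (nat_lit 5)) (cs (rf (nat_lit 6)) (rf (nat_lit 62))))))) (cs (nd (nat_lit 252) (nat_lit 0) (cs (rf (nat_lit 2)) (cs (rf (nat_lit 61)) (cs (rf (nat_lit 3)) (cs (rf (nat_lit 6)) (cs (rf (nat_lit 7)) (rf (nat_lit 42)))))))) (cs (nd (nat_lit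 252) (nat_lit 0) (cs (rf (nat_lit 2)) (cs (rf (nat_lit 3)) (cs (rf (nat_lit 4)) (cs (rf (nat_lit 6)) (cs (rf (nat_lit 7)) (rf (nat_lit 63)))))))) (rf (nat_lit 64))))))))))))))))))))))))) q112749 (by decide +kernel)
def q113990 : Q := Q.p (nat_lit 0x2000000000000000000000000000000000000000000000000000000000000000) (nat_lit 0x700003f0003ff000ff8007ff001ffc003df801ffe007ff800ffc001fe0007f00005400000000000000000000000000000) (nat_lit 19)
theorem c113990 : QOK q113990 := cut [q112942, q113108, q98822, q101562, q112791, q113113, q113114, q113115, q113116, q107383, q32034, q94433, q112785, q108258, q112792, q84365, q113112, q113129, q113141, q113150, q109022, q113152, q113159, q113160, q113161, q113162, q109529, q113164, q113173, q113177, q98797, q99286, q99294, q113273, q113346, q113537, q113627, q113679, q113810, q113874, q113921, q113958, q113968, q113359, q113451, q100729, q113690, q113967, q81706, q113973, q113986,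 q113877, q98372, q112789, q112790, q113812, q113962] ⟨c112942, c113108, c98822, c101562, c112791, c113113, c113114, c113115, c113116, c107383, c32034, c94433, c112785, c108258, c112792, c84365, c113112, c113129, c113141, c113150, c109022, c113152, c113159, c113160, c113161, c113162, c109529, c113164, c113173, c113177, c98797, c99286, c99294, c113273, c113346, c113537, c113627, c113679, c113810, c113874, c113921, c113958, c113968, c113359, c113451, c100729, c113690, c113967, c81706, c113973, c113986, c113877, c98372, c112789, c112790, c113812, c113962, trivial⟩ (nd (nat_lit 275) (nat_lit 0) (cs (rf (nat_lit 0)) (cs (rf (nat_lit 1)) (cs (nd (nat_lit 231) (nat_lit 0) (cs (rf (nat_lit 2)) (cs (rf (nat_lit 3)) (cs (rf (nat_lit 4)) (cs (rf (nat_lit 5)) (cs (rf (nat_lit 6)) (cs (rf (nat_lit 7)) (rf (nat_lit 8))))))))) (cs (nd (nat_lit 231) (nat_lit 0) (cs (rf (nat_lit 3)) (cs (rf (nat_lit 9)) (cs (nd (nat_lit 297) (nat_lit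 0) (cs (rf (nat_lit 10)) (cs (rf (nat_lit 11)) (cs (rf (nat_lit 12)) (nd (nat_lit 298) (nat_lit 0) (cs (lf (nat_lit 29) (nat_lit 231)) (nd (nat_lit 296) (nat_lit 0) (cs (lf (nat_lit 41) (nat_lit 230)) (rf (nat_lit 13)))))))))) (cs (rf (nat_lit 14)) (cs (nd (nat_lit 297) (nat_lit 0) (cs (rf (nat_lit 15)) (cs (rf (nat_lit 13)) (rf (nat_lit 16))))) (cs (rf (nat_lit 17)) (rf (nat_lit 18))))))))) (cs (nd (nat_lit 297) (nat_lit 0) (cs (rf (nat_lit 19)) (cs (nd (nat_lit 231) (nat_lit 0) (cs (rf (nat_lit 10)) (cs (rf (nat_lit 11)) (cs (rf (nat_lit 20)) (rf (nat_lit 12)))))) (cs (rf (nat_lit 21)) (cs (rf (nat_lit 22)) (cs (rf (nat_lit 23)) (cs (rf (nat_lit 24)) (rf (nat_lit 25))))))))) (cs (nd (nat_lit 297) (nat_lit 0) (cs (rf (nat_lit 26)) (cs (rf (nat_lit 27)) (cs (rf (nat_lit 28)) (cs (rf (nat_lit 29)) (nd (nat_lit 231) (nat_lit 0) (cs (rf (nat_lit 11)) (cs (rf (nat_lit 30)) (cs (rf (nat_lit 31)) (rf (nat_lit 32)))))))))))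 (cs (rf (nat_lit 33)) (cs (rf (nat_lit 34)) (cs (rf (nat_lit 35)) (cs (rf (nat_lit 36)) (cs (rf (nat_lit 37)) (cs (rf (nat_lit 38)) (cs (rf (nat_lit 39)) (cs (rf (nat_lit 40)) (cs (rf (nat_lit 41)) (cs (rf (nat_lit 42)) (cs (nd (nat_lit 297) (nat_lit 0) (cs (rf (nat_lit 26)) (cs (rf (nat_lit 19)) (cs (rf (nat_lit 23)) (cs (rf (nat_lit 24)) (cs (rf (nat_lit 43)) (cs (rf (nat_lit 44)) (nd (nat_lit 231) (nat_lit 0) (cs (rf (nat_lit 10)) (cs (rf (nat_lit 45)) (rf (nat_lit 13)))))))))))) (cs (nd (nat_lit 297) (nat_lit 0) (cs (rf (nat_lit 26)) (cs (rf (nat_lit 19)) (cs (rf (nat_lit 23)) (cs (rf (nat_lit 24)) (cs (rf (nat_lit 46)) (cs (rf (nat_lit 47)) (nd (nat_lit 231) (nat_lit 0) (cs (rf (nat_lit 48)) (cs (rf (nat_lit 30)) (rf (nat_lit 13)))))))))))) (cs (rf (nat_lit 49)) (cs (rf (nat_lit 50)) (cs (nd (nat_lit 231) (nat_lit 0) (cs (rf (nat_lit 4)) (cs (rf (nat_lit 14)) (cs (rf (nat_lit 5)) (cs (rf (nat_lit 8)) (rf (nat_lit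 51))))))) (cs (nd (nat_lit 231) (nat_lit 0) (cs (rf (nat_lit 52)) (cs (rf (nat_lit 53)) (cs (rf (nat_lit 54)) (cs (rf (nat_lit 14)) (cs (rf (nat_lit 5)) (rf (nat_lit 55)))))))) (nd (nat_lit 297) (nat_lit 0) (cs (rf (nat_lit 22)) (cs (rf (nat_lit 24)) (cs (rf (nat_lit 25)) (cs (rf (nat_lit 28)) (rf (nat_lit 56)))))))))))))))))))))))))))))) q113990 (by decide +kernel)
def q114156 : Q := Q.p (nat_lit 0x3000004000000000000000000000000000000000000000000000000000000000) (nat_lit 0xa0001fe0007f80000e0000200003e0003e0000380000e00003000008000000000000000000000000) (nat_lit 12)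
theorem c114156 : QOK q114156 := cut [q5353, q79029, q110050, q84155, q110040, q114154] ⟨c5353, c79029, c110050, c84155, c110040, c114154, trivial⟩ (nd (nat_lit 208) (nat_lit 0) (cs (rf (nat_lit 0)) (cs (rf (nat_lit 1)) (cs (rf (nat_lit 2)) (nd (nat_lit 274) (nat_lit 0) (cs (rf (nat_lit 3)) (cs (rf (nat_lit 4)) (rf (nat_lit 5))))))))) q114156 (by decide +kernel)
def q114241 : Q := Q.p (nat_lit 0x3000004000010000000000000000000000000000000000000000000000000000) (nat_lit 0x80000380000e0001fe0007f80000e00008000060000180000000000000000000000000000000000000000000000) (nat_lit 11)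
theorem c114241 : QOK q114241 := cut [q110186, q110232, q110888, q114154] ⟨c110186, c110232, c110888, c114154, trivial⟩ (nd (nat_lit 274) (nat_lit 0) (cs (rf (nat_lit 0)) (cs (rf (nat_lit 1)) (cs (rf (nat_lit 2)) (rf (nat_lit 3)))))) q114241 (by decide +kernel)
def q114930 : Q := Q.p (nat_lit 0x800002000000000000000000000000000000000000000000000000000000000000000) (nat_lit 0x3f8000ff8003fe001f7f003df800f7c000fe0003f80001e0000500000000000000000000000000000000000) (nat_lit 17)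
theorem c114930 : QOK q114930 := cut [q114753, q97408, q98384, q98389, q114756, q114758, q105307, q79068, q98468, q105309, q105314, q105321, q110057, q105312, q114760, q91660, q91664, q99030, q99105, q700, q14689, q98696, q13445, q108450, q114769, q99110, q99124, q99144, q99145, q99154, q99139, q99172, q110353, q114790, q114792, q114832, q114837, q114879, q114886, q114888, q114905, q114908, q1999, q2066, q2091, q114904, q98766, q98781, q108981, q2059, q89807, q98946, q114924, q114741] ⟨c114753, c97408, c98384, c98389, c114756, c114758, c105307, c79068, c98468, c105309, c105314, c105321, c110057, c105312, c114760, c91660, c91664, c99030, c99105, c700, c14689, c98696, c13445, c108450, c114769, c99110, c99124, c99144, c99145, c99154, c99139, c99172, c110353, c114790, c114792, c114832, c114837, c114879, c114886, c114888, c114905, c114908, c1999, c2066, c2091, c114904, c98766, c98781, c108981, c2059, c89807, c98946,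 c114924, c114741, trivial⟩ (nd (nat_lit 252) (nat_lit 0) (cs (rf (nat_lit 0)) (cs (nd (nat_lit 274) (nat_lit 0) (cs (nd (nat_lit 273) (nat_lit 0) (cs (rf (nat_lit 1)) (cs (rf (nat_lit 2)) (rf (nat_lit 3))))) (cs (rf (nat_lit 4)) (cs (rf (nat_lit 5)) (cs (nd (nat_lit 273) (nat_lit 0) (cs (rf (nat_lit 1)) (cs (rf (nat_lit 2)) (rf (nat_lit 6))))) (nd (nat_lit 230) (nat_lit 0) (cs (rf (nat_lit 7)) (cs (rf (nat_lit 8)) (nd (nat_lit 276) (nat_lit 0) (cs (rf (nat_lit 9)) (cs (rf (nat_lit 10)) (cs (rf (nat_lit 11)) (cs (rf (nat_lit 12)) (nd (nat_lit 254) (nat_lit 0) (cs (rf (nat_lit 13)) (rf (nat_lit 14))))))))))))))))) (cs (nd (nat_lit 274) (nat_lit 0) (cs (rf (nat_lit 4)) (cs (nd (nat_lit 273) (nat_lit 0) (cs (rf (nat_lit 15)) (cs (rf (nat_lit 16)) (cs (rf (nat_lit 17)) (rf (nat_lit 18)))))) (cs (nd (nat_lit 276) (nat_lit 0) (cs (rf (nat_lit 19)) (cs (rf (nat_lit 20)) (rf (nat_lit 21))))) (cs (nd (nat_lit 276) (nat_lit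 0) (cs (rf (nat_lit 19)) (cs (rf (nat_lit 20)) (nd (nat_lit 273) (nat_lit 0) (cs (rf (nat_lit 22)) (cs (rf (nat_lit 16)) (rf (nat_lit 23)))))))) (cs (rf (nat_lit 24)) (cs (nd (nat_lit 272) (nat_lit 0) (cs (rf (nat_lit 25)) (cs (rf (nat_lit 26)) (cs (rf (nat_lit 27)) (cs (rf (nat_lit 28)) (cs (rf (nat_lit 29)) (nd (nat_lit 230) (nat_lit 0) (cs (rf (nat_lit 7)) (cs (rf (nat_lit 8)) (rf (nat_lit 30))))))))))) (nd (nat_lit 230) (nat_lit 0) (cs (rf (nat_lit 7)) (cs (rf (nat_lit 31)) (rf (nat_lit 32)))))))))))) (cs (rf (nat_lit 33)) (cs (rf (nat_lit 34)) (cs (rf (nat_lit 35)) (cs (rf (nat_lit 36)) (cs (rf (nat_lit 37)) (cs (rf (nat_lit 38)) (cs (rf (nat_lit 39)) (cs (rf (nat_lit 40)) (cs (rf (nat_lit 41)) (cs (nd (nat_lit 251) (nat_lit 0) (cs (rf (nat_lit 42)) (cs (rf (nat_lit 43)) (cs (rf (nat_lit 44)) (cs (rf (nat_lit 45)) (nd (nat_lit 273) (nat_lit 0) (cs (rf (nat_lit 46)) (cs (rf (nat_lit 47)) (cs (rf (nat_lit 48))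 (cs (nd (nat_lit 274) (nat_lit 0) (cs (rf (nat_lit 49)) (cs (rf (nat_lit 50)) (cs (rf (nat_lit 17)) (nd (nat_lit 230) (nat_lit 0) (cs (rf (nat_lit 7)) (cs (rf (nat_lit 51)) (rf (nat_lit 32))))))))) (rf (nat_lit 52)))))))))))) (nd (nat_lit 251) (nat_lit 0) (cs (rf (nat_lit 42)) (cs (rf (nat_lit 43)) (cs (rf (nat_lit 44)) (cs (rf (nat_lit 53)) (nd (nat_lit 273) (nat_lit 0) (cs (rf (nat_lit 46)) (cs (rf (nat_lit 47)) (cs (rf (nat_lit 48)) (cs (rf (nat_lit 52)) (nd (nat_lit 274) (nat_lit 0) (cs (rf (nat_lit 49)) (cs (rf (nat_lit 50)) (cs (rf (nat_lit 17)) (rf (nat_lit 4)))))))))))))))))))))))))))))) q114930 (by decide +kernel)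
def q115150 : Q := Q.p (nat_lit 0x800002000000000000000000000000000000000000000000000000000000000000000) (nat_lit 0x20000fc0003f0003df000f7e003dfc00ffc007fe000ff0000500000000000000000000000000000000000000000) (nat_lit 16)
theorem c115150 : QOK q115150 := cut [q114940, q114993, q108397, q108780, q108819, q114950, q24705, q98547, q114904, q98468, q105227, q105295, q112956, q114997, q11506, q25707, q56633, q57678, q79079, q86391, q113030, q115019, q97408, q114939, q99005, q103856, q107326, q115046, q115063, q115086, q97409, q14764, q100541, q98386, q108662, q98546, q108403, q115095, q115107, q115130, q11768, q98137, q14769, q114941, q114972, q115008, q114954, q114931, q90588, q99019, q24704, q115149] ⟨c114940, c114993, c108397, c108780, c108819, c114950, c24705, c98547, c114904, c98468, c105227, c105295, c112956, c114997, c11506, c25707, c56633, c57678, c79079, c86391, c113030, c115019, c97408, c114939, c99005, c103856,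 c107326, c115046, c115063, c115086, c97409, c14764, c100541, c98386, c108662, c98546, c108403, c115095, c115107, c115130, c11768, c98137, c14769, c114941, c114972, c115008, c114954, c114931, c90588, c99019, c24704, c115149, trivial⟩ (nd (nat_lit 274) (nat_lit 0) (cs (rf (nat_lit 0)) (cs (rf (nat_lit 1)) (cs (nd (nat_lit 252) (nat_lit 0) (cs (rf (nat_lit 2)) (cs (rf (nat_lit 3)) (cs (rf (nat_lit 4)) (cs (rf (nat_lit 5)) (cs (nd (nat_lit 251) (nat_lit 0) (cs (rf (nat_lit 6)) (cs (rf (nat_lit 7)) (rf (nat_lit 8))))) (cs (nd (nat_lit 230) (nat_lit 0) (cs (rf (nat_lit 9)) (cs (rf (nat_lit 10)) (cs (rf (nat_lit 11)) (rf (nat_lit 12)))))) (cs (rf (nat_lit 13)) (nd (nat_lit 296) (nat_lit 0) (cs (rf (nat_lit 14)) (cs (rf (nat_lit 15)) (nd (nat_lit 208) (nat_lit 0) (cs (nd (nat_lit 209) (nat_lit 0) (cs (lf (nat_lit 37) (nat_lit 208)) (rf (nat_lit 16)))) (cs (nd (nat_lit 230) (nat_lit 0) (cs (lf (nat_lit 24) (nat_lit 186))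 (rf (nat_lit 17)))) (cs (nd (nat_lit 254) (nat_lit 0) (cs (rf (nat_lit 18)) (cs (rf (nat_lit 19)) (nd (nat_lit 209) (nat_lit 0) (cs (lf (nat_lit 37) (nat_lit 208)) (rf (nat_lit 20))))))) (nd (nat_lit 209) (nat_lit 0) (cs (lf (nat_lit 37) (nat_lit 208)) (nd (nat_lit 230) (nat_lit 0) (cs (lf (nat_lit 35) (nat_lit 186)) (rf (nat_lit 17))))))))))))))))))))) (cs (rf (nat_lit 21)) (cs (nd (nat_lit 273) (nat_lit 0) (cs (rf (nat_lit 22)) (cs (rf (nat_lit 23)) (nd (nat_lit 276) (nat_lit 0) (cs (rf (nat_lit 24)) (cs (rf (nat_lit 25)) (rf (nat_lit 26)))))))) (cs (rf (nat_lit 27)) (cs (rf (nat_lit 28)) (cs (rf (nat_lit 29)) (cs (nd (nat_lit 273) (nat_lit 0) (cs (rf (nat_lit 22)) (cs (rf (nat_lit 30)) (cs (nd (nat_lit 295) (nat_lit 0) (cs (rf (nat_lit 31)) (cs (nd (nat_lit 276) (nat_lit 0) (cs (lf (nat_lit 11) (nat_lit 272)) (rf (nat_lit 32)))) (nd (nat_lit 252) (nat_lit 0) (cs (rf (nat_lit 33)) (cs (rf (nat_lit 34)) (nd (nat_lit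 251) (nat_lit 0) (cs (rf (nat_lit 6)) (cs (rf (nat_lit 35)) (nd (nat_lit 254) (nat_lit 0) (cs (lf (nat_lit 6) (nat_lit 251)) (rf (nat_lit 36))))))))))))) (rf (nat_lit 37)))))) (cs (rf (nat_lit 38)) (cs (rf (nat_lit 39)) (cs (nd (nat_lit 273) (nat_lit 0) (cs (rf (nat_lit 22)) (cs (rf (nat_lit 30)) (cs (rf (nat_lit 37)) (nd (nat_lit 251) (nat_lit 0) (cs (rf (nat_lit 40)) (cs (rf (nat_lit 41)) (cs (nd (nat_lit 252) (nat_lit 0) (cs (rf (nat_lit 42)) (cs (rf (nat_lit 6)) (rf (nat_lit 43))))) (nd (nat_lit 252) (nat_lit 0) (cs (rf (nat_lit 35)) (cs (rf (nat_lit 44)) (cs (rf (nat_lit 45)) (nd (nat_lit 276) (nat_lit 0) (cs (lf (nat_lit 18) (nat_lit 251)) (nd (nat_lit 294) (nat_lit 0) (cs (lf (nat_lit 10) (nat_lit 272)) (nd (nat_lit 254) (nat_lit 0) (cs (lf (nat_lit 6) (nat_lit 251)) (nd (nat_lit 232) (nat_lit 0) (cs (lf (nat_lit 17) (nat_lit 229)) (nd (nat_lit 210) (nat_lit 0) (cs (lf (nat_lit 36) (nat_lit 187)) (rf (nat_lit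 46)))))))))))))))))))))))) (cs (nd (nat_lit 273) (nat_lit 0) (cs (rf (nat_lit 47)) (cs (rf (nat_lit 37)) (cs (nd (nat_lit 276) (nat_lit 0) (cs (rf (nat_lit 48)) (rf (nat_lit 25)))) (cs (nd (nat_lit 272) (nat_lit 0) (cs (lf (nat_lit 17) (nat_lit 250)) (rf (nat_lit 49)))) (nd (nat_lit 272) (nat_lit 0) (cs (lf (nat_lit 17) (nat_lit 250)) (nd (nat_lit 252) (nat_lit 0) (cs (lf (nat_lit 12) (nat_lit 249)) (nd (nat_lit 250) (nat_lit 0) (cs (lf (nat_lit 23) (nat_lit 249)) (nd (nat_lit 251) (nat_lit 0) (cs (lf (nat_lit 18) (nat_lit 250)) (nd (nat_lit 227) (nat_lit 0) (cs (lf (nat_lit 22) (nat_lit 227)) (rf (nat_lit 50))))))))))))))))) (rf (nat_lit 51)))))))))))))))) q115150 (by decide +kernel)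
def q15136 : Q := Q.p (nat_lit 0x800002000000000010000000000000000000000000000000000000000000000000000) (nat_lit 0x570005fc001ffa01fffc07fff01fffc07f7f00f9fc03f7e003ef8007de0013e0000f80000000000000000000000000000000000) (nat_lit 18)
theorem c15136 : QOK q15136 := cut [q12652, q700, q2190, q2180, q12659, q12665, q12669, q12683, q12833, q12834, q12897, q12900, q12906, q12908, q12938, q12945, q12956, q12989, q13008, q13042, q13237, q13435, q5304, q13439, q13445, q13451, q13453, q14110, q14312, q14612, q14663, q14696, q14759, q14822, q14895, q14821, q13470, q14708, q14770, q14866, q14899, q13622, q14769, q14897, q14907, q15088, q15105, q14893, q13174, q13232, q13235, q15109, q13063, q13603, q15116, q15121, q15124, q15129, q13171, q13229, q15131] ⟨c12652, c700, c2190, c2180, c12659, c12665, c12669, c12683, c12833, c12834, c12897, c12900, c12906, c12908, c12938, c12945, c12956, c12989, c13008, c13042, c13237, c13435,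 c5304, c13439, c13445, c13451, c13453, c14110, c14312, c14612, c14663, c14696, c14759, c14822, c14895, c14821, c13470, c14708, c14770, c14866, c14899, c13622, c14769, c14897, c14907, c15088, c15105, c14893, c13174, c13232, c13235, c15109, c13063, c13603, c15116, c15121, c15124, c15129, c13171, c13229, c15131, trivial⟩ (nd (nat_lit 274) (nat_lit 0) (cs (nd (nat_lit 252) (nat_lit 0) (cs (rf (nat_lit 0)) (cs (nd (nat_lit 276) (nat_lit 0) (cs (rf (nat_lit 1)) (cs (rf (nat_lit 2)) (nd (nat_lit 273) (nat_lit 0) (cs (rf (nat_lit 3)) (cs (nd (nat_lit 251) (nat_lit 0) (cs (lf (nat_lit 0) (nat_lit 250)) (nd (nat_lit 295) (nat_lit 0) (cs (lf (nat_lit 11) (nat_lit 272)) (nd (nat_lit 298) (nat_lit 0) (cs (lf (nat_lit 5) (nat_lit 273)) (nd (nat_lit 320) (nat_lit 0) (cs (lf (nat_lit 42) (nat_lit 253)) (rf (nat_lit 4)))))))))) (rf (nat_lit 5)))))))) (rf (nat_lit 6))))) (cs (nd (nat_lit 273) (nat_lit 0) (cs (rf (nat_lit 7)) (cs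 (rf (nat_lit 8)) (cs (nd (nat_lit 297) (nat_lit 0) (cs (rf (nat_lit 9)) (cs (nd (nat_lit 296) (nat_lit 0) (cs (rf (nat_lit 10)) (cs (nd (nat_lit 272) (nat_lit 0) (cs (lf (nat_lit 0) (nat_lit 271)) (nd (nat_lit 250) (nat_lit 0) (cs (lf (nat_lit 23) (nat_lit 249)) (nd (nat_lit 251) (nat_lit 0) (cs (lf (nat_lit 18) (nat_lit 250)) (nd (nat_lit 229) (nat_lit 0) (cs (lf (nat_lit 24) (nat_lit 207)) (nd (nat_lit 295) (nat_lit 0) (cs (lf (nat_lit 34) (nat_lit 207)) (rf (nat_lit 11)))))))))))) (rf (nat_lit 12))))) (cs (rf (nat_lit 13)) (rf (nat_lit 14)))))) (cs (rf (nat_lit 15)) (cs (rf (nat_lit 16)) (cs (rf (nat_lit 17)) (cs (rf (nat_lit 18)) (rf (nat_lit 19)))))))))) (cs (rf (nat_lit 20)) (cs (rf (nat_lit 21)) (cs (nd (nat_lit 252) (nat_lit 0) (cs (rf (nat_lit 0)) (cs (nd (nat_lit 276) (nat_lit 0) (cs (rf (nat_lit 1)) (cs (nd (nat_lit 251) (nat_lit 0) (cs (rf (nat_lit 22)) (nd (nat_lit 273) (nat_lit 0) (cs (rf (nat_lit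 5)) (cs (nd (nat_lit 298) (nat_lit 0) (cs (lf (nat_lit 5) (nat_lit 273)) (nd (nat_lit 295) (nat_lit 0) (cs (lf (nat_lit 11) (nat_lit 272)) (nd (nat_lit 317) (nat_lit 0) (cs (lf (nat_lit 30) (nat_lit 251)) (nd (nat_lit 342) (nat_lit 0) (cs (lf (nat_lit 43) (nat_lit 253)) (rf (nat_lit 23)))))))))) (rf (nat_lit 24))))))) (rf (nat_lit 25))))) (rf (nat_lit 26))))) (cs (rf (nat_lit 27)) (cs (rf (nat_lit 28)) (cs (rf (nat_lit 29)) (cs (rf (nat_lit 30)) (cs (rf (nat_lit 31)) (cs (rf (nat_lit 32)) (cs (rf (nat_lit 33)) (cs (rf (nat_lit 34)) (cs (nd (nat_lit 252) (nat_lit 0) (cs (rf (nat_lit 0)) (cs (rf (nat_lit 35)) (nd (nat_lit 273) (nat_lit 0) (cs (rf (nat_lit 36)) (cs (rf (nat_lit 37)) (cs (rf (nat_lit 38)) (cs (rf (nat_lit 39)) (cs (nd (nat_lit 272) (nat_lit 0) (cs (lf (nat_lit 12) (nat_lit 249)) (rf (nat_lit 40)))) (nd (nat_lit 251) (nat_lit 0) (cs (rf (nat_lit 41)) (cs (rf (nat_lit 42)) (cs (nd (nat_lit 250) (nat_lit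 0) (cs (lf (nat_lit 0) (nat_lit 249)) (nd (nat_lit 272) (nat_lit 0) (cs (lf (nat_lit 12) (nat_lit 249)) (rf (nat_lit 43)))))) (rf (nat_lit 44))))))))))))))) (cs (rf (nat_lit 45)) (cs (rf (nat_lit 46)) (nd (nat_lit 252) (nat_lit 0) (cs (rf (nat_lit 0)) (cs (rf (nat_lit 47)) (nd (nat_lit 276) (nat_lit 0) (cs (rf (nat_lit 1)) (cs (rf (nat_lit 2)) (nd (nat_lit 318) (nat_lit 0) (cs (rf (nat_lit 48)) (cs (rf (nat_lit 49)) (cs (rf (nat_lit 50)) (cs (nd (nat_lit 320) (nat_lit 0) (cs (rf (nat_lit 51)) (cs (nd (nat_lit 319) (nat_lit 0) (cs (rf (nat_lit 52)) (cs (rf (nat_lit 53)) (cs (rf (nat_lit 54)) (rf (nat_lit 55)))))) (cs (rf (nat_lit 56)) (rf (nat_lit 57)))))) (nd (nat_lit 319) (nat_lit 0) (cs (rf (nat_lit 58)) (cs (rf (nat_lit 59)) (rf (nat_lit 60))))))))))))))))))))))))))))))))) q15136 (by decide +kernel)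
def q26049 : Q := Q.p (nat_lit 0x800002000000000010000000000000000000000000000000000000000000000000000) (nat_lit 0x170001fe000ffe003ff800ffe007ffc00f7e0039fc00e7e002ef8003bf0000e0000380000000000000000000000000000000000) (nat_lit 18)
theorem c26049 : QOK q26049 := cut [q23278, q25406, q25465, q25558, q25612, q25697, q14661, q22377, q23273, q23277, q12991, q23173, q25467, q13254, q22188, q22287, q22349, q25560, q14911, q15957, q25707, q700, q2190, q13232, q25463, q15109, q15124, q15129, q13603, q15116, q15121, q25414, q15108, q13166, q25887, q25947, q14695, q22314, q25549, q25552, q25556, q24755, q25690, q14689, q22310, q25565, q14678, q14692, q26027, q26048] ⟨c23278, c25406, c25465, c25558, c25612, c25697, c14661, c22377, c23273, c23277, c12991, c23173, c25467, c13254, c22188, c22287, c22349, c25560, c14911, c15957, c25707, c700, c2190, c13232, c25463, c15109, c15124, c15129, c13603, c15116, c15121, c25414, c15108,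 c13166, c25887, c25947, c14695, c22314, c25549, c25552, c25556, c24755, c25690, c14689, c22310, c25565, c14678, c14692, c26027, c26048, trivial⟩ (nd (nat_lit 274) (nat_lit 0) (cs (rf (nat_lit 0)) (cs (rf (nat_lit 1)) (cs (rf (nat_lit 2)) (cs (rf (nat_lit 3)) (cs (rf (nat_lit 4)) (cs (rf (nat_lit 5)) (cs (nd (nat_lit 276) (nat_lit 0) (cs (rf (nat_lit 6)) (cs (rf (nat_lit 7)) (cs (rf (nat_lit 8)) (cs (rf (nat_lit 9)) (cs (nd (nat_lit 273) (nat_lit 0) (cs (rf (nat_lit 10)) (cs (rf (nat_lit 11)) (rf (nat_lit 12))))) (nd (nat_lit 277) (nat_lit 0) (cs (rf (nat_lit 13)) (cs (rf (nat_lit 14)) (nd (nat_lit 252) (nat_lit 0) (cs (lf (nat_lit 23) (nat_lit 251)) (nd (nat_lit 296) (nat_lit 0) (cs (lf (nat_lit 11) (nat_lit 273)) (nd (nat_lit 255) (nat_lit 0) (cs (lf (nat_lit 17) (nat_lit 252)) (nd (nat_lit 230) (nat_lit 0) (cs (lf (nat_lit 29) (nat_lit 208)) (rf (nat_lit 15))))))))))))))))))) (cs (nd (nat_lit 252) (nat_lit 0)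 (cs (rf (nat_lit 16)) (cs (rf (nat_lit 17)) (cs (nd (nat_lit 296) (nat_lit 0) (cs (rf (nat_lit 18)) (cs (nd (nat_lit 295) (nat_lit 0) (cs (rf (nat_lit 19)) (nd (nat_lit 230) (nat_lit 0) (cs (lf (nat_lit 41) (nat_lit 229)) (rf (nat_lit 15)))))) (rf (nat_lit 20))))) (nd (nat_lit 276) (nat_lit 0) (cs (rf (nat_lit 21)) (cs (rf (nat_lit 22)) (nd (nat_lit 318) (nat_lit 0) (cs (rf (nat_lit 23)) (cs (rf (nat_lit 24)) (cs (nd (nat_lit 320) (nat_lit 0) (cs (rf (nat_lit 25)) (cs (rf (nat_lit 26)) (cs (rf (nat_lit 27)) (nd (nat_lit 319) (nat_lit 0) (cs (rf (nat_lit 28)) (cs (rf (nat_lit 29)) (cs (rf (nat_lit 30)) (rf (nat_lit 31)))))))))) (nd (nat_lit 320) (nat_lit 0) (cs (rf (nat_lit 32)) (nd (nat_lit 251) (nat_lit 0) (cs (lf (nat_lit 0) (nat_lit 250)) (nd (nat_lit 296) (nat_lit 0) (cs (lf (nat_lit 47) (nat_lit 229)) (nd (nat_lit 317) (nat_lit 0) (cs (lf (nat_lit 41) (nat_lit 251)) (nd (nat_lit 319) (nat_lit 0) (cs (lf (nat_lit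 29) (nat_lit 252)) (rf (nat_lit 33))))))))))))))))))))))) (cs (rf (nat_lit 34)) (cs (rf (nat_lit 35)) (cs (nd (nat_lit 252) (nat_lit 0) (cs (rf (nat_lit 36)) (cs (rf (nat_lit 16)) (cs (nd (nat_lit 273) (nat_lit 0) (cs (rf (nat_lit 37)) (cs (rf (nat_lit 38)) (cs (rf (nat_lit 39)) (rf (nat_lit 40)))))) (cs (nd (nat_lit 318) (nat_lit 0) (cs (nd (nat_lit 296) (nat_lit 0) (cs (lf (nat_lit 30) (nat_lit 252)) (rf (nat_lit 41)))) (cs (rf (nat_lit 24)) (cs (rf (nat_lit 42)) (nd (nat_lit 276) (nat_lit 0) (cs (rf (nat_lit 21)) (cs (rf (nat_lit 43)) (nd (nat_lit 273) (nat_lit 0) (cs (rf (nat_lit 44)) (cs (rf (nat_lit 45)) (nd (nat_lit 298) (nat_lit 0) (cs (lf (nat_lit 5) (nat_lit 273)) (nd (nat_lit 320) (nat_lit 0) (cs (lf (nat_lit 42) (nat_lit 253)) (nd (nat_lit 251) (nat_lit 0) (cs (lf (nat_lit 23) (nat_lit 250)) (nd (nat_lit 229) (nat_lit 0) (cs (lf (nat_lit 43) (nat_lit 229)) (nd (nat_lit 207) (nat_lit 0) (cs (lf (nat_lit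 24) (nat_lit 185)) (rf (nat_lit 46)))))))))))))))))))))) (nd (nat_lit 230) (nat_lit 0) (cs (lf (nat_lit 29) (nat_lit 208)) (nd (nat_lit 185) (nat_lit 0) (cs (lf (nat_lit 46) (nat_lit 185)) (rf (nat_lit 47))))))))))) (cs (rf (nat_lit 48)) (rf (nat_lit 49))))))))))))))) q26049 (by decide +kernel)
def q27947 : Q := Q.p (nat_lit 0x800002000000000010000000000000000000000000000000000000000000000000000) (nat_lit 0x700001f8003ff800fff007efc00f7f8039fe007ffe01eff007bfe007ff001ffc003fc0003e0000e000020000000000000) (nat_lit 18)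
theorem c27947 : QOK q27947 := cut [q26358, q12651, q26051, q26060, q26369, q26371, q26425, q27136, q27548, q3369, q24661, q25014, q27557, q27756, q25031, q27882, q27943, q23905, q24448, q24464, q24671, q25023, q23522, q23523, q24933, q26057] ⟨c26358, c12651, c26051, c26060, c26369, c26371, c26425, c27136, c27548, c3369, c24661, c25014, c27557, c27756, c25031, c27882, c27943, c23905, c24448, c24464, c24671, c25023, c23522, c23523, c24933, c26057, trivial⟩ (nd (nat_lit 206) (nat_lit 0) (cs (rf (nat_lit 0)) (cs (nd (nat_lit 231) (nat_lit 0) (cs (rf (nat_lit 1)) (cs (rf (nat_lit 2)) (cs (rf (nat_lit 3)) (cs (rf (nat_lit 4)) (rf (nat_lit 5))))))) (cs (rf (nat_lit 6)) (cs (rf (nat_lit 7)) (cs (rf (nat_lit 8)) (cs (nd (nat_lit 231) (nat_lit 0) (cs (rf (nat_lit 1)) (cs (rf (nat_lit 2)) (cs (rf (nat_lit 3)) (cs (rf (nat_lit 4)) (nd (nat_lit 207) (nat_lit 0) (cs (rf (nat_lit 9)) (cs (rf (nat_lit 10)) (rf (nat_lit 11))))))))))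 (cs (nd (nat_lit 231) (nat_lit 0) (cs (rf (nat_lit 1)) (cs (rf (nat_lit 2)) (cs (rf (nat_lit 3)) (cs (rf (nat_lit 5)) (rf (nat_lit 12))))))) (cs (rf (nat_lit 13)) (cs (nd (nat_lit 231) (nat_lit 0) (cs (rf (nat_lit 1)) (cs (rf (nat_lit 2)) (cs (rf (nat_lit 3)) (cs (rf (nat_lit 12)) (nd (nat_lit 207) (nat_lit 0) (cs (rf (nat_lit 9)) (cs (rf (nat_lit 10)) (rf (nat_lit 14)))))))))) (cs (rf (nat_lit 15)) (cs (rf (nat_lit 16)) (cs (nd (nat_lit 207) (nat_lit 0) (cs (rf (nat_lit 17)) (cs (rf (nat_lit 18)) (cs (rf (nat_lit 19)) (cs (rf (nat_lit 20)) (cs (rf (nat_lit 11)) (cs (rf (nat_lit 21)) (cs (rf (nat_lit 14)) (nd (nat_lit 205) (nat_lit 0) (cs (rf (nat_lit 22)) (cs (rf (nat_lit 23)) (rf (nat_lit 24))))))))))))) (nd (nat_lit 231) (nat_lit 0) (cs (rf (nat_lit 1)) (cs (rf (nat_lit 2)) (cs (rf (nat_lit 25)) (cs (rf (nat_lit 3)) (rf (nat_lit 5)))))))))))))))))))) q27947 (by decide +kernel)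
def q40515 : Q := Q.p (nat_lit 0x2000000000010000040000000000000000000000000000000000000000000000) (nat_lit 0xc0000fe0003f8009fe003bfe03cff01fbfe07fff01fffc07fff00fffc01ffe001ff0007fc001f80) (nat_lit 18)
theorem c40515 : QOK q40515 := cut [q33486, q35553, q32821, q35563, q35565, q3803, q32056, q35584, q35592, q32471, q35562, q35611, q35614, q35616, q617, q33046, q33064, q35621, q35626, q35634, q35636, q37205, q38231, q38613, q38889, q38911, q38999, q39031, q39067, q39245, q39274, q39723, q39742, q39820, q40222, q40294, q40436, q40505, q33024, q33065, q33116, q33348, q33462, q33480, q33453, q40391, q37814, q40506, q40508, q37167, q4829] ⟨c33486, c35553, c32821, c35563, c35565, c3803, c32056, c35584, c35592, c32471, c35562, c35611, c35614, c35616, c617, c33046, c33064, c35621, c35626, c35634, c35636, c37205, c38231, c38613, c38889, c38911, c38999, c39031, c39067, c39245, c39274, c39723, c39742, c39820, c40222, c40294,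 c40436, c40505, c33024, c33065, c33116, c33348, c33462, c33480, c33453, c40391, c37814, c40506, c40508, c37167, c4829, trivial⟩ (nd (nat_lit 162) (nat_lit 0) (cs (rf (nat_lit 0)) (cs (rf (nat_lit 1)) (cs (nd (nat_lit 164) (nat_lit 0) (cs (rf (nat_lit 2)) (cs (rf (nat_lit 3)) (cs (rf (nat_lit 4)) (cs (nd (nat_lit 163) (nat_lit 0) (cs (rf (nat_lit 5)) (cs (rf (nat_lit 6)) (cs (rf (nat_lit 7)) (rf (nat_lit 8)))))) (cs (nd (nat_lit 163) (nat_lit 0) (cs (rf (nat_lit 5)) (cs (rf (nat_lit 9)) (cs (rf (nat_lit 10)) (rf (nat_lit 11)))))) (cs (rf (nat_lit 12)) (cs (rf (nat_lit 13)) (cs (nd (nat_lit 142) (nat_lit 0) (cs (rf (nat_lit 14)) (cs (rf (nat_lit 15)) (cs (rf (nat_lit 16)) (cs (nd (nat_lit 207) (nat_lit 0) (cs (lf (nat_lit 41) (nat_lit 141)) (nd (nat_lit 120) (nat_lit 0) (cs (lf (nat_lit 40) (nat_lit 119)) (nd (nat_lit 99) (nat_lit 0) (cs (lf (nat_lit 34) (nat_lit 98)) (nd (nat_lit 98) (nat_lit 0) (cs (lf (nat_lit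 35) (nat_lit 76)) (rf (nat_lit 17)))))))))) (rf (nat_lit 18))))))) (cs (nd (nat_lit 142) (nat_lit 0) (cs (rf (nat_lit 14)) (cs (rf (nat_lit 15)) (cs (rf (nat_lit 16)) (cs (rf (nat_lit 18)) (rf (nat_lit 19))))))) (rf (nat_lit 20)))))))))))) (cs (rf (nat_lit 21)) (cs (rf (nat_lit 22)) (cs (rf (nat_lit 23)) (cs (rf (nat_lit 24)) (cs (rf (nat_lit 25)) (cs (rf (nat_lit 26)) (cs (rf (nat_lit 27)) (cs (rf (nat_lit 28)) (cs (rf (nat_lit 29)) (cs (rf (nat_lit 30)) (cs (rf (nat_lit 31)) (cs (rf (nat_lit 32)) (cs (rf (nat_lit 33)) (cs (rf (nat_lit 34)) (cs (rf (nat_lit 35)) (cs (rf (nat_lit 36)) (cs (rf (nat_lit 37)) (nd (nat_lit 164) (nat_lit 0) (cs (rf (nat_lit 2)) (cs (rf (nat_lit 38)) (cs (rf (nat_lit 39)) (cs (rf (nat_lit 40)) (cs (rf (nat_lit 41)) (cs (rf (nat_lit 42)) (cs (rf (nat_lit 43)) (cs (rf (nat_lit 4)) (cs (nd (nat_lit 163) (nat_lit 0) (cs (rf (nat_lit 44)) (cs (rf (nat_lit 45)) (nd (nat_lit 183) (nat_lit 0)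 (cs (rf (nat_lit 46)) (cs (rf (nat_lit 47)) (rf (nat_lit 48)))))))) (nd (nat_lit 163) (nat_lit 0) (cs (rf (nat_lit 7)) (cs (rf (nat_lit 49)) (cs (rf (nat_lit 45)) (nd (nat_lit 183) (nat_lit 0) (cs (rf (nat_lit 47)) (cs (rf (nat_lit 48)) (nd (nat_lit 165) (nat_lit 0) (cs (lf (nat_lit 10) (nat_lit 161)) (nd (nat_lit 140) (nat_lit 0) (cs (lf (nat_lit 23) (nat_lit 139)) (rf (nat_lit 50)))))))))))))))))))))))))))))))))))))))))))) q40515 (by decide +kernel)
def q52507 : Q := Q.p (nat_lit 0x3000000000010000040000000000000000000000000000000000000000000000) (nat_lit 0x3c0000f0000fe8007fe001ffe00fffc07fffc1fffe07fffc1ffff018ffc07bff01cffc03bff00eff801ffe003fd0003d00000000000000000000000) (nat_lit 17)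
theorem c52507 : QOK q52507 := cut [q2065, q40524, q40546, q40731, q40544, q41372, q41406, q41514, q41558, q41463, q2074, q2513, q27848, q41522, q527, q41517, q1496, q41563, q41718, q44488, q52449, q40713, q40706, q40527, q40537, q40560, q52457, q52506] ⟨c2065, c40524, c40546, c40731, c40544, c41372, c41406, c41514, c41558, c41463, c2074, c2513, c27848, c41522, c527, c41517, c1496, c41563, c41718, c44488, c52449, c40713, c40706, c40527, c40537, c40560, c52457, c52506, trivial⟩ (nd (nat_lit 250) (nat_lit 0) (cs (nd (nat_lit 251) (nat_lit 0) (cs (rf (nat_lit 0)) (cs (rf (nat_lit 1)) (cs (rf (nat_lit 2)) (rf (nat_lit 3)))))) (cs (nd (nat_lit 251) (nat_lit 0) (cs (rf (nat_lit 0)) (cs (rf (nat_lit 1)) (cs (rf (nat_lit 4)) (rf (nat_lit 2)))))) (cs (rf (nat_lit 5)) (cs (nd (nat_lit 251) (nat_lit 0) (cs (rf (nat_lit 0)) (cs (rf (nat_lit 1)) (cs (rf (nat_lit 2)) (rf (nat_lit 6)))))) (cs (rf (nat_lit 7)) (cs (rf (nat_lit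 8)) (cs (nd (nat_lit 251) (nat_lit 0) (cs (rf (nat_lit 1)) (cs (rf (nat_lit 9)) (cs (nd (nat_lit 228) (nat_lit 0) (cs (lf (nat_lit 23) (nat_lit 227)) (nd (nat_lit 206) (nat_lit 0) (cs (rf (nat_lit 10)) (cs (rf (nat_lit 11)) (cs (rf (nat_lit 12)) (cs (rf (nat_lit 13)) (nd (nat_lit 207) (nat_lit 0) (cs (rf (nat_lit 14)) (cs (rf (nat_lit 15)) (nd (nat_lit 275) (nat_lit 0) (cs (lf (nat_lit 5) (nat_lit 250)) (rf (nat_lit 16)))))))))))))) (rf (nat_lit 17)))))) (cs (rf (nat_lit 18)) (cs (rf (nat_lit 19)) (cs (rf (nat_lit 20)) (cs (nd (nat_lit 251) (nat_lit 0) (cs (rf (nat_lit 0)) (cs (rf (nat_lit 1)) (cs (rf (nat_lit 2)) (nd (nat_lit 228) (nat_lit 0) (cs (lf (nat_lit 23) (nat_lit 227)) (nd (nat_lit 206) (nat_lit 0) (cs (rf (nat_lit 10)) (cs (rf (nat_lit 21)) (cs (nd (nat_lit 275) (nat_lit 0) (cs (lf (nat_lit 5) (nat_lit 250)) (nd (nat_lit 272) (nat_lit 0) (cs (lf (nat_lit 11) (nat_lit 249)) (rf (nat_lit 22)))))) (nd (nat_lit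 271) (nat_lit 0) (cs (lf (nat_lit 10) (nat_lit 249)) (nd (nat_lit 275) (nat_lit 0) (cs (lf (nat_lit 5) (nat_lit 250)) (rf (nat_lit 11)))))))))))))))) (cs (nd (nat_lit 251) (nat_lit 0) (cs (rf (nat_lit 0)) (cs (rf (nat_lit 1)) (cs (rf (nat_lit 2)) (nd (nat_lit 228) (nat_lit 0) (cs (lf (nat_lit 23) (nat_lit 227)) (nd (nat_lit 295) (nat_lit 0) (cs (rf (nat_lit 23)) (cs (rf (nat_lit 24)) (cs (rf (nat_lit 25)) (nd (nat_lit 275) (nat_lit 0) (cs (lf (nat_lit 5) (nat_lit 250)) (nd (nat_lit 272) (nat_lit 0) (cs (lf (nat_lit 11) (nat_lit 249)) (nd (nat_lit 231) (nat_lit 0) (cs (lf (nat_lit 17) (nat_lit 228)) (rf (nat_lit 26)))))))))))))))))) (rf (nat_lit 27))))))))))))))) q52507 (by decide +kernel)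
def q55815 : Q := Q.p (nat_lit 0x800002000000000010000000000000000000000000000000000000000000000000000) (nat_lit 0x150001fe000ffc00fffc0ffff81fffc0ffff81fffc0ff7e00f9fc03f7c007e70007fc0010f0000280000000000000000000000000000000000) (nat_lit 18)
theorem c55815 : QOK q55815 := cut [q54895, q53062, q13238, q52666, q1313, q13007, q25467, q54902, q12673, q13408, q54907, q55111, q12960, q15655, q53034, q14492, q13407, q25552, q14691, q55141, q12652, q13453, q1257, q13451, q5304, q12665, q25564, q25565, q55282, q55283, q12991, q14624, q55286, q700, q55483, q55515, q55687, q55742, q55769, q55801, q14694, q2190, q2180, q52643] ⟨c54895, c53062, c13238, c52666, c1313, c13007, c25467, c54902, c12673, c13408, c54907, c55111, c12960, c15655, c53034, c14492, c13407, c25552, c14691, c55141, c12652, c13453, c1257, c13451, c5304, c12665, c25564, c25565, c55282, c55283, c12991, c14624, c55286, c700, c55483, c55515, c55687, c55742,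 c55769, c55801, c14694, c2190, c2180, c52643, trivial⟩ (nd (nat_lit 274) (nat_lit 0) (cs (rf (nat_lit 0)) (cs (nd (nat_lit 273) (nat_lit 0) (cs (rf (nat_lit 1)) (cs (nd (nat_lit 272) (nat_lit 0) (cs (rf (nat_lit 2)) (cs (rf (nat_lit 3)) (nd (nat_lit 252) (nat_lit 0) (cs (lf (nat_lit 12) (nat_lit 249)) (nd (nat_lit 186) (nat_lit 0) (cs (lf (nat_lit 26) (nat_lit 186)) (rf (nat_lit 4))))))))) (cs (nd (nat_lit 276) (nat_lit 0) (cs (rf (nat_lit 5)) (cs (rf (nat_lit 6)) (rf (nat_lit 7))))) (cs (nd (nat_lit 272) (nat_lit 0) (cs (rf (nat_lit 8)) (cs (rf (nat_lit 9)) (rf (nat_lit 10))))) (cs (rf (nat_lit 11)) (cs (nd (nat_lit 272) (nat_lit 0) (cs (rf (nat_lit 2)) (cs (rf (nat_lit 9)) (nd (nat_lit 250) (nat_lit 0) (cs (lf (nat_lit 23) (nat_lit 249)) (nd (nat_lit 317) (nat_lit 0) (cs (rf (nat_lit 12)) (cs (rf (nat_lit 13)) (cs (nd (nat_lit 294) (nat_lit 0) (cs (lf (nat_lit 11) (nat_lit 271)) (nd (nat_lit 228) (nat_lit 0)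 (cs (lf (nat_lit 28) (nat_lit 228)) (rf (nat_lit 14)))))) (nd (nat_lit 295) (nat_lit 0) (cs (lf (nat_lit 42) (nat_lit 250)) (rf (nat_lit 15))))))))))))) (nd (nat_lit 252) (nat_lit 0) (cs (rf (nat_lit 16)) (cs (rf (nat_lit 17)) (nd (nat_lit 186) (nat_lit 0) (cs (lf (nat_lit 26) (nat_lit 186)) (rf (nat_lit 18)))))))))))))) (cs (rf (nat_lit 19)) (cs (nd (nat_lit 252) (nat_lit 0) (cs (rf (nat_lit 20)) (cs (rf (nat_lit 21)) (nd (nat_lit 276) (nat_lit 0) (cs (rf (nat_lit 22)) (cs (rf (nat_lit 23)) (nd (nat_lit 251) (nat_lit 0) (cs (rf (nat_lit 24)) (nd (nat_lit 273) (nat_lit 0) (cs (rf (nat_lit 25)) (cs (rf (nat_lit 26)) (rf (nat_lit 27))))))))))))) (cs (rf (nat_lit 28)) (cs (nd (nat_lit 276) (nat_lit 0) (cs (rf (nat_lit 29)) (cs (nd (nat_lit 273) (nat_lit 0) (cs (rf (nat_lit 30)) (cs (rf (nat_lit 31)) (rf (nat_lit 6))))) (cs (rf (nat_lit 32)) (nd (nat_lit 252) (nat_lit 0) (cs (rf (nat_lit 33)) (rf (nat_lit 20))))))))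 (cs (rf (nat_lit 34)) (cs (rf (nat_lit 35)) (cs (rf (nat_lit 36)) (cs (rf (nat_lit 37)) (cs (rf (nat_lit 38)) (cs (rf (nat_lit 39)) (cs (nd (nat_lit 252) (nat_lit 0) (cs (rf (nat_lit 20)) (cs (rf (nat_lit 40)) (nd (nat_lit 276) (nat_lit 0) (cs (rf (nat_lit 33)) (cs (rf (nat_lit 41)) (nd (nat_lit 273) (nat_lit 0) (cs (rf (nat_lit 42)) (cs (rf (nat_lit 27)) (rf (nat_lit 43))))))))))) (nd (nat_lit 252) (nat_lit 0) (cs (rf (nat_lit 20)) (cs (nd (nat_lit 276) (nat_lit 0) (cs (rf (nat_lit 33)) (cs (rf (nat_lit 41)) (nd (nat_lit 273) (nat_lit 0) (cs (rf (nat_lit 25)) (cs (rf (nat_lit 27)) (rf (nat_lit 43)))))))) (nd (nat_lit 230) (nat_lit 0) (cs (lf (nat_lit 24) (nat_lit 186)) (nd (nat_lit 187) (nat_lit 0) (cs (lf (nat_lit 34) (nat_lit 186)) (nd (nat_lit 295) (nat_lit 0) (cs (lf (nat_lit 40) (nat_lit 207)) (nd (nat_lit 296) (nat_lit 0) (cs (lf (nat_lit 41) (nat_lit 229)) (nd (nat_lit 318) (nat_lit 0) (cs (lf (nat_lit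 30) (nat_lit 252)) (nd (nat_lit 251) (nat_lit 0) (cs (lf (nat_lit 47) (nat_lit 229)) (nd (nat_lit 276) (nat_lit 0) (cs (lf (nat_lit 0) (nat_lit 250)) (lf (nat_lit 6) (nat_lit 273))))))))))))))))))))))))))))))))) q55815 (by decide +kernel)
def q78641 : Q := Q.p (nat_lit 0x800002600000000010000040000000000000000000000000000000000000000000000) (nat_lit 0x1200017e0007ff001ffc00fff001ffc037ff0011fc0eeff01e7fc0ebff000ffc007ff000ffc003f80001e00000000000000000) (nat_lit 15)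
theorem c78641 : QOK q78641 := cut [q67296, q59011, q64507, q66758, q56963, q67281, q56969, q72187, q72194, q72195, q72201, q72206, q72553, q72710, q72848, q72905, q72994, q73056, q73144, q73204, q73425, q73547, q73537, q73540, q73542, q60066, q47280, q73554, q56985, q68552, q72200, q56492, q73703, q75205, q75328, q78518, q78606, q78640] ⟨c67296, c59011, c64507, c66758, c56963, c67281, c56969, c72187, c72194, c72195, c72201, c72206, c72553, c72710, c72848, c72905, c72994, c73056, c73144, c73204, c73425, c73547, c73537, c73540, c73542, c60066, c47280, c73554, c56985, c68552, c72200, c56492, c73703, c75205, c75328, c78518, c78606, c78640, trivial⟩ (nd (nat_lit 271) (nat_lit 0) (cs (nd (nat_lit 293) (nat_lit 0) (cs (rf (nat_lit 0)) (cs (nd (nat_lit 227) (nat_lit 0) (cs (rf (nat_lit 1)) (cs (rf (nat_lit 2)) (cs (rf (nat_lit 3)) (nd (nat_lit 292) (nat_lit 0) (cs (lf (nat_lit 41) (nat_lit 226)) (nd (nat_lit 291) (nat_lit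 0) (cs (rf (nat_lit 4)) (cs (rf (nat_lit 5)) (nd (nat_lit 230) (nat_lit 0) (cs (lf (nat_lit 27) (nat_lit 186)) (nd (nat_lit 204) (nat_lit 0) (cs (lf (nat_lit 46) (nat_lit 204)) (rf (nat_lit 6))))))))))))))) (cs (rf (nat_lit 7)) (cs (rf (nat_lit 8)) (cs (rf (nat_lit 9)) (cs (rf (nat_lit 10)) (rf (nat_lit 11))))))))) (cs (rf (nat_lit 12)) (cs (rf (nat_lit 13)) (cs (rf (nat_lit 14)) (cs (rf (nat_lit 15)) (cs (rf (nat_lit 16)) (cs (rf (nat_lit 17)) (cs (rf (nat_lit 18)) (cs (rf (nat_lit 19)) (cs (rf (nat_lit 20)) (cs (rf (nat_lit 21)) (cs (nd (nat_lit 293) (nat_lit 0) (cs (rf (nat_lit 0)) (cs (rf (nat_lit 8)) (cs (rf (nat_lit 9)) (cs (rf (nat_lit 11)) (cs (nd (nat_lit 227) (nat_lit 0) (cs (rf (nat_lit 22)) (cs (rf (nat_lit 23)) (cs (rf (nat_lit 24)) (nd (nat_lit 294) (nat_lit 0) (cs (lf (nat_lit 29) (nat_lit 227)) (nd (nat_lit 292) (nat_lit 0) (cs (lf (nat_lit 41) (nat_lit 226)) (nd (nat_lit 291) (nat_lit 0) (cs (rf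 (nat_lit 25)) (nd (nat_lit 226) (nat_lit 0) (cs (lf (nat_lit 47) (nat_lit 204)) (nd (nat_lit 209) (nat_lit 0) (cs (lf (nat_lit 44) (nat_lit 186)) (rf (nat_lit 26)))))))))))))))) (cs (rf (nat_lit 27)) (nd (nat_lit 315) (nat_lit 0) (cs (rf (nat_lit 28)) (cs (rf (nat_lit 29)) (cs (rf (nat_lit 30)) (nd (nat_lit 230) (nat_lit 0) (cs (lf (nat_lit 27) (nat_lit 186)) (nd (nat_lit 316) (nat_lit 0) (cs (lf (nat_lit 29) (nat_lit 249)) (nd (nat_lit 294) (nat_lit 0) (cs (lf (nat_lit 24) (nat_lit 227)) (nd (nat_lit 272) (nat_lit 0) (cs (lf (nat_lit 30) (nat_lit 249)) (nd (nat_lit 273) (nat_lit 0) (cs (lf (nat_lit 19) (nat_lit 249)) (rf (nat_lit 31))))))))))))))))))))))) (cs (rf (nat_lit 32)) (cs (rf (nat_lit 33)) (cs (rf (nat_lit 34)) (cs (rf (nat_lit 35)) (cs (rf (nat_lit 36)) (rf (nat_lit 37)))))))))))))))))))) q78641 (by decide +kernel)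
def q88738 : Q := Q.p (nat_lit 0x2000000000000000000000000000000000000000000000000000000000000000) (nat_lit 0xa0002f8000ff8007fe007ffc01ffe00fffc03eff00fdf80ffff03fffe0ffff01fffc01ffe007ff8007fe00007800000000000000000) (nat_lit 20)
theorem c88738 : QOK q88738 := cut [q83692, q84294, q85234, q85584, q86698, q86790, q87125, q87392, q87806, q88200, q88210, q88276, q88299, q88308, q87162, q87167, q87197, q87427, q87630, q87696, q87778, q87779, q6561, q79029, q87130, q85149, q87234, q87416, q87424, q79066, q87203, q88116, q88121, q88311, q88616, q88661, q88681, q88696, q86768, q86769, q86789, q88275, q88348, q79013, q81085, q81729, q5482, q80450, q85235, q82247, q82315, q82388, q83617, q85557, q88305, q88695, q88711, q88713, q88737] ⟨c83692, c84294, c85234, c85584, c86698, c86790, c87125, c87392, c87806, c88200, c88210, c88276, c88299, c88308, c87162, c87167, c87197, c87427, c87630, c87696, c87778, c87779, c6561, c79029,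 c87130, c85149, c87234, c87416, c87424, c79066, c87203, c88116, c88121, c88311, c88616, c88661, c88681, c88696, c86768, c86769, c86789, c88275, c88348, c79013, c81085, c81729, c5482, c80450, c85235, c82247, c82315, c82388, c83617, c85557, c88305, c88695, c88711, c88713, c88737, trivial⟩ (nd (nat_lit 252) (nat_lit 0) (cs (rf (nat_lit 0)) (cs (rf (nat_lit 1)) (cs (rf (nat_lit 2)) (cs (rf (nat_lit 3)) (cs (rf (nat_lit 4)) (cs (rf (nat_lit 5)) (cs (rf (nat_lit 6)) (cs (rf (nat_lit 7)) (cs (rf (nat_lit 8)) (cs (rf (nat_lit 9)) (cs (rf (nat_lit 10)) (cs (rf (nat_lit 11)) (cs (rf (nat_lit 12)) (cs (rf (nat_lit 13)) (cs (nd (nat_lit 230) (nat_lit 0) (cs (rf (nat_lit 14)) (cs (rf (nat_lit 15)) (cs (rf (nat_lit 16)) (cs (rf (nat_lit 17)) (cs (rf (nat_lit 18)) (cs (rf (nat_lit 19)) (cs (rf (nat_lit 20)) (cs (rf (nat_lit 21)) (cs (nd (nat_lit 208) (nat_lit 0) (cs (rf (nat_lit 22)) (cs (rf (nat_lit 23)) (cs (rf (nat_lit 24))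 (nd (nat_lit 274) (nat_lit 0) (cs (rf (nat_lit 25)) (cs (rf (nat_lit 26)) (cs (rf (nat_lit 27)) (rf (nat_lit 28)))))))))) (nd (nat_lit 208) (nat_lit 0) (cs (rf (nat_lit 22)) (cs (rf (nat_lit 29)) (cs (rf (nat_lit 30)) (nd (nat_lit 185) (nat_lit 0) (cs (rf (nat_lit 31)) (cs (rf (nat_lit 32)) (nd (nat_lit 274) (nat_lit 0) (cs (lf (nat_lit 46) (nat_lit 185)) (nd (nat_lit 273) (nat_lit 0) (cs (lf (nat_lit 41) (nat_lit 207)) (nd (nat_lit 254) (nat_lit 0) (cs (lf (nat_lit 6) (nat_lit 251)) (rf (nat_lit 33))))))))))))))))))))))))) (cs (rf (nat_lit 34)) (cs (rf (nat_lit 35)) (cs (rf (nat_lit 36)) (cs (rf (nat_lit 37)) (cs (nd (nat_lit 254) (nat_lit 0) (cs (rf (nat_lit 38)) (cs (rf (nat_lit 39)) (cs (rf (nat_lit 40)) (cs (rf (nat_lit 41)) (cs (rf (nat_lit 42)) (nd (nat_lit 251) (nat_lit 0) (cs (rf (nat_lit 43)) (cs (rf (nat_lit 44)) (cs (rf (nat_lit 45)) (nd (nat_lit 229) (nat_lit 0) (cs (lf (nat_lit 23) (nat_lit 228))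 (nd (nat_lit 207) (nat_lit 0) (cs (rf (nat_lit 46)) (cs (rf (nat_lit 47)) (cs (rf (nat_lit 48)) (nd (nat_lit 232) (nat_lit 0) (cs (lf (nat_lit 17) (nat_lit 229)) (nd (nat_lit 273) (nat_lit 0) (cs (lf (nat_lit 11) (nat_lit 250)) (nd (nat_lit 274) (nat_lit 0) (cs (lf (nat_lit 29) (nat_lit 207)) (nd (nat_lit 208) (nat_lit 0) (cs (lf (nat_lit 35) (nat_lit 185)) (nd (nat_lit 206) (nat_lit 0) (cs (lf (nat_lit 47) (nat_lit 184)) (nd (nat_lit 231) (nat_lit 0) (cs (lf (nat_lit 3) (nat_lit 206)) (lf (nat_lit 20) (nat_lit 206)))))))))))))))))))))))))))))) (cs (nd (nat_lit 251) (nat_lit 0) (cs (rf (nat_lit 49)) (cs (rf (nat_lit 50)) (cs (rf (nat_lit 51)) (cs (rf (nat_lit 52)) (cs (rf (nat_lit 53)) (cs (rf (nat_lit 54)) (cs (rf (nat_lit 55)) (rf (nat_lit 56)))))))))) (cs (rf (nat_lit 57)) (rf (nat_lit 58))))))))))))))))))))))))) q88738 (by decide +kernel)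
def q100844 : Q := Q.p (nat_lit 0x2000000000000000000000000000000000000000000000000000000000000000) (nat_lit 0x740007f8003fe001fff01fff803fff00edfc01fff007ff800ffc001fe0007d00005000000000000000000000000000000) (nat_lit 20)
theorem c100844 : QOK q100844 := cut [q98784, q98372, q98799, q98809, q98810, q98821, q98822, q22004, q82063, q98797, q99229, q99236, q99238, q99247, q99237, q97583, q99253, q99260, q99269, q99271, q99273, q99274, q99276, q99282, q99283, q99286, q99294, q98370, q84365, q97286, q98790, q99300, q81901, q96312, q96325, q99312, q32034, q26053, q99317, q99325, q88936, q99466, q99592, q99667, q99767, q100162, q100460, q100636, q98541, q98747, q98759, q99375, q99585, q99591, q88933, q88941, q99474, q99693, q100639, q2091, q24207, q99516, q79078, q99497, q100642, q100656, q100722, q99680, q100729, q98318, q98795, q100758, q100770, q100829, q100830, q100843] ⟨c98784, c98372, c98799, c98809, c98810, c98821,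 c98822, c22004, c82063, c98797, c99229, c99236, c99238, c99247, c99237, c97583, c99253, c99260, c99269, c99271, c99273, c99274, c99276, c99282, c99283, c99286, c99294, c98370, c84365, c97286, c98790, c99300, c81901, c96312, c96325, c99312, c32034, c26053, c99317, c99325, c88936, c99466, c99592, c99667, c99767, c100162, c100460, c100636, c98541, c98747, c98759, c99375, c99585, c99591, c88933, c88941, c99474, c99693, c100639, c2091, c24207, c99516, c79078, c99497, c100642, c100656, c100722, c99680, c100729, c98318, c98795, c100758, c100770, c100829, c100830, c100843, trivial⟩ (nd (nat_lit 275) (nat_lit 0) (cs (rf (nat_lit 0)) (cs (nd (nat_lit 231) (nat_lit 0) (cs (rf (nat_lit 1)) (cs (rf (nat_lit 2)) (cs (rf (nat_lit 3)) (cs (rf (nat_lit 4)) (cs (rf (nat_lit 5)) (cs (rf (nat_lit 6)) (nd (nat_lit 297) (nat_lit 0) (cs (rf (nat_lit 7)) (cs (rf (nat_lit 8)) (rf (nat_lit 9)))))))))))) (cs (rf (nat_lit 10)) (cs (nd (nat_lit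 297) (nat_lit 0) (cs (rf (nat_lit 11)) (cs (rf (nat_lit 12)) (cs (rf (nat_lit 13)) (cs (nd (nat_lit 231) (nat_lit 0) (cs (rf (nat_lit 14)) (cs (nd (nat_lit 296) (nat_lit 0) (cs (lf (nat_lit 41) (nat_lit 230)) (nd (nat_lit 208) (nat_lit 0) (cs (lf (nat_lit 46) (nat_lit 208)) (nd (nat_lit 209) (nat_lit 0) (cs (lf (nat_lit 47) (nat_lit 186)) (rf (nat_lit 15)))))))) (cs (rf (nat_lit 16)) (cs (rf (nat_lit 17)) (cs (rf (nat_lit 18)) (rf (nat_lit 19)))))))) (cs (rf (nat_lit 20)) (rf (nat_lit 21)))))))) (cs (nd (nat_lit 297) (nat_lit 0) (cs (rf (nat_lit 21)) (cs (rf (nat_lit 22)) (cs (rf (nat_lit 23)) (cs (rf (nat_lit 24)) (nd (nat_lit 231) (nat_lit 0) (cs (rf (nat_lit 9)) (cs (rf (nat_lit 14)) (cs (rf (nat_lit 25)) (rf (nat_lit 26))))))))))) (cs (nd (nat_lit 231) (nat_lit 0) (cs (rf (nat_lit 27)) (cs (rf (nat_lit 4)) (cs (nd (nat_lit 297) (nat_lit 0) (cs (rf (nat_lit 28)) (cs (rf (nat_lit 29)) (cs (rf (nat_lit 30)) (rf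 (nat_lit 31)))))) (cs (nd (nat_lit 209) (nat_lit 0) (cs (rf (nat_lit 32)) (cs (rf (nat_lit 33)) (cs (rf (nat_lit 34)) (rf (nat_lit 35)))))) (cs (nd (nat_lit 297) (nat_lit 0) (cs (rf (nat_lit 7)) (cs (rf (nat_lit 36)) (rf (nat_lit 28))))) (cs (nd (nat_lit 209) (nat_lit 0) (cs (rf (nat_lit 37)) (cs (rf (nat_lit 32)) (cs (rf (nat_lit 38)) (rf (nat_lit 39)))))) (nd (nat_lit 297) (nat_lit 0) (cs (rf (nat_lit 28)) (cs (rf (nat_lit 40)) (rf (nat_lit 19)))))))))))) (cs (rf (nat_lit 41)) (cs (rf (nat_lit 42)) (cs (rf (nat_lit 43)) (cs (rf (nat_lit 44)) (cs (rf (nat_lit 45)) (cs (rf (nat_lit 46)) (cs (rf (nat_lit 47)) (cs (nd (nat_lit 252) (nat_lit 0) (cs (rf (nat_lit 48)) (cs (rf (nat_lit 49)) (cs (rf (nat_lit 50)) (cs (rf (nat_lit 51)) (cs (rf (nat_lit 52)) (cs (rf (nat_lit 53)) (cs (nd (nat_lit 297) (nat_lit 0) (cs (rf (nat_lit 54)) (cs (rf (nat_lit 55)) (cs (rf (nat_lit 56)) (cs (rf (nat_lit 57)) (rf (nat_lit 58)))))))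 (nd (nat_lit 251) (nat_lit 0) (cs (rf (nat_lit 59)) (cs (rf (nat_lit 60)) (cs (rf (nat_lit 61)) (nd (nat_lit 230) (nat_lit 0) (cs (rf (nat_lit 62)) (cs (rf (nat_lit 63)) (cs (rf (nat_lit 64)) (rf (nat_lit 65)))))))))))))))))) (cs (rf (nat_lit 66)) (cs (nd (nat_lit 297) (nat_lit 0) (cs (rf (nat_lit 11)) (cs (rf (nat_lit 13)) (cs (rf (nat_lit 21)) (cs (rf (nat_lit 24)) (cs (rf (nat_lit 67)) (cs (nd (nat_lit 231) (nat_lit 0) (cs (rf (nat_lit 9)) (cs (rf (nat_lit 14)) (rf (nat_lit 68))))) (nd (nat_lit 231) (nat_lit 0) (cs (rf (nat_lit 29)) (cs (rf (nat_lit 69)) (cs (rf (nat_lit 70)) (rf (nat_lit 14))))))))))))) (cs (rf (nat_lit 71)) (cs (rf (nat_lit 72)) (cs (rf (nat_lit 73)) (cs (rf (nat_lit 74)) (rf (nat_lit 75))))))))))))))))))))))) q100844 (by decide +kernel)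
def q104178 : Q := Q.p (nat_lit 0x2000010000000000000000000000000000000000000000000000000000000000) (nat_lit 0x500003e0000fe000ff8003df000cf0003fc000ff0000fc0003d00000000000000000000000000000000000) (nat_lit 16)
theorem c104178 : QOK q104178 := cut [q103259, q104045, q103437, q104001, q88863, q103767, q102820, q104046, q104047, q96537, q79961, q104027, q104052, q79307, q80216, q84431, q81711, q94674, q104066, q104078, q87016, q103149, q12206, q85515, q97351, q103254, q104080, q104082, q104084, q104090, q79959, q104099, q104119, q104143, q104146, q104149, q104171, q104177] ⟨c103259, c104045, c103437, c104001, c88863, c103767, c102820, c104046, c104047, c96537, c79961, c104027, c104052, c79307, c80216, c84431, c81711, c94674, c104066, c104078, c87016, c103149, c12206, c85515, c97351, c103254, c104080, c104082, c104084, c104090, c79959, c104099, c104119, c104143, c104146, c104149, c104171, c104177, trivial⟩ (nd (nat_lit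 231) (nat_lit 0) (cs (rf (nat_lit 0)) (cs (rf (nat_lit 1)) (cs (nd (nat_lit 254) (nat_lit 0) (cs (rf (nat_lit 2)) (cs (rf (nat_lit 3)) (cs (nd (nat_lit 210) (nat_lit 0) (cs (rf (nat_lit 4)) (cs (rf (nat_lit 5)) (nd (nat_lit 276) (nat_lit 0) (cs (rf (nat_lit 6)) (cs (rf (nat_lit 7)) (rf (nat_lit 8)))))))) (cs (nd (nat_lit 210) (nat_lit 0) (cs (rf (nat_lit 4)) (cs (rf (nat_lit 9)) (nd (nat_lit 276) (nat_lit 0) (cs (rf (nat_lit 10)) (cs (rf (nat_lit 7)) (rf (nat_lit 8)))))))) (nd (nat_lit 210) (nat_lit 0) (cs (rf (nat_lit 4)) (cs (rf (nat_lit 9)) (nd (nat_lit 252) (nat_lit 0) (cs (rf (nat_lit 11)) (cs (nd (nat_lit 275) (nat_lit 0) (cs (lf (nat_lit 30) (nat_lit 209)) (rf (nat_lit 12)))) (cs (nd (nat_lit 230) (nat_lit 0) (cs (rf (nat_lit 13)) (cs (rf (nat_lit 14)) (nd (nat_lit 297) (nat_lit 0) (cs (lf (nat_lit 31) (nat_lit 209)) (nd (nat_lit 255) (nat_lit 0) (cs (lf (nat_lit 18) (nat_lit 230)) (nd (nat_lit 274) (nat_lit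 0) (cs (lf (nat_lit 11) (nat_lit 251)) (rf (nat_lit 15))))))))))) (cs (nd (nat_lit 275) (nat_lit 0) (cs (lf (nat_lit 30) (nat_lit 209)) (rf (nat_lit 16)))) (nd (nat_lit 251) (nat_lit 0) (cs (lf (nat_lit 12) (nat_lit 228)) (nd (nat_lit 275) (nat_lit 0) (cs (lf (nat_lit 30) (nat_lit 209)) (nd (nat_lit 272) (nat_lit 0) (cs (lf (nat_lit 10) (nat_lit 250)) (nd (nat_lit 229) (nat_lit 0) (cs (lf (nat_lit 23) (nat_lit 228)) (rf (nat_lit 17))))))))))))))))))))))) (cs (rf (nat_lit 18)) (cs (rf (nat_lit 19)) (cs (nd (nat_lit 275) (nat_lit 0) (cs (rf (nat_lit 20)) (cs (rf (nat_lit 21)) (nd (nat_lit 210) (nat_lit 0) (cs (rf (nat_lit 22)) (cs (rf (nat_lit 23)) (nd (nat_lit 276) (nat_lit 0) (cs (rf (nat_lit 24)) (cs (nd (nat_lit 209) (nat_lit 0) (cs (lf (nat_lit 29) (nat_lit 209)) (rf (nat_lit 25)))) (cs (nd (nat_lit 277) (nat_lit 0) (cs (rf (nat_lit 26)) (cs (rf (nat_lit 27)) (cs (nd (nat_lit 254) (nat_lit 0) (cs (lf (nat_lit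 29) (nat_lit 210)) (nd (nat_lit 278) (nat_lit 0) (cs (lf (nat_lit 18) (nat_lit 253)) (nd (nat_lit 189) (nat_lit 0) (cs (lf (nat_lit 34) (nat_lit 188)) (rf (nat_lit 28)))))))) (nd (nat_lit 254) (nat_lit 0) (cs (lf (nat_lit 29) (nat_lit 210)) (nd (nat_lit 252) (nat_lit 0) (cs (lf (nat_lit 0) (nat_lit 251)) (nd (nat_lit 298) (nat_lit 0) (cs (lf (nat_lit 42) (nat_lit 231)) (nd (nat_lit 211) (nat_lit 0) (cs (lf (nat_lit 35) (nat_lit 188)) (nd (nat_lit 212) (nat_lit 0) (cs (lf (nat_lit 6) (nat_lit 209)) (nd (nat_lit 230) (nat_lit 0) (cs (lf (nat_lit 12) (nat_lit 207)) (nd (nat_lit 186) (nat_lit 0) (cs (lf (nat_lit 25) (nat_lit 186)) (rf (nat_lit 29)))))))))))))))))))) (nd (nat_lit 254) (nat_lit 0) (cs (rf (nat_lit 30)) (rf (nat_lit 31)))))))))))))) (cs (rf (nat_lit 32)) (cs (rf (nat_lit 33)) (cs (rf (nat_lit 34)) (cs (rf (nat_lit 35)) (cs (rf (nat_lit 36)) (rf (nat_lit 37)))))))))))))) q104178 (by decide +kernel)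
def q104656 : Q := Q.p (nat_lit 0x2000010000000000000000000000000000000000000000000000000000000000) (nat_lit 0x500001c0000f00006e0007dc003ef0007fe000ff0001f80007000000000000000000000000000000000000) (nat_lit 16)
theorem c104656 : QOK q104656 := cut [q102749, q102762, q103273, q104146, q87016, q103131, q84365, q85187, q79469, q2204, q96312, q96325, q97348, q104639, q102740, q102742, q103129, q12207, q7948, q103281, q104287, q79098, q102502, q97375, q97376, q22592, q84452, q97448, q79097, q84485] ⟨c102749, c102762, c103273, c104146, c87016, c103131, c84365, c85187, c79469, c2204, c96312, c96325, c97348, c104639, c102740, c102742, c103129, c12207, c7948, c103281, c104287, c79098, c102502, c97375, c97376, c22592, c84452, c97448, c79097, c84485, trivial⟩ (nd (nat_lit 231) (nat_lit 0) (cs (rf (nat_lit 0)) (cs (rf (nat_lit 1)) (cs (rf (nat_lit 2)) (cs (rf (nat_lit 3)) (cs (nd (nat_lit 275) (nat_lit 0) (cs (rf (nat_lit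 4)) (cs (rf (nat_lit 5)) (cs (nd (nat_lit 297) (nat_lit 0) (cs (rf (nat_lit 6)) (cs (rf (nat_lit 7)) (cs (nd (nat_lit 254) (nat_lit 0) (cs (lf (nat_lit 30) (nat_lit 231)) (rf (nat_lit 8)))) (nd (nat_lit 298) (nat_lit 0) (cs (lf (nat_lit 29) (nat_lit 231)) (nd (nat_lit 296) (nat_lit 0) (cs (lf (nat_lit 41) (nat_lit 230)) (nd (nat_lit 209) (nat_lit 0) (cs (lf (nat_lit 40) (nat_lit 208)) (nd (nat_lit 186) (nat_lit 0) (cs (lf (nat_lit 46) (nat_lit 186)) (nd (nat_lit 187) (nat_lit 0) (cs (lf (nat_lit 47) (nat_lit 164)) (nd (nat_lit 165) (nat_lit 0) (cs (rf (nat_lit 9)) (lf (nat_lit 29) (nat_lit 165)))))))))))))))))) (nd (nat_lit 209) (nat_lit 0) (cs (rf (nat_lit 10)) (cs (rf (nat_lit 11)) (rf (nat_lit 12))))))))) (cs (rf (nat_lit 13)) (cs (nd (nat_lit 233) (nat_lit 0) (cs (rf (nat_lit 14)) (cs (rf (nat_lit 15)) (cs (rf (nat_lit 16)) (nd (nat_lit 210) (nat_lit 0) (cs (rf (nat_lit 17)) (cs (nd (nat_lit 230) (nat_lit 0)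 (cs (rf (nat_lit 18)) (cs (rf (nat_lit 19)) (nd (nat_lit 252) (nat_lit 0) (cs (rf (nat_lit 20)) (nd (nat_lit 275) (nat_lit 0) (cs (lf (nat_lit 30) (nat_lit 209)) (nd (nat_lit 211) (nat_lit 0) (cs (lf (nat_lit 17) (nat_lit 208)) (nd (nat_lit 255) (nat_lit 0) (cs (lf (nat_lit 5) (nat_lit 230)) (nd (nat_lit 277) (nat_lit 0) (cs (lf (nat_lit 42) (nat_lit 210)) (nd (nat_lit 254) (nat_lit 0) (cs (lf (nat_lit 5) (nat_lit 252)) (rf (nat_lit 21))))))))))))))))) (nd (nat_lit 230) (nat_lit 0) (cs (rf (nat_lit 18)) (rf (nat_lit 22))))))))))) (nd (nat_lit 233) (nat_lit 0) (cs (rf (nat_lit 23)) (cs (rf (nat_lit 24)) (cs (rf (nat_lit 16)) (nd (nat_lit 230) (nat_lit 0) (cs (rf (nat_lit 25)) (cs (rf (nat_lit 26)) (cs (rf (nat_lit 27)) (nd (nat_lit 252) (nat_lit 0) (cs (rf (nat_lit 20)) (nd (nat_lit 274) (nat_lit 0) (cs (rf (nat_lit 28)) (nd (nat_lit 255) (nat_lit 0) (cs (lf (nat_lit 5) (nat_lit 230)) (nd (nat_lit 211) (nat_lit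 0) (cs (lf (nat_lit 17) (nat_lit 208)) (rf (nat_lit 29)))))))))))))))))))))))))) q104656 (by decide +kernel)
def q104693 : Q := Q.p (nat_lit 0x2000010000000000000000000000000000000000000000000000000000000000) (nat_lit 0x500003e0000fe000ff8003df0002f8003fe000ff0001f80003000000000000000000000000000000000000) (nat_lit 15)
theorem c104693 : QOK q104693 := cut [q103150, q104078, q104143, q104146, q104149, q104177, q104291, q104678, q86623, q104264, q82300, q104582, q104595, q93215, q104685, q104287, q104288, q7954, q98012, q87016, q103149, q97351, q97533, q104166, q103786, q104001, q104167] ⟨c103150, c104078, c104143, c104146, c104149, c104177, c104291, c104678, c86623, c104264, c82300, c104582, c104595, c93215, c104685, c104287, c104288, c7954, c98012, c87016, c103149, c97351, c97533, c104166, c103786, c104001, c104167, trivial⟩ (nd (nat_lit 231) (nat_lit 0) (cs (rf (nat_lit 0)) (cs (rf (nat_lit 1)) (cs (rf (nat_lit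 2)) (cs (rf (nat_lit 3)) (cs (rf (nat_lit 4)) (cs (rf (nat_lit 5)) (cs (rf (nat_lit 6)) (cs (rf (nat_lit 7)) (cs (nd (nat_lit 252) (nat_lit 0) (cs (rf (nat_lit 8)) (cs (rf (nat_lit 9)) (cs (nd (nat_lit 209) (nat_lit 0) (cs (rf (nat_lit 10)) (cs (nd (nat_lit 275) (nat_lit 0) (cs (rf (nat_lit 11)) (cs (rf (nat_lit 12)) (nd (nat_lit 276) (nat_lit 0) (cs (lf (nat_lit 29) (nat_lit 209)) (nd (nat_lit 277) (nat_lit 0) (cs (lf (nat_lit 18) (nat_lit 252)) (nd (nat_lit 186) (nat_lit 0) (cs (lf (nat_lit 46) (nat_lit 186)) (nd (nat_lit 274) (nat_lit 0) (cs (lf (nat_lit 41) (nat_lit 208)) (nd (nat_lit 255) (nat_lit 0) (cs (lf (nat_lit 17) (nat_lit 252)) (rf (nat_lit 13))))))))))))))) (rf (nat_lit 14))))) (nd (nat_lit 230) (nat_lit 0) (cs (rf (nat_lit 15)) (cs (rf (nat_lit 16)) (nd (nat_lit 208) (nat_lit 0) (cs (rf (nat_lit 17)) (rf (nat_lit 18))))))))))) (nd (nat_lit 275) (nat_lit 0) (cs (rf (nat_lit 19)) (cs (rf (nat_lit 20))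 (nd (nat_lit 276) (nat_lit 0) (cs (rf (nat_lit 21)) (cs (rf (nat_lit 22)) (cs (rf (nat_lit 23)) (nd (nat_lit 254) (nat_lit 0) (cs (rf (nat_lit 24)) (cs (rf (nat_lit 25)) (rf (nat_lit 26)))))))))))))))))))))) q104693 (by decide +kernel)
def q105062 : Q := Q.p (nat_lit 0x2000010000000000000000000000000000000000000000000000000000000000) (nat_lit 0x500003e0000fc0007f0000df000ef8007fe000ff0000f80001400000000000000000000000000000000000) (nat_lit 17)
theorem c105062 : QOK q105062 := cut [q103311, q104146, q104149, q104377, q104487, q104607, q104616, q87016, q103131, q94424, q104672, q104674, q104265, q104661, q97489, q97436, q97957, q97428, q103156, q105049] ⟨c103311, c104146, c104149, c104377, c104487, c104607, c104616, c87016, c103131, c94424, c104672, c104674, c104265, c104661, c97489, c97436, c97957, c97428, c103156, c105049, trivial⟩ (nd (nat_lit 231) (nat_lit 0) (cs (rf (nat_lit 0)) (cs (rf (nat_lit 1)) (cs (rf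 (nat_lit 2)) (cs (rf (nat_lit 3)) (cs (rf (nat_lit 4)) (cs (rf (nat_lit 5)) (cs (rf (nat_lit 6)) (nd (nat_lit 275) (nat_lit 0) (cs (rf (nat_lit 7)) (cs (rf (nat_lit 8)) (cs (nd (nat_lit 252) (nat_lit 0) (cs (rf (nat_lit 9)) (cs (rf (nat_lit 10)) (cs (rf (nat_lit 11)) (nd (nat_lit 230) (nat_lit 0) (cs (rf (nat_lit 12)) (cs (rf (nat_lit 13)) (nd (nat_lit 233) (nat_lit 0) (cs (lf (nat_lit 6) (nat_lit 230)) (rf (nat_lit 14))))))))))) (nd (nat_lit 230) (nat_lit 0) (cs (rf (nat_lit 15)) (cs (rf (nat_lit 16)) (nd (nat_lit 229) (nat_lit 0) (cs (rf (nat_lit 17)) (cs (rf (nat_lit 18)) (nd (nat_lit 206) (nat_lit 0) (cs (lf (nat_lit 22) (nat_lit 206)) (nd (nat_lit 251) (nat_lit 0) (cs (lf (nat_lit 11) (nat_lit 228)) (nd (nat_lit 233) (nat_lit 0) (cs (lf (nat_lit 10) (nat_lit 229)) (nd (nat_lit 211) (nat_lit 0) (cs (lf (nat_lit 17) (nat_lit 208)) (nd (nat_lit 254) (nat_lit 0) (cs (lf (nat_lit 5) (nat_lit 229)) (nd (nat_lit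 276) (nat_lit 0) (cs (lf (nat_lit 30) (nat_lit 210)) (nd (nat_lit 234) (nat_lit 0) (cs (lf (nat_lit 6) (nat_lit 231)) (nd (nat_lit 167) (nat_lit 0) (cs (lf (nat_lit 37) (nat_lit 166)) (nd (nat_lit 297) (nat_lit 0) (cs (lf (nat_lit 30) (nat_lit 231)) (rf (nat_lit 19)))))))))))))))))))))))))))))))))))))) q105062 (by decide +kernel)
def q105088 : Q := Q.p (nat_lit 0x2000010000000000000000000000000000000000000000000000000000000000) (nat_lit 0x100000e0000b8000fe0007de003ef000ffe000ff0002f80003c00000000000000000000000000000000000) (nat_lit 15)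
theorem c105088 : QOK q105088 := cut [q102739, q102749, q102762, q104177, q104348, q104402, q104408, q104567, q104639, q97375, q97498, q102742, q104401, q104722, q12207, q88863, q104711, q97893, q104107, q104694, q104698] ⟨c102739, c102749, c102762, c104177, c104348, c104402, c104408, c104567, c104639, c97375, c97498, c102742, c104401, c104722, c12207, c88863, c104711, c97893, c104107, c104694, c104698, trivial⟩ (nd (nat_lit 231) (nat_lit 0) (cs (rf (nat_lit 0)) (cs (rf (nat_lit 1)) (cs (rf (nat_lit 2)) (cs (rf (nat_lit 3)) (cs (rf (nat_lit 4)) (cs (rf (nat_lit 5)) (cs (rf (nat_lit 6)) (cs (rf (nat_lit 7)) (cs (rf (nat_lit 8)) (nd (nat_lit 233) (nat_lit 0) (cs (rf (nat_lit 9)) (cs (rf (nat_lit 10)) (cs (rf (nat_lit 11)) (cs (rf (nat_lit 12)) (cs (rf (nat_lit 13)) (nd (nat_lit 210) (nat_lit 0) (cs (rf (nat_lit 14)) (cs (rf (nat_lit 15)) (cs (rf (nat_lit 16)) (nd (nat_lit 209) (nat_lit 0) (cs (rf (nat_lit 17)) (cs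 (rf (nat_lit 18)) (cs (rf (nat_lit 19)) (rf (nat_lit 20)))))))))))))))))))))))))) q105088 (by decide +kernel)
def q107012 : Q := Q.p (nat_lit 0x2000000000000000000000000000000000000000000000000000000000000000) (nat_lit 0x700007c0003f0000ff0003fc003ff003fff007df803fff003ff001ff8003fe0007f80000000000000000000000000000000000) (nat_lit 20)
theorem c107012 : QOK q107012 := cut [q105508, q105752, q89928, q105202, q105768, q105769, q105772, q105773, q105826, q79260, q105764, q105828, q105830, q105849, q105850, q105851, q105852, q106072, q106208, q106403, q106550, q81726, q81873, q80460, q93924, q98272, q106563, q80464, q80700, q81348, q83704, q105803, q106567, q106617, q106618, q105822, q81867, q106689, q106742, q106819, q106882, q106942, q106964, q81495, q105807, q105819, q106216, q106217, q106244, q106256, q106397, q106402, q105156, q105188, q105200, q105204, q105206, q106506, q106967, q107006, q106746, q106414, q80466,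 q105825, q107010, q106626] ⟨c105508, c105752, c89928, c105202, c105768, c105769, c105772, c105773, c105826, c79260, c105764, c105828, c105830, c105849, c105850, c105851, c105852, c106072, c106208, c106403, c106550, c81726, c81873, c80460, c93924, c98272, c106563, c80464, c80700, c81348, c83704, c105803, c106567, c106617, c106618, c105822, c81867, c106689, c106742, c106819, c106882, c106942, c106964, c81495, c105807, c105819, c106216, c106217, c106244, c106256, c106397, c106402, c105156, c105188, c105200, c105204, c105206, c106506, c106967, c107006, c106746, c106414, c80466, c105825, c107010, c106626, trivial⟩ (nd (nat_lit 252) (nat_lit 0) (cs (rf (nat_lit 0)) (cs (rf (nat_lit 1)) (cs (nd (nat_lit 251) (nat_lit 0) (cs (rf (nat_lit 2)) (cs (rf (nat_lit 3)) (cs (rf (nat_lit 4)) (cs (rf (nat_lit 5)) (cs (rf (nat_lit 6)) (rf (nat_lit 7)))))))) (cs (rf (nat_lit 8)) (cs (nd (nat_lit 251) (nat_lit 0) (cs (rf (nat_lit 2))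 (cs (rf (nat_lit 6)) (cs (nd (nat_lit 254) (nat_lit 0) (cs (rf (nat_lit 9)) (cs (rf (nat_lit 10)) (cs (rf (nat_lit 11)) (rf (nat_lit 12)))))) (cs (rf (nat_lit 13)) (cs (rf (nat_lit 14)) (cs (rf (nat_lit 15)) (rf (nat_lit 16))))))))) (cs (rf (nat_lit 17)) (cs (rf (nat_lit 18)) (cs (rf (nat_lit 19)) (cs (rf (nat_lit 20)) (cs (nd (nat_lit 254) (nat_lit 0) (cs (rf (nat_lit 21)) (cs (rf (nat_lit 22)) (cs (nd (nat_lit 255) (nat_lit 0) (cs (rf (nat_lit 23)) (cs (rf (nat_lit 24)) (rf (nat_lit 25))))) (cs (rf (nat_lit 26)) (cs (nd (nat_lit 255) (nat_lit 0) (cs (rf (nat_lit 27)) (cs (rf (nat_lit 28)) (cs (rf (nat_lit 29)) (cs (rf (nat_lit 30)) (rf (nat_lit 31))))))) (cs (rf (nat_lit 32)) (cs (rf (nat_lit 33)) (cs (rf (nat_lit 34)) (cs (nd (nat_lit 255) (nat_lit 0) (cs (rf (nat_lit 27)) (cs (rf (nat_lit 25)) (cs (rf (nat_lit 31)) (rf (nat_lit 35)))))) (nd (nat_lit 255) (nat_lit 0) (cs (rf (nat_lit 29)) (cs (rf (nat_lit 36))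 (cs (rf (nat_lit 24)) (rf (nat_lit 35)))))))))))))))) (cs (rf (nat_lit 37)) (cs (rf (nat_lit 38)) (cs (rf (nat_lit 39)) (cs (rf (nat_lit 40)) (cs (rf (nat_lit 41)) (cs (rf (nat_lit 42)) (cs (nd (nat_lit 254) (nat_lit 0) (cs (rf (nat_lit 43)) (cs (rf (nat_lit 44)) (cs (rf (nat_lit 45)) (cs (rf (nat_lit 46)) (cs (rf (nat_lit 47)) (cs (rf (nat_lit 48)) (cs (rf (nat_lit 49)) (cs (rf (nat_lit 50)) (rf (nat_lit 51))))))))))) (cs (nd (nat_lit 251) (nat_lit 0) (cs (rf (nat_lit 52)) (cs (rf (nat_lit 53)) (cs (rf (nat_lit 54)) (cs (rf (nat_lit 3)) (cs (rf (nat_lit 55)) (cs (rf (nat_lit 56)) (cs (rf (nat_lit 5)) (rf (nat_lit 57)))))))))) (cs (nd (nat_lit 254) (nat_lit 0) (cs (rf (nat_lit 44)) (cs (rf (nat_lit 49)) (cs (rf (nat_lit 26)) (cs (rf (nat_lit 32)) (cs (rf (nat_lit 34)) (rf (nat_lit 58)))))))) (cs (rf (nat_lit 59)) (cs (nd (nat_lit 251) (nat_lit 0) (cs (rf (nat_lit 3)) (cs (rf (nat_lit 55)) (cs (rf (nat_lit 4)) (cs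 (rf (nat_lit 6)) (rf (nat_lit 60))))))) (cs (nd (nat_lit 251) (nat_lit 0) (cs (rf (nat_lit 2)) (cs (rf (nat_lit 3)) (cs (rf (nat_lit 5)) (cs (rf (nat_lit 6)) (cs (rf (nat_lit 7)) (rf (nat_lit 61)))))))) (cs (nd (nat_lit 254) (nat_lit 0) (cs (rf (nat_lit 62)) (cs (rf (nat_lit 44)) (cs (rf (nat_lit 45)) (cs (rf (nat_lit 63)) (rf (nat_lit 48))))))) (cs (rf (nat_lit 64)) (nd (nat_lit 251) (nat_lit 0) (cs (rf (nat_lit 3)) (cs (rf (nat_lit 55)) (cs (rf (nat_lit 5)) (cs (rf (nat_lit 6)) (cs (rf (nat_lit 7)) (rf (nat_lit 65))))))))))))))))))))))))))))))))) q107012 (by decide +kernel)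
def q110007 : Q := Q.p (nat_lit 0x2000000000000000000000000000000000000000000000000000000000000000) (nat_lit 0x740003f8003ff001ffc003ff0007fc00fdf801ffe003ff800ffc001fc0005f00005400000000000000000000000000000) (nat_lit 20)
theorem c110007 : QOK q110007 := cut [q108692, q108986, q108996, q98317, q107365, q108989, q108991, q108998, q109002, q109003, q109004, q109006, q109027, q99282, q108341, q109024, q109026, q109050, q98797, q99286, q99294, q108258, q109052, q84365, q98790, q109055, q109056, q109057, q32034, q81211, q109249, q109451, q109524, q109624, q109673, q109692, q109786, q109842, q109857, q109970, q79736, q108350, q109008, q109528, q109969, q88936, q82063, q108994, q109749, q109789, q109827, q109460, q109705, q109977, q109983, q109999, q100469, q109704, q108313, q108316, q109273, q109862] ⟨c108692, c108986, c108996, c98317, c107365, c108989, c108991, c108998, c109002, c109003, c109004, c109006, c109027,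 c99282, c108341, c109024, c109026, c109050, c98797, c99286, c99294, c108258, c109052, c84365, c98790, c109055, c109056, c109057, c32034, c81211, c109249, c109451, c109524, c109624, c109673, c109692, c109786, c109842, c109857, c109970, c79736, c108350, c109008, c109528, c109969, c88936, c82063, c108994, c109749, c109789, c109827, c109460, c109705, c109977, c109983, c109999, c100469, c109704, c108313, c108316, c109273, c109862, trivial⟩ (nd (nat_lit 275) (nat_lit 0) (cs (rf (nat_lit 0)) (cs (rf (nat_lit 1)) (cs (nd (nat_lit 231) (nat_lit 0) (cs (rf (nat_lit 2)) (cs (nd (nat_lit 209) (nat_lit 0) (cs (rf (nat_lit 3)) (cs (rf (nat_lit 4)) (cs (rf (nat_lit 5)) (rf (nat_lit 6)))))) (cs (rf (nat_lit 7)) (cs (rf (nat_lit 8)) (cs (rf (nat_lit 9)) (cs (rf (nat_lit 10)) (rf (nat_lit 11))))))))) (cs (rf (nat_lit 12)) (cs (nd (nat_lit 297) (nat_lit 0) (cs (rf (nat_lit 13)) (cs (rf (nat_lit 14)) (cs (rf (nat_lit 15)) (cs (rf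 (nat_lit 16)) (cs (rf (nat_lit 17)) (cs (nd (nat_lit 231) (nat_lit 0) (cs (rf (nat_lit 18)) (cs (rf (nat_lit 19)) (cs (rf (nat_lit 20)) (rf (nat_lit 21)))))) (rf (nat_lit 22))))))))) (cs (nd (nat_lit 231) (nat_lit 0) (cs (rf (nat_lit 7)) (cs (nd (nat_lit 297) (nat_lit 0) (cs (rf (nat_lit 23)) (cs (rf (nat_lit 24)) (rf (nat_lit 21))))) (cs (rf (nat_lit 25)) (cs (rf (nat_lit 26)) (cs (rf (nat_lit 27)) (nd (nat_lit 297) (nat_lit 0) (cs (rf (nat_lit 28)) (cs (rf (nat_lit 29)) (rf (nat_lit 23))))))))))) (cs (rf (nat_lit 30)) (cs (rf (nat_lit 31)) (cs (rf (nat_lit 32)) (cs (rf (nat_lit 33)) (cs (rf (nat_lit 34)) (cs (rf (nat_lit 35)) (cs (rf (nat_lit 36)) (cs (rf (nat_lit 37)) (cs (rf (nat_lit 38)) (cs (rf (nat_lit 39)) (cs (nd (nat_lit 297) (nat_lit 0) (cs (nd (nat_lit 231) (nat_lit 0) (cs (rf (nat_lit 40)) (rf (nat_lit 18)))) (cs (rf (nat_lit 41)) (cs (rf (nat_lit 42)) (cs (rf (nat_lit 22)) (cs (rf (nat_lit 43)) (cs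 (rf (nat_lit 44)) (cs (nd (nat_lit 231) (nat_lit 0) (cs (rf (nat_lit 45)) (cs (rf (nat_lit 18)) (rf (nat_lit 21))))) (nd (nat_lit 231) (nat_lit 0) (cs (rf (nat_lit 46)) (rf (nat_lit 21)))))))))))) (cs (nd (nat_lit 231) (nat_lit 0) (cs (rf (nat_lit 47)) (cs (rf (nat_lit 11)) (cs (rf (nat_lit 25)) (cs (rf (nat_lit 48)) (cs (rf (nat_lit 49)) (rf (nat_lit 50)))))))) (cs (nd (nat_lit 231) (nat_lit 0) (cs (rf (nat_lit 2)) (cs (rf (nat_lit 7)) (cs (rf (nat_lit 8)) (cs (rf (nat_lit 9)) (cs (rf (nat_lit 10)) (cs (rf (nat_lit 27)) (nd (nat_lit 274) (nat_lit 0) (cs (rf (nat_lit 51)) (cs (rf (nat_lit 52)) (rf (nat_lit 53)))))))))))) (cs (rf (nat_lit 54)) (cs (rf (nat_lit 55)) (cs (nd (nat_lit 231) (nat_lit 0) (cs (rf (nat_lit 2)) (cs (rf (nat_lit 7)) (cs (rf (nat_lit 8)) (cs (rf (nat_lit 9)) (cs (rf (nat_lit 10)) (cs (rf (nat_lit 11)) (nd (nat_lit 274) (nat_lit 0) (cs (rf (nat_lit 51)) (cs (rf (nat_lit 53)) (nd (nat_lit 276)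 (nat_lit 0) (cs (rf (nat_lit 56)) (rf (nat_lit 57)))))))))))))) (cs (nd (nat_lit 297) (nat_lit 0) (cs (rf (nat_lit 13)) (cs (rf (nat_lit 58)) (cs (rf (nat_lit 59)) (cs (rf (nat_lit 14)) (cs (rf (nat_lit 41)) (cs (rf (nat_lit 15)) (nd (nat_lit 231) (nat_lit 0) (cs (rf (nat_lit 46)) (nd (nat_lit 232) (nat_lit 0) (cs (lf (nat_lit 35) (nat_lit 209)) (rf (nat_lit 60))))))))))))) (nd (nat_lit 297) (nat_lit 0) (cs (rf (nat_lit 58)) (cs (rf (nat_lit 59)) (cs (rf (nat_lit 41)) (cs (rf (nat_lit 15)) (cs (rf (nat_lit 17)) (rf (nat_lit 61)))))))))))))))))))))))))))))))) q110007 (by decide +kernel)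
def q111111 : Q := Q.p (nat_lit 0x2000000000000000000000000000000000000000000000000000000000000000) (nat_lit 0x1c0003fe0007f8001ff001fff007df803fff003ff0007fe001ff0007f80003400008000000000000000000000000) (nat_lit 20)
theorem c111111 : QOK q111111 := cut [q110325, q110500, q89928, q105202, q105769, q110512, q110513, q110514, q110529, q110532, q110533, q110534, q110535, q110536, q110537, q105849, q105851, q105852, q105767, q105830, q110510, q110540, q98510, q110543, q81660, q107554, q110525, q106815, q110547, q110549, q110550, q79201, q103009, q110586, q110631, q110716, q110762, q110807, q110865, q110951, q110987, q111008, q111022, q110767, q110768, q110772, q111023, q111087, q111091, q79028, q79077, q110185, q110267, q111094, q105204, q1999, q24207, q110486, q111108, q105156, q105188, q105206, q110038, q110737] ⟨c110325, c110500, c89928, c105202, c105769, c110512, c110513, c110514, c110529, c110532, c110533, c110534,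 c110535, c110536, c110537, c105849, c105851, c105852, c105767, c105830, c110510, c110540, c98510, c110543, c81660, c107554, c110525, c106815, c110547, c110549, c110550, c79201, c103009, c110586, c110631, c110716, c110762, c110807, c110865, c110951, c110987, c111008, c111022, c110767, c110768, c110772, c111023, c111087, c111091, c79028, c79077, c110185, c110267, c111094, c105204, c1999, c24207, c110486, c111108, c105156, c105188, c105206, c110038, c110737, trivial⟩ (nd (nat_lit 252) (nat_lit 0) (cs (rf (nat_lit 0)) (cs (rf (nat_lit 1)) (cs (nd (nat_lit 251) (nat_lit 0) (cs (rf (nat_lit 2)) (cs (rf (nat_lit 3)) (cs (rf (nat_lit 4)) (cs (rf (nat_lit 5)) (cs (rf (nat_lit 6)) (rf (nat_lit 7)))))))) (cs (nd (nat_lit 254) (nat_lit 0) (cs (rf (nat_lit 8)) (cs (rf (nat_lit 9)) (cs (rf (nat_lit 10)) (cs (rf (nat_lit 11)) (cs (rf (nat_lit 12)) (cs (rf (nat_lit 13)) (rf (nat_lit 14))))))))) (cs (nd (nat_lit 251) (nat_lit 0)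 (cs (rf (nat_lit 2)) (cs (rf (nat_lit 15)) (cs (rf (nat_lit 16)) (cs (rf (nat_lit 17)) (cs (rf (nat_lit 6)) (cs (nd (nat_lit 254) (nat_lit 0) (cs (rf (nat_lit 18)) (cs (rf (nat_lit 19)) (cs (rf (nat_lit 20)) (cs (rf (nat_lit 21)) (nd (nat_lit 272) (nat_lit 0) (cs (lf (nat_lit 10) (nat_lit 250)) (rf (nat_lit 22))))))))) (rf (nat_lit 23))))))))) (cs (nd (nat_lit 254) (nat_lit 0) (cs (rf (nat_lit 24)) (cs (rf (nat_lit 10)) (cs (nd (nat_lit 255) (nat_lit 0) (cs (rf (nat_lit 25)) (cs (rf (nat_lit 26)) (cs (nd (nat_lit 273) (nat_lit 0) (cs (lf (nat_lit 10) (nat_lit 251)) (rf (nat_lit 27)))) (rf (nat_lit 28)))))) (cs (rf (nat_lit 29)) (cs (rf (nat_lit 30)) (nd (nat_lit 251) (nat_lit 0) (cs (rf (nat_lit 31)) (cs (rf (nat_lit 22)) (rf (nat_lit 32))))))))))) (cs (rf (nat_lit 33)) (cs (rf (nat_lit 34)) (cs (rf (nat_lit 35)) (cs (rf (nat_lit 36)) (cs (rf (nat_lit 37)) (cs (rf (nat_lit 38)) (cs (rf (nat_lit 39)) (cs (rf (nat_lit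 40)) (cs (rf (nat_lit 41)) (cs (rf (nat_lit 42)) (cs (nd (nat_lit 254) (nat_lit 0) (cs (rf (nat_lit 8)) (cs (rf (nat_lit 12)) (cs (rf (nat_lit 13)) (cs (rf (nat_lit 43)) (cs (rf (nat_lit 44)) (cs (rf (nat_lit 45)) (rf (nat_lit 46))))))))) (cs (rf (nat_lit 47)) (cs (rf (nat_lit 48)) (cs (nd (nat_lit 254) (nat_lit 0) (cs (rf (nat_lit 10)) (cs (rf (nat_lit 11)) (cs (rf (nat_lit 13)) (cs (rf (nat_lit 14)) (cs (nd (nat_lit 230) (nat_lit 0) (cs (rf (nat_lit 49)) (cs (rf (nat_lit 50)) (cs (rf (nat_lit 51)) (rf (nat_lit 52)))))) (rf (nat_lit 53)))))))) (cs (nd (nat_lit 251) (nat_lit 0) (cs (rf (nat_lit 3)) (cs (rf (nat_lit 54)) (cs (rf (nat_lit 5)) (cs (rf (nat_lit 6)) (nd (nat_lit 275) (nat_lit 0) (cs (rf (nat_lit 55)) (cs (rf (nat_lit 56)) (rf (nat_lit 57)))))))))) (cs (rf (nat_lit 58)) (cs (nd (nat_lit 251) (nat_lit 0) (cs (rf (nat_lit 59)) (cs (rf (nat_lit 60)) (cs (rf (nat_lit 3)) (cs (rf (nat_lit 54)) (cs (rf (nat_lit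 61)) (cs (rf (nat_lit 4)) (cs (rf (nat_lit 62)) (rf (nat_lit 63)))))))))) (nd (nat_lit 254) (nat_lit 0) (cs (rf (nat_lit 8)) (cs (rf (nat_lit 10)) (cs (rf (nat_lit 11)) (cs (rf (nat_lit 12)) (cs (rf (nat_lit 13)) (cs (rf (nat_lit 14)) (rf (nat_lit 43))))))))))))))))))))))))))))))))) q111111 (by decide +kernel)
def q114242 : Q := Q.p (nat_lit 0x3000004000000000000000000000000000000000000000000000000000000000) (nat_lit 0x80000380000e0001fe0007f80000e000080000700001e0000380000a00000000000000000000000000000000000) (nat_lit 12)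
theorem c114242 : QOK q114242 := cut [q79029, q79066, q93882, q114241] ⟨c79029, c79066, c93882, c114241, trivial⟩ (nd (nat_lit 208) (nat_lit 0) (cs (rf (nat_lit 0)) (cs (rf (nat_lit 1)) (cs (rf (nat_lit 2)) (rf (nat_lit 3)))))) q114242 (by decide +kernel)
def q114258 : Q := Q.p (nat_lit 0x3000004000000000000000000000000000000000000000000000000000000000) (nat_lit 0x80000380000e0001fe0007f80000e0007b8001fe0001c0000300000800000000000000000000000000000000000) (nat_lit 16)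
theorem c114258 : QOK q114258 := cut [q5353, q6259, q88198, q114241] ⟨c5353, c6259, c88198, c114241, trivial⟩ (nd (nat_lit 208) (nat_lit 0) (cs (rf (nat_lit 0)) (cs (rf (nat_lit 1)) (cs (rf (nat_lit 2)) (rf (nat_lit 3)))))) q114258 (by decide +kernel)
def q115613 : Q := Q.p (nat_lit 0x2000000000000000000000000000000000000000000000000000000000000000) (nat_lit 0x40000700003e0003fe000ff8003ff001fff00fdfc03ffe007ff800ffc001fe0005d00005000000000000000000000000000000) (nat_lit 19)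
theorem c115613 : QOK q115613 := cut [q114930, q115150, q107367, q109003, q112791, q113113, q113114, q113115, q21953, q22016, q98797, q112792, q113129, q113141, q84365, q99300, q101582, q113112, q115154, q12650, q101581, q115172, q89613, q109529, q113164, q115180, q115181, q115182, q115208, q115274, q115361, q115377, q115439, q115465, q115485, q115518, q115578, q115603, q113160, q115166, q115170, q115278, q115330, q115577, q115363, q115366, q115602, q112789, q107056, q114740, q115384, q98372, q115468, q113159, q115171, q115579, q115383] ⟨c114930, c115150, c107367, c109003, c112791, c113113, c113114, c113115, c21953, c22016, c98797, c112792, c113129, c113141, c84365, c99300, c101582, c113112, c115154, c12650, c101581, c115172, c89613, c109529, c113164, c115180, c115181, c115182, c115208, c115274, c115361, c115377, c115439, c115465, c115485, c115518, c115578, c115603, c113160, c115166, c115170, c115278, c115330,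 c115577, c115363, c115366, c115602, c112789, c107056, c114740, c115384, c98372, c115468, c113159, c115171, c115579, c115383, trivial⟩ (nd (nat_lit 275) (nat_lit 0) (cs (rf (nat_lit 0)) (cs (rf (nat_lit 1)) (cs (nd (nat_lit 231) (nat_lit 0) (cs (rf (nat_lit 2)) (cs (rf (nat_lit 3)) (cs (rf (nat_lit 4)) (cs (rf (nat_lit 5)) (cs (rf (nat_lit 6)) (cs (rf (nat_lit 7)) (nd (nat_lit 297) (nat_lit 0) (cs (rf (nat_lit 8)) (cs (rf (nat_lit 9)) (rf (nat_lit 10)))))))))))) (cs (nd (nat_lit 231) (nat_lit 0) (cs (rf (nat_lit 2)) (cs (rf (nat_lit 11)) (cs (rf (nat_lit 12)) (cs (rf (nat_lit 13)) (cs (nd (nat_lit 297) (nat_lit 0) (cs (rf (nat_lit 14)) (cs (rf (nat_lit 15)) (cs (rf (nat_lit 16)) (rf (nat_lit 17)))))) (cs (rf (nat_lit 18)) (nd (nat_lit 297) (nat_lit 0) (cs (rf (nat_lit 19)) (rf (nat_lit 20))))))))))) (cs (rf (nat_lit 21)) (cs (nd (nat_lit 297) (nat_lit 0) (cs (rf (nat_lit 22)) (cs (rf (nat_lit 23)) (cs (rf (nat_lit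 24)) (cs (rf (nat_lit 25)) (cs (rf (nat_lit 26)) (rf (nat_lit 27)))))))) (cs (rf (nat_lit 28)) (cs (rf (nat_lit 29)) (cs (rf (nat_lit 30)) (cs (rf (nat_lit 31)) (cs (rf (nat_lit 32)) (cs (rf (nat_lit 33)) (cs (rf (nat_lit 34)) (cs (rf (nat_lit 35)) (cs (rf (nat_lit 36)) (cs (rf (nat_lit 37)) (cs (nd (nat_lit 297) (nat_lit 0) (cs (rf (nat_lit 23)) (cs (rf (nat_lit 38)) (cs (rf (nat_lit 39)) (cs (rf (nat_lit 40)) (cs (rf (nat_lit 41)) (cs (rf (nat_lit 42)) (rf (nat_lit 43))))))))) (cs (nd (nat_lit 297) (nat_lit 0) (cs (rf (nat_lit 23)) (cs (rf (nat_lit 38)) (cs (rf (nat_lit 39)) (cs (rf (nat_lit 40)) (cs (rf (nat_lit 44)) (cs (rf (nat_lit 45)) (rf (nat_lit 46))))))))) (cs (nd (nat_lit 231) (nat_lit 0) (cs (rf (nat_lit 47)) (cs (rf (nat_lit 11)) (cs (rf (nat_lit 6)) (cs (nd (nat_lit 297) (nat_lit 0) (cs (rf (nat_lit 19)) (cs (rf (nat_lit 8)) (cs (rf (nat_lit 9)) (nd (nat_lit 296) (nat_lit 0) (cs (lf (nat_lit 41) (nat_lit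 230)) (nd (nat_lit 298) (nat_lit 0) (cs (lf (nat_lit 29) (nat_lit 231)) (rf (nat_lit 48)))))))))) (cs (rf (nat_lit 49)) (rf (nat_lit 50)))))))) (cs (nd (nat_lit 231) (nat_lit 0) (cs (rf (nat_lit 51)) (cs (rf (nat_lit 47)) (cs (rf (nat_lit 11)) (cs (rf (nat_lit 5)) (cs (rf (nat_lit 49)) (rf (nat_lit 52)))))))) (cs (nd (nat_lit 297) (nat_lit 0) (cs (rf (nat_lit 53)) (cs (rf (nat_lit 40)) (cs (rf (nat_lit 54)) (cs (rf (nat_lit 25)) (rf (nat_lit 55))))))) (cs (nd (nat_lit 297) (nat_lit 0) (cs (rf (nat_lit 53)) (cs (rf (nat_lit 39)) (cs (rf (nat_lit 40)) (cs (rf (nat_lit 54)) (cs (rf (nat_lit 27)) (nd (nat_lit 231) (nat_lit 0) (cs (rf (nat_lit 8)) (nd (nat_lit 232) (nat_lit 0) (cs (lf (nat_lit 35) (nat_lit 209)) (rf (nat_lit 56)))))))))))) (nd (nat_lit 297) (nat_lit 0) (cs (rf (nat_lit 53)) (cs (rf (nat_lit 39)) (cs (rf (nat_lit 40)) (cs (rf (nat_lit 54)) (cs (rf (nat_lit 27)) (rf (nat_lit 44)))))))))))))))))))))))))))))))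 q115613 (by decide +kernel)
def q16041 : Q := Q.p (nat_lit 0x2000000000010000000000000000000000000000000000000000000000000000) (nat_lit 0x770005fc001ffa01fffc07fff01fffc07fff80f9fc03fff003ef801fde007ff001ffc001f000000000000000000000000000000) (nat_lit 19)
theorem c16041 : QOK q16041 := cut [q15136, q2199, q15458, q15457, q694, q7439, q15461, q15464, q15467, q117, q8060, q7537, q15499, q15405, q15501, q1299, q6879, q15503, q15485, q15487, q15493, q15497, q16023, q2521, q16025, q16027, q16028, q2397, q3985, q2989, q12646, q12651, q9644, q16034, q11865, q16036, q16040] ⟨c15136, c2199, c15458, c15457, c694, c7439, c15461, c15464, c15467, c117, c8060, c7537, c15499, c15405, c15501, c1299, c6879, c15503, c15485, c15487, c15493, c15497, c16023, c2521, c16025, c16027, c16028, c2397, c3985, c2989, c12646, c12651, c9644, c16034, c11865, c16036, c16040, trivial⟩ (nd (nat_lit 275) (nat_lit 0) (cs (rf (nat_lit 0)) (cs (nd (nat_lit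 209) (nat_lit 0) (cs (rf (nat_lit 1)) (cs (rf (nat_lit 2)) (cs (nd (nat_lit 210) (nat_lit 0) (cs (rf (nat_lit 3)) (cs (nd (nat_lit 211) (nat_lit 0) (cs (rf (nat_lit 4)) (cs (rf (nat_lit 5)) (rf (nat_lit 6))))) (cs (nd (nat_lit 233) (nat_lit 0) (cs (nd (nat_lit 211) (nat_lit 0) (cs (lf (nat_lit 5) (nat_lit 208)) (rf (nat_lit 7)))) (cs (nd (nat_lit 211) (nat_lit 0) (cs (lf (nat_lit 5) (nat_lit 208)) (rf (nat_lit 8)))) (cs (nd (nat_lit 207) (nat_lit 0) (cs (lf (nat_lit 4) (nat_lit 207)) (nd (nat_lit 228) (nat_lit 0) (cs (lf (nat_lit 10) (nat_lit 206)) (nd (nat_lit 206) (nat_lit 0) (cs (lf (nat_lit 11) (nat_lit 205)) (nd (nat_lit 188) (nat_lit 0) (cs (lf (nat_lit 16) (nat_lit 184)) (lf (nat_lit 32) (nat_lit 187)))))))))) (nd (nat_lit 207) (nat_lit 0) (cs (lf (nat_lit 4) (nat_lit 207)) (nd (nat_lit 211) (nat_lit 0) (cs (lf (nat_lit 5) (nat_lit 208)) (nd (nat_lit 188) (nat_lit 0) (cs (lf (nat_lit 32) (nat_lit 187)) (nd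 (nat_lit 206) (nat_lit 0) (cs (lf (nat_lit 16) (nat_lit 184)) (nd (nat_lit 255) (nat_lit 0) (cs (rf (nat_lit 9)) (lf (nat_lit 42) (nat_lit 188)))))))))))))))) (cs (nd (nat_lit 211) (nat_lit 0) (cs (rf (nat_lit 4)) (cs (rf (nat_lit 6)) (nd (nat_lit 233) (nat_lit 0) (cs (lf (nat_lit 5) (nat_lit 208)) (nd (nat_lit 188) (nat_lit 0) (cs (lf (nat_lit 32) (nat_lit 187)) (rf (nat_lit 10))))))))) (nd (nat_lit 188) (nat_lit 0) (cs (lf (nat_lit 32) (nat_lit 187)) (rf (nat_lit 11))))))))) (cs (nd (nat_lit 252) (nat_lit 0) (cs (rf (nat_lit 12)) (cs (nd (nat_lit 230) (nat_lit 0) (cs (lf (nat_lit 24) (nat_lit 186)) (rf (nat_lit 13)))) (cs (rf (nat_lit 14)) (nd (nat_lit 274) (nat_lit 0) (cs (rf (nat_lit 15)) (cs (nd (nat_lit 230) (nat_lit 0) (cs (lf (nat_lit 35) (nat_lit 186)) (rf (nat_lit 16)))) (rf (nat_lit 17))))))))) (nd (nat_lit 231) (nat_lit 0) (cs (lf (nat_lit 47) (nat_lit 186)) (nd (nat_lit 233) (nat_lit 0) (cs (rf (nat_lit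 18)) (cs (rf (nat_lit 19)) (cs (rf (nat_lit 20)) (rf (nat_lit 21))))))))))))) (cs (rf (nat_lit 22)) (cs (nd (nat_lit 297) (nat_lit 0) (cs (rf (nat_lit 23)) (cs (rf (nat_lit 24)) (cs (rf (nat_lit 25)) (rf (nat_lit 26)))))) (cs (nd (nat_lit 231) (nat_lit 0) (cs (rf (nat_lit 27)) (cs (nd (nat_lit 230) (nat_lit 0) (cs (lf (nat_lit 42) (nat_lit 208)) (rf (nat_lit 28)))) (cs (nd (nat_lit 209) (nat_lit 0) (cs (lf (nat_lit 47) (nat_lit 186)) (nd (nat_lit 233) (nat_lit 0) (cs (rf (nat_lit 18)) (cs (nd (nat_lit 276) (nat_lit 0) (cs (lf (nat_lit 29) (nat_lit 209)) (nd (nat_lit 274) (nat_lit 0) (cs (lf (nat_lit 41) (nat_lit 208)) (rf (nat_lit 19)))))) (cs (nd (nat_lit 276) (nat_lit 0) (cs (lf (nat_lit 29) (nat_lit 209)) (nd (nat_lit 274) (nat_lit 0) (cs (lf (nat_lit 41) (nat_lit 208)) (rf (nat_lit 20)))))) (rf (nat_lit 21)))))))) (nd (nat_lit 209) (nat_lit 0) (cs (lf (nat_lit 47) (nat_lit 186)) (rf (nat_lit 29)))))))) (cs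 (nd (nat_lit 231) (nat_lit 0) (cs (rf (nat_lit 30)) (cs (rf (nat_lit 31)) (cs (nd (nat_lit 209) (nat_lit 0) (cs (lf (nat_lit 47) (nat_lit 186)) (rf (nat_lit 32)))) (rf (nat_lit 33)))))) (cs (nd (nat_lit 297) (nat_lit 0) (cs (rf (nat_lit 34)) (cs (rf (nat_lit 25)) (cs (rf (nat_lit 26)) (rf (nat_lit 35)))))) (rf (nat_lit 36)))))))))) q16041 (by decide +kernel)
def q32038 : Q := Q.p (nat_lit 0x2000000000010000000000000000000000000000000000000000000000000000) (nat_lit 0x20001fa001ffc007ff801ffe00fffe03fff81ffff03fffc0ffff81f9fe03fffe0beff00fbfe03fff00fffc00ffc0007e0000f800028000000000000) (nat_lit 19)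
theorem c32038 : QOK q32038 := cut [q11865, q21930, q21932, q21954, q2532, q2541, q21929, q21955, q21967, q21972, q2397, q12651, q22000, q22001, q21953, q22004, q22024, q22108, q22520, q22605, q23361, q23483, q2521, q22522, q22523, q22525, q22533, q2567, q2575, q25088, q26049, q27947, q11870, q32027, q32029, q16741, q32035] ⟨c11865, c21930, c21932, c21954, c2532, c2541, c21929, c21955, c21967, c21972, c2397, c12651, c22000, c22001, c21953, c22004, c22024, c22108, c22520, c22605, c23361, c23483, c2521, c22522, c22523, c22525, c22533, c2567, c2575, c25088, c26049, c27947, c11870, c32027, c32029, c16741, c32035, trivial⟩ (nd (nat_lit 275) (nat_lit 0) (cs (nd (nat_lit 297) (nat_lit 0) (cs (rf (nat_lit 0)) (cs (rf (nat_lit 1)) (cs (rf (nat_lit 2)) (cs (rf (nat_lit 3)) (nd (nat_lit 319) (nat_lit 0) (cs (rf (nat_lit 4)) (cs (rf (nat_lit 5)) (cs (rf (nat_lit 6)) (cs (nd (nat_lit 320) (nat_lit 0) (cs (lf (nat_lit 29) (nat_lit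 253)) (nd (nat_lit 231) (nat_lit 0) (cs (lf (nat_lit 28) (nat_lit 231)) (nd (nat_lit 296) (nat_lit 0) (cs (lf (nat_lit 41) (nat_lit 230)) (nd (nat_lit 321) (nat_lit 0) (cs (lf (nat_lit 18) (nat_lit 296)) (nd (nat_lit 294) (nat_lit 0) (cs (lf (nat_lit 1) (nat_lit 294)) (rf (nat_lit 7)))))))))))) (cs (nd (nat_lit 318) (nat_lit 0) (cs (lf (nat_lit 41) (nat_lit 252)) (nd (nat_lit 231) (nat_lit 0) (cs (lf (nat_lit 40) (nat_lit 230)) (rf (nat_lit 8)))))) (rf (nat_lit 9))))))))))))) (cs (nd (nat_lit 231) (nat_lit 0) (cs (rf (nat_lit 10)) (cs (rf (nat_lit 11)) (cs (rf (nat_lit 12)) (cs (rf (nat_lit 13)) (cs (nd (nat_lit 297) (nat_lit 0) (cs (lf (nat_lit 46) (nat_lit 208)) (rf (nat_lit 14)))) (nd (nat_lit 297) (nat_lit 0) (cs (lf (nat_lit 46) (nat_lit 208)) (rf (nat_lit 15)))))))))) (cs (rf (nat_lit 16)) (cs (rf (nat_lit 17)) (cs (rf (nat_lit 18)) (cs (rf (nat_lit 19)) (cs (rf (nat_lit 20)) (cs (rf (nat_lit 21)) (cs (nd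 (nat_lit 297) (nat_lit 0) (cs (rf (nat_lit 22)) (cs (rf (nat_lit 0)) (cs (rf (nat_lit 1)) (cs (nd (nat_lit 231) (nat_lit 0) (cs (lf (nat_lit 46) (nat_lit 208)) (nd (nat_lit 298) (nat_lit 0) (cs (lf (nat_lit 29) (nat_lit 231)) (nd (nat_lit 299) (nat_lit 0) (cs (rf (nat_lit 23)) (cs (rf (nat_lit 24)) (cs (nd (nat_lit 210) (nat_lit 0) (cs (lf (nat_lit 34) (nat_lit 209)) (nd (nat_lit 296) (nat_lit 0) (cs (lf (nat_lit 41) (nat_lit 230)) (rf (nat_lit 25)))))) (rf (nat_lit 26)))))))))) (nd (nat_lit 319) (nat_lit 0) (cs (rf (nat_lit 4)) (cs (rf (nat_lit 5)) (cs (rf (nat_lit 27)) (cs (rf (nat_lit 28)) (cs (rf (nat_lit 6)) (rf (nat_lit 9))))))))))))) (cs (rf (nat_lit 29)) (cs (rf (nat_lit 30)) (cs (rf (nat_lit 31)) (nd (nat_lit 297) (nat_lit 0) (cs (rf (nat_lit 32)) (cs (rf (nat_lit 33)) (cs (nd (nat_lit 318) (nat_lit 0) (cs (nd (nat_lit 231) (nat_lit 0) (cs (lf (nat_lit 46) (nat_lit 208)) (lf (nat_lit 40) (nat_lit 230))))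 (cs (rf (nat_lit 34)) (nd (nat_lit 319) (nat_lit 0) (cs (lf (nat_lit 41) (nat_lit 252)) (nd (nat_lit 230) (nat_lit 0) (cs (lf (nat_lit 45) (nat_lit 208)) (lf (nat_lit 46) (nat_lit 230))))))))) (nd (nat_lit 318) (nat_lit 0) (cs (rf (nat_lit 35)) (cs (rf (nat_lit 34)) (rf (nat_lit 36)))))))))))))))))))))) q32038 (by decide +kernel)
def q52515 : Q := Q.p (nat_lit 0x2000000000010000040000000000000000000000000000000000000000000000) (nat_lit 0x3c0000f0000fe8007fe001ffe00fffc07fffc1fffe07fffc1ffff019ffc07fff01cffc03bff00eff801ffe003fd0003d00000000000000000000000) (nat_lit 18)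
theorem c52515 : QOK q52515 := cut [q32042, q18191, q18253, q2065, q40524, q40544, q40546, q40552, q40526, q40536, q40537, q40560, q3187, q10992, q6264, q23543, q2992, q40573, q40692, q7086, q40551, q52507, q32241] ⟨c32042, c18191, c18253, c2065, c40524, c40544, c40546, c40552, c40526, c40536, c40537, c40560, c3187, c10992, c6264, c23543, c2992, c40573, c40692, c7086, c40551, c52507, c32241, trivial⟩ (nd (nat_lit 252) (nat_lit 0) (cs (nd (nat_lit 230) (nat_lit 0) (cs (lf (nat_lit 29) (nat_lit 186)) (rf (nat_lit 0)))) (cs (nd (nat_lit 251) (nat_lit 0) (cs (rf (nat_lit 1)) (cs (rf (nat_lit 2)) (cs (nd (nat_lit 250) (nat_lit 0) (cs (rf (nat_lit 3)) (cs (rf (nat_lit 4)) (cs (rf (nat_lit 5)) (rf (nat_lit 6)))))) (rf (nat_lit 7)))))) (cs (nd (nat_lit 251) (nat_lit 0) (cs (rf (nat_lit 1)) (cs (rf (nat_lit 2)) (cs (rf (nat_lit 7)) (nd (nat_lit 250) (nat_lit 0) (cs (rf (nat_lit 3)) (cs (rf (nat_lit 4)) (cs (rf (nat_lit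 6)) (nd (nat_lit 228) (nat_lit 0) (cs (lf (nat_lit 23) (nat_lit 227)) (nd (nat_lit 295) (nat_lit 0) (cs (rf (nat_lit 8)) (cs (rf (nat_lit 9)) (cs (rf (nat_lit 10)) (rf (nat_lit 11)))))))))))))))) (cs (nd (nat_lit 230) (nat_lit 0) (cs (lf (nat_lit 29) (nat_lit 186)) (nd (nat_lit 251) (nat_lit 0) (cs (lf (nat_lit 41) (nat_lit 185)) (nd (nat_lit 185) (nat_lit 0) (cs (lf (nat_lit 47) (nat_lit 163)) (nd (nat_lit 250) (nat_lit 0) (cs (rf (nat_lit 12)) (nd (nat_lit 272) (nat_lit 0) (cs (lf (nat_lit 11) (nat_lit 249)) (nd (nat_lit 228) (nat_lit 0) (cs (lf (nat_lit 23) (nat_lit 227)) (rf (nat_lit 13)))))))))))))) (cs (nd (nat_lit 251) (nat_lit 0) (cs (rf (nat_lit 7)) (cs (nd (nat_lit 250) (nat_lit 0) (cs (rf (nat_lit 3)) (cs (rf (nat_lit 14)) (cs (rf (nat_lit 15)) (nd (nat_lit 272) (nat_lit 0) (cs (lf (nat_lit 11) (nat_lit 249)) (nd (nat_lit 207) (nat_lit 0) (cs (nd (nat_lit 185) (nat_lit 0) (cs (rf (nat_lit 16)) (lf (nat_lit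 38) (nat_lit 184)))) (cs (nd (nat_lit 231) (nat_lit 0) (cs (lf (nat_lit 17) (nat_lit 228)) (nd (nat_lit 228) (nat_lit 0) (cs (lf (nat_lit 23) (nat_lit 227)) (nd (nat_lit 294) (nat_lit 0) (cs (lf (nat_lit 34) (nat_lit 206)) (rf (nat_lit 17)))))))) (nd (nat_lit 228) (nat_lit 0) (cs (lf (nat_lit 23) (nat_lit 227)) (nd (nat_lit 231) (nat_lit 0) (cs (lf (nat_lit 17) (nat_lit 228)) (nd (nat_lit 185) (nat_lit 0) (cs (lf (nat_lit 33) (nat_lit 184)) (rf (nat_lit 16))))))))))))))))) (cs (rf (nat_lit 18)) (cs (nd (nat_lit 230) (nat_lit 0) (cs (lf (nat_lit 41) (nat_lit 185)) (nd (nat_lit 187) (nat_lit 0) (cs (lf (nat_lit 35) (nat_lit 164)) (nd (nat_lit 185) (nat_lit 0) (cs (lf (nat_lit 47) (nat_lit 163)) (nd (nat_lit 207) (nat_lit 0) (cs (lf (nat_lit 42) (nat_lit 185)) (rf (nat_lit 19)))))))))) (nd (nat_lit 250) (nat_lit 0) (cs (rf (nat_lit 3)) (cs (rf (nat_lit 20)) (nd (nat_lit 272) (nat_lit 0) (cs (lf (nat_lit 11) (nat_lit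 249)) (nd (nat_lit 230) (nat_lit 0) (cs (lf (nat_lit 41) (nat_lit 185)) (nd (nat_lit 165) (nat_lit 0) (cs (lf (nat_lit 34) (nat_lit 164)) (nd (nat_lit 227) (nat_lit 0) (cs (lf (nat_lit 22) (nat_lit 227)) (nd (nat_lit 231) (nat_lit 0) (cs (lf (nat_lit 17) (nat_lit 228)) (nd (nat_lit 185) (nat_lit 0) (cs (lf (nat_lit 47) (nat_lit 163)) (nd (nat_lit 207) (nat_lit 0) (cs (lf (nat_lit 42) (nat_lit 185)) (lf (nat_lit 38) (nat_lit 184)))))))))))))))))))))))) (cs (rf (nat_lit 21)) (nd (nat_lit 230) (nat_lit 0) (cs (lf (nat_lit 29) (nat_lit 186)) (rf (nat_lit 22))))))))))) q52515 (by decide +kernel)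
def q78647 : Q := Q.p (nat_lit 0x800002400000000010000000000000000000000000000000000000000000000000000) (nat_lit 0x3f0001ff0007ff007ffc01fff03dffc077ff0393fc0ffff0fe7fc1ffff07fffc1ffff07fffc07ff801fbe001a0000000000000) (nat_lit 17)
theorem c78647 : QOK q78647 := cut [q56608, q66199, q66724, q3797, q67309, q67630, q68131, q68171, q68288, q68522, q68739, q68869, q69023, q69058, q69306, q61264, q66731, q67552, q54956, q57280, q67955, q26954, q68960, q70248, q72171, q78641, q66726, q63973, q63977, q63985, q63990, q17589, q62820] ⟨c56608, c66199, c66724, c3797, c67309, c67630, c68131, c68171, c68288, c68522, c68739, c68869, c69023, c69058, c69306, c61264, c66731, c67552, c54956, c57280, c67955, c26954, c68960, c70248, c72171, c78641, c66726, c63973, c63977, c63985, c63990, c17589, c62820, trivial⟩ (nd (nat_lit 186) (nat_lit 0) (cs (rf (nat_lit 0)) (cs (rf (nat_lit 1)) (cs (rf (nat_lit 2)) (cs (nd (nat_lit 230) (nat_lit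 0) (cs (lf (nat_lit 27) (nat_lit 186)) (rf (nat_lit 3)))) (nd (nat_lit 249) (nat_lit 0) (cs (rf (nat_lit 4)) (cs (rf (nat_lit 5)) (cs (rf (nat_lit 6)) (cs (rf (nat_lit 7)) (cs (rf (nat_lit 8)) (cs (rf (nat_lit 9)) (cs (rf (nat_lit 10)) (cs (rf (nat_lit 11)) (cs (rf (nat_lit 12)) (cs (rf (nat_lit 13)) (cs (rf (nat_lit 14)) (cs (nd (nat_lit 230) (nat_lit 0) (cs (lf (nat_lit 27) (nat_lit 186)) (nd (nat_lit 228) (nat_lit 0) (cs (rf (nat_lit 15)) (cs (rf (nat_lit 16)) (cs (rf (nat_lit 17)) (nd (nat_lit 227) (nat_lit 0) (cs (rf (nat_lit 18)) (cs (nd (nat_lit 271) (nat_lit 0) (cs (rf (nat_lit 19)) (cs (rf (nat_lit 20)) (nd (nat_lit 183) (nat_lit 0) (cs (nd (nat_lit 184) (nat_lit 0) (cs (lf (nat_lit 37) (nat_lit 183)) (nd (nat_lit 205) (nat_lit 0) (cs (lf (nat_lit 24) (nat_lit 161)) (lf (nat_lit 35) (nat_lit 161)))))) (cs (nd (nat_lit 184) (nat_lit 0) (cs (lf (nat_lit 37) (nat_lit 183)) (nd (nat_lit 185) (nat_lit 0) (cs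 (lf (nat_lit 5) (nat_lit 183)) (nd (nat_lit 160) (nat_lit 0) (cs (lf (nat_lit 22) (nat_lit 160)) (nd (nat_lit 182) (nat_lit 0) (cs (lf (nat_lit 23) (nat_lit 159)) (nd (nat_lit 204) (nat_lit 0) (cs (lf (nat_lit 11) (nat_lit 181)) (lf (nat_lit 27) (nat_lit 160)))))))))))) (cs (nd (nat_lit 205) (nat_lit 0) (cs (lf (nat_lit 24) (nat_lit 161)) (rf (nat_lit 21)))) (nd (nat_lit 184) (nat_lit 0) (cs (lf (nat_lit 37) (nat_lit 183)) (nd (nat_lit 185) (nat_lit 0) (cs (lf (nat_lit 5) (nat_lit 183)) (nd (nat_lit 205) (nat_lit 0) (cs (lf (nat_lit 35) (nat_lit 161)) (lf (nat_lit 11) (nat_lit 182))))))))))))))) (nd (nat_lit 229) (nat_lit 0) (cs (lf (nat_lit 11) (nat_lit 226)) (rf (nat_lit 22))))))))))))) (cs (rf (nat_lit 23)) (cs (rf (nat_lit 24)) (cs (rf (nat_lit 25)) (nd (nat_lit 231) (nat_lit 0) (cs (lf (nat_lit 45) (nat_lit 186)) (nd (nat_lit 228) (nat_lit 0) (cs (rf (nat_lit 26)) (nd (nat_lit 272) (nat_lit 0) (cs (rf (nat_lit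 27)) (cs (rf (nat_lit 28)) (cs (rf (nat_lit 29)) (cs (rf (nat_lit 30)) (nd (nat_lit 294) (nat_lit 0) (cs (rf (nat_lit 31)) (rf (nat_lit 32)))))))))))))))))))))))))))))))))) q78647 (by decide +kernel)
def q105119 : Q := Q.p (nat_lit 0x2000000000000000000000000000000000000000000000000000000000000000) (nat_lit 0x290000fc000bf0002fe003ff800fdf003ff801fff001ff8007fe000ff0001f000000000000000000000000000000) (nat_lit 19)
theorem c105119 : QOK q105119 := cut [q103104, q103337, q103713, q103999, q104178, q104409, q104433, q102851, q102899, q103613, q104437, q104455, q79128, q79988, q102958, q79961, q102810, q103908, q104466, q104474, q104534, q104568, q104617, q104656, q104693, q104731, q104799, q103914, q104412, q104805, q81677, q81730, q103608, q103666, q104410, q104833, q104860, q104871, q104904, q104914, q104923, q104983, q105044, q105062, q102739, q102749, q102765, q102769, q104232, q102740, q102742, q103129, q105082,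 q105088, q105091, q105100, q105110, q102874, q102959, q103083, q103624, q104798, q104937, q104953, q104963, q103011, q103930, q104422, q104432, q104997, q105113, q102762, q101804, q102535, q102781, q104078, q104171, q103130, q103273, q94424, q104264, q104589, q103356, q103413, q103421, q103128] ⟨c103104, c103337, c103713, c103999, c104178, c104409, c104433, c102851, c102899, c103613, c104437, c104455, c79128, c79988, c102958, c79961, c102810, c103908, c104466, c104474, c104534, c104568, c104617, c104656, c104693, c104731, c104799, c103914, c104412, c104805, c81677, c81730, c103608, c103666, c104410, c104833, c104860, c104871, c104904, c104914, c104923, c104983, c105044, c105062, c102739, c102749, c102765, c102769, c104232, c102740, c102742, c103129, c105082, c105088, c105091, c105100, c105110, c102874, c102959, c103083, c103624, c104798, c104937, c104953, c104963, c103011, c103930, c104422, c104432, c104997, c105113,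 c102762, c101804, c102535, c102781, c104078, c104171, c103130, c103273, c94424, c104264, c104589, c103356, c103413, c103421, c103128, trivial⟩ (nd (nat_lit 232) (nat_lit 0) (cs (rf (nat_lit 0)) (cs (rf (nat_lit 1)) (cs (rf (nat_lit 2)) (cs (rf (nat_lit 3)) (cs (rf (nat_lit 4)) (cs (rf (nat_lit 5)) (cs (rf (nat_lit 6)) (cs (nd (nat_lit 254) (nat_lit 0) (cs (rf (nat_lit 7)) (cs (rf (nat_lit 8)) (cs (rf (nat_lit 9)) (cs (rf (nat_lit 10)) (cs (rf (nat_lit 11)) (cs (nd (nat_lit 210) (nat_lit 0) (cs (rf (nat_lit 12)) (cs (rf (nat_lit 13)) (cs (rf (nat_lit 14)) (nd (nat_lit 276) (nat_lit 0) (cs (rf (nat_lit 15)) (cs (rf (nat_lit 16)) (rf (nat_lit 17))))))))) (cs (rf (nat_lit 18)) (rf (nat_lit 19)))))))))) (cs (rf (nat_lit 20)) (cs (rf (nat_lit 21)) (cs (rf (nat_lit 22)) (cs (rf (nat_lit 23)) (cs (rf (nat_lit 24)) (cs (rf (nat_lit 25)) (cs (rf (nat_lit 26)) (cs (nd (nat_lit 254) (nat_lit 0) (cs (rf (nat_lit 27)) (cs (rf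 (nat_lit 28)) (cs (rf (nat_lit 10)) (cs (rf (nat_lit 29)) (cs (nd (nat_lit 252) (nat_lit 0) (cs (rf (nat_lit 30)) (cs (rf (nat_lit 31)) (cs (rf (nat_lit 32)) (rf (nat_lit 33)))))) (cs (nd (nat_lit 210) (nat_lit 0) (cs (rf (nat_lit 12)) (cs (rf (nat_lit 13)) (cs (rf (nat_lit 34)) (rf (nat_lit 35)))))) (cs (rf (nat_lit 36)) (rf (nat_lit 37)))))))))) (cs (rf (nat_lit 38)) (cs (rf (nat_lit 39)) (cs (rf (nat_lit 40)) (cs (rf (nat_lit 41)) (cs (rf (nat_lit 42)) (cs (rf (nat_lit 43)) (cs (nd (nat_lit 231) (nat_lit 0) (cs (rf (nat_lit 44)) (cs (rf (nat_lit 45)) (cs (rf (nat_lit 46)) (cs (rf (nat_lit 47)) (cs (rf (nat_lit 48)) (nd (nat_lit 233) (nat_lit 0) (cs (rf (nat_lit 49)) (cs (rf (nat_lit 50)) (cs (rf (nat_lit 51)) (rf (nat_lit 52)))))))))))) (cs (rf (nat_lit 53)) (cs (rf (nat_lit 54)) (cs (rf (nat_lit 55)) (cs (rf (nat_lit 56)) (cs (nd (nat_lit 254) (nat_lit 0) (cs (rf (nat_lit 57)) (cs (rf (nat_lit 8)) (cs (rf (nat_lit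 58)) (cs (rf (nat_lit 59)) (cs (rf (nat_lit 60)) (cs (rf (nat_lit 19)) (cs (rf (nat_lit 61)) (cs (rf (nat_lit 62)) (cs (rf (nat_lit 63)) (rf (nat_lit 64)))))))))))) (cs (nd (nat_lit 254) (nat_lit 0) (cs (rf (nat_lit 7)) (cs (rf (nat_lit 65)) (cs (rf (nat_lit 9)) (cs (rf (nat_lit 66)) (cs (rf (nat_lit 67)) (cs (rf (nat_lit 68)) (rf (nat_lit 69))))))))) (cs (rf (nat_lit 70)) (cs (nd (nat_lit 231) (nat_lit 0) (cs (rf (nat_lit 44)) (cs (rf (nat_lit 45)) (cs (rf (nat_lit 71)) (cs (rf (nat_lit 46)) (cs (nd (nat_lit 233) (nat_lit 0) (cs (rf (nat_lit 72)) (cs (rf (nat_lit 73)) (cs (rf (nat_lit 49)) (cs (rf (nat_lit 50)) (rf (nat_lit 74))))))) (cs (rf (nat_lit 75)) (rf (nat_lit 76))))))))) (nd (nat_lit 231) (nat_lit 0) (cs (rf (nat_lit 46)) (cs (rf (nat_lit 47)) (cs (rf (nat_lit 77)) (cs (rf (nat_lit 78)) (cs (nd (nat_lit 252) (nat_lit 0) (cs (rf (nat_lit 79)) (cs (rf (nat_lit 80)) (cs (rf (nat_lit 81)) (nd (nat_lit 254)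 (nat_lit 0) (cs (rf (nat_lit 82)) (cs (rf (nat_lit 83)) (rf (nat_lit 84))))))))) (nd (nat_lit 233) (nat_lit 0) (cs (rf (nat_lit 50)) (cs (rf (nat_lit 85)) (cs (rf (nat_lit 51)) (rf (nat_lit 52)))))))))))))))))))))))))))))))))))))))))))) q105119 (by decide +kernel)
def q114259 : Q := Q.p (nat_lit 0x3000000000000000000000000000000000000000000000000000000000000000) (nat_lit 0x80000380001f0001fe0007f80018e000fff003ff801fff003fe0001e00003000008000000000000000000000000) (nat_lit 17)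
theorem c114259 : QOK q114259 := cut [q114060, q87815, q80169, q87940, q114019, q114092, q114093, q114097, q114099, q114152, q114156, q114038, q79078, q110082, q114160, q114162, q84909, q87953, q92083, q93702, q87919, q87951, q108787, q114164, q12193, q92089, q114043, q114172, q114174, q79097, q85044, q57663, q87131, q93764, q93790, q84852, q93600, q93801, q93808, q114187, q95670, q114190, q114191, q114194, q114203, q98728, q114207, q114208, q114224, q114240, q114242, q5353, q79066, q84155, q110042, q1298, q6879, q114245, q114257, q114258] ⟨c114060, c87815, c80169, c87940, c114019, c114092, c114093, c114097, c114099, c114152, c114156, c114038, c79078, c110082, c114160, c114162, c84909, c87953, c92083, c93702, c87919, c87951, c108787, c114164, c12193, c92089, c114043, c114172, c114174, c79097, c85044, c57663, c87131, c93764, c93790, c84852, c93600, c93801, c93808, c114187, c95670, c114190, c114191, c114194, c114203,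 c98728, c114207, c114208, c114224, c114240, c114242, c5353, c79066, c84155, c110042, c1298, c6879, c114245, c114257, c114258, trivial⟩ (nd (nat_lit 230) (nat_lit 0) (cs (rf (nat_lit 0)) (cs (nd (nat_lit 231) (nat_lit 0) (cs (rf (nat_lit 1)) (cs (nd (nat_lit 209) (nat_lit 0) (cs (rf (nat_lit 2)) (cs (rf (nat_lit 3)) (rf (nat_lit 4))))) (cs (rf (nat_lit 5)) (cs (rf (nat_lit 6)) (cs (nd (nat_lit 209) (nat_lit 0) (cs (rf (nat_lit 2)) (cs (rf (nat_lit 7)) (rf (nat_lit 8))))) (rf (nat_lit 9)))))))) (cs (rf (nat_lit 10)) (cs (nd (nat_lit 231) (nat_lit 0) (cs (rf (nat_lit 1)) (cs (rf (nat_lit 11)) (cs (nd (nat_lit 275) (nat_lit 0) (cs (rf (nat_lit 12)) (cs (rf (nat_lit 13)) (rf (nat_lit 14))))) (cs (rf (nat_lit 15)) (cs (nd (nat_lit 229) (nat_lit 0) (cs (rf (nat_lit 16)) (cs (rf (nat_lit 17)) (cs (rf (nat_lit 18)) (cs (rf (nat_lit 19)) (cs (nd (nat_lit 251) (nat_lit 0) (cs (rf (nat_lit 20)) (cs (rf (nat_lit 21)) (rf (nat_lit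 22))))) (rf (nat_lit 23)))))))) (nd (nat_lit 275) (nat_lit 0) (cs (rf (nat_lit 12)) (cs (rf (nat_lit 13)) (nd (nat_lit 251) (nat_lit 0) (cs (rf (nat_lit 24)) (nd (nat_lit 229) (nat_lit 0) (cs (rf (nat_lit 21)) (cs (rf (nat_lit 17)) (nd (nat_lit 228) (nat_lit 0) (cs (lf (nat_lit 0) (nat_lit 227)) (nd (nat_lit 186) (nat_lit 0) (cs (lf (nat_lit 25) (nat_lit 186)) (rf (nat_lit 25)))))))))))))))))))) (cs (nd (nat_lit 231) (nat_lit 0) (cs (rf (nat_lit 26)) (cs (rf (nat_lit 5)) (cs (rf (nat_lit 15)) (cs (rf (nat_lit 27)) (cs (rf (nat_lit 28)) (cs (nd (nat_lit 274) (nat_lit 0) (cs (rf (nat_lit 29)) (cs (rf (nat_lit 30)) (nd (nat_lit 232) (nat_lit 0) (cs (rf (nat_lit 31)) (cs (rf (nat_lit 32)) (nd (nat_lit 186) (nat_lit 0) (cs (rf (nat_lit 33)) (cs (rf (nat_lit 34)) (cs (nd (nat_lit 208) (nat_lit 0) (cs (lf (nat_lit 24) (nat_lit 164)) (nd (nat_lit 251) (nat_lit 0) (cs (lf (nat_lit 41) (nat_lit 185)) (lf (nat_lit 12) (nat_lit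 228)))))) (nd (nat_lit 251) (nat_lit 0) (cs (lf (nat_lit 12) (nat_lit 228)) (nd (nat_lit 187) (nat_lit 0) (cs (lf (nat_lit 37) (nat_lit 186)) (nd (nat_lit 208) (nat_lit 0) (cs (lf (nat_lit 35) (nat_lit 164)) (lf (nat_lit 41) (nat_lit 185)))))))))))))))))) (cs (nd (nat_lit 232) (nat_lit 0) (cs (rf (nat_lit 31)) (cs (rf (nat_lit 32)) (nd (nat_lit 229) (nat_lit 0) (cs (rf (nat_lit 35)) (cs (rf (nat_lit 36)) (nd (nat_lit 209) (nat_lit 0) (cs (rf (nat_lit 2)) (cs (rf (nat_lit 37)) (rf (nat_lit 38))))))))))) (rf (nat_lit 39)))))))))) (cs (nd (nat_lit 275) (nat_lit 0) (cs (rf (nat_lit 40)) (cs (rf (nat_lit 41)) (cs (nd (nat_lit 274) (nat_lit 0) (cs (rf (nat_lit 42)) (cs (rf (nat_lit 43)) (cs (rf (nat_lit 44)) (nd (nat_lit 231) (nat_lit 0) (cs (rf (nat_lit 29)) (cs (rf (nat_lit 45)) (rf (nat_lit 5))))))))) (cs (rf (nat_lit 46)) (rf (nat_lit 47))))))) (cs (rf (nat_lit 48)) (cs (rf (nat_lit 49)) (cs (rf (nat_lit 50)) (cs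 (nd (nat_lit 208) (nat_lit 0) (cs (rf (nat_lit 51)) (cs (rf (nat_lit 52)) (cs (nd (nat_lit 274) (nat_lit 0) (cs (rf (nat_lit 53)) (cs (rf (nat_lit 54)) (nd (nat_lit 275) (nat_lit 0) (cs (rf (nat_lit 55)) (rf (nat_lit 56))))))) (rf (nat_lit 57)))))) (cs (rf (nat_lit 58)) (rf (nat_lit 59)))))))))))))) q114259 (by decide +kernel)
def q115680 : Q := Q.p (nat_lit 0x3000000000000000000000000000000000000000000000000000000000000000) (nat_lit 0x80000380001f0001fe0007f80018e000fff003ff801fff003fc0003e0000b000008000000000000000000000000) (nat_lit 17)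
theorem c115680 : QOK q115680 := cut [q114060, q114156, q114224, q114240, q114242, q114257, q114258, q87815, q114093, q82309, q87940, q114019, q115655, q114097, q114099, q84909, q87141, q93652, q93669, q82275, q87917, q87919, q87928, q93654, q93662, q114162, q115627, q81477, q110082, q114160, q87953, q92083, q93702, q114164, q87951, q12193, q92089, q96952, q114043, q114172, q114174, q114187, q57663, q87131, q84852, q93600, q93809, q95670, q114190, q114207, q114208, q114191, q114194, q114203, q79097, q98728, q5353, q79066, q114245, q84155, q110042, q1140, q6879] ⟨c114060, c114156, c114224, c114240, c114242, c114257, c114258, c87815, c114093, c82309, c87940, c114019, c115655, c114097, c114099, c84909, c87141, c93652, c93669, c82275, c87917, c87919, c87928, c93654, c93662, c114162, c115627, c81477, c110082, c114160, c87953, c92083, c93702, c114164, c87951, c12193, c92089, c96952, c114043, c114172, c114174, c114187,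 c57663, c87131, c84852, c93600, c93809, c95670, c114190, c114207, c114208, c114191, c114194, c114203, c79097, c98728, c5353, c79066, c114245, c84155, c110042, c1140, c6879, trivial⟩ (nd (nat_lit 230) (nat_lit 0) (cs (rf (nat_lit 0)) (cs (rf (nat_lit 1)) (cs (rf (nat_lit 2)) (cs (rf (nat_lit 3)) (cs (rf (nat_lit 4)) (cs (rf (nat_lit 5)) (cs (rf (nat_lit 6)) (cs (nd (nat_lit 231) (nat_lit 0) (cs (rf (nat_lit 7)) (cs (rf (nat_lit 8)) (cs (nd (nat_lit 209) (nat_lit 0) (cs (rf (nat_lit 9)) (cs (rf (nat_lit 10)) (rf (nat_lit 11))))) (cs (rf (nat_lit 12)) (cs (nd (nat_lit 209) (nat_lit 0) (cs (rf (nat_lit 9)) (cs (rf (nat_lit 13)) (rf (nat_lit 14))))) (nd (nat_lit 229) (nat_lit 0) (cs (rf (nat_lit 15)) (cs (rf (nat_lit 16)) (cs (rf (nat_lit 17)) (cs (rf (nat_lit 18)) (cs (nd (nat_lit 251) (nat_lit 0) (cs (rf (nat_lit 19)) (cs (rf (nat_lit 20)) (rf (nat_lit 21))))) (nd (nat_lit 251) (nat_lit 0) (cs (rf (nat_lit 21)) (cs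 (rf (nat_lit 22)) (cs (rf (nat_lit 23)) (rf (nat_lit 24)))))))))))))))))) (cs (nd (nat_lit 231) (nat_lit 0) (cs (rf (nat_lit 7)) (cs (rf (nat_lit 25)) (cs (rf (nat_lit 26)) (cs (nd (nat_lit 275) (nat_lit 0) (cs (rf (nat_lit 27)) (cs (rf (nat_lit 28)) (rf (nat_lit 29))))) (cs (nd (nat_lit 229) (nat_lit 0) (cs (rf (nat_lit 15)) (cs (rf (nat_lit 30)) (cs (rf (nat_lit 31)) (cs (rf (nat_lit 32)) (cs (rf (nat_lit 33)) (nd (nat_lit 251) (nat_lit 0) (cs (rf (nat_lit 19)) (cs (rf (nat_lit 21)) (rf (nat_lit 34))))))))))) (nd (nat_lit 275) (nat_lit 0) (cs (rf (nat_lit 27)) (cs (rf (nat_lit 28)) (nd (nat_lit 251) (nat_lit 0) (cs (rf (nat_lit 35)) (nd (nat_lit 229) (nat_lit 0) (cs (rf (nat_lit 22)) (cs (rf (nat_lit 34)) (nd (nat_lit 186) (nat_lit 0) (cs (lf (nat_lit 25) (nat_lit 186)) (nd (nat_lit 228) (nat_lit 0) (cs (lf (nat_lit 0) (nat_lit 227)) (nd (nat_lit 232) (nat_lit 0) (cs (lf (nat_lit 6) (nat_lit 229)) (rf (nat_lit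 36)))))))))))))))))))))) (cs (nd (nat_lit 231) (nat_lit 0) (cs (rf (nat_lit 37)) (cs (rf (nat_lit 38)) (cs (rf (nat_lit 25)) (cs (rf (nat_lit 39)) (cs (rf (nat_lit 40)) (cs (rf (nat_lit 41)) (cs (rf (nat_lit 12)) (nd (nat_lit 232) (nat_lit 0) (cs (rf (nat_lit 42)) (cs (rf (nat_lit 43)) (nd (nat_lit 229) (nat_lit 0) (cs (rf (nat_lit 44)) (cs (rf (nat_lit 45)) (rf (nat_lit 46)))))))))))))))) (cs (nd (nat_lit 275) (nat_lit 0) (cs (rf (nat_lit 47)) (cs (rf (nat_lit 48)) (cs (rf (nat_lit 49)) (cs (rf (nat_lit 50)) (nd (nat_lit 274) (nat_lit 0) (cs (rf (nat_lit 51)) (cs (rf (nat_lit 52)) (cs (rf (nat_lit 53)) (nd (nat_lit 231) (nat_lit 0) (cs (rf (nat_lit 54)) (cs (rf (nat_lit 55)) (rf (nat_lit 12)))))))))))))) (nd (nat_lit 208) (nat_lit 0) (cs (rf (nat_lit 56)) (cs (rf (nat_lit 57)) (cs (rf (nat_lit 58)) (nd (nat_lit 274) (nat_lit 0) (cs (rf (nat_lit 59)) (cs (rf (nat_lit 60)) (nd (nat_lit 275) (nat_lit 0) (cs (rf (nat_lit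 61)) (rf (nat_lit 62))))))))))))))))))))))) q115680 (by decide +kernel)
def q52516 : Q := Q.p (nat_lit 0x2000000000010000000000000000000000000000000000000000000000000000) (nat_lit 0x3c0000f0000fe8007fe001ffe00fffc07fffc1fffe07fffc1ffff019ffc07fff03cffc1ffff07fff81fffe07fff00fffc01ffe001ff0007fc001f80) (nat_lit 19)
theorem c52516 : QOK q52516 := cut [q32232, q30, q442, q20149, q32238, q26, q32043, q32248, q3797, q32241, q631, q18163, q32273, q32285, q1650, q32289, q32327, q32385, q8608, q8586, q8597, q18432, q4807, q8581, q517, q614, q32221, q32457, q40515, q52515] ⟨c32232, c30, c442, c20149, c32238, c26, c32043, c32248, c3797, c32241, c631, c18163, c32273, c32285, c1650, c32289, c32327, c32385, c8608, c8586, c8597, c18432, c4807, c8581, c517, c614, c32221, c32457, c40515, c52515, trivial⟩ (nd (nat_lit 186) (nat_lit 0) (cs (rf (nat_lit 0)) (cs (nd (nat_lit 230) (nat_lit 0) (cs (rf (nat_lit 1)) (cs (rf (nat_lit 2))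 (cs (rf (nat_lit 3)) (rf (nat_lit 4)))))) (cs (nd (nat_lit 230) (nat_lit 0) (cs (rf (nat_lit 5)) (cs (rf (nat_lit 1)) (cs (rf (nat_lit 6)) (nd (nat_lit 164) (nat_lit 0) (cs (lf (nat_lit 28) (nat_lit 164)) (rf (nat_lit 7)))))))) (cs (nd (nat_lit 230) (nat_lit 0) (cs (rf (nat_lit 5)) (cs (rf (nat_lit 2)) (cs (rf (nat_lit 8)) (nd (nat_lit 252) (nat_lit 0) (cs (lf (nat_lit 29) (nat_lit 186)) (rf (nat_lit 9)))))))) (cs (nd (nat_lit 164) (nat_lit 0) (cs (rf (nat_lit 10)) (cs (nd (nat_lit 142) (nat_lit 0) (cs (rf (nat_lit 11)) (cs (rf (nat_lit 12)) (cs (rf (nat_lit 13)) (cs (nd (nat_lit 163) (nat_lit 0) (cs (rf (nat_lit 14)) (cs (rf (nat_lit 15)) (rf (nat_lit 16))))) (cs (rf (nat_lit 17)) (nd (nat_lit 143) (nat_lit 0) (cs (lf (nat_lit 35) (nat_lit 120)) (nd (nat_lit 144) (nat_lit 0) (cs (rf (nat_lit 18)) (cs (nd (nat_lit 145) (nat_lit 0) (cs (lf (nat_lit 11) (nat_lit 141)) (nd (nat_lit 123) (nat_lit 0) (cs (lf (nat_lit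 17) (nat_lit 120)) (nd (nat_lit 167) (nat_lit 0) (cs (lf (nat_lit 5) (nat_lit 142)) (rf (nat_lit 19)))))))) (cs (nd (nat_lit 141) (nat_lit 0) (cs (lf (nat_lit 47) (nat_lit 119)) (rf (nat_lit 20)))) (nd (nat_lit 145) (nat_lit 0) (cs (lf (nat_lit 11) (nat_lit 141)) (nd (nat_lit 119) (nat_lit 0) (cs (lf (nat_lit 46) (nat_lit 119)) (rf (nat_lit 21)))))))))))))))))) (cs (nd (nat_lit 230) (nat_lit 0) (cs (lf (nat_lit 28) (nat_lit 164)) (nd (nat_lit 229) (nat_lit 0) (cs (lf (nat_lit 41) (nat_lit 163)) (rf (nat_lit 22)))))) (nd (nat_lit 230) (nat_lit 0) (cs (lf (nat_lit 28) (nat_lit 164)) (nd (nat_lit 229) (nat_lit 0) (cs (lf (nat_lit 41) (nat_lit 163)) (rf (nat_lit 23)))))))))) (cs (nd (nat_lit 164) (nat_lit 0) (cs (rf (nat_lit 24)) (cs (rf (nat_lit 25)) (cs (rf (nat_lit 10)) (cs (rf (nat_lit 26)) (nd (nat_lit 230) (nat_lit 0) (cs (lf (nat_lit 28) (nat_lit 164)) (rf (nat_lit 7))))))))) (cs (rf (nat_lit 27)) (cs (rf (nat_lit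 28)) (rf (nat_lit 29))))))))))) q52516 (by decide +kernel)
def q78652 : Q := Q.p (nat_lit 0x2000000000010000000000000000000000000000000000000000000000000000) (nat_lit 0x150001fe000fffc0ffff8fffff1ffffcfffff1ffffcfffff0f9ffc3ffff0fe7fc3ffff07fffc1ffff07fffc07ff801ffe001a0000000000000) (nat_lit 19)
theorem c78652 : QOK q78652 := cut [q16040, q2521, q2576, q16025, q52523, q12646, q12651, q16034, q52528, q11865, q16036, q52635, q52637, q55815, q56296, q57715, q56608, q57722, q57748, q57792, q57795, q57824, q57906, q57907, q57932, q57998, q58015, q58029, q58044, q58169, q58174, q58284, q58308, q58315, q58319, q58320, q58339, q58342, q58358, q58389, q58448, q58452, q58472, q58473, q61017, q61019, q61026, q61435, q61484, q61515, q65956, q78647, q2279, q56302, q44386] ⟨c16040, c2521, c2576, c16025, c52523, c12646, c12651, c16034, c52528, c11865, c16036, c52635, c52637, c55815, c56296, c57715, c56608, c57722, c57748, c57792,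 c57795, c57824, c57906, c57907, c57932, c57998, c58015, c58029, c58044, c58169, c58174, c58284, c58308, c58315, c58319, c58320, c58339, c58342, c58358, c58389, c58448, c58452, c58472, c58473, c61017, c61019, c61026, c61435, c61484, c61515, c65956, c78647, c2279, c56302, c44386, trivial⟩ (nd (nat_lit 275) (nat_lit 0) (cs (rf (nat_lit 0)) (cs (nd (nat_lit 297) (nat_lit 0) (cs (rf (nat_lit 1)) (cs (rf (nat_lit 2)) (cs (rf (nat_lit 3)) (rf (nat_lit 4)))))) (cs (nd (nat_lit 231) (nat_lit 0) (cs (rf (nat_lit 5)) (cs (rf (nat_lit 6)) (cs (rf (nat_lit 7)) (rf (nat_lit 8)))))) (cs (nd (nat_lit 297) (nat_lit 0) (cs (rf (nat_lit 2)) (cs (rf (nat_lit 9)) (cs (rf (nat_lit 10)) (rf (nat_lit 4)))))) (cs (nd (nat_lit 297) (nat_lit 0) (cs (rf (nat_lit 1)) (cs (rf (nat_lit 10)) (cs (rf (nat_lit 11)) (nd (nat_lit 231) (nat_lit 0) (cs (lf (nat_lit 46) (nat_lit 208)) (rf (nat_lit 12)))))))) (cs (rf (nat_lit 13)) (cs (rf (nat_lit 14))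 (nd (nat_lit 250) (nat_lit 0) (cs (rf (nat_lit 15)) (cs (nd (nat_lit 186) (nat_lit 0) (cs (rf (nat_lit 16)) (cs (nd (nat_lit 187) (nat_lit 0) (cs (nd (nat_lit 188) (nat_lit 0) (cs (rf (nat_lit 17)) (cs (rf (nat_lit 18)) (cs (rf (nat_lit 19)) (cs (rf (nat_lit 20)) (cs (rf (nat_lit 21)) (cs (rf (nat_lit 22)) (cs (rf (nat_lit 23)) (rf (nat_lit 24)))))))))) (cs (rf (nat_lit 25)) (cs (rf (nat_lit 26)) (cs (rf (nat_lit 27)) (cs (rf (nat_lit 28)) (cs (rf (nat_lit 29)) (cs (rf (nat_lit 30)) (cs (rf (nat_lit 31)) (cs (rf (nat_lit 32)) (cs (nd (nat_lit 188) (nat_lit 0) (cs (rf (nat_lit 19)) (cs (rf (nat_lit 33)) (cs (rf (nat_lit 34)) (cs (rf (nat_lit 35)) (cs (rf (nat_lit 36)) (rf (nat_lit 37)))))))) (cs (rf (nat_lit 38)) (cs (rf (nat_lit 39)) (cs (rf (nat_lit 40)) (rf (nat_lit 41)))))))))))))))) (cs (rf (nat_lit 42)) (rf (nat_lit 43)))))) (cs (rf (nat_lit 44)) (cs (nd (nat_lit 186) (nat_lit 0) (cs (rf (nat_lit 16)) (cs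 (rf (nat_lit 42)) (cs (rf (nat_lit 43)) (nd (nat_lit 187) (nat_lit 0) (cs (rf (nat_lit 25)) (cs (rf (nat_lit 26)) (cs (rf (nat_lit 27)) (cs (rf (nat_lit 28)) (cs (rf (nat_lit 29)) (cs (rf (nat_lit 30)) (cs (rf (nat_lit 31)) (cs (rf (nat_lit 32)) (cs (rf (nat_lit 38)) (cs (rf (nat_lit 39)) (cs (rf (nat_lit 40)) (cs (rf (nat_lit 41)) (cs (nd (nat_lit 188) (nat_lit 0) (cs (rf (nat_lit 17)) (cs (rf (nat_lit 20)) (cs (rf (nat_lit 21)) (cs (rf (nat_lit 22)) (cs (rf (nat_lit 23)) (cs (rf (nat_lit 24)) (cs (rf (nat_lit 45)) (rf (nat_lit 46)))))))))) (nd (nat_lit 188) (nat_lit 0) (cs (rf (nat_lit 33)) (cs (rf (nat_lit 34)) (cs (rf (nat_lit 35)) (cs (rf (nat_lit 36)) (cs (rf (nat_lit 37)) (rf (nat_lit 46)))))))))))))))))))))))))) (cs (rf (nat_lit 47)) (cs (rf (nat_lit 48)) (cs (rf (nat_lit 49)) (cs (rf (nat_lit 50)) (cs (rf (nat_lit 51)) (nd (nat_lit 252) (nat_lit 0) (cs (rf (nat_lit 52)) (cs (rf (nat_lit 53)) (nd (nat_lit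 186) (nat_lit 0) (cs (lf (nat_lit 26) (nat_lit 186)) (nd (nat_lit 231) (nat_lit 0) (cs (lf (nat_lit 45) (nat_lit 186)) (rf (nat_lit 54))))))))))))))))))))))))))) q78652 (by decide +kernel)
def q114730 : Q := Q.p (nat_lit 0x2000000000000000000000000000000000000000000000000000000000000000) (nat_lit 0x290000fc000ff8003ff000fff007df803fff007ff801fff003ff0007f80003000008000000000000000000000000) (nat_lit 20)
theorem c114730 : QOK q114730 := cut [q114088, q114259, q110543, q114267, q114268, q114269, q114270, q114271, q114272, q114298, q114313, q114292, q114314, q114315, q114316, q114328, q114382, q81353, q114385, q114386, q114387, q114390, q114404, q114411, q114417, q79013, q81342, q103009, q114503, q114555, q82315, q82388, q82198, q82206, q114557, q82231, q82233, q89671, q114560, q114575, q6264, q82256, q82394, q82402, q114612, q114651, q114680, q114704, q114705, q106549, q114293, q114429, q114502, q114641, q114707,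 q114724, q114626, q114685, q114702, q105134, q88302] ⟨c114088, c114259, c110543, c114267, c114268, c114269, c114270, c114271, c114272, c114298, c114313, c114292, c114314, c114315, c114316, c114328, c114382, c81353, c114385, c114386, c114387, c114390, c114404, c114411, c114417, c79013, c81342, c103009, c114503, c114555, c82315, c82388, c82198, c82206, c114557, c82231, c82233, c89671, c114560, c114575, c6264, c82256, c82394, c82402, c114612, c114651, c114680, c114704, c114705, c106549, c114293, c114429, c114502, c114641, c114707, c114724, c114626, c114685, c114702, c105134, c88302, trivial⟩ (nd (nat_lit 252) (nat_lit 0) (cs (rf (nat_lit 0)) (cs (rf (nat_lit 1)) (cs (nd (nat_lit 251) (nat_lit 0) (cs (rf (nat_lit 2)) (cs (rf (nat_lit 3)) (cs (rf (nat_lit 4)) (cs (rf (nat_lit 5)) (cs (rf (nat_lit 6)) (cs (rf (nat_lit 7)) (rf (nat_lit 8))))))))) (cs (rf (nat_lit 9)) (cs (rf (nat_lit 10)) (cs (nd (nat_lit 251) (nat_lit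 0) (cs (rf (nat_lit 11)) (cs (rf (nat_lit 12)) (cs (rf (nat_lit 13)) (cs (rf (nat_lit 14)) (rf (nat_lit 15))))))) (cs (rf (nat_lit 16)) (cs (nd (nat_lit 254) (nat_lit 0) (cs (rf (nat_lit 17)) (cs (rf (nat_lit 18)) (cs (rf (nat_lit 19)) (cs (rf (nat_lit 20)) (cs (rf (nat_lit 21)) (cs (rf (nat_lit 22)) (cs (rf (nat_lit 23)) (cs (rf (nat_lit 24)) (nd (nat_lit 251) (nat_lit 0) (cs (rf (nat_lit 25)) (cs (rf (nat_lit 26)) (rf (nat_lit 27)))))))))))))) (cs (rf (nat_lit 28)) (cs (rf (nat_lit 29)) (cs (nd (nat_lit 251) (nat_lit 0) (cs (rf (nat_lit 30)) (cs (rf (nat_lit 31)) (cs (rf (nat_lit 7)) (cs (rf (nat_lit 12)) (cs (nd (nat_lit 229) (nat_lit 0) (cs (rf (nat_lit 32)) (cs (rf (nat_lit 33)) (cs (rf (nat_lit 34)) (nd (nat_lit 273) (nat_lit 0) (cs (rf (nat_lit 35)) (cs (rf (nat_lit 36)) (rf (nat_lit 37))))))))) (cs (rf (nat_lit 38)) (cs (rf (nat_lit 39)) (nd (nat_lit 250) (nat_lit 0) (cs (rf (nat_lit 40)) (cs (rf (nat_lit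 41)) (cs (rf (nat_lit 42)) (rf (nat_lit 43)))))))))))))) (cs (rf (nat_lit 44)) (cs (rf (nat_lit 45)) (cs (rf (nat_lit 46)) (cs (rf (nat_lit 47)) (cs (rf (nat_lit 48)) (cs (nd (nat_lit 251) (nat_lit 0) (cs (rf (nat_lit 49)) (cs (rf (nat_lit 4)) (cs (rf (nat_lit 7)) (cs (rf (nat_lit 11)) (cs (rf (nat_lit 50)) (cs (rf (nat_lit 51)) (cs (rf (nat_lit 52)) (rf (nat_lit 53)))))))))) (cs (rf (nat_lit 54)) (cs (rf (nat_lit 55)) (cs (nd (nat_lit 251) (nat_lit 0) (cs (rf (nat_lit 3)) (cs (rf (nat_lit 5)) (cs (rf (nat_lit 6)) (cs (rf (nat_lit 7)) (cs (rf (nat_lit 8)) (rf (nat_lit 56)))))))) (cs (nd (nat_lit 251) (nat_lit 0) (cs (rf (nat_lit 2)) (cs (rf (nat_lit 3)) (cs (rf (nat_lit 5)) (cs (rf (nat_lit 6)) (cs (rf (nat_lit 7)) (cs (rf (nat_lit 8)) (rf (nat_lit 57))))))))) (nd (nat_lit 251) (nat_lit 0) (cs (rf (nat_lit 49)) (cs (rf (nat_lit 4)) (cs (rf (nat_lit 5)) (cs (rf (nat_lit 7)) (cs (rf (nat_lit 50)) (cs (rf (nat_lit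 51)) (cs (rf (nat_lit 53)) (cs (rf (nat_lit 58)) (nd (nat_lit 229) (nat_lit 0) (cs (rf (nat_lit 32)) (cs (rf (nat_lit 59)) (cs (rf (nat_lit 34)) (nd (nat_lit 273) (nat_lit 0) (cs (rf (nat_lit 35)) (cs (rf (nat_lit 60)) (rf (nat_lit 37)))))))))))))))))))))))))))))))))))))))) q114730 (by decide +kernel)
def q115926 : Q := Q.p (nat_lit 0x2000000000000000000000000000000000000000000000000000000000000000) (nat_lit 0x3d0001fe000ff8003ff003fff007df803fff003ff801fff003ff0007f8000b000008000000000000000000000000) (nat_lit 20)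
theorem c115926 : QOK q115926 := cut [q115654, q115680, q89928, q105202, q105769, q110513, q110514, q79020, q79232, q105767, q115687, q105825, q110532, q110533, q110534, q115691, q115693, q105849, q105851, q105852, q110543, q81339, q92263, q105830, q80625, q81660, q110549, q110768, q80417, q80574, q107554, q110547, q115704, q115725, q115763, q115803, q115846, q115857, q115871, q115886, q115895, q115910, q81726, q92327, q111086, q114715, q115777, q115912, q79013, q79201, q79256, q81495, q115768, q79009, q105199, q110037, q105156, q105188, q105204, q105206, q110038, q115816, q114510, q79024, q115850, q115919, q115923, q111094, q80464, q82259] ⟨c115654, c115680, c89928, c105202, c105769, c110513, c110514, c79020, c79232, c105767, c115687, c105825, c110532, c110533, c110534, c115691, c115693, c105849, c105851, c105852, c110543, c81339, c92263, c105830, c80625, c81660, c110549, c110768, c80417, c80574, c107554, c110547,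 c115704, c115725, c115763, c115803, c115846, c115857, c115871, c115886, c115895, c115910, c81726, c92327, c111086, c114715, c115777, c115912, c79013, c79201, c79256, c81495, c115768, c79009, c105199, c110037, c105156, c105188, c105204, c105206, c110038, c115816, c114510, c79024, c115850, c115919, c115923, c111094, c80464, c82259, trivial⟩ (nd (nat_lit 252) (nat_lit 0) (cs (rf (nat_lit 0)) (cs (rf (nat_lit 1)) (cs (nd (nat_lit 251) (nat_lit 0) (cs (rf (nat_lit 2)) (cs (rf (nat_lit 3)) (cs (rf (nat_lit 4)) (cs (rf (nat_lit 5)) (cs (rf (nat_lit 6)) (nd (nat_lit 254) (nat_lit 0) (cs (rf (nat_lit 7)) (cs (rf (nat_lit 8)) (cs (rf (nat_lit 9)) (rf (nat_lit 10)))))))))))) (cs (nd (nat_lit 254) (nat_lit 0) (cs (rf (nat_lit 11)) (cs (rf (nat_lit 12)) (cs (rf (nat_lit 13)) (cs (rf (nat_lit 14)) (cs (rf (nat_lit 15)) (rf (nat_lit 16)))))))) (cs (nd (nat_lit 251) (nat_lit 0) (cs (rf (nat_lit 2)) (cs (rf (nat_lit 17)) (cs (rf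 (nat_lit 18)) (cs (rf (nat_lit 19)) (cs (rf (nat_lit 5)) (cs (rf (nat_lit 20)) (nd (nat_lit 254) (nat_lit 0) (cs (rf (nat_lit 21)) (cs (rf (nat_lit 22)) (cs (rf (nat_lit 9)) (cs (rf (nat_lit 23)) (rf (nat_lit 10)))))))))))))) (cs (nd (nat_lit 254) (nat_lit 0) (cs (rf (nat_lit 24)) (cs (rf (nat_lit 25)) (cs (rf (nat_lit 26)) (cs (rf (nat_lit 27)) (cs (nd (nat_lit 255) (nat_lit 0) (cs (rf (nat_lit 28)) (cs (rf (nat_lit 29)) (cs (rf (nat_lit 30)) (rf (nat_lit 31)))))) (rf (nat_lit 32)))))))) (cs (rf (nat_lit 33)) (cs (rf (nat_lit 34)) (cs (rf (nat_lit 35)) (cs (rf (nat_lit 36)) (cs (rf (nat_lit 37)) (cs (rf (nat_lit 38)) (cs (rf (nat_lit 39)) (cs (rf (nat_lit 40)) (cs (rf (nat_lit 41)) (cs (nd (nat_lit 254) (nat_lit 0) (cs (rf (nat_lit 25)) (cs (rf (nat_lit 42)) (cs (rf (nat_lit 43)) (cs (rf (nat_lit 14)) (cs (rf (nat_lit 44)) (cs (rf (nat_lit 45)) (cs (rf (nat_lit 46)) (cs (rf (nat_lit 47)) (nd (nat_lit 251) (nat_lit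 0) (cs (rf (nat_lit 48)) (cs (rf (nat_lit 49)) (cs (rf (nat_lit 50)) (rf (nat_lit 22))))))))))))))) (cs (nd (nat_lit 254) (nat_lit 0) (cs (rf (nat_lit 51)) (cs (rf (nat_lit 27)) (cs (rf (nat_lit 15)) (cs (rf (nat_lit 16)) (cs (rf (nat_lit 52)) (cs (rf (nat_lit 46)) (nd (nat_lit 251) (nat_lit 0) (cs (rf (nat_lit 53)) (cs (rf (nat_lit 48)) (cs (rf (nat_lit 54)) (rf (nat_lit 55))))))))))))) (cs (nd (nat_lit 251) (nat_lit 0) (cs (rf (nat_lit 56)) (cs (rf (nat_lit 57)) (cs (rf (nat_lit 3)) (cs (rf (nat_lit 58)) (cs (rf (nat_lit 59)) (cs (rf (nat_lit 4)) (cs (rf (nat_lit 60)) (rf (nat_lit 61)))))))))) (cs (nd (nat_lit 254) (nat_lit 0) (cs (rf (nat_lit 27)) (cs (rf (nat_lit 62)) (cs (nd (nat_lit 251) (nat_lit 0) (cs (rf (nat_lit 7)) (rf (nat_lit 63)))) (cs (rf (nat_lit 15)) (cs (rf (nat_lit 16)) (cs (rf (nat_lit 46)) (rf (nat_lit 64))))))))) (cs (rf (nat_lit 65)) (cs (rf (nat_lit 66)) (cs (nd (nat_lit 254) (nat_lit 0)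 (cs (rf (nat_lit 11)) (cs (rf (nat_lit 13)) (cs (rf (nat_lit 67)) (cs (rf (nat_lit 16)) (rf (nat_lit 47))))))) (nd (nat_lit 254) (nat_lit 0) (cs (rf (nat_lit 11)) (cs (rf (nat_lit 13)) (cs (rf (nat_lit 14)) (cs (rf (nat_lit 15)) (cs (nd (nat_lit 255) (nat_lit 0) (cs (rf (nat_lit 68)) (rf (nat_lit 69)))) (rf (nat_lit 52))))))))))))))))))))))))))))))) q115926 (by decide +kernel)
def q79004 : Q := Q.p (nat_lit 0x2000000000000000000000000000000000000000000000000000000000000000) (nat_lit 0x3c001ff001ffe807fffc1ffff8fffff3ffffdfffff3ffffcfffff1f9ffc7ffff0ffffc3ffff07fffc3ffff07fffc1fffc07ffe03fff0007fc001f80) (nat_lit 20)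
theorem c79004 : QOK q79004 := cut [q2388, q2751, q3023, q3118, q4374, q5625, q5681, q6171, q7402, q7602, q7698, q7799, q7833, q7893, q443, q501, q516, q641, q6170, q415, q416, q424, q429, q430, q280, q360, q4624, q39, q75, q286, q7894, q284, q4100, q7908, q35, q99, q8510, q183, q637, q287, q290, q332, q2456, q5683, q8827, q9346, q9694, q9711, q9838, q10147, q10392, q11341, q12645, q16041, q18156, q21906, q32038, q52516, q78652, q78837, q79003] ⟨c2388, c2751, c3023, c3118, c4374, c5625, c5681, c6171, c7402, c7602, c7698, c7799, c7833, c7893, c443, c501, c516, c641, c6170, c415, c416, c424, c429, c430, c280, c360, c4624, c39, c75, c286, c7894, c284, c4100, c7908, c35, c99, c8510, c183, c637, c287, c290, c332, c2456, c5683, c8827, c9346, c9694, c9711, c9838, c10147, c10392, c11341, c12645, c16041, c18156, c21906, c32038, c52516, c78652, c78837, c79003, trivial⟩ (nd (nat_lit 208) (nat_lit 0) (cs (rf (nat_lit 0)) (cs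 (rf (nat_lit 1)) (cs (rf (nat_lit 2)) (cs (rf (nat_lit 3)) (cs (rf (nat_lit 4)) (cs (rf (nat_lit 5)) (cs (rf (nat_lit 6)) (cs (rf (nat_lit 7)) (cs (rf (nat_lit 8)) (cs (rf (nat_lit 9)) (cs (rf (nat_lit 10)) (cs (rf (nat_lit 11)) (cs (rf (nat_lit 12)) (cs (rf (nat_lit 13)) (cs (nd (nat_lit 186) (nat_lit 0) (cs (rf (nat_lit 14)) (cs (rf (nat_lit 15)) (cs (rf (nat_lit 16)) (cs (rf (nat_lit 17)) (cs (rf (nat_lit 18)) (cs (nd (nat_lit 252) (nat_lit 0) (cs (rf (nat_lit 19)) (cs (rf (nat_lit 20)) (cs (rf (nat_lit 21)) (cs (rf (nat_lit 22)) (cs (rf (nat_lit 23)) (nd (nat_lit 209) (nat_lit 0) (cs (rf (nat_lit 24)) (cs (rf (nat_lit 25)) (cs (rf (nat_lit 26)) (cs (nd (nat_lit 210) (nat_lit 0) (cs (rf (nat_lit 27)) (cs (rf (nat_lit 28)) (cs (rf (nat_lit 29)) (rf (nat_lit 30)))))) (nd (nat_lit 231) (nat_lit 0) (cs (lf (nat_lit 42) (nat_lit 186)) (nd (nat_lit 210) (nat_lit 0) (cs (rf (nat_lit 28)) (cs (nd (nat_lit 207) (nat_lit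 0) (cs (rf (nat_lit 31)) (rf (nat_lit 32)))) (nd (nat_lit 187) (nat_lit 0) (cs (lf (nat_lit 41) (nat_lit 186)) (rf (nat_lit 33)))))))))))))))))))) (nd (nat_lit 209) (nat_lit 0) (cs (rf (nat_lit 34)) (cs (rf (nat_lit 26)) (nd (nat_lit 210) (nat_lit 0) (cs (rf (nat_lit 27)) (cs (rf (nat_lit 28)) (cs (rf (nat_lit 35)) (rf (nat_lit 30)))))))))))))))) (cs (rf (nat_lit 36)) (cs (nd (nat_lit 186) (nat_lit 0) (cs (rf (nat_lit 37)) (cs (rf (nat_lit 14)) (cs (rf (nat_lit 15)) (cs (rf (nat_lit 16)) (cs (rf (nat_lit 38)) (cs (rf (nat_lit 17)) (nd (nat_lit 252) (nat_lit 0) (cs (rf (nat_lit 19)) (cs (rf (nat_lit 20)) (cs (rf (nat_lit 21)) (cs (rf (nat_lit 22)) (cs (rf (nat_lit 23)) (nd (nat_lit 209) (nat_lit 0) (cs (rf (nat_lit 24)) (cs (rf (nat_lit 39)) (cs (rf (nat_lit 25)) (cs (rf (nat_lit 26)) (nd (nat_lit 207) (nat_lit 0) (cs (rf (nat_lit 40)) (cs (rf (nat_lit 41)) (cs (nd (nat_lit 210) (nat_lit 0) (cs (rf (nat_lit 31))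 (rf (nat_lit 42)))) (nd (nat_lit 231) (nat_lit 0) (cs (lf (nat_lit 42) (nat_lit 186)) (nd (nat_lit 206) (nat_lit 0) (cs (lf (nat_lit 5) (nat_lit 206)) (nd (nat_lit 228) (nat_lit 0) (cs (lf (nat_lit 11) (nat_lit 205)) (nd (nat_lit 183) (nat_lit 0) (cs (lf (nat_lit 22) (nat_lit 183)) (nd (nat_lit 182) (nat_lit 0) (cs (lf (nat_lit 21) (nat_lit 182)) (nd (nat_lit 210) (nat_lit 0) (cs (lf (nat_lit 10) (nat_lit 206)) (rf (nat_lit 43)))))))))))))))))))))))))))))))))))) (cs (rf (nat_lit 44)) (cs (rf (nat_lit 45)) (cs (rf (nat_lit 46)) (cs (rf (nat_lit 47)) (cs (rf (nat_lit 48)) (cs (rf (nat_lit 49)) (cs (rf (nat_lit 50)) (cs (rf (nat_lit 51)) (cs (rf (nat_lit 52)) (cs (rf (nat_lit 53)) (cs (rf (nat_lit 54)) (cs (rf (nat_lit 55)) (cs (rf (nat_lit 56)) (cs (rf (nat_lit 57)) (cs (rf (nat_lit 58)) (cs (rf (nat_lit 59)) (rf (nat_lit 60)))))))))))))))))))))))))))))))))))) q79004 (by decide +kernel)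

end Crest.Agent.H3.Snaky.CR
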